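import Mathlib
import Crest.Agent.R154.Ren_263

-- ▼ part R154/B2Det_719
section

/-!
Row 154, block B2 (E[B] < ∞), deterministic part (D): exposed times, trials and the counting lemma.
`X : ℕ → V` is the position path, `L` the height, `u` one lateral coordinate with a sign.
-/

set_option autoImplicit false

namespace Crest.Agent.R154.B2

open Finset

variable {V : Type*} [AddCommGroup V] (L : V →+ ℝ) (u : V →+ ℤ)

/-- the open cone of aperture `lam` around the height direction -/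
def Cone (lam : ℝ) : Set V := {z | 0 < L z ∧ |(u z : ℝ)| ≤ lam * L z}

/-- the cone truncated at height `H` (everything above `H` is allowed) -/
def UU (lam H : ℝ) : Set V := {z | 0 < L z ∧ (|(u z : ℝ)| ≤ lam * L z ∨ H < L z)}

/-- strict record time -/
def Rec (X : ℕ → V) (n : ℕ) : Prop := ∀ k < n, L (X k) < L (X n)

/-- `t` is in the phase `[a,b)` of the record interval started at `σ` -/
def Ph (a b : ℝ) (X : ℕ → V) (σ t : ℕ) : Prop :=
  Rec L X σ ∧ σ ≤ t ∧ (∀ m, σ < m → m ≤ t → ¬ Rec L X m) ∧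
    (∃ m, σ ≤ m ∧ m ≤ t ∧ a ≤ L (X σ) - L (X m)) ∧
    ∀ m, σ ≤ m → m ≤ t → L (X σ) - L (X m) < b

/-- exposed time -/
def Expo (lam : ℝ) (X : ℕ → V) (t : ℕ) : Prop :=
  ∀ k < t, X k ≠ X t ∧ X k - X t ∉ Cone L u lam

/-- lateral record relative to the start `r` -/
def LRec (X : ℕ → V) (r t : ℕ) : Prop := ∀ k, r ≤ k → k < t → u (X k) < u (X t)

/-- trial time of the phase -/
def Tr (a b lam : ℝ) (X : ℕ → V) (σ t : ℕ) : Prop :=
  Ph L a b X σ t ∧ Expo L u lam X t ∧ ∀ t', t' < t → Ph L a b X σ t' → Expo L u lam X t' →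
    ∃ m, t' < m ∧ m ≤ t ∧ X m - X t' ∉ Cone L u lam

variable {L u}

lemma cone_add {lam : ℝ} {z w : V} (hz : z ∈ Cone L u lam) (hw : w ∈ Cone L u lam) :
    z + w ∈ Cone L u lam := by
  refine ⟨?_, ?_⟩
  · rw [map_add]; exact add_pos hz.1 hw.1
  · rw [map_add, map_add, Int.cast_add, mul_add]
    exact (abs_add_le _ _).trans (add_le_add hz.2 hw.2)

lemma Rec.mono_le {X : ℕ → V} {σ : ℕ} (h : Rec L X σ) {k : ℕ} (hk : k ≤ σ) :
    L (X k) ≤ L (X σ) := by
  rcases hk.lt_or_eq with h1 | h1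
  · exact (h k h1).le
  · rw [h1]

/-- no record in `(σ,t]`: all heights up to `t` are at most the height at `σ` -/
lemma height_le_of_noRec {X : ℕ → V} {σ t : ℕ} (h : Rec L X σ)
    (hn : ∀ m, σ < m → m ≤ t → ¬ Rec L X m) : ∀ k, k ≤ t → L (X k) ≤ L (X σ) := by
  intro k
  induction k using Nat.strong_induction_on with
  | _ k ih =>
    intro hk
    rcases le_or_gt k σ with h1 | h1
    · exact h.mono_le h1
    · by_contra hcon
      push Not at hcon
      refine hn k h1 hk fun m hm => ?_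
      exact lt_of_le_of_lt (ih m hm (hm.le.trans hk)) hcon

lemma Ph.height_le {a b : ℝ} {X : ℕ → V} {σ t : ℕ} (h : Ph L a b X σ t) {k : ℕ} (hk : k ≤ t) :
    L (X k) ≤ L (X σ) := height_le_of_noRec h.1 h.2.2.1 k hk

lemma Ph.height_gt {a b : ℝ} {X : ℕ → V} {σ t : ℕ} (h : Ph L a b X σ t) :
    L (X σ) - L (X t) < b := h.2.2.2.2 t h.2.1 le_rfl

/-- phases are time intervals -/
lemma Ph.between {a b : ℝ} {X : ℕ → V} {σ t1 s t2 : ℕ} (h1 : Ph L a b X σ t1)
    (h2 : Ph L a b X σ t2) (hs1 : t1 ≤ s) (hs2 : s ≤ t2) : Ph L a b X σ s := by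
  obtain ⟨m, hm1, hm2, hm3⟩ := h1.2.2.2.1
  exact ⟨h1.1, h1.2.1.trans hs1, fun m hm hm' => h2.2.2.1 m hm (hm'.trans hs2),
    ⟨m, hm1, hm2.trans hs1, hm3⟩, fun m hm hm' => h2.2.2.2.2 m hm (hm'.trans hs2)⟩

/-- every exposed time is covered by a running trial -/
lemma cover {a b lam : ℝ} {X : ℕ → V} {σ : ℕ} : ∀ t, Ph L a b X σ t → Expo L u lam X t →
    ∃ t₀ ≤ t, Tr L u a b lam X σ t₀ ∧ ∀ m, t₀ < m → m ≤ t → X m - X t₀ ∈ Cone L u lam := by
  intro t
  induction t using Nat.strong_induction_on with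
  | _ t ih =>
    intro h1 h2
    by_cases hT : Tr L u a b lam X σ t
    · exact ⟨t, le_rfl, hT, fun m hm hm' => absurd hm (not_lt.2 hm')⟩
    · have : ∃ t', t' < t ∧ Ph L a b X σ t' ∧ Expo L u lam X t' ∧
          ∀ m, t' < m → m ≤ t → X m - X t' ∈ Cone L u lam := by
        by_contra hcon
        push Not at hcon
        exact hT ⟨h1, h2, fun t' ht' hp he => hcon t' ht' hp he⟩
      obtain ⟨t', ht', hp, he, hrun⟩ := this
      obtain ⟨t₀, ht₀, hTr, hrun₀⟩ := ih t' ht' hp he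
      refine ⟨t₀, ht₀.trans ht'.le, hTr, fun m hm hm' => ?_⟩
      rcases le_or_gt m t' with hmt | hmt
      · exact hrun₀ m hm hmt
      · rcases ht₀.lt_or_eq with h3 | h3
        · have := cone_add (hrun m hmt hm') (hrun₀ t' h3 le_rfl)
          simpa using this
        · rw [h3]; exact hrun m hmt hm'

/-- window lemma -/
lemma window {a b lam : ℝ} (hlam : 0 ≤ lam) {X : ℕ → V} {σ r t1 t2 : ℕ}
    (hr : Rec L X r) (hrσ : r ≤ σ) (hstay : ∀ k, r ≤ k → L (X r) ≤ L (X k))
    (hp1 : Ph L a b X σ t1) (hp2 : Ph L a b X σ t2) (h12 : t1 < t2)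
    (hl1 : LRec u X r t1) (hd : 2 * lam * b < (u (X t2) : ℝ) - u (X t1)) :
    ∃ t₀, t1 < t₀ ∧ t₀ ≤ t2 ∧ Tr L u a b lam X σ t₀ := by
  classical
  -- highest visited site in the cone above `X t2`
  let A : Finset ℕ := (Finset.range (t2 + 1)).filter
    (fun k => X k = X t2 ∨ X k - X t2 ∈ Cone L u lam)
  have hA : t2 ∈ A := by simp [A]
  obtain ⟨k0, hk0A, hk0⟩ := A.exists_max_image (fun k => L (X k)) ⟨t2, hA⟩
  have hk0' : k0 ≤ t2 ∧ (X k0 = X t2 ∨ X k0 - X t2 ∈ Cone L u lam) := by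
    simpa [A, Nat.lt_succ_iff] using hk0A
  -- first visit of that site
  have hex : ∃ k, X k = X k0 := ⟨k0, rfl⟩
  set s := Nat.find hex with hs
  have hs0 : X s = X k0 := Nat.find_spec hex
  have hsmin : ∀ k < s, X k ≠ X k0 := fun k hk => Nat.find_min hex hk
  have hsk0 : s ≤ k0 := Nat.find_min' hex rfl
  have hst2 : s ≤ t2 := hsk0.trans hk0'.1
  have hxw : X s = X t2 ∨ X s - X t2 ∈ Cone L u lam := by rw [hs0]; exact hk0'.2
  have hLge : L (X t2) ≤ L (X s) := by
    rcases hxw with h | h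
    · rw [h]
    · have := h.1; rw [map_sub] at this; linarith
  have htop : L (X s) ≤ L (X σ) := hp2.height_le hst2
  have hb2 : L (X σ) - L (X t2) < b := hp2.height_gt
  have hb0 : 0 < b := by
    have := hp2.height_le (le_refl t2); linarith
  have hdiff : L (X s) - L (X t2) < b := by linarith
  -- lateral position of the site
  have hus : (u (X t2) : ℝ) - u (X s) ≤ lam * b := by
    rcases hxw with h | h
    · rw [h]; simp; positivity
    · have h1 := h.2
      rw [map_sub, map_sub, Int.cast_sub] at h1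
      have h2 := neg_abs_le ((u (X s) : ℝ) - u (X t2))
      have h3 : lam * (L (X s) - L (X t2)) ≤ lam * b := by
        exact mul_le_mul_of_nonneg_left hdiff.le hlam
      linarith
  have hus1 : (u (X t1) : ℝ) + lam * b < u (X s) := by nlinarith
  have hlb : 0 ≤ lam * b := by positivity
  have hσt1 := hp1.2.1
  -- first visit after `t1`
  have hst1 : t1 < s := by
    by_contra hcon
    push Not at hcon
    rcases lt_or_ge s r with h | h
    · have h1 := hr s h
      have h2 := hstay t2 (hrσ.trans (hσt1.trans h12.le))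
      linarith
    · rcases hcon.lt_or_eq with h' | h'
      · have h1 : (u (X s) : ℝ) < u (X t1) := by exact_mod_cast hl1 s h h'
        linarith
      · rw [h'] at hus1; linarith
  have hps : Ph L a b X σ s := hp1.between hp2 hst1.le hst2
  -- exposed
  have hexp : Expo L u lam X s := by
    intro k hk
    refine ⟨fun h => hsmin k hk (h.trans hs0), fun hc => ?_⟩
    have hkA : k ∈ A := by
      simp only [A, Finset.mem_filter, Finset.mem_range]
      refine ⟨by omega, ?_⟩
      rcases hxw with h | h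
      · right; rw [← h]; exact hc
      · right
        have := cone_add hc h
        simpa using this
    have h1 := hk0 k hkA
    have h2 := hc.1
    rw [map_sub] at h2
    rw [hs0] at h2
    linarith
  obtain ⟨t₀, ht₀, hTr, hrun⟩ := cover s hps hexp
  refine ⟨t₀, ?_, ht₀.trans hst2, hTr⟩
  rcases ht₀.lt_or_eq with h | h
  · have hc := hrun s h le_rfl
    have h1 := hc.2
    rw [map_sub, map_sub, Int.cast_sub] at h1
    have h2 := le_abs_self ((u (X s) : ℝ) - u (X t₀))
    have h3 : L (X s) - L (X t₀) < b := by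
      have := hTr.1.height_gt; linarith
    have h4 : lam * (L (X s) - L (X t₀)) ≤ lam * b := mul_le_mul_of_nonneg_left h3.le hlam
    have h5 : (u (X t1) : ℝ) < u (X t₀) := by linarith
    by_contra hcon
    push Not at hcon
    rcases hcon.lt_or_eq with h' | h'
    · have h6 : (u (X t₀) : ℝ) < u (X t1) := by
        exact_mod_cast hl1 t₀ (hrσ.trans hTr.1.2.1) h'
      linarith
    · rw [h'] at h5; exact lt_irrefl _ h5
  · rw [h]; exact hst1

open Classical in
/-- **counting lemma (D)** -/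
lemma count {a b lam : ℝ} (hlam : 0 ≤ lam) {X : ℕ → V} {σ r : ℕ}
    (hr : Rec L X r) (hrσ : r ≤ σ) (hstay : ∀ k, r ≤ k → L (X r) ≤ L (X k))
    {l : ℕ} (hl : 2 * lam * b < l) (M : ℕ) :
    ((Finset.range M).filter (fun t => Ph L a b X σ t ∧ LRec u X r t)).card ≤
      l * (((Finset.range M).filter (fun t => Tr L u a b lam X σ t)).card + 1) := by
  set R := (Finset.range M).filter (fun t => Ph L a b X σ t ∧ LRec u X r t) with hR
  set T := (Finset.range M).filter (fun t => Tr L u a b lam X σ t) with hT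
  let f : ℕ → ℕ := fun t => (T.filter (fun t₀ => t₀ ≤ t)).card
  have hmaps : ∀ t ∈ R, f t ∈ Finset.range (T.card + 1) := by
    intro t _
    simp only [f, Finset.mem_range, Nat.lt_succ_iff]
    exact Finset.card_le_card (Finset.filter_subset _ _)
  have hfib : ∀ y ∈ Finset.range (T.card + 1), (R.filter (fun t => f t = y)).card ≤ l := by
    intro y _
    by_contra hcon
    push Not at hcon
    set Fb := R.filter (fun t => f t = y) with hFb
    have hne : Fb.Nonempty := Finset.card_pos.1 (by omega)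
    set t1 := Fb.min' hne
    set t2 := Fb.max' hne
    have ht1 : t1 ∈ Fb := Finset.min'_mem _ _
    have ht2 : t2 ∈ Fb := Finset.max'_mem _ _
    have h1 := (Finset.mem_filter.1 ht1)
    have h2 := (Finset.mem_filter.1 ht2)
    have h1R := (Finset.mem_filter.1 h1.1).2
    have h2R := (Finset.mem_filter.1 h2.1).2
    have h2M := Finset.mem_range.1 (Finset.mem_filter.1 h2.1).1
    have hinj : (Fb.card : ℤ) ≤ u (X t2) - u (X t1) + 1 := by
      have him : (Fb.image fun t => u (X t)) ⊆ Finset.Icc (u (X t1)) (u (X t2)) := by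
        intro z hz
        obtain ⟨t, ht, rfl⟩ := Finset.mem_image.1 hz
        have htR := (Finset.mem_filter.1 (Finset.mem_filter.1 ht).1).2
        have hge : t1 ≤ t := Finset.min'_le _ _ ht
        have hle : t ≤ t2 := Finset.le_max' _ _ ht
        have hrt1 : r ≤ t1 := hrσ.trans h1R.1.2.1
        rw [Finset.mem_Icc]
        constructor
        · rcases hge.lt_or_eq with h | h
          · exact (htR.2 t1 hrt1 h).le
          · rw [h]
        · rcases hle.lt_or_eq with h | h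
          · exact (h2R.2 t (hrt1.trans hge) h).le
          · rw [h]
      have hinj' : Set.InjOn (fun t => u (X t)) (Fb : Set ℕ) := by
        intro x hx y' hy' hxy
        have hxR := (Finset.mem_filter.1 (Finset.mem_filter.1 (Finset.mem_coe.1 hx)).1).2
        have hyR := (Finset.mem_filter.1 (Finset.mem_filter.1 (Finset.mem_coe.1 hy')).1).2
        simp only at hxy
        rcases lt_trichotomy x y' with h | h | h
        · exact absurd hxy (ne_of_lt (hyR.2 x (hrσ.trans hxR.1.2.1) h))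
        · exact h
        · exact absurd hxy.symm (ne_of_lt (hxR.2 y' (hrσ.trans hyR.1.2.1) h))
      have h3 := Finset.card_le_card him
      rw [Finset.card_image_of_injOn hinj', Int.card_Icc] at h3
      have h4 : u (X t1) ≤ u (X t2) := by
        have hle : t1 ≤ t2 := Finset.min'_le _ _ ht2
        rcases hle.lt_or_eq with h | h
        · exact (h2R.2 t1 (hrσ.trans h1R.1.2.1) h).le
        · rw [h]
      omega
    have hcast : (l : ℝ) ≤ (u (X t2) : ℝ) - u (X t1) := by
      have h5 : (l : ℤ) ≤ u (X t2) - u (X t1) := by omega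
      exact_mod_cast h5
    have hb0 : 0 < b := by
      have e1 := h1R.1.height_gt
      have e2 := h1R.1.height_le (le_refl t1)
      linarith
    have h12 : t1 < t2 := by
      by_contra h
      push Not at h
      have h6 : t1 = t2 := le_antisymm (Finset.min'_le _ _ ht2) h
      rw [h6] at hcast
      have : (0:ℝ) ≤ 2 * lam * b := by positivity
      simp at hcast
      have h7 : (l : ℝ) = 0 := by rw [hcast]; simp
      linarith
    obtain ⟨t₀, ht₀1, ht₀2, hTr⟩ := window hlam hr hrσ hstay h1R.1 h2R.1 h12 h1R.2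
      (lt_of_lt_of_le hl hcast)
    have hT0 : t₀ ∈ T := Finset.mem_filter.2 ⟨Finset.mem_range.2 (by omega), hTr⟩
    have hlt : f t1 < f t2 := by
      refine Finset.card_lt_card ?_
      rw [Finset.ssubset_iff_of_subset]
      · exact ⟨t₀, Finset.mem_filter.2 ⟨hT0, ht₀2⟩, fun h => by
          have := (Finset.mem_filter.1 h).2; omega⟩
      · intro x hx
        rw [Finset.mem_filter] at hx ⊢
        exact ⟨hx.1, hx.2.trans h12.le⟩
    rw [h1.2, h2.2] at hlt
    exact lt_irrefl _ hlt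
  have := Finset.card_le_mul_card_image_of_maps_to hmaps l hfib
  simpa [Finset.card_range] using this

end Crest.Agent.R154.B2
end

-- ▼ part R154/B2Main_719
section

/-!
Row 154, block B2 (E[B] < ∞), the main inequality (MAIN): the mean number of lateral records made in
a depth phase during one block is bounded by (trial constant) * P(the block is tall).
-/

set_option autoImplicit false
set_option linter.unusedSectionVars false

namespace Crest.Agent.R154.B2

open MeasureTheory Set Filter Crest.Agent.R154.Ren263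
open scoped ENNReal Topology

/-! ### indicators of propositions -/

open Classical in
/-- indicator of a proposition with values in `ℝ≥0∞` -/
noncomputable def ind (p : Prop) : ℝ≥0∞ := if p then 1 else 0

lemma ind_of {p : Prop} (h : p) : ind p = 1 := by simp [ind, h]
lemma ind_not {p : Prop} (h : ¬ p) : ind p = 0 := by simp [ind, h]
lemma ind_le_one (p : Prop) : ind p ≤ 1 := by by_cases h : p <;> simp [ind, h]
lemma ind_mono {p q : Prop} (h : p → q) : ind p ≤ ind q := by
  by_cases hp : p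
  · rw [ind_of hp, ind_of (h hp)]
  · rw [ind_not hp]; exact bot_le

lemma ind_and {p q : Prop} : ind (p ∧ q) = ind p * ind q := by
  by_cases hp : p <;> by_cases hq : q <;> simp [ind, hp, hq]

lemma tsum_ind_le_one {α : Type*} (p : α → Prop) (h : ∀ x y, p x → p y → x = y) :
    ∑' x, ind (p x) ≤ 1 := by
  by_cases hx : ∃ x, p x
  · obtain ⟨x, hx⟩ := hx
    rw [tsum_eq_single x fun y hy => ind_not fun hp => hy (h y x hp hx)]
    exact ind_le_one _
  · have : ∀ x, ind (p x) = 0 := fun x => ind_not fun hp => hx ⟨x, hp⟩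
    simp [this]

lemma tsum_ind_le_of_rel {α β : Type*} (p : α → Prop) (q : β → Prop) (W : α → β → Prop)
    (h1 : ∀ x, p x → ∃ y, q y ∧ W x y) (h2 : ∀ x x' y, W x y → W x' y → x = x') :
    ∑' x, ind (p x) ≤ ∑' y, ind (q y) := by
  calc ∑' x, ind (p x) ≤ ∑' x, ∑' y, ind (q y ∧ W x y) := by
        refine ENNReal.tsum_le_tsum fun x => ?_
        by_cases hp : p x
        · obtain ⟨y, hy⟩ := h1 x hp
          exact (ind_mono fun _ => hy).trans (ENNReal.le_tsum y)
        · rw [ind_not hp]; exact bot_le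
    _ = ∑' y, ∑' x, ind (q y ∧ W x y) := ENNReal.tsum_comm
    _ = ∑' y, ind (q y) * ∑' x, ind (W x y) := by
        refine tsum_congr fun y => ?_
        rw [← ENNReal.tsum_mul_left]
        exact tsum_congr fun x => ind_and
    _ ≤ ∑' y, ind (q y) := by
        refine ENNReal.tsum_le_tsum fun y => ?_
        calc ind (q y) * ∑' x, ind (W x y) ≤ ind (q y) * 1 := by
              gcongr
              exact tsum_ind_le_one _ fun x x' hx hx' => h2 x x' y hx hx'
          _ = ind (q y) := mul_one _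

lemma sum_ind_eq_card {α : Type*} (A : Finset α) (p : α → Prop) [DecidablePred p] :
    ∑ x ∈ A, ind (p x) = ((A.filter p).card : ℝ≥0∞) := by
  rw [Finset.card_filter]
  push_cast
  refine Finset.sum_congr rfl fun x _ => ?_
  by_cases h : p x <;> simp [ind, h]


/-! ### the counting lemma as a sum -/

section det
variable {V : Type*} [AddCommGroup V] {L : V →+ ℝ} {u : V →+ ℤ}

open Classical in
lemma count_tsum {a b lam : ℝ} (hlam : 0 ≤ lam) {X : ℕ → V} {σ r : ℕ}
    (hr : Rec L X r) (hrσ : r ≤ σ) (hstay : ∀ k, r ≤ k → L (X r) ≤ L (X k))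
    {l : ℕ} (hl : 2 * lam * b < l) :
    ∑' t, ind (Ph L a b X σ t ∧ LRec u X r t) ≤
      l * (ind (∃ t, Ph L a b X σ t) + ∑' t, ind (Tr L u a b lam X σ t)) := by
  by_cases hex : ∃ t, Ph L a b X σ t
  · rw [ind_of hex]
    refine ENNReal.tsum_le_of_sum_range_le fun M => ?_
    have h1 := count (u := u) hlam hr hrσ hstay (a := a) hl M
    rw [sum_ind_eq_card]
    calc (((Finset.range M).filter (fun t => Ph L a b X σ t ∧ LRec u X r t)).card : ℝ≥0∞)
        ≤ ((l * (((Finset.range M).filter (fun t => Tr L u a b lam X σ t)).card + 1) : ℕ) : ℝ≥0∞) := by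
          exact_mod_cast h1
      _ = l * (1 + ∑ t ∈ Finset.range M, ind (Tr L u a b lam X σ t)) := by
          rw [sum_ind_eq_card]; push_cast; ring
      _ ≤ _ := by
          gcongr
          exact ENNReal.sum_le_tsum _
  · have : ∀ t, ind (Ph L a b X σ t ∧ LRec u X r t) = 0 :=
      fun t => ind_not fun h => hex ⟨t, h.1⟩
    simp [this]

end det

/-! ### letters and positions -/

variable {S : Type*} {V : Type*} [AddCommGroup V]

/-- position after `n` letters -/
def pos (val : S → V) (s : ℕ → S) (n : ℕ) : V := ∑ i ∈ Finset.range n, val (s i)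

/-- height of a letter -/
def hL (L : V →+ ℝ) (val : S → V) (a : S) : ℝ := L (val a)

lemma hgt_hL (L : V →+ ℝ) (val : S → V) (s : ℕ → S) (n : ℕ) :
    hgt (hL L val) s n = L (pos val s n) := by
  simp [hgt, hL, pos, map_sum]

lemma pos_shift (val : S → V) (s : ℕ → S) (n k : ℕ) :
    pos val (shift n s) k = pos val s (n + k) - pos val s n := by
  unfold pos shift
  rw [Finset.sum_range_add]
  abel

lemma pos_congr (val : S → V) {s s' : ℕ → S} {n : ℕ} (H : ∀ i < n, s i = s' i) {k : ℕ}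
    (hk : k ≤ n) : pos val s k = pos val s' k := by
  unfold pos
  refine Finset.sum_congr rfl fun i hi => ?_
  rw [H i (lt_of_lt_of_le (Finset.mem_range.1 hi) hk)]

lemma record_iff (L : V →+ ℝ) (val : S → V) (s : ℕ → S) (n : ℕ) :
    Record (hL L val) s n ↔ Rec L (pos val s) n := by
  unfold Record Rec
  simp_rw [hgt_hL]

lemma stay_iff (L : V →+ ℝ) (val : S → V) (s : ℕ → S) :
    s ∈ Stay (hL L val) ↔ ∀ n, 0 ≤ L (pos val s n) := by
  simp only [Stay, mem_ofPred_eq, hgt_hL]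

section shiftlemmas
variable {L : V →+ ℝ} {u : V →+ ℤ} {val : S → V}

lemma rec_shift {s : ℕ → S} {r m : ℕ} (hr : Rec L (pos val s) r)
    (hst : ∀ k, r ≤ k → L (pos val s r) ≤ L (pos val s k)) (hm : 0 < m) :
    Rec L (pos val (shift r s)) m ↔ Rec L (pos val s) (r + m) := by
  constructor
  · intro h k hk
    rcases lt_or_ge k r with hkr | hkr
    · have h0 := h 0 hm
      rw [pos_shift, pos_shift, map_sub, map_sub, add_zero] at h0
      have h1 := hr k hkr
      linarith
    · obtain ⟨j, rfl⟩ := Nat.exists_eq_add_of_le hkr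
      have h0 := h j (by omega)
      rw [pos_shift, pos_shift, map_sub, map_sub] at h0
      linarith
  · intro h k hk
    rw [pos_shift, pos_shift, map_sub, map_sub]
    have := h (r + k) (by omega)
    linarith

lemma rec_shift' {s : ℕ → S} {r m : ℕ} (hr : Rec L (pos val s) r)
    (hst : ∀ k, r ≤ k → L (pos val s r) ≤ L (pos val s k)) :
    Rec L (pos val (shift r s)) m ↔ Rec L (pos val s) (r + m) := by
  rcases Nat.eq_zero_or_pos m with rfl | hm
  · simp only [add_zero]
    exact ⟨fun _ => hr, fun _ k hk => absurd hk (Nat.not_lt_zero k)⟩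
  · exact rec_shift hr hst hm

lemma ph_shift {a b : ℝ} {s : ℕ → S} {r σ t : ℕ} (hr : Rec L (pos val s) r)
    (hst : ∀ k, r ≤ k → L (pos val s r) ≤ L (pos val s k)) :
    Ph L a b (pos val (shift r s)) σ t ↔ Ph L a b (pos val s) (r + σ) (r + t) := by
  unfold Ph
  have e1 : Rec L (pos val (shift r s)) σ ↔ Rec L (pos val s) (r + σ) := rec_shift' hr hst
  have e2 : σ ≤ t ↔ r + σ ≤ r + t := by omega
  have e3 : (∀ m, σ < m → m ≤ t → ¬ Rec L (pos val (shift r s)) m) ↔
      (∀ m, r + σ < m → m ≤ r + t → ¬ Rec L (pos val s) m) := by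
    constructor
    · intro h m hm1 hm2
      obtain ⟨j, rfl⟩ := Nat.exists_eq_add_of_le (show r ≤ m by omega)
      rw [← rec_shift' hr hst]
      exact h j (by omega) (by omega)
    · intro h m hm1 hm2
      rw [rec_shift' hr hst]
      exact h (r + m) (by omega) (by omega)
  have e4 : (∃ m, σ ≤ m ∧ m ≤ t ∧
        a ≤ L (pos val (shift r s) σ) - L (pos val (shift r s) m)) ↔
      (∃ m, r + σ ≤ m ∧ m ≤ r + t ∧ a ≤ L (pos val s (r + σ)) - L (pos val s m)) := by
    constructor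
    · rintro ⟨m, h1, h2, h3⟩
      refine ⟨r + m, by omega, by omega, ?_⟩
      rw [pos_shift, pos_shift, map_sub, map_sub] at h3
      linarith
    · rintro ⟨m, h1, h2, h3⟩
      obtain ⟨j, rfl⟩ := Nat.exists_eq_add_of_le (show r ≤ m by omega)
      refine ⟨j, by omega, by omega, ?_⟩
      rw [pos_shift, pos_shift, map_sub, map_sub]
      linarith
  have e5 : (∀ m, σ ≤ m → m ≤ t →
        L (pos val (shift r s) σ) - L (pos val (shift r s) m) < b) ↔
      (∀ m, r + σ ≤ m → m ≤ r + t → L (pos val s (r + σ)) - L (pos val s m) < b) := by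
    constructor
    · intro h m h1 h2
      obtain ⟨j, rfl⟩ := Nat.exists_eq_add_of_le (show r ≤ m by omega)
      have := h j (by omega) (by omega)
      rw [pos_shift, pos_shift, map_sub, map_sub] at this
      linarith
    · intro h m h1 h2
      rw [pos_shift, pos_shift, map_sub, map_sub]
      have := h (r + m) (by omega) (by omega)
      linarith
  rw [e1, e2, e3, e4, e5]

lemma lrec_shift {s : ℕ → S} {r t : ℕ} :
    LRec u (pos val (shift r s)) 0 t ↔ LRec u (pos val s) r (r + t) := by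
  unfold LRec
  constructor
  · intro h k h1 h2
    obtain ⟨j, rfl⟩ := Nat.exists_eq_add_of_le h1
    have := h j (Nat.zero_le _) (by omega)
    rw [pos_shift, pos_shift, map_sub, map_sub] at this
    linarith
  · intro h k _ h2
    rw [pos_shift, pos_shift, map_sub, map_sub]
    have := h (r + k) (by omega) (by omega)
    linarith

end shiftlemmas

/-! ### determination by finitely many letters -/

section det2
variable {L : V →+ ℝ} {u : V →+ ℤ} {val : S → V}

lemma rec_congr {X Y : ℕ → V} {n : ℕ} (h : ∀ k ≤ n, X k = Y k) {m : ℕ} (hm : m ≤ n) :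
    Rec L X m ↔ Rec L Y m := by
  unfold Rec
  rw [h m hm]
  exact forall_congr' fun k => forall_congr' fun hk => by rw [h k (hk.le.trans hm)]

lemma ph_congr {a b : ℝ} {X Y : ℕ → V} {n : ℕ} (h : ∀ k ≤ n, X k = Y k) {σ t : ℕ} (ht : t ≤ n) :
    Ph L a b X σ t ↔ Ph L a b Y σ t := by
  have key : ∀ X Y : ℕ → V, (∀ k ≤ n, X k = Y k) → Ph L a b X σ t → Ph L a b Y σ t := by
    rintro X Y h ⟨h1, h2, h3, ⟨m, hm1, hm2, hm3⟩, h5⟩
    refine ⟨(rec_congr h (h2.trans ht)).1 h1, h2, fun m hm hm' => ?_, ⟨m, hm1, hm2, ?_⟩,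
      fun m hm hm' => ?_⟩
    · rw [← rec_congr h (hm'.trans ht)]; exact h3 m hm hm'
    · rw [← h σ (h2.trans ht), ← h m (hm2.trans ht)]; exact hm3
    · rw [← h σ (h2.trans ht), ← h m (hm'.trans ht)]; exact h5 m hm hm'
  exact ⟨key X Y h, key Y X fun k hk => (h k hk).symm⟩

lemma expo_congr {lam : ℝ} {X Y : ℕ → V} {n : ℕ} (h : ∀ k ≤ n, X k = Y k) {t : ℕ} (ht : t ≤ n) :
    Expo L u lam X t ↔ Expo L u lam Y t := by
  unfold Expo
  refine forall_congr' fun k => forall_congr' fun hk => ?_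
  rw [h t ht, h k (hk.le.trans ht)]

lemma lrec_congr {X Y : ℕ → V} {n : ℕ} (h : ∀ k ≤ n, X k = Y k) {r t : ℕ} (ht : t ≤ n) :
    LRec u X r t ↔ LRec u Y r t := by
  unfold LRec
  refine forall_congr' fun k => forall_congr' fun _ => forall_congr' fun hk => ?_
  rw [h t ht, h k (hk.le.trans ht)]

lemma tr_congr {a b lam : ℝ} {X Y : ℕ → V} {n : ℕ} (h : ∀ k ≤ n, X k = Y k) {σ t : ℕ}
    (ht : t ≤ n) : Tr L u a b lam X σ t ↔ Tr L u a b lam Y σ t := by
  have key : ∀ X Y : ℕ → V, (∀ k ≤ n, X k = Y k) → Tr L u a b lam X σ t →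
      Tr L u a b lam Y σ t := by
    rintro X Y h ⟨h1, h2, h3⟩
    refine ⟨(ph_congr h ht).1 h1, (expo_congr h ht).1 h2, fun t' ht' hp he => ?_⟩
    obtain ⟨m, hm1, hm2, hm3⟩ := h3 t' ht' ((ph_congr h (ht'.le.trans ht)).2 hp)
      ((expo_congr h (ht'.le.trans ht)).2 he)
    refine ⟨m, hm1, hm2, ?_⟩
    rw [← h m (hm2.trans ht), ← h t' (ht'.le.trans ht)]
    exact hm3
  exact ⟨key X Y h, key Y X fun k hk => (h k hk).symm⟩

lemma det_of_pos {n : ℕ} {p : (ℕ → V) → Prop}
    (hp : ∀ X Y : ℕ → V, (∀ k ≤ n, X k = Y k) → (p X ↔ p Y)) :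
    Det n {s : ℕ → S | p (pos val s)} := by
  intro s s' H
  exact hp _ _ fun k hk => pos_congr val H hk

end det2

end Crest.Agent.R154.B2
end

-- ▼ part R154/B2Prob_719
section

/-!
Row 154, block B2, probability part: trials (M1), frequency lemma (M2), factorisation over block
starts (M3, M4) and the main inequality (MAIN).
-/

set_option autoImplicit false
set_option linter.unusedSectionVars false
set_option linter.unusedVariables false

namespace Crest.Agent.R154.B2

open MeasureTheory Set Filter Crest.Agent.R154.Ren263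
open scoped ENNReal Topology

variable {S : Type*} {V : Type*} [AddCommGroup V]
variable [Countable S] [MeasurableSpace S] [MeasurableSingletonClass S]

/-- An abstract regeneration structure (`G = 0`: all regeneration times; `G > 0`: regenerations with
`G` forced steps). -/
structure RegSys (L : V →+ ℝ) (val : S → V) (P : Measure (ℕ → S)) where
  G : ℕ
  pG : ℝ≥0∞
  R : (ℕ → S) → ℕ → Prop
  GC : ℕ → Set (ℕ → S)
  Fo : Set (ℕ → S)
  R_zero : ∀ s ∈ Stay (hL L val), R s 0
  R_reg : ∀ s ∈ Stay (hL L val), ∀ r, R s r → Reg (hL L val) s r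
  GC_det : ∀ r, Det r (GC r)
  GC_iff : ∀ s r, (s ∈ GC r ∧ shift r s ∈ Stay (hL L val)) ↔ (s ∈ Stay (hL L val) ∧ R s r)
  ren : ∀ (r : ℕ) (A B : Set (ℕ → S)), Det r A → A ⊆ GC r → MeasurableSet B →
    B ⊆ Stay (hL L val) → P (A ∩ shift r ⁻¹' B) = P A * P B
  R_shift : ∀ s ∈ Stay (hL L val), ∀ r, R s r → ∀ r', (R s (r + r') ↔ R (shift r s) r')
  Fo_meas : MeasurableSet Fo
  Fo_ge : ∀ (n : ℕ) (A : Set (ℕ → S)), Det n A → (∀ s ∈ A, Record (hL L val) s n) →
    pG * P A ≤ P (A ∩ shift n ⁻¹' Fo)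
  pG_ne : pG ≠ 0
  Fo_stay : Fo ⊆ Stay (hL L val)
  Fo_reg : ∀ s ∈ Stay (hL L val), ∀ n, Record (hL L val) s n → shift n s ∈ Fo →
    ∃ r, n ≤ r ∧ r ≤ n + G ∧ R s r
  top : ∀ᵐ s ∂P, s ∈ Stay (hL L val) → ∀ M : ℝ, ∃ n, M ≤ hgt (hL L val) s n
  inf : ∀ᵐ s ∂P, s ∈ Stay (hL L val) → ∀ N, ∃ r, N ≤ r ∧ R s r
  p_ne : P (Stay (hL L val)) ≠ 0

/-- Fresh cone property with a success event. -/
structure FreshC (L : V →+ ℝ) (u : V →+ ℤ) (val : S → V) (P : Measure (ℕ → S)) (lam H : ℝ) where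
  c : ℝ≥0∞
  Sc : Set (ℕ → S)
  c_ne : c ≠ 0
  Sc_meas : MeasurableSet Sc
  Sc_U : ∀ s ∈ Sc, ∀ k, 1 ≤ k → pos val s k ∈ UU L u lam H
  Sc_ge : ∀ (n : ℕ) (A : Set (ℕ → S)), Det n A →
    (∀ s ∈ A, ∀ k < n, pos val s k ≠ pos val s n ∧ pos val s k - pos val s n ∉ UU L u lam H) →
    c * P A ≤ P (A ∩ shift n ⁻¹' Sc)

variable {L : V →+ ℝ} {u : V →+ ℤ} {val : S → V} {P : Measure (ℕ → S)} [IsProbabilityMeasure P]

lemma le_inv_mul {c x y : ℝ≥0∞} (hc : c ≠ 0) (hc1 : c ≤ 1) (h : c * x ≤ y) : x ≤ c⁻¹ * y := by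
  have hct : c ≠ ∞ := ne_top_of_le_ne_top ENNReal.one_ne_top hc1
  calc x = c⁻¹ * (c * x) := by
        rw [← mul_assoc, ENNReal.inv_mul_cancel hc hct, one_mul]
    _ ≤ c⁻¹ * y := by gcongr

lemma FreshC.c_le {lam H : ℝ} (F : FreshC L u val P lam H) : F.c ≤ 1 := by
  have := F.Sc_ge 0 Set.univ (Det.univ 0) (fun s _ k hk => absurd hk (Nat.not_lt_zero k))
  rw [measure_univ, mul_one] at this
  exact this.trans prob_le_one

lemma RegSys.pG_le (R : RegSys L val P) : R.pG ≤ 1 := by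
  have := R.Fo_ge 0 Set.univ (Det.univ 0) (fun s _ k hk => absurd hk (Nat.not_lt_zero k))
  rw [measure_univ, mul_one] at this
  exact this.trans prob_le_one

/-- nonnegative heights up to `n` -/
def St (L : V →+ ℝ) (val : S → V) (n : ℕ) : Set (ℕ → S) := {s | ∀ k ≤ n, 0 ≤ L (pos val s k)}

lemma det_St (n : ℕ) : Det n (St L val n) := by
  refine det_of_pos (p := fun X => ∀ k ≤ n, 0 ≤ L (X k)) fun X Y h => ?_
  exact forall_congr' fun k => forall_congr' fun hk => by rw [h k hk]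

lemma stay_sub_St (n : ℕ) : Stay (hL L val) ⊆ St L val n := fun s hs k _ =>
  (stay_iff L val s).1 hs k


/-! ### (M1) trials -/

lemma det_Tr {a b lam : ℝ} {σ t : ℕ} :
    Det t {s : ℕ → S | Tr L u a b lam (pos val s) σ t} :=
  det_of_pos (p := fun X => Tr L u a b lam X σ t) fun _ _ h => tr_congr h le_rfl

lemma det_Ph {a b : ℝ} {σ t : ℕ} : Det t {s : ℕ → S | Ph L a b (pos val s) σ t} :=
  det_of_pos (p := fun X => Ph L a b X σ t) fun _ _ h => ph_congr h le_rfl

lemma det_LRec {r t : ℕ} : Det t {s : ℕ → S | LRec u (pos val s) r t} :=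
  det_of_pos (p := fun X => LRec u X r t) fun _ _ h => lrec_congr h le_rfl

theorem trial_sum {a b lam H : ℝ} (hbH : b ≤ H) (F : FreshC L u val P lam H) (σ : ℕ) :
    ∑' t, P (Stay (hL L val) ∩ {s | Tr L u a b lam (pos val s) σ t}) ≤
      F.c⁻¹ * P (Stay (hL L val) ∩ {s | ∃ t, Ph L a b (pos val s) σ t}) := by
  set A : ℕ → Set (ℕ → S) := fun t => St L val t ∩ {s | Tr L u a b lam (pos val s) σ t} with hA
  have hAdet : ∀ t, Det t (A t) := fun t => (det_St t).inter det_Tr
  have h1 : ∀ t, P (Stay (hL L val) ∩ {s | Tr L u a b lam (pos val s) σ t}) ≤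
      F.c⁻¹ * P (A t ∩ shift t ⁻¹' F.Sc) := by
    intro t
    refine (measure_mono (inter_subset_inter_left _ (stay_sub_St t))).trans ?_
    refine le_inv_mul F.c_ne F.c_le (F.Sc_ge t (A t) (hAdet t) ?_)
    rintro s ⟨_, hs⟩ k hk
    have hp := hs.1
    have he := hs.2.1 k hk
    refine ⟨he.1, fun hU => he.2 ?_⟩
    rcases hU.2 with h | h
    · exact ⟨hU.1, h⟩
    · exfalso
      rw [map_sub] at h
      have e1 := hp.height_le hk.le
      have e2 := hp.height_gt
      linarith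
  have hdisj : Pairwise (Function.onFun Disjoint fun t => A t ∩ shift t ⁻¹' F.Sc) := by
    have key : ∀ t t', t < t' → Disjoint (A t ∩ shift t ⁻¹' F.Sc) (A t' ∩ shift t' ⁻¹' F.Sc) := by
      intro t t' htt
      rw [Set.disjoint_left]
      rintro s ⟨⟨_, h1⟩, h2⟩ ⟨⟨_, h3⟩, _⟩
      obtain ⟨m, hm1, hm2, hm3⟩ := h3.2.2 t htt h1.1 h1.2.1
      apply hm3
      have hU := F.Sc_U _ h2 (m - t) (by omega)
      rw [pos_shift, Nat.add_sub_cancel' hm1.le] at hU
      refine ⟨hU.1, ?_⟩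
      rcases hU.2 with h | h
      · exact h
      · exfalso
        rw [map_sub] at h
        have e1 := h3.1.height_le hm2
        have e2 := h1.1.height_gt
        linarith
    intro t t' hne
    rcases lt_or_gt_of_ne hne with h | h
    · exact key t t' h
    · exact (key t' t h).symm
  have hmeas : ∀ t, MeasurableSet (A t ∩ shift t ⁻¹' F.Sc) := fun t =>
    (hAdet t).measurableSet.inter (measurable_shift t F.Sc_meas)
  calc ∑' t, P (Stay (hL L val) ∩ {s | Tr L u a b lam (pos val s) σ t})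
      ≤ ∑' t, F.c⁻¹ * P (A t ∩ shift t ⁻¹' F.Sc) := ENNReal.tsum_le_tsum h1
    _ = F.c⁻¹ * P (⋃ t, (A t ∩ shift t ⁻¹' F.Sc)) := by
        rw [ENNReal.tsum_mul_left, measure_iUnion hdisj hmeas]
    _ ≤ _ := by
        gcongr
        refine iUnion_subset fun t => ?_
        rintro s ⟨⟨h1, h2⟩, h3⟩
        refine ⟨(stay_iff L val s).2 fun n => ?_, ⟨t, h2.1⟩⟩
        rcases le_or_gt n t with hn | hn
        · exact h1 n hn
        · have hU := (F.Sc_U _ h3 (n - t) (by omega)).1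
          rw [pos_shift, Nat.add_sub_cancel' hn.le, map_sub] at hU
          have := h1 t le_rfl
          linarith

/-! ### (M2) frequency lemma -/

/-- depth at least `k` during the record interval started at `σ` -/
def Dp (L : V →+ ℝ) (val : S → V) (k : ℝ) (σ : ℕ) : Set (ℕ → S) :=
  {s | Rec L (pos val s) σ ∧ ∃ t, σ ≤ t ∧ (∀ m, σ < m → m ≤ t → ¬ Rec L (pos val s) m) ∧
    k ≤ L (pos val s σ) - L (pos val s t)}

/-- the same with the next record `σ'` -/
def Ev (L : V →+ ℝ) (val : S → V) (k : ℝ) (σ σ' : ℕ) : Set (ℕ → S) :=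
  {s | Rec L (pos val s) σ ∧ σ < σ' ∧ Rec L (pos val s) σ' ∧
    (∀ m, σ < m → m < σ' → ¬ Rec L (pos val s) m) ∧
    ∃ m, σ ≤ m ∧ m < σ' ∧ k ≤ L (pos val s σ) - L (pos val s m)}

lemma det_Ev (k : ℝ) (σ σ' : ℕ) : Det σ' (Ev L val k σ σ') := by
  have key : ∀ X Y : ℕ → V, (∀ j ≤ σ', X j = Y j) →
      (Rec L X σ ∧ σ < σ' ∧ Rec L X σ' ∧ (∀ m, σ < m → m < σ' → ¬ Rec L X m) ∧
        ∃ m, σ ≤ m ∧ m < σ' ∧ k ≤ L (X σ) - L (X m)) →
      (Rec L Y σ ∧ σ < σ' ∧ Rec L Y σ' ∧ (∀ m, σ < m → m < σ' → ¬ Rec L Y m) ∧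
        ∃ m, σ ≤ m ∧ m < σ' ∧ k ≤ L (Y σ) - L (Y m)) := by
    rintro X Y h ⟨h1, h2, h3, h4, m, h5, h6, h7⟩
    refine ⟨(rec_congr h h2.le).1 h1, h2, (rec_congr h le_rfl).1 h3, fun m hm hm' => ?_,
      m, h5, h6, ?_⟩
    · rw [← rec_congr h hm'.le]; exact h4 m hm hm'
    · rw [← h σ h2.le, ← h m h6.le]; exact h7
  exact det_of_pos (p := fun X => Rec L X σ ∧ σ < σ' ∧ Rec L X σ' ∧
    (∀ m, σ < m → m < σ' → ¬ Rec L X m) ∧ ∃ m, σ ≤ m ∧ m < σ' ∧ k ≤ L (X σ) - L (X m))
    fun X Y h => ⟨key X Y h, key Y X fun j hj => (h j hj).symm⟩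

/-- the block started at `0` has height at least `k` -/
def RegSys.Big (R : RegSys L val P) (k : ℝ) : Set (ℕ → S) :=
  {s | s ∈ Stay (hL L val) ∧ ∃ r, 1 ≤ r ∧ R.R s r ∧ (∀ r', 1 ≤ r' → r' < r → ¬ R.R s r') ∧
    k ≤ L (pos val s r)}

/-- `Stay ∩ {R s r}` -/
def RegSys.RS (R : RegSys L val P) (r : ℕ) : Set (ℕ → S) := {s | s ∈ Stay (hL L val) ∧ R.R s r}

lemma RegSys.RS_eq (R : RegSys L val P) (r : ℕ) :
    R.RS r = R.GC r ∩ shift r ⁻¹' Stay (hL L val) := by
  ext s; exact (R.GC_iff s r).symm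

lemma RegSys.measurableSet_RS (R : RegSys L val P) (r : ℕ) : MeasurableSet (R.RS r) := by
  rw [R.RS_eq]
  exact (R.GC_det r).measurableSet.inter (measurable_shift r (measurableSet_Stay _))

lemma measurable_pos_height (n : ℕ) : Measurable fun s : ℕ → S => L (pos val s n) := by
  simp_rw [← hgt_hL]
  exact measurable_hgt _ n

lemma RegSys.measurableSet_Big (R : RegSys L val P) (k : ℝ) : MeasurableSet (R.Big k) := by
  have : R.Big k = ⋃ r : ℕ, ⋃ _ : 1 ≤ r, (R.RS r ∩ {s | k ≤ L (pos val s r)} ∩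
      ⋂ r' : ℕ, ⋂ _ : 1 ≤ r' ∧ r' < r, (R.RS r')ᶜ) := by
    ext s
    simp only [Big, RS, mem_ofPred_eq, mem_iUnion, mem_inter_iff, mem_iInter, mem_compl_iff,
      not_and, exists_prop]
    constructor
    · rintro ⟨h0, r, h1, h2, h3, h4⟩
      exact ⟨r, h1, ⟨⟨h0, h2⟩, h4⟩, fun r' hr' _ => h3 r' hr'.1 hr'.2⟩
    · rintro ⟨r, h1, ⟨⟨h0, h2⟩, h4⟩, h3⟩
      exact ⟨h0, r, h1, h2, fun r' h5 h6 => h3 r' ⟨h5, h6⟩ h0, h4⟩
  rw [this]
  refine MeasurableSet.iUnion fun r => MeasurableSet.iUnion fun _ => ?_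
  refine ((R.measurableSet_RS r).inter
    (measurableSet_le measurable_const (measurable_pos_height r))).inter ?_
  exact MeasurableSet.iInter fun r' => MeasurableSet.iInter fun _ => (R.measurableSet_RS r').compl

lemma RegSys.measure_RS_shift (R : RegSys L val P) (r : ℕ) {B : Set (ℕ → S)}
    (hB : MeasurableSet B) (hBs : B ⊆ Stay (hL L val)) :
    P (R.RS r ∩ shift r ⁻¹' B) = P (R.GC r) * P B := by
  rw [← R.ren r (R.GC r) B (R.GC_det r) subset_rfl hB hBs]
  congr 1
  rw [R.RS_eq]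
  ext s
  constructor
  · rintro ⟨⟨h1, _⟩, h3⟩; exact ⟨h1, h3⟩
  · rintro ⟨h1, h3⟩; exact ⟨⟨h1, hBs h3⟩, h3⟩

lemma shift_stay_of_record {s : ℕ → S} {n : ℕ} (hs : s ∈ St L val n)
    (h : shift n s ∈ Stay (hL L val)) : s ∈ Stay (hL L val) := by
  refine (stay_iff L val s).2 fun k => ?_
  rcases le_or_gt k n with hk | hk
  · exact hs k hk
  · have h1 := (stay_iff L val _).1 h (k - n)
    rw [pos_shift, Nat.add_sub_cancel' hk.le, map_sub] at h1
    have := hs n le_rfl
    linarith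

/-- last regeneration before or at `σ` -/
lemma exists_last (Q : ℕ → Prop) (h0 : Q 0) (σ : ℕ) :
    ∃ r ≤ σ, Q r ∧ ∀ r', r < r' → r' ≤ σ → ¬ Q r' := by
  induction σ with
  | zero => exact ⟨0, le_rfl, h0, fun r' h1 h2 => by omega⟩
  | succ σ ih =>
    by_cases h : Q (σ + 1)
    · exact ⟨σ + 1, le_rfl, h, fun r' h1 h2 => by omega⟩
    · obtain ⟨r, hr1, hr2, hr3⟩ := ih
      refine ⟨r, by omega, hr2, fun r' h1 h2 => ?_⟩
      rcases Nat.lt_or_ge r' (σ + 1) with h3 | h3
      · exact hr3 r' h1 (by omega)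
      · have : r' = σ + 1 := by omega
        rw [this]; exact h

lemma exists_next (Q : ℕ → Prop) (r : ℕ) (h : ∃ m, r < m ∧ Q m) :
    ∃ m, r < m ∧ Q m ∧ ∀ r', r < r' → r' < m → ¬ Q r' := by
  classical
  refine ⟨Nat.find h, (Nat.find_spec h).1, (Nat.find_spec h).2, fun r' h1 h2 h3 => ?_⟩
  exact Nat.find_min h h2 ⟨h1, h3⟩

/-- pathwise counting for the frequency lemma -/
lemma RegSys.freq_path (R : RegSys L val P) (k : ℝ) (N : ℕ) {s : ℕ → S}
    (hs : s ∈ Stay (hL L val)) :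
    ∑' x : ℕ × ℕ, ind (x.1 < N ∧ s ∈ Ev L val k x.1 x.2 ∧ shift x.2 s ∈ R.Fo) ≤
      ∑' y : ℕ × ℕ, ind ((y.1 < N ∧ s ∈ R.RS y.1 ∩ shift y.1 ⁻¹' R.Big k) ∧ y.2 < R.G + 1) := by
  have hst := (stay_iff L val s).1 hs
  refine tsum_ind_le_of_rel _ _ (fun x y => s ∈ Ev L val k x.1 x.2 ∧ y.1 < x.2 + y.2 ∧
    R.R s (x.2 + y.2) ∧ ∀ r', y.1 < r' → r' < x.2 + y.2 → ¬ R.R s r') ?_ ?_
  · rintro ⟨σ, σ'⟩ ⟨h1, h2, h3⟩
    simp only at h1 h2 h3
    obtain ⟨hσ, hlt, hσ', hno, m, hm1, hm2, hm3⟩ := h2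
    obtain ⟨r, hr1, hr2, hr3⟩ := exists_last (fun r => R.R s r) (R.R_zero s hs) σ
    obtain ⟨r'', hr''1, hr''2, hr''3⟩ := R.Fo_reg s hs σ' ((record_iff L val s σ').2 hσ') h3
    obtain ⟨r2, hr21, hr22, hr23⟩ := exists_next (fun r => R.R s r) r ⟨r'', by omega, hr''3⟩
    have hr2le : r2 ≤ r'' := by
      by_contra hcon
      exact hr23 r'' (by omega) (by omega) hr''3
    have hreg2 := R.R_reg s hs r2 hr22
    have hreg := R.R_reg s hs r hr2
    have hσr2 : σ < r2 := by
      by_contra hcon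
      exact hr3 r2 hr21 (by omega) hr22
    have hrec2 : Rec L (pos val s) r2 := (record_iff L val s r2).1 hreg2.1
    have hσ'r2 : σ' ≤ r2 := by
      by_contra hcon
      exact hno r2 hσr2 (by omega) hrec2
    refine ⟨(r, r2 - σ'), ⟨⟨by omega, ⟨hs, hr2⟩, ?_⟩, by simp only; omega⟩,
      ⟨hσ, hlt, hσ', hno, m, hm1, hm2, hm3⟩, by simp only; omega, ?_, ?_⟩
    · refine ⟨hreg.2, r2 - r, by omega, ?_, ?_, ?_⟩
      · rw [← R.R_shift s hs r hr2, Nat.add_sub_cancel' hr21.le]
        exact hr22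
      · intro r' h4 h5
        rw [← R.R_shift s hs r hr2]
        exact hr23 _ (by omega) (by omega)
      · rw [pos_shift, Nat.add_sub_cancel' hr21.le, map_sub]
        have e1 := hrec2 σ hσr2
        have e2 : L (pos val s r) ≤ L (pos val s m) := by
          have := mem_shift_Stay.1 hreg.2 m (by omega)
          rwa [hgt_hL, hgt_hL] at this
        linarith
    · simp only
      rw [Nat.add_sub_cancel' hσ'r2]; exact hr22
    · simp only
      rw [Nat.add_sub_cancel' hσ'r2]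
      exact hr23
  · rintro ⟨σ, σ'⟩ ⟨τ, τ'⟩ ⟨r, g⟩ ⟨h1, h2, h3, h4⟩ ⟨h5, h6, h7, h8⟩
    simp only at h1 h2 h3 h4 h5 h6 h7 h8
    have e : σ' + g = τ' + g := by
      rcases lt_trichotomy (σ' + g) (τ' + g) with h | h | h
      · exact absurd h3 (h8 _ h2 h)
      · exact h
      · exact absurd h7 (h4 _ h6 h)
    have e' : σ' = τ' := by omega
    subst e'
    obtain ⟨a1, a2, a3, a4, _⟩ := h1
    obtain ⟨b1, b2, b3, b4, _⟩ := h5
    have : σ = τ := by
      rcases lt_trichotomy σ τ with h | h | h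
      · exact absurd b1 (a4 τ h b2)
      · exact h
      · exact absurd a1 (b4 σ h a2)
    rw [this]

lemma lintegral_ind {A : Set (ℕ → S)} (hA : MeasurableSet A) :
    ∫⁻ s, ind (s ∈ A) ∂P = P A := by
  have : (fun s => ind (s ∈ A)) = A.indicator 1 := by
    funext s
    by_cases h : s ∈ A <;> simp [ind, h]
  rw [this, lintegral_indicator_one hA]

lemma measurable_ind {A : Set (ℕ → S)} (hA : MeasurableSet A) :
    Measurable fun s : ℕ → S => ind (s ∈ A) := by
  have : (fun s => ind (s ∈ A)) = A.indicator 1 := by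
    funext s
    by_cases h : s ∈ A <;> simp [ind, h]
  rw [this]
  exact measurable_one.indicator hA

lemma tsum_measure_eq {α : Type*} [Countable α] {A : α → Set (ℕ → S)}
    (hA : ∀ x, MeasurableSet (A x)) : ∑' x, P (A x) = ∫⁻ s, ∑' x, ind (s ∈ A x) ∂P := by
  rw [lintegral_tsum fun x => (measurable_ind (hA x)).aemeasurable]
  exact tsum_congr fun x => (lintegral_ind (hA x)).symm

/-- mean number of regenerations before `n`, divided by `P(Stay)` -/
noncomputable def RegSys.rho (R : RegSys L val P) (n : ℕ) : ℝ≥0∞ :=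
  ∑ r ∈ Finset.range n, P (R.GC r)

theorem RegSys.freq (R : RegSys L val P) (k : ℝ) (N : ℕ) :
    ∑ σ ∈ Finset.range N, P (Stay (hL L val) ∩ Dp L val k σ) ≤
      R.pG⁻¹ * ((R.G + 1 : ℕ) * (R.rho N * P (R.Big k))) := by
  -- step 1: insert the next record and the forced trial
  have h1 : ∀ σ, P (Stay (hL L val) ∩ Dp L val k σ) ≤
      R.pG⁻¹ * ∑' σ', P (Stay (hL L val) ∩ Ev L val k σ σ' ∩ shift σ' ⁻¹' R.Fo) := by
    intro σ
    have hsub : (Stay (hL L val) ∩ Dp L val k σ : Set (ℕ → S)) ≤ᵐ[P]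
        (⋃ σ', Stay (hL L val) ∩ Ev L val k σ σ' : Set (ℕ → S)) := by
      filter_upwards [R.top] with s htop hs
      obtain ⟨hs0, hσ, t, ht1, ht2, ht3⟩ := hs
      obtain ⟨n, hn⟩ := htop hs0 (L (pos val s σ) + 1)
      rw [hgt_hL] at hn
      classical
      have hex : ∃ n, L (pos val s σ) < L (pos val s n) := ⟨n, by linarith⟩
      set n0 := Nat.find hex with hn0
      have hspec : L (pos val s σ) < L (pos val s n0) := Nat.find_spec hex
      have hmin : ∀ m < n0, L (pos val s m) ≤ L (pos val s σ) := fun m hm =>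
        not_lt.1 (Nat.find_min hex hm)
      have hrec : Rec L (pos val s) n0 := fun m hm => lt_of_le_of_lt (hmin m hm) hspec
      have hσn : σ < n0 := by
        by_contra hcon
        have := hσ.mono_le (not_lt.1 hcon)
        linarith
      have htn : t < n0 := by
        by_contra hcon
        exact ht2 n0 hσn (not_lt.1 hcon) hrec
      refine mem_iUnion.2 ⟨n0, hs0, hσ, hσn, hrec, fun m hm1 hm2 hm3 => ?_, t, ht1, htn, ht3⟩
      have e1 := hm3 σ hm1
      have e2 := hmin m hm2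
      linarith
    calc P (Stay (hL L val) ∩ Dp L val k σ)
        ≤ P (⋃ σ', Stay (hL L val) ∩ Ev L val k σ σ') := measure_mono_ae hsub
      _ ≤ ∑' σ', P (Stay (hL L val) ∩ Ev L val k σ σ') := measure_iUnion_le _
      _ ≤ ∑' σ', R.pG⁻¹ * P (Stay (hL L val) ∩ Ev L val k σ σ' ∩ shift σ' ⁻¹' R.Fo) := by
          refine ENNReal.tsum_le_tsum fun σ' => ?_
          calc P (Stay (hL L val) ∩ Ev L val k σ σ')
              ≤ P (St L val σ' ∩ Ev L val k σ σ') :=
                measure_mono (inter_subset_inter_left _ (stay_sub_St σ'))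
            _ ≤ R.pG⁻¹ * P (St L val σ' ∩ Ev L val k σ σ' ∩ shift σ' ⁻¹' R.Fo) := by
                refine le_inv_mul R.pG_ne R.pG_le (R.Fo_ge σ' _ ((det_St σ').inter (det_Ev k σ σ')) ?_)
                rintro s ⟨_, hs⟩
                exact (record_iff L val s σ').2 hs.2.2.1
            _ ≤ _ := by
                refine mul_le_mul' le_rfl (measure_mono ?_)
                rintro s ⟨⟨h1, h2⟩, h3⟩
                exact ⟨⟨shift_stay_of_record h1 (R.Fo_stay h3), h2⟩, h3⟩
      _ = _ := ENNReal.tsum_mul_left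
  -- step 2: sum over σ < N
  have hmeasE : ∀ x : ℕ × ℕ, MeasurableSet {s : ℕ → S | s ∈ Stay (hL L val) ∧
      (x.1 < N ∧ s ∈ Ev L val k x.1 x.2 ∧ shift x.2 s ∈ R.Fo)} := by
    rintro ⟨σ, σ'⟩
    have : {s : ℕ → S | s ∈ Stay (hL L val) ∧ (σ < N ∧ s ∈ Ev L val k σ σ' ∧ shift σ' s ∈ R.Fo)}
        = Stay (hL L val) ∩ ({_s : ℕ → S | σ < N} ∩ (Ev L val k σ σ' ∩ shift σ' ⁻¹' R.Fo)) := rfl
    rw [this]
    exact (measurableSet_Stay _).inter ((MeasurableSet.const _).inter
      ((det_Ev k σ σ').measurableSet.inter (measurable_shift σ' R.Fo_meas)))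
  have hmeasB : ∀ y : ℕ × ℕ, MeasurableSet {s : ℕ → S | s ∈ Stay (hL L val) ∧
      ((y.1 < N ∧ s ∈ R.RS y.1 ∩ shift y.1 ⁻¹' R.Big k) ∧ y.2 < R.G + 1)} := by
    rintro ⟨r, g⟩
    have : {s : ℕ → S | s ∈ Stay (hL L val) ∧
        ((r < N ∧ s ∈ R.RS r ∩ shift r ⁻¹' R.Big k) ∧ g < R.G + 1)}
        = Stay (hL L val) ∩ (({_s : ℕ → S | r < N} ∩ (R.RS r ∩ shift r ⁻¹' R.Big k)) ∩
          {_s : ℕ → S | g < R.G + 1}) := rfl
    rw [this]
    exact (measurableSet_Stay _).inter (((MeasurableSet.const _).inter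
      ((R.measurableSet_RS r).inter (measurable_shift r (R.measurableSet_Big k)))).inter
        (MeasurableSet.const _))
  have h2 : ∑ σ ∈ Finset.range N, ∑' σ', P (Stay (hL L val) ∩ Ev L val k σ σ' ∩ shift σ' ⁻¹' R.Fo)
      ≤ ∑' y : ℕ × ℕ, P {s : ℕ → S | s ∈ Stay (hL L val) ∧
        ((y.1 < N ∧ s ∈ R.RS y.1 ∩ shift y.1 ⁻¹' R.Big k) ∧ y.2 < R.G + 1)} := by
    have e1 : ∑ σ ∈ Finset.range N,
        ∑' σ', P (Stay (hL L val) ∩ Ev L val k σ σ' ∩ shift σ' ⁻¹' R.Fo)
        = ∑' x : ℕ × ℕ, P {s : ℕ → S | s ∈ Stay (hL L val) ∧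
          (x.1 < N ∧ s ∈ Ev L val k x.1 x.2 ∧ shift x.2 s ∈ R.Fo)} := by
      rw [ENNReal.tsum_prod', tsum_eq_sum (s := Finset.range N)]
      · refine Finset.sum_congr rfl fun σ hσ => tsum_congr fun σ' => ?_
        congr 1
        ext s
        simp only [mem_inter_iff, mem_preimage, mem_ofPred_eq]
        have := Finset.mem_range.1 hσ
        tauto
      · intro σ hσ
        rw [ENNReal.tsum_eq_zero]
        intro σ'
        have : {s : ℕ → S | s ∈ Stay (hL L val) ∧
            (σ < N ∧ s ∈ Ev L val k σ σ' ∧ shift σ' s ∈ R.Fo)} = ∅ := by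
          ext s
          simp only [mem_ofPred_eq, mem_empty_iff_false, iff_false]
          intro h
          exact hσ (Finset.mem_range.2 h.2.1)
        simp only
        rw [this, measure_empty]
    rw [e1, tsum_measure_eq hmeasE, tsum_measure_eq hmeasB]
    refine lintegral_mono fun s => ?_
    by_cases hs : s ∈ Stay (hL L val)
    · simpa only [mem_ofPred_eq, hs, true_and] using R.freq_path k N hs
    · have : ∀ x : ℕ × ℕ, ind (s ∈ {s : ℕ → S | s ∈ Stay (hL L val) ∧
          (x.1 < N ∧ s ∈ Ev L val k x.1 x.2 ∧ shift x.2 s ∈ R.Fo)}) = 0 :=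
        fun x => ind_not fun h => hs h.1
      rw [ENNReal.tsum_eq_zero.2 this]
      exact bot_le
  -- step 3: evaluate
  have h3 : ∑' y : ℕ × ℕ, P {s : ℕ → S | s ∈ Stay (hL L val) ∧
        ((y.1 < N ∧ s ∈ R.RS y.1 ∩ shift y.1 ⁻¹' R.Big k) ∧ y.2 < R.G + 1)}
      ≤ (R.G + 1 : ℕ) * (R.rho N * P (R.Big k)) := by
    rw [ENNReal.tsum_prod']
    have e : ∀ r, ∑' g, P {s : ℕ → S | s ∈ Stay (hL L val) ∧
        ((r < N ∧ s ∈ R.RS r ∩ shift r ⁻¹' R.Big k) ∧ g < R.G + 1)} ≤
        ind (r < N) * ((R.G + 1 : ℕ) * (P (R.GC r) * P (R.Big k))) := by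
      intro r
      rw [← R.measure_RS_shift r (R.measurableSet_Big k) fun s hs => hs.1]
      by_cases hr : r < N
      · rw [ind_of hr, one_mul, tsum_eq_sum (s := Finset.range (R.G + 1))]
        · calc ∑ g ∈ Finset.range (R.G + 1), P {s : ℕ → S | s ∈ Stay (hL L val) ∧
                ((r < N ∧ s ∈ R.RS r ∩ shift r ⁻¹' R.Big k) ∧ g < R.G + 1)}
              ≤ ∑ g ∈ Finset.range (R.G + 1), P (R.RS r ∩ shift r ⁻¹' R.Big k) := by
                refine Finset.sum_le_sum fun g _ => measure_mono fun s hs => hs.2.1.2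
            _ = _ := by
                rw [Finset.sum_const, Finset.card_range, nsmul_eq_mul]
        · intro g hg
          have : {s : ℕ → S | s ∈ Stay (hL L val) ∧
              ((r < N ∧ s ∈ R.RS r ∩ shift r ⁻¹' R.Big k) ∧ g < R.G + 1)} = ∅ := by
            ext s
            simp only [mem_ofPred_eq, mem_empty_iff_false, iff_false]
            intro h
            exact hg (Finset.mem_range.2 h.2.2)
          rw [this, measure_empty]
      · rw [ind_not hr, zero_mul, nonpos_iff_eq_zero, ENNReal.tsum_eq_zero]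
        intro g
        have : {s : ℕ → S | s ∈ Stay (hL L val) ∧
            ((r < N ∧ s ∈ R.RS r ∩ shift r ⁻¹' R.Big k) ∧ g < R.G + 1)} = ∅ := by
          ext s
          simp only [mem_ofPred_eq, mem_empty_iff_false, iff_false]
          intro h
          exact hr h.2.1.1
        rw [this, measure_empty]
    refine (ENNReal.tsum_le_tsum e).trans ?_
    rw [tsum_eq_sum (s := Finset.range N)]
    · rw [RegSys.rho, Finset.sum_mul, Finset.mul_sum]
      refine Finset.sum_le_sum fun r hr => ?_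
      rw [ind_of (Finset.mem_range.1 hr), one_mul]
    · intro r hr
      rw [ind_not fun h => hr (Finset.mem_range.2 h), zero_mul]
  calc ∑ σ ∈ Finset.range N, P (Stay (hL L val) ∩ Dp L val k σ)
      ≤ ∑ σ ∈ Finset.range N,
          R.pG⁻¹ * ∑' σ', P (Stay (hL L val) ∩ Ev L val k σ σ' ∩ shift σ' ⁻¹' R.Fo) :=
        Finset.sum_le_sum fun σ _ => h1 σ
    _ = R.pG⁻¹ * ∑ σ ∈ Finset.range N,
          ∑' σ', P (Stay (hL L val) ∩ Ev L val k σ σ' ∩ shift σ' ⁻¹' R.Fo) := by
        rw [Finset.mul_sum]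
    _ ≤ _ := by
        gcongr
        exact h2.trans h3

end Crest.Agent.R154.B2
end

-- ▼ part R154/B2MainIneq_719
section

/-!
Row 154, block B2: factorisation over block starts and the main inequality (MAIN).
-/

set_option autoImplicit false
set_option linter.unusedSectionVars false
set_option linter.unusedVariables false

namespace Crest.Agent.R154.B2

open MeasureTheory Set Filter Crest.Agent.R154.Ren263
open scoped ENNReal Topology

variable {S : Type*} {V : Type*} [AddCommGroup V]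
variable [Countable S] [MeasurableSpace S] [MeasurableSingletonClass S]
variable {L : V →+ ℝ} {u : V →+ ℤ} {val : S → V} {P : Measure (ℕ → S)} [IsProbabilityMeasure P]

/-- `t` belongs to the phase `[a,b)` of the record interval of `σ`, `σ` in the first block, and `t`
is a lateral record relative to the start of the block -/
def RegSys.F (R : RegSys L val P) (u : V →+ ℤ) (a b : ℝ) (σ t : ℕ) : Set (ℕ → S) :=
  {s | s ∈ Stay (hL L val) ∧ (∀ r', 1 ≤ r' → r' ≤ σ → ¬ R.R s r') ∧
    Ph L a b (pos val s) σ t ∧ LRec u (pos val s) 0 t}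

lemma RegSys.measurableSet_F (R : RegSys L val P) (a b : ℝ) (σ t : ℕ) :
    MeasurableSet (R.F u a b σ t) := by
  have : R.F u a b σ t = Stay (hL L val) ∩ (⋂ r' : ℕ, ⋂ _ : 1 ≤ r' ∧ r' ≤ σ, (R.RS r')ᶜ) ∩
      ({s | Ph L a b (pos val s) σ t} ∩ {s | LRec u (pos val s) 0 t}) := by
    ext s
    simp only [F, RS, mem_ofPred_eq, mem_inter_iff, mem_iInter, mem_compl_iff, not_and]
    constructor
    · rintro ⟨h0, h1, h2, h3⟩
      exact ⟨⟨h0, fun r' hr' _ => h1 r' hr'.1 hr'.2⟩, h2, h3⟩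
    · rintro ⟨⟨h0, h1⟩, h2, h3⟩
      exact ⟨h0, fun r' h4 h5 => h1 r' ⟨h4, h5⟩ h0, h2, h3⟩
  rw [this]
  refine ((measurableSet_Stay _).inter ?_).inter
    (det_Ph.measurableSet.inter det_LRec.measurableSet)
  exact MeasurableSet.iInter fun r' => MeasurableSet.iInter fun _ => (R.measurableSet_RS r').compl

/-- pathwise form of the decomposition -/
lemma RegSys.path_bound (R : RegSys L val P) {a b lam : ℝ} (hlam : 0 ≤ lam) {l : ℕ}
    (hl : 2 * lam * b < l) (n a0 : ℕ) {s : ℕ → S} (hs : s ∈ Stay (hL L val)) :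
    ∑' x : ℕ × (ℕ × ℕ), ind ((x.1 < n ∧ x.2.1 < a0) ∧
        s ∈ R.RS x.1 ∩ shift x.1 ⁻¹' R.F u a b x.2.1 x.2.2) ≤
      ∑ σ ∈ Finset.range (n + a0), (l : ℝ≥0∞) * (ind (∃ t, Ph L a b (pos val s) σ t) +
        ∑' t, ind (Tr L u a b lam (pos val s) σ t)) := by
  have hst := (stay_iff L val s).1 hs
  have h1 : ∑' x : ℕ × (ℕ × ℕ), ind ((x.1 < n ∧ x.2.1 < a0) ∧
        s ∈ R.RS x.1 ∩ shift x.1 ⁻¹' R.F u a b x.2.1 x.2.2) ≤
      ∑' y : ℕ × ℕ, ind (y.1 < n + a0 ∧ ∃ r ≤ y.1, R.R s r ∧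
        (∀ r', r < r' → r' ≤ y.1 → ¬ R.R s r') ∧ Ph L a b (pos val s) y.1 y.2 ∧
        LRec u (pos val s) r y.2) := by
    refine tsum_ind_le_of_rel _ _ (fun x y => x.1 + x.2.1 = y.1 ∧ x.1 + x.2.2 = y.2 ∧
      R.R s x.1 ∧ ∀ r', x.1 < r' → r' ≤ y.1 → ¬ R.R s r') ?_ ?_
    · rintro ⟨r, σ, t⟩ ⟨⟨h1, h2⟩, ⟨_, h3⟩, h4⟩
      simp only at h1 h2 h3 h4
      have hreg := R.R_reg s hs r h3
      have hrec : Rec L (pos val s) r := (record_iff L val s r).1 hreg.1
      have hup : ∀ k, r ≤ k → L (pos val s r) ≤ L (pos val s k) := by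
        intro k hk
        have := mem_shift_Stay.1 hreg.2 k hk
        rwa [hgt_hL, hgt_hL] at this
      obtain ⟨_, h5, h6, h7⟩ := h4
      have h5' : ∀ r', r < r' → r' ≤ r + σ → ¬ R.R s r' := by
        intro r' hr1 hr2 hr3
        have := h5 (r' - r) (by omega) (by omega)
        rw [← R.R_shift s hs r h3, Nat.add_sub_cancel' hr1.le] at this
        exact this hr3
      refine ⟨(r + σ, r + t), ⟨by simp only; omega, r, by simp only; omega, h3, h5', ?_, ?_⟩,
        rfl, rfl, h3, h5'⟩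
      · exact (ph_shift hrec hup).1 h6
      · exact lrec_shift.1 h7
    · rintro ⟨r, σ, t⟩ ⟨r2, σ2, t2⟩ ⟨y1, y2⟩ ⟨h1, h2, h3, h4⟩ ⟨h5, h6, h7, h8⟩
      simp only at h1 h2 h3 h4 h5 h6 h7 h8
      have : r = r2 := by
        rcases lt_trichotomy r r2 with h | h | h
        · exact absurd h7 (h4 r2 h (by omega))
        · exact h
        · exact absurd h3 (h8 r h (by omega))
      subst this
      have e1 : σ = σ2 := by omega
      have e2 : t = t2 := by omega
      rw [e1, e2]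
  refine h1.trans ?_
  rw [ENNReal.tsum_prod', tsum_eq_sum (s := Finset.range (n + a0))]
  · refine Finset.sum_le_sum fun σ hσ => ?_
    obtain ⟨r, hr1, hr2, hr3⟩ := exists_last (fun r => R.R s r) (R.R_zero s hs) σ
    have hreg := R.R_reg s hs r hr2
    have hrec : Rec L (pos val s) r := (record_iff L val s r).1 hreg.1
    have hup : ∀ k, r ≤ k → L (pos val s r) ≤ L (pos val s k) := by
      intro k hk
      have := mem_shift_Stay.1 hreg.2 k hk
      rwa [hgt_hL, hgt_hL] at this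
    refine le_trans (ENNReal.tsum_le_tsum fun t => ind_mono ?_)
      (count_tsum (u := u) (a := a) hlam hrec hr1 hup hl)
    rintro ⟨_, r2, h2, h3, h4, h5, h6⟩
    have : r2 = r := by
      rcases lt_trichotomy r2 r with h | h | h
      · exact absurd hr2 (h4 r h hr1)
      · exact h
      · exact absurd h3 (hr3 r2 h h2)
    rw [this] at h6
    exact ⟨h5, h6⟩
  · intro σ hσ
    rw [ENNReal.tsum_eq_zero]
    intro t
    exact ind_not fun h => hσ (Finset.mem_range.2 h.1)

lemma measurable_ind' {p : (ℕ → S) → Prop} (hp : MeasurableSet {s | p s}) :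
    Measurable fun s : ℕ → S => ind (p s) := measurable_ind hp

/-- the combined inequality before dividing by `rho` -/
theorem RegSys.pre_main (R : RegSys L val P) {a b lam H : ℝ} (hlam : 0 ≤ lam) (hbH : b ≤ H)
    (F : FreshC L u val P lam H) {l : ℕ} (hl : 2 * lam * b < l) (n a0 : ℕ) :
    R.rho n * ∑ σ ∈ Finset.range a0, ∑' t, P (R.F u a b σ t) ≤
      l * ((1 + F.c⁻¹) * (R.pG⁻¹ * ((R.G + 1 : ℕ) * (R.rho (n + a0) * P (R.Big a))))) := by
  -- left-hand side as a sum of probabilities over block starts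
  have hL : R.rho n * ∑ σ ∈ Finset.range a0, ∑' t, P (R.F u a b σ t) =
      ∑' x : ℕ × (ℕ × ℕ), P {s : ℕ → S | s ∈ Stay (hL L val) ∧ ((x.1 < n ∧ x.2.1 < a0) ∧
        s ∈ R.RS x.1 ∩ shift x.1 ⁻¹' R.F u a b x.2.1 x.2.2)} := by
    rw [ENNReal.tsum_prod', tsum_eq_sum (s := Finset.range n)]
    · rw [RegSys.rho, Finset.sum_mul]
      refine Finset.sum_congr rfl fun r hr => ?_
      rw [ENNReal.tsum_prod', tsum_eq_sum (s := Finset.range a0), Finset.mul_sum]
      · refine Finset.sum_congr rfl fun σ hσ => ?_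
        rw [← ENNReal.tsum_mul_left]
        refine tsum_congr fun t => ?_
        rw [← R.measure_RS_shift r (R.measurableSet_F a b σ t) fun s hs => hs.1]
        congr 1
        ext s
        simp only [mem_ofPred_eq, mem_inter_iff, mem_preimage]
        constructor
        · rintro ⟨h1, h2⟩
          exact ⟨h1.1, ⟨Finset.mem_range.1 hr, Finset.mem_range.1 hσ⟩, h1, h2⟩
        · rintro ⟨_, _, h1, h2⟩
          exact ⟨h1, h2⟩
      · intro σ hσ
        rw [ENNReal.tsum_eq_zero]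
        intro t
        have : {s : ℕ → S | s ∈ Stay (B2.hL L val) ∧ ((r < n ∧ σ < a0) ∧
            s ∈ R.RS r ∩ shift r ⁻¹' R.F u a b σ t)} = ∅ := by
          ext s
          simp only [mem_ofPred_eq, mem_empty_iff_false, iff_false]
          intro h
          exact hσ (Finset.mem_range.2 h.2.1.2)
        simp only
        rw [this, measure_empty]
    · intro r hr
      rw [ENNReal.tsum_eq_zero]
      rintro ⟨σ, t⟩
      have : {s : ℕ → S | s ∈ Stay (B2.hL L val) ∧ ((r < n ∧ σ < a0) ∧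
          s ∈ R.RS r ∩ shift r ⁻¹' R.F u a b σ t)} = ∅ := by
        ext s
        simp only [mem_ofPred_eq, mem_empty_iff_false, iff_false]
        intro h
        exact hr (Finset.mem_range.2 h.2.1.1)
      simp only
      rw [this, measure_empty]
  have hmeas : ∀ x : ℕ × (ℕ × ℕ), MeasurableSet {s : ℕ → S | s ∈ Stay (B2.hL L val) ∧
      ((x.1 < n ∧ x.2.1 < a0) ∧ s ∈ R.RS x.1 ∩ shift x.1 ⁻¹' R.F u a b x.2.1 x.2.2)} := by
    intro x
    have : {s : ℕ → S | s ∈ Stay (B2.hL L val) ∧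
        ((x.1 < n ∧ x.2.1 < a0) ∧ s ∈ R.RS x.1 ∩ shift x.1 ⁻¹' R.F u a b x.2.1 x.2.2)} =
        Stay (B2.hL L val) ∩ ({_s : ℕ → S | x.1 < n ∧ x.2.1 < a0} ∩
          (R.RS x.1 ∩ shift x.1 ⁻¹' R.F u a b x.2.1 x.2.2)) := rfl
    rw [this]
    exact (measurableSet_Stay _).inter ((MeasurableSet.const _).inter
      ((R.measurableSet_RS _).inter (measurable_shift _ (R.measurableSet_F _ _ _ _))))
  have hmPh : ∀ σ, MeasurableSet {s : ℕ → S | s ∈ Stay (B2.hL L val) ∧
      ∃ t, Ph L a b (pos val s) σ t} := by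
    intro σ
    have : {s : ℕ → S | s ∈ Stay (B2.hL L val) ∧ ∃ t, Ph L a b (pos val s) σ t} =
        Stay (B2.hL L val) ∩ ⋃ t, {s | Ph L a b (pos val s) σ t} := by
      ext s; simp
    rw [this]
    exact (measurableSet_Stay _).inter (MeasurableSet.iUnion fun t => det_Ph.measurableSet)
  have hmTr : ∀ σ t, MeasurableSet {s : ℕ → S | s ∈ Stay (B2.hL L val) ∧
      Tr L u a b lam (pos val s) σ t} := fun σ t =>
    (measurableSet_Stay _).inter det_Tr.measurableSet
  rw [hL, tsum_measure_eq hmeas]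
  calc ∫⁻ s, ∑' x : ℕ × (ℕ × ℕ), ind (s ∈ {s : ℕ → S | s ∈ Stay (B2.hL L val) ∧
        ((x.1 < n ∧ x.2.1 < a0) ∧ s ∈ R.RS x.1 ∩ shift x.1 ⁻¹' R.F u a b x.2.1 x.2.2)}) ∂P
      ≤ ∫⁻ s, ∑ σ ∈ Finset.range (n + a0), (l : ℝ≥0∞) *
          (ind (s ∈ Stay (B2.hL L val) ∧ ∃ t, Ph L a b (pos val s) σ t) +
            ∑' t, ind (s ∈ Stay (B2.hL L val) ∧ Tr L u a b lam (pos val s) σ t)) ∂P := by
        refine lintegral_mono fun s => ?_
        by_cases hs : s ∈ Stay (B2.hL L val)
        · simpa only [mem_ofPred_eq, hs, true_and] using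
            R.path_bound (u := u) hlam hl n a0 hs
        · have : ∀ x : ℕ × (ℕ × ℕ), ind (s ∈ {s : ℕ → S | s ∈ Stay (B2.hL L val) ∧
              ((x.1 < n ∧ x.2.1 < a0) ∧
                s ∈ R.RS x.1 ∩ shift x.1 ⁻¹' R.F u a b x.2.1 x.2.2)}) = 0 :=
            fun x => ind_not fun h => hs h.1
          rw [ENNReal.tsum_eq_zero.2 this]
          exact bot_le
    _ = ∑ σ ∈ Finset.range (n + a0), (l : ℝ≥0∞) *
          (P {s | s ∈ Stay (B2.hL L val) ∧ ∃ t, Ph L a b (pos val s) σ t} +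
            ∑' t, P {s | s ∈ Stay (B2.hL L val) ∧ Tr L u a b lam (pos val s) σ t}) := by
        have hmT : ∀ σ, Measurable fun s : ℕ → S =>
            ∑' t, ind (s ∈ Stay (B2.hL L val) ∧ Tr L u a b lam (pos val s) σ t) := fun σ =>
          Measurable.ennreal_tsum fun t => measurable_ind' (hmTr σ t)
        rw [lintegral_finsetSum]
        · refine Finset.sum_congr rfl fun σ _ => ?_
          rw [lintegral_const_mul, lintegral_add_left, lintegral_tsum]
          · congr 2
            · exact lintegral_ind (hmPh σ)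
            · exact tsum_congr fun t => lintegral_ind (hmTr σ t)
          · exact fun t => (measurable_ind' (hmTr σ t)).aemeasurable
          · exact measurable_ind' (hmPh σ)
          · exact (measurable_ind' (hmPh σ)).add (hmT σ)
        · intro σ _
          exact ((measurable_ind' (hmPh σ)).add (hmT σ)).const_mul _
    _ ≤ ∑ σ ∈ Finset.range (n + a0), (l : ℝ≥0∞) * ((1 + F.c⁻¹) *
          P (Stay (B2.hL L val) ∩ Dp L val a σ)) := by
        refine Finset.sum_le_sum fun σ _ => ?_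
        have e1 : {s : ℕ → S | s ∈ Stay (B2.hL L val) ∧ ∃ t, Ph L a b (pos val s) σ t} ⊆
            Stay (B2.hL L val) ∩ Dp L val a σ := by
          rintro s ⟨h1, t, h2⟩
          obtain ⟨m, hm1, hm2, hm3⟩ := h2.2.2.2.1
          exact ⟨h1, h2.1, m, hm1, fun j hj hj' => h2.2.2.1 j hj (hj'.trans hm2), hm3⟩
        have e2 := trial_sum (a := a) (L := L) (val := val) hbH F σ
        have e3 : P (Stay (B2.hL L val) ∩ {s | ∃ t, Ph L a b (pos val s) σ t}) ≤
            P (Stay (B2.hL L val) ∩ Dp L val a σ) := measure_mono e1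
        calc (l : ℝ≥0∞) * (P {s | s ∈ Stay (B2.hL L val) ∧ ∃ t, Ph L a b (pos val s) σ t} +
            ∑' t, P {s | s ∈ Stay (B2.hL L val) ∧ Tr L u a b lam (pos val s) σ t})
            ≤ l * (P (Stay (B2.hL L val) ∩ Dp L val a σ) +
                F.c⁻¹ * P (Stay (B2.hL L val) ∩ Dp L val a σ)) := by
              refine mul_le_mul' le_rfl (add_le_add (measure_mono e1) ?_)
              exact e2.trans (mul_le_mul' le_rfl e3)
          _ = l * ((1 + F.c⁻¹) * P (Stay (B2.hL L val) ∩ Dp L val a σ)) := by ring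
    _ = l * ((1 + F.c⁻¹) * ∑ σ ∈ Finset.range (n + a0), P (Stay (B2.hL L val) ∩ Dp L val a σ)) := by
        rw [Finset.mul_sum, Finset.mul_sum]
    _ ≤ _ := by
        refine mul_le_mul' le_rfl (mul_le_mul' le_rfl (R.freq a (n + a0)))

lemma RegSys.rho_add_le (R : RegSys L val P) (n a0 : ℕ) : R.rho (n + a0) ≤ R.rho n + a0 := by
  unfold RegSys.rho
  rw [Finset.sum_range_add]
  gcongr
  calc ∑ x ∈ Finset.range a0, P (R.GC (n + x)) ≤ ∑ x ∈ Finset.range a0, (1 : ℝ≥0∞) :=
        Finset.sum_le_sum fun x _ => prob_le_one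
    _ = a0 := by simp

lemma RegSys.rho_ne_top (R : RegSys L val P) (n : ℕ) : R.rho n ≠ ∞ := by
  unfold RegSys.rho
  exact (ENNReal.sum_ne_top).2 fun r _ => measure_ne_top _ _

lemma RegSys.tsum_GC (R : RegSys L val P) : ∑' r, P (R.GC r) = ∞ := by
  by_contra hcon
  have h1 : P (limsup (fun r => R.GC r) atTop) = 0 := measure_limsup_atTop_eq_zero hcon
  have h2 := measure_eq_zero_iff_ae_notMem.1 h1
  refine R.p_ne (measure_eq_zero_iff_ae_notMem.2 ?_)
  filter_upwards [h2, R.inf] with s h3 hs hs0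
  refine h3 ?_
  rw [mem_limsup_iff_frequently_mem, frequently_atTop]
  intro N
  obtain ⟨r, hr1, hr2⟩ := hs hs0 N
  exact ⟨r, hr1, ((R.GC_iff s r).2 ⟨hs0, hr2⟩).1⟩

lemma RegSys.rho_tendsto (R : RegSys L val P) : Tendsto (fun n => R.rho n) atTop (𝓝 ∞) := by
  have := ENNReal.tendsto_nat_tsum (fun r => P (R.GC r))
  rwa [R.tsum_GC] at this

/-- **(MAIN)** -/
theorem RegSys.main (R : RegSys L val P) {a b lam H : ℝ} (hlam : 0 ≤ lam) (hbH : b ≤ H)
    (F : FreshC L u val P lam H) {l : ℕ} (hl : 2 * lam * b < l) :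
    ∑' σ, ∑' t, P (R.F u a b σ t) ≤
      l * ((1 + F.c⁻¹) * (R.pG⁻¹ * ((R.G + 1 : ℕ) * P (R.Big a)))) := by
  refine ENNReal.tsum_le_of_sum_range_le fun a0 => ?_
  set x := ∑ σ ∈ Finset.range a0, ∑' t, P (R.F u a b σ t) with hx
  set K := (l : ℝ≥0∞) * ((1 + F.c⁻¹) * (R.pG⁻¹ * ((R.G + 1 : ℕ) * P (R.Big a)))) with hK
  have hKtop : K ≠ ∞ := by
    refine ENNReal.mul_ne_top (ENNReal.natCast_ne_top _) (ENNReal.mul_ne_top ?_
      (ENNReal.mul_ne_top (ENNReal.inv_ne_top.2 R.pG_ne)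
        (ENNReal.mul_ne_top (ENNReal.natCast_ne_top _) (measure_ne_top _ _))))
    exact ENNReal.add_ne_top.2 ⟨ENNReal.one_ne_top, ENNReal.inv_ne_top.2 F.c_ne⟩
  have h1 : ∀ n, R.rho n * x ≤ K * R.rho n + K * a0 := by
    intro n
    have := R.pre_main hlam hbH F hl n a0 (a := a)
    refine this.trans ?_
    calc (l : ℝ≥0∞) * ((1 + F.c⁻¹) * (R.pG⁻¹ * ((R.G + 1 : ℕ) * (R.rho (n + a0) * P (R.Big a)))))
        = K * R.rho (n + a0) := by rw [hK]; ring
      _ ≤ K * (R.rho n + a0) := by gcongr; exact R.rho_add_le n a0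
      _ = _ := by rw [mul_add]
  have h2 : ∀ᶠ n in atTop, x ≤ K + K * a0 * (R.rho n)⁻¹ := by
    have hev : ∀ᶠ n in atTop, (1 : ℝ≥0∞) < R.rho n :=
      R.rho_tendsto.eventually (lt_mem_nhds ENNReal.one_lt_top)
    filter_upwards [hev] with n hn
    have hne : R.rho n ≠ 0 := (zero_lt_one.trans hn).ne'
    calc x = (R.rho n)⁻¹ * (R.rho n * x) := by
          rw [← mul_assoc, ENNReal.inv_mul_cancel hne (R.rho_ne_top n), one_mul]
      _ ≤ (R.rho n)⁻¹ * (K * R.rho n + K * a0) := by gcongr; exact h1 n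
      _ = K * ((R.rho n)⁻¹ * R.rho n) + K * a0 * (R.rho n)⁻¹ := by ring
      _ = K + K * a0 * (R.rho n)⁻¹ := by
          rw [ENNReal.inv_mul_cancel hne (R.rho_ne_top n), mul_one]
  have h3 : Tendsto (fun n => K + K * a0 * (R.rho n)⁻¹) atTop (𝓝 (K + K * a0 * 0)) := by
    refine Tendsto.add tendsto_const_nhds ?_
    refine ENNReal.Tendsto.const_mul ?_ (Or.inr (ENNReal.mul_ne_top hKtop
      (ENNReal.natCast_ne_top _)))
    have := tendsto_inv_iff.2 R.rho_tendsto
    simpa using this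
  rw [mul_zero, add_zero] at h3
  exact ge_of_tendsto h3 h2

end Crest.Agent.R154.B2
end

-- ▼ part R154/B2Suc_719

/-!
Row 154, block B2: literal statements of the remaining inputs of the assembly: (SUC) and the fresh
cone property of the model.
-/

set_option autoImplicit false
set_option linter.unusedSectionVars false
set_option linter.unusedVariables false

namespace Crest.Agent.R154.B2

open MeasureTheory Set Filter Crest.Agent.R154.Ren263
open scoped ENNReal Topology

variable {S : Type*} {V : Type*} [AddCommGroup V]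
variable [Countable S] [MeasurableSpace S] [MeasurableSingletonClass S]
variable {L : V →+ ℝ} {val : S → V} {P : Measure (ℕ → S)} [IsProbabilityMeasure P]

/-- lower edge of the `j`-th depth phase -/
noncomputable def pa (j : ℕ) : ℝ := 2 ^ j - 1

/-- upper edge of the `j`-th depth phase -/
noncomputable def pb (j : ℕ) : ℝ := 2 ^ (j + 1) - 1

/-- `f_j(u) = E[1_Stay * number of lateral records (for u) of the first block in the j-th phase]` -/
noncomputable def RegSys.f (R : RegSys L val P) (u : V →+ ℤ) (j : ℕ) : ℝ≥0∞ :=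
  ∑' σ, ∑' t, P (R.F u (pa j) (pb j) σ t)

/-- `x_J` -/
noncomputable def RegSys.x (R : RegSys L val P) (u : V →+ ℤ) (J : ℕ) : ℝ≥0∞ :=
  ∑ j ∈ Finset.range J, (R.f u j + R.f (-u) j)

/-- the slope event: the path stays in the cone of slope `lam` (with vertex `C` below the start)
until its height exceeds `H` -/
def Slope (L : V →+ ℝ) (u : V →+ ℤ) (val : S → V) (lam C H : ℝ) : Set (ℕ → S) :=
  {s | s ∈ Stay (hL L val) ∧ ∀ t, |(u (pos val s t) : ℝ)| ≤ lam * (L (pos val s t) + C) ∨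
    H < L (pos val s t)}

/-- **(SUC)** -/
def RegSys.SUC (R : RegSys L val P) (u : V →+ ℤ) : Prop :=
  ∃ A C : ℝ, 1 ≤ A ∧ 0 ≤ C ∧ ∃ J0 : ℕ, ∀ J, J0 ≤ J → ∀ x : ℝ, 0 ≤ x →
    R.x u J ≤ ENNReal.ofReal x →
    P (Stay (hL L val)) ≤ 2 * P (Slope L u val (A * (1 + x)) C (2 ^ J))

/-- the fresh cone property of the model: straight words (direction `e`), then an event `B ⊆ Stay`
whose sites are `D`-separated from the past. `R = 0` : `D = {0}`. -/
structure CF (L : V →+ ℝ) (val : S → V) (P : Measure (ℕ → S)) (e : V) (D : Set V) where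
  word : ℕ → Set (ℕ → S)
  word_det : ∀ h, Det h (word h)
  word_pos : ∀ h, ∀ s ∈ word h, ∀ k ≤ h, pos val s k = k • e
  word_ne : ∀ h, P (word h) ≠ 0
  fresh : ∀ (n h : ℕ) (A B : Set (ℕ → S)), Det n A → MeasurableSet B → B ⊆ Stay (hL L val) →
    (∀ s ∈ A, ∀ k < n, ∀ j < h, pos val s k - pos val s n ≠ j • e) →
    (∀ s ∈ A, ∀ k < n, ∀ s' ∈ B, ∀ m, pos val s k - pos val s n - (h • e + pos val s' m) ∉ D) →
    P (word h) * P B * P A ≤ P (A ∩ shift n ⁻¹' (word h ∩ shift h ⁻¹' B))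

end Crest.Agent.R154.B2
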