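import Crest.Agent.R154.Ren3_263

-- ▼ part R154/RenG_263
section

/-!
Row 154, block B1 for range `R > 0`: renewal structure with restricted record times and a forced
climb.  `RecSys h` = the class of admissible record times.
-/

set_option autoImplicit false
set_option linter.unusedSectionVars false
set_option linter.deprecated false
open MeasureTheory Filter Set
open scoped ENNReal Topology

namespace Crest.Agent.R154.RenG263

open Crest.Agent.R154.Ren263

variable {S : Type*}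

/-- admissible record times, and a word which leads from a record to an admissible record -/
structure RecSys (h : S → ℝ) where
  /-- `n` is an admissible record time -/
  Rec : (ℕ → S) → ℕ → Prop
  det : ∀ {s s' : ℕ → S} {n : ℕ}, (∀ i < n, s i = s' i) → (Rec s n ↔ Rec s' n)
  record : ∀ {s : ℕ → S} {n : ℕ}, Rec s n → Record h s n
  add : ∀ {s : ℕ → S} {n k : ℕ}, Rec s n → Rec (shift n s) k → Rec s (n + k)
  sub : ∀ {s : ℕ → S} {n k : ℕ}, Rec s (n + k) → Rec (shift n s) k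
  /-- length of the climb -/
  K : ℕ
  /-- letters of the climb -/
  f : ℕ → S
  f_up : ∀ i < K, 0 ≤ h (f i)
  climb : ∀ {s : ℕ → S} {n : ℕ}, Record h s n → (∀ i < K, s (n + i) = f i) → Rec s (n + K)
  /-- conditional probability of the climb -/
  δ : ℝ≥0∞


variable {h : S → ℝ}

/-- regeneration time -/
def Reg (ρ : RecSys h) (s : ℕ → S) (n : ℕ) : Prop := ρ.Rec s n ∧ shift n s ∈ Stay h

lemma Reg.reg {ρ : RecSys h} {s : ℕ → S} {n : ℕ} (H : Reg ρ s n) : Ren263.Reg h s n :=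
  ⟨ρ.record H.1, H.2⟩

/-- the climb at time `n` -/
def Climb (ρ : RecSys h) (n : ℕ) : Set (ℕ → S) := {s | ∀ i < ρ.K, s (n + i) = ρ.f i}

lemma det_Climb (ρ : RecSys h) (n : ℕ) : Det (n + ρ.K) (Climb ρ n) := by
  intro s s' H
  simp only [Climb, mem_setOf_eq]
  refine forall_congr' fun i => forall_congr' fun hi => ?_
  rw [H (n + i) (by omega)]

lemma climb_hgt {ρ : RecSys h} {n : ℕ} {s : ℕ → S} (hs : s ∈ Climb ρ n) {j : ℕ} (hj : j ≤ ρ.K) :
    hgt h s n ≤ hgt h s (n + j) := by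
  induction j with
  | zero => exact le_rfl
  | succ j ih =>
    rw [← Nat.add_assoc, hgt_succ, hs j (by omega)]
    have := ρ.f_up j (by omega)
    have := ih (by omega)
    linarith

lemma climb_hgt_le {n : ℕ} {s : ℕ → S} {c : ℝ} (hc : ∀ a, h a ≤ c) (j : ℕ) :
    hgt h s (n + j) ≤ hgt h s n + j * c := by
  induction j with
  | zero => simp
  | succ j ih =>
    rw [← Nat.add_assoc, hgt_succ]
    have := hc (s (n + j))
    push_cast
    linarith

lemma rec_congr (ρ : RecSys h) {s s' : ℕ → S} {n : ℕ} (H : ∀ i < n, s i = s' i) {m : ℕ}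
    (hm : m ≤ n) : ρ.Rec s m ↔ ρ.Rec s' m :=
  ρ.det fun i hi => H i (lt_of_lt_of_le hi hm)

lemma det_Rec (ρ : RecSys h) (n : ℕ) : Det n {s | ρ.Rec s n} := fun _ _ H => ρ.det H

/-- `n` is the first regeneration time `≥ 1` of a path in `Stay`, as an event of the first `n`
letters -/
def Good (ρ : RecSys h) (n : ℕ) : Set (ℕ → S) :=
  {s | 1 ≤ n ∧ ρ.Rec s n ∧ (∀ k ≤ n, 0 ≤ hgt h s k) ∧
    ∀ m, 1 ≤ m → m < n → ¬ (ρ.Rec s m ∧ ∀ k, m ≤ k → k ≤ n → hgt h s m ≤ hgt h s k)}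

lemma det_Good (ρ : RecSys h) (n : ℕ) : Det n (Good ρ n) := by
  have key : ∀ s s' : ℕ → S, (∀ i < n, s i = s' i) → s ∈ Good ρ n → s' ∈ Good ρ n := by
    rintro s s' H ⟨h1, h2, h3, h4⟩
    refine ⟨h1, (rec_congr ρ H le_rfl).1 h2, fun k hk => ?_, fun m hm1 hm2 hm3 => ?_⟩
    · rw [← hgt_congr h H hk]; exact h3 k hk
    · refine h4 m hm1 hm2 ⟨(rec_congr ρ H hm2.le).2 hm3.1, fun k hk1 hk2 => ?_⟩
      rw [hgt_congr h H hk2, hgt_congr h H hm2.le]
      exact hm3.2 k hk1 hk2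
  exact fun s s' H => ⟨key s s' H, key s' s fun i hi => (H i hi).symm⟩

lemma good_rec {ρ : RecSys h} {n : ℕ} {s : ℕ → S} (hs : s ∈ Good ρ n) : ρ.Rec s n := hs.2.1

/-- the first regeneration time is `n` -/
lemma good_iff {ρ : RecSys h} {n : ℕ} {s : ℕ → S} :
    (s ∈ Good ρ n ∧ shift n s ∈ Stay h) ↔
      (s ∈ Stay h ∧ 1 ≤ n ∧ Reg ρ s n ∧ ∀ m, 1 ≤ m → m < n → ¬ Reg ρ s m) := by
  constructor
  · rintro ⟨⟨h1, h2, h3, h4⟩, h5⟩
    have h6 := mem_shift_Stay.1 h5
    refine ⟨fun k => ?_, h1, ⟨h2, h5⟩, fun m hm1 hm2 hm3 => ?_⟩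
    · rcases le_total k n with hk | hk
      · exact h3 k hk
      · exact (h3 n le_rfl).trans (h6 k hk)
    · exact h4 m hm1 hm2 ⟨hm3.1, fun k hk1 _ => mem_shift_Stay.1 hm3.2 k hk1⟩
  · rintro ⟨h1, h2, h3, h4⟩
    refine ⟨⟨h2, h3.1, fun k _ => h1 k, fun m hm1 hm2 hm3 => ?_⟩, h3.2⟩
    refine h4 m hm1 hm2 ⟨hm3.1, mem_shift_Stay.2 fun k hk => ?_⟩
    rcases le_total k n with hkn | hkn
    · exact hm3.2 k hk hkn
    · exact (hm3.2 n hm2.le le_rfl).trans (mem_shift_Stay.1 h3.2 k hkn)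

lemma good_unique {ρ : RecSys h} {n m : ℕ} {s : ℕ → S} (hn : s ∈ Good ρ n ∧ shift n s ∈ Stay h)
    (hm : s ∈ Good ρ m ∧ shift m s ∈ Stay h) : n = m := by
  have h1 := good_iff.1 hn
  have h2 := good_iff.1 hm
  rcases lt_trichotomy n m with H | H | H
  · exact absurd h1.2.2.1 (h2.2.2.2 n h1.2.1 H)
  · exact H
  · exact absurd h2.2.2.1 (h1.2.2.2 m h2.2.1 H)

/-- paths in `Stay` whose regeneration times `≥ 1` all have height at least `t` -/
def Big (ρ : RecSys h) (t : ℝ) : Set (ℕ → S) :=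
  {s | s ∈ Stay h ∧ ∀ n, 1 ≤ n → Reg ρ s n → t ≤ hgt h s n}

lemma big_subset (ρ : RecSys h) (t : ℝ) : Big ρ t ⊆ Stay h := fun _ hs => hs.1

lemma reg_shift {ρ : RecSys h} {s : ℕ → S} {n m : ℕ} (hnm : n ≤ m) (hm : Reg ρ s m) :
    Reg ρ (shift n s) (m - n) := by
  obtain ⟨j, rfl⟩ := Nat.exists_eq_add_of_le hnm
  rw [Nat.add_sub_cancel_left]
  exact ⟨ρ.sub hm.1, by rw [shift_shift]; exact hm.2⟩

lemma reg_add {ρ : RecSys h} {s : ℕ → S} {n k : ℕ} (h1 : ρ.Rec s n) (h2 : Reg ρ (shift n s) k) :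
    Reg ρ s (n + k) :=
  ⟨ρ.add h1 h2.1, by rw [← shift_shift]; exact h2.2⟩

section measurable

variable [Countable S] [MeasurableSpace S] [MeasurableSingletonClass S]

lemma measurableSet_Reg (ρ : RecSys h) (n : ℕ) : MeasurableSet {s : ℕ → S | Reg ρ s n} :=
  (det_Rec ρ n).measurableSet.inter (measurable_shift n (measurableSet_Stay h))

lemma measurableSet_Big (ρ : RecSys h) (t : ℝ) : MeasurableSet (Big ρ t) := by
  have : Big ρ t = Stay h ∩ ⋂ n : ℕ, ⋂ _ : 1 ≤ n, ({s | Reg ρ s n}ᶜ ∪ {s | t ≤ hgt h s n}) := by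
    ext s
    simp only [Big, mem_setOf_eq, mem_inter_iff, mem_iInter, mem_union, mem_compl_iff]
    refine and_congr Iff.rfl (forall_congr' fun n => forall_congr' fun _ => ?_)
    tauto
  rw [this]
  exact (measurableSet_Stay h).inter <| MeasurableSet.iInter fun n => MeasurableSet.iInter fun _ =>
    (measurableSet_Reg ρ n).compl.union (measurableSet_le measurable_const (measurable_hgt h n))

/-- The renewal property at admissible record times, and the climb -/
structure RenewalG (ρ : RecSys h) (P : Measure (ℕ → S)) : Prop where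
  ren : ∀ (n : ℕ) (A B : Set (ℕ → S)), Det n A → (∀ s ∈ A, ρ.Rec s n) → MeasurableSet B →
    B ⊆ Stay h → P (A ∩ shift n ⁻¹' B) = P A * P B
  δ_ne : ρ.δ ≠ 0
  clm : ∀ (n : ℕ) (A : Set (ℕ → S)), Det n A → P (A ∩ Climb ρ n) = ρ.δ * P A


variable {ρ : RecSys h} {P : Measure (ℕ → S)} [IsProbabilityMeasure P]

/-- climb and then stay -/
lemma RenewalG.climb_ren (R : RenewalG ρ P) {n : ℕ} {A B : Set (ℕ → S)} (hA : Det n A)
    (hrec : ∀ s ∈ A, Record h s n) (hB : MeasurableSet B) (hBS : B ⊆ Stay h) :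
    P ((A ∩ Climb ρ n) ∩ shift (n + ρ.K) ⁻¹' B) = P A * (ρ.δ * P B) := by
  rw [R.ren (n + ρ.K) (A ∩ Climb ρ n) B ((hA.mono (Nat.le_add_right _ _)).inter (det_Climb ρ n))
    (fun s hs => ρ.climb (hrec s hs.1) hs.2) hB hBS, R.clm n A hA]
  ring

lemma RenewalG.δ_le (R : RenewalG ρ P) : ρ.δ ≤ 1 := by
  have h1 := R.clm 0 univ (Det.univ 0)
  rw [measure_univ, mul_one, univ_inter] at h1
  rw [← h1]
  exact prob_le_one

lemma RenewalG.fail (R : RenewalG ρ P) {n : ℕ} {A : Set (ℕ → S)} (hA : Det n A)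
    (hrec : ∀ s ∈ A, Record h s n) :
    P (A \ (Climb ρ n ∩ shift (n + ρ.K) ⁻¹' Stay h)) = (1 - ρ.δ * P (Stay h)) * P A := by
  have h1 := R.climb_ren hA hrec (measurableSet_Stay h) subset_rfl
  have hm : MeasurableSet (Climb ρ n ∩ shift (n + ρ.K) ⁻¹' Stay h) :=
    (det_Climb ρ n).measurableSet.inter (measurable_shift _ (measurableSet_Stay h))
  have h2 : P (A ∩ (Climb ρ n ∩ shift (n + ρ.K) ⁻¹' Stay h)) +
      P (A \ (Climb ρ n ∩ shift (n + ρ.K) ⁻¹' Stay h)) = P A :=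
    measure_inter_add_diff A hm
  rw [← inter_assoc, h1] at h2
  have h3 : (1 - ρ.δ * P (Stay h)) * P A = P A - (ρ.δ * P (Stay h)) * P A := by
    rw [ENNReal.sub_mul (fun _ _ => measure_ne_top _ _), one_mul]
  have hfin : P A * (ρ.δ * P (Stay h)) ≠ ⊤ :=
    ENNReal.mul_ne_top (measure_ne_top _ _)
      (ENNReal.mul_ne_top (ne_top_of_le_ne_top ENNReal.one_ne_top R.δ_le) (measure_ne_top _ _))
  rw [h3, mul_comm (ρ.δ * P (Stay h))]
  refine ENNReal.eq_sub_of_add_eq hfin ?_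
  rw [add_comm]; exact h2

/-- infinitely many regeneration times as soon as the height is unbounded above -/
theorem RenewalG.reg_io (R : RenewalG ρ P) (hp : P (Stay h) ≠ 0) (j : ℕ) :
    P {s | (∀ M : ℝ, ∃ n, M ≤ hgt h s n) ∧ ∀ n, j ≤ n → ¬ Reg ρ s n} = 0 := by
  have hlt : 1 - ρ.δ * P (Stay h) < 1 :=
    ENNReal.sub_lt_self ENNReal.one_ne_top one_ne_zero (mul_ne_zero R.δ_ne hp)
  refine trial P ?_ hlt fun n0 A hA => ?_
  · have e1 : MeasurableSet {s : ℕ → S | ∀ M : ℝ, ∃ n, M ≤ hgt h s n} := by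
      have : {s : ℕ → S | ∀ M : ℝ, ∃ n, M ≤ hgt h s n} =
          ⋂ m : ℕ, ⋃ n : ℕ, {s | (m : ℝ) ≤ hgt h s n} := by
        ext s
        simp only [mem_setOf_eq, mem_iInter, mem_iUnion]
        constructor
        · intro H m; exact H m
        · intro H M
          obtain ⟨m, hm⟩ := exists_nat_ge M
          obtain ⟨n, hn⟩ := H m
          exact ⟨n, hm.trans hn⟩
      rw [this]
      exact MeasurableSet.iInter fun m => MeasurableSet.iUnion fun n =>
        measurableSet_le measurable_const (measurable_hgt h n)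
    have e2 : MeasurableSet {s : ℕ → S | ∀ n, j ≤ n → ¬ Reg ρ s n} := by
      have : {s : ℕ → S | ∀ n, j ≤ n → ¬ Reg ρ s n} = ⋂ n : ℕ, ⋂ _ : j ≤ n, {s | Reg ρ s n}ᶜ := by
        ext s; simp
      rw [this]
      exact MeasurableSet.iInter fun n => MeasurableSet.iInter fun _ => (measurableSet_Reg ρ n).compl
    exact e1.inter e2
  · set N := max n0 j with hN
    set C : ℕ → Set (ℕ → S) := fun n => {s | s ∈ A ∧ N < n ∧ s ∈ FP h (lev h N s) n} with hC
    have hCdet : ∀ n, Det n (C n) := by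
      intro n s s' H
      by_cases hn : N < n
      · have e1 := (hA.mono ((le_max_left n0 j).trans hn.le)) s s' H
        have e2 : lev h N s = lev h N s' := lev_congr h fun i hi => H i (hi.trans hn)
        have e3 := det_FP h (lev h N s) n s s' H
        simp only [hC, mem_setOf_eq]
        rw [← e2]
        exact and_congr e1 (and_congr Iff.rfl e3)
      · simp only [hC, mem_setOf_eq]
        constructor
        · rintro ⟨_, h2, _⟩; exact absurd h2 hn
        · rintro ⟨_, h2, _⟩; exact absurd h2 hn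
    have hCrec : ∀ n, ∀ s ∈ C n, Record h s n := fun n s hs => record_of_FP hs.2.2
    have hCdisj : Pairwise (Function.onFun Disjoint C) := by
      intro n m hnm
      rw [Function.onFun, Set.disjoint_left]
      intro s hs hs'
      exact hnm (FP_unique hs.2.2 hs'.2.2)
    have hsub : (A ∩ {s | (∀ M : ℝ, ∃ n, M ≤ hgt h s n) ∧ ∀ n, j ≤ n → ¬ Reg ρ s n}) ⊆
        ⋃ n, (C n \ (Climb ρ n ∩ shift (n + ρ.K) ⁻¹' Stay h)) := by
      rintro s ⟨hsA, hs1, hs2⟩
      obtain ⟨n, hn⟩ := exists_FP (hs1 (lev h N s))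
      have hNn : N < n := by
        by_contra hcon
        exact absurd hn.1 (not_le.2 (hgt_lt_lev h (not_lt.1 hcon) s))
      refine mem_iUnion.2 ⟨n, ⟨hsA, hNn, hn⟩, fun hst => ?_⟩
      have hj : j ≤ n := (le_max_right n0 j).trans hNn.le
      exact hs2 (n + ρ.K) (by omega) ⟨ρ.climb (record_of_FP hn) hst.1, hst.2⟩
    calc P (A ∩ {s | (∀ M : ℝ, ∃ n, M ≤ hgt h s n) ∧ ∀ n, j ≤ n → ¬ Reg ρ s n})
        ≤ P (⋃ n, (C n \ (Climb ρ n ∩ shift (n + ρ.K) ⁻¹' Stay h))) := measure_mono hsub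
      _ ≤ ∑' n, P (C n \ (Climb ρ n ∩ shift (n + ρ.K) ⁻¹' Stay h)) := measure_iUnion_le _
      _ = ∑' n, (1 - ρ.δ * P (Stay h)) * P (C n) := by
          congr 1; funext n; exact R.fail (hCdet n) (hCrec n)
      _ = (1 - ρ.δ * P (Stay h)) * ∑' n, P (C n) := ENNReal.tsum_mul_left
      _ = (1 - ρ.δ * P (Stay h)) * P (⋃ n, C n) := by
          rw [measure_iUnion hCdisj fun n => (hCdet n).measurableSet]
      _ ≤ (1 - ρ.δ * P (Stay h)) * P A := by
          gcongr
          exact iUnion_subset fun n s hs => hs.1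

/-- Kalikow: if `P(Stay) ≠ 0` then almost surely: height unbounded above implies that there are
infinitely many regeneration times, and the height tends to `+∞` -/
theorem RenewalG.ae_tendsto (R : RenewalG ρ P) (hp : P (Stay h) ≠ 0) :
    ∀ᵐ s ∂P, (∀ M : ℝ, ∃ n, M ≤ hgt h s n) →
      (∀ j, ∃ n, j ≤ n ∧ Reg ρ s n) ∧ Tendsto (fun n => hgt h s n) atTop atTop := by
  have H : ∀ᵐ s ∂P, ∀ j, ¬ ((∀ M : ℝ, ∃ n, M ≤ hgt h s n) ∧ ∀ n, j ≤ n → ¬ Reg ρ s n) := by
    rw [ae_all_iff]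
    intro j
    exact measure_eq_zero_iff_ae_notMem.1 (R.reg_io hp j)
  filter_upwards [H] with s hs hM
  have h1 : ∀ j, ∃ n, j ≤ n ∧ Reg ρ s n := by
    intro j
    by_contra hcon
    push Not at hcon
    exact hs j ⟨hM, hcon⟩
  refine ⟨h1, tendsto_atTop.2 fun M => ?_⟩
  obtain ⟨n, hn⟩ := hM M
  obtain ⟨m, hm, hr⟩ := h1 (n + 1)
  refine eventually_atTop.2 ⟨m, fun k hk => ?_⟩
  have e1 := ρ.record hr.1 n (Nat.lt_of_succ_le hm)
  have e2 := mem_shift_Stay.1 hr.2 k hk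
  linarith

/-- first block and fresh future -/
theorem RenewalG.block (R : RenewalG ρ P) {n : ℕ} {A B : Set (ℕ → S)} (hA : Det n A)
    (hAG : A ⊆ Good ρ n) (hB : MeasurableSet B) (hBs : B ⊆ Stay h) :
    P (A ∩ shift n ⁻¹' B) = P A * P B :=
  R.ren n A B hA (fun _ hs => good_rec (hAG hs)) hB hBs

/-- the total mass of the good words is one -/
theorem RenewalG.tsum_good (R : RenewalG ρ P) (hp : P (Stay h) ≠ 0)
    (hT : ∀ᵐ s ∂P, s ∈ Stay h → ∀ M : ℝ, ∃ n, M ≤ hgt h s n) :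
    ∑' n, P (Good ρ n) = 1 := by
  have hdisj : Pairwise (Function.onFun Disjoint fun n => Good ρ n ∩ shift n ⁻¹' Stay h) := by
    intro n m hnm
    rw [Function.onFun, Set.disjoint_left]
    intro s hs hs'
    exact hnm (good_unique hs hs')
  have hmeas : ∀ n, MeasurableSet (Good ρ n ∩ shift n ⁻¹' Stay h) := fun n =>
    (det_Good ρ n).measurableSet.inter (measurable_shift n (measurableSet_Stay h))
  have h1 : P (⋃ n, (Good ρ n ∩ shift n ⁻¹' Stay h)) = P (Stay h) := by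
    refine measure_congr ?_
    filter_upwards [R.ae_tendsto hp, hT] with s hs1 hs2
    refine propext ⟨fun hs => ?_, fun hs => ?_⟩
    · obtain ⟨n, hn⟩ := mem_iUnion.1 hs
      exact (good_iff.1 hn).1
    · classical
      obtain ⟨n, hn1, hn2⟩ := (hs1 (hs2 hs)).1 1
      have hex : ∃ n, 1 ≤ n ∧ Reg ρ s n := ⟨n, hn1, hn2⟩
      refine mem_iUnion.2 ⟨Nat.find hex, good_iff.2 ⟨hs, (Nat.find_spec hex).1,
        (Nat.find_spec hex).2, fun m hm1 hm2 hm3 => Nat.find_min hex hm2 ⟨hm1, hm3⟩⟩⟩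
  rw [measure_iUnion hdisj hmeas] at h1
  have h2 : ∀ n, P (Good ρ n ∩ shift n ⁻¹' Stay h) = P (Good ρ n) * P (Stay h) := fun n =>
    R.block (det_Good ρ n) subset_rfl (measurableSet_Stay h) subset_rfl
  simp_rw [h2] at h1
  rw [ENNReal.tsum_mul_right] at h1
  have h3 : (∑' n, P (Good ρ n)) * P (Stay h) = 1 * P (Stay h) := by rw [h1, one_mul]
  exact (ENNReal.mul_left_inj hp (measure_ne_top _ _)).1 h3

end measurable

end Crest.Agent.R154.RenG263
end

-- ▼ part R154/RenG2_263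
section

/-!
Row 154, block B1 for range `R > 0`, part 2: finite mean of the block height; iid words.
-/

set_option autoImplicit false
set_option linter.unusedSectionVars false
set_option linter.deprecated false
open MeasureTheory Filter Set ProbabilityTheory
open scoped ENNReal Topology

namespace Crest.Agent.R154.RenG263

open Crest.Agent.R154.Ren263

variable {S : Type*} {h : S → ℝ}

section measurable

variable [Countable S] [MeasurableSpace S] [MeasurableSingletonClass S]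
variable {ρ : RecSys h} {P : Measure (ℕ → S)} [IsProbabilityMeasure P]

theorem RenewalG.sum_big (R : RenewalG ρ P) (hp : P (Stay h) ≠ 0)
    (hT : ∀ᵐ s ∂P, s ∈ Stay h → ∀ M : ℝ, ∃ n, M ≤ hgt h s n)
    {c b : ℝ} (hc : ∀ a, h a ≤ c) (hc0 : 0 < c) (hb : (ρ.K + 1) * c ≤ b) (N : ℕ) :
    (∑ k ∈ Finset.range N, P (Big ρ ((N - k : ℝ) * b))) * ρ.δ ≤ 1 := by
  have hb0 : 0 < b := lt_of_lt_of_le (by positivity) hb
  -- the events
  set C : ℕ → ℕ → Set (ℕ → S) := fun k n =>
    {s | (∀ j ≤ n, 0 ≤ hgt h s j) ∧ s ∈ FP h (k * b) n} with hC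
  set E : ℕ → Set (ℕ → S) := fun k =>
    ⋃ n, ((C k n ∩ Climb ρ n) ∩ shift (n + ρ.K) ⁻¹' Big ρ ((N - k : ℝ) * b)) with hE
  have hCdet : ∀ k n, Det n (C k n) := by
    intro k n
    have key : ∀ s s' : ℕ → S, (∀ i < n, s i = s' i) → s ∈ C k n → s' ∈ C k n := by
      rintro s s' H ⟨h1, h2⟩
      exact ⟨fun j hj => by rw [← hgt_congr h H hj]; exact h1 j hj, (det_FP h _ n s s' H).1 h2⟩
    exact fun s s' H => ⟨key s s' H, key s' s fun i hi => (H i hi).symm⟩
  have hEm : ∀ k n, MeasurableSet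
      ((C k n ∩ Climb ρ n) ∩ shift (n + ρ.K) ⁻¹' Big ρ ((N - k : ℝ) * b)) := fun k n =>
    ((hCdet k n).measurableSet.inter (det_Climb ρ n).measurableSet).inter
      (measurable_shift _ (measurableSet_Big ρ _))
  have hEmeas : ∀ k, MeasurableSet (E k) := fun k => MeasurableSet.iUnion fun n => hEm k n
  have hCdisj : ∀ k, Pairwise (Function.onFun Disjoint (C k)) := by
    intro k n m hnm
    rw [Function.onFun, Set.disjoint_left]
    intro s hs hs'
    exact hnm (FP_unique hs.2 hs'.2)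
  have hPE : ∀ k, P (E k) = P (⋃ n, C k n) * (ρ.δ * P (Big ρ ((N - k : ℝ) * b))) := by
    intro k
    rw [hE]
    simp only
    rw [measure_iUnion, measure_iUnion (hCdisj k) fun n => (hCdet k n).measurableSet,
      ← ENNReal.tsum_mul_right]
    · congr 1
      funext n
      exact R.climb_ren (hCdet k n) (fun s hs => record_of_FP hs.2) (measurableSet_Big ρ _)
        (big_subset ρ _)
    · intro n m hnm
      refine (hCdisj k hnm).mono ?_ ?_
      · exact fun s hs => hs.1.1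
      · exact fun s hs => hs.1.1
    · exact fun n => hEm k n
  have hPC : ∀ k, P (Stay h) ≤ P (⋃ n, C k n) := by
    intro k
    refine measure_mono_ae ?_
    filter_upwards [hT] with s hs hst
    obtain ⟨n, hn⟩ := exists_FP (hs hst (k * b))
    exact mem_iUnion.2 ⟨n, fun j _ => hst j, hn⟩
  -- height of a first passage and of the end of the climb
  have hfp : ∀ (k n : ℕ) (s : ℕ → S), s ∈ FP h (k * b) n → hgt h s n < k * b + c := by
    intro k n s hs
    rcases Nat.eq_zero_or_pos n with rfl | hn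
    · rw [hgt_zero]; positivity
    · obtain ⟨m, rfl⟩ := Nat.exists_eq_succ_of_ne_zero hn.ne'
      have h1 := hs.2 m (Nat.lt_succ_self m)
      rw [Nat.succ_eq_add_one, hgt_succ]
      have := hc (s m)
      linarith
  have hend : ∀ (k n : ℕ) (s : ℕ → S), s ∈ FP h (k * b) n →
      hgt h s (n + ρ.K) < (k + 1) * b := by
    intro k n s hs
    have h1 := hfp k n s hs
    have h2 := climb_hgt_le (n := n) (s := s) hc ρ.K
    nlinarith
  have hEsub : ∀ k, E k ⊆ Stay h := by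
    intro k s hs
    obtain ⟨n, ⟨⟨h1, h2⟩, h3⟩, h4⟩ := mem_iUnion.1 hs
    intro j
    rcases le_total j n with hj | hj
    · exact h1 j hj
    · rcases le_total j (n + ρ.K) with hj2 | hj2
      · obtain ⟨i, rfl⟩ := Nat.exists_eq_add_of_le hj
        have := climb_hgt h3 (j := i) (by omega)
        have := h1 n le_rfl
        linarith
      · have e1 := climb_hgt h3 (j := ρ.K) le_rfl
        have e2 := h1 n le_rfl
        have e3 := mem_shift_Stay.1 h4.1 j hj2
        linarith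
  have hEdisj : ∀ k j, k < j → j < N → Disjoint (E k) (E j) := by
    intro k j hkj hjK
    rw [Set.disjoint_left]
    intro s hsk hsj
    obtain ⟨n, ⟨⟨_, hn⟩, hcn⟩, hbn⟩ := mem_iUnion.1 hsk
    obtain ⟨m, ⟨⟨_, hm⟩, hcm⟩, hbm⟩ := mem_iUnion.1 hsj
    have e1 := hend k n s hn
    have e2 := hend j m s hm
    have hkj' : (k : ℝ) + 1 ≤ j := by exact_mod_cast hkj
    have hjK' : (j : ℝ) + 1 ≤ N := by exact_mod_cast hjK
    have e3 : (j : ℝ) * b ≤ hgt h s m := hm.1
    have e4 : (k : ℝ) * b ≤ hgt h s n := hn.1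
    have e5 := climb_hgt hcn (j := ρ.K) le_rfl
    have e5' := hfp k n s hn
    have hnm : n < m := by
      by_contra hcon
      rcases (not_lt.1 hcon).eq_or_lt with he | hl
      · subst he
        have : c ≤ b := by
          refine le_trans ?_ hb
          nlinarith [(Nat.cast_nonneg ρ.K : (0:ℝ) ≤ ρ.K)]
        nlinarith
      · have := record_of_FP hn m hl
        have : c ≤ b := by
          refine le_trans ?_ hb
          nlinarith [(Nat.cast_nonneg ρ.K : (0:ℝ) ≤ ρ.K)]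
        nlinarith
    have hreg : Reg ρ s (m + ρ.K) := ⟨ρ.climb (record_of_FP hm) hcm, hbm.1⟩
    have e6 := hbn.2 (m + ρ.K - (n + ρ.K)) (by omega) (reg_shift (by omega) hreg)
    rw [hgt_shift, Nat.add_sub_cancel' (by omega : n + ρ.K ≤ m + ρ.K)] at e6
    nlinarith
  have hsum : ∑ k ∈ Finset.range N, P (E k) ≤ P (Stay h) := by
    rw [← measure_biUnion_finset]
    · refine measure_mono ?_
      intro s hs
      simp only [mem_iUnion] at hs
      obtain ⟨k, _, hk⟩ := hs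
      exact hEsub k hk
    · intro k hk j hj hkj
      simp only [Finset.coe_range, mem_Iio] at hk hj
      rcases lt_or_gt_of_ne hkj with H | H
      · exact hEdisj k j H hj
      · exact (hEdisj j k H hk).symm
    · exact fun k _ => hEmeas k
  have h1 : ((∑ k ∈ Finset.range N, P (Big ρ ((N - k : ℝ) * b))) * ρ.δ) * P (Stay h) ≤
      1 * P (Stay h) := by
    rw [one_mul, mul_assoc, Finset.sum_mul]
    refine le_trans (Finset.sum_le_sum fun k _ => ?_) hsum
    rw [hPE, mul_comm, mul_comm ρ.δ, mul_assoc]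
    exact mul_le_mul' (hPC k) le_rfl
  exact (ENNReal.mul_le_mul_iff_left hp (measure_ne_top _ _)).1 h1

/-- tail sum of the first regeneration height -/
theorem RenewalG.tsum_big (R : RenewalG ρ P) (hp : P (Stay h) ≠ 0)
    (hT : ∀ᵐ s ∂P, s ∈ Stay h → ∀ M : ℝ, ∃ n, M ≤ hgt h s n)
    {c b : ℝ} (hc : ∀ a, h a ≤ c) (hc0 : 0 < c) (hb : (ρ.K + 1) * c ≤ b) :
    ∑' k : ℕ, P (Big ρ ((k + 1 : ℝ) * b)) ≤ ρ.δ⁻¹ := by
  rw [ENNReal.tsum_eq_iSup_nat]
  refine iSup_le fun N => ?_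
  rw [← Finset.sum_range_reflect]
  have hδ : ρ.δ ≠ ⊤ := ne_top_of_le_ne_top ENNReal.one_ne_top R.δ_le
  have h0 := R.sum_big hp hT hc hc0 hb N
  have h1 : ∑ k ∈ Finset.range N, P (Big ρ ((N - k : ℝ) * b)) ≤ ρ.δ⁻¹ := by
    rw [ENNReal.le_inv_iff_mul_le]
    exact h0
  refine le_trans (le_of_eq (Finset.sum_congr rfl fun k hk => ?_)) h1
  have hk' := Finset.mem_range.1 hk
  have : ((N - 1 - k : ℕ) : ℝ) + 1 = (N : ℝ) - k := by
    have h1 : (N - 1 - k : ℕ) + 1 + k = N := by omega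
    have h2 : ((N - 1 - k : ℕ) : ℝ) + 1 + k = N := by exact_mod_cast h1
    linarith
  rw [this]

/-- the law of the first block height: `P (Big t) = P(Stay) * Σ_n P(Good n, height ≥ t)` -/
theorem RenewalG.big_eq (R : RenewalG ρ P) (hp : P (Stay h) ≠ 0)
    (hT : ∀ᵐ s ∂P, s ∈ Stay h → ∀ M : ℝ, ∃ n, M ≤ hgt h s n) (t : ℝ) :
    P (Big ρ t) = (∑' n, P (Good ρ n ∩ {s | t ≤ hgt h s n})) * P (Stay h) := by
  have hdet : ∀ n, Det n (Good ρ n ∩ {s : ℕ → S | t ≤ hgt h s n}) := by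
    intro n
    refine (det_Good ρ n).inter ?_
    intro s s' H
    simp only [mem_setOf_eq]
    rw [hgt_congr h H le_rfl]
  have h1 : P (Big ρ t) =
      P (⋃ n, ((Good ρ n ∩ {s | t ≤ hgt h s n}) ∩ shift n ⁻¹' Stay h)) := by
    refine measure_congr ?_
    filter_upwards [R.ae_tendsto hp, hT] with s hs1 hs2
    refine propext ⟨fun hs => ?_, fun hs => ?_⟩
    · classical
      obtain ⟨n, hn1, hn2⟩ := (hs1 (hs2 hs.1)).1 1
      have hex : ∃ n, 1 ≤ n ∧ Reg ρ s n := ⟨n, hn1, hn2⟩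
      have hg := good_iff.2 ⟨hs.1, (Nat.find_spec hex).1,
        (Nat.find_spec hex).2, fun m hm1 hm2 hm3 => Nat.find_min hex hm2 ⟨hm1, hm3⟩⟩
      exact mem_iUnion.2 ⟨Nat.find hex, ⟨hg.1, hs.2 _ (Nat.find_spec hex).1
        (Nat.find_spec hex).2⟩, hg.2⟩
    · obtain ⟨n, ⟨hn1, hn2⟩, hn3⟩ := mem_iUnion.1 hs
      have hg := good_iff.1 ⟨hn1, hn3⟩
      refine ⟨hg.1, fun m hm hr => ?_⟩
      have hnm : n ≤ m := by
        by_contra hcon
        exact hg.2.2.2 m hm (not_le.1 hcon) hr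
      exact le_trans hn2 (mem_shift_Stay.1 hn3 m hnm)
  rw [h1, measure_iUnion, ← ENNReal.tsum_mul_right]
  · congr 1
    funext n
    exact R.block (hdet n) inter_subset_left (measurableSet_Stay h) subset_rfl
  · intro n m hnm
    rw [Function.onFun, Set.disjoint_left]
    rintro s ⟨⟨hs1, _⟩, hs2⟩ ⟨⟨hs1', _⟩, hs2'⟩
    exact hnm (good_unique ⟨hs1, hs2⟩ ⟨hs1', hs2'⟩)
  · exact fun n => (hdet n).measurableSet.inter (measurable_shift n (measurableSet_Stay h))

/-- finite mean of the block height -/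
theorem RenewalG.mean_le (R : RenewalG ρ P) (hp : P (Stay h) ≠ 0)
    (hT : ∀ᵐ s ∂P, s ∈ Stay h → ∀ M : ℝ, ∃ n, M ≤ hgt h s n)
    {c b : ℝ} (hc : ∀ a, h a ≤ c) (hc0 : 0 < c) (hb : (ρ.K + 1) * c ≤ b) :
    ∑' n, ∫⁻ s in Good ρ n, ENNReal.ofReal (hgt h s n) ∂P ≤
      ENNReal.ofReal b * (1 + ρ.δ⁻¹ * (P (Stay h))⁻¹) := by
  have hb0 : 0 < b := lt_of_lt_of_le (by positivity) hb
  -- pointwise bound of the height by a sum of indicators
  have hpt : ∀ (n : ℕ) (s : ℕ → S), ENNReal.ofReal (hgt h s n) ≤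
      ENNReal.ofReal b * (1 + ∑' k : ℕ,
        ({s : ℕ → S | ((k + 1 : ℝ) * b) ≤ hgt h s n}.indicator (fun _ => (1 : ℝ≥0∞)) s)) := by
    intro n s
    set y := hgt h s n with hy
    rcases le_or_gt y 0 with hy0 | hy0
    · rw [ENNReal.ofReal_of_nonpos hy0]; exact zero_le
    set N := ⌊y / b⌋₊ with hN
    have h1 : y / b < N + 1 := Nat.lt_floor_add_one _
    have h2 : (N : ℝ≥0∞) ≤ ∑' k : ℕ,
        ({s : ℕ → S | ((k + 1 : ℝ) * b) ≤ hgt h s n}.indicator (fun _ => (1 : ℝ≥0∞)) s) := by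
      refine le_trans ?_ (ENNReal.sum_le_tsum (Finset.range N))
      have : ∀ k ∈ Finset.range N,
          ({s : ℕ → S | ((k + 1 : ℝ) * b) ≤ hgt h s n}.indicator (fun _ => (1 : ℝ≥0∞)) s) = 1 := by
        intro k hk
        rw [indicator_of_mem]
        simp only [mem_setOf_eq]
        have hk' : ((k : ℝ) + 1) ≤ N := by exact_mod_cast Finset.mem_range.1 hk
        have hNy : (N : ℝ) ≤ y / b := Nat.floor_le (by positivity)
        have : ((k : ℝ) + 1) ≤ y / b := hk'.trans hNy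
        rwa [le_div_iff₀ hb0] at this
      rw [Finset.sum_congr rfl this]
      simp
    calc ENNReal.ofReal y ≤ ENNReal.ofReal (b * (1 + N)) := by
          refine ENNReal.ofReal_le_ofReal ?_
          rw [div_lt_iff₀ hb0] at h1
          nlinarith
      _ = ENNReal.ofReal b * (1 + (N : ℝ≥0∞)) := by
          rw [ENNReal.ofReal_mul hb0.le, ENNReal.ofReal_add zero_le_one (by positivity),
            ENNReal.ofReal_one, ENNReal.ofReal_natCast]
      _ ≤ _ := by gcongr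
  have hmeas : ∀ (n k : ℕ), MeasurableSet {s : ℕ → S | ((k + 1 : ℝ) * b) ≤ hgt h s n} :=
    fun n k => measurableSet_le measurable_const (measurable_hgt h n)
  have hI : ∀ n, ∫⁻ s in Good ρ n, ENNReal.ofReal (hgt h s n) ∂P ≤
      ENNReal.ofReal b * (P (Good ρ n) + ∑' k : ℕ,
        P (Good ρ n ∩ {s : ℕ → S | ((k + 1 : ℝ) * b) ≤ hgt h s n})) := by
    intro n
    calc ∫⁻ s in Good ρ n, ENNReal.ofReal (hgt h s n) ∂P
        ≤ ∫⁻ s in Good ρ n, ENNReal.ofReal b * (1 + ∑' k : ℕ,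
        ({s : ℕ → S | ((k + 1 : ℝ) * b) ≤ hgt h s n}.indicator (fun _ => (1 : ℝ≥0∞)) s)) ∂P :=
          lintegral_mono fun s => hpt n s
      _ = ENNReal.ofReal b * (P (Good ρ n) + ∑' k : ℕ,
        P (Good ρ n ∩ {s : ℕ → S | ((k + 1 : ℝ) * b) ≤ hgt h s n})) := by
          rw [lintegral_const_mul' _ _ ENNReal.ofReal_ne_top, lintegral_add_left measurable_const,
            lintegral_tsum]
          · congr 2
            · simp
            · congr 1
              funext k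
              rw [lintegral_indicator (hmeas n k), lintegral_const, Measure.restrict_restrict (hmeas n k)]
              rw [one_mul, Measure.restrict_apply_univ, inter_comm]
          · intro k
            exact (measurable_const.indicator (hmeas n k)).aemeasurable
  have hbig : ∀ k : ℕ, ∑' n, P (Good ρ n ∩ {s : ℕ → S | ((k + 1 : ℝ) * b) ≤ hgt h s n}) =
      P (Big ρ ((k + 1 : ℝ) * b)) * (P (Stay h))⁻¹ := by
    intro k
    rw [R.big_eq hp hT, mul_assoc, ENNReal.mul_inv_cancel hp (measure_ne_top _ _), mul_one]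
  calc ∑' n, ∫⁻ s in Good ρ n, ENNReal.ofReal (hgt h s n) ∂P
      ≤ ∑' n, ENNReal.ofReal b * (P (Good ρ n) + ∑' k : ℕ,
        P (Good ρ n ∩ {s : ℕ → S | ((k + 1 : ℝ) * b) ≤ hgt h s n})) := ENNReal.tsum_le_tsum hI
    _ = ENNReal.ofReal b * (∑' n, P (Good ρ n) + ∑' n, ∑' k : ℕ,
        P (Good ρ n ∩ {s : ℕ → S | ((k + 1 : ℝ) * b) ≤ hgt h s n})) := by
        rw [ENNReal.tsum_mul_left, ENNReal.tsum_add]
    _ = ENNReal.ofReal b * (1 + ∑' k : ℕ, P (Big ρ ((k + 1 : ℝ) * b)) * (P (Stay h))⁻¹) := by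
        rw [R.tsum_good hp hT, ENNReal.tsum_comm]
        congr 2
        congr 1
        funext k
        exact hbig k
    _ ≤ ENNReal.ofReal b * (1 + ρ.δ⁻¹ * (P (Stay h))⁻¹) := by
        rw [ENNReal.tsum_mul_right]
        gcongr
        exact R.tsum_big hp hT hc hc0 hb

end measurable

end Crest.Agent.R154.RenG263
end

-- ▼ part R154/RenG3_263

/-!
Row 154, block B1 for range `R > 0`, part 3: representation of the conditioned law as the law of
the concatenation of iid words.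
-/

set_option autoImplicit false
set_option linter.unusedSectionVars false
set_option linter.deprecated false
open MeasureTheory Filter Set ProbabilityTheory
open scoped ENNReal Topology

namespace Crest.Agent.R154.RenG263

open Crest.Agent.R154.Ren263

variable {S : Type*} {h : S → ℝ}

/-- first regeneration time `≥ 1` -/
noncomputable def tau (ρ : RecSys h) (s : ℕ → S) : ℕ := sInf {n | 1 ≤ n ∧ Reg ρ s n}

/-- first block -/
noncomputable def blk0 (ρ : RecSys h) (s : ℕ → S) : Word S := pre (tau ρ s) s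

/-- the path after the first block -/
noncomputable def rest (ρ : RecSys h) (s : ℕ → S) : ℕ → S := shift (tau ρ s) s

/-- all blocks -/
noncomputable def blks (ρ : RecSys h) (s : ℕ → S) (k : ℕ) : Word S := blk0 ρ ((rest ρ)^[k] s)

lemma blks_zero (ρ : RecSys h) (s : ℕ → S) : blks ρ s 0 = blk0 ρ s := rfl

lemma blks_succ (ρ : RecSys h) (s : ℕ → S) (k : ℕ) :
    blks ρ s (k + 1) = blks ρ (rest ρ s) k := rfl

/-- paths which stay above the start and have infinitely many regeneration times -/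
def RegInf (ρ : RecSys h) : Set (ℕ → S) := {s | s ∈ Stay h ∧ ∀ j, ∃ n, j ≤ n ∧ Reg ρ s n}

lemma tau_spec {ρ : RecSys h} {s : ℕ → S} (hs : s ∈ RegInf ρ) :
    1 ≤ tau ρ s ∧ Reg ρ s (tau ρ s) := by
  obtain ⟨n, hn⟩ := hs.2 1
  exact Nat.sInf_mem (s := {n | 1 ≤ n ∧ Reg ρ s n}) ⟨n, hn⟩

lemma tau_min {ρ : RecSys h} {s : ℕ → S} {m : ℕ} (h1 : 1 ≤ m) (hm : m < tau ρ s) :
    ¬ Reg ρ s m :=
  fun hr => Nat.notMem_of_lt_sInf hm ⟨h1, hr⟩

lemma good_tau {ρ : RecSys h} {s : ℕ → S} (hs : s ∈ RegInf ρ) :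
    s ∈ Good ρ (tau ρ s) ∧ shift (tau ρ s) s ∈ Stay h :=
  good_iff.2 ⟨hs.1, (tau_spec hs).1, (tau_spec hs).2, fun _ h1 h2 => tau_min h1 h2⟩

lemma tau_eq {ρ : RecSys h} {s : ℕ → S} {n : ℕ} (hs : s ∈ Good ρ n ∧ shift n s ∈ Stay h) :
    tau ρ s = n := by
  have h1 := good_iff.1 hs
  refine le_antisymm (Nat.sInf_le ⟨h1.2.1, h1.2.2.1⟩) ?_
  have h2 : tau ρ s ∈ {n | 1 ≤ n ∧ Reg ρ s n} :=
    Nat.sInf_mem (s := {n | 1 ≤ n ∧ Reg ρ s n}) ⟨n, h1.2.1, h1.2.2.1⟩
  by_contra hcon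
  exact h1.2.2.2 _ h2.1 (not_le.1 hcon) h2.2

lemma rest_mem {ρ : RecSys h} {s : ℕ → S} (hs : s ∈ RegInf ρ) : rest ρ s ∈ RegInf ρ := by
  refine ⟨(tau_spec hs).2.2, fun j => ?_⟩
  obtain ⟨n, hn, hr⟩ := hs.2 (tau ρ s + j)
  exact ⟨n - tau ρ s, by omega, reg_shift (by omega) hr⟩

lemma catF_blks [Inhabited S] {ρ : RecSys h} : ∀ (f k : ℕ) (s : ℕ → S), k < f → s ∈ RegInf ρ →
    catF f k (blks ρ s) = s k := by
  intro f
  induction f with
  | zero => intro k s hk; exact absurd hk (Nat.not_lt_zero _)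
  | succ f ih =>
    intro k s hk hs
    have h1 := tau_spec hs
    have hl : (blks ρ s 0).len = tau ρ s := by rw [blks_zero, blk0, len_pre]
    simp only [catF]
    split_ifs with hlt
    · rw [hl] at hlt
      rw [blks_zero, blk0, letter_pre hlt]
    · rw [hl] at hlt ⊢
      have : (fun i => blks ρ s (i + 1)) = blks ρ (rest ρ s) := rfl
      rw [this, ih _ _ (by omega) (rest_mem hs)]
      simp only [rest, shift]
      congr 1
      omega

lemma cat_blks [Inhabited S] {ρ : RecSys h} {s : ℕ → S} (hs : s ∈ RegInf ρ) :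
    cat (blks ρ s) = s := by
  funext k
  exact catF_blks (k + 1) k s (Nat.lt_succ_self k) hs

section measurable

variable [Countable S] [MeasurableSpace S] [MeasurableSingletonClass S]

lemma measurable_tau (ρ : RecSys h) : Measurable (tau ρ) := by
  classical
  have hle : ∀ n, 1 ≤ n → MeasurableSet {s : ℕ → S | 1 ≤ tau ρ s ∧ tau ρ s ≤ n} := by
    intro n hn
    have : {s : ℕ → S | 1 ≤ tau ρ s ∧ tau ρ s ≤ n} = ⋃ m ∈ Finset.Icc 1 n, {s | Reg ρ s m} := by
      ext s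
      simp only [mem_setOf_eq, mem_iUnion, Finset.mem_Icc, exists_prop]
      constructor
      · rintro ⟨h1, h2⟩
        have h3 : tau ρ s ∈ {n | 1 ≤ n ∧ Reg ρ s n} :=
          Nat.sInf_mem (Nat.nonempty_of_pos_sInf h1)
        exact ⟨tau ρ s, ⟨h1, h2⟩, h3.2⟩
      · rintro ⟨m, ⟨h1, h2⟩, h3⟩
        have h4 : tau ρ s ∈ {n | 1 ≤ n ∧ Reg ρ s n} := Nat.sInf_mem ⟨m, h1, h3⟩
        exact ⟨h4.1, (Nat.sInf_le (s := {n | 1 ≤ n ∧ Reg ρ s n}) ⟨h1, h3⟩).trans h2⟩
    rw [this]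
    exact MeasurableSet.biUnion (Finset.countable_toSet _) fun m _ => measurableSet_Reg ρ m
  have hpos : MeasurableSet {s : ℕ → S | 1 ≤ tau ρ s} := by
    have : {s : ℕ → S | 1 ≤ tau ρ s} = ⋃ n : ℕ, {s | 1 ≤ tau ρ s ∧ tau ρ s ≤ n + 1} := by
      ext s
      simp only [mem_setOf_eq, mem_iUnion]
      exact ⟨fun H => ⟨tau ρ s, H, Nat.le_succ _⟩, fun ⟨_, H, _⟩ => H⟩
    rw [this]
    exact MeasurableSet.iUnion fun n => hle (n + 1) (Nat.succ_le_succ (Nat.zero_le _))
  refine measurable_to_countable' fun n => ?_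
  rcases Nat.eq_zero_or_pos n with rfl | hn
  · have : tau ρ ⁻¹' {0} = {s : ℕ → S | 1 ≤ tau ρ s}ᶜ := by
      ext s
      simp only [mem_preimage, mem_singleton_iff, mem_compl_iff, mem_setOf_eq]
      omega
    rw [this]; exact hpos.compl
  · have : tau ρ ⁻¹' {n} = {s : ℕ → S | 1 ≤ tau ρ s ∧ tau ρ s ≤ n} \
        {s : ℕ → S | 2 ≤ n ∧ 1 ≤ tau ρ s ∧ tau ρ s ≤ n - 1} := by
      ext s
      simp only [mem_preimage, mem_singleton_iff, mem_diff, mem_setOf_eq]
      omega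
    rw [this]
    refine (hle n hn).diff ?_
    by_cases h2 : 2 ≤ n
    · have := hle (n - 1) (by omega)
      simpa [h2] using this
    · simp [h2]

lemma measurable_rest (ρ : RecSys h) : Measurable (rest ρ) := by
  have h1 : Measurable fun p : ℕ × (ℕ → S) => shift p.1 p.2 :=
    measurable_from_prod_countable_right fun n => measurable_shift n
  exact h1.comp ((measurable_tau ρ).prodMk measurable_id)

lemma measurable_blk0 (ρ : RecSys h) : Measurable (blk0 ρ) := by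
  have h1 : Measurable fun p : ℕ × (ℕ → S) => pre p.1 p.2 :=
    measurable_from_prod_countable_right fun n => measurable_pre n
  exact h1.comp ((measurable_tau ρ).prodMk measurable_id)

lemma measurable_blks (ρ : RecSys h) : Measurable (blks ρ) :=
  measurable_pi_lambda _ fun k => (measurable_blk0 ρ).comp ((measurable_rest ρ).iterate k)

/-- law of one regeneration block -/
noncomputable def wordLaw (ρ : RecSys h) (P : Measure (ℕ → S)) : Measure (Word S) :=
  Measure.sum fun n => (P.restrict (Good ρ n)).map (pre n)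

lemma wordLaw_apply (ρ : RecSys h) (P : Measure (ℕ → S)) (T : Set (Word S)) :
    wordLaw ρ P T = ∑' n, P (Good ρ n ∩ {s | pre n s ∈ T}) := by
  unfold wordLaw
  rw [Measure.sum_apply _ (MeasurableSet.of_discrete)]
  congr 1
  funext n
  rw [Measure.map_apply (measurable_pre n) MeasurableSet.of_discrete,
    Measure.restrict_apply (measurable_pre n MeasurableSet.of_discrete), inter_comm]
  rfl

variable {ρ : RecSys h} {P : Measure (ℕ → S)} [IsProbabilityMeasure P]

theorem RenewalG.isProb (R : RenewalG ρ P) (hp : P (Stay h) ≠ 0)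
    (hT : ∀ᵐ s ∂P, s ∈ Stay h → ∀ M : ℝ, ∃ n, M ≤ hgt h s n) :
    IsProbabilityMeasure (wordLaw ρ P) := by
  refine ⟨?_⟩
  rw [wordLaw_apply]
  simp only [mem_univ, setOf_true, inter_univ]
  exact R.tsum_good hp hT

theorem RenewalG.ae_regInf (R : RenewalG ρ P) (hp : P (Stay h) ≠ 0)
    (hT : ∀ᵐ s ∂P, s ∈ Stay h → ∀ M : ℝ, ∃ n, M ≤ hgt h s n) :
    ∀ᵐ s ∂P, s ∈ Stay h → s ∈ RegInf ρ := by
  filter_upwards [R.ae_tendsto hp, hT] with s h1 h2 h3
  exact ⟨h3, (h1 (h2 h3)).1⟩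

/-- one step: first block and the rest -/
theorem RenewalG.one_step (R : RenewalG ρ P) (hp : P (Stay h) ≠ 0)
    (hT : ∀ᵐ s ∂P, s ∈ Stay h → ∀ M : ℝ, ∃ n, M ≤ hgt h s n)
    (T : Set (Word S)) {B : Set (ℕ → S)} (hB : MeasurableSet B) :
    P (Stay h ∩ {s | blk0 ρ s ∈ T ∧ rest ρ s ∈ B}) = wordLaw ρ P T * P (Stay h ∩ B) := by
  have h1 : P (Stay h ∩ {s | blk0 ρ s ∈ T ∧ rest ρ s ∈ B}) =
      P (⋃ n, ((Good ρ n ∩ {s | pre n s ∈ T}) ∩ shift n ⁻¹' (Stay h ∩ B))) := by
    refine measure_congr ?_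
    filter_upwards [R.ae_regInf hp hT] with s hs
    refine propext ⟨fun H => ?_, fun H => ?_⟩
    · have hg := good_tau (hs H.1)
      exact mem_iUnion.2 ⟨tau ρ s, ⟨hg.1, H.2.1⟩, hg.2, H.2.2⟩
    · obtain ⟨n, ⟨hn1, hn2⟩, hn3, hn4⟩ := mem_iUnion.1 H
      have he := tau_eq ⟨hn1, hn3⟩
      refine ⟨(good_iff.1 ⟨hn1, hn3⟩).1, ?_, ?_⟩
      · show pre (tau ρ s) s ∈ T
        rw [he]; exact hn2
      · show shift (tau ρ s) s ∈ B
        rw [he]; exact hn4
  rw [h1, measure_iUnion, wordLaw_apply, ← ENNReal.tsum_mul_right]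
  · congr 1
    funext n
    exact R.block ((det_Good ρ n).inter (det_pre n T)) inter_subset_left
      ((measurableSet_Stay h).inter hB) inter_subset_left
  · intro n m hnm
    rw [Function.onFun, Set.disjoint_left]
    rintro s ⟨⟨hs1, _⟩, hs2, _⟩ ⟨⟨hs1', _⟩, hs2', _⟩
    exact hnm (good_unique ⟨hs1, hs2⟩ ⟨hs1', hs2'⟩)
  · exact fun n => ((det_Good ρ n).inter (det_pre n T)).measurableSet.inter
      (measurable_shift n ((measurableSet_Stay h).inter hB))

/-- the first `n` blocks and the rest -/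
theorem RenewalG.n_step (R : RenewalG ρ P) (hp : P (Stay h) ≠ 0)
    (hT : ∀ᵐ s ∂P, s ∈ Stay h → ∀ M : ℝ, ∃ n, M ≤ hgt h s n) (n : ℕ) :
    ∀ (t : ℕ → Set (Word S)) (B : Set (ℕ → S)), MeasurableSet B →
    P (Stay h ∩ {s | (∀ i < n, blks ρ s i ∈ t i) ∧ (rest ρ)^[n] s ∈ B}) =
      (∏ i ∈ Finset.range n, wordLaw ρ P (t i)) * P (Stay h ∩ B) := by
  induction n with
  | zero =>
    intro t B _
    simp
  | succ n ih =>
    intro t B hB
    have hB' : MeasurableSet {s : ℕ → S | (∀ i < n, blks ρ s i ∈ t (i + 1)) ∧ (rest ρ)^[n] s ∈ B} := by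
      have e1 : MeasurableSet {s : ℕ → S | ∀ i < n, blks ρ s i ∈ t (i + 1)} := by
        have : {s : ℕ → S | ∀ i < n, blks ρ s i ∈ t (i + 1)} =
            ⋂ i : ℕ, ⋂ _ : i < n, {s | blks ρ s i ∈ t (i + 1)} := by ext s; simp
        rw [this]
        exact MeasurableSet.iInter fun i => MeasurableSet.iInter fun _ =>
          ((measurable_pi_apply i).comp (measurable_blks ρ)) MeasurableSet.of_discrete
      exact e1.inter ((measurable_rest ρ).iterate n hB)
    have h1 : {s : ℕ → S | (∀ i < n + 1, blks ρ s i ∈ t i) ∧ (rest ρ)^[n + 1] s ∈ B} =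
        {s | blk0 ρ s ∈ t 0 ∧ rest ρ s ∈
          {s : ℕ → S | (∀ i < n, blks ρ s i ∈ t (i + 1)) ∧ (rest ρ)^[n] s ∈ B}} := by
      ext s
      simp only [mem_setOf_eq, Function.iterate_succ, Function.comp]
      constructor
      · rintro ⟨H1, H2⟩
        exact ⟨H1 0 (Nat.succ_pos _), fun i hi => H1 (i + 1) (Nat.succ_lt_succ hi), H2⟩
      · rintro ⟨H0, H1, H2⟩
        refine ⟨fun i hi => ?_, H2⟩
        rcases i with _ | i
        · exact H0
        · exact H1 i (Nat.lt_of_succ_lt_succ hi)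
    rw [h1, R.one_step hp hT (t 0) hB', ih (fun i => t (i + 1)) B hB, Finset.prod_range_succ', ← mul_assoc,
      mul_comm (wordLaw ρ P (t 0))]

/-- under `P( . | Stay)` the blocks are iid with law `wordLaw` -/
theorem RenewalG.map_blks (R : RenewalG ρ P) (hp : P (Stay h) ≠ 0)
    (hT : ∀ᵐ s ∂P, s ∈ Stay h → ∀ M : ℝ, ∃ n, M ≤ hgt h s n) :
    (cond P (Stay h)).map (blks ρ) = Measure.infinitePi fun _ : ℕ => wordLaw ρ P := by
  classical
  have := R.isProb hp hT
  refine Measure.eq_infinitePi _ fun s t _ => ?_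
  obtain ⟨N, hN⟩ : ∃ N, s ⊆ Finset.range N := ⟨s.sup id + 1, fun i hi =>
    Finset.mem_range.2 (Nat.lt_succ_of_le (Finset.le_sup (f := id) hi))⟩
  set t' : ℕ → Set (Word S) := fun i => if i ∈ s then t i else univ with ht'
  have hset : blks ρ ⁻¹' (Set.pi s t) = {σ : ℕ → S | (∀ i < N, blks ρ σ i ∈ t' i) ∧ (rest ρ)^[N] σ ∈ (univ : Set (ℕ → S))} := by
    ext σ
    simp only [mem_preimage, Set.mem_pi, mem_setOf_eq, mem_univ, and_true, Finset.mem_coe, ht']
    constructor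
    · intro H i _
      split_ifs with his
      · exact H i his
      · exact mem_univ _
    · intro H i hi
      have := H i (Finset.mem_range.1 (hN hi))
      rwa [if_pos hi] at this
  have hms : MeasurableSet (Set.pi (s : Set ℕ) t) :=
    MeasurableSet.pi s.countable_toSet fun i _ => MeasurableSet.of_discrete
  rw [Measure.map_apply (measurable_blks ρ) hms, cond_apply (measurableSet_Stay h), hset,
    R.n_step hp hT N t' univ MeasurableSet.univ, inter_univ]
  have hprod : ∏ i ∈ Finset.range N, wordLaw ρ P (t' i) = ∏ i ∈ s, wordLaw ρ P (t i) := by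
    rw [← Finset.prod_subset hN]
    · refine Finset.prod_congr rfl fun i hi => ?_
      simp only [ht', if_pos hi]
    · intro i _ hi
      simp only [ht', if_neg hi]
      exact measure_univ
  rw [hprod, mul_comm, mul_assoc, ENNReal.mul_inv_cancel hp (measure_ne_top _ _), mul_one]


/-- mean height of a block -/
theorem RenewalG.lintegral_ht_le (R : RenewalG ρ P) (hp : P (Stay h) ≠ 0)
    (hT : ∀ᵐ s ∂P, s ∈ Stay h → ∀ M : ℝ, ∃ n, M ≤ hgt h s n)
    {c b : ℝ} (hc : ∀ a, h a ≤ c) (hc0 : 0 < c) (hb : (ρ.K + 1) * c ≤ b) :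
    ∫⁻ u, ENNReal.ofReal (Word.ht h u) ∂(wordLaw ρ P) ≤
      ENNReal.ofReal b * (1 + ρ.δ⁻¹ * (P (Stay h))⁻¹) := by
  unfold wordLaw
  rw [lintegral_sum_measure]
  refine le_trans (le_of_eq ?_) (R.mean_le hp hT hc hc0 hb)
  congr 1
  funext n
  rw [lintegral_map (measurable_of_countable _) (measurable_pre n)]
  simp only [ht_pre]

theorem RenewalG.lintegral_ht_lt_top [Finite S] (R : RenewalG ρ P) (hp : P (Stay h) ≠ 0)
    (hT : ∀ᵐ s ∂P, s ∈ Stay h → ∀ M : ℝ, ∃ n, M ≤ hgt h s n) :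
    ∫⁻ u, ENNReal.ofReal (Word.ht h u) ∂(wordLaw ρ P) < ⊤ := by
  obtain ⟨c, hc⟩ : ∃ c : ℝ, ∀ a, h a ≤ c := by
    obtain ⟨c, hc⟩ := (Set.finite_range h).bddAbove
    exact ⟨c, fun a => hc ⟨a, rfl⟩⟩
  have hc' : ∀ a, h a ≤ max c 1 := fun a => (hc a).trans (le_max_left _ _)
  have hc0 : 0 < max c 1 := lt_of_lt_of_le one_pos (le_max_right _ _)
  refine lt_of_le_of_lt (R.lintegral_ht_le hp hT hc' hc0 le_rfl) ?_
  refine ENNReal.mul_lt_top ENNReal.ofReal_lt_top (ENNReal.add_lt_top.2 ⟨ENNReal.one_lt_top, ?_⟩)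
  exact ENNReal.mul_lt_top (ENNReal.inv_lt_top.2 (pos_iff_ne_zero.2 R.δ_ne))
    (ENNReal.inv_lt_top.2 (pos_iff_ne_zero.2 hp))

/-- structure of the words: every word is the first block of some path -/
lemma ae_goodWord (ρ : RecSys h) (P : Measure (ℕ → S)) :
    ∀ᵐ u ∂(wordLaw ρ P), Ren263.GoodWord h u ∧ ∃ s, s ∈ Good ρ u.len ∧ pre u.len s = u := by
  rw [ae_iff, wordLaw_apply, ENNReal.tsum_eq_zero]
  intro n
  have : Good ρ n ∩ {s | pre n s ∈ {a | ¬ (Ren263.GoodWord h a ∧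
      ∃ s, s ∈ Good ρ a.len ∧ pre a.len s = a)}} = ∅ := by
    rw [eq_empty_iff_forall_notMem]
    rintro s ⟨⟨h1, h2, h3, h4⟩, hs⟩
    have h2' := ρ.record h2
    refine hs ⟨⟨by rw [len_pre]; exact h1, ?_, fun k hk => ?_⟩, s, ?_, ?_⟩
    · rw [ht_pre]
      have := h2' 0 h1
      rwa [hgt_zero] at this
    · rw [len_pre] at hk
      have hpre : (List.take k (pre n s) : List S) = pre k s := by
        unfold pre
        rw [← List.map_take, List.take_range, Nat.min_eq_left hk.le]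
      rw [hpre]
      have e1 := ht_pre h k s
      have e2 := ht_pre h n s
      rw [e1, e2]
      exact ⟨h3 k hk.le, h2' k hk⟩
    · rw [len_pre]
      exact ⟨h1, h2, h3, h4⟩
    · rw [len_pre]
  rw [this, measure_empty]

end measurable

end Crest.Agent.R154.RenG263
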