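import Mathlib
import Crest.Agent.R154.B2Suc_719
import Crest.Agent.R154.RenG3_263

-- ▼ part R154/B2Hopf_419
section

/-! Row 154, B2 (helper419): Hopf's maximal inequality (Garsia's proof) for a measure preserving map,
and its form for iid (product) sequences. Mathlib only. -/

set_option autoImplicit false

namespace Crest.Agent.R154.B2Hopf

open MeasureTheory ProbabilityTheory Filter Topology Set

section Garsia

variable {Ω : Type*} [MeasurableSpace Ω] {μ : Measure Ω} {T : Ω → Ω} {f : Ω → ℝ}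

/-- maximum of the Birkhoff sums `S_0 = 0, S_1, …, S_N`. -/
noncomputable def bmax (T : Ω → Ω) (f : Ω → ℝ) (N : ℕ) (ω : Ω) : ℝ :=
  (Finset.range (N + 1)).sup' (Finset.nonempty_range_add_one) fun n => birkhoffSum T f n ω

omit [MeasurableSpace Ω] in
lemma le_bmax (T : Ω → Ω) (f : Ω → ℝ) {N n : ℕ} (hn : n ≤ N) (ω : Ω) :
    birkhoffSum T f n ω ≤ bmax T f N ω :=
  Finset.le_sup' (fun n => birkhoffSum T f n ω) (Finset.mem_range.2 (Nat.lt_succ_of_le hn))

omit [MeasurableSpace Ω] in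
lemma bmax_nonneg (T : Ω → Ω) (f : Ω → ℝ) (N : ℕ) (ω : Ω) : 0 ≤ bmax T f N ω := by
  have := le_bmax T f (Nat.zero_le N) ω
  simpa using this

omit [MeasurableSpace Ω] in
lemma bmax_le {T : Ω → Ω} {f : Ω → ℝ} {N : ℕ} {ω : Ω} {a : ℝ}
    (h : ∀ n ≤ N, birkhoffSum T f n ω ≤ a) : bmax T f N ω ≤ a :=
  Finset.sup'_le _ _ fun n hn => h n (Nat.lt_succ_iff.1 (Finset.mem_range.1 hn))

omit [MeasurableSpace Ω] in
lemma bmax_pos_iff {T : Ω → Ω} {f : Ω → ℝ} {N : ℕ} {ω : Ω} :
    0 < bmax T f N ω ↔ ∃ n, 1 ≤ n ∧ n ≤ N ∧ 0 < birkhoffSum T f n ω := by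
  constructor
  · intro h
    by_contra hcon
    push Not at hcon
    refine absurd h (not_lt.2 (bmax_le fun n hn => ?_))
    rcases Nat.eq_zero_or_pos n with h0 | h0
    · subst h0; simp
    · exact hcon n h0 hn
  · rintro ⟨n, -, h2, h3⟩
    exact h3.trans_le (le_bmax T f h2 ω)

lemma measurable_birkhoffSum' (hT : Measurable T) (hf : Measurable f) (n : ℕ) :
    Measurable fun ω => birkhoffSum T f n ω := by
  unfold birkhoffSum
  exact Finset.measurable_sum _ fun k _ => hf.comp (hT.iterate k)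

lemma measurable_bmax (hT : Measurable T) (hf : Measurable f) (N : ℕ) :
    Measurable (bmax T f N) := by
  have : bmax T f N = (Finset.range (N + 1)).sup' (Finset.nonempty_range_add_one)
      (fun n ω => birkhoffSum T f n ω) := by
    funext ω
    rw [Finset.sup'_apply]
    rfl
  rw [this]
  exact Finset.measurable_sup' _ fun n _ => measurable_birkhoffSum' hT hf n

lemma integrable_birkhoffSum' (hT : MeasurePreserving T μ μ) (hf : Integrable f μ) (n : ℕ) :
    Integrable (fun ω => birkhoffSum T f n ω) μ := by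
  unfold birkhoffSum
  refine integrable_finsetSum _ fun k _ => ?_
  exact ((hT.iterate k).integrable_comp_of_integrable hf)

lemma integrable_bmax (hT : MeasurePreserving T μ μ) (hf : Integrable f μ) (hfm : Measurable f)
    (N : ℕ) : Integrable (bmax T f N) μ := by
  have h1 : Integrable (fun ω => ∑ n ∈ Finset.range (N + 1), |birkhoffSum T f n ω|) μ :=
    integrable_finsetSum _ fun n _ => (integrable_birkhoffSum' hT hf n).abs
  refine Integrable.mono' h1 (measurable_bmax hT.measurable hfm N).aestronglyMeasurable ?_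
  refine Eventually.of_forall fun ω => ?_
  rw [Real.norm_eq_abs, abs_of_nonneg (bmax_nonneg T f N ω)]
  refine bmax_le fun n hn => ?_
  exact (le_abs_self _).trans (Finset.single_le_sum (f := fun n => |birkhoffSum T f n ω|)
    (fun _ _ => abs_nonneg _) (Finset.mem_range.2 (Nat.lt_succ_of_le hn)))

/-- Garsia: maximal ergodic lemma. -/
theorem garsia (hT : MeasurePreserving T μ μ) (hf : Integrable f μ) (hfm : Measurable f) (N : ℕ) :
    0 ≤ ∫ ω in {ω | ∃ n, 1 ≤ n ∧ n ≤ N ∧ 0 < birkhoffSum T f n ω}, f ω ∂μ := by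
  set E : Set Ω := {ω | 0 < bmax T f N ω} with hE
  have hEeq : {ω | ∃ n, 1 ≤ n ∧ n ≤ N ∧ 0 < birkhoffSum T f n ω} = E := by
    ext ω
    exact bmax_pos_iff.symm
  rw [hEeq]
  have hEm : MeasurableSet E := measurableSet_lt measurable_const (measurable_bmax hT.measurable hfm N)
  have hM := integrable_bmax hT hf hfm N
  have hMT : Integrable (fun ω => bmax T f N (T ω)) μ := hT.integrable_comp_of_integrable hM
  have h1 : ∫ ω, (bmax T f N ω - bmax T f N (T ω)) ∂μ = 0 := by
    rw [integral_sub hM hMT]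
    have : ∫ ω, bmax T f N (T ω) ∂μ = ∫ ω, bmax T f N ω ∂μ := by
      have h2 := integral_map (μ := μ) hT.measurable.aemeasurable (f := bmax T f N)
        (by rw [hT.map_eq]; exact hM.aestronglyMeasurable)
      rw [hT.map_eq] at h2
      exact h2.symm
    rw [this, sub_self]
  have h2 : ∫ ω, (bmax T f N ω - bmax T f N (T ω)) ∂μ ≤
      ∫ ω in E, (bmax T f N ω - bmax T f N (T ω)) ∂μ := by
    have hadd := integral_add_compl hEm (hM.sub hMT)
    simp only [Pi.sub_apply] at hadd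
    have h3 : ∫ ω in Eᶜ, (bmax T f N ω - bmax T f N (T ω)) ∂μ ≤ 0 := by
      refine setIntegral_nonpos hEm.compl fun ω hω => ?_
      have h4 : bmax T f N ω ≤ 0 := not_lt.1 hω
      have := bmax_nonneg T f N (T ω)
      linarith
    linarith
  have h5 : ∫ ω in E, (bmax T f N ω - bmax T f N (T ω)) ∂μ ≤ ∫ ω in E, f ω ∂μ := by
    refine setIntegral_mono_on (hM.sub hMT).integrableOn hf.integrableOn hEm fun ω hω => ?_
    have h6 : bmax T f N ω ≤ f ω + bmax T f N (T ω) := by
      have hpos : 0 < bmax T f N ω := hω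
      obtain ⟨n, hn1, hn2⟩ : ∃ n ∈ Finset.range (N + 1), bmax T f N ω = birkhoffSum T f n ω := by
        exact Finset.exists_mem_eq_sup' _ _
      rw [hn2]
      rcases Nat.eq_zero_or_pos n with h0 | h0
      · subst h0
        rw [hn2] at hpos
        simp at hpos
      · obtain ⟨m, rfl⟩ : ∃ m, n = m + 1 := ⟨n - 1, by omega⟩
        rw [birkhoffSum_succ']
        have : m ≤ N := by
          have := Finset.mem_range.1 hn1
          omega
        have := le_bmax T f this (T ω)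
        linarith
    linarith
  linarith

end Garsia

section Hopf

variable {Ω : Type*} [MeasurableSpace Ω] {μ : Measure Ω} [IsProbabilityMeasure μ] {T : Ω → Ω}
  {V : Ω → ℝ}

/-- finite horizon -/
theorem hopf_finite (hT : MeasurePreserving T μ μ) (hV : Integrable V μ) (hVm : Measurable V)
    (hV0 : ∀ ω, 0 ≤ V ω) {lam : ℝ} (N : ℕ) :
    lam * μ.real {ω | ∃ n, 1 ≤ n ∧ n ≤ N ∧ lam * n < birkhoffSum T V n ω} ≤ ∫ ω, V ω ∂μ := by
  have hset : {ω | ∃ n, 1 ≤ n ∧ n ≤ N ∧ lam * n < birkhoffSum T V n ω} =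
      {ω | ∃ n, 1 ≤ n ∧ n ≤ N ∧ 0 < birkhoffSum T (fun ω => V ω - lam) n ω} := by
    ext ω
    simp only [Set.mem_ofPred_eq]
    refine exists_congr fun n => and_congr Iff.rfl (and_congr Iff.rfl ?_)
    have : birkhoffSum T (fun ω => V ω - lam) n ω = birkhoffSum T V n ω - lam * n := by
      unfold birkhoffSum
      rw [Finset.sum_sub_distrib, Finset.sum_const, Finset.card_range, nsmul_eq_mul, mul_comm]
    rw [this, sub_pos]
  have hint : Integrable (fun ω => V ω - lam) μ := hV.sub (integrable_const _)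
  have h := garsia hT hint (hVm.sub_const lam) N
  rw [← hset] at h
  set E := {ω | ∃ n, 1 ≤ n ∧ n ≤ N ∧ lam * n < birkhoffSum T V n ω} with hE
  have hEm : MeasurableSet E := by
    have : E = ⋃ n : ℕ, ⋃ _ : 1 ≤ n ∧ n ≤ N, {ω | lam * n < birkhoffSum T V n ω} := by
      ext ω
      simp [hE, and_assoc]
    rw [this]
    exact MeasurableSet.iUnion fun n => MeasurableSet.iUnion fun _ =>
      measurableSet_lt measurable_const (measurable_birkhoffSum' hT.measurable hVm n)
  rw [integral_sub hV.integrableOn (integrable_const _), setIntegral_const, smul_eq_mul] at h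
  have h2 : ∫ ω in E, V ω ∂μ ≤ ∫ ω, V ω ∂μ :=
    setIntegral_le_integral hV (Eventually.of_forall hV0)
  rw [mul_comm]
  linarith

/-- **Hopf's maximal inequality.** -/
theorem hopf (hT : MeasurePreserving T μ μ) (hV : Integrable V μ) (hVm : Measurable V)
    (hV0 : ∀ ω, 0 ≤ V ω) {lam : ℝ} :
    lam * μ.real {ω | ∃ n : ℕ, 1 ≤ n ∧ lam * n < birkhoffSum T V n ω} ≤ ∫ ω, V ω ∂μ := by
  set E : ℕ → Set Ω := fun N => {ω | ∃ n, 1 ≤ n ∧ n ≤ N ∧ lam * n < birkhoffSum T V n ω} with hE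
  have hmono : Monotone E := by
    rintro a b hab ω ⟨n, h1, h2, h3⟩
    exact ⟨n, h1, h2.trans hab, h3⟩
  have hU : {ω | ∃ n : ℕ, 1 ≤ n ∧ lam * n < birkhoffSum T V n ω} = ⋃ N, E N := by
    ext ω
    simp only [Set.mem_ofPred_eq, mem_iUnion, hE]
    constructor
    · rintro ⟨n, h1, h2⟩
      exact ⟨n, n, h1, le_rfl, h2⟩
    · rintro ⟨N, n, h1, -, h3⟩
      exact ⟨n, h1, h3⟩
  rw [hU]
  have ht : Tendsto (fun N => μ.real (E N)) atTop (𝓝 (μ.real (⋃ N, E N))) := by
    have := tendsto_measure_iUnion_atTop (μ := μ) hmono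
    exact (ENNReal.tendsto_toReal (measure_ne_top _ _)).comp this
  refine le_of_tendsto (ht.const_mul lam) (Eventually.of_forall fun N => ?_)
  exact hopf_finite hT hV hVm hV0 N

/-- the same with a non-strict inequality -/
theorem hopf_le (hT : MeasurePreserving T μ μ) (hV : Integrable V μ) (hVm : Measurable V)
    (hV0 : ∀ ω, 0 ≤ V ω) {lam : ℝ} (hlam : 0 < lam) :
    lam * μ.real {ω | ∃ n : ℕ, 1 ≤ n ∧ lam * n ≤ birkhoffSum T V n ω} ≤ ∫ ω, V ω ∂μ := by
  have h : ∀ r : ℝ, 0 < r → r < 1 →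
      r * (lam * μ.real {ω | ∃ n : ℕ, 1 ≤ n ∧ lam * n ≤ birkhoffSum T V n ω}) ≤ ∫ ω, V ω ∂μ := by
    intro r hr0 hr1
    have h1 := hopf hT hV hVm hV0 (lam := r * lam)
    refine le_trans ?_ h1
    rw [mul_assoc]
    refine mul_le_mul_of_nonneg_left (mul_le_mul_of_nonneg_left ?_ hlam.le) hr0.le
    refine measureReal_mono ?_ (measure_ne_top _ _)
    rintro ω ⟨n, hn, h2⟩
    refine ⟨n, hn, lt_of_lt_of_le ?_ h2⟩
    have : (0 : ℝ) < n := by exact_mod_cast hn
    have h3 : 0 < lam * n := by positivity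
    nlinarith
  set A := lam * μ.real {ω | ∃ n : ℕ, 1 ≤ n ∧ lam * n ≤ birkhoffSum T V n ω} with hA
  by_contra hcon
  push Not at hcon
  have hI : 0 ≤ ∫ ω, V ω ∂μ := integral_nonneg hV0
  have hA0 : 0 < A := lt_of_le_of_lt hI hcon
  have h4 := h ((1 + (∫ ω, V ω ∂μ) / A) / 2) (by positivity) (by
    have : (∫ ω, V ω ∂μ) / A < 1 := (div_lt_one hA0).2 hcon
    linarith)
  have h5 : (1 + (∫ ω, V ω ∂μ) / A) / 2 * A = (A + ∫ ω, V ω ∂μ) / 2 := by
    field_simp
  rw [h5] at h4
  linarith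

end Hopf

section Product

variable {α : Type*} [MeasurableSpace α]

/-- the shift on sequences -/
def sshift (w : ℕ → α) : ℕ → α := fun k => w (k + 1)

lemma measurable_sshift : Measurable (sshift : (ℕ → α) → ℕ → α) :=
  measurable_pi_lambda _ fun k => measurable_pi_apply (k + 1)

omit [MeasurableSpace α] in
lemma iterate_sshift (n : ℕ) (w : ℕ → α) : sshift^[n] w = fun k => w (k + n) := by
  induction n generalizing w with
  | zero => rfl
  | succ n ih =>
    rw [Function.iterate_succ_apply, ih]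
    funext k
    simp [sshift, add_assoc]

/-- the shift preserves a product measure -/
theorem measurePreserving_sshift (ν : Measure α) [IsProbabilityMeasure ν] :
    MeasurePreserving sshift (Measure.infinitePi fun _ : ℕ => ν)
      (Measure.infinitePi fun _ : ℕ => ν) := by
  refine ⟨measurable_sshift, ?_⟩
  refine Measure.eq_infinitePi _ fun s t ht => ?_
  rw [Measure.map_apply measurable_sshift (by
    exact MeasurableSet.pi s.countable_toSet fun i _ => ht i)]
  classical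
  have hpre : sshift ⁻¹' (Set.pi (s : Set ℕ) t) =
      Set.pi ((s.map (addRightEmbedding 1) : Finset ℕ) : Set ℕ) (fun i => t (i - 1)) := by
    ext w
    simp only [mem_preimage, Set.mem_pi, Finset.coe_map, Set.mem_image, Finset.mem_coe, sshift,
      addRightEmbedding_apply]
    constructor
    · rintro h i ⟨j, hj, rfl⟩
      simpa using h j hj
    · intro h i hi
      simpa using h (i + 1) ⟨i, hi, rfl⟩
  rw [hpre, Measure.infinitePi_pi _ fun i _ => ht (i - 1)]
  rw [Finset.prod_map]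
  simp

/-- **Hopf for iid sequences**: `P(∃ n ≥ 1, Σ_{k<n} g(w_k) ≥ λ n) ≤ E g / λ`. -/
theorem hopf_iid (ν : Measure α) [IsProbabilityMeasure ν] {g : α → ℝ} (hg : Integrable g ν)
    (hgm : Measurable g) (hg0 : ∀ a, 0 ≤ g a) {lam : ℝ} (hlam : 0 < lam) :
    (Measure.infinitePi fun _ : ℕ => ν).real
      {w | ∃ n : ℕ, 1 ≤ n ∧ lam * n ≤ ∑ k ∈ Finset.range n, g (w k)} ≤ (∫ a, g a ∂ν) / lam := by
  have hmp : MeasurePreserving (fun w : ℕ → α => w 0) (Measure.infinitePi fun _ : ℕ => ν) ν :=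
    measurePreserving_eval_infinitePi (fun _ : ℕ => ν) 0
  have h1 := hopf_le (measurePreserving_sshift ν) (V := fun w : ℕ → α => g (w 0))
    (hmp.integrable_comp_of_integrable hg) (hgm.comp (measurable_pi_apply 0))
    (fun w => hg0 _) hlam
  have h2 : ∫ w, g (w 0) ∂(Measure.infinitePi fun _ : ℕ => ν) = ∫ a, g a ∂ν := by
    have := integral_map (μ := Measure.infinitePi fun _ : ℕ => ν) hmp.measurable.aemeasurable
      (f := g) (by rw [hmp.map_eq]; exact hg.aestronglyMeasurable)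
    rw [hmp.map_eq] at this
    exact this.symm
  rw [h2] at h1
  rw [le_div_iff₀ hlam, mul_comm]
  have h3 : ∀ (n : ℕ) (w : ℕ → α), birkhoffSum sshift (fun w : ℕ → α => g (w 0)) n w =
      ∑ k ∈ Finset.range n, g (w k) := by
    intro n w
    unfold birkhoffSum
    refine Finset.sum_congr rfl fun k _ => ?_
    rw [iterate_sshift]
    simp
  simp only [h3] at h1
  exact h1

end Product

end Crest.Agent.R154.B2Hopf
end

-- ▼ part R154/Suc_419
section

/-! Row 154, B2 (helper419): the probabilistic part of (SUC): for iid blocks with positive integrable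
height, with probability at least `1/2` the heights grow linearly, the lateral sums are linear and there
is no giant block at low height. Mathlib only. -/

set_option autoImplicit false

namespace Crest.Agent.R154.Suc419

open MeasureTheory ProbabilityTheory Filter Topology Set

section iid

variable {E : Type*} [MeasurableSpace E] {μ : Measure E} [IsProbabilityMeasure μ]

lemma measurable_psum {Y : E → ℝ} (hYm : Measurable Y) (k : ℕ) :
    Measurable fun w : ℕ → E => ∑ q ∈ Finset.range k, Y (w q) :=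
  Finset.measurable_sum _ fun q _ => hYm.comp (measurable_pi_apply q)

/-- linear growth from below of the sums of iid positive integrable variables -/
lemma exists_linear {Y : E → ℝ} (hYm : Measurable Y) (hYi : Integrable Y μ)
    (hY0 : ∀ᵐ e ∂μ, 0 < Y e) {ε : ℝ} (hε : 0 < ε) :
    ∃ c : ℝ, 0 < c ∧ ∃ C : ℝ, 0 ≤ C ∧ (Measure.infinitePi fun _ : ℕ => μ).real
      {w : ℕ → E | ∀ k : ℕ, c * k - C ≤ ∑ q ∈ Finset.range k, Y (w q)}ᶜ ≤ ε := by
  set P : Measure (ℕ → E) := Measure.infinitePi fun _ : ℕ => μ with hP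
  have hmp : ∀ k : ℕ, MeasurePreserving (fun w : ℕ → E => w k) P μ := fun k =>
    measurePreserving_eval_infinitePi (μ := fun _ : ℕ => μ) k
  have hm : 0 < ∫ e, Y e ∂μ := by
    rw [integral_pos_iff_support_of_nonneg_ae (hY0.mono fun e he => he.le) hYi]
    have h1 : μ {e | 0 < Y e} = 1 := by
      rw [prob_compl_eq_zero_iff (measurableSet_lt measurable_const hYm) |>.symm]
      exact hY0
    refine lt_of_lt_of_le (by rw [h1]; exact one_pos) (measure_mono fun e he => ?_)
    exact (ne_of_gt he : Y e ≠ 0)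
  set m := ∫ e, Y e ∂μ with hmdef
  have hint : Integrable (fun w : ℕ → E => Y (w 0)) P := (hmp 0).integrable_comp_of_integrable hYi
  have hind : Pairwise (Function.onFun (fun f g => IndepFun f g P) fun (k : ℕ) (w : ℕ → E) => Y (w k)) := by
    have h := iIndepFun_infinitePi (P := fun _ : ℕ => μ) (X := fun _ : ℕ => Y) (fun _ => hYm)
    intro i j hij
    exact h.indepFun hij
  have hid : ∀ k : ℕ, IdentDistrib (fun w : ℕ → E => Y (w k)) (fun w : ℕ → E => Y (w 0)) P P := by
    intro k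
    refine ⟨(hYm.comp (measurable_pi_apply k)).aemeasurable,
      (hYm.comp (measurable_pi_apply 0)).aemeasurable, ?_⟩
    have h1 : P.map (fun w : ℕ → E => Y (w k)) = μ.map Y := by
      rw [← (hmp k).map_eq, Measure.map_map hYm (measurable_pi_apply k)]; rfl
    have h2 : P.map (fun w : ℕ → E => Y (w 0)) = μ.map Y := by
      rw [← (hmp 0).map_eq, Measure.map_map hYm (measurable_pi_apply 0)]; rfl
    rw [h1, h2]
  have hS := strong_law_ae_real (fun (k : ℕ) (w : ℕ → E) => Y (w k)) hint hind hid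
  have h0 : ∫ w, Y (w 0) ∂P = m := by
    have := integral_map (μ := P) (hmp 0).measurable.aemeasurable (f := Y)
      (by rw [(hmp 0).map_eq]; exact hYi.aestronglyMeasurable)
    rw [(hmp 0).map_eq] at this
    exact this.symm
  simp only [h0] at hS
  set A : ℕ → Set (ℕ → E) := fun N =>
    {w : ℕ → E | ∀ k : ℕ, m / 2 * k - N ≤ ∑ q ∈ Finset.range k, Y (w q)}ᶜ with hA
  have hAm : ∀ N, MeasurableSet (A N) := by
    intro N
    refine MeasurableSet.compl ?_
    have : {w : ℕ → E | ∀ k : ℕ, m / 2 * k - N ≤ ∑ q ∈ Finset.range k, Y (w q)} =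
        ⋂ k : ℕ, {w : ℕ → E | m / 2 * k - N ≤ ∑ q ∈ Finset.range k, Y (w q)} := by
      ext w; simp
    rw [this]
    exact MeasurableSet.iInter fun k => measurableSet_le measurable_const (measurable_psum hYm k)
  have hanti : Antitone A := by
    intro a b hab
    refine compl_subset_compl.2 fun w hw k => ?_
    have h1 := hw k
    have : (a : ℝ) ≤ b := by exact_mod_cast hab
    linarith
  have hzero : P (⋂ N, A N) = 0 := by
    rw [← nonpos_iff_eq_zero]
    have hsub : (⋂ N, A N) ⊆ {w | ¬ Tendsto (fun n : ℕ => (∑ i ∈ Finset.range n, Y (w i)) / n)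
        atTop (𝓝 m)} := by
      intro w hw htend
      have h1 : ∀ᶠ n : ℕ in atTop, m / 2 < (∑ i ∈ Finset.range n, Y (w i)) / n :=
        htend.eventually (lt_mem_nhds (by linarith))
      obtain ⟨K, hK⟩ := eventually_atTop.1 h1
      set B : ℝ := ∑ k ∈ Finset.range (K + 1), |∑ q ∈ Finset.range k, Y (w q)| with hB
      obtain ⟨N, hN⟩ := exists_nat_ge (m / 2 * (K + 1) + B)
      have hB0 : 0 ≤ B := Finset.sum_nonneg fun _ _ => abs_nonneg _
      refine (mem_iInter.1 hw N) fun k => ?_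
      rcases lt_or_ge k (K + 1) with hk | hk
      · have h2 : |∑ q ∈ Finset.range k, Y (w q)| ≤ B :=
          Finset.single_le_sum (f := fun k => |∑ q ∈ Finset.range k, Y (w q)|)
            (fun _ _ => abs_nonneg _) (Finset.mem_range.2 hk)
        have h3 := neg_abs_le (∑ q ∈ Finset.range k, Y (w q))
        have h4 : (k : ℝ) ≤ K + 1 := by exact_mod_cast hk.le
        nlinarith
      · have h2 := hK k (by omega)
        have hk0 : (0 : ℝ) < k := by
          have : 0 < k := by omega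
          exact_mod_cast this
        rw [lt_div_iff₀ hk0] at h2
        have : (0 : ℝ) ≤ N := Nat.cast_nonneg N
        linarith
    exact (measure_mono hsub).trans (le_of_eq hS)
  have ht : Tendsto (fun N => P.real (A N)) atTop (𝓝 0) := by
    have h1 := tendsto_measure_iInter_atTop (μ := P) (fun N => (hAm N).nullMeasurableSet) hanti
      ⟨0, measure_ne_top _ _⟩
    rw [hzero] at h1
    exact (ENNReal.tendsto_toReal ENNReal.zero_ne_top).comp h1
  obtain ⟨N, hN⟩ := (ht.eventually (gt_mem_nhds hε)).exists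
  exact ⟨m / 2, by positivity, N, Nat.cast_nonneg N, hN.le⟩

/-- tails of an integrable variable along `2^J` -/
lemma tail_tendsto {Y : E → ℝ} (hYm : Measurable Y) (hYi : Integrable Y μ) :
    Tendsto (fun J : ℕ => (2 : ℝ) ^ J * μ.real {e | (2 : ℝ) ^ J - 1 ≤ Y e}) atTop (𝓝 0) := by
  set s : ℕ → Set E := fun J => {e | (2 : ℝ) ^ J - 1 ≤ Y e} with hs
  have hsm : ∀ J, MeasurableSet (s J) := fun J => measurableSet_le measurable_const hYm
  have hanti : Antitone s := by
    intro a b hab e he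
    have h1 : (2 : ℝ) ^ a ≤ 2 ^ b := pow_le_pow_right₀ (by norm_num) hab
    have h2 : (2 : ℝ) ^ b - 1 ≤ Y e := he
    have h3 : (2 : ℝ) ^ a - 1 ≤ Y e := by linarith
    exact h3
  have hempty : (⋂ J, s J) = ∅ := by
    rw [eq_empty_iff_forall_notMem]
    intro e he
    obtain ⟨J, hJ⟩ := pow_unbounded_of_one_lt (Y e + 1) (one_lt_two (α := ℝ))
    have h1 : (2 : ℝ) ^ J - 1 ≤ Y e := mem_iInter.1 he J
    linarith
  have h1 := tendsto_setIntegral_of_antitone (μ := μ) (f := Y) hsm hanti ⟨0, hYi.integrableOn⟩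
  rw [hempty, setIntegral_empty] at h1
  have h2 : Tendsto (fun J => 2 * ∫ e in s J, Y e ∂μ) atTop (𝓝 0) := by
    simpa using h1.const_mul 2
  refine squeeze_zero' (Eventually.of_forall fun J => by positivity) ?_ h2
  filter_upwards [eventually_ge_atTop 1] with J hJ
  have h3 : (2 : ℝ) ≤ 2 ^ J := by
    calc (2 : ℝ) = 2 ^ 1 := by norm_num
      _ ≤ 2 ^ J := pow_le_pow_right₀ (by norm_num) hJ
  have h4 : ((2 : ℝ) ^ J - 1) * μ.real (s J) ≤ ∫ e in s J, Y e ∂μ := by
    have h5 : ∫ e in s J, ((2 : ℝ) ^ J - 1) ∂μ ≤ ∫ e in s J, Y e ∂μ :=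
      setIntegral_mono_on (integrable_const _).integrableOn hYi.integrableOn (hsm J)
        fun e he => he
    rw [setIntegral_const, smul_eq_mul] at h5
    linarith
  have h6 : 0 ≤ μ.real (s J) := measureReal_nonneg
  nlinarith

/-- **(SUC), probabilistic part** -/
theorem suc_iid {Y : E → ℝ} (hYm : Measurable Y) (hYi : Integrable Y μ)
    (hY0 : ∀ᵐ e ∂μ, 0 < Y e) :
    ∃ c : ℝ, 0 < c ∧ ∃ C : ℝ, 0 ≤ C ∧ ∃ J₀ : ℕ, ∀ J ≥ J₀, ∀ V : E → ℝ, Measurable V →
      (∀ e, 0 ≤ V e) → Integrable V μ →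
      (1 / 2 : ℝ) ≤ (Measure.infinitePi fun _ : ℕ => μ).real
        {w : ℕ → E | (∀ k : ℕ, c * k - C ≤ ∑ q ∈ Finset.range k, Y (w q)) ∧
          (∀ k : ℕ, 1 ≤ k → ∑ q ∈ Finset.range k, (V (w q) + 1) < 8 * (1 + ∫ e, V e ∂μ) * k) ∧
          ∀ q : ℕ, ∑ i ∈ Finset.range q, Y (w i) ≤ (2 : ℝ) ^ J → Y (w q) < (2 : ℝ) ^ J - 1} := by
  obtain ⟨c, hc, C, hC, hlin⟩ := exists_linear (μ := μ) hYm hYi hY0 (ε := 1 / 8) (by norm_num)
  refine ⟨c, hc, C, hC, ?_⟩
  have ht := tail_tendsto (μ := μ) hYm hYi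
  set K : ℝ := (1 + C) / c + 1 with hK
  have hK0 : 0 < K := by positivity
  have hev := (ht.eventually (gt_mem_nhds (show (0 : ℝ) < 1 / (8 * K) by positivity)))
  obtain ⟨J₀, hJ₀⟩ := eventually_atTop.1 hev
  refine ⟨J₀, fun J hJ V hVm hV0 hVi => ?_⟩
  have htail := hJ₀ J hJ
  set P : Measure (ℕ → E) := Measure.infinitePi fun _ : ℕ => μ with hP
  set x := ∫ e, V e ∂μ with hx
  have hx0 : 0 ≤ x := integral_nonneg hV0
  set A : Set (ℕ → E) := {w : ℕ → E | ∀ k : ℕ, c * k - C ≤ ∑ q ∈ Finset.range k, Y (w q)} with hA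
  set B : Set (ℕ → E) := {w : ℕ → E | ∃ n : ℕ, 1 ≤ n ∧
    8 * (1 + x) * n ≤ ∑ k ∈ Finset.range n, (V (w k) + 1)} with hB
  have hBle : P.real B ≤ 1 / 8 := by
    have h1 := B2Hopf.hopf_iid μ (g := fun e => V e + 1) (hVi.add (integrable_const 1))
      (hVm.add_const 1) (fun e => by have := hV0 e; linarith) (lam := 8 * (1 + x)) (by positivity)
    have h2 : ∫ e, (V e + 1) ∂μ = x + 1 := by
      rw [integral_add hVi (integrable_const 1)]
      simp [hx]
    rw [h2] at h1
    refine h1.trans (le_of_eq ?_)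
    field_simp
    ring
  -- giants among the first `N` blocks
  set N : ℕ := ⌊((2 : ℝ) ^ J + C) / c⌋₊ + 1 with hN
  set G : Set (ℕ → E) := ⋃ q ∈ Finset.range N, {w : ℕ → E | (2 : ℝ) ^ J - 1 ≤ Y (w q)} with hG
  have hGle : P.real G ≤ 1 / 8 := by
    have h1 : P.real G ≤ ∑ q ∈ Finset.range N, P.real {w : ℕ → E | (2 : ℝ) ^ J - 1 ≤ Y (w q)} :=
      measureReal_biUnion_finset_le _ _
    have h2 : ∀ q : ℕ, P.real {w : ℕ → E | (2 : ℝ) ^ J - 1 ≤ Y (w q)} =
        μ.real {e | (2 : ℝ) ^ J - 1 ≤ Y e} := by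
      intro q
      have hmp : MeasurePreserving (fun w : ℕ → E => w q) P μ :=
        measurePreserving_eval_infinitePi (fun _ : ℕ => μ) q
      have h3 := hmp.measure_preimage
        (measurableSet_le (measurable_const (a := (2 : ℝ) ^ J - 1)) hYm).nullMeasurableSet
      simp only [Measure.real]
      rw [← h3]
      rfl
    rw [Finset.sum_congr rfl fun q _ => h2 q, Finset.sum_const, Finset.card_range,
      nsmul_eq_mul] at h1
    have h2J : (1 : ℝ) ≤ 2 ^ J := one_le_pow₀ (by norm_num)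
    have hNle : (N : ℝ) ≤ K * 2 ^ J := by
      have h4 : (⌊((2 : ℝ) ^ J + C) / c⌋₊ : ℝ) ≤ ((2 : ℝ) ^ J + C) / c :=
        Nat.floor_le (by positivity)
      have h5 : ((2 : ℝ) ^ J + C) / c ≤ (1 + C) / c * 2 ^ J := by
        rw [div_mul_eq_mul_div]
        refine div_le_div_of_nonneg_right ?_ hc.le
        nlinarith
      rw [hN, hK]
      push_cast
      nlinarith
    have h6 : 0 ≤ μ.real {e | (2 : ℝ) ^ J - 1 ≤ Y e} := measureReal_nonneg
    calc P.real G ≤ N * μ.real {e | (2 : ℝ) ^ J - 1 ≤ Y e} := h1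
      _ ≤ K * 2 ^ J * μ.real {e | (2 : ℝ) ^ J - 1 ≤ Y e} :=
          mul_le_mul_of_nonneg_right hNle h6
      _ = K * (2 ^ J * μ.real {e | (2 : ℝ) ^ J - 1 ≤ Y e}) := by ring
      _ ≤ K * (1 / (8 * K)) := mul_le_mul_of_nonneg_left htail.le hK0.le
      _ = 1 / 8 := by field_simp
  -- the good event
  set T : Set (ℕ → E) := {w : ℕ → E | (∀ k : ℕ, c * k - C ≤ ∑ q ∈ Finset.range k, Y (w q)) ∧
          (∀ k : ℕ, 1 ≤ k → ∑ q ∈ Finset.range k, (V (w q) + 1) < 8 * (1 + x) * k) ∧
          ∀ q : ℕ, ∑ i ∈ Finset.range q, Y (w i) ≤ (2 : ℝ) ^ J → Y (w q) < (2 : ℝ) ^ J - 1}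
    with hT
  have hcover : Tᶜ ⊆ Aᶜ ∪ B ∪ G := by
    intro w hw
    by_contra hcon
    simp only [mem_union, not_or, mem_compl_iff, not_not] at hcon
    obtain ⟨⟨hwA, hwB⟩, hwG⟩ := hcon
    refine hw ⟨hwA, fun k hk => ?_, fun q hq => ?_⟩
    · by_contra hh
      exact hwB ⟨k, hk, not_lt.1 hh⟩
    · by_contra hh
      refine hwG ?_
      simp only [hG, mem_iUnion]
      refine ⟨q, ?_, not_lt.1 hh⟩
      rw [Finset.mem_range, hN, Nat.lt_succ_iff]
      refine Nat.le_floor ?_
      rw [le_div_iff₀ hc]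
      have := hwA q
      linarith
  have h1 : P.real Tᶜ ≤ 3 / 8 := by
    calc P.real Tᶜ ≤ P.real (Aᶜ ∪ B ∪ G) := measureReal_mono hcover (measure_ne_top _ _)
      _ ≤ P.real (Aᶜ ∪ B) + P.real G := measureReal_union_le _ _
      _ ≤ P.real Aᶜ + P.real B + P.real G := by gcongr; exact measureReal_union_le _ _
      _ ≤ 1 / 8 + 1 / 8 + 1 / 8 := by gcongr
      _ = 3 / 8 := by norm_num
  have h2 : 1 ≤ P.real T + P.real Tᶜ := by
    have h3 : P.real (T ∪ Tᶜ) ≤ P.real T + P.real Tᶜ := measureReal_union_le _ _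
    rwa [union_compl_self, probReal_univ] at h3
  linarith

end iid

end Crest.Agent.R154.Suc419
end

-- ▼ part R154/B2c_419
section

/-! Row 154, B2c (helper419): from iid regeneration blocks with integrable displacement and extent to
the law of large numbers along the path and to escape in every direction of the open half space.
Mathlib only. -/

set_option autoImplicit false

namespace Crest.Agent.R154.B2c

open MeasureTheory ProbabilityTheory Filter Topology

variable {d : ℕ}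

/-! ### Deterministic part -/

/-- position of `n` among the times `τ`. -/
lemma exists_block {τ : ℕ → ℕ} (hτ : StrictMono τ) (K n : ℕ) (hn : τ K ≤ n) :
    ∃ k, K ≤ k ∧ τ k ≤ n ∧ n < τ (k + 1) := by
  have hlt : n < τ (n + 1) := lt_of_lt_of_le (Nat.lt_succ_self n) (hτ.id_le (n + 1))
  classical
  have hex : ∃ j, n < τ j := ⟨n + 1, hlt⟩
  set j := Nat.find hex with hj
  have hj1 : n < τ j := Nat.find_spec hex
  have hKj : K < j := by
    by_contra hcon
    push Not at hcon
    exact absurd (lt_of_lt_of_le hj1 (hτ.monotone hcon)) (not_lt.2 hn)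
  obtain ⟨k, hk⟩ : ∃ k, j = k + 1 := ⟨j - 1, by omega⟩
  refine ⟨k, by omega, ?_, by rw [← hk]; exact hj1⟩
  by_contra hcon
  push Not at hcon
  have := Nat.find_min' hex hcon
  omega

/-- If `X (τ k) / k → u`, `B k / k → 0` and `B k` bounds the excursion of the `k`-th block, then
`(X n - k(n) u) / k(n) → 0` in the form: for every `ε`, eventually there is a block index `k ≥ K`
with all coordinates of `X n` within `ε k` of `k u`. -/
lemma close_of_blocks {X : ℕ → (Fin d → ℤ)} {τ : ℕ → ℕ} (hτ : StrictMono τ) {B : ℕ → ℝ}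
    {u : Fin d → ℝ}
    (hX : ∀ i, Tendsto (fun k : ℕ => (X (τ k) i : ℝ) / k) atTop (𝓝 (u i)))
    (hB : Tendsto (fun k : ℕ => B k / k) atTop (𝓝 0))
    (hblk : ∀ k n, τ k ≤ n → n ≤ τ (k + 1) → ∀ i, |(X n i : ℝ) - X (τ k) i| ≤ B k)
    {ε : ℝ} (hε : 0 < ε) (K0 : ℕ) :
    ∃ N, ∀ n, N ≤ n → ∃ k : ℕ, K0 ≤ k ∧ 0 < k ∧ ∀ i, |(X n i : ℝ) - k * u i| ≤ ε * k := by
  have h1 : ∀ᶠ k : ℕ in atTop, ∀ i, |(X (τ k) i : ℝ) / k - u i| < ε / 2 := by
    rw [eventually_all]
    intro i
    have := (Metric.tendsto_atTop.1 (hX i)) (ε / 2) (by positivity)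
    obtain ⟨N, hN⟩ := this
    filter_upwards [eventually_ge_atTop N] with k hk
    have := hN k hk
    rwa [Real.dist_eq] at this
  have h2 : ∀ᶠ k : ℕ in atTop, |B k / k| < ε / 2 := by
    obtain ⟨N, hN⟩ := (Metric.tendsto_atTop.1 hB) (ε / 2) (by positivity)
    filter_upwards [eventually_ge_atTop N] with k hk
    have := hN k hk
    rwa [Real.dist_eq, sub_zero] at this
  obtain ⟨K, hK⟩ := eventually_atTop.1 ((h1.and h2).and (eventually_gt_atTop 0))
  refine ⟨τ (max K K0), fun n hn => ?_⟩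
  obtain ⟨k, hk, hk1, hk2⟩ := exists_block hτ (max K K0) n hn
  have hkK : K ≤ k := le_trans (le_max_left _ _) hk
  obtain ⟨⟨ha, hb⟩, hpos⟩ := hK k hkK
  refine ⟨k, le_trans (le_max_right _ _) hk, hpos, fun i => ?_⟩
  have hkpos : (0 : ℝ) < k := by exact_mod_cast hpos
  have e1 := hblk k n hk1 hk2.le i
  have e2 : |(X (τ k) i : ℝ) - k * u i| ≤ ε / 2 * k := by
    have := (ha i).le
    have h3 : (X (τ k) i : ℝ) - k * u i = ((X (τ k) i : ℝ) / k - u i) * k := by
      field_simp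
    rw [h3, abs_mul, abs_of_pos hkpos]
    exact mul_le_mul_of_nonneg_right this hkpos.le
  have e3 : B k ≤ ε / 2 * k := by
    have := le_of_lt (lt_of_le_of_lt (le_abs_self _) hb)
    rwa [div_le_iff₀ hkpos] at this
  calc |(X n i : ℝ) - k * u i| = |((X n i : ℝ) - X (τ k) i) + ((X (τ k) i : ℝ) - k * u i)| := by
        congr 1; ring
    _ ≤ |(X n i : ℝ) - X (τ k) i| + |(X (τ k) i : ℝ) - k * u i| := abs_add_le _ _
    _ ≤ ε / 2 * k + ε / 2 * k := by linarith
    _ = ε * k := by ring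

/-- Escape in every direction of the open half space of `u`. -/
theorem escape_of_blocks {X : ℕ → (Fin d → ℤ)} {τ : ℕ → ℕ} (hτ : StrictMono τ) {B : ℕ → ℝ}
    {u : Fin d → ℝ}
    (hX : ∀ i, Tendsto (fun k : ℕ => (X (τ k) i : ℝ) / k) atTop (𝓝 (u i)))
    (hB : Tendsto (fun k : ℕ => B k / k) atTop (𝓝 0))
    (hblk : ∀ k n, τ k ≤ n → n ≤ τ (k + 1) → ∀ i, |(X n i : ℝ) - X (τ k) i| ≤ B k)
    {l : Fin d → ℝ} (hl : 0 < ∑ i, u i * l i) :
    Tendsto (fun n => ∑ i, (X n i : ℝ) * l i) atTop atTop := by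
  set a := ∑ i, u i * l i with ha
  set L := 1 + ∑ i, |l i| with hL
  have hLpos : 0 < L := by
    have : 0 ≤ ∑ i, |l i| := Finset.sum_nonneg fun i _ => abs_nonneg _
    linarith
  rw [tendsto_atTop]
  intro M
  obtain ⟨K0, hK0⟩ := exists_nat_gt (2 * |M| / a)
  obtain ⟨N, hN⟩ := close_of_blocks hτ hX hB hblk (ε := a / (2 * L)) (by positivity) K0
  filter_upwards [eventually_ge_atTop N] with n hn
  obtain ⟨k, hkK, hkpos, hk⟩ := hN n hn
  have hk0 : (0 : ℝ) < k := by exact_mod_cast hkpos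
  have h1 : (k : ℝ) * a - ∑ i, (X n i : ℝ) * l i ≤ ∑ i, |(X n i : ℝ) - k * u i| * |l i| := by
    have : (k : ℝ) * a - ∑ i, (X n i : ℝ) * l i = ∑ i, -(((X n i : ℝ) - k * u i) * l i) := by
      rw [ha, Finset.mul_sum, ← Finset.sum_sub_distrib]
      refine Finset.sum_congr rfl fun i _ => by ring
    rw [this]
    refine Finset.sum_le_sum fun i _ => ?_
    rw [← abs_mul]
    exact neg_le_abs _
  have h2 : ∑ i, |(X n i : ℝ) - k * u i| * |l i| ≤ a / (2 * L) * k * L := by
    calc ∑ i, |(X n i : ℝ) - k * u i| * |l i| ≤ ∑ i, a / (2 * L) * k * |l i| :=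
          Finset.sum_le_sum fun i _ => mul_le_mul_of_nonneg_right (hk i) (abs_nonneg _)
      _ = a / (2 * L) * k * ∑ i, |l i| := by rw [Finset.mul_sum]
      _ ≤ a / (2 * L) * k * L := by
          refine mul_le_mul_of_nonneg_left (by linarith) (by positivity)
  have h3 : a / (2 * L) * k * L = a * k / 2 := by field_simp
  have h4 : |M| ≤ a * k / 2 := by
    have h5 : (K0 : ℝ) ≤ k := by exact_mod_cast hkK
    have h6 : 2 * |M| / a < k := lt_of_lt_of_le hK0 h5
    rw [div_lt_iff₀ hl] at h6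
    linarith
  have := le_abs_self M
  nlinarith

/-- Direction of the path: `X n / ‖X n‖ → u / ‖u‖` (sup norm). -/
theorem direction_of_blocks {X : ℕ → (Fin d → ℤ)} {τ : ℕ → ℕ} (hτ : StrictMono τ) {B : ℕ → ℝ}
    {u : Fin d → ℝ}
    (hX : ∀ i, Tendsto (fun k : ℕ => (X (τ k) i : ℝ) / k) atTop (𝓝 (u i)))
    (hB : Tendsto (fun k : ℕ => B k / k) atTop (𝓝 0))
    (hblk : ∀ k n, τ k ≤ n → n ≤ τ (k + 1) → ∀ i, |(X n i : ℝ) - X (τ k) i| ≤ B k) :
    ∀ ε : ℝ, 0 < ε → ∀ K0 : ℕ, ∀ᶠ n in atTop, ∃ k : ℕ, K0 ≤ k ∧ 0 < k ∧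
      ∀ i, |(X n i : ℝ) / k - u i| ≤ ε := by
  intro ε hε K0
  obtain ⟨N, hN⟩ := close_of_blocks hτ hX hB hblk hε K0
  filter_upwards [eventually_ge_atTop N] with n hn
  obtain ⟨k, h1, h2, h3⟩ := hN n hn
  have hk0 : (0 : ℝ) < k := by exact_mod_cast h2
  refine ⟨k, h1, h2, fun i => ?_⟩
  have h4 : (X n i : ℝ) / k - u i = ((X n i : ℝ) - k * u i) / k := by field_simp
  rw [h4, abs_div, abs_of_pos hk0, div_le_iff₀ hk0]
  exact h3 i

/-! ### Probabilistic part -/

section Prob

variable {Ω : Type*} [MeasurableSpace Ω] {P : Measure Ω} [IsProbabilityMeasure P]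

omit [IsProbabilityMeasure P] in
/-- `B k / k → 0` a.s. for pairwise independent identically distributed integrable `B`. -/
lemma div_tendsto_zero (B : ℕ → Ω → ℝ) (hint : Integrable (B 0) P)
    (hind : Pairwise (Function.onFun (fun f g => IndepFun f g P) B))
    (hid : ∀ k, IdentDistrib (B k) (B 0) P P) :
    ∀ᵐ ω ∂P, Tendsto (fun k : ℕ => B k ω / k) atTop (𝓝 0) := by
  have h := strong_law_ae_real B hint hind hid
  filter_upwards [h] with ω hω
  have h1 : Tendsto (fun n : ℕ => (∑ i ∈ Finset.range (n + 1), B i ω) / ((n + 1 : ℕ) : ℝ)) atTop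
      (𝓝 (∫ a, B 0 a ∂P)) := (tendsto_add_atTop_iff_nat 1).2 hω
  have h2 : Tendsto (fun n : ℕ => (((n + 1 : ℕ) : ℝ) / n)) atTop (𝓝 1) := by
    have : Tendsto (fun n : ℕ => (1 : ℝ) + 1 / (n : ℝ)) atTop (𝓝 (1 + 0)) :=
      tendsto_const_nhds.add tendsto_one_div_atTop_nhds_zero_nat
    rw [add_zero] at this
    refine this.congr' ?_
    filter_upwards [eventually_gt_atTop 0] with n hn
    have : (n : ℝ) ≠ 0 := by exact_mod_cast hn.ne'
    push_cast
    field_simp
  have h3 := (h1.mul h2).sub hω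
  rw [mul_one, sub_self] at h3
  refine h3.congr' ?_
  filter_upwards [eventually_gt_atTop 0] with n hn
  have hn0 : (n : ℝ) ≠ 0 := by exact_mod_cast hn.ne'
  have hn1 : ((n + 1 : ℕ) : ℝ) ≠ 0 := by positivity
  rw [Finset.sum_range_succ]
  field_simp
  ring

omit [IsProbabilityMeasure P] in
/-- **B2c.** iid blocks with integrable displacement `ξ` and integrable extent `B`: a.s. the path
escapes in every direction `l` with `u·l > 0`, `u = E ξ`. Block `k` runs from time `τ k` to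
`τ (k+1)`. -/
theorem escape_ae (X : ℕ → Ω → (Fin d → ℤ)) (τ : ℕ → Ω → ℕ)
    (hτ : ∀ᵐ ω ∂P, StrictMono fun k => τ k ω)
    (ξ : ℕ → Ω → (Fin d → ℝ)) (B : ℕ → Ω → ℝ)
    (hξ : ∀ᵐ ω ∂P, ∀ k i, ξ k ω i = (X (τ (k + 1) ω) ω i : ℝ) - X (τ k ω) ω i)
    (hblk : ∀ᵐ ω ∂P, ∀ k n, τ k ω ≤ n → n ≤ τ (k + 1) ω → ∀ i,
      |(X n ω i : ℝ) - X (τ k ω) ω i| ≤ B k ω)
    (hξint : Integrable (ξ 0) P) (hξind : Pairwise (Function.onFun (fun f g => IndepFun f g P) ξ))
    (hξid : ∀ k, IdentDistrib (ξ k) (ξ 0) P P)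
    (hBint : Integrable (B 0) P) (hBind : Pairwise (Function.onFun (fun f g => IndepFun f g P) B))
    (hBid : ∀ k, IdentDistrib (B k) (B 0) P P) :
    ∀ᵐ ω ∂P, (∀ i, Tendsto (fun k : ℕ => (X (τ k ω) ω i : ℝ) / k) atTop
        (𝓝 (∫ a, ξ 0 a i ∂P))) ∧
      (∀ l : Fin d → ℝ, 0 < ∑ i, (∫ a, ξ 0 a i ∂P) * l i →
        Tendsto (fun n => ∑ i, (X n ω i : ℝ) * l i) atTop atTop) ∧
      (∀ ε : ℝ, 0 < ε → ∀ K0 : ℕ, ∀ᶠ n in atTop, ∃ k : ℕ, K0 ≤ k ∧ 0 < k ∧
        ∀ i, |(X n ω i : ℝ) / k - ∫ a, ξ 0 a i ∂P| ≤ ε) := by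
  have hB := div_tendsto_zero B hBint hBind hBid
  have hS := strong_law_ae ξ hξint hξind hξid
  filter_upwards [hB, hS, hτ, hξ, hblk] with ω h1 h2 h3 h4 h5
  have hX : ∀ i, Tendsto (fun k : ℕ => (X (τ k ω) ω i : ℝ) / k) atTop (𝓝 (∫ a, ξ 0 a i ∂P)) := by
    intro i
    have h6 : Tendsto (fun n : ℕ => ((n : ℝ)⁻¹ • ∑ j ∈ Finset.range n, ξ j ω) i) atTop
        (𝓝 ((∫ a, ξ 0 a ∂P) i)) := (tendsto_pi_nhds.1 h2) i
    have h7 : (∫ a, ξ 0 a ∂P) i = ∫ a, ξ 0 a i ∂P := by
      have := (ContinuousLinearMap.proj (R := ℝ) (φ := fun _ : Fin d => ℝ) i).integral_comp_comm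
        hξint
      simpa using this.symm
    rw [h7] at h6
    have h8 : ∀ n : ℕ, ((n : ℝ)⁻¹ • ∑ j ∈ Finset.range n, ξ j ω) i
        = (X (τ n ω) ω i : ℝ) / n - (X (τ 0 ω) ω i : ℝ) / n := by
      intro n
      have h9 : ∑ j ∈ Finset.range n, ξ j ω i = (X (τ n ω) ω i : ℝ) - X (τ 0 ω) ω i := by
        have := Finset.sum_range_sub (fun j => (X (τ j ω) ω i : ℝ)) n
        rw [← this]
        exact Finset.sum_congr rfl fun j _ => h4 j i
      rw [Pi.smul_apply, Finset.sum_apply, smul_eq_mul, h9]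
      ring
    have h10 : Tendsto (fun n : ℕ => (X (τ 0 ω) ω i : ℝ) / n) atTop (𝓝 0) :=
      tendsto_const_div_atTop_nhds_zero_nat _
    have h11 := h6.add h10
    rw [add_zero] at h11
    refine h11.congr fun n => ?_
    rw [h8 n]
    ring
  exact ⟨hX, fun l hl => escape_of_blocks h3 hX h1 h5 hl, direction_of_blocks h3 hX h1 h5⟩

end Prob

end Crest.Agent.R154.B2c
end

-- ▼ part R154/SucDet_419
section

/-! Row 154, B2 (helper419): (SUC), deterministic part (concatenations of words) and the binding to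
719's `RegSys.SUC`. -/

set_option autoImplicit false
set_option linter.unusedSectionVars false

namespace Crest.Agent.R154.SucDet

open MeasureTheory ProbabilityTheory Filter Set Crest.Agent.R154.Ren263 Crest.Agent.R154.B2
open scoped ENNReal Topology

variable {S : Type*} {V : Type*} [AddCommGroup V] {L : V →+ ℝ} {u : V →+ ℤ} {val : S → V}

/-! ### words as paths -/

section words
variable [Inhabited S]

/-- position path of a word -/
def wp (val : S → V) (w : Word S) (n : ℕ) : V := pos val w.letter n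

lemma wp_zero (w : Word S) : wp val w 0 = 0 := by simp [wp, pos]

lemma list_take_eq (l : List S) {k : ℕ} (hk : k ≤ l.length) :
    (List.range k).map (fun i => l.getD i default) = l.take k := by
  refine List.ext_getElem ?_ fun i h1 h2 => ?_
  · rw [List.length_take, Nat.min_eq_left hk, List.length_map, List.length_range]
  · have hik : i < k := by
      rw [List.length_take, Nat.min_eq_left hk] at h2
      exact h2
    have hil : i < l.length := hik.trans_le hk
    rw [List.getElem_take, List.getElem_map, List.getElem_range]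
    exact List.getD_eq_getElem l default hil

lemma pre_letter (w : Word S) {k : ℕ} (hk : k ≤ w.len) :
    pre k w.letter = (List.take k w : Word S) := list_take_eq (S := S) w hk

lemma hgt_letter (h : S → ℝ) (w : Word S) {k : ℕ} (hk : k ≤ w.len) :
    hgt h w.letter k = Word.ht h (List.take k w) := by
  rw [← ht_pre, pre_letter w hk]

lemma hgt_letter_len (h : S → ℝ) (w : Word S) : hgt h w.letter w.len = Word.ht h w := by
  rw [hgt_letter h w le_rfl]
  have : (List.take w.len w : Word S) = w := List.take_length (l := w)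
  rw [this]

lemma L_wp (w : Word S) {k : ℕ} (hk : k ≤ w.len) :
    L (wp val w k) = Word.ht (hL L val) (List.take k w) := by
  rw [wp, ← hgt_hL, hgt_letter _ w hk]

lemma L_wp_len (w : Word S) : L (wp val w w.len) = Word.ht (hL L val) w := by
  rw [wp, ← hgt_hL, hgt_letter_len]

/-- concatenations start like their first word -/
lemma pos_cat_lt {w : ℕ → Word S} {k : ℕ} (hk : k ≤ (w 0).len) :
    pos val (cat w) k = wp val (w 0) k :=
  pos_congr val (n := (w 0).len) (fun _ hi => cat_lt hi) hk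

/-- start time of block `k` -/
def T (w : ℕ → Word S) (k : ℕ) : ℕ := ∑ i ∈ Finset.range k, (w i).len

lemma T_zero (w : ℕ → Word S) : T w 0 = 0 := by simp [T]

lemma T_succ (w : ℕ → Word S) (k : ℕ) : T w (k + 1) = T w k + (w k).len := by
  simp [T, Finset.sum_range_succ]

lemma T_strictMono {w : ℕ → Word S} (hw : ∀ i, 1 ≤ (w i).len) : StrictMono (T w) :=
  strictMono_nat_of_lt_succ fun k => by rw [T_succ]; have := hw k; omega

lemma shift_cat_T {w : ℕ → Word S} (hw : ∀ i, 1 ≤ (w i).len) (k : ℕ) :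
    shift (T w k) (cat w) = cat (fun i => w (k + i)) := by
  induction k with
  | zero => rw [T_zero]; funext n; simp [shift]
  | succ k ih =>
    rw [T_succ, ← shift_shift, ih]
    have h1 := shift_cat (w := fun i => w (k + i)) (fun i => hw (k + i))
    simp only [Nat.add_zero] at h1
    rw [h1]
    congr 1
    funext i
    congr 1
    omega

/-- position inside block `k` -/
lemma pos_block {w : ℕ → Word S} (hw : ∀ i, 1 ≤ (w i).len) (k : ℕ) {i : ℕ} (hi : i ≤ (w k).len) :
    pos val (cat w) (T w k + i) = pos val (cat w) (T w k) + wp val (w k) i := by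
  have h1 := pos_shift val (cat w) (T w k) i
  rw [shift_cat_T hw k, pos_cat_lt (w := fun i => w (k + i)) (by simpa using hi)] at h1
  simp only [Nat.add_zero] at h1
  rw [h1]
  abel

lemma pos_T {w : ℕ → Word S} (hw : ∀ i, 1 ≤ (w i).len) (k : ℕ) :
    pos val (cat w) (T w k) = ∑ i ∈ Finset.range k, wp val (w i) (w i).len := by
  induction k with
  | zero => simp [T_zero, pos]
  | succ k ih => rw [T_succ, pos_block hw k le_rfl, ih, Finset.sum_range_succ]

lemma exists_block' {w : ℕ → Word S} (hw : ∀ i, 1 ≤ (w i).len) (n : ℕ) :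
    ∃ k i, i < (w k).len ∧ n = T w k + i := by
  obtain ⟨k, -, h1, h2⟩ := B2c.exists_block (T_strictMono hw) 0 n (by rw [T_zero]; exact Nat.zero_le _)
  refine ⟨k, n - T w k, ?_, by omega⟩
  rw [T_succ] at h2
  omega

end words

/-! ### counting lateral records -/

open Classical in
/-- a path with lateral steps at most one makes at least `max - start + 1` lateral records -/
lemma rec_count {X : ℕ → V} (hstep : ∀ n, u (X (n + 1)) - u (X n) ≤ 1) (N : ℕ) :
    ∀ k < N, u (X k) - u (X 0) + 1 ≤ (((Finset.range N).filter (fun t => LRec u X 0 t)).card : ℤ) := by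
  induction N with
  | zero => intro k hk; exact absurd hk (Nat.not_lt_zero k)
  | succ N ih =>
    have hmono : (((Finset.range N).filter (fun t => LRec u X 0 t)).card : ℤ) ≤
        (((Finset.range (N + 1)).filter (fun t => LRec u X 0 t)).card : ℤ) := by
      have : ((Finset.range N).filter (fun t => LRec u X 0 t)) ⊆
          ((Finset.range (N + 1)).filter (fun t => LRec u X 0 t)) :=
        Finset.filter_subset_filter _ (Finset.range_mono (Nat.le_succ N))
      exact_mod_cast Finset.card_le_card this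
    have hold : ∀ k < N, u (X k) - u (X 0) + 1 ≤
        (((Finset.range (N + 1)).filter (fun t => LRec u X 0 t)).card : ℤ) :=
      fun k hk => (ih k hk).trans hmono
    intro k hk
    rcases Nat.lt_or_ge k N with h | h
    · exact hold k h
    · have hkN : k = N := by omega
      subst hkN
      by_cases hrec : LRec u X 0 k
      · have hcard : ((Finset.range (k + 1)).filter (fun t => LRec u X 0 t)).card =
            ((Finset.range k).filter (fun t => LRec u X 0 t)).card + 1 := by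
          rw [Finset.range_add_one, Finset.filter_insert, if_pos hrec, Finset.card_insert_of_notMem]
          simp
        rw [hcard]
        rcases Nat.eq_zero_or_pos k with h0 | h0
        · subst h0; simp
        · obtain ⟨m, rfl⟩ : ∃ m, k = m + 1 := ⟨k - 1, by omega⟩
          have h1 := ih m (Nat.lt_succ_self m)
          have h2 := hstep m
          push_cast
          linarith
      · unfold LRec at hrec
        push Not at hrec
        obtain ⟨m, _, h2, h3⟩ := hrec
        have := hold m h2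
        linarith

section words2
variable [Inhabited S]

lemma wp_step (hu : ∀ a, |u (val a)| ≤ 1) (w : Word S) (n : ℕ) :
    u (wp val w (n + 1)) - u (wp val w n) ≤ 1 := by
  unfold wp pos
  rw [Finset.sum_range_succ, map_add]
  have := (abs_le.1 (hu (w.letter n))).2
  linarith

/-- heights inside a good word -/
lemma good_height {w : Word S} (hg : GoodWord (hL L val) w) {k : ℕ} (hk : k < w.len) :
    0 ≤ L (wp val w k) ∧ L (wp val w k) < Word.ht (hL L val) w := by
  rw [L_wp w hk.le]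
  exact hg.2.2 k hk

/-- every time of a good word which is not a giant lies in a depth phase `j < J` -/
lemma exists_phase {w : Word S} (hg : GoodWord (hL L val) w) {J : ℕ}
    (hJ : Word.ht (hL L val) w < 2 ^ J - 1) {t : ℕ} (ht : t < w.len) :
    ∃ j < J, ∃ σ, Ph L (pa j) (pb j) (wp val w) σ t := by
  obtain ⟨r, hr1, hr2, hr3⟩ := exists_last (fun n => Rec L (wp val w) n)
    (fun k hk => absurd hk (Nat.not_lt_zero k)) t
  obtain ⟨m0, hm0, hmax⟩ := (Finset.Icc r t).exists_max_image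
    (fun m => L (wp val w r) - L (wp val w m)) ⟨r, Finset.mem_Icc.2 ⟨le_rfl, hr1⟩⟩
  rw [Finset.mem_Icc] at hm0
  set D := L (wp val w r) - L (wp val w m0) with hD
  have hD0 : 0 ≤ D := by
    have := hmax r (Finset.mem_Icc.2 ⟨le_rfl, hr1⟩)
    simpa using this
  have hDlt : D < 2 ^ J - 1 := by
    have h1 := (good_height hg (lt_of_le_of_lt hr1 ht)).2
    have h2 := (good_height hg (lt_of_le_of_lt hm0.2 ht)).1
    linarith
  obtain ⟨j, hj1, hj2⟩ := exists_nat_pow_near (show (1 : ℝ) ≤ D + 1 by linarith) one_lt_two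
  refine ⟨j, ?_, r, hr2, hr1, hr3, ⟨m0, hm0.1, hm0.2, ?_⟩, fun m hm1 hm2 => ?_⟩
  · have h3 : (2 : ℝ) ^ j < 2 ^ J := by linarith
    exact (pow_lt_pow_iff_right₀ one_lt_two).1 h3
  · unfold pa; linarith
  · have := hmax m (Finset.mem_Icc.2 ⟨hm1, hm2⟩)
    unfold pb
    linarith

open Classical in
/-- number of lateral records of a word in the depth phase `[a,b)` -/
noncomputable def cnt (L : V →+ ℝ) (u : V →+ ℤ) (val : S → V) (a b : ℝ) (w : Word S) : ℕ :=
  ((Finset.range w.len).filter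
    (fun t => (∃ σ, Ph L a b (wp val w) σ t) ∧ LRec u (wp val w) 0 t)).card

/-- `V_J` -/
noncomputable def VJ (L : V →+ ℝ) (u : V →+ ℤ) (val : S → V) (J : ℕ) (w : Word S) : ℕ :=
  ∑ j ∈ Finset.range J, (cnt L u val (pa j) (pb j) w + cnt L (-u) val (pa j) (pb j) w)

lemma extent_one (hu : ∀ a, |u (val a)| ≤ 1) {w : Word S} (hg : GoodWord (hL L val) w) {J : ℕ}
    (hJ : Word.ht (hL L val) w < 2 ^ J - 1) {t : ℕ} (ht : t ≤ w.len) :
    u (wp val w t) ≤ ((∑ j ∈ Finset.range J, cnt L u val (pa j) (pb j) w : ℕ) : ℤ) := by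
  classical
  have hall : ((Finset.range w.len).filter (fun t => LRec u (wp val w) 0 t)).card ≤
      ∑ j ∈ Finset.range J, cnt L u val (pa j) (pb j) w := by
    have hsub : ((Finset.range w.len).filter (fun t => LRec u (wp val w) 0 t)) ⊆
        (Finset.range J).biUnion (fun j => (Finset.range w.len).filter
          (fun t => (∃ σ, Ph L (pa j) (pb j) (wp val w) σ t) ∧ LRec u (wp val w) 0 t)) := by
      intro t ht
      rw [Finset.mem_filter, Finset.mem_range] at ht
      obtain ⟨j, hj, hσ⟩ := exists_phase hg hJ ht.1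
      rw [Finset.mem_biUnion]
      exact ⟨j, Finset.mem_range.2 hj, Finset.mem_filter.2 ⟨Finset.mem_range.2 ht.1, hσ, ht.2⟩⟩
    exact (Finset.card_le_card hsub).trans Finset.card_biUnion_le
  have hcount := rec_count (u := u) (X := wp val w) (wp_step hu w) w.len
  have h0 : u (wp val w 0) = 0 := by rw [wp_zero, map_zero]
  have hall' : (((Finset.range w.len).filter (fun t => LRec u (wp val w) 0 t)).card : ℤ) ≤
      ((∑ j ∈ Finset.range J, cnt L u val (pa j) (pb j) w : ℕ) : ℤ) := by exact_mod_cast hall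
  rcases Nat.eq_zero_or_pos t with h | h
  · subst h; rw [h0]; positivity
  · obtain ⟨m, rfl⟩ : ∃ m, t = m + 1 := ⟨t - 1, by omega⟩
    have h1 := hcount m (by omega)
    have h2 := wp_step hu w m
    linarith

lemma extent (hu : ∀ a, |u (val a)| ≤ 1) {w : Word S} (hg : GoodWord (hL L val) w) {J : ℕ}
    (hJ : Word.ht (hL L val) w < 2 ^ J - 1) {t : ℕ} (ht : t ≤ w.len) :
    |(u (wp val w t) : ℝ)| ≤ (VJ L u val J w : ℝ) := by
  have h1 := extent_one hu hg hJ ht
  have h2 := extent_one (u := -u) (fun a => by simpa using hu a) hg hJ ht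
  have e1 : ∑ j ∈ Finset.range J, cnt L u val (pa j) (pb j) w ≤ VJ L u val J w :=
    Finset.sum_le_sum fun j _ => Nat.le_add_right _ _
  have e2 : ∑ j ∈ Finset.range J, cnt L (-u) val (pa j) (pb j) w ≤ VJ L u val J w :=
    Finset.sum_le_sum fun j _ => Nat.le_add_left _ _
  have e1' : ((∑ j ∈ Finset.range J, cnt L u val (pa j) (pb j) w : ℕ) : ℤ) ≤ (VJ L u val J w : ℤ) := by
    exact_mod_cast e1
  have e2' : ((∑ j ∈ Finset.range J, cnt L (-u) val (pa j) (pb j) w : ℕ) : ℤ) ≤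
      (VJ L u val J w : ℤ) := by exact_mod_cast e2
  simp only [AddMonoidHom.neg_apply] at h2
  have h3 : |u (wp val w t)| ≤ (VJ L u val J w : ℤ) := abs_le.2 ⟨by linarith, by linarith⟩
  exact_mod_cast h3

/-- lateral position of a concatenation of good words, none of them a giant -/
lemma lateral_bound (hu : ∀ a, |u (val a)| ≤ 1) {w : ℕ → Word S}
    (hg : ∀ k, GoodWord (hL L val) (w k)) {J k : ℕ}
    (hJ : ∀ q ≤ k, Word.ht (hL L val) (w q) < 2 ^ J - 1) {i : ℕ} (hi : i ≤ (w k).len) :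
    |(u (pos val (cat w) (T w k + i)) : ℝ)| ≤
      ∑ q ∈ Finset.range (k + 1), (VJ L u val J (w q) : ℝ) := by
  have hw : ∀ i, 1 ≤ (w i).len := fun i => (hg i).1
  have hT : |(u (pos val (cat w) (T w k)) : ℝ)| ≤
      ∑ q ∈ Finset.range k, (VJ L u val J (w q) : ℝ) := by
    rw [pos_T hw, map_sum, Int.cast_sum]
    refine (Finset.abs_sum_le_sum_abs _ _).trans (Finset.sum_le_sum fun q hq => ?_)
    exact extent hu (hg q) (hJ q (Finset.mem_range.1 hq).le) le_rfl
  rw [pos_block hw k hi, map_add, Int.cast_add, Finset.sum_range_succ]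
  exact (abs_add_le _ _).trans (add_le_add hT (extent hu (hg k) (hJ k le_rfl) hi))

/-- height at a block start -/
lemma L_pos_T {w : ℕ → Word S} (hw : ∀ i, 1 ≤ (w i).len) (k : ℕ) :
    L (pos val (cat w) (T w k)) = ∑ i ∈ Finset.range k, Word.ht (hL L val) (w i) := by
  rw [pos_T hw, map_sum]
  exact Finset.sum_congr rfl fun i _ => L_wp_len (w i)

lemma L_pos_ge {w : ℕ → Word S} (hg : ∀ k, GoodWord (hL L val) (w k)) {k i : ℕ}
    (hi : i < (w k).len) :
    ∑ i ∈ Finset.range k, Word.ht (hL L val) (w i) ≤ L (pos val (cat w) (T w k + i)) := by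
  have hw : ∀ i, 1 ≤ (w i).len := fun i => (hg i).1
  rw [pos_block hw k hi.le, map_add, L_pos_T hw]
  have := (good_height (hg k) hi).1
  linarith

/-- **(SUC), deterministic part** -/
theorem slope_of {w : ℕ → Word S} (hu : ∀ a, |u (val a)| ≤ 1)
    (hg : ∀ k, GoodWord (hL L val) (w k)) {J : ℕ} {c C Λ : ℝ} (hc : 0 < c) (hΛ : 0 ≤ Λ)
    (h1 : ∀ k : ℕ, c * k - C ≤ ∑ q ∈ Finset.range k, Word.ht (hL L val) (w q))
    (h2 : ∀ k : ℕ, 1 ≤ k → ∑ q ∈ Finset.range k, ((VJ L u val J (w q) : ℝ) + 1) < Λ * k)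
    (h3 : ∀ q : ℕ, ∑ i ∈ Finset.range q, Word.ht (hL L val) (w i) ≤ (2 : ℝ) ^ J →
      Word.ht (hL L val) (w q) < (2 : ℝ) ^ J - 1) (n : ℕ) :
    |(u (pos val (cat w) n) : ℝ)| ≤ Λ / c * (L (pos val (cat w) n) + (C + c)) ∨
      (2 : ℝ) ^ J < L (pos val (cat w) n) := by
  have hw : ∀ i, 1 ≤ (w i).len := fun i => (hg i).1
  obtain ⟨k, i, hi, rfl⟩ := exists_block' hw n
  by_cases hbig : (2 : ℝ) ^ J < L (pos val (cat w) (T w k + i))
  · exact Or.inr hbig
  · left
    have hHk := L_pos_ge hg hi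
    have hmono : ∀ q ≤ k, ∑ i ∈ Finset.range q, Word.ht (hL L val) (w i) ≤
        ∑ i ∈ Finset.range k, Word.ht (hL L val) (w i) := fun q hq =>
      Finset.sum_le_sum_of_subset_of_nonneg (Finset.range_mono hq) fun i _ _ => (hg i).2.1.le
    have hJ : ∀ q ≤ k, Word.ht (hL L val) (w q) < 2 ^ J - 1 := fun q hq =>
      h3 q ((hmono q hq).trans (hHk.trans (not_lt.1 hbig)))
    have hlat := lateral_bound hu hg hJ hi.le
    have h4 := h2 (k + 1) (by omega)
    have h5 : ∑ q ∈ Finset.range (k + 1), (VJ L u val J (w q) : ℝ) ≤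
        ∑ q ∈ Finset.range (k + 1), ((VJ L u val J (w q) : ℝ) + 1) :=
      Finset.sum_le_sum fun q _ => by linarith
    have h6 := h1 k
    push_cast at h4
    have h7 : (k : ℝ) + 1 ≤ (L (pos val (cat w) (T w k + i)) + (C + c)) / c := by
      rw [le_div_iff₀ hc]
      linarith
    calc |(u (pos val (cat w) (T w k + i)) : ℝ)|
        ≤ Λ * ((k : ℝ) + 1) := by linarith
      _ ≤ Λ * ((L (pos val (cat w) (T w k + i)) + (C + c)) / c) :=
          mul_le_mul_of_nonneg_left h7 hΛ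
      _ = _ := by ring

end words2

/-! ### the binding to `RegSys.SUC` -/

section suc
variable [Countable S] [MeasurableSpace S] [MeasurableSingletonClass S] [Inhabited S]
variable {P : Measure (ℕ → S)} [IsProbabilityMeasure P]


/-- the number of lateral records of the first block is at most the number of `F`-events -/
lemma cnt_le_tsum (R : RegSys L val P) (u : V →+ ℤ) (a b : ℝ) {w : ℕ → Word S}
    (hst : cat w ∈ Stay (hL L val))
    (hno : ∀ r, 1 ≤ r → r < (w 0).len → ¬ R.R (cat w) r) :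
    (cnt L u val a b (w 0) : ℝ≥0∞) ≤ ∑' σ, ∑' t, ind (cat w ∈ R.F u a b σ t) := by
  classical
  rw [ENNReal.tsum_comm]
  have h1 : (cnt L u val a b (w 0) : ℝ≥0∞) = ∑ t ∈ Finset.range (w 0).len,
      ind ((∃ σ, Ph L a b (wp val (w 0)) σ t) ∧ LRec u (wp val (w 0)) 0 t) := by
    rw [sum_ind_eq_card]
    rfl
  rw [h1]
  refine le_trans (Finset.sum_le_sum fun t ht => ?_) (ENNReal.sum_le_tsum (Finset.range (w 0).len))
  have htl := Finset.mem_range.1 ht
  by_cases hp : (∃ σ, Ph L a b (wp val (w 0)) σ t) ∧ LRec u (wp val (w 0)) 0 t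
  · obtain ⟨⟨σ, hσ⟩, hl⟩ := hp
    have hpos : ∀ k ≤ t, wp val (w 0) k = pos val (cat w) k := fun k hk =>
      (pos_cat_lt (hk.trans htl.le)).symm
    have hF : cat w ∈ R.F u a b σ t := by
      refine ⟨hst, fun r' hr1 hr2 => hno r' hr1 ?_, (ph_congr hpos le_rfl).1 hσ,
        (lrec_congr hpos le_rfl).1 hl⟩
      have := hσ.2.1
      omega
    calc ind ((∃ σ, Ph L a b (wp val (w 0)) σ t) ∧ LRec u (wp val (w 0)) 0 t) ≤ 1 := ind_le_one _
      _ = ind (cat w ∈ R.F u a b σ t) := (ind_of hF).symm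
      _ ≤ _ := ENNReal.le_tsum σ
  · rw [ind_not hp]; exact bot_le

/-- **(SUC)** for an iid block decomposition -/
theorem suc_of_blocks (R : RegSys L val P) (μ : Measure (Word S)) [IsProbabilityMeasure μ]
    (bl : (ℕ → S) → ℕ → Word S) (hblm : Measurable bl)
    (hmap : (cond P (Stay (hL L val))).map bl = Measure.infinitePi fun _ : ℕ => μ)
    (hgood : ∀ᵐ w ∂μ, GoodWord (hL L val) w)
    (hblk : ∀ᵐ s ∂(cond P (Stay (hL L val))), cat (bl s) = s ∧
      ∀ r, 1 ≤ r → r < (bl s 0).len → ¬ R.R s r)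
    (hYi : ∫⁻ w, ENNReal.ofReal (Word.ht (hL L val) w) ∂μ ≠ ⊤)
    (hu : ∀ a, |u (val a)| ≤ 1) : R.SUC u := by
  set h : S → ℝ := hL L val with hh
  set PD : Measure (ℕ → S) := cond P (Stay h) with hPD
  have hp0 : P (Stay h) ≠ 0 := R.p_ne
  have hpt : P (Stay h) ≠ ⊤ := measure_ne_top _ _
  have hPDprob : IsProbabilityMeasure PD := cond_isProbabilityMeasure hp0
  -- height
  set Y : Word S → ℝ := fun w => Word.ht h w with hY
  have hYm : Measurable Y := measurable_of_countable _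
  have hYpos : ∀ᵐ w ∂μ, 0 < Y w := hgood.mono fun w hw => hw.2.1
  have hYint : Integrable Y μ := by
    refine ⟨hYm.aestronglyMeasurable, ?_⟩
    rw [hasFiniteIntegral_iff_ofReal (hYpos.mono fun w hw => hw.le)]
    exact lt_top_iff_ne_top.2 hYi
  obtain ⟨c, hc, C, hC, J₀, hJ₀⟩ := Suc419.suc_iid (μ := μ) hYm hYint hYpos
  -- almost sure facts along the blocks
  have hgoodall : ∀ᵐ s ∂PD, ∀ k, GoodWord h (bl s k) := by
    rw [ae_all_iff]
    intro k
    have hmp : MeasurePreserving (fun w : ℕ → Word S => w k)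
        (Measure.infinitePi fun _ : ℕ => μ) μ :=
      measurePreserving_eval_infinitePi (fun _ : ℕ => μ) k
    have h1 : ∀ᵐ w ∂(Measure.infinitePi fun _ : ℕ => μ), GoodWord h (w k) :=
      hmp.quasiMeasurePreserving.ae hgood
    rw [← hmap] at h1
    exact ae_of_ae_map hblm.aemeasurable h1
  have hstay : ∀ᵐ s ∂PD, s ∈ Stay h := by
    rw [hPD]
    exact ae_cond_mem (measurableSet_Stay h)
  set p : ℝ := (P (Stay h)).toReal with hpdef
  have hpp : 0 < p := ENNReal.toReal_pos hp0 hpt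
  have hp1 : p ≤ 1 := by
    rw [hpdef]
    exact ENNReal.toReal_le_of_le_ofReal zero_le_one (by rw [ENNReal.ofReal_one]; exact prob_le_one)
  refine ⟨max 1 (8 / (c * p)), C + c, le_max_left _ _, by positivity, J₀, fun J hJ x hx hxJ => ?_⟩
  -- the mean of `V_J`
  set VV : Word S → ℝ := fun w => (VJ L u val J w : ℝ) with hVV
  have hVVm : Measurable VV := measurable_of_countable _
  have hlint : ∫⁻ w, (VJ L u val J w : ℝ≥0∞) ∂μ ≤ ENNReal.ofReal (x / p) := by
    have e1 : ∫⁻ w, (VJ L u val J w : ℝ≥0∞) ∂μ = ∫⁻ s, (VJ L u val J (bl s 0) : ℝ≥0∞) ∂PD := by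
      have hmp : MeasurePreserving (fun w : ℕ → Word S => w 0)
          (Measure.infinitePi fun _ : ℕ => μ) μ :=
        measurePreserving_eval_infinitePi (fun _ : ℕ => μ) 0
      have hm1 : Measurable fun w : Word S => (VJ L u val J w : ℝ≥0∞) := measurable_of_countable _
      have hm2 : Measurable fun w : ℕ → Word S => (VJ L u val J (w 0) : ℝ≥0∞) :=
        hm1.comp (measurable_pi_apply 0)
      rw [← hmp.lintegral_comp hm1, ← hmap, lintegral_map hm2 hblm]
    rw [e1]
    have e2 : ∫⁻ s, (VJ L u val J (bl s 0) : ℝ≥0∞) ∂PD ≤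
        ∫⁻ s, ∑ j ∈ Finset.range J, ((∑' σ, ∑' t, ind (s ∈ R.F u (pa j) (pb j) σ t)) +
          ∑' σ, ∑' t, ind (s ∈ R.F (-u) (pa j) (pb j) σ t)) ∂PD := by
      refine lintegral_mono_ae ?_
      filter_upwards [hblk, hstay] with s hs1 hs2
      obtain ⟨hcat, hno⟩ := hs1
      have hst' : cat (bl s) ∈ Stay (hL L val) := by rw [hcat]; exact hs2
      have hno' : ∀ r, 1 ≤ r → r < (bl s 0).len → ¬ R.R (cat (bl s)) r := by
        rw [hcat]; exact hno
      unfold VJ
      push_cast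
      refine Finset.sum_le_sum fun j _ => ?_
      have f1 := cnt_le_tsum R u (pa j) (pb j) hst' hno'
      have f2 := cnt_le_tsum R (-u) (pa j) (pb j) hst' hno'
      rw [hcat] at f1 f2
      exact add_le_add f1 f2
    refine e2.trans ?_
    have e3 : ∀ (u' : V →+ ℤ) (a b : ℝ), ∫⁻ s, ∑' σ, ∑' t, ind (s ∈ R.F u' a b σ t) ∂PD =
        (P (Stay h))⁻¹ * ∑' σ, ∑' t, P (R.F u' a b σ t) := by
      intro u' a b
      rw [lintegral_tsum fun σ => (Measurable.tsum fun t =>
        measurable_ind (R.measurableSet_F a b σ t)).aemeasurable, ← ENNReal.tsum_mul_left]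
      refine tsum_congr fun σ => ?_
      rw [lintegral_tsum fun t => (measurable_ind (R.measurableSet_F a b σ t)).aemeasurable,
        ← ENNReal.tsum_mul_left]
      refine tsum_congr fun t => ?_
      rw [lintegral_ind (R.measurableSet_F a b σ t), hPD, cond_apply (measurableSet_Stay h)]
      congr 2
      ext s
      exact ⟨fun hs => hs.2, fun hs => ⟨hs.1, hs⟩⟩
    have hmeasF : ∀ (u' : V →+ ℤ) (a b : ℝ), Measurable fun s : ℕ → S =>
        ∑' σ, ∑' t, ind (s ∈ R.F u' a b σ t) := fun u' a b =>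
      Measurable.tsum fun σ => Measurable.tsum fun t =>
        measurable_ind (R.measurableSet_F a b σ t)
    have hmj : ∀ j ∈ Finset.range J, Measurable fun s : ℕ → S =>
        (∑' σ, ∑' t, ind (s ∈ R.F u (pa j) (pb j) σ t)) +
          ∑' σ, ∑' t, ind (s ∈ R.F (-u) (pa j) (pb j) σ t) := fun j _ =>
      (hmeasF u (pa j) (pb j)).add (hmeasF (-u) (pa j) (pb j))
    rw [lintegral_finsetSum _ hmj]
    have e4 : ∀ j ∈ Finset.range J, ∫⁻ s, ((∑' σ, ∑' t, ind (s ∈ R.F u (pa j) (pb j) σ t)) +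
          ∑' σ, ∑' t, ind (s ∈ R.F (-u) (pa j) (pb j) σ t)) ∂PD =
        (P (Stay h))⁻¹ * (R.f u j + R.f (-u) j) := by
      intro j _
      rw [lintegral_add_left (hmeasF u _ _), e3, e3, mul_add]
      rfl
    rw [Finset.sum_congr rfl e4, ← Finset.mul_sum]
    calc (P (Stay h))⁻¹ * R.x u J ≤ (P (Stay h))⁻¹ * ENNReal.ofReal x := by gcongr
      _ = ENNReal.ofReal (x / p) := by
          rw [div_eq_inv_mul, ENNReal.ofReal_mul (by positivity), ENNReal.ofReal_inv_of_pos hpp,
            hpdef, ENNReal.ofReal_toReal hpt]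
  have hVVint : Integrable VV μ := by
    refine ⟨hVVm.aestronglyMeasurable, ?_⟩
    rw [hasFiniteIntegral_iff_ofReal (Eventually.of_forall fun w => Nat.cast_nonneg _)]
    refine lt_of_le_of_lt ?_ (lt_of_le_of_lt hlint ENNReal.ofReal_lt_top)
    refine le_of_eq (lintegral_congr fun w => ?_)
    exact ENNReal.ofReal_natCast _
  have hVVle : ∫ w, VV w ∂μ ≤ x / p := by
    rw [integral_eq_lintegral_of_nonneg_ae (Eventually.of_forall fun w => Nat.cast_nonneg _)
      hVVm.aestronglyMeasurable]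
    refine ENNReal.toReal_le_of_le_ofReal (by positivity) ?_
    refine le_trans (le_of_eq (lintegral_congr fun w => ?_)) hlint
    exact ENNReal.ofReal_natCast _
  have hVV0 : 0 ≤ ∫ w, VV w ∂μ := integral_nonneg fun w => Nat.cast_nonneg _
  -- the success event
  have hmain := hJ₀ J hJ VV hVVm (fun w => Nat.cast_nonneg _) hVVint
  set Λ : ℝ := 8 * (1 + ∫ w, VV w ∂μ) with hΛ
  set E : Set (ℕ → Word S) := {w : ℕ → Word S |
          (∀ k : ℕ, c * k - C ≤ ∑ q ∈ Finset.range k, Y (w q)) ∧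
          (∀ k : ℕ, 1 ≤ k → ∑ q ∈ Finset.range k, (VV (w q) + 1) < Λ * k) ∧
          ∀ q : ℕ, ∑ i ∈ Finset.range q, Y (w i) ≤ (2 : ℝ) ^ J → Y (w q) < (2 : ℝ) ^ J - 1} with hE
  have hEm : MeasurableSet E := by
    have : E = (⋂ k : ℕ, {w : ℕ → Word S | c * k - C ≤ ∑ q ∈ Finset.range k, Y (w q)}) ∩
        ((⋂ k : ℕ, ⋂ _ : 1 ≤ k, {w : ℕ → Word S |
          ∑ q ∈ Finset.range k, (VV (w q) + 1) < Λ * k}) ∩
        ⋂ q : ℕ, ({w : ℕ → Word S | ∑ i ∈ Finset.range q, Y (w i) ≤ (2 : ℝ) ^ J}ᶜ ∪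
          {w : ℕ → Word S | Y (w q) < (2 : ℝ) ^ J - 1})) := by
      ext w
      simp only [hE, mem_ofPred_eq, mem_inter_iff, mem_iInter, mem_union, mem_compl_iff,
        ← imp_iff_not_or]
    rw [this]
    refine (MeasurableSet.iInter fun k => measurableSet_le measurable_const
      (Suc419.measurable_psum hYm k)).inter ((MeasurableSet.iInter fun k =>
      MeasurableSet.iInter fun _ => measurableSet_lt
        (Suc419.measurable_psum (hVVm.add_const 1) k) measurable_const).inter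
      (MeasurableSet.iInter fun q => (measurableSet_le (Suc419.measurable_psum hYm q)
        measurable_const).compl.union (measurableSet_lt (hYm.comp (measurable_pi_apply q))
          measurable_const)))
  have hEle : (2 : ℝ≥0∞)⁻¹ ≤ (Measure.infinitePi fun _ : ℕ => μ) E := by
    have h1 : ENNReal.ofReal (1 / 2) ≤ ENNReal.ofReal
        ((Measure.infinitePi fun _ : ℕ => μ).real E) := ENNReal.ofReal_le_ofReal hmain
    rw [ofReal_measureReal (measure_ne_top _ _)] at h1
    refine le_trans (le_of_eq ?_) h1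
    rw [one_div, ENNReal.ofReal_inv_of_pos (by norm_num)]
    norm_num
  have hsub : (bl ⁻¹' E : Set (ℕ → S)) ≤ᵐ[PD]
      Slope L u val (max 1 (8 / (c * p)) * (1 + x)) (C + c) (2 ^ J) := by
    filter_upwards [hblk, hstay, hgoodall] with s hs1 hs2 hs3 hs4
    obtain ⟨hcat, -⟩ := hs1
    obtain ⟨k1, k2, k3⟩ := hs4
    refine ⟨hs2, fun t => ?_⟩
    have h1 := slope_of (u := u) hu hs3 hc (by positivity : (0 : ℝ) ≤ Λ) k1 k2 k3 t
    rw [hcat] at h1
    rcases h1 with h1 | h1
    · left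
      refine h1.trans (mul_le_mul_of_nonneg_right ?_ ?_)
      · have h2 : Λ ≤ 8 / p * (1 + x) := by
          rw [hΛ]
          have h3 : x / p + 1 ≤ (1 + x) / p := by
            rw [add_div]
            have : 1 ≤ 1 / p := by rw [le_div_iff₀ hpp]; linarith
            linarith
          calc 8 * (1 + ∫ w, VV w ∂μ) ≤ 8 * ((1 + x) / p) := by linarith
            _ = 8 / p * (1 + x) := by ring
        calc Λ / c ≤ 8 / p * (1 + x) / c := div_le_div_of_nonneg_right h2 hc.le
          _ = 8 / (c * p) * (1 + x) := by field_simp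
          _ ≤ max 1 (8 / (c * p)) * (1 + x) :=
              mul_le_mul_of_nonneg_right (le_max_right _ _) (by positivity)
      · have := (stay_iff L val s).1 hs2 t
        positivity
    · exact Or.inr h1
  have hfin : (2 : ℝ≥0∞)⁻¹ ≤ PD (Slope L u val (max 1 (8 / (c * p)) * (1 + x)) (C + c) (2 ^ J)) := by
    calc (2 : ℝ≥0∞)⁻¹ ≤ (Measure.infinitePi fun _ : ℕ => μ) E := hEle
      _ = PD (bl ⁻¹' E) := by rw [← hmap, Measure.map_apply hblm hEm]
      _ ≤ _ := measure_mono_ae hsub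
  rw [hPD, cond_apply (measurableSet_Stay h)] at hfin
  have hsl : Stay h ∩ Slope L u val (max 1 (8 / (c * p)) * (1 + x)) (C + c) (2 ^ J) =
      Slope L u val (max 1 (8 / (c * p)) * (1 + x)) (C + c) (2 ^ J) :=
    inter_eq_right.2 fun s hs => hs.1
  rw [hsl] at hfin
  calc P (Stay h) = 2 * (P (Stay h) * 2⁻¹) := by
        rw [mul_comm (P (Stay h)), ← mul_assoc, ENNReal.mul_inv_cancel (by norm_num) (by norm_num),
          one_mul]
    _ ≤ 2 * (P (Stay h) * ((P (Stay h))⁻¹ *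
        P (Slope L u val (max 1 (8 / (c * p)) * (1 + x)) (C + c) (2 ^ J)))) := by gcongr
    _ = _ := by rw [← mul_assoc (P (Stay h)), ENNReal.mul_inv_cancel hp0 hpt, one_mul]

/-- **(SUC)** from 263's renewal structure -/
theorem suc_renG (R : RegSys L val P) {ρ : RenG263.RecSys (hL L val)}
    (RG : RenG263.RenewalG ρ P) (hR : ∀ s ∈ Stay (hL L val), ∀ n, R.R s n → RenG263.Reg ρ s n)
    (hYi : ∫⁻ w, ENNReal.ofReal (Word.ht (hL L val) w) ∂(RenG263.wordLaw ρ P) ≠ ⊤)
    (hu : ∀ a, |u (val a)| ≤ 1) : R.SUC u := by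
  have hp := R.p_ne
  have hT := R.top
  have := RG.isProb hp hT
  refine suc_of_blocks R (RenG263.wordLaw ρ P) (RenG263.blks ρ) (RenG263.measurable_blks ρ)
    (RG.map_blks hp hT) ((RenG263.ae_goodWord ρ P).mono fun w hw => hw.1) ?_ hYi hu
  have h1 : ∀ᵐ s ∂(P.restrict (Stay (hL L val))), s ∈ RenG263.RegInf ρ := by
    rw [ae_restrict_iff' (measurableSet_Stay _)]
    exact RG.ae_regInf hp hT
  have h2 : ∀ᵐ s ∂(cond P (Stay (hL L val))), s ∈ RenG263.RegInf ρ := by
    unfold ProbabilityTheory.cond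
    exact Measure.ae_smul_measure h1 _
  filter_upwards [h2] with s hs
  refine ⟨RenG263.cat_blks hs, fun r hr1 hr2 hr3 => ?_⟩
  rw [RenG263.blks_zero, RenG263.blk0, len_pre] at hr2
  exact RenG263.tau_min hr1 hr2 (hR s hs.1 r hr3)

end suc

end Crest.Agent.R154.SucDet
end

-- ▼ part R154/B2Asm_719

/-!
Row 154, block B2, assembly: `sup_J x_J < ∞` from (MAIN), (SUC), the fresh cone property and the
first moment of the block height.
-/

set_option autoImplicit false
set_option linter.unusedSectionVars false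
set_option linter.unusedVariables false

namespace Crest.Agent.R154.B2

open MeasureTheory Set Filter Crest.Agent.R154.Ren263
open scoped ENNReal Topology

variable {S : Type*} {V : Type*} [AddCommGroup V]
variable [Countable S] [MeasurableSpace S] [MeasurableSingletonClass S]
variable {L : V →+ ℝ} {val : S → V} {P : Measure (ℕ → S)} [IsProbabilityMeasure P]

lemma measurable_pos_lat (u : V →+ ℤ) (n : ℕ) :
    Measurable fun s : ℕ → S => ((u (pos val s n) : ℤ) : ℝ) := by
  have : (fun s : ℕ → S => ((u (pos val s n) : ℤ) : ℝ)) =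
      fun s => ∑ i ∈ Finset.range n, ((u (val (s i)) : ℤ) : ℝ) := by
    funext s
    simp [pos, map_sum]
  rw [this]
  refine Finset.measurable_sum _ fun i _ => ?_
  exact (measurable_of_countable fun a : S => ((u (val a) : ℤ) : ℝ)).comp (measurable_pi_apply i)

lemma measurableSet_Slope (u : V →+ ℤ) (lam C H : ℝ) :
    MeasurableSet (Slope L u val lam C H : Set (ℕ → S)) := by
  have : (Slope L u val lam C H : Set (ℕ → S)) = Stay (hL L val) ∩
      ⋂ t, ({s | |((u (pos val s t) : ℤ) : ℝ)| ≤ lam * (L (pos val s t) + C)} ∪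
        {s | H < L (pos val s t)}) := by
    ext s
    simp only [Slope, mem_ofPred_eq, mem_inter_iff, mem_iInter, mem_union]
  rw [this]
  refine (measurableSet_Stay _).inter (MeasurableSet.iInter fun t => MeasurableSet.union ?_ ?_)
  · exact measurableSet_le (measurable_pos_lat u t).abs
      (measurable_const.mul ((measurable_pos_height t).add measurable_const))
  · exact measurableSet_lt measurable_const (measurable_pos_height t)

lemma abs_nsmul_u (u : V →+ ℤ) (k : ℕ) (e : V) : |((u (k • e) : ℤ) : ℝ)| = k * |((u e : ℤ) : ℝ)| := by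
  rw [map_nsmul]
  push_cast
  rw [nsmul_eq_mul]
  push_cast
  rw [abs_mul, Nat.abs_cast]

lemma L_nsmul (k : ℕ) (e : V) : L (k • e) = k * L e := by
  rw [map_nsmul, nsmul_eq_mul]

/-- a success event: climb straight, then stay in `B`; `c = P(word h) P(B)` -/
noncomputable def mkFresh {e : V} {D : Set V} (cf : CF L val P e D) (hLe : 0 < L e)
    (u : V →+ ℤ) {R1 R2 : ℝ} (hD : ∀ δ ∈ D, |L δ| ≤ R1 ∧ |((u δ : ℤ) : ℝ)| ≤ R2)
    {lam H : ℝ} (hlam : 0 ≤ lam) (hue : |((u e : ℤ) : ℝ)| ≤ lam * L e)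
    {h : ℕ} (h1 : 1 ≤ h) (B : Set (ℕ → S)) (hB : MeasurableSet B) (hBs : B ⊆ Stay (hL L val))
    (hBne : P B ≠ 0) (hR : R1 < h * L e)
    (hBU : ∀ s ∈ B, ∀ m, ∀ δ : V, |L δ| ≤ R1 → |((u δ : ℤ) : ℝ)| ≤ R2 →
      h • e + pos val s m + δ ∈ UU L u lam H) (hR1 : 0 ≤ R1) (hR2 : 0 ≤ R2) :
    FreshC L u val P lam H where
  c := P (cf.word h) * P B
  Sc := cf.word h ∩ shift h ⁻¹' B
  c_ne := mul_ne_zero (cf.word_ne h) hBne
  Sc_meas := (cf.word_det h).measurableSet.inter (measurable_shift h hB)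
  Sc_U := by
    rintro s ⟨hs1, hs2⟩ k hk
    rcases le_or_gt k h with hkh | hkh
    · rw [cf.word_pos h s hs1 k hkh]
      have hk0 : (0 : ℝ) < k := by exact_mod_cast hk
      refine ⟨by rw [L_nsmul]; positivity, Or.inl ?_⟩
      rw [abs_nsmul_u, L_nsmul]
      have := mul_le_mul_of_nonneg_left hue hk0.le
      linarith
    · have hx : pos val s k = h • e + pos val (shift h s) (k - h) + 0 := by
        rw [pos_shift, Nat.add_sub_cancel' hkh.le, cf.word_pos h s hs1 h le_rfl]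
        abel
      rw [hx]
      exact hBU _ hs2 _ 0 (by simpa using hR1) (by simpa using hR2)
  Sc_ge := by
    intro n A hA hAU
    refine cf.fresh n h A B hA hB hBs ?_ ?_
    · intro s hs k hk j hj heq
      obtain ⟨h2, h3⟩ := hAU s hs k hk
      rcases Nat.eq_zero_or_pos j with rfl | hj0
      · rw [zero_smul, sub_eq_zero] at heq
        exact h2 heq
      · apply h3
        rw [heq]
        have hk0 : (0 : ℝ) < j := by exact_mod_cast hj0
        refine ⟨by rw [L_nsmul]; positivity, Or.inl ?_⟩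
        rw [abs_nsmul_u, L_nsmul]
        have := mul_le_mul_of_nonneg_left hue hk0.le
        linarith
    · intro s hs k hk s' hs' m hmem
      obtain ⟨h2, h3⟩ := hAU s hs k hk
      apply h3
      obtain ⟨e1, e2⟩ := hD _ hmem
      have := hBU s' hs' m _ e1 e2
      convert this using 1
      abel

/-- crude success event: climb straight above height `H`, then never come back -/
lemma exists_fresh_crude {e : V} {D : Set V} (cf : CF L val P e D) (hLe : 0 < L e)
    (u : V →+ ℤ) {R1 R2 : ℝ} (hR1 : 0 ≤ R1) (hR2 : 0 ≤ R2)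
    (hD : ∀ δ ∈ D, |L δ| ≤ R1 ∧ |((u δ : ℤ) : ℝ)| ≤ R2)
    {lam : ℝ} (hlam : 0 ≤ lam) (hue : |((u e : ℤ) : ℝ)| ≤ lam * L e) (H : ℝ)
    (hp : P (Stay (hL L val)) ≠ 0) : Nonempty (FreshC L u val P lam H) := by
  obtain ⟨h, hh⟩ := exists_nat_gt ((|H| + R1 + 1) / L e)
  rw [div_lt_iff₀ hLe] at hh
  have hH := le_abs_self H
  have habs := abs_nonneg H
  have hh0 : (0 : ℝ) < h := by
    by_contra hcon
    have h0 : (h : ℝ) = 0 := le_antisymm (not_lt.1 hcon) (Nat.cast_nonneg h)
    rw [h0] at hh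
    linarith
  have h1 : 1 ≤ h := by exact_mod_cast hh0
  refine ⟨mkFresh cf hLe u hD hlam hue h1 (Stay (hL L val)) (measurableSet_Stay _) subset_rfl hp
    (by linarith) ?_ hR1 hR2⟩
  intro s hs m δ e1 e2
  have hs0 := (stay_iff L val s).1 hs m
  have e3 := neg_abs_le (L δ)
  have : H < L (h • e + pos val s m + δ) := by
    rw [map_add, map_add, L_nsmul]; linarith
  refine ⟨?_, Or.inr this⟩
  rw [map_add, map_add, L_nsmul]; linarith

/-- success event from the slope event, with a height `h` of the initial climb that does not depend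
on the slope -/
lemma exists_fresh_slope {e : V} {D : Set V} (cf : CF L val P e D) (hLe : 0 < L e)
    (u : V →+ ℤ) {R1 R2 : ℝ} (hR1 : 0 ≤ R1) (hR2 : 0 ≤ R2)
    (hD : ∀ δ ∈ D, |L δ| ≤ R1 ∧ |((u δ : ℤ) : ℝ)| ≤ R2) {C : ℝ} (hC : 0 ≤ C)
    {h : ℕ} (hh : 2 * R1 + C + R2 + 1 ≤ h * L e)
    {lam H : ℝ} (hlam : 1 ≤ lam) (hue : |((u e : ℤ) : ℝ)| ≤ lam * L e)
    (hp : P (Slope L u val lam C H) ≠ 0) :
    ∃ F : FreshC L u val P (2 * lam) H, F.c = P (cf.word h) * P (Slope L u val lam C H) := by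
  have hh0 : (0 : ℝ) < h := by
    by_contra hcon
    have h0 : (h : ℝ) = 0 := le_antisymm (not_lt.1 hcon) (Nat.cast_nonneg h)
    rw [h0] at hh
    linarith
  have h1 : 1 ≤ h := by exact_mod_cast hh0
  have hue2 : |((u e : ℤ) : ℝ)| ≤ 2 * lam * L e := by
    have : 0 ≤ lam * L e := by positivity
    linarith
  refine ⟨mkFresh cf hLe u hD (by positivity) hue2 h1 (Slope L u val lam C H)
    (measurableSet_Slope u lam C H) (fun s hs => hs.1) hp (by linarith) ?_ hR1 hR2, rfl⟩
  intro s hs m δ e1 e2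
  have hs0 := (stay_iff L val s).1 hs.1 m
  have e3 := neg_abs_le (L δ)
  have hpos : 0 < L (h • e + pos val s m + δ) := by
    rw [map_add, map_add, L_nsmul]; linarith
  refine ⟨hpos, ?_⟩
  rcases hs.2 m with hm | hm
  · left
    have e4 : |((u (h • e + pos val s m + δ) : ℤ) : ℝ)| ≤
        h * |((u e : ℤ) : ℝ)| + |((u (pos val s m) : ℤ) : ℝ)| + |((u δ : ℤ) : ℝ)| := by
      rw [map_add, map_add]
      push_cast
      refine (abs_add_le _ _).trans (add_le_add ((abs_add_le _ _).trans (add_le_add ?_ le_rfl)) le_rfl)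
      exact (abs_nsmul_u u h e).le
    have eL : L (h • e + pos val s m + δ) = h * L e + L (pos val s m) + L δ := by
      rw [map_add, map_add, L_nsmul]
    rw [eL]
    have e5 : (h : ℝ) * |((u e : ℤ) : ℝ)| ≤ h * (lam * L e) :=
      mul_le_mul_of_nonneg_left hue hh0.le
    have hy : |((u (pos val s m) : ℤ) : ℝ)| ≤ lam * (L (pos val s m) + C) := hm
    have hLy : 0 ≤ L (pos val s m) := hs0
    -- key: lam * (h L e) ≥ lam * (2 R1 + C + R2 + 1) ≥ lam (2 R1 + C) + R2
    have e6 : lam * (2 * R1 + C + R2 + 1) ≤ lam * (h * L e) :=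
      mul_le_mul_of_nonneg_left hh (by linarith)
    have e7 : R2 ≤ lam * R2 := by nlinarith
    have e8 : lam * L δ ≥ - (lam * R1) := by
      have : -R1 ≤ L δ := by linarith
      nlinarith
    have e9 : 0 ≤ lam * L (pos val s m) := by positivity
    nlinarith
  · right
    rw [map_add, map_add, L_nsmul]; linarith


lemma pb_le (j : ℕ) : pb j ≤ 2 ^ (j + 1) := by unfold pb; linarith

lemma pb_pos (j : ℕ) : 0 < pb j := by
  unfold pb
  have : (1 : ℝ) < 2 ^ (j + 1) := one_lt_pow₀ (by norm_num) (by omega)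
  linarith

lemma slope_neg (u : V →+ ℤ) (lam C H : ℝ) :
    (Slope L (-u) val lam C H : Set (ℕ → S)) = Slope L u val lam C H := by
  ext s
  simp only [Slope, mem_ofPred_eq, AddMonoidHom.neg_apply, Int.cast_neg, abs_neg]


lemma RegSys.x_mono (R : RegSys L val P) (u : V →+ ℤ) {J J' : ℕ} (h : J ≤ J') :
    R.x u J ≤ R.x u J' :=
  Finset.sum_le_sum_of_subset (Finset.range_mono h)

lemma RegSys.f_ne_top (R : RegSys L val P) {e : V} {D : Set V} (cf : CF L val P e D)
    (hLe : 0 < L e) (u : V →+ ℤ) {R1 R2 : ℝ} (hR1 : 0 ≤ R1) (hR2 : 0 ≤ R2)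
    (hD : ∀ δ ∈ D, |L δ| ≤ R1 ∧ |((u δ : ℤ) : ℝ)| ≤ R2) (j : ℕ) : R.f u j ≠ ∞ := by
  set lam : ℝ := |((u e : ℤ) : ℝ)| / L e with hlam
  have hlam0 : 0 ≤ lam := by positivity
  obtain ⟨F⟩ := exists_fresh_crude cf hLe u hR1 hR2 hD hlam0
    (by rw [hlam, div_mul_cancel₀ _ hLe.ne']) (pb j) R.p_ne
  obtain ⟨l, hl⟩ := exists_nat_gt (2 * lam * pb j)
  have := R.main hlam0 le_rfl F hl (a := pa j)
  refine ne_top_of_le_ne_top ?_ this
  refine ENNReal.mul_ne_top (ENNReal.natCast_ne_top _) (ENNReal.mul_ne_top ?_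
      (ENNReal.mul_ne_top (ENNReal.inv_ne_top.2 R.pG_ne)
        (ENNReal.mul_ne_top (ENNReal.natCast_ne_top _) (measure_ne_top _ _))))
  exact ENNReal.add_ne_top.2 ⟨ENNReal.one_ne_top, ENNReal.inv_ne_top.2 F.c_ne⟩

lemma RegSys.x_ne_top (R : RegSys L val P) {e : V} {D : Set V} (cf : CF L val P e D)
    (hLe : 0 < L e) (u : V →+ ℤ) {R1 R2 : ℝ} (hR1 : 0 ≤ R1) (hR2 : 0 ≤ R2)
    (hD : ∀ δ ∈ D, |L δ| ≤ R1 ∧ |((u δ : ℤ) : ℝ)| ≤ R2) (J : ℕ) : R.x u J ≠ ∞ := by
  unfold RegSys.x
  refine ENNReal.sum_ne_top.2 fun j _ => ENNReal.add_ne_top.2 ⟨?_, ?_⟩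
  · exact R.f_ne_top cf hLe u hR1 hR2 hD j
  · refine R.f_ne_top cf hLe (-u) hR1 hR2 (fun δ hδ => ⟨(hD δ hδ).1, ?_⟩) j
    simpa using (hD δ hδ).2

/-- one-step bound for `f_j`, `j` large -/
lemma RegSys.f_bound (R : RegSys L val P) {e : V} {D : Set V} (cf : CF L val P e D)
    (hLe : 0 < L e) (u : V →+ ℤ) {R1 R2 : ℝ} (hR1 : 0 ≤ R1) (hR2 : 0 ≤ R2)
    (hD : ∀ δ ∈ D, |L δ| ≤ R1 ∧ |((u δ : ℤ) : ℝ)| ≤ R2)
    {A C : ℝ} (hA : 1 ≤ A) (hue : |((u e : ℤ) : ℝ)| ≤ A * L e) (hC : 0 ≤ C)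
    {h : ℕ} (hh : 2 * R1 + C + R2 + 1 ≤ h * L e) {j : ℕ} {x : ℝ} (hx : 0 ≤ x)
    (hS : P (Stay (hL L val)) ≤ 2 * P (Slope L u val (A * (1 + x)) C (2 ^ (j + 1)))) :
    R.f u j ≤ ENNReal.ofReal (2 ^ j * (10 * A) * (1 + x)) *
      ((1 + (P (cf.word h) * (P (Stay (hL L val)) / 2))⁻¹) *
        (R.pG⁻¹ * ((R.G + 1 : ℕ) * P (R.Big (pa j))))) := by
  have hlam1 : 1 ≤ A * (1 + x) := by nlinarith
  have hue' : |((u e : ℤ) : ℝ)| ≤ A * (1 + x) * L e := by
    have : 0 ≤ A * L e * x := by positivity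
    nlinarith
  have hSne : P (Slope L u val (A * (1 + x)) C (2 ^ (j + 1))) ≠ 0 := by
    intro h0
    rw [h0, mul_zero] at hS
    exact R.p_ne (nonpos_iff_eq_zero.1 hS)
  obtain ⟨F, hF⟩ := exists_fresh_slope cf hLe u hR1 hR2 hD hC hh hlam1 hue' hSne
  have hpb := pb_pos j
  -- the integer l
  set y : ℝ := 2 * (2 * (A * (1 + x))) * pb j with hy
  have hy0 : 0 ≤ y := by positivity
  obtain ⟨l, hl1, hl2⟩ : ∃ l : ℕ, y < l ∧ (l : ℝ) ≤ y + 1 :=
    ⟨⌊y⌋₊ + 1, by exact_mod_cast Nat.lt_floor_add_one y, by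
      push_cast
      have := Nat.floor_le hy0
      linarith⟩
  have hmain := R.main (by positivity) (pb_le j) F hl1 (a := pa j)
  have h2 : (l : ℝ) ≤ 2 ^ j * (10 * A) * (1 + x) := by
    have e1 : pb j = 2 * 2 ^ j - 1 := by unfold pb; rw [pow_succ]; ring
    have e2 : (1 : ℝ) ≤ 2 ^ j := one_le_pow₀ (by norm_num)
    have e3 : 1 ≤ 2 ^ j * (A * (1 + x)) := by nlinarith
    rw [hy, e1] at hl2
    nlinarith
  have h3 : (l : ℝ≥0∞) ≤ ENNReal.ofReal (2 ^ j * (10 * A) * (1 + x)) := by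
    rw [← ENNReal.ofReal_natCast]
    exact ENNReal.ofReal_le_ofReal h2
  have h4 : F.c⁻¹ ≤ (P (cf.word h) * (P (Stay (hL L val)) / 2))⁻¹ := by
    rw [ENNReal.inv_le_inv, hF]
    gcongr
    exact ENNReal.div_le_of_le_mul' hS
  calc R.f u j ≤ _ := hmain
    _ ≤ _ := by gcongr

/-- **assembly** -/
theorem RegSys.x_bounded (R : RegSys L val P) {e : V} {D : Set V} (cf : CF L val P e D)
    (hLe : 0 < L e) (u : V →+ ℤ) {R1 R2 : ℝ} (hR1 : 0 ≤ R1) (hR2 : 0 ≤ R2)
    (hD : ∀ δ ∈ D, |L δ| ≤ R1 ∧ |((u δ : ℤ) : ℝ)| ≤ R2)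
    (hS : R.SUC u) (hBig : ∑' j : ℕ, 2 ^ j * P (R.Big (pa j)) ≠ ∞) :
    ∃ M : ℝ≥0∞, M ≠ ∞ ∧ ∀ J, R.x u J ≤ M := by
  obtain ⟨A0, C, hA0, hC, J0, hS⟩ := hS
  -- enlarge A such that |u e| ≤ A L e
  set A : ℝ := max A0 (|((u e : ℤ) : ℝ)| / L e) with hAdef
  have hA : 1 ≤ A := hA0.trans (le_max_left _ _)
  have hue : |((u e : ℤ) : ℝ)| ≤ A * L e := by
    have := le_max_right A0 (|((u e : ℤ) : ℝ)| / L e)
    rw [div_le_iff₀ hLe] at this
    exact this
  have hfin := R.x_ne_top cf hLe u hR1 hR2 hD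
  obtain ⟨h, hh'⟩ := exists_nat_gt ((2 * R1 + C + R2 + 1) / L e)
  rw [div_lt_iff₀ hLe] at hh'
  have hh : 2 * R1 + C + R2 + 1 ≤ h * L e := hh'.le
  set K : ℝ≥0∞ := (1 + (P (cf.word h) * (P (Stay (hL L val)) / 2))⁻¹) *
        (R.pG⁻¹ * (R.G + 1 : ℕ)) with hK
  have hKtop : K ≠ ∞ := by
    refine ENNReal.mul_ne_top (ENNReal.add_ne_top.2 ⟨ENNReal.one_ne_top, ENNReal.inv_ne_top.2 ?_⟩)
      (ENNReal.mul_ne_top (ENNReal.inv_ne_top.2 R.pG_ne) (ENNReal.natCast_ne_top _))
    refine mul_ne_zero (cf.word_ne h) ?_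
    rw [Ne, ENNReal.div_eq_zero_iff]
    push Not
    exact ⟨R.p_ne, by norm_num⟩
  set K' : ℝ≥0∞ := ENNReal.ofReal (20 * A) * K with hK'
  have hK'top : K' ≠ ∞ := ENNReal.mul_ne_top ENNReal.ofReal_ne_top hKtop
  -- bound of one term
  have hterm : ∀ j, J0 ≤ j + 1 → R.f u j + R.f (-u) j ≤
      K' * (2 ^ j * P (R.Big (pa j))) * (1 + R.x u (j + 1)) := by
    intro j hj
    set x : ℝ := (R.x u (j + 1)).toReal with hx
    have hx0 : 0 ≤ x := ENNReal.toReal_nonneg
    have hxle : R.x u (j + 1) ≤ ENNReal.ofReal x := by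
      rw [hx, ENNReal.ofReal_toReal (hfin _)]
    have h1 := hS (j + 1) hj x hx0 hxle
    have h1' : P (Stay (hL L val)) ≤ 2 * P (Slope L u val (A * (1 + x)) C (2 ^ (j + 1))) := by
      refine h1.trans (mul_le_mul' le_rfl (measure_mono ?_))
      rintro s ⟨hs1, hs2⟩
      refine ⟨hs1, fun t => ?_⟩
      rcases hs2 t with h | h
      · left
        have hnn : 0 ≤ L (pos val s t) + C := by
          have := (stay_iff L val s).1 hs1 t
          linarith
        refine h.trans (mul_le_mul_of_nonneg_right ?_ hnn)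
        exact mul_le_mul_of_nonneg_right (le_max_left _ _) (by linarith)
      · right; exact h
    have h2 := R.f_bound cf hLe u hR1 hR2 hD hA hue hC hh hx0 h1'
    have hueN : |(((-u) e : ℤ) : ℝ)| ≤ A * L e := by simpa using hue
    have h3 := R.f_bound cf hLe (-u) hR1 hR2
      (fun δ hδ => ⟨(hD δ hδ).1, by simpa using (hD δ hδ).2⟩) hA hueN hC hh hx0
      (by rw [slope_neg]; exact h1')
    have e0 : ENNReal.ofReal (2 ^ j * (10 * A) * (1 + x)) =
        ENNReal.ofReal (10 * A) * (2 ^ j * (1 + R.x u (j + 1))) := by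
      have hA0' : 0 ≤ 10 * A := by linarith
      rw [show (2 : ℝ) ^ j * (10 * A) * (1 + x) = (10 * A) * (2 ^ j * (1 + x)) by ring,
        ENNReal.ofReal_mul hA0', ENNReal.ofReal_mul (p := (2 : ℝ) ^ j) (by positivity),
        ENNReal.ofReal_add zero_le_one hx0, ENNReal.ofReal_one, hx,
        ENNReal.ofReal_toReal (hfin _), ENNReal.ofReal_pow (by norm_num)]
      norm_num
    have e1 : ENNReal.ofReal (20 * A) = ENNReal.ofReal (10 * A) + ENNReal.ofReal (10 * A) := by
      rw [← ENNReal.ofReal_add (by linarith) (by linarith)]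
      congr 1; ring
    calc R.f u j + R.f (-u) j ≤ _ := add_le_add h2 h3
      _ = K' * (2 ^ j * P (R.Big (pa j))) * (1 + R.x u (j + 1)) := by
          rw [e0, hK', hK, e1]; ring
  -- choose J1
  have htail : Tendsto (fun n => ∑' j, 2 ^ (j + n) * P (R.Big (pa (j + n)))) atTop (𝓝 0) :=
    ENNReal.tendsto_sum_nat_add _ hBig
  have hpos : (0 : ℝ≥0∞) < (2 * (K' + 1))⁻¹ := by
    rw [ENNReal.inv_pos]
    exact ENNReal.mul_ne_top (by norm_num) (ENNReal.add_ne_top.2 ⟨hK'top, ENNReal.one_ne_top⟩)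
  obtain ⟨N, hN⟩ := (eventually_atTop.1 (htail.eventually (gt_mem_nhds hpos)))
  set J1 := max N J0 with hJ1
  have hsmall : K' * ∑' j, 2 ^ (j + J1) * P (R.Big (pa (j + J1))) ≤ 2⁻¹ := by
    have h1 := (hN J1 (le_max_left _ _)).le
    calc K' * ∑' j, 2 ^ (j + J1) * P (R.Big (pa (j + J1)))
        ≤ (K' + 1) * (2 * (K' + 1))⁻¹ := by
          gcongr
          exact le_self_add
      _ = 2⁻¹ := by
          rw [ENNReal.mul_inv (Or.inl (by norm_num)) (Or.inl (by norm_num)), mul_comm (2⁻¹),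
            ← mul_assoc, ENNReal.mul_inv_cancel (by simp)
              (ENNReal.add_ne_top.2 ⟨hK'top, ENNReal.one_ne_top⟩), one_mul]
  refine ⟨2 * R.x u J1 + 1, ENNReal.add_ne_top.2
    ⟨ENNReal.mul_ne_top (by norm_num) (hfin _), ENNReal.one_ne_top⟩, fun J => ?_⟩
  rcases le_or_gt J J1 with hJ | hJ
  · calc R.x u J ≤ R.x u J1 := R.x_mono u hJ
      _ ≤ 2 * R.x u J1 := by
          rw [two_mul]; exact le_self_add
      _ ≤ _ := le_self_add
  · -- x_J = x_{J1} + sum
    obtain ⟨m, rfl⟩ := Nat.exists_eq_add_of_le hJ.le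
    have hsp : R.x u (J1 + m) =
        R.x u J1 + ∑ i ∈ Finset.range m, (R.f u (J1 + i) + R.f (-u) (J1 + i)) := by
      unfold RegSys.x
      rw [Finset.sum_range_add]
    have hsplit : R.x u (J1 + m) ≤ R.x u J1 + 2⁻¹ * (1 + R.x u (J1 + m)) := by
      refine hsp.le.trans (add_le_add le_rfl ?_)
      calc ∑ i ∈ Finset.range m, (R.f u (J1 + i) + R.f (-u) (J1 + i))
          ≤ ∑ i ∈ Finset.range m, K' * (2 ^ (J1 + i) * P (R.Big (pa (J1 + i)))) *
              (1 + R.x u (J1 + m)) := by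
            refine Finset.sum_le_sum fun i hi => ?_
            have hi' := Finset.mem_range.1 hi
            refine (hterm (J1 + i) ?_).trans ?_
            · have := le_max_right N J0; omega
            · gcongr
              exact R.x_mono u (by omega)
        _ = (K' * ∑ i ∈ Finset.range m, 2 ^ (J1 + i) * P (R.Big (pa (J1 + i)))) *
              (1 + R.x u (J1 + m)) := by
            rw [Finset.mul_sum, Finset.sum_mul]
        _ ≤ 2⁻¹ * (1 + R.x u (J1 + m)) := by
            gcongr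
            refine le_trans ?_ hsmall
            gcongr
            calc ∑ i ∈ Finset.range m, 2 ^ (J1 + i) * P (R.Big (pa (J1 + i)))
                = ∑ i ∈ Finset.range m, 2 ^ (i + J1) * P (R.Big (pa (i + J1))) := by
                  refine Finset.sum_congr rfl fun i _ => by rw [add_comm J1 i]
              _ ≤ _ := ENNReal.sum_le_tsum _
    -- solve
    have hxf := hfin (J1 + m)
    set X := R.x u (J1 + m) with hX
    have h5 : X ≤ R.x u J1 + 2⁻¹ + 2⁻¹ * X := by
      calc X ≤ _ := hsplit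
        _ = _ := by ring
    have hhalf : (2 : ℝ≥0∞)⁻¹ * X ≠ ∞ := ENNReal.mul_ne_top (by norm_num) hxf
    have h6 : 2⁻¹ * X ≤ R.x u J1 + 2⁻¹ := by
      have e : X = 2⁻¹ * X + 2⁻¹ * X := by
        rw [← add_mul, ENNReal.inv_two_add_inv_two, one_mul]
      have h7 : 2⁻¹ * X + 2⁻¹ * X ≤ (R.x u J1 + 2⁻¹) + 2⁻¹ * X := by rw [← e]; exact h5
      exact (ENNReal.add_le_add_iff_right hhalf).1 h7
    calc X = 2 * (2⁻¹ * X) := by
          rw [← mul_assoc, ENNReal.mul_inv_cancel (by norm_num) (by norm_num), one_mul]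
      _ ≤ 2 * (R.x u J1 + 2⁻¹) := by gcongr
      _ = 2 * R.x u J1 + 1 := by
          rw [mul_add, ENNReal.mul_inv_cancel (by norm_num) (by norm_num)]

end Crest.Agent.R154.B2
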