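import Crest.Agent.R154.Bind_263
import Crest.Agent.R154.B2Suc_719

/-!
Row 154, block B2: instance of 719's `RegSys` for the record systems of B1, all frames.
-/

set_option autoImplicit false
set_option linter.unusedSectionVars false
set_option linter.deprecated false

namespace Crest.Agent.R154.Bind263

open MeasureTheory ProbabilityTheory Filter Set Crest.ProbabilityR.RandomEnvironment
open Crest.Agent.R154.Ren263 Crest.Agent.R154.RenG263 Crest.Agent.R154.Mk561
open scoped ENNReal Topology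

section abstr

variable {S : Type*} {V : Type*} [AddCommGroup V]
variable [Countable S] [MeasurableSpace S] [MeasurableSingletonClass S]
variable {L : V →+ ℝ} {val : S → V} {P : Measure (ℕ → S)} [IsProbabilityMeasure P]

/-- 719's regeneration structure from a record system -/
noncomputable def regSys (ρ : RecSys (B2.hL L val)) (R : RenewalG ρ P) (hz : ∀ s, ρ.Rec s 0)
    (hp : P (Ren263.Stay (B2.hL L val)) ≠ 0)
    (hT : ∀ᵐ s ∂P, s ∈ Ren263.Stay (B2.hL L val) → ∀ M : ℝ, ∃ n, M ≤ hgt (B2.hL L val) s n) :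
    B2.RegSys L val P where
  G := ρ.K
  pG := ρ.δ * P (Ren263.Stay (B2.hL L val))
  R := RenG263.Reg ρ
  GC r := {s | ρ.Rec s r} ∩ {s | ∀ k ≤ r, 0 ≤ hgt (B2.hL L val) s k}
  Fo := Climb ρ 0 ∩ Ren263.shift ρ.K ⁻¹' Ren263.Stay (B2.hL L val)
  R_zero s hs := ⟨hz s, by rw [Ren263.shift_zero]; exact hs⟩
  R_reg s _ r hr := hr.reg
  GC_det r := by
    refine (det_Rec ρ r).inter ?_
    intro s s' H
    simp only [mem_setOf_eq]
    refine forall_congr' fun k => forall_congr' fun hk => ?_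
    rw [hgt_congr _ H hk]
  GC_iff s r := by
    constructor
    · rintro ⟨⟨h1, h2⟩, h3⟩
      refine ⟨fun k => ?_, h1, h3⟩
      rcases le_total k r with hk | hk
      · exact h2 k hk
      · exact (h2 r le_rfl).trans (mem_shift_Stay.1 h3 k hk)
    · rintro ⟨h1, h2⟩
      exact ⟨⟨h2.1, fun k _ => h1 k⟩, h2.2⟩
  ren r A B hA hAG hB hBS := R.ren r A B hA (fun s hs => (hAG hs).1) hB hBS
  R_shift s _ r hr r' := by
    constructor
    · intro h
      have := reg_shift (Nat.le_add_right r r') h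
      rwa [Nat.add_sub_cancel_left] at this
    · intro h
      exact reg_add hr.1 h
  Fo_meas := (det_Climb ρ 0).measurableSet.inter
    (Ren263.measurable_shift _ (Ren263.measurableSet_Stay _))
  Fo_ge n A hA hrec := by
    have h1 := R.climb_ren hA hrec (Ren263.measurableSet_Stay (B2.hL L val)) subset_rfl
    have hset : (A ∩ Climb ρ n) ∩ Ren263.shift (n + ρ.K) ⁻¹' Ren263.Stay (B2.hL L val) =
        A ∩ Ren263.shift n ⁻¹' (Climb ρ 0 ∩ Ren263.shift ρ.K ⁻¹' Ren263.Stay (B2.hL L val)) := by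
      ext s
      simp only [mem_inter_iff, mem_preimage, Ren263.shift_shift, Climb, mem_setOf_eq,
        Ren263.shift, Nat.zero_add, and_assoc]
    rw [hset] at h1
    rw [h1, mul_comm (P A)]
  pG_ne := mul_ne_zero R.δ_ne hp
  Fo_stay := by
    rintro s ⟨h1, h2⟩ k
    rcases le_total k ρ.K with hk | hk
    · have := climb_hgt h1 (j := k) hk
      rw [Nat.zero_add, hgt_zero] at this
      exact this
    · have e1 := climb_hgt h1 (j := ρ.K) le_rfl
      rw [Nat.zero_add, hgt_zero] at e1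
      exact e1.trans (mem_shift_Stay.1 h2 k hk)
  Fo_reg s _ n hn hF := by
    refine ⟨n + ρ.K, Nat.le_add_right _ _, le_rfl, ρ.climb hn fun i hi => ?_, ?_⟩
    · have := hF.1 i hi
      simpa [Ren263.shift] using this
    · have := hF.2
      rw [mem_preimage, Ren263.shift_shift] at this
      exact this
  top := hT
  inf := by
    filter_upwards [R.ae_regInf hp hT] with s hs h1 N
    exact (hs h1).2 N
  p_ne := hp

end abstr

/-! ### the walk -/

variable {d : ℕ}

/-- the height as an additive map -/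
def LH (ℓ : Fin d → ℝ) : Site d →+ ℝ where
  toFun := sht ℓ
  map_zero' := sht_zero ℓ
  map_add' := sht_add ℓ


lemma pos_eq (s : MPath d) (n : ℕ) : B2.pos (stp : Mark d → Site d) s n = Mk561.pos 0 s n := by
  simp [B2.pos, Mk561.pos]

variable {Q : Measure (Environment d)} [IsProbabilityMeasure Q] {κ : ℝ} {R : ℕ}

/-- the chosen step of the climb -/
noncomputable def Frame.stepE (F : Frame Q κ R) (ℓ : Fin d → ℝ) (hℓ : ℓ ≠ 0) : Step d :=
  (F.exists_climb ℓ hℓ).choose

/-- the chosen number of forced steps of the climb -/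
noncomputable def Frame.climbK (F : Frame Q κ R) (ℓ : Fin d → ℝ) (hℓ : ℓ ≠ 0) : ℕ :=
  (F.exists_climb ℓ hℓ).choose_spec.choose

lemma Frame.climb_spec (F : Frame Q κ R) (ℓ : Fin d → ℝ) (hℓ : ℓ ≠ 0) :
    0 < mht ℓ (F.stepE ℓ hℓ, true) ∧ cR ℓ R ≤ F.climbK ℓ hℓ * mht ℓ (F.stepE ℓ hℓ, true) ∧
      (F.climbK ℓ hℓ = 0 ∨ 0 < kf d κ) ∧ (R = 0 → F.climbK ℓ hℓ = 0) :=
  (F.exists_climb ℓ hℓ).choose_spec.choose_spec

/-- the record system of a frame -/
noncomputable def Frame.rho (F : Frame Q κ R) (ℓ : Fin d → ℝ) (hℓ : ℓ ≠ 0) : RecSys (mht ℓ) :=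
  mrs ℓ R κ (F.stepE ℓ hℓ) (F.climbK ℓ hℓ) (F.climb_spec ℓ hℓ).1 (F.climb_spec ℓ hℓ).2.1

theorem Frame.rho_renewal (F : Frame Q κ R) (ℓ : Fin d → ℝ) (hℓ : ℓ ≠ 0) :
    RenewalG (F.rho ℓ hℓ) (mkAnn κ Q 0) :=
  F.renewal ℓ _ _ _ _ (F.climb_spec ℓ hℓ).2.2.1


/-- 719's regeneration structure for the walk, all frames -/
noncomputable def Frame.regSys (F : Frame Q κ R) (ℓ : Fin d → ℝ) (hℓ : ℓ ≠ 0)
    (h : annealedProb Q 0 (escapeEvent ℓ) ≠ 0) :
    B2.RegSys (LH ℓ) (stp : Mark d → Site d) (mkAnn κ Q 0) :=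
  Bind263.regSys (L := LH ℓ) (val := (stp : Mark d → Site d)) (F.rho ℓ hℓ) (F.rho_renewal ℓ hℓ)
    (fun _ i hi => absurd hi (Nat.not_lt_zero i)) (F.hp ℓ h) (F.hT ℓ hℓ)

end Crest.Agent.R154.Bind263
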