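import Crest.Agent.R154.B2Asm_719_Mg
import Crest.Agent.R154.B2Inst_263
import Crest.Agent.R154.B2d_419
import Crest.Agent.R154.B2CF_263

-- ▼ part R154/Half_419
section

/-! Row 154, B2 (helper419): `HalfSpace (annealed Q 0) ℓ` from the bound of 719 on `R.x u J`. -/

set_option autoImplicit false
set_option linter.unusedSectionVars false
set_option linter.deprecated false

namespace Crest.Agent.R154.Half419

open MeasureTheory ProbabilityTheory Filter Topology Set Crest.ProbabilityR.RandomEnvironment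
open Crest.Agent.R154.Ren263 Crest.Agent.R154.B2 Crest.Agent.R154.SucDet
open scoped ENNReal

/-! ### transfer from `Stay` to unbounded height -/

section transfer
variable {S : Type*} [Countable S] [MeasurableSpace S] [MeasurableSingletonClass S]

theorem transferG {h : S → ℝ} {ρ : RenG263.RecSys h} {P : Measure (ℕ → S)}
    [IsProbabilityMeasure P]
    (R : RenG263.RenewalG ρ P) (hp : P (Stay h) ≠ 0) {p : (ℕ → S) → Prop}
    (hshift : ∀ (n : ℕ) (s : ℕ → S), p (Ren263.shift n s) → p s) (hae : ∀ᵐ s ∂P, s ∈ Stay h → p s) :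
    ∀ᵐ s ∂P, (∀ M : ℝ, ∃ n, M ≤ hgt h s n) → p s := by
  set Bad : Set (ℕ → S) := {s | ¬ (s ∈ Stay h → p s)} with hBad
  have hBad0 : P Bad = 0 := hae
  set N : Set (ℕ → S) := toMeasurable P Bad ∩ Stay h with hN
  have hNm : MeasurableSet N := (measurableSet_toMeasurable _ _).inter (measurableSet_Stay h)
  have hN0 : P N = 0 := measure_mono_null inter_subset_left (by rw [measure_toMeasurable]; exact hBad0)
  have hNS : N ⊆ Stay h := inter_subset_right
  have h1 : ∀ n, P ({s | ρ.Rec s n} ∩ Ren263.shift n ⁻¹' N) = 0 := by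
    intro n
    rw [R.ren n _ N (RenG263.det_Rec ρ n) (fun s hs => hs) hNm hNS, hN0, mul_zero]
  have h2 : ∀ᵐ s ∂P, ∀ n, ¬ (ρ.Rec s n ∧ Ren263.shift n s ∈ N) := by
    rw [ae_all_iff]
    intro n
    exact measure_eq_zero_iff_ae_notMem.1 (h1 n)
  filter_upwards [h2, R.ae_tendsto hp] with s hs1 hs2 hM
  obtain ⟨n, -, hn⟩ := (hs2 hM).1 0
  refine hshift n s ?_
  by_contra hcon
  refine hs1 n ⟨hn.1, ?_, hn.2⟩
  exact subset_toMeasurable _ _ (fun hh => hcon (hh hn.2))

/-- almost surely for the conditional law, then almost surely on the event -/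
lemma ae_of_ae_cond {Ω : Type*} [MeasurableSpace Ω] {P : Measure Ω} [IsProbabilityMeasure P]
    {A : Set Ω} (hA : MeasurableSet A) {p : Ω → Prop}
    (h : ∀ᵐ s ∂(cond P A), p s) : ∀ᵐ s ∂P, s ∈ A → p s := by
  rw [← ae_restrict_iff' hA]
  unfold ProbabilityTheory.cond at h
  rw [ae_iff, Measure.smul_apply, smul_eq_mul, mul_eq_zero] at h
  rcases h with h | h
  · exact absurd h (ENNReal.inv_ne_zero.2 (measure_ne_top _ _))
  · exact ae_iff.2 h

end transfer

/-! ### the extent of a word is integrable -/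

section extent
variable {S : Type*} [Countable S] [MeasurableSpace S] [MeasurableSingletonClass S] [Inhabited S]
variable {V : Type*} [AddCommGroup V] {L : V →+ ℝ} {u : V →+ ℤ} {val : S → V}
variable {P : Measure (ℕ → S)} [IsProbabilityMeasure P]

theorem lint_VJ (R : RegSys L val P) (u : V →+ ℤ) (J : ℕ) (μ : Measure (Word S))
    [IsProbabilityMeasure μ]
    (bl : (ℕ → S) → ℕ → Word S) (hblm : Measurable bl)
    (hmap : (cond P (Stay (hL L val))).map bl = Measure.infinitePi fun _ : ℕ => μ)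
    (hblk : ∀ᵐ s ∂(cond P (Stay (hL L val))), cat (bl s) = s ∧
      ∀ r, 1 ≤ r → r < (bl s 0).len → ¬ R.R s r) :
    ∫⁻ w, (VJ L u val J w : ℝ≥0∞) ∂μ ≤ (P (Stay (hL L val)))⁻¹ * R.x u J := by
  set h : S → ℝ := hL L val with hh
  set PD : Measure (ℕ → S) := cond P (Stay h) with hPD
  have hp0 : P (Stay h) ≠ 0 := R.p_ne
  have hPDprob : IsProbabilityMeasure PD := cond_isProbabilityMeasure hp0
  have hstay : ∀ᵐ s ∂PD, s ∈ Stay h := by
    rw [hPD]
    exact ae_cond_mem (measurableSet_Stay h)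
  have e1 : ∫⁻ w, (VJ L u val J w : ℝ≥0∞) ∂μ = ∫⁻ s, (VJ L u val J (bl s 0) : ℝ≥0∞) ∂PD := by
    have hmp : MeasurePreserving (fun w : ℕ → Word S => w 0)
        (Measure.infinitePi fun _ : ℕ => μ) μ :=
      measurePreserving_eval_infinitePi (fun _ : ℕ => μ) 0
    have hm1 : Measurable fun w : Word S => (VJ L u val J w : ℝ≥0∞) := measurable_of_countable _
    have hm2 : Measurable fun w : ℕ → Word S => (VJ L u val J (w 0) : ℝ≥0∞) :=
      hm1.comp (measurable_pi_apply 0)
    rw [← hmp.lintegral_comp hm1, ← hmap, lintegral_map hm2 hblm]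
  rw [e1]
  have e2 : ∫⁻ s, (VJ L u val J (bl s 0) : ℝ≥0∞) ∂PD ≤
      ∫⁻ s, ∑ j ∈ Finset.range J, ((∑' σ, ∑' t, ind (s ∈ R.F u (pa j) (pb j) σ t)) +
        ∑' σ, ∑' t, ind (s ∈ R.F (-u) (pa j) (pb j) σ t)) ∂PD := by
    refine lintegral_mono_ae ?_
    filter_upwards [hblk, hstay] with s hs1 hs2
    obtain ⟨hcat, hno⟩ := hs1
    have hst' : cat (bl s) ∈ Stay (hL L val) := by rw [hcat]; exact hs2
    have hno' : ∀ r, 1 ≤ r → r < (bl s 0).len → ¬ R.R (cat (bl s)) r := by
      rw [hcat]; exact hno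
    unfold VJ
    push_cast
    refine Finset.sum_le_sum fun j _ => ?_
    have f1 := cnt_le_tsum R u (pa j) (pb j) hst' hno'
    have f2 := cnt_le_tsum R (-u) (pa j) (pb j) hst' hno'
    rw [hcat] at f1 f2
    exact add_le_add f1 f2
  refine e2.trans ?_
  have e3 : ∀ (u' : V →+ ℤ) (a b : ℝ), ∫⁻ s, ∑' σ, ∑' t, ind (s ∈ R.F u' a b σ t) ∂PD =
      (P (Stay h))⁻¹ * ∑' σ, ∑' t, P (R.F u' a b σ t) := by
    intro u' a b
    rw [lintegral_tsum fun σ => (Measurable.tsum fun t =>
      measurable_ind (R.measurableSet_F a b σ t)).aemeasurable, ← ENNReal.tsum_mul_left]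
    refine tsum_congr fun σ => ?_
    rw [lintegral_tsum fun t => (measurable_ind (R.measurableSet_F a b σ t)).aemeasurable,
      ← ENNReal.tsum_mul_left]
    refine tsum_congr fun t => ?_
    rw [lintegral_ind (R.measurableSet_F a b σ t), hPD, cond_apply (measurableSet_Stay h)]
    congr 2
    ext s
    exact ⟨fun hs => hs.2, fun hs => ⟨hs.1, hs⟩⟩
  have hmeasF : ∀ (u' : V →+ ℤ) (a b : ℝ), Measurable fun s : ℕ → S =>
      ∑' σ, ∑' t, ind (s ∈ R.F u' a b σ t) := fun u' a b =>
    Measurable.tsum fun σ => Measurable.tsum fun t =>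
      measurable_ind (R.measurableSet_F a b σ t)
  have hmj : ∀ j ∈ Finset.range J, Measurable fun s : ℕ → S =>
      (∑' σ, ∑' t, ind (s ∈ R.F u (pa j) (pb j) σ t)) +
        ∑' σ, ∑' t, ind (s ∈ R.F (-u) (pa j) (pb j) σ t) := fun j _ =>
    (hmeasF u (pa j) (pb j)).add (hmeasF (-u) (pa j) (pb j))
  rw [lintegral_finsetSum _ hmj]
  have e4 : ∀ j ∈ Finset.range J, ∫⁻ s, ((∑' σ, ∑' t, ind (s ∈ R.F u (pa j) (pb j) σ t)) +
        ∑' σ, ∑' t, ind (s ∈ R.F (-u) (pa j) (pb j) σ t)) ∂PD =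
      (P (Stay h))⁻¹ * (R.f u j + R.f (-u) j) := by
    intro j _
    rw [lintegral_add_left (hmeasF u _ _), e3, e3, mul_add]
    rfl
  rw [Finset.sum_congr rfl e4, ← Finset.mul_sum]
  rfl

lemma VJ_mono (w : Word S) : Monotone fun J => VJ L u val J w := by
  intro a b hab
  exact Finset.sum_le_sum_of_subset (Finset.range_mono hab)

/-- the extent of a word in the direction `u` -/
noncomputable def ext1 (u : V →+ ℤ) (val : S → V) (w : Word S) : ℝ≥0∞ :=
  ⨆ t : ℕ, ⨆ _ : t ≤ w.len, ENNReal.ofReal |(u (wp val w t) : ℝ)|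

lemma ext1_le (hu : ∀ a, |u (val a)| ≤ 1) {w : Word S} (hg : GoodWord (hL L val) w) :
    ext1 u val w ≤ ⨆ J : ℕ, (VJ L u val J w : ℝ≥0∞) := by
  obtain ⟨J, hJ⟩ := pow_unbounded_of_one_lt (Word.ht (hL L val) w + 1) (one_lt_two (α := ℝ))
  refine iSup₂_le fun t ht => ?_
  have h1 := extent hu hg (J := J) (by linarith) ht
  refine le_trans ?_ (le_iSup _ J)
  calc ENNReal.ofReal |(u (wp val w t) : ℝ)| ≤ ENNReal.ofReal (VJ L u val J w : ℝ) :=
        ENNReal.ofReal_le_ofReal h1
    _ = _ := ENNReal.ofReal_natCast _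

theorem lint_ext1 {u : V →+ ℤ} (hu : ∀ a, |u (val a)| ≤ 1)
    (μ : Measure (Word S)) [IsProbabilityMeasure μ] {M : ℝ≥0∞}
    (hM : ∀ J, ∫⁻ w, (VJ L u val J w : ℝ≥0∞) ∂μ ≤ M)
    (hgood : ∀ᵐ w ∂μ, GoodWord (hL L val) w) : ∫⁻ w, ext1 u val w ∂μ ≤ M := by
  calc ∫⁻ w, ext1 u val w ∂μ ≤ ∫⁻ w, ⨆ J : ℕ, (VJ L u val J w : ℝ≥0∞) ∂μ :=
        lintegral_mono_ae (hgood.mono fun w hw => ext1_le hu hw)
    _ = ⨆ J : ℕ, ∫⁻ w, (VJ L u val J w : ℝ≥0∞) ∂μ := by
        refine lintegral_iSup (fun J => measurable_of_countable _) ?_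
        intro a b hab w
        simp only
        exact_mod_cast VJ_mono (L := L) (u := u) (val := val) w hab
    _ ≤ M := iSup_le hM

end extent

/-! ### the direction of a path -/

section direction
variable {d : ℕ}

/-- the height of a site -/
noncomputable def HH (ℓ : Fin d → ℝ) (z : Site d) : ℝ := ∑ i, (z i : ℝ) * ℓ i

/-- the path escapes in direction `ℓ` and has asymptotic direction `a` (normalised by the height) -/
def Dirc (ℓ a : Fin d → ℝ) (X : ℕ → Site d) : Prop :=
  Tendsto (fun n => HH ℓ (X n)) atTop atTop ∧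
    ∀ i, Tendsto (fun n => (X n i : ℝ) / HH ℓ (X n)) atTop (𝓝 (a i))

lemma measurable_HH (ℓ : Fin d → ℝ) (n : ℕ) : Measurable fun X : ℕ → Site d => HH ℓ (X n) := by
  unfold HH
  refine Finset.measurable_sum _ fun i _ => Measurable.mul_const ?_ _
  have h1 : Measurable fun X : ℕ → Site d => X n i :=
    (measurable_pi_apply i).comp (measurable_pi_apply n)
  exact (measurable_of_countable (fun z : ℤ => (z : ℝ))).comp h1

lemma measurableSet_Dirc (ℓ a : Fin d → ℝ) : MeasurableSet {X : ℕ → Site d | Dirc ℓ a X} := by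
  have : {X : ℕ → Site d | Dirc ℓ a X} =
      {X : ℕ → Site d | Tendsto (fun n => HH ℓ (X n)) atTop atTop} ∩
        ⋂ i, {X : ℕ → Site d | Tendsto (fun n => (X n i : ℝ) / HH ℓ (X n)) atTop (𝓝 (a i))} := by
    ext X
    simp only [Dirc, mem_setOf_eq, mem_inter_iff, mem_iInter]
  rw [this]
  refine (measurableSet_tendsto _ fun n => measurable_HH ℓ n).inter
    (MeasurableSet.iInter fun i => measurableSet_tendsto _ fun n => ?_)
  refine Measurable.div ?_ (measurable_HH ℓ n)
  have h1 : Measurable fun X : ℕ → Site d => X n i :=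
    (measurable_pi_apply i).comp (measurable_pi_apply n)
  exact (measurable_of_countable (fun z : ℤ => (z : ℝ))).comp h1

lemma HH_sub (ℓ : Fin d → ℝ) (x y : Site d) : HH ℓ (x - y) = HH ℓ x - HH ℓ y := by
  unfold HH
  rw [← Finset.sum_sub_distrib]
  exact Finset.sum_congr rfl fun i _ => by rw [Pi.sub_apply]; push_cast; ring

/-- the direction property is inherited from the future -/
lemma Dirc.of_shift {ℓ a : Fin d → ℝ} {X : ℕ → Site d} {n : ℕ}
    (h : Dirc ℓ a fun k => X (n + k) - X n) : Dirc ℓ a X := by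
  obtain ⟨h1, h2⟩ := h
  have h3 : Tendsto (fun k => HH ℓ (X (n + k))) atTop atTop := by
    have := h1.atTop_add (tendsto_const_nhds (x := HH ℓ (X n)))
    refine this.congr fun k => ?_
    rw [HH_sub]; ring
  have h1' : Tendsto (fun k => HH ℓ (X (k + n))) atTop atTop :=
    h3.congr fun k => by rw [Nat.add_comm]
  refine ⟨(tendsto_add_atTop_iff_nat n).1 h1', fun i => ?_⟩
  refine (tendsto_add_atTop_iff_nat n).1 ?_
  have e1 : Tendsto (fun k => ((X (n + k) i : ℝ) - X n i) / HH ℓ (X (n + k) - X n) ) atTop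
      (𝓝 (a i)) := by
    refine (h2 i).congr fun k => ?_
    simp only [Pi.sub_apply, Int.cast_sub]
  have e2 : Tendsto (fun k => HH ℓ (X (n + k) - X n) / HH ℓ (X (n + k))) atTop (𝓝 1) := by
    have h4 : Tendsto (fun k => 1 - HH ℓ (X n) / HH ℓ (X (n + k))) atTop (𝓝 (1 - 0)) :=
      tendsto_const_nhds.sub (tendsto_const_nhds.div_atTop h3)
    rw [sub_zero] at h4
    refine h4.congr' ?_
    filter_upwards [h3.eventually_gt_atTop 0] with k hk
    rw [HH_sub, sub_div, div_self hk.ne']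
  have e3 : Tendsto (fun k => (X n i : ℝ) / HH ℓ (X (n + k))) atTop (𝓝 0) :=
    tendsto_const_nhds.div_atTop h3
  have e4 := (e1.mul e2).add e3
  rw [mul_one, add_zero] at e4
  have e5 : Tendsto (fun k => (X (n + k) i : ℝ) / HH ℓ (X (n + k))) atTop (𝓝 (a i)) := by
    refine e4.congr' ?_
    filter_upwards [h3.eventually_gt_atTop 0, h1.eventually_gt_atTop 0] with k hk hk'
    have hk1 := hk.ne'
    have hk2 := hk'.ne'
    field_simp
    ring
  exact e5.congr fun k => by rw [Nat.add_comm]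

/-- escape in the open half space -/
lemma Dirc.escape {ℓ a : Fin d → ℝ} {X : ℕ → Site d} (h : Dirc ℓ a X) {l' : Fin d → ℝ}
    (hl : 0 < ∑ i, a i * l' i) : Tendsto (fun n => ∑ i, (X n i : ℝ) * l' i) atTop atTop := by
  obtain ⟨h1, h2⟩ := h
  have h3 : Tendsto (fun n => ∑ i, (X n i : ℝ) / HH ℓ (X n) * l' i) atTop
      (𝓝 (∑ i, a i * l' i)) := tendsto_finset_sum _ fun i _ => (h2 i).mul_const _
  have h4 := h1.atTop_mul_pos hl h3
  refine h4.congr' ?_
  filter_upwards [h1.eventually_gt_atTop 0] with n hn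
  rw [Finset.mul_sum]
  refine Finset.sum_congr rfl fun i _ => ?_
  field_simp

end direction

/-! ### iid blocks -/

section iid
variable {S : Type*} [Countable S] [MeasurableSpace S] [MeasurableSingletonClass S] [Inhabited S]
variable {d : ℕ} {L : Site d →+ ℝ} {val : S → Site d}

/-- coordinate -/
def crd (i : Fin d) : Site d →+ ℤ := Pi.evalAddMonoidHom (fun _ => ℤ) i

lemma crd_apply (i : Fin d) (z : Site d) : crd i z = z i := rfl

lemma identDistrib_eval {α : Type*} [MeasurableSpace α] (μ : Measure α) [IsProbabilityMeasure μ]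
    {β : Type*} [MeasurableSpace β] {g : α → β} (hg : Measurable g) (k : ℕ) :
    IdentDistrib (fun w : ℕ → α => g (w k)) (fun w : ℕ → α => g (w 0))
      (Measure.infinitePi fun _ : ℕ => μ) (Measure.infinitePi fun _ : ℕ => μ) := by
  have hmp : ∀ k : ℕ, MeasurePreserving (fun w : ℕ → α => w k)
      (Measure.infinitePi fun _ : ℕ => μ) μ := fun k =>
    measurePreserving_eval_infinitePi (μ := fun _ : ℕ => μ) k
  refine ⟨(hg.comp (measurable_pi_apply k)).aemeasurable,
    (hg.comp (measurable_pi_apply 0)).aemeasurable, ?_⟩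
  have h1 : ∀ k, (Measure.infinitePi fun _ : ℕ => μ).map (fun w : ℕ → α => g (w k)) = μ.map g := by
    intro k
    have h2 : (Measure.infinitePi fun _ : ℕ => μ).map (fun w : ℕ → α => g (w k)) =
        ((Measure.infinitePi fun _ : ℕ => μ).map (fun w : ℕ → α => w k)).map g :=
      (Measure.map_map hg (measurable_pi_apply k)).symm
    rw [h2, (hmp k).map_eq]
  rw [h1, h1]

lemma indep_eval {α : Type*} [MeasurableSpace α] (μ : Measure α) [IsProbabilityMeasure μ]
    {β : Type*} [MeasurableSpace β] {g : α → β} (hg : Measurable g) :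
    Pairwise (Function.onFun (fun f g => IndepFun f g (Measure.infinitePi fun _ : ℕ => μ))
      fun (k : ℕ) (w : ℕ → α) => g (w k)) := by
  have h := iIndepFun_infinitePi (P := fun _ : ℕ => μ) (X := fun _ : ℕ => g) (fun _ => hg)
  intro i j hij
  exact h.indepFun hij

/-- iid good words with integrable extent have a direction -/
theorem dirc_words {ℓ : Fin d → ℝ} (hL' : ∀ z, L z = HH ℓ z) (μ : Measure (Word S))
    [IsProbabilityMeasure μ] (hgood : ∀ᵐ w ∂μ, GoodWord (hL L val) w)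
    (hext : ∀ i, ∫⁻ w, ext1 (crd i) val w ∂μ ≠ ⊤) :
    ∃ v : Fin d → ℝ, 0 < ∑ i, v i * ℓ i ∧
      ∀ᵐ w ∂(Measure.infinitePi fun _ : ℕ => μ), Dirc ℓ v (pos val (cat w)) := by
  set PW : Measure (ℕ → Word S) := Measure.infinitePi fun _ : ℕ => μ with hPW
  have hmp : ∀ k : ℕ, MeasurePreserving (fun w : ℕ → Word S => w k) PW μ := fun k =>
    measurePreserving_eval_infinitePi (μ := fun _ : ℕ => μ) k
  set EX : Word S → ℝ≥0∞ := fun w => ∑ i : Fin d, ext1 (crd i) val w with hEX
  have hEXm : Measurable EX := measurable_of_countable _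
  have hEXint : ∫⁻ w, EX w ∂μ ≠ ⊤ := by
    rw [hEX, lintegral_finsetSum _ fun i _ => measurable_of_countable _]
    exact ENNReal.sum_ne_top.2 fun i _ => hext i
  have hEXfin : ∀ᵐ w ∂μ, EX w ≠ ⊤ := by
    filter_upwards [ae_lt_top hEXm hEXint] with w hw
    exact hw.ne
  set B : Word S → ℝ := fun w => (EX w).toReal with hB
  have hBm : Measurable B := measurable_of_countable _
  have hBint : Integrable B μ := integrable_toReal_of_lintegral_ne_top hEXm.aemeasurable hEXint
  have hwB : ∀ w, EX w ≠ ⊤ → ∀ t ≤ w.len, ∀ i, |(wp val w t i : ℝ)| ≤ B w := by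
    intro w hw t ht i
    have h1 : ENNReal.ofReal |(wp val w t i : ℝ)| ≤ EX w := by
      calc ENNReal.ofReal |(wp val w t i : ℝ)| ≤ ext1 (crd i) val w := by
            unfold ext1
            exact le_iSup₂ (f := fun t (_ : t ≤ w.len) =>
              ENNReal.ofReal |((crd i) (wp val w t) : ℝ)|) t ht
        _ ≤ EX w := Finset.single_le_sum (f := fun i : Fin d => ext1 (crd i) val w)
            (fun _ _ => bot_le) (Finset.mem_univ i)
    have h2 := ENNReal.toReal_mono hw h1
    rwa [ENNReal.toReal_ofReal (abs_nonneg _)] at h2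
  -- displacement
  set D : Word S → (Fin d → ℝ) := fun w i => (wp val w w.len i : ℝ) with hD
  have hDm : Measurable D := measurable_of_countable _
  have hDint : Integrable D μ := by
    refine Integrable.of_eval fun i => ?_
    refine Integrable.mono' hBint (measurable_of_countable _).aestronglyMeasurable ?_
    filter_upwards [hEXfin] with w hw
    exact hwB w hw w.len le_rfl i
  set m : Fin d → ℝ := fun i => ∫ w, D w i ∂μ with hm
  -- the mean height is positive
  have hmℓ : ∑ i, m i * ℓ i = ∫ w, Word.ht (hL L val) w ∂μ := by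
    have h1 : ∀ w : Word S, Word.ht (hL L val) w = ∑ i, D w i * ℓ i := by
      intro w
      rw [← L_wp_len, hL']
      rfl
    simp_rw [h1]
    rw [integral_finsetSum _ fun i _ => (hDint.eval i).mul_const _]
    refine Finset.sum_congr rfl fun i _ => ?_
    rw [integral_mul_const]
  have hYm : Measurable fun w : Word S => Word.ht (hL L val) w := measurable_of_countable _
  have hYint : Integrable (fun w : Word S => Word.ht (hL L val) w) μ := by
    have h1 : ∀ w : Word S, Word.ht (hL L val) w = ∑ i, D w i * ℓ i := by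
      intro w
      rw [← L_wp_len, hL']
      rfl
    simp_rw [h1]
    exact integrable_finsetSum _ fun i _ => (hDint.eval i).mul_const _
  have hpos : 0 < ∑ i, m i * ℓ i := by
    rw [hmℓ, integral_pos_iff_support_of_nonneg_ae (hgood.mono fun w hw => hw.2.1.le) hYint]
    have h1 : μ {w | 0 < Word.ht (hL L val) w} = 1 := by
      rw [prob_compl_eq_zero_iff (measurableSet_lt measurable_const hYm) |>.symm]
      exact hgood.mono fun w hw => hw.2.1
    refine lt_of_lt_of_le (by rw [h1]; exact one_pos) (measure_mono fun e he => ?_)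
    exact (ne_of_gt he : Word.ht (hL L val) e ≠ 0)
  set M0 : ℝ := ∑ i, m i * ℓ i with hM0
  refine ⟨fun i => m i / M0, ?_, ?_⟩
  · have : ∑ i, m i / M0 * ℓ i = 1 := by
      calc ∑ i, m i / M0 * ℓ i = (∑ i, m i * ℓ i) / M0 := by
            rw [Finset.sum_div]
            exact Finset.sum_congr rfl fun i _ => by ring
        _ = 1 := div_self hpos.ne'
    rw [this]; exact one_pos
  -- good along the sequence
  have hgoodall : ∀ᵐ w ∂PW, ∀ k, GoodWord (hL L val) (w k) := by
    rw [ae_all_iff]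
    exact fun k => (hmp k).quasiMeasurePreserving.ae hgood
  have hfinall : ∀ᵐ w ∂PW, ∀ k, EX (w k) ≠ ⊤ := by
    rw [ae_all_iff]
    exact fun k => (hmp k).quasiMeasurePreserving.ae hEXfin
  have hm0 : ∀ i, ∫ w, D (w 0) i ∂PW = m i := by
    intro i
    have hDi : Measurable fun w : Word S => D w i := measurable_of_countable _
    have := integral_map (μ := PW) (hmp 0).measurable.aemeasurable (f := fun w => D w i)
      hDi.aestronglyMeasurable
    rw [(hmp 0).map_eq] at this
    exact this.symm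
  have key := B2c.escape_ae (P := PW) (fun n w => pos val (cat w) n) (fun k w => T w k)
    (hgoodall.mono fun w hw => T_strictMono fun i => (hw i).1)
    (fun k w => D (w k)) (fun k w => B (w k))
    (by
      filter_upwards [hgoodall] with w hw k i
      have h1 := pos_block (val := val) (w := w) (fun i => (hw i).1) k le_rfl
      rw [T_succ, h1, Pi.add_apply]
      push_cast
      ring)
    (by
      filter_upwards [hgoodall, hfinall] with w hw hf k n hn1 hn2 i
      rw [T_succ] at hn2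
      obtain ⟨j, rfl⟩ := Nat.exists_eq_add_of_le hn1
      have h1 := pos_block (val := val) (w := w) (fun i => (hw i).1) k (i := j) (by omega)
      rw [h1, Pi.add_apply]
      have h2 := hwB (w k) (hf k) j (by omega) i
      push_cast
      rw [add_sub_cancel_left]
      exact h2)
    ((hmp 0).integrable_comp_of_integrable hDint) (indep_eval μ hDm) (identDistrib_eval μ hDm)
    ((hmp 0).integrable_comp_of_integrable hBint) (indep_eval μ hBm) (identDistrib_eval μ hBm)
  filter_upwards [key] with w hw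
  obtain ⟨-, hw2, hw3⟩ := hw
  simp only [hm0] at hw2 hw3
  refine ⟨hw2 ℓ hpos, fun i => ?_⟩
  -- continuity of the ratio at `m`
  have hcont : ContinuousAt (fun y : Fin d → ℝ => y i / ∑ j, y j * ℓ j) m := by
    refine ContinuousAt.div (continuous_apply i).continuousAt ?_ hpos.ne'
    exact (continuous_finsetSum _ fun j _ => (continuous_apply j).mul continuous_const).continuousAt
  rw [Metric.tendsto_atTop]
  intro ε hε
  obtain ⟨δ, hδ, hδ2⟩ := Metric.continuousAt_iff.1 hcont ε hε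
  obtain ⟨N, hN⟩ := eventually_atTop.1 (hw3 (δ / 2) (by positivity) 0)
  refine ⟨N, fun n hn => ?_⟩
  obtain ⟨k, -, hk, hclose⟩ := hN n hn
  have hk0 : (0 : ℝ) < k := by exact_mod_cast hk
  have h1 := hδ2 (x := fun j => (pos val (cat w) n j : ℝ) / k) (by
    refine lt_of_le_of_lt ((dist_pi_le_iff (by positivity)).2 fun j => ?_) (half_lt_self hδ)
    rw [Real.dist_eq]
    exact hclose j)
  have h2 : (pos val (cat w) n i : ℝ) / k / ∑ j, (pos val (cat w) n j : ℝ) / k * ℓ j =
      (pos val (cat w) n i : ℝ) / HH ℓ (pos val (cat w) n) := by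
    have h3 : ∑ j, (pos val (cat w) n j : ℝ) / k * ℓ j = HH ℓ (pos val (cat w) n) / k := by
      unfold HH
      rw [Finset.sum_div]
      exact Finset.sum_congr rfl fun j _ => by ring
    rw [h3, div_div_div_cancel_right₀ hk0.ne']
  rw [h2] at h1
  exact h1

end iid

/-! ### the annealed walk -/

section walk

/-- 263's blocks have the property used above -/
lemma blk_renG {S : Type*} {V : Type*} [AddCommGroup V] [Countable S] [MeasurableSpace S]
    [MeasurableSingletonClass S] [Inhabited S] {L : V →+ ℝ} {val : S → V} {P : Measure (ℕ → S)}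
    [IsProbabilityMeasure P] (R : RegSys L val P) {ρ : RenG263.RecSys (hL L val)}
    (RG : RenG263.RenewalG ρ P)
    (hR : ∀ s ∈ Ren263.Stay (hL L val), ∀ n, R.R s n → RenG263.Reg ρ s n) :
    ∀ᵐ s ∂(cond P (Ren263.Stay (hL L val))), cat (RenG263.blks ρ s) = s ∧
      ∀ r, 1 ≤ r → r < (RenG263.blks ρ s 0).len → ¬ R.R s r := by
  have h1 : ∀ᵐ s ∂(P.restrict (Ren263.Stay (hL L val))), s ∈ RenG263.RegInf ρ := by
    rw [ae_restrict_iff' (Ren263.measurableSet_Stay _)]
    exact RG.ae_regInf R.p_ne R.top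
  have h2 : ∀ᵐ s ∂(cond P (Ren263.Stay (hL L val))), s ∈ RenG263.RegInf ρ := by
    unfold ProbabilityTheory.cond
    exact Measure.ae_smul_measure h1 _
  filter_upwards [h2] with s hs
  refine ⟨RenG263.cat_blks hs, fun r hr1 hr2 hr3 => ?_⟩
  rw [RenG263.blks_zero, RenG263.blk0, len_pre] at hr2
  exact RenG263.tau_min hr1 hr2 (hR s hs.1 r hr3)

variable {d : ℕ} {Q : Measure (Environment d)} [IsProbabilityMeasure Q] {κ : ℝ} {R : ℕ}

/-- **direction of the walk in every frame** from the bound on `x_J` -/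
theorem direction_of (F : Bind263.Frame Q κ R) (ℓ : Fin d → ℝ) (hℓ : ℓ ≠ 0)
    (h : annealedProb Q 0 (escapeEvent ℓ) ≠ 0)
    (hx : ∀ i : Fin d, ∃ M : ℝ≥0∞, M ≠ ⊤ ∧ ∀ J, (F.regSys ℓ hℓ h).x (crd i) J ≤ M) :
    ∃ v : Fin d → ℝ, 0 < ∑ i, v i * ℓ i ∧
      ∀ᵐ X ∂(annealed Q 0), X ∈ escapeEvent ℓ → Dirc ℓ v X := by
  have hinh : Inhabited (Mk561.Mark d) := ⟨(F.stepE ℓ hℓ, true)⟩
  set P : Measure (Mk561.MPath d) := Mk561.mkAnn κ Q 0 with hP
  set ρ := F.rho ℓ hℓ with hρ
  have RG : RenG263.RenewalG ρ P := F.rho_renewal ℓ hℓ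
  have hp : P (Ren263.Stay (Mk561.mht ℓ)) ≠ 0 := F.hp ℓ h
  have hT := F.hT ℓ hℓ
  have hprob := RG.isProb hp hT
  set μ := RenG263.wordLaw ρ P with hμ
  have hmap := RG.map_blks hp hT
  have hgood : ∀ᵐ w ∂μ, GoodWord (hL (Bind263.LH ℓ) (Mk561.stp : Mk561.Mark d → Site d)) w :=
    (RenG263.ae_goodWord ρ P).mono fun w hw => hw.1
  have hblk := blk_renG (F.regSys ℓ hℓ h) (ρ := ρ) RG (fun s _ n hn => hn)
  have hu : ∀ (i : Fin d) (a : Mk561.Mark d), |crd i (Mk561.stp a)| ≤ 1 := by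
    intro i a
    rw [crd_apply]
    unfold Mk561.stp stepVec
    by_cases h : i = a.1.1
    · subst h
      simp only [Pi.single_eq_same]
      split <;> simp
    · simp [h]
  have hext : ∀ i, ∫⁻ w, ext1 (crd i) (Mk561.stp : Mk561.Mark d → Site d) w ∂μ ≠ ⊤ := by
    intro i
    obtain ⟨M, hM, hJ⟩ := hx i
    have hfin : (P (Ren263.Stay (Mk561.mht ℓ)))⁻¹ * M ≠ ⊤ :=
      ENNReal.mul_ne_top (ENNReal.inv_ne_top.2 hp) hM
    refine ne_top_of_le_ne_top hfin (lint_ext1 (L := Bind263.LH ℓ) (hu i) μ (fun J => ?_) hgood)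
    refine (lint_VJ (F.regSys ℓ hℓ h) (crd i) J μ (RenG263.blks ρ) (RenG263.measurable_blks ρ)
      hmap hblk).trans ?_
    exact mul_le_mul' le_rfl (hJ J)
  obtain ⟨v, hv, hdir⟩ := dirc_words (L := Bind263.LH ℓ)
    (val := (Mk561.stp : Mk561.Mark d → Site d)) (ℓ := ℓ) (fun z => rfl) μ hgood hext
  refine ⟨v, hv, ?_⟩
  -- conditional law
  have h1 : ∀ᵐ s ∂(cond P (Ren263.Stay (Mk561.mht ℓ))),
      Dirc ℓ v (B2.pos (Mk561.stp : Mk561.Mark d → Site d) s) := by
    rw [← hmap] at hdir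
    have h2 := ae_of_ae_map (RenG263.measurable_blks ρ).aemeasurable hdir
    filter_upwards [h2, hblk] with s hs1 hs2
    exact (iff_of_eq (congrArg (fun t => Dirc ℓ v
      (B2.pos (Mk561.stp : Mk561.Mark d → Site d) t)) hs2.1)).1 hs1
  have h2 := ae_of_ae_cond (Ren263.measurableSet_Stay (Mk561.mht ℓ)) h1
  have h3 := transferG RG hp
    (p := fun s => Dirc ℓ v (B2.pos (Mk561.stp : Mk561.Mark d → Site d) s)) (fun n s hs => by
      refine Dirc.of_shift (n := n) ?_
      refine (iff_of_eq (congrArg (Dirc ℓ v) (funext fun k => ?_))).1 hs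
      exact B2.pos_shift _ _ _ _) h2
  refine F.ae_annealed (p := fun X => X ∈ escapeEvent ℓ → Dirc ℓ v X) ?_ ?_
  · have : {X : Path d | X ∈ escapeEvent ℓ → Dirc ℓ v X} =
        (escapeEvent ℓ)ᶜ ∪ {X | Dirc ℓ v X} := by
      ext X
      simp only [mem_setOf_eq, mem_union, mem_compl_iff, imp_iff_not_or]
    rw [this]
    exact (B2d.measurableSet_escapeEvent ℓ).compl.union (measurableSet_Dirc ℓ v)
  · filter_upwards [h3] with s hs hesc
    rw [Bind263.mem_escape_mpath] at hesc
    have h4 := hs fun M => by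
      obtain ⟨n, hn⟩ := (hesc.eventually (eventually_ge_atTop M)).exists
      exact ⟨n, hn⟩
    have h5 : B2.pos (Mk561.stp : Mk561.Mark d → Site d) s = Mk561.mpath 0 s :=
      funext fun n => Bind263.pos_eq s n
    rwa [h5] at h4

/-- **HalfSpace in every frame** -/
theorem halfSpace_of (F : Bind263.Frame Q κ R) (ℓ : Fin d → ℝ) (hℓ : ℓ ≠ 0)
    (h : annealedProb Q 0 (escapeEvent ℓ) ≠ 0)
    (hx : ∀ i : Fin d, ∃ M : ℝ≥0∞, M ≠ ⊤ ∧ ∀ J, (F.regSys ℓ hℓ h).x (crd i) J ≤ M) :
    B2d.HalfSpace (annealed Q 0) ℓ := by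
  obtain ⟨v, hv, hae⟩ := direction_of F ℓ hℓ h hx
  refine ⟨v, hv, ?_⟩
  filter_upwards [hae] with X hX hesc l' hl'
  exact (hX hesc).escape hl'

end walk

end Crest.Agent.R154.Half419
end

-- ▼ part R154/B2Ext_719
section

/-!
Row 154, block B2: the lateral extent of the first block has finite mean.
-/

set_option autoImplicit false
set_option linter.unusedSectionVars false
set_option linter.unusedVariables false

namespace Crest.Agent.R154.B2

open MeasureTheory Set Filter Crest.Agent.R154.Ren263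
open scoped ENNReal Topology

/-! ### deterministic part: extent ≤ number of lateral records -/

section det
variable {V : Type*} [AddCommGroup V] {L : V →+ ℝ} {u : V →+ ℤ}




end det

variable {S : Type*} {V : Type*} [AddCommGroup V]
variable [Countable S] [MeasurableSpace S] [MeasurableSingletonClass S]
variable {L : V →+ ℝ} {val : S → V} {P : Measure (ℕ → S)} [IsProbabilityMeasure P]

/-- number of lateral records of the first block (all phases) -/
noncomputable def RegSys.W (R : RegSys L val P) (u : V →+ ℤ) (s : ℕ → S) : ℝ≥0∞ :=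
  ∑' j, ∑' σ, ∑' t, ind (s ∈ R.F u (pa j) (pb j) σ t)





/-! ### first moment of the block height -/

lemma tsum_pow_le (y : ℝ) (hy : 0 ≤ y) :
    ∑' j : ℕ, (2 : ℝ≥0∞) ^ j * ind (pa j ≤ y) ≤ 2 * (ENNReal.ofReal y + 1) := by
  obtain ⟨J, hJ1, hJ2⟩ : ∃ j : ℕ, (2 : ℝ) ^ j ≤ y + 1 ∧ y + 1 < 2 ^ (j + 1) :=
    exists_nat_pow_near (by linarith) (by norm_num)
  have h0 : ∀ j ∉ Finset.range (J + 1), (2 : ℝ≥0∞) ^ j * ind (pa j ≤ y) = 0 := by
    intro j hj
    rw [ind_not, mul_zero]
    intro h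
    unfold pa at h
    have hj' : J + 1 ≤ j := by
      by_contra hcon; exact hj (Finset.mem_range.2 (by omega))
    have : (2 : ℝ) ^ (J + 1) ≤ 2 ^ j := pow_le_pow_right₀ (by norm_num) hj'
    linarith
  rw [tsum_eq_sum h0]
  calc ∑ j ∈ Finset.range (J + 1), (2 : ℝ≥0∞) ^ j * ind (pa j ≤ y)
      ≤ ∑ j ∈ Finset.range (J + 1), (2 : ℝ≥0∞) ^ j := by
        refine Finset.sum_le_sum fun j _ => ?_
        calc (2 : ℝ≥0∞) ^ j * ind (pa j ≤ y) ≤ 2 ^ j * 1 := by gcongr; exact ind_le_one _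
          _ = 2 ^ j := mul_one _
    _ = ENNReal.ofReal (∑ j ∈ Finset.range (J + 1), (2 : ℝ) ^ j) := by
        rw [ENNReal.ofReal_sum_of_nonneg fun j _ => by positivity]
        refine Finset.sum_congr rfl fun j _ => ?_
        rw [ENNReal.ofReal_pow (by norm_num)]; norm_num
    _ ≤ ENNReal.ofReal (2 * (y + 1)) := by
        refine ENNReal.ofReal_le_ofReal ?_
        rw [geom_sum_eq (by norm_num)]
        rw [pow_succ]
        norm_num
        linarith
    _ = 2 * (ENNReal.ofReal y + 1) := by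
        rw [ENNReal.ofReal_mul (by norm_num), ENNReal.ofReal_add hy zero_le_one]
        norm_num

open Crest.Agent.R154.RenG263 in
theorem regSys_moment (ρ : RecSys (hL L val)) (R : RenewalG ρ P) (hz : ∀ s, ρ.Rec s 0)
    (hp : P (Stay (hL L val)) ≠ 0)
    (hT : ∀ᵐ s ∂P, s ∈ Stay (hL L val) → ∀ M : ℝ, ∃ n, M ≤ hgt (hL L val) s n)
    {c : ℝ} (hc : ∀ a, hL L val a ≤ c) (hc0 : 0 < c) :
    ∑' j : ℕ, 2 ^ j * P ((Bind263.regSys ρ R hz hp hT).Big (pa j)) ≠ ∞ := by
  set RS := Bind263.regSys ρ R hz hp hT with hRS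
  have hsub : ∀ k, RS.Big k ⊆ RenG263.Big ρ k := by
    rintro k s ⟨h0, r, h1, h2, h3, h4⟩
    refine ⟨h0, fun n hn hreg => ?_⟩
    have hrn : r ≤ n := by
      by_contra hcon
      exact h3 n hn (not_le.1 hcon) hreg
    have h2' : Reg ρ s r := h2
    have := mem_shift_Stay.1 h2'.2 n hrn
    rw [hgt_hL] at this
    exact h4.trans this
  have hmean := R.mean_le hp hT hc hc0 (le_refl ((ρ.K + 1) * c))
  have hgood := R.tsum_good hp hT
  have h1 : ∑' j : ℕ, (2 : ℝ≥0∞) ^ j * P (RS.Big (pa j)) ≤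
      ∑' n, ∫⁻ s in Good ρ n, (2 * (ENNReal.ofReal (hgt (hL L val) s n) + 1)) ∂P := by
    calc ∑' j : ℕ, (2 : ℝ≥0∞) ^ j * P (RS.Big (pa j))
        ≤ ∑' j : ℕ, (2 : ℝ≥0∞) ^ j * ∑' n, P (Good ρ n ∩ {s | pa j ≤ hgt (hL L val) s n}) := by
          refine ENNReal.tsum_le_tsum fun j => mul_le_mul' le_rfl ?_
          refine (measure_mono (hsub _)).trans ?_
          rw [R.big_eq hp hT]
          calc _ ≤ (∑' n, P (Good ρ n ∩ {s | pa j ≤ hgt (hL L val) s n})) * 1 := by
                gcongr; exact prob_le_one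
            _ = _ := mul_one _
      _ = ∑' n, ∑' j : ℕ, (2 : ℝ≥0∞) ^ j * P (Good ρ n ∩ {s | pa j ≤ hgt (hL L val) s n}) := by
          rw [ENNReal.tsum_comm]
          exact tsum_congr fun j => ENNReal.tsum_mul_left.symm
      _ ≤ _ := by
          refine ENNReal.tsum_le_tsum fun n => ?_
          have hm : ∀ j, MeasurableSet {s : ℕ → S | pa j ≤ hgt (hL L val) s n} := fun j =>
            measurableSet_le measurable_const (measurable_hgt _ n)
          have e : ∀ j, (2 : ℝ≥0∞) ^ j * P (Good ρ n ∩ {s | pa j ≤ hgt (hL L val) s n}) =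
              ∫⁻ s in Good ρ n, (2 : ℝ≥0∞) ^ j * ind (s ∈ {s : ℕ → S | pa j ≤ hgt (hL L val) s n}) ∂P := by
            intro j
            rw [lintegral_const_mul _ (measurable_ind (hm j))]
            congr 1
            have : (fun s => ind (s ∈ {s : ℕ → S | pa j ≤ hgt (hL L val) s n})) =
                ({s : ℕ → S | pa j ≤ hgt (hL L val) s n}).indicator 1 := by
              funext s
              by_cases h : s ∈ {s : ℕ → S | pa j ≤ hgt (hL L val) s n} <;> simp [ind, h]
            rw [this, lintegral_indicator_one (hm j), Measure.restrict_apply (hm j), inter_comm]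
          simp_rw [e]
          rw [← lintegral_tsum fun j => ((measurable_ind (hm j)).const_mul _).aemeasurable]
          refine setLIntegral_mono' (det_Good ρ n).measurableSet fun s hs => ?_
          exact tsum_pow_le _ (by
            have := (good_iff (s := s) (n := n) (ρ := ρ))
            exact hs.2.2.1 n le_rfl)
  refine ne_top_of_le_ne_top ?_ h1
  have h2 : ∑' n, ∫⁻ s in Good ρ n, (2 * (ENNReal.ofReal (hgt (hL L val) s n) + 1)) ∂P =
      2 * (∑' n, ∫⁻ s in Good ρ n, ENNReal.ofReal (hgt (hL L val) s n) ∂P + 1) := by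
    have hme : ∀ n, Measurable fun s : ℕ → S => ENNReal.ofReal (hgt (hL L val) s n) := fun n =>
      ENNReal.measurable_ofReal.comp (measurable_hgt _ n)
    have : ∀ n, ∫⁻ s in Good ρ n, (2 * (ENNReal.ofReal (hgt (hL L val) s n) + 1)) ∂P =
        2 * (∫⁻ s in Good ρ n, ENNReal.ofReal (hgt (hL L val) s n) ∂P + P (Good ρ n)) := by
      intro n
      rw [lintegral_const_mul _ ((hme n).add_const 1), lintegral_add_left (hme n)]
      simp
    simp_rw [this]
    rw [ENNReal.tsum_mul_left, ENNReal.tsum_add, hgood]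
  rw [h2]
  refine ENNReal.mul_ne_top (by norm_num) (ENNReal.add_ne_top.2 ⟨?_, ENNReal.one_ne_top⟩)
  refine ne_top_of_le_ne_top ?_ hmean
  refine ENNReal.mul_ne_top ENNReal.ofReal_ne_top (ENNReal.add_ne_top.2 ⟨ENNReal.one_ne_top, ?_⟩)
  exact ENNReal.mul_ne_top (ENNReal.inv_ne_top.2 R.δ_ne) (ENNReal.inv_ne_top.2 hp)

end Crest.Agent.R154.B2
end

-- ▼ part R154/B2Frame_719

/-!
Row 154, block B2, final form for the walk, all frames (S0219, S0220, S0221): `sup_J x_J < ∞` and the
lateral extent of the first block is integrable.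
-/

set_option autoImplicit false
set_option linter.unusedSectionVars false
set_option linter.unusedVariables false

namespace Crest.Agent.R154.Bind263

open MeasureTheory ProbabilityTheory Filter Set Crest.ProbabilityR.RandomEnvironment
open Crest.Agent.R154.Ren263 Crest.Agent.R154.RenG263 Crest.Agent.R154.Mk561
open scoped ENNReal Topology

variable {d : ℕ} {Q : Measure (Environment d)} [IsProbabilityMeasure Q] {κ : ℝ} {R : ℕ}

/-- coordinate `i` as an additive map -/
def crd (i : Fin d) : Site d →+ ℤ := Pi.evalAddMonoidHom (fun _ => ℤ) i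

lemma crd_apply (i : Fin d) (z : Site d) : crd i z = z i := rfl

lemma abs_crd_stp (i : Fin d) (a : Mark d) : |crd i (stp a)| ≤ 1 := by
  rw [crd_apply]
  unfold stp stepVec
  by_cases h : i = a.1.1
  · subst h
    rw [Pi.single_eq_same]
    split_ifs <;> simp
  · rw [Pi.single_eq_of_ne h]; simp

/-- a bound for an additive map on the box -/
lemma exists_bound_box (f : Site d →+ ℝ) (R : ℕ) : ∃ M : ℝ, 0 ≤ M ∧ ∀ z ∈ box d R, |f z| ≤ M := by
  have hfin : (box d R).Finite := by
    have : box d R ⊆ Set.pi univ (fun _ : Fin d => Set.Icc (-(R : ℤ)) R) := by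
      intro z hz i _
      exact abs_le.1 (hz i)
    exact (Set.Finite.pi fun _ => Set.finite_Icc _ _).subset this
  obtain ⟨M, hM⟩ := (hfin.image fun z => |f z|).bddAbove
  exact ⟨max M 0, le_max_right _ _, fun z hz => (hM ⟨z, hz, rfl⟩).trans (le_max_left _ _)⟩

/-- **B2, all frames: `sup_J x_J < ∞`.** -/
theorem Frame.x_bounded (F : Frame Q κ R) (ℓ : Fin d → ℝ) (hℓ : ℓ ≠ 0)
    (h : annealedProb Q 0 (escapeEvent ℓ) ≠ 0) (u : Site d →+ ℤ)
    (hu : ∀ a : Mark d, |u (stp a)| ≤ 1) :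
    ∃ M : ℝ≥0∞, M ≠ ∞ ∧ ∀ J, (F.regSys ℓ hℓ h).x u J ≤ M := by
  set RS := F.regSys ℓ hℓ h with hRS
  have he : 0 < LH ℓ (stepVec (F.stepE ℓ hℓ)) := (F.climb_spec ℓ hℓ).1
  haveI : Inhabited (Mark d) := ⟨(F.stepE ℓ hℓ, true)⟩
  obtain ⟨R1, hR1, hb1⟩ := exists_bound_box (LH ℓ) R
  obtain ⟨R2, hR2, hb2⟩ := exists_bound_box ((Int.castAddHom ℝ).comp u) R
  have hYi : ∫⁻ w, ENNReal.ofReal (Word.ht (B2.hL (LH ℓ) (stp : Mark d → Site d)) w)
      ∂(RenG263.wordLaw (F.rho ℓ hℓ) (mkAnn κ Q 0)) ≠ ⊤ :=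
    ((F.rho_renewal ℓ hℓ).lintegral_ht_lt_top (F.hp ℓ h) (F.hT ℓ hℓ)).ne
  have hsuc : RS.SUC u := Crest.Agent.R154.SucDet.suc_renG RS (F.rho_renewal ℓ hℓ) (fun s _ n hn => hn) hYi hu
  obtain ⟨c, hc⟩ : ∃ c : ℝ, ∀ a : Mark d, B2.hL (LH ℓ) (stp : Mark d → Site d) a ≤ c := by
    obtain ⟨c, hc⟩ := (Set.finite_range (B2.hL (LH ℓ) (stp : Mark d → Site d))).bddAbove
    exact ⟨c, fun a => hc ⟨a, rfl⟩⟩
  have hc' : ∀ a : Mark d, B2.hL (LH ℓ) (stp : Mark d → Site d) a ≤ max c 1 :=
    fun a => (hc a).trans (le_max_left _ _)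
  have hc0 : 0 < max c 1 := lt_of_lt_of_le one_pos (le_max_right _ _)
  have hbig : ∑' j : ℕ, 2 ^ j * mkAnn κ Q 0 (RS.Big (B2.pa j)) ≠ ∞ :=
    B2.regSys_moment (L := LH ℓ) (val := (stp : Mark d → Site d)) (F.rho ℓ hℓ) (F.rho_renewal ℓ hℓ)
      (fun _ i hi => absurd hi (Nat.not_lt_zero i)) (F.hp ℓ h) (F.hT ℓ hℓ) hc' hc0
  exact RS.x_bounded (F.cf ℓ (F.stepE ℓ hℓ) he) he u hR1 hR2
    (fun z hz => ⟨hb1 z hz, by simpa using hb2 z hz⟩) hsuc hbig


end Crest.Agent.R154.Bind263
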