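import Crest.Agent.R154.B2CF_263
import Crest.Agent.R154.B4LP_573

-- ▼ part R154/B1Int_263
section

/-!
Row 154, block B1: in a coordinate direction the heights are integers; regeneration words have a
natural height `≥ 1`.
-/

set_option autoImplicit false
set_option linter.unusedSectionVars false
set_option linter.deprecated false

namespace Crest.Agent.R154.Bind263

open MeasureTheory ProbabilityTheory Filter Set Crest.ProbabilityR.RandomEnvironment
open Crest.Agent.R154.Ren263 Crest.Agent.R154.RenG263 Crest.Agent.R154.Mk561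
open scoped ENNReal Topology

variable {d : ℕ}

/-- integer height of a letter in the direction of the step `u` -/
def zht (u : Step d) (m : Mark d) : ℤ :=
  if m.1.1 = u.1 then (if m.1.2 = u.2 then 1 else -1) else 0

lemma mht_dirVec (u : Step d) (m : Mark d) : mht (B2d.dirVec u) m = (zht u m : ℝ) := by
  obtain ⟨⟨i, s⟩, b⟩ := m
  obtain ⟨j, t⟩ := u
  have h1 : mht (B2d.dirVec (j, t)) ((i, s), b) =
      ∑ k, ((stepVec (i, s) k : ℤ) : ℝ) * B2d.dirVec (j, t) k := rfl
  rw [h1, B2d.sum_mul_dirVec (fun k => ((stepVec (i, s) k : ℤ) : ℝ)) (j, t)]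
  unfold zht stepVec
  by_cases hij : i = j
  · subst hij
    simp only [Pi.single_eq_same, if_true]
    cases s <;> cases t <;> simp
  · have hji : j ≠ i := fun h => hij h.symm
    simp only [Pi.single_eq_of_ne hji, hij, if_false]
    cases t <;> simp

lemma abs_zht_le (u : Step d) (m : Mark d) : |zht u m| ≤ 1 := by
  unfold zht
  split_ifs <;> simp

/-- integer height of a word -/
def wzht (u : Step d) (w : Word (Mark d)) : ℤ := (List.map (zht u) w).sum


lemma hgt_dirVec (u : Step d) (s : MPath d) (n : ℕ) :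
    hgt (mht (B2d.dirVec u)) s n = ((∑ i ∈ Finset.range n, zht u (s i) : ℤ) : ℝ) := by
  unfold hgt
  push_cast
  exact Finset.sum_congr rfl fun i _ => mht_dirVec u (s i)



end Crest.Agent.R154.Bind263
end

-- ▼ part R154/B4Inst_797

/-! Row 154, block B4, route II: **instance of 573's level process `LP`** for the natural marked walk,
in every frame (iid elliptic; uniformly elliptic with range `R`).

`Hit u l n s`: `n` is the first hitting time of level `l` in direction `u`; `Nat0 u a` (`a = R`): the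
first `a` letters are forced up, afterwards the height is at least `a`.  Law: `mkAnn κ Q 0` conditioned
on `Nat0 u R`. -/

set_option autoImplicit false
set_option linter.unusedSectionVars false
set_option linter.deprecated false

namespace Crest.Agent.R154.B4Inst797

open MeasureTheory ProbabilityTheory Filter Set Crest.ProbabilityR.RandomEnvironment
open Crest.Agent.R154.Ren263 Crest.Agent.R154.Mk561 Crest.Agent.R154.Bind263
open scoped ENNReal Topology

variable {d : ℕ}

/-- integer height after `n` letters in direction `u` -/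
def zh (u : Step d) (s : MPath d) (n : ℕ) : ℤ := ∑ i ∈ Finset.range n, zht u (s i)

@[simp] lemma zh_zero (u : Step d) (s : MPath d) : zh u s 0 = 0 := by simp [zh]

lemma zh_succ (u : Step d) (s : MPath d) (n : ℕ) : zh u s (n + 1) = zh u s n + zht u (s n) := by
  simp [zh, Finset.sum_range_succ]

lemma zh_congr (u : Step d) {s s' : MPath d} {n : ℕ} (H : ∀ i < n, s i = s' i) {k : ℕ}
    (hk : k ≤ n) : zh u s k = zh u s' k := by
  unfold zh
  refine Finset.sum_congr rfl fun i hi => ?_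
  rw [H i (lt_of_lt_of_le (Finset.mem_range.1 hi) hk)]

lemma zh_add (u : Step d) (s : MPath d) (n k : ℕ) :
    zh u s (n + k) = zh u s n + zh u (Ren263.shift n s) k := by
  unfold zh Ren263.shift
  rw [Finset.sum_range_add]

lemma hgt_eq (u : Step d) (s : MPath d) (n : ℕ) :
    hgt (mht (B2d.dirVec u)) s n = (zh u s n : ℝ) := hgt_dirVec u s n

lemma zh_le (u : Step d) (s : MPath d) (n : ℕ) : zh u s n ≤ n := by
  induction n with
  | zero => simp
  | succ n ih =>
    rw [zh_succ]
    have := (abs_le.1 (abs_zht_le u (s n))).2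
    push_cast
    linarith

/-- `n` is the first hitting time of level `l` -/
def Hit (u : Step d) (l n : ℕ) (s : MPath d) : Prop := zh u s n = l ∧ ∀ i < n, zh u s i < l

lemma hit_unique {u : Step d} {l n m : ℕ} {s : MPath d} (hn : Hit u l n s) (hm : Hit u l m s) :
    n = m := by
  rcases lt_trichotomy n m with H | H | H
  · have := hm.2 n H; rw [hn.1] at this; exact absurd this (lt_irrefl _)
  · exact H
  · have := hn.2 m H; rw [hm.1] at this; exact absurd this (lt_irrefl _)

lemma hit_zero (u : Step d) (s : MPath d) : Hit u 0 0 s :=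
  ⟨by simp, fun i hi => absurd hi (Nat.not_lt_zero i)⟩

lemma det_Hit (u : Step d) (l n : ℕ) : Det n {s : MPath d | Hit u l n s} := by
  intro s s' H
  simp only [Hit, mem_setOf_eq]
  rw [zh_congr u H le_rfl]
  refine and_congr Iff.rfl (forall_congr' fun k => ?_)
  constructor
  · intro H1 hk; rw [← zh_congr u H hk.le]; exact H1 hk
  · intro H1 hk; rw [zh_congr u H hk.le]; exact H1 hk

lemma le_of_hit {u : Step d} {l n : ℕ} {s : MPath d} (h : Hit u l n s) : l ≤ n := by
  have := zh_le u s n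
  rw [h.1] at this
  exact_mod_cast this

/-- the first time at height `≥ l` is a hit of level `l` -/
lemma exists_hit {u : Step d} {l : ℕ} {s : MPath d} {N : ℕ} (h : (l : ℤ) ≤ zh u s N) :
    ∃ k ≤ N, Hit u l k s := by
  classical
  have hex : ∃ k, (l : ℤ) ≤ zh u s k := ⟨N, h⟩
  refine ⟨Nat.find hex, Nat.find_le h, ?_, fun i hi => not_le.1 (Nat.find_min hex hi)⟩
  refine le_antisymm ?_ (Nat.find_spec hex)
  rcases Nat.eq_zero_or_pos (Nat.find hex) with h0 | h0
  · rw [h0]; simp
  · obtain ⟨j, hj⟩ : ∃ j, Nat.find hex = j + 1 := ⟨Nat.find hex - 1, by omega⟩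
    have h1 : zh u s j < l := not_le.1 (Nat.find_min hex (by omega))
    rw [hj, zh_succ]
    have := (abs_le.1 (abs_zht_le u (s j))).2
    linarith

lemma hit_split {u : Step d} {l m N : ℕ} {s : MPath d} (h : Hit u (l + m) N s) :
    ∃ k ≤ N, Hit u l k s ∧ Hit u m (N - k) (Ren263.shift k s) := by
  obtain ⟨k, hk, hl⟩ := exists_hit (u := u) (l := l) (s := s) (N := N)
    (by rw [h.1]; push_cast; linarith [Int.natCast_nonneg m])
  refine ⟨k, hk, hl, ?_, fun i hi => ?_⟩
  · have := zh_add u s k (N - k)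
    rw [Nat.add_sub_cancel' hk, h.1, hl.1] at this
    push_cast at this
    linarith
  · have h1 := h.2 (k + i) (by omega)
    have h2 := zh_add u s k i
    rw [hl.1] at h2
    push_cast at h1
    linarith

lemma hit_comp {u : Step d} {l m k j : ℕ} {s : MPath d} (h1 : Hit u l k s)
    (h2 : Hit u m j (Ren263.shift k s)) : Hit u (l + m) (k + j) s := by
  refine ⟨?_, fun i hi => ?_⟩
  · rw [zh_add, h1.1, h2.1]; push_cast; ring
  · rcases lt_or_ge i k with hik | hik
    · have := h1.2 i hik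
      push_cast
      linarith [Int.natCast_nonneg m]
    · obtain ⟨j', rfl⟩ := Nat.exists_eq_add_of_le hik
      have := h2.2 j' (by omega)
      rw [zh_add, h1.1]
      push_cast
      linarith

/-! ### natural paths -/

/-- natural up to time `n`: the first `a` letters are forced up, afterwards height `≥ a` -/
def Nt (u : Step d) (a n : ℕ) (s : MPath d) : Prop :=
  (∀ i < a, i < n → s i = (u, true)) ∧ ∀ i, a ≤ i → i ≤ n → (a : ℤ) ≤ zh u s i

/-- natural forever -/
def Nat0 (u : Step d) (a : ℕ) : Set (MPath d) :=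
  {s | (∀ i < a, s i = (u, true)) ∧ ∀ i, a ≤ i → (a : ℤ) ≤ zh u s i}

lemma nt_mono {u : Step d} {a n m : ℕ} {s : MPath d} (h : Nt u a n s) (hm : m ≤ n) :
    Nt u a m s :=
  ⟨fun i hi hin => h.1 i hi (lt_of_lt_of_le hin hm), fun i hi hin => h.2 i hi (hin.trans hm)⟩

lemma nt_of_nat {u : Step d} {a : ℕ} {s : MPath d} (h : s ∈ Nat0 u a) (n : ℕ) : Nt u a n s :=
  ⟨fun i hi _ => h.1 i hi, fun i hi _ => h.2 i hi⟩

lemma nat_of_nt {u : Step d} {a : ℕ} {s : MPath d} (h : ∀ n, Nt u a n s) : s ∈ Nat0 u a :=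
  ⟨fun i hi => (h (i + 1)).1 i hi (Nat.lt_succ_self i), fun i hi => (h i).2 i hi le_rfl⟩

lemma det_Nt (u : Step d) (a n : ℕ) : Det n {s : MPath d | Nt u a n s} := by
  intro s s' H
  simp only [Nt, mem_setOf_eq]
  refine and_congr (forall_congr' fun i => forall_congr' fun _ => ?_)
    (forall_congr' fun i => forall_congr' fun _ => ?_)
  · constructor
    · intro h hi; rw [← H i hi]; exact h hi
    · intro h hi; rw [H i hi]; exact h hi
  · constructor
    · intro h hi; rw [← zh_congr u H hi]; exact h hi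
    · intro h hi; rw [zh_congr u H hi]; exact h hi

lemma nat_eq_iInter (u : Step d) (a : ℕ) : Nat0 u a = ⋂ n, {s : MPath d | Nt u a n s} := by
  ext s
  simp only [mem_iInter, mem_setOf_eq]
  exact ⟨fun h n => nt_of_nat h n, nat_of_nt⟩

lemma measurableSet_Nat0 (u : Step d) (a : ℕ) : MeasurableSet (Nat0 u a) := by
  rw [nat_eq_iInter]
  exact MeasurableSet.iInter fun n => (det_Nt u a n).measurableSet

lemma zht_up (u : Step d) (b : Bool) : zht u (u, b) = 1 := by simp [zht]

lemma zh_forced {u : Step d} {a : ℕ} {s : MPath d} (h : ∀ i < a, s i = (u, true)) {j : ℕ}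
    (hj : j ≤ a) : zh u s j = j := by
  unfold zh
  rw [Finset.sum_congr rfl fun i hi => by
    rw [h i (lt_of_lt_of_le (Finset.mem_range.1 hi) hj), zht_up]]
  simp

lemma nat_nonneg {u : Step d} {a : ℕ} {s : MPath d} (h : s ∈ Nat0 u a) (n : ℕ) :
    0 ≤ zh u s n := by
  rcases le_total a n with hn | hn
  · exact le_trans (Int.natCast_nonneg a) (h.2 n hn)
  · rw [zh_forced h.1 hn]; exact Int.natCast_nonneg n

lemma nat_subset_stay (u : Step d) (a : ℕ) : Nat0 u a ⊆ Ren263.Stay (mht (B2d.dirVec u)) := by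
  intro s hs n
  rw [hgt_eq]
  exact_mod_cast nat_nonneg hs n

/-! ### the maps `θ`, `U` -/

open Classical in
/-- first hitting time of level `1` (`0` if there is none) -/
noncomputable def tm (u : Step d) (s : MPath d) : ℕ :=
  if h : ∃ n, Hit u 1 n s then Nat.find h else 0

lemma tm_eq {u : Step d} {n : ℕ} {s : MPath d} (h : Hit u 1 n s) : tm u s = n := by
  classical
  have hex : ∃ n, Hit u 1 n s := ⟨n, h⟩
  unfold tm
  rw [dif_pos hex]
  exact hit_unique (Nat.find_spec hex) h

lemma tm_of_not {u : Step d} {s : MPath d} (h : ¬ ∃ n, Hit u 1 n s) : tm u s = 0 := by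
  unfold tm
  rw [dif_neg h]

/-- path after the first hit of level `1` -/
noncomputable def th1 (u : Step d) (s : MPath d) : MPath d := Ren263.shift (tm u s) s

/-- the two lateral coordinates -/
def lat (i1 i2 : Fin d) (z : Site d) : B4.V := ![(z i1 : ℝ), (z i2 : ℝ)]

lemma lat_zero (i1 i2 : Fin d) : lat i1 i2 0 = 0 := by
  unfold lat
  ext i
  fin_cases i <;> simp

lemma lat_add (i1 i2 : Fin d) (y z : Site d) : lat i1 i2 (y + z) = lat i1 i2 y + lat i1 i2 z := by
  unfold lat
  ext i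
  fin_cases i <;> simp

/-- lateral position at the first hit of level `1` -/
noncomputable def u1 (u : Step d) (i1 i2 : Fin d) (s : MPath d) : B4.V :=
  lat i1 i2 (pos 0 s (tm u s))

/-- path after the first hit of level `l` -/
noncomputable def th (u : Step d) (l : ℕ) (s : MPath d) : MPath d := (th1 u)^[l] s

/-- lateral position at the first hit of level `l` -/
noncomputable def UU (u : Step d) (i1 i2 : Fin d) (l : ℕ) (s : MPath d) : B4.V :=
  ∑ i ∈ Finset.range l, u1 u i1 i2 (th u i s)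

lemma th_zero (u : Step d) (s : MPath d) : th u 0 s = s := rfl

lemma th_add (u : Step d) (l m : ℕ) (s : MPath d) : th u (l + m) s = th u m (th u l s) := by
  unfold th
  rw [Nat.add_comm, Function.iterate_add_apply]

lemma th_succ (u : Step d) (l : ℕ) (s : MPath d) : th u (l + 1) s = th1 u (th u l s) := by
  rw [th_add]; rfl

lemma UU_succ (u : Step d) (i1 i2 : Fin d) (l : ℕ) (s : MPath d) :
    UU u i1 i2 (l + 1) s = UU u i1 i2 l s + u1 u i1 i2 (th u l s) := by
  unfold UU
  rw [Finset.sum_range_succ]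

lemma UU_add (u : Step d) (i1 i2 : Fin d) (l m : ℕ) (s : MPath d) :
    UU u i1 i2 (l + m) s = UU u i1 i2 l s + UU u i1 i2 m (th u l s) := by
  unfold UU
  rw [Finset.sum_range_add]
  congr 1
  exact Finset.sum_congr rfl fun i _ => by rw [th_add]

lemma pos_start (x : Site d) (M : MPath d) (n : ℕ) : pos x M n = x + pos 0 M n := by
  simp [pos]

lemma pos_zero_add (s : MPath d) (n k : ℕ) : pos 0 s (n + k) = pos 0 s n + pos 0 (Ren263.shift n s) k := by
  rw [← pos_shift, pos_start]

/-- on `Hit u l n` everything is explicit -/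
theorem hit_eq {u : Step d} (i1 i2 : Fin d) {l n : ℕ} {s : MPath d} (h : Hit u l n s) :
    th u l s = Ren263.shift n s ∧ UU u i1 i2 l s = lat i1 i2 (pos 0 s n) := by
  induction l generalizing n with
  | zero =>
    have : n = 0 := hit_unique h (hit_zero u s)
    subst this
    exact ⟨by rw [th_zero, shift_zero], by simp [UU, pos_zero, lat_zero]⟩
  | succ l ih =>
    obtain ⟨k, hk, h1, h2⟩ := hit_split h
    obtain ⟨e1, e2⟩ := ih h1
    have e3 : tm u (Ren263.shift k s) = n - k := tm_eq h2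
    constructor
    · rw [th_succ, e1]
      unfold th1
      rw [e3, shift_shift, Nat.add_sub_cancel' hk]
    · rw [UU_succ, e1, e2]
      unfold u1
      rw [e3, ← lat_add, ← pos_zero_add, Nat.add_sub_cancel' hk]

lemma th_eq {u : Step d} {l n : ℕ} {s : MPath d} (h : Hit u l n s) : th u l s = Ren263.shift n s := by
  induction l generalizing n with
  | zero =>
    have : n = 0 := hit_unique h (hit_zero u s)
    subst this
    rw [th_zero, shift_zero]
  | succ l ih =>
    obtain ⟨k, hk, h1, h2⟩ := hit_split h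
    have e3 : tm u (Ren263.shift k s) = n - k := tm_eq h2
    rw [th_succ, ih h1]
    unfold th1
    rw [e3, shift_shift, Nat.add_sub_cancel' hk]

/-- measurability of a function defined on the pieces `Hit u 1 n` -/
lemma measurable_tm (u : Step d) : Measurable (tm (d := d) u) := by
  refine measurable_to_countable' fun n => ?_
  have : tm (d := d) u ⁻¹' {n} = {s | Hit u 1 n s} ∪
      ({s | n = 0} ∩ {s | ∀ m, ¬ Hit u 1 m s}) := by
    ext s
    simp only [mem_preimage, mem_singleton_iff, mem_union, mem_inter_iff, mem_setOf_eq]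
    constructor
    · intro h
      by_cases hex : ∃ m, Hit u 1 m s
      · obtain ⟨m, hm⟩ := hex
        rw [tm_eq hm] at h
        exact Or.inl (h ▸ hm)
      · rw [tm_of_not hex] at h
        exact Or.inr ⟨h.symm, fun m hm => hex ⟨m, hm⟩⟩
    · rintro (h | ⟨h, h2⟩)
      · exact tm_eq h
      · rw [tm_of_not (fun ⟨m, hm⟩ => h2 m hm), h]
  rw [this]
  refine (det_Hit u 1 n).measurableSet.union (MeasurableSet.inter (MeasurableSet.const _) ?_)
  have h2 : {s : MPath d | ∀ m, ¬ Hit u 1 m s} = ⋂ m, {s | Hit u 1 m s}ᶜ := by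
    ext s; simp
  rw [h2]
  exact MeasurableSet.iInter fun m => (det_Hit u 1 m).measurableSet.compl

lemma measurable_th1 (u : Step d) : Measurable (th1 (d := d) u) := by
  refine measurable_pi_lambda _ fun k => ?_
  have : (fun s : MPath d => th1 u s k) = fun s => s (tm u s + k) := rfl
  rw [this]
  have h2 : Measurable fun p : ℕ × MPath d => p.2 (p.1 + k) :=
    measurable_from_prod_countable_right fun n => measurable_pi_apply (n + k)
  exact h2.comp ((measurable_tm u).prodMk measurable_id)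

lemma measurable_th (u : Step d) (l : ℕ) : Measurable (th (d := d) u l) :=
  (measurable_th1 u).iterate l

lemma measurable_pos (x : Site d) (n : ℕ) : Measurable fun s : MPath d => pos x s n :=
  (measurable_pi_apply n).comp (measurable_mpath x)

lemma measurable_u1 (u : Step d) (i1 i2 : Fin d) : Measurable (u1 (d := d) u i1 i2) := by
  have h2 : Measurable fun p : ℕ × MPath d => pos (0 : Site d) p.2 p.1 :=
    measurable_from_prod_countable_right fun n => measurable_pos 0 n
  have h3 : Measurable fun s : MPath d => pos (0 : Site d) s (tm u s) :=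
    h2.comp ((measurable_tm u).prodMk measurable_id)
  exact (measurable_of_countable (lat (d := d) i1 i2)).comp h3

lemma measurable_UU (u : Step d) (i1 i2 : Fin d) (l : ℕ) :
    Measurable (UU (d := d) u i1 i2 l) := by
  unfold UU
  exact Finset.measurable_sum _ fun i _ => (measurable_u1 u i1 i2).comp (measurable_th u i)

/-! ### information up to the first hit of a level -/

/-- information up to the first hit of level `l` -/
@[reducible] def Fl (u : Step d) (l : ℕ) : MeasurableSpace (MPath d) where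
  MeasurableSet' A := MeasurableSet A ∧ ∀ n, Det n (A ∩ {s | Hit u l n s})
  measurableSet_empty := ⟨MeasurableSet.empty, fun n s s' _ => by simp⟩
  measurableSet_compl A hA := by
    refine ⟨hA.1.compl, fun n => ?_⟩
    have : Aᶜ ∩ {s | Hit u l n s} = {s | Hit u l n s} ∩ (A ∩ {s | Hit u l n s})ᶜ := by
      ext s; simp only [mem_inter_iff, mem_compl_iff, mem_setOf_eq]; tauto
    rw [this]
    exact (det_Hit u l n).inter (hA.2 n).compl
  measurableSet_iUnion f hf := by
    refine ⟨MeasurableSet.iUnion fun i => (hf i).1, fun n s s' H => ?_⟩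
    simp only [mem_inter_iff, mem_iUnion, mem_setOf_eq]
    constructor
    · rintro ⟨⟨i, hi⟩, h2⟩
      have := ((hf i).2 n s s' H).1 ⟨hi, h2⟩
      exact ⟨⟨i, this.1⟩, this.2⟩
    · rintro ⟨⟨i, hi⟩, h2⟩
      have := ((hf i).2 n s s' H).2 ⟨hi, h2⟩
      exact ⟨⟨i, this.1⟩, this.2⟩

lemma mem_Fl {u : Step d} {l : ℕ} {A : Set (MPath d)} :
    MeasurableSet[Fl u l] A ↔ MeasurableSet A ∧ ∀ n, Det n (A ∩ {s | Hit u l n s}) := Iff.rfl

/-- sets of the form `∃ k ≤ N, Hit u l k s ∧ (property of the first N letters)` -/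
lemma det_split (u : Step d) (l N : ℕ) (p : ℕ → MPath d → Prop)
    (hp : ∀ k ≤ N, Det (N - k) {s : MPath d | p k s}) :
    Det N {s : MPath d | ∃ k ≤ N, Hit u l k s ∧ p k (Ren263.shift k s)} := by
  intro s s' H
  simp only [mem_setOf_eq]
  refine exists_congr fun k => and_congr_right fun hk => ?_
  refine and_congr ((det_Hit u l k).mono hk s s' H) ?_
  refine hp k hk (Ren263.shift k s) (Ren263.shift k s') fun i hi => ?_
  exact H (k + i) (by omega)

lemma Fl_mono (u : Step d) {l m : ℕ} (hlm : l ≤ m) : Fl (d := d) u l ≤ Fl u m := by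
  intro A hA
  rw [mem_Fl] at hA ⊢
  refine ⟨hA.1, fun N => ?_⟩
  obtain ⟨j, rfl⟩ := Nat.exists_eq_add_of_le hlm
  have : A ∩ {s | Hit u (l + j) N s} =
      {s | ∃ k ≤ N, (s ∈ A ∩ {s | Hit u l k s}) ∧ s ∈ {s | Hit u (l + j) N s}} := by
    ext s
    simp only [mem_inter_iff, mem_setOf_eq]
    constructor
    · rintro ⟨h1, h2⟩
      obtain ⟨k, hk, h3, h4⟩ := hit_split h2
      exact ⟨k, hk, ⟨h1, h3⟩, h2⟩
    · rintro ⟨k, hk, ⟨h1, _⟩, h2⟩
      exact ⟨h1, h2⟩
  rw [this]
  intro s s' H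
  simp only [mem_setOf_eq]
  refine exists_congr fun k => and_congr_right fun hk => ?_
  exact and_congr ((hA.2 k).mono hk s s' H) (det_Hit u (l + j) N s s' H)

lemma UU_meas (u : Step d) (i1 i2 : Fin d) (l : ℕ) : Measurable[Fl u l] (UU (d := d) u i1 i2 l) := by
  intro S hS
  rw [mem_Fl]
  refine ⟨measurable_UU u i1 i2 l hS, fun n s s' H => ?_⟩
  simp only [mem_inter_iff, mem_preimage, mem_setOf_eq]
  have key : ∀ s s' : MPath d, (∀ i < n, s i = s' i) → (UU u i1 i2 l s ∈ S ∧ Hit u l n s) →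
      (UU u i1 i2 l s' ∈ S ∧ Hit u l n s') := by
    rintro s s' H ⟨h1, h2⟩
    have h3 : Hit u l n s' := (det_Hit u l n s s' H).1 h2
    refine ⟨?_, h3⟩
    rw [(hit_eq i1 i2 h3).2, ← pos_congr 0 H le_rfl, ← (hit_eq i1 i2 h2).2]
    exact h1
  exact ⟨key s s' H, key s' s fun i hi => (H i hi).symm⟩

/-! ### cut levels -/

/-- natural as far as one can see at level `m` -/
def D0 (u : Step d) (a m : ℕ) : Set (MPath d) :=
  {s | (∀ n, Hit u m n s → Nt u a n s) ∧ ((∀ n, ¬ Hit u m n s) → s ∈ Nat0 u a)}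

lemma nat_subset_D0 (u : Step d) (a m : ℕ) : Nat0 u a ⊆ D0 u a m :=
  fun _ hs => ⟨fun n _ => nt_of_nat hs n, fun _ => hs⟩


lemma measurableSet_D0 (u : Step d) (a m : ℕ) : MeasurableSet (D0 (d := d) u a m) := by
  have : D0 (d := d) u a m = (⋂ n, ({s | Hit u m n s}ᶜ ∪ {s | Nt u a n s})) ∩
      ((⋃ n, {s | Hit u m n s}) ∪ Nat0 u a) := by
    ext s
    simp only [D0, mem_setOf_eq, mem_inter_iff, mem_iInter, mem_union, mem_compl_iff, mem_iUnion]
    refine and_congr (forall_congr' fun n => imp_iff_not_or) ?_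
    constructor
    · intro h
      by_cases hex : ∃ n, Hit u m n s
      · exact Or.inl hex
      · exact Or.inr (h fun n hn => hex ⟨n, hn⟩)
    · rintro (⟨n, hn⟩ | h) h2
      · exact absurd hn (h2 n)
      · exact h
  rw [this]
  refine MeasurableSet.inter (MeasurableSet.iInter fun n =>
    (det_Hit u m n).measurableSet.compl.union (det_Nt u a n).measurableSet)
    ((MeasurableSet.iUnion fun n => (det_Hit u m n).measurableSet).union (measurableSet_Nat0 u a))


/-- natural up to the hit of level `m`, natural afterwards: natural -/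
lemma D0_inter {u : Step d} {a m : ℕ} {s : MPath d} (h1 : s ∈ D0 u a m)
    (h2 : th u m s ∈ Nat0 u a) : s ∈ Nat0 u a := by
  by_cases hex : ∃ n, Hit u m n s
  · obtain ⟨n, hn⟩ := hex
    have h3 := h1.1 n hn
    rw [th_eq hn] at h2
    have hge : ∀ i, n ≤ i → (m : ℤ) ≤ zh u s i := by
      intro i hi
      obtain ⟨j, rfl⟩ := Nat.exists_eq_add_of_le hi
      rw [zh_add, hn.1]
      have := nat_nonneg h2 j
      linarith
    rcases le_total a m with ham | ham
    · have han : a ≤ n := ham.trans (le_of_hit hn)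
      refine ⟨fun i hi => h3.1 i hi (lt_of_lt_of_le hi han), fun i hi => ?_⟩
      rcases le_total i n with hin | hin
      · exact h3.2 i hi hin
      · have := hge i hin
        have h4 : (a : ℤ) ≤ m := by exact_mod_cast ham
        linarith
    · -- `m ≤ a`: the first `m` letters are forced up, `n = m`
      rcases le_or_gt n a with hna | hna
      · have hf : ∀ i < n, s i = (u, true) := fun i hi => h3.1 i (lt_of_lt_of_le hi hna) hi
        have e1 : zh u s n = n := zh_forced hf le_rfl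
        have hnm : n = m := by
          have := hn.1; rw [e1] at this; exact_mod_cast this
        subst hnm
        have hfa : ∀ i < a, s i = (u, true) := by
          intro i hi
          rcases lt_or_ge i n with hin | hin
          · exact hf i hin
          · obtain ⟨j, rfl⟩ := Nat.exists_eq_add_of_le hin
            exact h2.1 j (by omega)
        refine ⟨hfa, fun i hi => ?_⟩
        obtain ⟨j, rfl⟩ := Nat.exists_eq_add_of_le (hna.trans hi)
        rw [zh_add, e1]
        rcases le_total j a with hj | hj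
        · rw [zh_forced h2.1 hj]
          exact_mod_cast hi
        · have := h2.2 j hj
          have : (0 : ℤ) ≤ n := Int.natCast_nonneg n
          linarith
      · -- impossible unless `m = a`
        have hf : ∀ i < a, s i = (u, true) := fun i hi => h3.1 i hi (lt_trans hi hna)
        have e1 : zh u s a = a := zh_forced hf le_rfl
        have e2 := hn.2 a hna
        rw [e1] at e2
        have : a < m := by exact_mod_cast e2
        omega
  · exact h1.2 fun n hn => hex ⟨n, hn⟩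

/-- seen natural at level `m` -/
def GG (u : Step d) (a m : ℕ) : Set (MPath d) := ⋃ k, {s | Hit u m k s ∧ Nt u a k s}

lemma measurableSet_GG (u : Step d) (a m : ℕ) : MeasurableSet (GG (d := d) u a m) :=
  MeasurableSet.iUnion fun k => ((det_Hit u m k).inter (det_Nt u a k)).measurableSet

lemma D0_diff_subset (u : Step d) (a m : ℕ) :
    D0 u a m \ Nat0 u a ⊆ GG u a m \ Nat0 u a := by
  rintro s ⟨h1, h2⟩
  refine ⟨?_, h2⟩
  by_cases hex : ∃ n, Hit u m n s
  · obtain ⟨n, hn⟩ := hex
    exact mem_iUnion.2 ⟨n, hn, h1.1 n hn⟩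
  · exact absurd (h1.2 fun n hn => hex ⟨n, hn⟩) h2

lemma GG_anti (u : Step d) (a : ℕ) : Antitone (GG (d := d) u a) := by
  refine antitone_nat_of_succ_le fun m s hs => ?_
  obtain ⟨k, h1, h2⟩ := mem_iUnion.1 hs
  obtain ⟨k', hk', h3, _⟩ := hit_split h1
  exact mem_iUnion.2 ⟨k', h3, nt_mono h2 hk'⟩

lemma iInter_GG (u : Step d) (a : ℕ) : ⋂ m, GG (d := d) u a m ⊆ Nat0 u a := by
  intro s hs
  refine nat_of_nt fun n => ?_
  obtain ⟨k, h1, h2⟩ := mem_iUnion.1 (mem_iInter.1 hs n)
  exact nt_mono h2 (le_of_hit h1)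

/-! ### freshness -/

variable {Q : Measure (Environment d)} [IsProbabilityMeasure Q] {κ : ℝ} {R : ℕ}

/-- all the sites read are at height `≥ R` -/
def RH (u : Step d) (R : ℕ) : Set (MPath d) := {s | ∀ i, (s i).2 = false → (R : ℤ) ≤ zh u s i}

/-- all the sites read before time `k` are at height `≥ R` -/
def RHB (u : Step d) (R k : ℕ) : Set (MPath d) :=
  {s | ∀ i < k, (s i).2 = false → (R : ℤ) ≤ zh u s i}

lemma cR_dirVec (u : Step d) (R : ℕ) : cR (B2d.dirVec u) R = R := by
  unfold cR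
  have : ∑ i, |B2d.dirVec u i| = 1 := by
    rw [Finset.sum_eq_single u.1]
    · rw [B2d.dirVec_apply, if_pos rfl]
      split_ifs <;> simp
    · intro j _ hj
      rw [B2d.dirVec_apply, if_neg hj, abs_zero]
    · intro h; exact absurd (Finset.mem_univ _) h
  rw [this, mul_one]

lemma sht_pos' (u : Step d) (x : Site d) (M : MPath d) (n : ℕ) :
    sht (B2d.dirVec u) (pos x M n) = sht (B2d.dirVec u) x + (zh u M n : ℝ) := by
  rw [sht_pos, hgt_eq]

lemma RH_subset (u : Step d) (R : ℕ) (y : Site d) :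
    RH u R ⊆ Rd {z | sht (B2d.dirVec u) y + R ≤ sht (B2d.dirVec u) z} y := by
  intro M hM i hf
  have := hM i hf
  change sht (B2d.dirVec u) y + R ≤ sht (B2d.dirVec u) (pos y M i)
  rw [sht_pos']
  have h2 : (R : ℝ) ≤ (zh u M i : ℝ) := by exact_mod_cast this
  linarith

lemma RHB_subset (u : Step d) (R k : ℕ) (y : Site d) :
    RHB u R k ⊆ RdB {z | sht (B2d.dirVec u) y + R ≤ sht (B2d.dirVec u) z} y k := by
  intro M hM i hi hf
  have := hM i hi hf
  change sht (B2d.dirVec u) y + R ≤ sht (B2d.dirVec u) (pos y M i)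
  rw [sht_pos']
  have h2 : (R : ℝ) ≤ (zh u M i : ℝ) := by exact_mod_cast this
  linarith

/-- product formula, determined future -/
theorem mkAnn_Cy_shift_det (hstat : ∀ z : Site d, MeasurePreserving (shiftEnv z) Q Q)
    (hR : IsFiniteRangeDependent Q R) {S T : Set (Site d)} (h : SepR R S T) (κ : ℝ)
    (x : Site d) (W : MPath d) (n : ℕ) (hW : W ∈ RdB S x n) {B : Set (MPath d)} {k : ℕ}
    (hB : Det k B) (hBT : B ⊆ RdB T (pos x W n) k) :
    mkAnn κ Q x (Cy W n ∩ Ren263.shift n ⁻¹' B) = mkAnn κ Q x (Cy W n) * mkAnn κ Q 0 B := by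
  rw [mkAnn_apply κ Q x ((measurableSet_Cy W n).inter (Ren263.measurable_shift n hB.measurableSet)),
    mkAnn_apply κ Q x (measurableSet_Cy W n), ← mkAnn_stat hstat κ (pos x W n),
    mkAnn_apply κ Q _ hB.measurableSet]
  simp only [markov_Cy κ _ x W n hB.measurableSet, mk_cyl]
  exact lintegral_mul_sep hR h (measurable_wgt κ x W n) (measurable_mk_apply κ _ hB.measurableSet)
    (fun _ _ hω => wgt_local κ hω hW) (fun _ _ hω => mk_local_det κ hω _ hB hBT)

lemma sepW (u : Step d) (R : ℕ) {W : MPath d} {n : ℕ} (hrec : ∀ i < n, zh u W i < zh u W n) :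
    SepR R {z | ∃ i < n, (W i).2 = false ∧ pos 0 W i = z}
      {z | sht (B2d.dirVec u) (pos 0 W n) + R ≤ sht (B2d.dirVec u) z} := by
  refine sep_of_height (B2d.dirVec u) R ?_
  rintro _ ⟨i, hi, _, rfl⟩ b hb
  have h2 : sht (B2d.dirVec u) (pos 0 W n) + R ≤ sht (B2d.dirVec u) b := hb
  rw [sht_pos', sht_zero] at h2 ⊢
  rw [cR_dirVec]
  have h1 : (zh u W i : ℝ) < (zh u W n : ℝ) := by exact_mod_cast hrec i hi
  linarith

/-- **freshness**: after a record time, a future reading only heights `≥ R` is independent -/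
theorem fresh (F : Frame Q κ R) (u : Step d) {n : ℕ} {A B : Set (MPath d)} (hA : Det n A)
    (hrec : ∀ s ∈ A, ∀ i < n, zh u s i < zh u s n) (hB : MeasurableSet B) (hBS : B ⊆ RH u R) :
    mkAnn κ Q 0 (A ∩ Ren263.shift n ⁻¹' B) = mkAnn κ Q 0 A * mkAnn κ Q 0 B := by
  have e := det_eq (Φ := (mkAnn κ Q 0).restrict (Ren263.shift n ⁻¹' B))
    (Ψ := (mkAnn κ Q 0 B) • mkAnn κ Q 0) hA ?_
  · rw [Measure.restrict_apply hA.measurableSet, Measure.smul_apply, smul_eq_mul, mul_comm] at e
    exact e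
  · intro W hW
    rw [Measure.restrict_apply (measurableSet_Cy W n), Measure.smul_apply, smul_eq_mul, mul_comm]
    exact mkAnn_Cy_shift F.stat F.fin (sepW u R (hrec W hW)) κ 0 W n
      (fun i hi hf => ⟨i, hi, hf, rfl⟩) hB (hBS.trans (RH_subset u R _))

/-- freshness, determined future -/
theorem fresh_det (F : Frame Q κ R) (u : Step d) {n k : ℕ} {A B : Set (MPath d)} (hA : Det n A)
    (hrec : ∀ s ∈ A, ∀ i < n, zh u s i < zh u s n) (hB : Det k B) (hBS : B ⊆ RHB u R k) :
    mkAnn κ Q 0 (A ∩ Ren263.shift n ⁻¹' B) = mkAnn κ Q 0 A * mkAnn κ Q 0 B := by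
  have e := det_eq (Φ := (mkAnn κ Q 0).restrict (Ren263.shift n ⁻¹' B))
    (Ψ := (mkAnn κ Q 0 B) • mkAnn κ Q 0) hA ?_
  · rw [Measure.restrict_apply hA.measurableSet, Measure.smul_apply, smul_eq_mul, mul_comm] at e
    exact e
  · intro W hW
    rw [Measure.restrict_apply (measurableSet_Cy W n), Measure.smul_apply, smul_eq_mul, mul_comm]
    exact mkAnn_Cy_shift_det F.stat F.fin (sepW u R (hrec W hW)) κ 0 W n
      (fun i hi hf => ⟨i, hi, hf, rfl⟩) hB (hBS.trans (RHB_subset u R k _))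

lemma nat_subset_RH (u : Step d) (R : ℕ) : Nat0 u R ⊆ RH u R := by
  intro s hs i hf
  rcases lt_or_ge i R with hi | hi
  · rw [hs.1 i hi] at hf; simp at hf
  · exact hs.2 i hi

lemma nt_subset_RHB (u : Step d) (R k : ℕ) : {s : MPath d | Nt u R k s} ⊆ RHB u R k := by
  intro s hs i hi hf
  rcases lt_or_ge i R with hiR | hiR
  · rw [hs.1 i hiR hi] at hf; simp at hf
  · exact hs.2 i hiR hi.le

/-- freshness for `GG` -/
lemma fresh_GG (F : Frame Q κ R) (u : Step d) {n : ℕ} {A : Set (MPath d)} (hA : Det n A)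
    (hrec : ∀ s ∈ A, ∀ i < n, zh u s i < zh u s n) (m : ℕ) :
    mkAnn κ Q 0 (A ∩ Ren263.shift n ⁻¹' (GG u R m)) = mkAnn κ Q 0 A * mkAnn κ Q 0 (GG u R m) := by
  have hdisj : Pairwise (Function.onFun Disjoint
      fun k => {s : MPath d | Hit u m k s ∧ Nt u R k s}) := by
    intro k k' hkk
    refine Set.disjoint_left.2 fun s h1 h2 => hkk (hit_unique h1.1 h2.1)
  have hm : ∀ k, MeasurableSet {s : MPath d | Hit u m k s ∧ Nt u R k s} := fun k =>
    ((det_Hit u m k).inter (det_Nt u R k)).measurableSet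
  have h1 : A ∩ Ren263.shift n ⁻¹' (GG u R m) =
      ⋃ k, A ∩ Ren263.shift n ⁻¹' {s : MPath d | Hit u m k s ∧ Nt u R k s} := by
    unfold GG
    rw [preimage_iUnion, inter_iUnion]
  rw [h1, measure_iUnion, GG, measure_iUnion hdisj hm, ← ENNReal.tsum_mul_left]
  · refine tsum_congr fun k => ?_
    refine fresh_det F u hA hrec ((det_Hit u m k).inter (det_Nt u R k)) ?_
    exact fun s hs => nt_subset_RHB u R k hs.2
  · intro k k' hkk
    exact ((hdisj hkk).preimage (Ren263.shift n)).mono inter_subset_right inter_subset_right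
  · intro k
    exact hA.measurableSet.inter (Ren263.measurable_shift n (hm k))

/-- freshness for the failures not seen at level `m` -/
lemma fresh_fail (F : Frame Q κ R) (u : Step d) {n : ℕ} {A : Set (MPath d)} (hA : Det n A)
    (hrec : ∀ s ∈ A, ∀ i < n, zh u s i < zh u s n) (m : ℕ) :
    mkAnn κ Q 0 (A ∩ Ren263.shift n ⁻¹' (GG u R m \ Nat0 u R)) =
      mkAnn κ Q 0 A * mkAnn κ Q 0 (GG u R m \ Nat0 u R) := by
  have hN := measurableSet_Nat0 (d := d) u R
  have hG := measurableSet_GG (d := d) u R m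
  have h1 := fresh_GG F u hA hrec m
  have h2 : mkAnn κ Q 0 (A ∩ Ren263.shift n ⁻¹' (GG u R m ∩ Nat0 u R)) =
      mkAnn κ Q 0 A * mkAnn κ Q 0 (GG u R m ∩ Nat0 u R) :=
    fresh F u hA hrec (hG.inter hN) (inter_subset_right.trans (nat_subset_RH u R))
  have h3 : mkAnn κ Q 0 (A ∩ Ren263.shift n ⁻¹' (GG u R m ∩ Nat0 u R)) +
      mkAnn κ Q 0 (A ∩ Ren263.shift n ⁻¹' (GG u R m \ Nat0 u R)) =
      mkAnn κ Q 0 (A ∩ Ren263.shift n ⁻¹' (GG u R m)) := by
    rw [← measure_inter_add_diff (A ∩ Ren263.shift n ⁻¹' (GG u R m)) (Ren263.measurable_shift n hN)]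
    congr 1
    · congr 1
      ext s; simp only [mem_inter_iff, mem_preimage]; tauto
    · congr 1
      ext s; simp only [mem_inter_iff, mem_preimage, mem_diff]; tauto
  have h4 : mkAnn κ Q 0 (GG u R m ∩ Nat0 u R) + mkAnn κ Q 0 (GG u R m \ Nat0 u R) =
      mkAnn κ Q 0 (GG u R m) := measure_inter_add_diff _ hN
  rw [h1, ← h4, mul_add, h2] at h3
  exact (ENNReal.add_right_inj (ENNReal.mul_ne_top (measure_ne_top _ _) (measure_ne_top _ _))).1 h3


/-- almost surely a natural path hits every level -/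
lemma nat_hit (F : Frame Q κ R) (u : Step d) (l : ℕ) :
    mkAnn κ Q 0 (Nat0 u R ∩ {s | ∀ n, ¬ Hit u l n s}) = 0 := by
  have h := F.hT (B2d.dirVec u) (B2d.dirVec_ne_zero u)
  rw [ae_iff] at h
  refine measure_mono_null ?_ h
  rintro s ⟨h1, h2⟩ h3
  obtain ⟨n, hn⟩ := h3 (nat_subset_stay u R h1) l
  rw [hgt_eq] at hn
  obtain ⟨k, _, hk⟩ := exists_hit (u := u) (l := l) (s := s) (N := n) (by exact_mod_cast hn)
  exact h2 k hk

/-- the pieces: past in `A`, natural up to the hit of level `l` at time `n` -/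
def XX (u : Step d) (a l n : ℕ) (A : Set (MPath d)) : Set (MPath d) :=
  {s | Nt u a n s} ∩ (A ∩ {s | Hit u l n s})

lemma det_XX {u : Step d} {a l : ℕ} {A : Set (MPath d)} (hA : MeasurableSet[Fl u l] A) (n : ℕ) :
    Det n (XX u a l n A) := (det_Nt u a n).inter ((mem_Fl.1 hA).2 n)

lemma XX_rec {u : Step d} {a l n : ℕ} {A : Set (MPath d)} {s : MPath d} (hs : s ∈ XX u a l n A)
    (i : ℕ) (hi : i < n) : zh u s i < zh u s n := by
  have := hs.2.2
  rw [this.1]
  exact this.2 i hi

lemma XX_disj (u : Step d) (a l : ℕ) (A : Set (MPath d)) :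
    Pairwise (Function.onFun Disjoint fun n => XX u a l n A) := by
  intro k k' hkk
  exact Set.disjoint_left.2 fun s h1 h2 => hkk (hit_unique h1.2.2 h2.2.2)

/-- total mass of the pieces -/
noncomputable def mX (κ : ℝ) (Q : Measure (Environment d)) (u : Step d) (a l : ℕ)
    (A : Set (MPath d)) : ℝ≥0∞ := ∑' n, mkAnn κ Q 0 (XX u a l n A)

lemma sum_fresh (F : Frame Q κ R) (u : Step d) {l : ℕ} {A : Set (MPath d)}
    (hA : MeasurableSet[Fl u l] A) {E : Set (MPath d)} (hE : MeasurableSet E)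
    (hf : ∀ n, mkAnn κ Q 0 (XX u R l n A ∩ Ren263.shift n ⁻¹' E) =
      mkAnn κ Q 0 (XX u R l n A) * mkAnn κ Q 0 E) :
    mkAnn κ Q 0 (⋃ n, XX u R l n A ∩ Ren263.shift n ⁻¹' E) = mX κ Q u R l A * mkAnn κ Q 0 E := by
  rw [measure_iUnion, mX, ← ENNReal.tsum_mul_right]
  · exact tsum_congr hf
  · intro k k' hkk
    exact (XX_disj u R l A hkk).mono inter_subset_left inter_subset_left
  · intro n
    exact (det_XX hA n).measurableSet.inter (Ren263.measurable_shift n hE)

/-- **key identity** -/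
theorem key (F : Frame Q κ R) (u : Step d) {l : ℕ} {A E : Set (MPath d)}
    (hA : MeasurableSet[Fl u l] A) (hE : MeasurableSet E) :
    mkAnn κ Q 0 (Nat0 u R ∩ (A ∩ th u l ⁻¹' (Nat0 u R ∩ E))) =
      mX κ Q u R l A * mkAnn κ Q 0 (Nat0 u R ∩ E) := by
  have hN := measurableSet_Nat0 (d := d) u R
  rw [← sum_fresh F u hA (hN.inter hE) (fun n => fresh F u (det_XX hA n) (fun s hs => XX_rec hs)
    (hN.inter hE) (inter_subset_left.trans (nat_subset_RH u R)))]
  apply le_antisymm
  · calc mkAnn κ Q 0 (Nat0 u R ∩ (A ∩ th u l ⁻¹' (Nat0 u R ∩ E)))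
        ≤ mkAnn κ Q 0 ((⋃ n, XX u R l n A ∩ Ren263.shift n ⁻¹' (Nat0 u R ∩ E)) ∪
          (Nat0 u R ∩ {s | ∀ n, ¬ Hit u l n s})) := by
          refine measure_mono ?_
          rintro s ⟨h1, h2, h3⟩
          by_cases hex : ∃ n, Hit u l n s
          · obtain ⟨n, hn⟩ := hex
            refine Or.inl (mem_iUnion.2 ⟨n, ⟨nt_of_nat h1 n, h2, hn⟩, ?_⟩)
            have h3' : th u l s ∈ Nat0 u R ∩ E := h3
            rw [th_eq hn] at h3'
            exact h3'
          · exact Or.inr ⟨h1, fun n hn => hex ⟨n, hn⟩⟩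
      _ ≤ _ := (measure_union_le _ _).trans (by rw [nat_hit F u l, add_zero])
  · refine measure_mono ?_
    intro s hs
    obtain ⟨n, ⟨h1, h2, h3⟩, h4⟩ := mem_iUnion.1 hs
    have h4' : Ren263.shift n s ∈ Nat0 u R ∩ E := h4
    have h3' : Hit u l n s := h3
    rw [← th_eq h3'] at h4'
    refine ⟨D0_inter (m := l) ⟨fun n' hn' => ?_, fun h => absurd h3' (h n)⟩ h4'.1, h2, h4'⟩
    rw [hit_unique hn' h3']; exact h1

lemma nat_inter_le (F : Frame Q κ R) (u : Step d) {l : ℕ} {A : Set (MPath d)}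
    (hA : MeasurableSet[Fl u l] A) :
    mkAnn κ Q 0 (Nat0 u R ∩ A) ≤ mX κ Q u R l A := by
  have h1 : mX κ Q u R l A = mkAnn κ Q 0 (⋃ n, XX u R l n A) := by
    rw [measure_iUnion (XX_disj u R l A) fun n => (det_XX hA n).measurableSet, mX]
  rw [h1]
  calc mkAnn κ Q 0 (Nat0 u R ∩ A)
      ≤ mkAnn κ Q 0 ((⋃ n, XX u R l n A) ∪ (Nat0 u R ∩ {s | ∀ n, ¬ Hit u l n s})) := by
        refine measure_mono ?_
        rintro s ⟨h1, h2⟩
        by_cases hex : ∃ n, Hit u l n s
        · obtain ⟨n, hn⟩ := hex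
          exact Or.inl (mem_iUnion.2 ⟨n, nt_of_nat h1 n, h2, hn⟩)
        · exact Or.inr ⟨h1, fun n hn => hex ⟨n, hn⟩⟩
    _ ≤ _ := (measure_union_le _ _).trans (by rw [nat_hit F u l, add_zero])

lemma fail_le (F : Frame Q κ R) (u : Step d) {l : ℕ} {A : Set (MPath d)}
    (hA : MeasurableSet[Fl u l] A) (m : ℕ) :
    mkAnn κ Q 0 (Nat0 u R ∩ (A ∩ th u l ⁻¹' (D0 u R m \ Nat0 u R))) ≤
      mX κ Q u R l A * mkAnn κ Q 0 (GG u R m \ Nat0 u R) := by
  have hN := measurableSet_Nat0 (d := d) u R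
  have hG := measurableSet_GG (d := d) u R m
  rw [← sum_fresh F u hA (hG.diff hN) (fun n => fresh_fail F u (det_XX hA n)
    (fun s hs => XX_rec hs) m)]
  calc mkAnn κ Q 0 (Nat0 u R ∩ (A ∩ th u l ⁻¹' (D0 u R m \ Nat0 u R)))
      ≤ mkAnn κ Q 0 ((⋃ n, XX u R l n A ∩ Ren263.shift n ⁻¹' (GG u R m \ Nat0 u R)) ∪
        (Nat0 u R ∩ {s | ∀ n, ¬ Hit u l n s})) := by
        refine measure_mono ?_
        rintro s ⟨h1, h2, h3⟩
        by_cases hex : ∃ n, Hit u l n s
        · obtain ⟨n, hn⟩ := hex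
          refine Or.inl (mem_iUnion.2 ⟨n, ⟨nt_of_nat h1 n, h2, hn⟩, ?_⟩)
          have h3' : th u l s ∈ D0 u R m \ Nat0 u R := h3
          rw [th_eq hn] at h3'
          exact D0_diff_subset u R m h3'
        · exact Or.inr ⟨h1, fun n hn => hex ⟨n, hn⟩⟩
    _ ≤ _ := (measure_union_le _ _).trans (by rw [nat_hit F u l, add_zero])

lemma tendsto_fail (κ : ℝ) (Q : Measure (Environment d)) [IsProbabilityMeasure Q] (u : Step d)
    (a : ℕ) : Tendsto (fun m => mkAnn κ Q 0 (GG u a m \ Nat0 u a)) atTop (𝓝 0) := by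
  have hN := measurableSet_Nat0 (d := d) u a
  have h := tendsto_measure_iInter_atTop (μ := mkAnn κ Q 0)
    (s := fun m => GG u a m \ Nat0 u a)
    (fun m => ((measurableSet_GG u a m).diff hN).nullMeasurableSet)
    (fun m m' hmm => diff_subset_diff_left (GG_anti u a hmm)) ⟨0, measure_ne_top _ _⟩
  have h2 : ⋂ m, (GG (d := d) u a m \ Nat0 u a) = ∅ := by
    rw [eq_empty_iff_forall_notMem]
    intro s hs
    rw [mem_iInter] at hs
    exact (hs 0).2 (iInter_GG u a (mem_iInter.2 fun m => (hs m).1))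
  rw [h2, measure_empty] at h
  exact h

/-! ### the law of the natural walk -/

/-- **law of the natural walk** -/
noncomputable def natLaw (κ : ℝ) (Q : Measure (Environment d)) (u : Step d) (a : ℕ) :
    Measure (MPath d) := (mkAnn κ Q 0)[|Nat0 u a]

lemma natLaw_apply (κ : ℝ) (Q : Measure (Environment d)) (u : Step d) (a : ℕ)
    (A : Set (MPath d)) :
    natLaw κ Q u a A = (mkAnn κ Q 0 (Nat0 u a))⁻¹ * mkAnn κ Q 0 (Nat0 u a ∩ A) :=
  cond_apply (measurableSet_Nat0 u a) _ _

lemma natLaw_isProb {u : Step d} (hc : mkAnn κ Q 0 (Nat0 u R) ≠ 0) : IsProbabilityMeasure (natLaw κ Q u R) :=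
  cond_isProbabilityMeasure hc

/-- the mass of the natural event, from `P(Stay)` -/
lemma nat_mass (F : Frame Q κ R) (u : Step d) :
    mkAnn κ Q 0 (Nat0 u R) =
      ENNReal.ofReal (kf d κ) ^ R * mkAnn κ Q 0 (Ren263.Stay (mht (B2d.dirVec u))) := by
  set V : MPath d := fun _ => (u, true) with hV
  have h1 : Nat0 u R = Cy V R ∩ Ren263.shift R ⁻¹' (Ren263.Stay (mht (B2d.dirVec u))) := by
    ext s
    simp only [Nat0, mem_setOf_eq, mem_inter_iff, Cy, mem_preimage, hV]
    refine and_congr_right fun hf => ?_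
    have e := zh_forced hf le_rfl
    constructor
    · intro h n
      rw [hgt_eq]
      have := h (R + n) (by omega)
      rw [zh_add, e] at this
      exact_mod_cast (by linarith : (0 : ℤ) ≤ zh u (Ren263.shift R s) n)
    · intro h i hi
      obtain ⟨n, rfl⟩ := Nat.exists_eq_add_of_le hi
      have := h n
      rw [hgt_eq] at this
      have h2 : (0 : ℤ) ≤ zh u (Ren263.shift R s) n := by exact_mod_cast this
      rw [zh_add, e]
      linarith
  rw [h1, renewal_gen F.stat F.fin κ (B2d.dirVec u) (det_Cy V R) ?_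
    (Ren263.measurableSet_Stay _) le_rfl]
  · congr 1
    have := climb_prob Q κ u R 0 (Det.univ 0)
    simp only [univ_inter, Nat.zero_add, measure_univ, mul_one] at this
    exact this
  · intro s hs i hi hf
    rw [hs i hi] at hf
    simp [hV] at hf

/-! ### aperiodicity -/

/-- the flag of the free letters: forced if coins exist -/
noncomputable def fb (d : ℕ) (κ : ℝ) : Bool := open Classical in if 0 < kf d κ then true else false

/-- the three steps -/
def eB (u : Step d) (i1 i2 : Fin d) : Fin 3 → Step d := ![u, (i1, true), (i2, true)]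

/-- the three words: `a` forced steps up, the step `eB j`, then up -/
noncomputable def wB (κ : ℝ) (u : Step d) (i1 i2 : Fin d) (a : ℕ) (j : Fin 3) : MPath d :=
  fun i => if i < a then (u, true) else if i = a then (eB u i1 i2 j, fb d κ) else (u, fb d κ)

/-- their lengths -/
def nB (a : ℕ) : Fin 3 → ℕ := ![a + 1, a + 2, a + 2]

lemma wB_lt {κ : ℝ} {u : Step d} {i1 i2 : Fin d} {a : ℕ} {j : Fin 3} {i : ℕ} (hi : i < a) :
    wB κ u i1 i2 a j i = (u, true) := by simp [wB, hi]

lemma zh_wB_le {κ : ℝ} {u : Step d} {i1 i2 : Fin d} {a : ℕ} {j : Fin 3} {i : ℕ} (hi : i ≤ a) :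
    zh u (wB κ u i1 i2 a j) i = i :=
  zh_forced (a := a) (fun _ h => wB_lt h) hi

lemma wB_a (κ : ℝ) (u : Step d) (i1 i2 : Fin d) (a : ℕ) (j : Fin 3) :
    wB κ u i1 i2 a j a = (eB u i1 i2 j, fb d κ) := by simp [wB]

lemma wB_a1 (κ : ℝ) (u : Step d) (i1 i2 : Fin d) (a : ℕ) (j : Fin 3) :
    wB κ u i1 i2 a j (a + 1) = (u, fb d κ) := by simp [wB]

lemma zht_lat {u : Step d} {i : Fin d} (hi : i ≠ u.1) (b c : Bool) : zht u ((i, b), c) = 0 := by
  simp [zht, hi]

lemma hit_wB (κ : ℝ) {u : Step d} {i1 i2 : Fin d} (h1 : i1 ≠ u.1) (h2 : i2 ≠ u.1) (a : ℕ)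
    (j : Fin 3) : Hit u (a + 1) (nB a j) (wB κ u i1 i2 a j) := by
  have ea : ∀ j, zh u (wB κ u i1 i2 a j) a = a := fun j => zh_wB_le le_rfl
  fin_cases j
  · refine ⟨?_, fun i hi => ?_⟩
    · change zh u _ (a + 1) = _
      rw [zh_succ, ea, wB_a]
      change (a : ℤ) + zht u (u, _) = _
      rw [zht_up]; push_cast; ring
    · have hi' : i < a + 1 := hi
      rw [zh_wB_le (by omega)]
      exact_mod_cast hi'
  · have e1 : zh u (wB κ u i1 i2 a 1) (a + 1) = a := by
      rw [zh_succ, ea, wB_a]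
      change (a : ℤ) + zht u ((i1, true), _) = _
      rw [zht_lat h1, add_zero]
    refine ⟨?_, fun i hi => ?_⟩
    · change zh u (wB κ u i1 i2 a 1) (a + 1 + 1) = _
      rw [zh_succ, e1, wB_a1, zht_up]; push_cast; ring
    · have hi' : i < a + 2 := hi
      rcases Nat.lt_or_ge i (a + 1) with h | h
      · rw [zh_wB_le (by omega)]
        exact_mod_cast h
      · have : i = a + 1 := by omega
        subst this
        change zh u (wB κ u i1 i2 a 1) (a + 1) < _
        rw [e1]; push_cast; linarith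
  · have e1 : zh u (wB κ u i1 i2 a 2) (a + 1) = a := by
      rw [zh_succ, ea, wB_a]
      change (a : ℤ) + zht u ((i2, true), _) = _
      rw [zht_lat h2, add_zero]
    refine ⟨?_, fun i hi => ?_⟩
    · change zh u (wB κ u i1 i2 a 2) (a + 1 + 1) = _
      rw [zh_succ, e1, wB_a1, zht_up]; push_cast; ring
    · have hi' : i < a + 2 := hi
      rcases Nat.lt_or_ge i (a + 1) with h | h
      · rw [zh_wB_le (by omega)]
        exact_mod_cast h
      · have : i = a + 1 := by omega
        subst this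
        change zh u (wB κ u i1 i2 a 2) (a + 1) < _
        rw [e1]; push_cast; linarith

lemma nt_wB (κ : ℝ) {u : Step d} {i1 i2 : Fin d} (h1 : i1 ≠ u.1) (h2 : i2 ≠ u.1) (a : ℕ)
    (j : Fin 3) : Nt u a (nB a j) (wB κ u i1 i2 a j) := by
  refine ⟨fun i hi _ => wB_lt hi, fun i hi hin => ?_⟩
  have ea : zh u (wB κ u i1 i2 a j) a = a := zh_wB_le le_rfl
  have hstep : ∀ k, 0 ≤ zht u (wB κ u i1 i2 a j k) := by
    intro k
    rcases lt_trichotomy k a with hk | hk | hk
    · rw [wB_lt hk, zht_up]; norm_num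
    · subst hk
      rw [wB_a]
      fin_cases j
      · change 0 ≤ zht u (u, _); rw [zht_up]; norm_num
      · change 0 ≤ zht u ((i1, true), _); rw [zht_lat h1]
      · change 0 ≤ zht u ((i2, true), _); rw [zht_lat h2]
    · have : wB κ u i1 i2 a j k = (u, fb d κ) := by
        unfold wB
        rw [if_neg (by omega), if_neg (by omega)]
      rw [this, zht_up]; norm_num
  obtain ⟨k, rfl⟩ := Nat.exists_eq_add_of_le hi
  rw [zh_add, ea]
  have : 0 ≤ zh u (Ren263.shift a (wB κ u i1 i2 a j)) k := by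
    unfold zh
    exact Finset.sum_nonneg fun i _ => hstep (a + i)
  linarith

lemma a_lt_nB (a : ℕ) (j : Fin 3) : a < nB a j := by
  fin_cases j <;> simp [nB]

lemma lat_wB (κ : ℝ) {u : Step d} {i1 i2 : Fin d} (h1 : i1 ≠ u.1) (h2 : i2 ≠ u.1) (h12 : i1 ≠ i2)
    (a : ℕ) (j : Fin 3) : lat i1 i2 (pos 0 (wB κ u i1 i2 a j) (nB a j)) = B4.vv j := by
  have hu1 : (stepVec u : Site d) i1 = 0 := by
    unfold stepVec; rw [Pi.single_eq_of_ne h1]
  have hu2 : (stepVec u : Site d) i2 = 0 := by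
    unfold stepVec; rw [Pi.single_eq_of_ne h2]
  have hup : ∀ b : Bool, lat i1 i2 (stp ((u, b) : Mark d)) = 0 := by
    intro b
    unfold lat stp
    ext i
    fin_cases i
    · simp [hu1]
    · simp [hu2]
  have hpa : ∀ k ≤ a, lat i1 i2 (pos 0 (wB κ u i1 i2 a j) k) = 0 := by
    intro k
    induction k with
    | zero => intro _; rw [pos_zero, lat_zero]
    | succ k ih =>
      intro hk
      rw [pos_succ, lat_add, ih (by omega), wB_lt (by omega), hup, add_zero]
  have ea := hpa a le_rfl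
  have e1 : lat i1 i2 (stp (((i1, true), fb d κ) : Mark d)) = B4.vv 1 := by
    unfold lat stp stepVec B4.vv
    ext i
    fin_cases i
    · simp
    · simp [Pi.single_eq_of_ne h12.symm]
  have e2 : lat i1 i2 (stp (((i2, true), fb d κ) : Mark d)) = B4.vv 2 := by
    unfold lat stp stepVec B4.vv
    ext i
    fin_cases i
    · simp [Pi.single_eq_of_ne h12]
    · simp
  fin_cases j
  · change lat i1 i2 (pos 0 _ (a + 1)) = _
    rw [pos_succ, lat_add, ea, wB_a]
    change 0 + lat i1 i2 (stp (u, _)) = _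
    rw [hup, add_zero]
    unfold B4.vv
    ext i
    fin_cases i <;> simp
  · change lat i1 i2 (pos 0 _ (a + 1 + 1)) = _
    rw [pos_succ, lat_add, pos_succ, lat_add, ea, wB_a, wB_a1, hup, add_zero, zero_add]
    exact e1
  · change lat i1 i2 (pos 0 _ (a + 1 + 1)) = _
    rw [pos_succ, lat_add, pos_succ, lat_add, ea, wB_a, wB_a1, hup, add_zero, zero_add]
    exact e2

/-- words with allowed letters have positive annealed weight -/
lemma cy_pos (F : Frame Q κ R) (W : MPath d) (n : ℕ)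
    (hW : ∀ i < n, ((W i).2 = true ∧ 0 < kf d κ) ∨ ((W i).2 = false ∧ kf d κ = 0)) :
    mkAnn κ Q 0 (Cy W n) ≠ 0 := by
  rw [mkAnn_apply κ Q 0 (measurableSet_Cy W n)]
  simp only [mk_cyl]
  intro h
  rw [lintegral_eq_zero_iff (measurable_wgt κ 0 W n)] at h
  have hpos : ∀ᵐ ω ∂Q, wgt κ ω 0 W n ≠ 0 := by
    filter_upwards [F.ell, F.elp] with ω h1 h2
    unfold wgt
    rw [Finset.prod_ne_zero_iff]
    intro i hi
    rcases hW i (Finset.mem_range.1 hi) with ⟨e1, e2⟩ | ⟨e1, e2⟩
    · unfold mw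
      rw [e1, if_pos rfl]
      simpa using e2
    · unfold mw
      rw [e1, e2, reg_eq (h1 _)]
      simp only [Bool.false_eq_true, if_false, sub_zero]
      simpa using h2 _ _
  obtain ⟨ω, h1, h2⟩ := (h.and hpos).exists
  exact h2 h1

lemma fb_spec (d : ℕ) (κ : ℝ) : (fb d κ = true ∧ 0 < kf d κ) ∨ (fb d κ = false ∧ kf d κ = 0) := by
  unfold fb
  by_cases h : 0 < kf d κ
  · rw [if_pos h]; exact Or.inl ⟨rfl, h⟩
  · rw [if_neg h]
    exact Or.inr ⟨rfl, le_antisymm (not_lt.1 h) (kf_nonneg κ)⟩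

lemma cy_wB_pos (F : Frame Q κ R) (u : Step d) (i1 i2 : Fin d) (j : Fin 3) (n : ℕ) :
    mkAnn κ Q 0 (Cy (wB κ u i1 i2 R j) n) ≠ 0 := by
  refine cy_pos F _ _ fun i _ => ?_
  unfold wB
  split_ifs with h1 h2
  · refine Or.inl ⟨rfl, F.frc.resolve_left ?_⟩
    omega
  · exact fb_spec d κ
  · exact fb_spec d κ

lemma cy_wB_meas (κ : ℝ) {u : Step d} {i1 i2 : Fin d} (h1 : i1 ≠ u.1) (h2 : i2 ≠ u.1) (a : ℕ)
    (j : Fin 3) : MeasurableSet[Fl u (a + 1)] (Cy (wB κ u i1 i2 a j) (nB a j)) := by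
  rw [mem_Fl]
  refine ⟨measurableSet_Cy _ _, fun n => ?_⟩
  have hH : ∀ s ∈ Cy (wB κ u i1 i2 a j) (nB a j), Hit u (a + 1) (nB a j) s := fun s hs =>
    (det_Hit u (a + 1) (nB a j) s _ hs).2 (hit_wB κ h1 h2 a j)
  by_cases hn : n = nB a j
  · subst hn
    exact (det_Cy _ _).inter (det_Hit u (a + 1) _)
  · have : Cy (wB κ u i1 i2 a j) (nB a j) ∩ {s | Hit u (a + 1) n s} = ∅ := by
      rw [eq_empty_iff_forall_notMem]
      rintro s ⟨hs, hs2⟩
      exact hn (hit_unique hs2 (hH s hs))
    rw [this]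
    intro s s' _
    simp

/-- **THE INSTANCE**: the natural marked walk is a level process. -/
noncomputable def lp (F : Frame Q κ R) (u : Step d) {i1 i2 : Fin d} (h1 : i1 ≠ u.1)
    (h2 : i2 ≠ u.1) (h12 : i1 ≠ i2) (hc : mkAnn κ Q 0 (Nat0 u R) ≠ 0) :
    B4.LP (natLaw κ Q u R) where
  F := Fl u
  F_le _ := fun _ hA => hA.1
  F_mono h := Fl_mono u h
  θ := th u
  θ_meas := measurable_th u
  θ_add l m ω := th_add u l m ω
  U := UU u i1 i2
  U_meas := UU_meas u i1 i2
  U_add l m ω := UU_add u i1 i2 l m ω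
  U_zero ω := by simp [UU]
  C l := th u l ⁻¹' (Nat0 u R)
  C_meas l := measurable_th u l (measurableSet_Nat0 u R)
  C_add l m ω := by simp only [mem_preimage, th_add]
  C_zero := by
    have h : ∀ᵐ ω ∂(natLaw κ Q u R), ω ∈ Nat0 u R :=
      ProbabilityTheory.ae_cond_mem (measurableSet_Nat0 u R)
    exact h
  D l m := th u l ⁻¹' (D0 u R m)
  D_meas l m := by
    rw [mem_Fl]
    refine ⟨measurable_th u l (measurableSet_D0 u R m), fun N => ?_⟩
    have : th u l ⁻¹' (D0 u R m) ∩ {s | Hit u (l + m) N s} =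
        {s | ∃ k ≤ N, Hit u l k s ∧ (Nt u R (N - k) (Ren263.shift k s) ∧
          Hit u m (N - k) (Ren263.shift k s))} := by
      ext s
      simp only [mem_inter_iff, mem_preimage, mem_setOf_eq]
      constructor
      · rintro ⟨e1, e2⟩
        obtain ⟨k, hk, e3, e4⟩ := hit_split e2
        rw [th_eq e3] at e1
        exact ⟨k, hk, e3, e1.1 _ e4, e4⟩
      · rintro ⟨k, hk, e3, e1, e4⟩
        refine ⟨?_, ?_⟩
        · rw [th_eq e3]
          refine ⟨fun n hn => ?_, fun h => absurd e4 (h _)⟩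
          rw [hit_unique hn e4]; exact e1
        · have := hit_comp e3 e4
          rwa [Nat.add_sub_cancel' hk] at this
    rw [this]
    exact det_split u l N (fun k s => Nt u R (N - k) s ∧ Hit u m (N - k) s)
      fun k _ => (det_Nt u R (N - k)).inter (det_Hit u m (N - k))
  C_sub_D l m := preimage_mono (nat_subset_D0 u R m)
  D_inter l m := by
    rintro s ⟨e1, e2⟩
    have e2' : th u (l + m) s ∈ Nat0 u R := e2
    rw [th_add] at e2'
    exact D0_inter e1 e2'
  ren l A B hA hB := by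
    have hN := measurableSet_Nat0 (d := d) u R
    have k1 := key F u hA hB
    have k2 := key F u hA (E := univ) MeasurableSet.univ
    rw [inter_univ] at k2
    rw [natLaw_apply, natLaw_apply, natLaw_apply]
    have e1 : Nat0 u R ∩ (A ∩ th u l ⁻¹' (Nat0 u R) ∩ th u l ⁻¹' B) =
        Nat0 u R ∩ (A ∩ th u l ⁻¹' (Nat0 u R ∩ B)) := by
      ext s; simp only [mem_inter_iff, mem_preimage]; tauto
    have e2 : (mkAnn κ Q 0 (Nat0 u R))⁻¹ * mkAnn κ Q 0 (Nat0 u R) = 1 :=
      ENNReal.inv_mul_cancel hc (measure_ne_top _ _)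
    rw [e1, k1, k2]
    calc (mkAnn κ Q 0 (Nat0 u R))⁻¹ * (mX κ Q u R l A * mkAnn κ Q 0 (Nat0 u R ∩ B))
        = ((mkAnn κ Q 0 (Nat0 u R))⁻¹ * mkAnn κ Q 0 (Nat0 u R)) *
          ((mkAnn κ Q 0 (Nat0 u R))⁻¹ * (mX κ Q u R l A * mkAnn κ Q 0 (Nat0 u R ∩ B))) := by
          rw [e2, one_mul]
      _ = _ := by ring
  p := (mkAnn κ Q 0 (Nat0 u R)).toReal
  p_pos := ENNReal.toReal_pos hc (measure_ne_top _ _)
  cut l A hA := by
    have k2 := key F u hA (E := univ) MeasurableSet.univ
    rw [inter_univ] at k2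
    rw [natLaw_apply, natLaw_apply, k2, ENNReal.ofReal_toReal (measure_ne_top _ _), ← mul_assoc,
      ENNReal.mul_inv_cancel hc (measure_ne_top _ _), one_mul, mul_comm (mX κ Q u R l A),
      ← mul_assoc, ENNReal.inv_mul_cancel hc (measure_ne_top _ _), one_mul]
    exact nat_inter_le F u hA
  e m := ((mkAnn κ Q 0 (Nat0 u R))⁻¹ * mkAnn κ Q 0 (GG u R m \ Nat0 u R)).toReal
  e_nonneg _ := ENNReal.toReal_nonneg
  e_tendsto := by
    have h := (ENNReal.Tendsto.const_mul (a := (mkAnn κ Q 0 (Nat0 u R))⁻¹)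
      (tendsto_fail κ Q u R) (Or.inr (ENNReal.inv_ne_top.2 hc)))
    rw [mul_zero] at h
    have h2 := (ENNReal.tendsto_toReal ENNReal.zero_ne_top).comp h
    rw [ENNReal.toReal_zero] at h2
    exact h2
  det l m A hA := by
    have k2 := key F u hA (E := univ) MeasurableSet.univ
    rw [inter_univ] at k2
    have hfin : (mkAnn κ Q 0 (Nat0 u R))⁻¹ * mkAnn κ Q 0 (GG u R m \ Nat0 u R) ≠ ∞ :=
      ENNReal.mul_ne_top (ENNReal.inv_ne_top.2 hc) (measure_ne_top _ _)
    rw [ENNReal.ofReal_toReal hfin, natLaw_apply]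
    have hle : mX κ Q u R l A ≤ natLaw κ Q u R A := by
      calc mX κ Q u R l A = (mkAnn κ Q 0 (Nat0 u R))⁻¹ *
            (mX κ Q u R l A * mkAnn κ Q 0 (Nat0 u R)) := by
            rw [mul_comm (mX κ Q u R l A), ← mul_assoc,
              ENNReal.inv_mul_cancel hc (measure_ne_top _ _), one_mul]
        _ = natLaw κ Q u R (A ∩ th u l ⁻¹' (Nat0 u R)) := by rw [natLaw_apply, k2]
        _ ≤ _ := measure_mono inter_subset_left
    have e1 : Nat0 u R ∩ (A ∩ (th u l ⁻¹' (D0 u R m) \ th u l ⁻¹' (Nat0 u R))) =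
        Nat0 u R ∩ (A ∩ th u l ⁻¹' (D0 u R m \ Nat0 u R)) := by
      ext s; simp only [mem_inter_iff, mem_preimage, mem_diff]
    rw [e1, mul_assoc]
    refine mul_le_mul_right ?_ _
    refine (fail_le F u hA m).trans ?_
    rw [mul_comm]
    exact mul_le_mul_right hle _
  m0 := R + 1
  m0_pos := Nat.succ_pos R
  B j := Cy (wB κ u i1 i2 R j) (nB R j)
  B_meas j := cy_wB_meas κ h1 h2 R j
  B_disj i j hij := by
    refine Set.disjoint_left.2 fun s hi hj => hij ?_
    have e1 := hi R (a_lt_nB R i)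
    have e2 := hj R (a_lt_nB R j)
    rw [wB_a] at e1 e2
    rw [e1] at e2
    have e3 : eB u i1 i2 i = eB u i1 i2 j := congrArg Prod.fst e2
    have e4 : (eB u i1 i2 i).1 = (eB u i1 i2 j).1 := congrArg Prod.fst e3
    fin_cases i <;> fin_cases j <;> first | rfl | (exfalso; simp [eB] at e4; tauto)
  B_val j s hs := by
    have hH : Hit u (R + 1) (nB R j) s :=
      (det_Hit u (R + 1) (nB R j) s _ hs).2 (hit_wB κ h1 h2 R j)
    rw [(hit_eq i1 i2 hH).2, pos_congr 0 hs le_rfl, lat_wB κ h1 h2 h12]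
  B_pos j := by
    have hA := cy_wB_meas κ h1 h2 R j
    have k2 := key F u hA (E := univ) MeasurableSet.univ
    rw [inter_univ] at k2
    rw [natLaw_apply, k2]
    have hsub : Cy (wB κ u i1 i2 R j) (nB R j) ⊆
        XX u R (R + 1) (nB R j) (Cy (wB κ u i1 i2 R j) (nB R j)) := by
      intro s hs
      exact ⟨(det_Nt u R (nB R j) s _ hs).2 (nt_wB κ h1 h2 R j), hs,
        (det_Hit u (R + 1) (nB R j) s _ hs).2 (hit_wB κ h1 h2 R j)⟩
    have hm : mX κ Q u R (R + 1) (Cy (wB κ u i1 i2 R j) (nB R j)) ≠ 0 := by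
      intro h
      unfold mX at h
      rw [ENNReal.tsum_eq_zero] at h
      exact cy_wB_pos F u i1 i2 j (nB R j) (measure_mono_null hsub (h (nB R j)))
    refine pos_iff_ne_zero.2 (mul_ne_zero ?_ (mul_ne_zero hm hc))
    exact ENNReal.inv_ne_zero.2 (measure_ne_top _ _)

/-- the natural event has positive probability as soon as the walk escapes with positive probability -/
theorem nat_ne_zero (F : Frame Q κ R) (u : Step d)
    (h : annealedProb Q 0 (escapeEvent (B2d.dirVec u)) ≠ 0) : mkAnn κ Q 0 (Nat0 u R) ≠ 0 := by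
  rw [nat_mass F u]
  refine mul_ne_zero ?_ (F.hp _ h)
  rcases F.frc with h0 | h0
  · subst h0; simp
  · exact pow_ne_zero _ (by simpa using h0)

@[simp] lemma lp_U (F : Frame Q κ R) (u : Step d) {i1 i2 : Fin d} (h1 : i1 ≠ u.1)
    (h2 : i2 ≠ u.1) (h12 : i1 ≠ i2) (hc : mkAnn κ Q 0 (Nat0 u R) ≠ 0) :
    (lp F u h1 h2 h12 hc).U = UU u i1 i2 := rfl

end Crest.Agent.R154.B4Inst797
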