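import Crest.Agent.R154.B4LP_573

/-! Row 154, B4 route II, (S): soft facts for a level process: `LP.cutTight`, `LP.t0`, `LP.t1`,
`LP.ann`. -/

set_option autoImplicit false

namespace Crest.Agent.R154.B4

open MeasureTheory ProbabilityTheory Filter
open scoped ENNReal Topology

variable {Ω : Type*} [mΩ : MeasurableSpace Ω] {P : Measure Ω}

namespace LP

/-! ### Elementary consequences -/

theorem p_le_one [IsProbabilityMeasure P] (L : LP P) : L.p ≤ 1 := by
  have h := L.cut 0 Set.univ MeasurableSet.univ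
  have h2 : P (Set.univ ∩ L.C 0) ≤ 1 := prob_le_one
  have h3 : ENNReal.ofReal L.p ≤ 1 := by
    have := h.trans h2
    simpa using this
  simpa using h3

theorem meas_F (L : LP P) {l m : ℕ} (h : l ≤ m) {A : Set Ω} (hA : MeasurableSet[L.F l] A) :
    MeasurableSet[L.F m] A := L.F_mono h A hA

theorem meas_top (L : LP P) {l : ℕ} {A : Set Ω} (hA : MeasurableSet[L.F l] A) :
    MeasurableSet A := L.F_le l A hA

/-- real form of `cut` -/
theorem cut_real [IsProbabilityMeasure P] (L : LP P) (l : ℕ) {A : Set Ω}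
    (hA : MeasurableSet[L.F l] A) : L.p * P.real A ≤ P.real (A ∩ L.C l) := by
  have h := L.cut l A hA
  have h2 := ENNReal.toReal_mono (measure_ne_top P _) h
  rw [ENNReal.toReal_mul, ENNReal.toReal_ofReal L.p_pos.le] at h2
  exact h2

theorem det_real [IsProbabilityMeasure P] (L : LP P) (l m : ℕ) {A : Set Ω}
    (hA : MeasurableSet[L.F l] A) : P.real (A ∩ (L.D l m \ L.C l)) ≤ L.e m * P.real A := by
  have h := L.det l m A hA
  have h2 := ENNReal.toReal_mono (by finiteness) h
  rw [ENNReal.toReal_mul, ENNReal.toReal_ofReal (L.e_nonneg m)] at h2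
  exact h2

theorem ren_real [IsProbabilityMeasure P] (L : LP P) (l : ℕ) {B : Set Ω} (hB : MeasurableSet B) :
    P.real (L.C l ∩ L.θ l ⁻¹' B) ≤ P.real B := by
  have h := L.ren l Set.univ B MeasurableSet.univ hB
  simp only [Set.univ_inter] at h
  rw [measureReal_def, measureReal_def, h, ENNReal.toReal_mul]
  have : (P (L.C l)).toReal ≤ 1 := by
    have := measureReal_le_one (μ := P) (s := L.C l)
    exact this
  calc (P (L.C l)).toReal * (P B).toReal ≤ 1 * (P B).toReal :=
        mul_le_mul_of_nonneg_right this ENNReal.toReal_nonneg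
    _ = _ := one_mul _

theorem U_measurable (L : LP P) (l : ℕ) : Measurable (L.U l) :=
  (L.U_meas l).mono (L.F_le l) le_rfl

/-- failures seen so far, for attempts at the levels `l, l + s, …, l + (k - 1) s` -/
def Af (L : LP P) (l s k : ℕ) : Set Ω := {ω | ∀ i, i < k → ω ∉ L.D (l + i * s) s}

theorem Af_zero (L : LP P) (l s : ℕ) : L.Af l s 0 = Set.univ := by
  ext ω; simp [Af]

theorem Af_succ (L : LP P) (l s k : ℕ) :
    L.Af l s (k + 1) = L.Af l s k \ L.D (l + k * s) s := by
  ext ω
  simp only [Af, Set.mem_setOf_eq, Set.mem_diff]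
  constructor
  · intro h
    exact ⟨fun i hi => h i (by omega), h k (by omega)⟩
  · rintro ⟨h1, h2⟩ i hi
    rcases Nat.lt_succ_iff_lt_or_eq.1 hi with h | h
    · exact h1 i h
    · subst h; exact h2

theorem meas_Af (L : LP P) (l s k : ℕ) : MeasurableSet[L.F (l + k * s)] (L.Af l s k) := by
  induction k with
  | zero => rw [Af_zero]; exact MeasurableSet.univ
  | succ k ih =>
    rw [Af_succ]
    have h1 : MeasurableSet[L.F (l + (k + 1) * s)] (L.Af l s k) :=
      L.meas_F (by rw [Nat.succ_mul]; omega) ih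
    have h2 : MeasurableSet[L.F (l + (k + 1) * s)] (L.D (l + k * s) s) := by
      have := L.D_meas (l + k * s) s
      have e : l + k * s + s = l + (k + 1) * s := by rw [Nat.succ_mul]; omega
      rw [e] at this
      exact this
    exact h1.diff h2

theorem Af_le [IsProbabilityMeasure P] (L : LP P) (l s k : ℕ) :
    P.real (L.Af l s k) ≤ (1 - L.p) ^ k := by
  induction k with
  | zero => simp [Af_zero]
  | succ k ih =>
    have hp := L.p_le_one
    have hA := L.meas_Af l s k
    have h1 : P.real (L.Af l s (k + 1)) ≤ P.real (L.Af l s k \ L.C (l + k * s)) := by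
      apply measureReal_mono _ (measure_ne_top _ _)
      rw [Af_succ]
      intro ω hω
      exact ⟨hω.1, fun h => hω.2 (L.C_sub_D _ _ h)⟩
    have h2 : P.real (L.Af l s k \ L.C (l + k * s)) =
        P.real (L.Af l s k) - P.real (L.Af l s k ∩ L.C (l + k * s)) := by
      have := measureReal_inter_add_diff (μ := P) (s := L.Af l s k)
        (L.C_meas (l + k * s)) (measure_ne_top _ _)
      linarith
    have h3 := L.cut_real (l + k * s) hA
    have h4 : P.real (L.Af l s (k + 1)) ≤ (1 - L.p) * P.real (L.Af l s k) := by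
      rw [h2] at h1; linarith
    calc P.real (L.Af l s (k + 1)) ≤ (1 - L.p) * P.real (L.Af l s k) := h4
      _ ≤ (1 - L.p) * (1 - L.p) ^ k := mul_le_mul_of_nonneg_left ih (by linarith)
      _ = _ := by ring

/-- No cut level among `l, l + s, …, l + (k - 1) s`. -/
theorem noCut_le [IsProbabilityMeasure P] (L : LP P) (l s k : ℕ) :
    P.real {ω | ∀ i, i < k → ω ∉ L.C (l + i * s)} ≤ (1 - L.p) ^ k + k * L.e s := by
  have hsub : {ω | ∀ i, i < k → ω ∉ L.C (l + i * s)} ⊆
      L.Af l s k ∪ ⋃ i ∈ Finset.range k, (Set.univ ∩ (L.D (l + i * s) s \ L.C (l + i * s))) := by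
    intro ω hω
    by_cases h : ω ∈ L.Af l s k
    · exact Or.inl h
    · right
      simp only [Af, Set.mem_setOf_eq, not_forall, not_not] at h
      obtain ⟨i, hi, hD⟩ := h
      simp only [Set.mem_iUnion, Finset.mem_range]
      exact ⟨i, hi, Set.mem_univ _, hD, hω i hi⟩
  calc P.real {ω | ∀ i, i < k → ω ∉ L.C (l + i * s)}
      ≤ P.real (L.Af l s k ∪ ⋃ i ∈ Finset.range k,
          (Set.univ ∩ (L.D (l + i * s) s \ L.C (l + i * s)))) :=
        measureReal_mono hsub (measure_ne_top _ _)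
    _ ≤ P.real (L.Af l s k) + P.real (⋃ i ∈ Finset.range k,
          (Set.univ ∩ (L.D (l + i * s) s \ L.C (l + i * s)))) := measureReal_union_le _ _
    _ ≤ (1 - L.p) ^ k + ∑ i ∈ Finset.range k,
          P.real (Set.univ ∩ (L.D (l + i * s) s \ L.C (l + i * s))) :=
        add_le_add (L.Af_le l s k) (measureReal_biUnion_finset_le _ _)
    _ ≤ (1 - L.p) ^ k + ∑ _i ∈ Finset.range k, L.e s := by
        gcongr with i hi
        have := L.det_real (l + i * s) s (A := Set.univ) MeasurableSet.univ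
        simpa using this
    _ = _ := by simp

/-- cut levels on a grid of mesh `g` are tight -/
theorem gridTight [IsProbabilityMeasure P] (L : LP P) (g : ℕ) (hg : 0 < g) (ε : ℝ) (hε : 0 < ε) :
    ∃ r : ℕ, 0 < r ∧ ∀ l : ℕ, P.real {ω | ∀ i, i < r → ω ∉ L.C (l + i * g)} ≤ ε := by
  have hp := L.p_le_one
  have hp0 := L.p_pos
  obtain ⟨k, hk⟩ := exists_pow_lt_of_lt_one (half_pos hε) (show 1 - L.p < 1 by linarith)
  have hk1 : (1 - L.p) ^ (k + 1) ≤ ε / 2 := by
    calc (1 - L.p) ^ (k + 1) = (1 - L.p) * (1 - L.p) ^ k := by ring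
      _ ≤ 1 * (1 - L.p) ^ k :=
        mul_le_mul_of_nonneg_right (by linarith) (pow_nonneg (by linarith) _)
      _ ≤ ε / 2 := by linarith
  have ht : Tendsto (fun n : ℕ => ((k + 1 : ℕ) : ℝ) * L.e (n * g)) atTop (𝓝 (((k + 1 : ℕ) : ℝ) * 0)) := by
    apply Tendsto.const_mul
    apply L.e_tendsto.comp
    exact tendsto_id.atTop_mul_const' hg
  rw [mul_zero] at ht
  obtain ⟨n, hn, hn1⟩ := ((ht.eventually (gt_mem_nhds (half_pos hε))).and
    (eventually_gt_atTop 0)).exists
  refine ⟨(k + 1) * n, by positivity, fun l => ?_⟩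
  calc P.real {ω | ∀ i, i < (k + 1) * n → ω ∉ L.C (l + i * g)}
      ≤ P.real {ω | ∀ i, i < k + 1 → ω ∉ L.C (l + i * (n * g))} := by
        apply measureReal_mono _ (measure_ne_top _ _)
        intro ω hω i hi
        have := hω (i * n) (Nat.mul_lt_mul_of_pos_right hi hn1)
        rwa [mul_assoc] at this
    _ ≤ (1 - L.p) ^ (k + 1) + (k + 1 : ℕ) * L.e (n * g) := L.noCut_le l (n * g) (k + 1)
    _ ≤ ε / 2 + ε / 2 := add_le_add hk1 hn.le
    _ = ε := by ring


/-! ### Tightness of increments -/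

theorem tail_small [IsProbabilityMeasure P] (f : Ω → V) (hf : Measurable f) (ε : ℝ) (hε : 0 < ε) :
    ∃ M : ℕ, P.real {ω | (M : ℝ) < ‖f ω‖} ≤ ε := by
  have h1 : Tendsto (fun n : ℕ => P {ω | (n : ℝ) < ‖f ω‖}) atTop (𝓝 (P (⋂ n : ℕ, {ω | (n : ℝ) < ‖f ω‖}))) := by
    apply tendsto_measure_iInter_atTop
    · intro n
      exact (measurableSet_lt measurable_const hf.norm).nullMeasurableSet
    · intro m n hmn ω hω
      simp only [Set.mem_setOf_eq] at hω ⊢
      have : (m : ℝ) ≤ n := by exact_mod_cast hmn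
      linarith
    · exact ⟨0, measure_ne_top _ _⟩
  have h2 : (⋂ n : ℕ, {ω | (n : ℝ) < ‖f ω‖}) = ∅ := by
    ext ω
    simp only [Set.mem_iInter, Set.mem_setOf_eq, Set.mem_empty_iff_false, iff_false, not_forall,
      not_lt]
    obtain ⟨n, hn⟩ := exists_nat_ge ‖f ω‖
    exact ⟨n, hn⟩
  rw [h2, measure_empty] at h1
  have h3 : (0 : ℝ≥0∞) < ENNReal.ofReal ε := by simpa using hε
  obtain ⟨n, hn⟩ := (h1.eventually (gt_mem_nhds h3)).exists
  refine ⟨n, ?_⟩
  rw [measureReal_def]
  exact ENNReal.toReal_le_of_le_ofReal hε.le hn.le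

/-- finitely many tails -/
theorem tails_small [IsProbabilityMeasure P] (f : ℕ → Ω → V) (hf : ∀ k, Measurable (f k)) (r : ℕ)
    (ε : ℝ) (hε : 0 < ε) : ∃ M : ℕ, ∀ k, k ≤ r → P.real {ω | (M : ℝ) < ‖f k ω‖} ≤ ε := by
  choose M hM using fun k => tail_small (P := P) (f k) (hf k) ε hε
  refine ⟨(Finset.range (r + 1)).sup M, fun k hk => ?_⟩
  refine (measureReal_mono ?_ (measure_ne_top _ _)).trans (hM k)
  intro ω hω
  simp only [Set.mem_setOf_eq] at hω ⊢
  have : M k ≤ (Finset.range (r + 1)).sup M := Finset.le_sup (by simp; omega)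
  have h2 : (M k : ℝ) ≤ ((Finset.range (r + 1)).sup M : ℕ) := by exact_mod_cast this
  linarith

theorem t0 [IsProbabilityMeasure P] (L : LP P) : L.T0 := by
  intro i ε hε
  obtain ⟨r, hr, hcut⟩ := L.gridTight 1 one_pos (ε / 2) (half_pos hε)
  have hmeas : ∀ k, Measurable (fun ω => L.U (k + i) ω - L.U k ω) := fun k =>
    (L.U_measurable _).sub (L.U_measurable _)
  obtain ⟨M, hM⟩ := tails_small (P := P) (fun k ω => L.U (k + i) ω - L.U k ω) hmeas r
    (ε / (2 * (r + 1))) (by positivity)
  refine ⟨M, fun b => ?_⟩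
  rcases Nat.lt_or_ge b r with hb | hb
  · refine (hM b hb.le).trans ?_
    rw [div_le_iff₀ (by positivity)]
    have : (0 : ℝ) ≤ r := by positivity
    nlinarith
  · have hsub : {ω | (M : ℝ) < ‖L.U (b + i) ω - L.U b ω‖} ⊆
        {ω | ∀ k, k < r → ω ∉ L.C (b - r + k * 1)} ∪
        ⋃ k ∈ Finset.range r, (L.C (b - r + k) ∩ L.θ (b - r + k) ⁻¹'
          {ω | (M : ℝ) < ‖L.U (r - k + i) ω - L.U (r - k) ω‖}) := by
      intro ω hω
      by_cases h : ∀ k, k < r → ω ∉ L.C (b - r + k * 1)
      · exact Or.inl h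
      · right
        push Not at h
        obtain ⟨k, hk, hC⟩ := h
        simp only [mul_one] at hC
        simp only [Set.mem_iUnion, Finset.mem_range]
        refine ⟨k, hk, hC, ?_⟩
        simp only [Set.mem_preimage, Set.mem_setOf_eq] at hω ⊢
        have e1 : b + i = (b - r + k) + (r - k + i) := by omega
        have e2 : b = (b - r + k) + (r - k) := by omega
        have h1 := L.U_add (b - r + k) (r - k + i) ω
        have h2 := L.U_add (b - r + k) (r - k) ω
        rw [← e1] at h1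
        rw [← e2] at h2
        rw [h1, h2] at hω
        simpa using hω
    calc P.real {ω | (M : ℝ) < ‖L.U (b + i) ω - L.U b ω‖}
        ≤ P.real ({ω | ∀ k, k < r → ω ∉ L.C (b - r + k * 1)} ∪
        ⋃ k ∈ Finset.range r, (L.C (b - r + k) ∩ L.θ (b - r + k) ⁻¹'
          {ω | (M : ℝ) < ‖L.U (r - k + i) ω - L.U (r - k) ω‖})) :=
          measureReal_mono hsub (measure_ne_top _ _)
      _ ≤ P.real {ω | ∀ k, k < r → ω ∉ L.C (b - r + k * 1)} +
          P.real (⋃ k ∈ Finset.range r, (L.C (b - r + k) ∩ L.θ (b - r + k) ⁻¹'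
          {ω | (M : ℝ) < ‖L.U (r - k + i) ω - L.U (r - k) ω‖})) := measureReal_union_le _ _
      _ ≤ ε / 2 + ∑ k ∈ Finset.range r, P.real (L.C (b - r + k) ∩ L.θ (b - r + k) ⁻¹'
          {ω | (M : ℝ) < ‖L.U (r - k + i) ω - L.U (r - k) ω‖}) :=
          add_le_add (hcut (b - r)) (measureReal_biUnion_finset_le _ _)
      _ ≤ ε / 2 + ∑ _k ∈ Finset.range r, ε / (2 * (r + 1)) := by
          gcongr with k hk
          refine (L.ren_real _ ?_).trans (hM (r - k) (by omega))
          exact measurableSet_lt measurable_const (hmeas (r - k)).norm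
      _ ≤ ε := by
          simp only [Finset.sum_const, Finset.card_range, nsmul_eq_mul]
          have h1 : (r : ℝ) * (ε / (2 * (r + 1))) ≤ ε / 2 := by
            rw [mul_div_assoc', div_le_iff₀ (by positivity)]
            have : (0 : ℝ) ≤ r := by positivity
            nlinarith
          linarith

end LP

end Crest.Agent.R154.B4
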