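import Mathlib

/-! Row 154, block B5 (helper566): abstract renewal / recursion argument.
Lists of blocks with multiplicative weights; `U n` = total weight of height `n`. -/

set_option autoImplicit false

namespace Crest.Agent.R154.B5A

open scoped ENNReal

variable {B W : Type*}

/-- weight of a list of blocks -/
noncomputable def LW (Λ : B → ℝ≥0∞) (L : List B) : ℝ≥0∞ := (L.map Λ).prod

/-- total height -/
def HT (ht : B → ℕ) (L : List B) : ℕ := (L.map ht).sum

/-- displacement after a list (top to bottom) -/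
def act (dl : B → W → W) : List B → W → W
  | [], w => w
  | b :: L, w => act dl L (dl b w)

/-- contact depths of a list placed at top displacement `w` -/
def CD (ht : B → ℕ) (dl : B → W → W) (cd : W → B → Set ℕ) : List B → W → Set ℕ
  | [], _ => ∅
  | b :: L, w => cd w b ∪ (fun k => ht b + k) '' CD ht dl cd L (dl b w)

lemma LW_nil (Λ : B → ℝ≥0∞) : LW Λ [] = 1 := by simp [LW]

lemma LW_cons (Λ : B → ℝ≥0∞) (b : B) (L : List B) : LW Λ (b :: L) = Λ b * LW Λ L := by simp [LW]

lemma LW_append (Λ : B → ℝ≥0∞) (L L' : List B) : LW Λ (L ++ L') = LW Λ L * LW Λ L' := by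
  simp [LW]

lemma HT_nil (ht : B → ℕ) : HT ht [] = 0 := by simp [HT]

lemma HT_cons (ht : B → ℕ) (b : B) (L : List B) : HT ht (b :: L) = ht b + HT ht L := by simp [HT]

lemma HT_append (ht : B → ℕ) (L L' : List B) : HT ht (L ++ L') = HT ht L + HT ht L' := by
  simp [HT]

lemma act_append (dl : B → W → W) (L L' : List B) (w : W) :
    act dl (L ++ L') w = act dl L' (act dl L w) := by
  induction L generalizing w with
  | nil => rfl
  | cons b L ih => exact ih _

lemma CD_append (ht : B → ℕ) (dl : B → W → W) (cd : W → B → Set ℕ) (L L' : List B) (w : W) :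
    CD ht dl cd (L ++ L') w
      = CD ht dl cd L w ∪ (fun k => HT ht L + k) '' CD ht dl cd L' (act dl L w) := by
  induction L generalizing w with
  | nil => simp [CD, HT, act]
  | cons b L ih =>
    simp only [List.cons_append, CD, act, HT_cons]
    rw [ih, Set.image_union, Set.image_image, Set.union_assoc]
    simp only [add_assoc]

lemma length_le_HT (ht : B → ℕ) (h1 : ∀ b, 1 ≤ ht b) (L : List B) : L.length ≤ HT ht L := by
  induction L with
  | nil => simp
  | cons b L ih => rw [HT_cons, List.length_cons]; have := h1 b; omega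

lemma CD_pos (ht : B → ℕ) (dl : B → W → W) (cd : W → B → Set ℕ)
    (hcd : ∀ w b k, k ∈ cd w b → 1 ≤ k ∧ k ≤ ht b) (L : List B) (w : W) (k : ℕ)
    (hk : k ∈ CD ht dl cd L w) : 1 ≤ k ∧ k ≤ HT ht L := by
  induction L generalizing w k with
  | nil => simp [CD] at hk
  | cons b L ih =>
    rw [HT_cons]
    rcases hk with hk | ⟨k', hk', rfl⟩
    · have := hcd w b k hk; omega
    · have := ih _ _ hk'; simp only; omega

/-! ### sums over lists -/

/-- decomposition of a sum over lists by the first letter -/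
lemma tsum_list (F : List B → ℝ≥0∞) : ∑' L, F L = F [] + ∑' b, ∑' L, F (b :: L) := by
  classical
  rw [ENNReal.tsum_eq_add_tsum_ite ([] : List B), ← ENNReal.tsum_prod]
  congr 1
  have hinj : Function.Injective (fun p : B × List B => p.1 :: p.2) := by
    rintro ⟨a, L⟩ ⟨a', L'⟩ h
    simp only [List.cons.injEq] at h
    exact Prod.ext h.1 h.2
  have hs : Function.support (fun L : List B => if L = [] then 0 else F L)
      ⊆ Set.range (fun p : B × List B => p.1 :: p.2) := by
    intro L hL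
    cases L with
    | nil => simp at hL
    | cons b L => exact ⟨(b, L), rfl⟩
  have e := hinj.tsum_eq hs
  calc _ = ∑' L : List B, (if L = [] then 0 else F L) :=
        tsum_congr fun L => by by_cases h : L = [] <;> simp [h]
    _ = _ := e.symm
    _ = _ := tsum_congr fun p => by simp

variable (Λ : B → ℝ≥0∞)

/-- weighted sum over the lists of length `j` -/
noncomputable def SL (j : ℕ) (F : List B → ℝ≥0∞) : ℝ≥0∞ :=
  ∑' L : List B, if L.length = j then LW Λ L * F L else 0

lemma SL_zero (F : List B → ℝ≥0∞) : SL Λ 0 F = F [] := by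
  rw [SL, tsum_list]
  simp [LW_nil]

lemma SL_succ (j : ℕ) (F : List B → ℝ≥0∞) :
    SL Λ (j + 1) F = ∑' b, Λ b * SL Λ j (fun L => F (b :: L)) := by
  rw [SL, tsum_list]
  simp only [List.length_nil, List.length_cons]
  rw [if_neg (by omega), zero_add]
  refine tsum_congr fun b => ?_
  rw [SL, ← ENNReal.tsum_mul_left]
  refine tsum_congr fun L => ?_
  by_cases h : L.length = j
  · simp [h, LW_cons, mul_assoc]
  · simp [h]

lemma SL_add (i j : ℕ) (F : List B → ℝ≥0∞) :
    SL Λ (i + j) F = SL Λ i (fun L => SL Λ j (fun L' => F (L ++ L'))) := by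
  induction i generalizing F with
  | zero => rw [zero_add, SL_zero]; rfl
  | succ i ih =>
    rw [show i + 1 + j = (i + j) + 1 by ring, SL_succ, SL_succ]
    refine tsum_congr fun b => ?_
    rw [ih]
    rfl

lemma SL_mono (j : ℕ) {F F' : List B → ℝ≥0∞} (h : ∀ L, L.length = j → F L ≤ F' L) :
    SL Λ j F ≤ SL Λ j F' := by
  refine ENNReal.tsum_le_tsum fun L => ?_
  by_cases hL : L.length = j
  · simp only [hL, if_true]; exact mul_le_mul_right (h L hL) _
  · simp [hL]

lemma SL_congr (j : ℕ) {F F' : List B → ℝ≥0∞} (h : ∀ L, L.length = j → F L = F' L) :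
    SL Λ j F = SL Λ j F' :=
  le_antisymm (SL_mono Λ j fun L hL => (h L hL).le) (SL_mono Λ j fun L hL => (h L hL).ge)

lemma SL_add_fun (j : ℕ) (F F' : List B → ℝ≥0∞) :
    SL Λ j (fun L => F L + F' L) = SL Λ j F + SL Λ j F' := by
  rw [SL, SL, SL, ← ENNReal.tsum_add]
  refine tsum_congr fun L => ?_
  by_cases hL : L.length = j
  · simp [hL, mul_add]
  · simp [hL]

lemma SL_const_mul (j : ℕ) (a : ℝ≥0∞) (F : List B → ℝ≥0∞) :
    SL Λ j (fun L => a * F L) = a * SL Λ j F := by
  rw [SL, SL, ← ENNReal.tsum_mul_left]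
  refine tsum_congr fun L => ?_
  by_cases hL : L.length = j
  · simp [hL, mul_left_comm]
  · simp [hL]

lemma SL_one (h : ∑' b, Λ b = 1) (j : ℕ) : SL Λ j (fun _ => 1) = 1 := by
  induction j with
  | zero => rw [SL_zero]
  | succ j ih => rw [SL_succ, ih]; simpa using h

lemma SL_const (h : ∑' b, Λ b = 1) (j : ℕ) (a : ℝ≥0∞) : SL Λ j (fun _ => a) = a := by
  have := SL_const_mul Λ j a (fun _ => 1)
  rw [SL_one Λ h] at this
  simpa using this

lemma SL_pow (j : ℕ) : SL Λ j (fun _ => 1) = (∑' b, Λ b) ^ j := by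
  induction j with
  | zero => simp [SL_zero]
  | succ j ih => rw [SL_succ, ih, ENNReal.tsum_mul_right, pow_succ]; ring

lemma tsum_eq_tsum_SL (F : List B → ℝ≥0∞) : ∑' L, LW Λ L * F L = ∑' j, SL Λ j F := by
  classical
  simp only [SL]
  rw [ENNReal.tsum_comm]
  refine tsum_congr fun L => ?_
  rw [tsum_eq_single L.length]
  · simp
  · intro j hj; simp [hj.symm]

/-! ### the renewal sequence -/

variable (ht : B → ℕ)

/-- total weight of the lists of height `n` -/
noncomputable def U (n : ℕ) : ℝ≥0∞ := ∑' L : List B, if HT ht L = n then LW Λ L else 0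

/-- weight of the blocks of height `h` -/
noncomputable def Ph (h : ℕ) : ℝ≥0∞ := ∑' b, if ht b = h then Λ b else 0

/-- weight of the blocks of height `> k` -/
noncomputable def tail (k : ℕ) : ℝ≥0∞ := ∑' b, if k < ht b then Λ b else 0

lemma U_zero (h1 : ∀ b, 1 ≤ ht b) : U Λ ht 0 = 1 := by
  rw [U, tsum_list]
  simp only [HT_nil, if_true, LW_nil, HT_cons]
  have : ∀ b (L : List B), ¬ (ht b + HT ht L = 0) := fun b L => by have := h1 b; omega
  simp only [if_neg (this _ _), tsum_zero, add_zero]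

lemma U_succ (h1 : ∀ b, 1 ≤ ht b) (n : ℕ) :
    U Λ ht (n + 1) = ∑ k ∈ Finset.range (n + 1), U Λ ht (n - k) * Ph Λ ht (k + 1) := by
  classical
  rw [U, tsum_list]
  simp only [HT_nil, HT_cons, LW_cons]
  rw [if_neg (by omega), zero_add]
  have : ∀ b, (∑' L, if ht b + HT ht L = n + 1 then Λ b * LW Λ L else 0)
      = ∑ k ∈ Finset.range (n + 1), U Λ ht (n - k) * (if ht b = k + 1 then Λ b else 0) := by
    intro b
    by_cases hb : ht b ≤ n + 1
    · rw [Finset.sum_eq_single (ht b - 1)]
      · have e : ht b = ht b - 1 + 1 := by have := h1 b; omega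
        rw [if_pos e, U, ← ENNReal.tsum_mul_right]
        refine tsum_congr fun L => ?_
        have h1b := h1 b
        by_cases hL : ht b + HT ht L = n + 1
        · rw [if_pos hL, if_pos (by omega), mul_comm]
        · rw [if_neg hL, if_neg (by omega), zero_mul]
      · intro k _ hk
        rw [if_neg (by omega), mul_zero]
      · intro h
        exact absurd (Finset.mem_range.2 (by have := h1 b; omega)) h
    · rw [Finset.sum_eq_zero]
      · have : ∀ L : List B, ¬ (ht b + HT ht L = n + 1) := fun L => by omega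
        simp [this]
      · intro k hk
        rw [if_neg (by have := Finset.mem_range.1 hk; omega), mul_zero]
  simp_rw [this]
  rw [Summable.tsum_finsetSum (fun _ _ => ENNReal.summable)]
  refine Finset.sum_congr rfl fun k _ => ?_
  rw [Ph, ENNReal.tsum_mul_left]

lemma tail_split (k : ℕ) : tail Λ ht k = Ph Λ ht (k + 1) + tail Λ ht (k + 1) := by
  rw [tail, Ph, tail, ← ENNReal.tsum_add]
  refine tsum_congr fun b => ?_
  rcases lt_trichotomy (ht b) (k + 1) with h | h | h
  · simp [show ¬ k < ht b by omega, show ¬ ht b = k + 1 by omega, show ¬ k + 1 < ht b by omega]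
  · simp [show k < ht b by omega, h]
  · simp [show k < ht b by omega, show ¬ ht b = k + 1 by omega, h]

lemma renewal_one (h1 : ∀ b, 1 ≤ ht b) (hΛ : ∑' b, Λ b = 1) (n : ℕ) :
    ∑ k ∈ Finset.range (n + 1), U Λ ht (n - k) * tail Λ ht k = 1 := by
  have ht0 : tail Λ ht 0 = 1 := by
    rw [← hΛ, tail]
    refine tsum_congr fun b => ?_
    rw [if_pos (by have := h1 b; omega)]
  induction n with
  | zero => simp [U_zero Λ ht h1, ht0]
  | succ n ih =>
    rw [Finset.sum_range_succ']
    simp only [Nat.sub_zero, ht0, mul_one]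
    rw [U_succ Λ ht h1, ← Finset.sum_add_distrib, ← ih]
    refine Finset.sum_congr rfl fun k _ => ?_
    rw [tail_split Λ ht k, show n + 1 - (k + 1) = n - k by omega, ← mul_add, add_comm]

lemma sum_tail (hΛ : ∑' b, Λ b = 1) : ∑' b, Λ b * (ht b : ℝ≥0∞) = ∑' k, tail Λ ht k := by
  simp only [tail]
  rw [ENNReal.tsum_comm]
  refine tsum_congr fun b => ?_
  rw [tsum_eq_sum (s := Finset.range (ht b))]
  · rw [Finset.sum_congr rfl (fun k hk => if_pos (Finset.mem_range.1 hk))]
    simp [mul_comm]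
  · intro k hk
    rw [if_neg (by simpa using hk)]

/-- mean height is at most `1/c`. -/
lemma mean_le (h1 : ∀ b, 1 ≤ ht b) (hΛ : ∑' b, Λ b = 1) (c : ℝ≥0∞) (hc : c ≠ 0) (hc' : c ≠ ⊤)
    (R : ℕ) (hU : ∀ n, R ≤ n → c ≤ U Λ ht n) : ∑' b, Λ b * (ht b : ℝ≥0∞) ≤ c⁻¹ := by
  rw [sum_tail Λ ht hΛ, ENNReal.tsum_eq_iSup_nat]
  refine iSup_le fun n => ?_
  rw [← one_div, ENNReal.le_div_iff_mul_le (Or.inl hc) (Or.inl hc'), mul_comm, Finset.mul_sum]
  calc ∑ k ∈ Finset.range n, c * tail Λ ht k
      ≤ ∑ k ∈ Finset.range n, U Λ ht (n + R - k) * tail Λ ht k := by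
        refine Finset.sum_le_sum fun k hk => ?_
        have := Finset.mem_range.1 hk
        exact mul_le_mul_left (hU _ (by omega)) _
    _ ≤ ∑ k ∈ Finset.range (n + R + 1), U Λ ht (n + R - k) * tail Λ ht k :=
        Finset.sum_le_sum_of_subset (Finset.range_mono (by omega))
    _ = 1 := renewal_one Λ ht h1 hΛ (n + R)

/-! ### total mass one -/

lemma mass_ge_one (c : ℝ≥0∞) (hc : c ≠ 0)
    (R : ℕ) (hU : ∀ n, R ≤ n → c ≤ U Λ ht n) : 1 ≤ ∑' b, Λ b := by
  by_contra hlt
  rw [not_le] at hlt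
  have hsum : ∑' n, U Λ ht n = (1 - ∑' b, Λ b)⁻¹ := by
    simp only [U]
    rw [ENNReal.tsum_comm, ← ENNReal.tsum_geometric]
    simp_rw [← SL_pow]
    rw [← tsum_eq_tsum_SL]
    refine tsum_congr fun L => ?_
    rw [tsum_eq_single (HT ht L)]
    · simp
    · intro j hj; simp [hj.symm]
  have hfin : ∑' n, U Λ ht n ≠ ⊤ := by
    rw [hsum, Ne, ENNReal.inv_eq_top, tsub_eq_zero_iff_le]
    exact not_le.2 hlt
  apply hfin
  refine top_le_iff.1 ?_
  calc (⊤ : ℝ≥0∞) = ∑' _ : ℕ, c := (ENNReal.tsum_const_eq_top_of_ne_zero hc).symm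
    _ ≤ ∑' n, U Λ ht (n + R) := ENNReal.tsum_le_tsum fun n => hU _ (by omega)
    _ ≤ ∑' n, U Λ ht n := ENNReal.tsum_comp_le_tsum_of_injective (add_left_injective R) _

lemma mass_le_one (h1 : ∀ b, 1 ≤ ht b) (hU1 : ∀ n, U Λ ht n ≤ 1) : ∑' b, Λ b ≤ 1 := by
  by_contra hlt
  rw [not_le] at hlt
  -- restrict to blocks of height at most `N`
  have hN : ∃ N : ℕ, 1 < ∑' b, (if ht b ≤ N then Λ b else 0) := by
    by_contra hcon
    push Not at hcon
    have : ∑' b, Λ b = ⨆ N : ℕ, ∑' b, (if ht b ≤ N then Λ b else 0) := by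
      apply le_antisymm
      · rw [ENNReal.tsum_eq_iSup_sum]
        refine iSup_le fun s => ?_
        refine le_iSup_of_le (s.sup ht) ?_
        calc ∑ b ∈ s, Λ b = ∑ b ∈ s, (if ht b ≤ s.sup ht then Λ b else 0) :=
              Finset.sum_congr rfl fun b hb => by rw [if_pos (Finset.le_sup hb)]
          _ ≤ _ := ENNReal.sum_le_tsum s
      · refine iSup_le fun N => ENNReal.tsum_le_tsum fun b => ?_
        split_ifs <;> simp
    rw [this] at hlt
    exact absurd (iSup_le hcon) (not_le.2 hlt)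
  obtain ⟨N, hN⟩ := hN
  set Λ' : B → ℝ≥0∞ := fun b => if ht b ≤ N then Λ b else 0 with hΛ'
  obtain ⟨r, hr1, hr2⟩ := exists_between hN
  have hrtop : r ≠ ⊤ := ne_top_of_lt hr2
  have key : ∀ j : ℕ, r ^ j ≤ (N * j + 1 : ℕ) := by
    intro j
    calc r ^ j ≤ (∑' b, Λ' b) ^ j := pow_le_pow_left₀ zero_le hr2.le _
      _ = SL Λ' j (fun _ => 1) := (SL_pow Λ' j).symm
      _ ≤ ∑ n ∈ Finset.range (N * j + 1), U Λ ht n := by
        simp only [U]
        rw [← Summable.tsum_finsetSum (fun _ _ => ENNReal.summable), SL]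
        refine ENNReal.tsum_le_tsum fun L => ?_
        by_cases hL : L.length = j
        · rw [if_pos hL, mul_one]
          by_cases hall : ∀ b ∈ L, ht b ≤ N
          · have hh : HT ht L ≤ N * j := by
              rw [HT, ← hL, mul_comm]
              have := List.sum_le_card_nsmul (L.map ht) N (by simpa using hall)
              simpa using this
            have hw : LW Λ' L = LW Λ L := by
              rw [LW, LW]
              congr 1
              refine List.map_congr_left fun b hb => ?_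
              simp [hΛ', hall b hb]
            rw [Finset.sum_eq_single (HT ht L)]
            · rw [if_pos rfl, hw]
            · intro n _ hn; rw [if_neg hn.symm]
            · intro h; exact absurd (Finset.mem_range.2 (by omega)) h
          · have hw : LW Λ' L = 0 := by
              push Not at hall
              obtain ⟨b, hb, hbN⟩ := hall
              rw [LW]
              refine List.prod_eq_zero ?_
              rw [List.mem_map]
              exact ⟨b, hb, by simp [hΛ', hbN]⟩
            rw [hw]; exact zero_le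
        · rw [if_neg hL]; exact zero_le
      _ ≤ ∑ n ∈ Finset.range (N * j + 1), 1 := Finset.sum_le_sum fun n _ => hU1 n
      _ = (N * j + 1 : ℕ) := by simp
  lift r to NNReal using hrtop
  have hr1' : (1 : ℝ) < r := by exact_mod_cast hr1
  have key' : ∀ j : ℕ, (r : ℝ) ^ j ≤ N * j + 1 := by
    intro j
    have := key j
    have h2 : ((r ^ j : NNReal) : ℝ≥0∞) ≤ ((N * j + 1 : ℕ) : NNReal) := by
      push_cast at this ⊢; exact this
    have h3 : (r ^ j : NNReal) ≤ ((N * j + 1 : ℕ) : NNReal) := ENNReal.coe_le_coe.1 h2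
    have h4 : ((r ^ j : NNReal) : ℝ) ≤ (((N * j + 1 : ℕ) : NNReal) : ℝ) := NNReal.coe_le_coe.2 h3
    push_cast at h4
    exact h4
  have htend : Filter.Tendsto (fun j : ℕ => (j : ℝ) ^ 1 / (r : ℝ) ^ j) Filter.atTop (nhds 0) :=
    tendsto_pow_const_div_const_pow_of_one_lt 1 hr1'
  have htend0 : Filter.Tendsto (fun j : ℕ => (1 : ℝ) / (r : ℝ) ^ j) Filter.atTop (nhds 0) := by
    have := tendsto_pow_const_div_const_pow_of_one_lt 0 hr1'
    simpa using this
  have h3 : Filter.Tendsto (fun j : ℕ => (N : ℝ) * ((j : ℝ) ^ 1 / (r : ℝ) ^ j)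
      + 1 / (r : ℝ) ^ j) Filter.atTop (nhds ((N : ℝ) * 0 + 0)) :=
    (htend.const_mul _).add htend0
  have h4 : ∀ᶠ j : ℕ in Filter.atTop, (N : ℝ) * ((j : ℝ) ^ 1 / (r : ℝ) ^ j)
      + 1 / (r : ℝ) ^ j < 1 := by
    refine h3.eventually_lt_const ?_
    norm_num
  obtain ⟨j, hj⟩ := h4.exists
  have hpos : (0 : ℝ) < (r : ℝ) ^ j := by positivity
  have : (N * j + 1 : ℝ) / (r : ℝ) ^ j < 1 := by
    calc (N * j + 1 : ℝ) / (r : ℝ) ^ j
        = (N : ℝ) * ((j : ℝ) ^ 1 / (r : ℝ) ^ j) + 1 / (r : ℝ) ^ j := by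
          rw [pow_one]; field_simp
      _ < 1 := hj
  rw [div_lt_one hpos] at this
  linarith [key' j]

end Crest.Agent.R154.B5A
private theorem rz_34ce4d37f8 : type_of% @_root_.Crest.Agent.R154.B5A.CD.eq_def := @_root_.Crest.Agent.R154.B5A.CD.eq_def -- L26
private theorem rz_e80f606e4f : type_of% @_root_.Crest.Agent.R154.B5A.CD.eq_1 := @_root_.Crest.Agent.R154.B5A.CD.eq_1 -- L26
private theorem rz_0adbf65fc8 : type_of% @_root_.Crest.Agent.R154.B5A.act.eq_def := @_root_.Crest.Agent.R154.B5A.act.eq_def -- L21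
private theorem rz_87fa032d9c : type_of% @_root_.Crest.Agent.R154.B5A.act.eq_1 := @_root_.Crest.Agent.R154.B5A.act.eq_1 -- L21
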