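import Crest.Agent.R154.B5Rec_566

/-! Row 154, block B5 (helper181): `abs_main` of 566 with the FIRST-contact form of the hypothesis `hK`
(no contact at depth `≤ m`, some contact at depth in `(m, 2m]`). -/

set_option autoImplicit false

namespace Crest.Agent.R154.B5A

open scoped ENNReal

variable {B W : Type*} (Λ : B → ℝ≥0∞) (ht : B → ℕ) (dl : B → W → W) (cd : W → B → Set ℕ)

open Classical in
/-- weight of the crossings of height `n` whose first contact has depth in `(m, 2m]` -/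
noncomputable def Kap1 (n m : ℕ) (w : W) : ℝ≥0∞ :=
  ∑' L : List B, if HT ht L = n ∧ (∀ k ∈ CD ht dl cd L w, m < k) ∧ ∃ k ∈ CD ht dl cd L w, k ≤ 2 * m
    then LW Λ L else 0

open Classical in
/-- first contact in a block with index in `(j, 3j]` -/
noncomputable def Kb1 (j : ℕ) (w : W) : ℝ≥0∞ :=
  SL Λ j (fun L1 => SL Λ (2 * j) (fun L2 =>
    if CD ht dl cd L1 w = ∅ ∧ CD ht dl cd L2 (act dl L1 w) ≠ ∅ then 1 else 0))

open Classical in
lemma win_le1 (hcd : ∀ w b k, k ∈ cd w b → 1 ≤ k ∧ k ≤ ht b)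
    (c : ℝ≥0∞) (hc : c ≠ 0) (hc' : c ≠ ⊤) (R : ℕ)
    (hU : ∀ n, R ≤ n → c ≤ U Λ ht n) (J n m : ℕ) (w : W) :
    SL Λ J (fun L => if HT ht L ≤ n ∧ (∀ k ∈ CD ht dl cd L w, m < k) ∧
        ∃ k ∈ CD ht dl cd L w, k ≤ 2 * m then 1 else 0)
      ≤ c⁻¹ * Kap1 Λ ht dl cd (n + R) m w := by
  set g : List B → ℝ≥0∞ := fun L =>
    if HT ht L = n + R ∧ (∀ k ∈ CD ht dl cd L w, m < k) ∧ ∃ k ∈ CD ht dl cd L w, k ≤ 2 * m
      then LW Λ L else 0 with hg
  have h1 : ∀ L : List B, (if L.length = J then LW Λ L *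
      (if HT ht L ≤ n ∧ (∀ k ∈ CD ht dl cd L w, m < k) ∧ ∃ k ∈ CD ht dl cd L w, k ≤ 2 * m
        then 1 else 0) else 0)
      ≤ c⁻¹ * (if L.length = J then ∑' L', g (L ++ L') else 0) := by
    intro L
    by_cases hL : L.length = J
    · rw [if_pos hL, if_pos hL]
      by_cases hcond : HT ht L ≤ n ∧ (∀ k ∈ CD ht dl cd L w, m < k) ∧
          ∃ k ∈ CD ht dl cd L w, k ≤ 2 * m
      · rw [if_pos hcond, mul_one]
        have h2 : ∑' L', g (L ++ L') = LW Λ L * U Λ ht (n + R - HT ht L) := by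
          rw [U, ← ENNReal.tsum_mul_left]
          refine tsum_congr fun L' => ?_
          obtain ⟨hn, hall, k, hk, hk2⟩ := hcond
          have hkL := CD_pos ht dl cd hcd L _ _ hk
          have hk' : ∃ k ∈ CD ht dl cd (L ++ L') w, k ≤ 2 * m :=
            ⟨k, by rw [CD_append]; exact Or.inl hk, hk2⟩
          have hall' : ∀ k ∈ CD ht dl cd (L ++ L') w, m < k := by
            intro k1 hk1
            rw [CD_append] at hk1
            rcases hk1 with hk1 | ⟨k2, _, hk2'⟩
            · exact hall k1 hk1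
            · have := hall k hk
              simp only at hk2'
              omega
          simp only [hg, HT_append, LW_append]
          by_cases hh : HT ht L' = n + R - HT ht L
          · rw [if_pos ⟨by omega, hall', hk'⟩, if_pos hh]
          · rw [if_neg (fun h => hh (by omega)), if_neg hh, mul_zero]
        rw [h2]
        have h3 : c ≤ U Λ ht (n + R - HT ht L) := hU _ (by have := hcond.1; omega)
        calc LW Λ L = c⁻¹ * (LW Λ L * c) := by
              rw [mul_comm (LW Λ L), ← mul_assoc, ENNReal.inv_mul_cancel hc hc', one_mul]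
          _ ≤ _ := mul_le_mul_right (mul_le_mul_right h3 _) _
      · rw [if_neg hcond, mul_zero]; exact zero_le
    · rw [if_neg hL, if_neg hL]; simp
  calc _ ≤ ∑' L : List B, c⁻¹ * (if L.length = J then ∑' L', g (L ++ L') else 0) :=
        ENNReal.tsum_le_tsum h1
    _ = c⁻¹ * ∑' L : List B, (if L.length = J then ∑' L', g (L ++ L') else 0) :=
        ENNReal.tsum_mul_left
    _ ≤ c⁻¹ * ∑' L, g L := mul_le_mul_right (tsum_append_le J g) _


/-- the exact recursion, first-contact form -/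
lemma G_rec1 (hΛ : ∑' b, Λ b = 1) (j : ℕ) (κ : ℝ≥0∞)
    (hκ : ∀ w, Kb1 Λ ht dl cd j w ≤ κ) (w : W) :
    G Λ ht dl cd (2 * j) w ≤ G Λ ht dl cd (4 * j) w + κ * G Λ ht dl cd j w := by
  classical
  set nc : List B → W → Prop := fun L w => CD ht dl cd L w = ∅ with hnc
  have e1 : G Λ ht dl cd (2 * j) w
      = SL Λ (2 * j) (fun L => SL Λ (2 * j) (fun _ => if nc L w then (1 : ℝ≥0∞) else 0)) := by
    rw [G]
    exact SL_congr Λ _ fun L _ => (SL_const Λ hΛ _ _).symm
  have e2 : G Λ ht dl cd (4 * j) w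
      = SL Λ (2 * j) (fun L => SL Λ (2 * j) (fun L' =>
        if nc (L ++ L') w then (1 : ℝ≥0∞) else 0)) := by
    rw [G, show 4 * j = 2 * j + 2 * j by ring, SL_add]
  have e3 : SL Λ (2 * j) (fun L => SL Λ (2 * j) (fun L' =>
      (if nc L w then (1 : ℝ≥0∞) else 0) * (if nc L' (act dl L w) then 0 else 1)))
      ≤ κ * G Λ ht dl cd j w := by
    rw [show SL Λ (2 * j) (fun L => SL Λ (2 * j) (fun L' =>
      (if nc L w then (1 : ℝ≥0∞) else 0) * (if nc L' (act dl L w) then 0 else 1)))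
      = SL Λ (j + j) (fun L => SL Λ (2 * j) (fun L' =>
      (if nc L w then (1 : ℝ≥0∞) else 0) * (if nc L' (act dl L w) then 0 else 1))) by
        rw [two_mul], SL_add, G, ← SL_const_mul]
    refine SL_mono Λ j fun L1 _ => ?_
    calc SL Λ j (fun L => SL Λ (2 * j) (fun L' =>
          (if nc (L1 ++ L) w then (1 : ℝ≥0∞) else 0)
            * (if nc L' (act dl (L1 ++ L) w) then 0 else 1)))
        ≤ SL Λ j (fun L => (if nc L1 w then (1 : ℝ≥0∞) else 0) * SL Λ (2 * j) (fun L' =>
            (if nc L (act dl L1 w) ∧ ¬ nc L' (act dl L (act dl L1 w)) then 1 else 0))) := by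
          refine SL_mono Λ j fun L _ => ?_
          rw [← SL_const_mul]
          refine SL_mono Λ (2 * j) fun L' _ => ?_
          rw [act_append]
          by_cases h : nc (L1 ++ L) w
          · have h' := h
            simp only [hnc] at h'
            rw [CD_append, Set.union_empty_iff, Set.image_eq_empty] at h'
            have ha : nc L1 w := h'.1
            have hb : nc L (act dl L1 w) := h'.2
            by_cases h2 : nc L' (act dl L (act dl L1 w))
            · simp [h2]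
            · simp [h, ha, hb, h2]
          · simp [h]
      _ = (if nc L1 w then (1 : ℝ≥0∞) else 0) * Kb1 Λ ht dl cd j (act dl L1 w) := by
          rw [SL_const_mul, Kb1]
      _ ≤ κ * (if nc L1 w then (1 : ℝ≥0∞) else 0) := by
          rw [mul_comm]
          exact mul_le_mul_left (hκ _) _
  calc G Λ ht dl cd (2 * j) w
      ≤ SL Λ (2 * j) (fun L => SL Λ (2 * j) (fun L' =>
        if nc (L ++ L') w then (1 : ℝ≥0∞) else 0) + SL Λ (2 * j) (fun L' =>
      (if nc L w then (1 : ℝ≥0∞) else 0) * (if nc L' (act dl L w) then 0 else 1))) := by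
        rw [e1]
        refine SL_mono Λ _ fun L _ => ?_
        rw [← SL_add_fun]
        refine SL_mono Λ _ fun L' _ => ?_
        by_cases h : nc L w
        · by_cases h' : nc L' (act dl L w)
          · have h3 : nc (L ++ L') w := by
              simp only [hnc] at h h' ⊢
              rw [CD_append, h, h']; simp
            simp [h, h', h3]
          · simp [h, h']
        · simp [h]
    _ = G Λ ht dl cd (4 * j) w + SL Λ (2 * j) (fun L => SL Λ (2 * j) (fun L' =>
      (if nc L w then (1 : ℝ≥0∞) else 0) * (if nc L' (act dl L w) then 0 else 1))) := by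
        rw [SL_add_fun, e2]
    _ ≤ _ := add_le_add le_rfl e3

/-- divergence of `Σ_j G_j` from the recursion with a small constant. -/
lemma G_diverges1 (hΛ : ∑' b, Λ b = 1) (M : ℕ)
    (hκ : ∀ j, M ≤ j → ∀ w, Kb1 Λ ht dl cd j w ≤ 1 / 8) (w : W) (J : ℕ) (hJ : M ≤ 2 ^ J)
    (hw : 1 / 2 ≤ G Λ ht dl cd (2 ^ (J + 2)) w) : ∑' j, G Λ ht dl cd j w = ⊤ := by
  have hfin : ∀ j, G Λ ht dl cd j w ≠ ⊤ := fun j =>
    ne_top_of_le_ne_top ENNReal.one_ne_top (G_le_one Λ ht dl cd hΛ j w)
  set g : ℕ → ℝ := fun i => (G Λ ht dl cd (2 ^ i) w).toReal with hg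
  have hg0 : ∀ i, 0 ≤ g i := fun i => ENNReal.toReal_nonneg
  have hg1 : ∀ i, g i ≤ 1 := fun i => by
    have := ENNReal.toReal_mono ENNReal.one_ne_top (G_le_one Λ ht dl cd hΛ (2 ^ i) w)
    simpa using this
  have hrec : ∀ i, J ≤ i → g (i + 1) ≤ g (i + 2) + 1 / 8 * g i := by
    intro i hi
    have h := G_rec1 Λ ht dl cd hΛ (2 ^ i) (1 / 8)
      (hκ _ (hJ.trans (Nat.pow_le_pow_right (by norm_num) hi))) w
    have h2 := ENNReal.toReal_mono (ENNReal.add_ne_top.2 ⟨hfin _, ENNReal.mul_ne_top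
      (by norm_num) (hfin _)⟩) h
    rw [ENNReal.toReal_add (hfin _) (ENNReal.mul_ne_top (by norm_num) (hfin _)),
      ENNReal.toReal_mul] at h2
    rw [show 2 * 2 ^ i = 2 ^ (i + 1) by ring, show 4 * 2 ^ i = 2 ^ (i + 2) by ring] at h2
    have h3 : ((1 : ℝ≥0∞) / 8).toReal = 1 / 8 := by simp
    rw [h3] at h2
    exact h2
  have hstart : 1 / 2 ≤ g (J + 2) := by
    have := ENNReal.toReal_mono (hfin _) hw
    simpa using this
  have hratio : ∀ k, g (J + 1 + k) ≤ 2 * g (J + 2 + k) ∧ 1 / 2 * (3 / 4 : ℝ) ^ k ≤ g (J + 2 + k) := by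
    intro k
    induction k with
    | zero => exact ⟨by have := hg1 (J + 1); simp only [add_zero]; linarith, by simpa using hstart⟩
    | succ k ih =>
      have h := hrec (J + 1 + k) (by omega)
      rw [show J + 1 + k + 1 = J + 2 + k by ring, show J + 1 + k + 2 = J + 3 + k by ring] at h
      have h3 : 3 / 4 * g (J + 2 + k) ≤ g (J + 3 + k) := by linarith [ih.1]
      rw [show J + 1 + (k + 1) = J + 2 + k by ring, show J + 2 + (k + 1) = J + 3 + k by ring]
      refine ⟨by linarith [hg0 (J + 2 + k)], ?_⟩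
      rw [pow_succ]
      linarith [ih.2]
  by_contra hne
  set T := (∑' j, G Λ ht dl cd j w).toReal with hT
  have hle : ∀ i, (2 : ℝ) ^ i * g i ≤ T := by
    intro i
    have h1 : ((2 ^ i : ℕ) : ℝ≥0∞) * G Λ ht dl cd (2 ^ i) w ≤ ∑' j, G Λ ht dl cd j w := by
      calc ((2 ^ i : ℕ) : ℝ≥0∞) * G Λ ht dl cd (2 ^ i) w
          = ∑ _ ∈ Finset.range (2 ^ i), G Λ ht dl cd (2 ^ i) w := by simp
        _ ≤ ∑ j ∈ Finset.range (2 ^ i), G Λ ht dl cd j w :=
            Finset.sum_le_sum fun j hj =>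
              G_anti Λ ht dl cd hΛ w (Finset.mem_range.1 hj).le
        _ ≤ _ := ENNReal.sum_le_tsum _
    have h2 := ENNReal.toReal_mono hne h1
    rw [ENNReal.toReal_mul] at h2
    simpa using h2
  have hgrow : Filter.Tendsto (fun k : ℕ => (3 / 2 : ℝ) ^ k) Filter.atTop Filter.atTop :=
    tendsto_pow_atTop_atTop_of_one_lt (by norm_num)
  obtain ⟨k, hk⟩ := (hgrow.eventually_gt_atTop T).exists
  have h1 := hle (J + 2 + k)
  have h2 := (hratio k).2
  have h3 : (3 / 2 : ℝ) ^ k ≤ 2 ^ (J + 2 + k) * g (J + 2 + k) := by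
    calc (3 / 2 : ℝ) ^ k = 2 ^ k * (3 / 4) ^ k := by rw [← mul_pow]; norm_num
      _ ≤ 2 ^ (J + 2 + k) * (1 / 2 * (3 / 4) ^ k) := by
        rw [pow_add 2 (J + 2) k, pow_add 2 J 2]
        have : (1 : ℝ) ≤ 2 ^ J := one_le_pow₀ (by norm_num)
        have h4 : (0 : ℝ) < 2 ^ k * (3 / 4) ^ k := by positivity
        nlinarith
      _ ≤ _ := mul_le_mul_of_nonneg_left h2 (by positivity)
  linarith


end Crest.Agent.R154.B5A
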