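import Crest.Agent.R154.B5Abs_566

/-! Row 154, block B5 (helper566): the recursion `G_{2j} ≤ G_{4j} + κ_j G_j` and divergence. -/

set_option autoImplicit false

namespace Crest.Agent.R154.B5A

open scoped ENNReal

variable {B W : Type*} (Λ : B → ℝ≥0∞) (ht : B → ℕ) (dl : B → W → W) (cd : W → B → Set ℕ)

open Classical in
/-- probability of no contact in the first `j` blocks -/
noncomputable def G (j : ℕ) (w : W) : ℝ≥0∞ :=
  SL Λ j (fun L => if CD ht dl cd L w = ∅ then 1 else 0)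


open Classical in
/-- contact in a block with index in `(j, 3j]` -/
noncomputable def Kb (j : ℕ) (w : W) : ℝ≥0∞ :=
  SL Λ j (fun L1 => SL Λ (2 * j) (fun L2 => if CD ht dl cd L2 (act dl L1 w) = ∅ then 0 else 1))

lemma tsum_append_le (J : ℕ) (g : List B → ℝ≥0∞) :
    ∑' L : List B, (if L.length = J then ∑' L', g (L ++ L') else 0) ≤ ∑' L, g L := by
  induction J generalizing g with
  | zero =>
    rw [tsum_list]
    simp
  | succ J ih =>
    rw [tsum_list, tsum_list g]
    simp only [List.length_nil, List.length_cons, add_left_inj]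
    rw [if_neg (by omega), zero_add]
    refine le_add_left ?_
    exact ENNReal.tsum_le_tsum fun b => ih (fun L => g (b :: L))


lemma SL_HT (hΛ : ∑' b, Λ b = 1) (J : ℕ) :
    SL Λ J (fun L => (HT ht L : ℝ≥0∞)) = J * ∑' b, Λ b * (ht b : ℝ≥0∞) := by
  induction J with
  | zero => rw [SL_zero]; simp [HT_nil]
  | succ J ih =>
    rw [SL_succ]
    have : ∀ b, SL Λ J (fun L => (HT ht (b :: L) : ℝ≥0∞))
        = (ht b : ℝ≥0∞) + J * ∑' b, Λ b * (ht b : ℝ≥0∞) := by
      intro b
      simp only [HT_cons, Nat.cast_add]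
      rw [SL_add_fun Λ J (fun _ => (ht b : ℝ≥0∞)) (fun L => (HT ht L : ℝ≥0∞)), ih,
        SL_const Λ hΛ]
    simp_rw [this, mul_add]
    rw [ENNReal.tsum_add, ENNReal.tsum_mul_right, hΛ, one_mul]
    push_cast
    ring

open Classical in
lemma SL_markov (hΛ : ∑' b, Λ b = 1) (J n : ℕ) :
    n * SL Λ J (fun L => if n < HT ht L then 1 else 0)
      ≤ J * ∑' b, Λ b * (ht b : ℝ≥0∞) := by
  rw [← SL_HT Λ ht hΛ, ← SL_const_mul]
  refine SL_mono Λ J fun L _ => ?_
  by_cases h : n < HT ht L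
  · simp only [h, if_true, mul_one]; exact_mod_cast h.le
  · simp [h]

lemma exists_dyadic (j k r : ℕ) (h1 : j < k) (h2 : k ≤ 2 ^ r * j) :
    ∃ s ∈ Finset.range r, 2 ^ s * j < k ∧ k ≤ 2 * (2 ^ s * j) := by
  induction r with
  | zero => simp at h2; omega
  | succ r ih =>
    by_cases h : k ≤ 2 ^ r * j
    · obtain ⟨s, hs, h3⟩ := ih h
      exact ⟨s, Finset.mem_range.2 (by have := Finset.mem_range.1 hs; omega), h3⟩
    · refine ⟨r, Finset.mem_range.2 (by omega), by omega, ?_⟩
      rw [pow_succ] at h2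
      linarith


lemma G_le_one (hΛ : ∑' b, Λ b = 1) (j : ℕ) (w : W) : G Λ ht dl cd j w ≤ 1 := by
  classical
  rw [← SL_one Λ hΛ j, G]
  refine SL_mono Λ j fun L _ => ?_
  split_ifs <;> simp

lemma G_anti (hΛ : ∑' b, Λ b = 1) (w : W) : Antitone fun j => G Λ ht dl cd j w := by
  classical
  refine antitone_nat_of_succ_le fun j => ?_
  simp only [G]
  rw [SL_add]
  refine SL_mono Λ j fun L _ => ?_
  by_cases h : CD ht dl cd L w = ∅
  · rw [if_pos h]
    refine le_trans ?_ (SL_one Λ hΛ 1).le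
    refine SL_mono Λ 1 fun L' _ => ?_
    split_ifs <;> simp
  · rw [if_neg h]
    refine le_trans ?_ (SL_const Λ hΛ 1 0).le
    refine SL_mono Λ 1 fun L' _ => ?_
    rw [if_neg]
    rw [CD_append, Set.union_empty_iff]
    exact fun hh => h hh.1


lemma exists_t (a : ℝ≥0∞) (ha : a < 1) : ∃ t < 1, a ≤ t * t := by
  lift a to NNReal using ne_top_of_lt ha
  have ha' : (a : ℝ) < 1 := by exact_mod_cast ha
  have h0 : (0 : ℝ) ≤ a := a.2
  refine ⟨(((1 + a) / 2 : NNReal) : ℝ≥0∞), ?_, ?_⟩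
  · rw [← ENNReal.coe_one, ENNReal.coe_lt_coe, ← NNReal.coe_lt_coe]
    push_cast
    linarith
  · rw [← ENNReal.coe_mul, ENNReal.coe_le_coe, ← NNReal.coe_le_coe]
    push_cast
    nlinarith [sq_nonneg (1 - (a : ℝ))]

lemma G_far (hΛ : ∑' b, Λ b = 1) (hinj : ∀ b, Function.Injective (dl b))
    (hfar : ∀ b, {w | cd w b ≠ ∅}.Finite) (j : ℕ) (a : ℝ≥0∞) (ha : a < 1) :
    ∀ᶠ w in Filter.cofinite, a ≤ G Λ ht dl cd j w := by
  classical
  induction j generalizing a with
  | zero =>
    refine Filter.Eventually.of_forall fun w => ?_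
    rw [G, SL_zero]
    simpa [CD] using ha.le
  | succ j ih =>
    obtain ⟨t, ht1, hat⟩ := exists_t a ha
    have hlt : t < ∑' b, Λ b := by rw [hΛ]; exact ht1
    rw [ENNReal.tsum_eq_iSup_sum, lt_iSup_iff] at hlt
    obtain ⟨s, hs⟩ := hlt
    have h1 : ∀ b ∈ s, ∀ᶠ w in Filter.cofinite, cd w b = ∅ ∧ t ≤ G Λ ht dl cd j (dl b w) := by
      intro b _
      refine Filter.Eventually.and ?_ ?_
      · rw [Filter.eventually_cofinite]; exact hfar b
      · exact ((hinj b).tendsto_cofinite).eventually (ih t ht1)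
    have h2 : ∀ᶠ w in Filter.cofinite, ∀ b ∈ s, cd w b = ∅ ∧ t ≤ G Λ ht dl cd j (dl b w) :=
      (Filter.eventually_all_finset s).2 h1
    filter_upwards [h2] with w hw
    rw [G, SL_succ]
    calc a ≤ t * t := hat
      _ ≤ (∑ b ∈ s, Λ b) * t := mul_le_mul_left hs.le _
      _ = ∑ b ∈ s, Λ b * t := Finset.sum_mul _ _ _
      _ ≤ ∑ b ∈ s, Λ b * SL Λ j (fun L =>
          if CD ht dl cd (b :: L) w = ∅ then (1 : ℝ≥0∞) else 0) := by
          refine Finset.sum_le_sum fun b hb => mul_le_mul_right ?_ _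
          refine (hw b hb).2.trans ?_
          rw [G]
          refine SL_mono Λ j fun L _ => ?_
          have : CD ht dl cd (b :: L) w = (fun k => ht b + k) '' CD ht dl cd L (dl b w) := by
            simp [CD, (hw b hb).1]
          rw [this]
          simp only [Set.image_eq_empty]
          exact le_rfl
      _ ≤ _ := ENNReal.sum_le_tsum s



end Crest.Agent.R154.B5A
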