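import Mathlib
import Crest.Prelude.Def_RWRE

-- ▼ part R154/Defs_850
section

/-! Row 154, B0: definitions (paths, cylinders, shifts, stopping times, hitting and exit times). -/

set_option autoImplicit false

namespace Crest.Agent.R154

open MeasureTheory ProbabilityTheory Crest.ProbabilityR.RandomEnvironment
open scoped ENNReal

/-- Paths. -/
abbrev Path (d : ℕ) : Type := ℕ → Site d

variable {d : ℕ}

/-- `X` and `Y` agree up to time `n` (inclusive). -/
def Agree (n : ℕ) (X Y : Path d) : Prop := ∀ i, i ≤ n → X i = Y i

/-- The cylinder of `γ` at time `n`. -/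
def cyl (γ : Path d) (n : ℕ) : Set (Path d) := {X | Agree n X γ}

/-- The path shifted by `n`. -/
def shift (n : ℕ) (X : Path d) : Path d := fun i => X (n + i)

/-- Follow `γ` before time `n`, then `Y` (with `Y 0` at time `n`). -/
def splice (n : ℕ) (γ Y : Path d) : Path d := fun i => if i < n then γ i else Y (i - n)

/-- One-step probability from `x` to `y`. -/
noncomputable def stepP (ω : Environment d) (x y : Site d) : ℝ≥0∞ := oneStepLaw ω x {y}

/-- Quenched weight of `γ` up to time `n` (rows of `γ 0, …, γ (n-1)` are used). -/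
noncomputable def wt (ω : Environment d) (γ : Path d) (n : ℕ) : ℝ≥0∞ :=
  ∏ i ∈ Finset.range n, stepP ω (γ i) (γ (i + 1))

/-- Stopping times of the canonical filtration, for all paths simultaneously. -/
def IsStop (T : Path d → ℕ∞) : Prop :=
  ∀ (X Y : Path d) (n : ℕ), Agree n X Y → T X = n → T Y = n

/-- `F` is determined by the path up to time `T` on `{T < ∞}`. -/
def DetBy {α : Type*} (T : Path d → ℕ∞) (F : Path d → α) : Prop :=
  ∀ (X Y : Path d) (n : ℕ), Agree n X Y → T X = n → F X = F Y

/-- The first time the path satisfies the (site) predicate `p` (`⊤` if never). -/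
noncomputable def firstTime (p : Site d → Prop) (X : Path d) : ℕ∞ :=
  ⨅ n : {n : ℕ // p (X n)}, ((n : ℕ) : ℕ∞)

/-- Hitting time of a set of sites. -/
noncomputable def hit (A : Set (Site d)) (X : Path d) : ℕ∞ := firstTime (fun z => z ∈ A) X



/-- Two site sets are `R`-separated. `R = 0` means disjoint. -/
def Sep (R : ℕ) (U V : Set (Site d)) : Prop := ∀ a ∈ U, ∀ b ∈ V, ∃ i, (R : ℤ) < |a i - b i|

/-- the sites whose rows are used by `X` before time `n`. -/
def usedBefore (X : Path d) (n : ℕ) : Set (Site d) := {z | ∃ i, i < n ∧ X i = z}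

/-- the whole trace. -/
def trace (X : Path d) : Set (Site d) := Set.range X

/-- The annealed path law. -/
noncomputable def annealed (Q : Measure (Environment d)) (x : Site d) : Measure (Path d) :=
  Q.bind (fun ω => quenchedLaw ω x)



end Crest.Agent.R154
end

-- ▼ part R154/Quenched_850

/-! Row 154, B0a: the quenched law: cylinder formula, Markov property, measurability in `ω`. -/

set_option autoImplicit false

namespace Crest.Agent.R154

open MeasureTheory ProbabilityTheory Crest.ProbabilityR.RandomEnvironment
open scoped ENNReal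

variable {d : ℕ}

instance instProbQuenched (ω : Environment d) (x : Site d) :
    IsProbabilityMeasure (quenchedLaw ω x) := by
  unfold quenchedLaw
  infer_instance

/-! ### cylinders -/

lemma agree_refl (n : ℕ) (X : Path d) : Agree n X X := fun _ _ => rfl

lemma Agree.symm {n : ℕ} {X Y : Path d} (h : Agree n X Y) : Agree n Y X :=
  fun i hi => (h i hi).symm

lemma Agree.trans {n : ℕ} {X Y Z : Path d} (h : Agree n X Y) (h' : Agree n Y Z) : Agree n X Z :=
  fun i hi => (h i hi).trans (h' i hi)

lemma Agree.mono {m n : ℕ} {X Y : Path d} (h : Agree n X Y) (hmn : m ≤ n) : Agree m X Y :=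
  fun i hi => h i (hi.trans hmn)

/-- a finite history, extended by a constant. -/
def ext (n : ℕ) (h : Fin (n + 1) → Site d) : Path d := fun i => h ⟨min i n, by omega⟩

/-- the history of a path. -/
def hist (n : ℕ) (X : Path d) : Fin (n + 1) → Site d := fun i => X i

lemma ext_hist (n : ℕ) (X : Path d) : Agree n X (ext n (hist n X)) := by
  intro i hi
  simp [ext, hist, min_eq_left hi]

lemma hist_ext (n : ℕ) (h : Fin (n + 1) → Site d) : hist n (ext n h) = h := by
  funext i
  have : min (i : ℕ) n = i := min_eq_left (by omega)
  simp [ext, hist, this]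

lemma mem_cyl_ext_iff (n : ℕ) (h : Fin (n + 1) → Site d) (X : Path d) :
    X ∈ cyl (ext n h) n ↔ hist n X = h := by
  constructor
  · intro hX
    funext i
    have := hX i (by omega)
    simp only [hist]
    rw [this]
    have h2 : min (i : ℕ) n = i := min_eq_left (by omega)
    simp [ext, h2]
  · rintro rfl
    exact ext_hist n X

lemma measurable_hist (n : ℕ) : Measurable (hist (d := d) n) :=
  measurable_pi_lambda _ fun _ => measurable_pi_apply _

lemma measurableSet_cyl (γ : Path d) (n : ℕ) : MeasurableSet (cyl γ n) := by
  have : cyl γ n = ⋂ i ∈ Finset.range (n + 1), (fun X : Path d => X i) ⁻¹' {γ i} := by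
    ext X
    simp only [cyl, Agree, Set.mem_ofPred_eq, Finset.mem_range, Set.mem_iInter, Set.mem_preimage,
      Set.mem_singleton_iff]
    constructor
    · intro h i hi; exact h i (by omega)
    · intro h i hi; exact h i (by omega)
  rw [this]
  exact Finset.measurableSet_biInter _ fun i _ => measurable_pi_apply i (measurableSet_singleton _)

/-- functions determined by the first `n` coordinates are measurable. -/
lemma measurable_of_agree {α : Type*} [MeasurableSpace α] (n : ℕ) (F : Path d → α)
    (hF : ∀ X Y, Agree n X Y → F X = F Y) : Measurable F := by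
  have : F = (fun h => F (ext n h)) ∘ hist n := by
    funext X
    exact hF _ _ (ext_hist n X)
  rw [this]
  exact (measurable_of_countable _).comp (measurable_hist n)

lemma measurableSet_of_agree (n : ℕ) (A : Set (Path d))
    (hA : ∀ X Y, Agree n X Y → (X ∈ A ↔ Y ∈ A)) : MeasurableSet A := by
  have : Measurable (fun X : Path d => X ∈ A) :=
    measurable_of_agree n _ fun X Y h => propext (hA X Y h)
  exact measurableSet_setOfPred.2 this

/-- the π-system of cylinders. -/
def cyls (d : ℕ) : Set (Set (Path d)) := {s | ∃ (γ : Path d) (n : ℕ), s = cyl γ n}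

lemma isPiSystem_cyls : IsPiSystem (cyls d) := by
  rintro _ ⟨γ, n, rfl⟩ _ ⟨δ, m, rfl⟩ ⟨X, hX, hX'⟩
  refine ⟨X, max n m, ?_⟩
  ext Y
  constructor
  · rintro ⟨h1, h2⟩ i hi
    rcases le_total n m with h | h
    · rw [max_eq_right h] at hi
      exact ((hX' i hi).trans (h2 i hi).symm).symm
    · rw [max_eq_left h] at hi
      exact ((hX i hi).trans (h1 i hi).symm).symm
  · intro hY
    exact ⟨fun i hi => (hY i (hi.trans (le_max_left _ _))).trans (hX i hi),
      fun i hi => (hY i (hi.trans (le_max_right _ _))).trans (hX' i hi)⟩

lemma generateFrom_cyls : (inferInstance : MeasurableSpace (Path d)) =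
    MeasurableSpace.generateFrom (cyls d) := by
  apply le_antisymm
  · change MeasurableSpace.pi ≤ _
    refine iSup_le fun n => ?_
    rw [← measurable_iff_comap_le]
    refine @measurable_to_countable' (Site d) (Path d) _ _ (MeasurableSpace.generateFrom (cyls d))
      (fun X : Path d => X n) ?_
    intro a
    have : (fun X : Path d => X n) ⁻¹' {a} =
        ⋃ h : {h : Fin (n + 1) → Site d // ext n h n = a}, cyl (ext n h.1) n := by
      ext X
      simp only [Set.mem_preimage, Set.mem_singleton_iff, Set.mem_iUnion, Subtype.exists]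
      constructor
      · intro hX
        refine ⟨hist n X, ?_, ext_hist n X⟩
        rw [← ext_hist n X n le_rfl, hX]
      · rintro ⟨h, hh, hX⟩
        rw [hX n le_rfl, hh]
    rw [this]
    exact MeasurableSet.iUnion fun h => MeasurableSpace.measurableSet_generateFrom ⟨_, _, rfl⟩
  · refine MeasurableSpace.generateFrom_le ?_
    rintro _ ⟨γ, n, rfl⟩
    exact measurableSet_cyl γ n

/-- extensionality of finite measures on paths. -/
lemma measure_ext_cyl {μ ν : Measure (Path d)} [IsFiniteMeasure μ] [IsFiniteMeasure ν]
    (h : ∀ (γ : Path d) (n : ℕ), μ (cyl γ n) = ν (cyl γ n)) : μ = ν := by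
  refine ext_of_generate_finite (cyls d) generateFrom_cyls isPiSystem_cyls ?_ ?_
  · rintro _ ⟨γ, n, rfl⟩
    exact h γ n
  · have : (Set.univ : Set (Path d)) = ⋃ h : Fin 1 → Site d, cyl (ext 0 h) 0 := by
      ext X
      simp only [Set.mem_univ, Set.mem_iUnion, true_iff]
      exact ⟨hist 0 X, ext_hist 0 X⟩
    have hd : Pairwise (Function.onFun Disjoint fun h : Fin 1 → Site d => cyl (ext 0 h) 0) := by
      intro h h' hne
      rw [Function.onFun, Set.disjoint_left]
      intro X hX hX'
      rw [mem_cyl_ext_iff] at hX hX'
      exact hne (hX.symm.trans hX')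
    rw [this, measure_iUnion hd fun _ => measurableSet_cyl _ _,
      measure_iUnion hd fun _ => measurableSet_cyl _ _]
    exact tsum_congr fun h' => h _ _

/-! ### the cylinder formula -/

lemma quenched_map_frestrictLe_zero (ω : Environment d) (x : Site d) :
    (quenchedLaw ω x).map (fun X : Path d => X 0) = Measure.dirac x := by
  have h1 : (quenchedLaw ω x).map (Preorder.frestrictLe 0)
      = (Measure.dirac x).map (MeasurableEquiv.piUnique (fun _ : Finset.Iic 0 => Site d)).symm := by
    rw [quenchedLaw, Kernel.trajMeasure, Measure.map_comp _ _ (by fun_prop),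
      Kernel.traj_map_frestrictLe, Kernel.partialTraj_self, Measure.id_comp]
  have h2 : (fun X : Path d => X 0)
      = (fun x : (i : Finset.Iic 0) → Site d => x ⟨0, by simp⟩) ∘ (Preorder.frestrictLe 0) := by
    funext π; rfl
  rw [h2, ← Measure.map_map (measurable_pi_apply _) (by fun_prop), h1,
    Measure.map_map (measurable_pi_apply _) (by fun_prop)]
  have h3 : (fun x : (i : Finset.Iic 0) → Site d => x ⟨0, by simp⟩) ∘
      (MeasurableEquiv.piUnique (fun _ : Finset.Iic 0 => Site d)).symm = id := by
    funext y
    rfl
  exact (congrArg (fun f => Measure.map f (Measure.dirac x)) h3).trans Measure.map_id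

lemma quenched_cyl_zero (ω : Environment d) (x : Site d) (γ : Path d) :
    quenchedLaw ω x (cyl γ 0) = if γ 0 = x then 1 else 0 := by
  have h : cyl γ 0 = (fun X : Path d => X 0) ⁻¹' {γ 0} := by
    ext X
    simp [cyl, Agree]
  rw [h, ← Measure.map_apply (measurable_pi_apply 0) (measurableSet_singleton _),
    quenched_map_frestrictLe_zero, Measure.dirac_apply' _ (measurableSet_singleton _)]
  by_cases hx : γ 0 = x
  · simp [hx]
  · rw [if_neg hx, Set.indicator_of_notMem]
    simpa [eq_comm] using hx

lemma quenched_cyl_succ (ω : Environment d) (x : Site d) (γ : Path d) (n : ℕ) :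
    quenchedLaw ω x (cyl γ (n + 1)) = quenchedLaw ω x (cyl γ n) * stepP ω (γ n) (γ (n + 1)) := by
  set P := quenchedLaw ω x with hP
  have hmap : P.map (Preorder.frestrictLe n) ⊗ₘ historyKernel ω n
      = P.map (fun X => (Preorder.frestrictLe n X, X (n + 1))) :=
    Kernel.map_frestrictLe_trajMeasure_compProd_eq_map_trajMeasure
  have hfl : Measurable (Preorder.frestrictLe (π := fun _ : ℕ => Site d) n) := by fun_prop
  let h0 : (i : Finset.Iic n) → Site d := Preorder.frestrictLe (π := fun _ : ℕ => Site d) n γ
  have e1 : cyl γ (n + 1) = (fun X : Path d => (Preorder.frestrictLe (π := fun _ : ℕ => Site d) n X,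
      X (n + 1))) ⁻¹' ({h0} ×ˢ {γ (n + 1)}) := by
    ext X
    simp only [cyl, Agree, Set.mem_ofPred_eq, Set.mem_preimage, Set.mem_prod,
      Set.mem_singleton_iff, h0]
    constructor
    · intro h
      refine ⟨?_, h _ le_rfl⟩
      funext i
      exact h i (by have := Finset.mem_Iic.1 i.2; omega)
    · rintro ⟨h1, h2⟩ i hi
      rcases Nat.lt_or_ge n i with hn | hn
      · have : i = n + 1 := by omega
        rw [this, h2]
      · exact congrFun h1 ⟨i, Finset.mem_Iic.2 hn⟩
  have e2 : cyl γ n = Preorder.frestrictLe (π := fun _ : ℕ => Site d) n ⁻¹' {h0} := by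
    ext X
    simp only [cyl, Agree, Set.mem_ofPred_eq, Set.mem_preimage, Set.mem_singleton_iff, h0]
    constructor
    · intro h
      funext i
      exact h i (Finset.mem_Iic.1 i.2)
    · intro h i hi
      exact congrFun h ⟨i, Finset.mem_Iic.2 hi⟩
  have hs : MeasurableSet ({h0} : Set ((i : Finset.Iic n) → Site d)) := measurableSet_singleton _
  have hs2 : MeasurableSet ({γ (n + 1)} : Set (Site d)) := measurableSet_singleton _
  rw [e1, ← Measure.map_apply (by fun_prop) (hs.prod hs2), ← hmap,
    Measure.compProd_apply_prod hs hs2, e2, ← Measure.map_apply hfl hs]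
  rw [Measure.restrict_singleton, lintegral_smul_measure, lintegral_dirac]
  rfl

/-- **cylinder formula** -/
theorem quenched_cyl (ω : Environment d) (x : Site d) (γ : Path d) (n : ℕ) :
    quenchedLaw ω x (cyl γ n) = if γ 0 = x then wt ω γ n else 0 := by
  induction n with
  | zero => rw [quenched_cyl_zero]; simp [wt]
  | succ n ih =>
    rw [quenched_cyl_succ, ih, wt, wt, Finset.prod_range_succ]
    by_cases hx : γ 0 = x <;> simp [hx]

lemma stepP_eq (ω : Environment d) (x y : Site d) :
    stepP ω x y = ∑ e : Step d, if x + stepVec e = y then ENNReal.ofReal ((ω x).1 e) else 0 := by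
  classical
  simp only [stepP, oneStepLaw, Measure.coe_finsetSum, Measure.coe_smul, Finset.sum_apply,
    Pi.smul_apply, smul_eq_mul]
  refine Finset.sum_congr rfl fun e _ => ?_
  rw [Measure.dirac_apply' _ (measurableSet_singleton _)]
  by_cases h : x + stepVec e = y <;> simp [h]

lemma stepVec_injective : Function.Injective (stepVec (d := d)) := by
  rintro ⟨i, b⟩ ⟨j, c⟩ h
  have hi : i = j := by
    by_contra hne
    have := congrFun h i
    simp only [stepVec, Pi.single_eq_same, Pi.single_eq_of_ne hne] at this
    split_ifs at this <;> omega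
  subst hi
  have := congrFun h i
  simp only [stepVec, Pi.single_eq_same] at this
  cases b <;> cases c <;> simp_all

lemma stepP_add (ω : Environment d) (x : Site d) (e : Step d) :
    stepP ω x (x + stepVec e) = ENNReal.ofReal ((ω x).1 e) := by
  rw [stepP_eq, Finset.sum_eq_single e]
  · simp
  · intro e' _ hne
    rw [if_neg]
    intro h
    exact hne (stepVec_injective (add_left_cancel h))
  · intro h
    exact absurd (Finset.mem_univ e) h

lemma stepP_eq_zero (ω : Environment d) (x y : Site d) (h : ∀ e : Step d, x + stepVec e ≠ y) :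
    stepP ω x y = 0 := by
  rw [stepP_eq]
  exact Finset.sum_eq_zero fun e _ => if_neg (h e)

lemma stepP_congr {ω ω' : Environment d} {x : Site d} (h : ω x = ω' x) (y : Site d) :
    stepP ω x y = stepP ω' x y := by
  rw [stepP_eq, stepP_eq, h]

lemma measurable_stepP (x y : Site d) : Measurable fun ω : Environment d => stepP ω x y := by
  simp_rw [stepP_eq]
  refine Finset.measurable_sum _ fun e _ => ?_
  by_cases h : x + stepVec e = y
  · simp only [h, if_true]
    refine ENNReal.measurable_ofReal.comp ?_
    exact (measurable_pi_apply e).comp (measurable_subtype_coe.comp (measurable_pi_apply x))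
  · simp only [h, if_false]
    exact measurable_const

lemma measurable_wt (γ : Path d) (n : ℕ) : Measurable fun ω : Environment d => wt ω γ n :=
  Finset.measurable_prod _ fun _ _ => measurable_stepP _ _

lemma wt_congr {ω ω' : Environment d} {γ δ : Path d} {n : ℕ} (h : ∀ i, i < n → ω (γ i) = ω' (γ i))
    (hγ : Agree n γ δ) : wt ω γ n = wt ω' δ n := by
  unfold wt
  refine Finset.prod_congr rfl fun i hi => ?_
  have hi' := Finset.mem_range.1 hi
  rw [hγ i (by omega), hγ (i + 1) (by omega)]
  refine stepP_congr ?_ _
  rw [← hγ i (by omega)]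
  exact h i hi'

lemma wt_add (ω : Environment d) (γ : Path d) (n m : ℕ) :
    wt ω γ (n + m) = wt ω γ n * wt ω (shift n γ) m := by
  unfold wt shift
  rw [Finset.prod_range_add]
  rfl

/-- **measurability of the quenched law in the environment** -/
theorem measurable_quenched (x : Site d) :
    Measurable fun ω : Environment d => quenchedLaw ω x := by
  refine Measurable.measure_of_isPiSystem_of_isProbabilityMeasure
    (S := cyls d) generateFrom_cyls isPiSystem_cyls ?_
  rintro _ ⟨γ, n, rfl⟩
  simp_rw [quenched_cyl]
  by_cases h : γ 0 = x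
  · simp only [h, if_true]; exact measurable_wt γ n
  · simp only [h, if_false]; exact measurable_const

lemma measurable_quenched_apply (x : Site d) {A : Set (Path d)} (hA : MeasurableSet A) :
    Measurable fun ω : Environment d => quenchedLaw ω x A :=
  (Measure.measurable_coe hA).comp (measurable_quenched x)

/-- the quenched kernel. -/
noncomputable def qK (x : Site d) : Kernel (Environment d) (Path d) :=
  ⟨fun ω => quenchedLaw ω x, measurable_quenched x⟩

instance (x : Site d) : IsMarkovKernel (qK (d := d) x) := ⟨fun ω => instProbQuenched ω x⟩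

/-! ### shifts and the Markov property -/

lemma measurable_shift (n : ℕ) : Measurable (shift (d := d) n) :=
  measurable_pi_lambda _ fun _ => measurable_pi_apply _

lemma shift_splice (n : ℕ) (γ Y : Path d) : shift n (splice n γ Y) = Y := by
  funext i
  simp [shift, splice]

/-- **Markov property at time `n` on a cylinder (measure form)** -/
theorem markov_cyl (ω : Environment d) (x : Site d) (γ : Path d) (n : ℕ) :
    ((quenchedLaw ω x).restrict (cyl γ n)).map (shift n)
      = quenchedLaw ω x (cyl γ n) • quenchedLaw ω (γ n) := by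
  haveI : IsFiniteMeasure (((quenchedLaw ω x).restrict (cyl γ n)).map (shift n)) :=
    inferInstance
  haveI : IsFiniteMeasure (quenchedLaw ω x (cyl γ n) • quenchedLaw ω (γ n)) := by
    refine ⟨?_⟩
    simp only [Measure.smul_apply, measure_univ, smul_eq_mul, mul_one]
    exact measure_lt_top _ _
  refine measure_ext_cyl fun δ m => ?_
  rw [Measure.map_apply (measurable_shift n) (measurableSet_cyl δ m),
    Measure.restrict_apply (measurable_shift n (measurableSet_cyl δ m)), Measure.smul_apply,
    smul_eq_mul]
  by_cases h : δ 0 = γ n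
  · have hsp : shift n ⁻¹' cyl δ m ∩ cyl γ n = cyl (splice n γ δ) (n + m) := by
      ext X
      simp only [Set.mem_inter_iff, Set.mem_preimage, cyl, Set.mem_ofPred_eq, Agree, shift, splice]
      constructor
      · rintro ⟨h1, h2⟩ i hi
        by_cases hin : i < n
        · rw [if_pos hin]; exact h2 i hin.le
        · rw [if_neg hin, ← h1 (i - n) (by omega)]
          congr 1; omega
      · intro hX
        refine ⟨fun i hi => ?_, fun i hi => ?_⟩
        · rw [hX (n + i) (by omega), if_neg (by omega)]
          congr 1; omega
        · rcases Nat.lt_or_ge i n with hin | hin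
          · rw [hX i (by omega), if_pos hin]
          · have : i = n := by omega
            subst this
            rw [hX i (by omega), if_neg (by omega)]
            simpa using h
    rw [hsp, quenched_cyl, quenched_cyl, quenched_cyl, if_pos h, wt_add, shift_splice]
    have h1 : wt ω (splice n γ δ) n = wt ω γ n := by
      refine wt_congr (fun i _ => rfl) ?_
      intro i hi
      rcases Nat.lt_or_ge i n with hin | hin
      · simp [splice, hin]
      · have : i = n := by omega
        subst this
        simp [splice, h]
    rw [h1]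
    have h2 : splice n γ δ 0 = γ 0 := by
      rcases Nat.eq_zero_or_pos n with rfl | hn
      · simp [splice, h]
      · simp [splice, hn]
    rw [h2]
    by_cases hx : γ 0 = x <;> simp [hx]
  · have hsp : shift n ⁻¹' cyl δ m ∩ cyl γ n = ∅ := by
      ext X
      simp only [Set.mem_inter_iff, Set.mem_preimage, cyl, Set.mem_ofPred_eq, Agree, shift,
        Set.mem_empty_iff_false, iff_false, not_and]
      intro h1 h2
      apply h
      rw [← h1 0 (Nat.zero_le _), ← h2 n le_rfl]
      rfl
    rw [hsp, quenched_cyl ω (γ n) δ m, if_neg h]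
    simp

/-- **Markov property at time `n`, integral form.** -/
theorem markov_time (ω : Environment d) (x : Site d) (n : ℕ) (G : Path d → ℝ≥0∞)
    (hG : ∀ X Y, Agree n X Y → G X = G Y) (F : Path d → ℝ≥0∞) (hF : Measurable F) :
    ∫⁻ X, G X * F (shift n X) ∂(quenchedLaw ω x)
      = ∫⁻ X, G X * (∫⁻ Y, F Y ∂(quenchedLaw ω (X n))) ∂(quenchedLaw ω x) := by
  have hdec : ∀ H : Path d → ℝ≥0∞, Measurable H →
      ∫⁻ X, G X * H X ∂(quenchedLaw ω x)
        = ∑' h : Fin (n + 1) → Site d, G (ext n h) *
            ∫⁻ X in cyl (ext n h) n, H X ∂(quenchedLaw ω x) := by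
    intro H hH
    have hu : (Set.univ : Set (Path d)) = ⋃ h : Fin (n + 1) → Site d, cyl (ext n h) n := by
      ext X
      simp only [Set.mem_univ, Set.mem_iUnion, true_iff]
      exact ⟨hist n X, ext_hist n X⟩
    have hd : Pairwise (Function.onFun Disjoint
        fun h : Fin (n + 1) → Site d => cyl (ext n h) n) := by
      intro h h' hne
      rw [Function.onFun, Set.disjoint_left]
      intro X hX hX'
      rw [mem_cyl_ext_iff] at hX hX'
      exact hne (hX.symm.trans hX')
    rw [← setLIntegral_univ, hu, lintegral_iUnion (fun _ => measurableSet_cyl _ _) hd]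
    refine tsum_congr fun h => ?_
    rw [← lintegral_const_mul _ hH]
    refine setLIntegral_congr_fun (measurableSet_cyl _ _) fun X hX => ?_
    rw [hG X (ext n h) hX]
  rw [hdec (fun X => F (shift n X)) (hF.comp (measurable_shift n)), hdec _ ?_]
  · refine tsum_congr fun h => ?_
    congr 1
    have h1 : ∫⁻ X in cyl (ext n h) n, F (shift n X) ∂(quenchedLaw ω x)
        = ∫⁻ Y, F Y ∂(((quenchedLaw ω x).restrict (cyl (ext n h) n)).map (shift n)) := by
      rw [lintegral_map hF (measurable_shift n)]
    rw [h1, markov_cyl, lintegral_smul_measure]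
    have h2 : ∫⁻ X in cyl (ext n h) n, (∫⁻ Y, F Y ∂(quenchedLaw ω (X n))) ∂(quenchedLaw ω x)
        = ∫⁻ _ in cyl (ext n h) n, (∫⁻ Y, F Y ∂(quenchedLaw ω (ext n h n))) ∂(quenchedLaw ω x) := by
      refine setLIntegral_congr_fun (measurableSet_cyl _ _) fun X hX => ?_
      rw [hX n le_rfl]
    rw [h2, setLIntegral_const, mul_comm]
    rfl
  · exact measurable_of_agree n _ fun X Y h => by rw [h n le_rfl]

end Crest.Agent.R154
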