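import Mathlib
import Crest.Agent.R154.Quenched_850

-- ▼ part R154/Doob_804
section

/-!
Row 154, block B0d: maximal inequality for superharmonic functions along a Markov family with
finitely many steps, and `E sup ≤ a (1 + log (1/a))`.  Mathlib only.  (helper804)

The hypothesis `hM` is exactly the Markov property at time one:
`κ x B = ∑ e, p x e * κ (nb x e) {X | consP x X ∈ B}`.
-/

set_option autoImplicit false

open MeasureTheory

namespace Crest.Agent.R154.Doob804

/-- Put `x` in front of the path `X`. -/
def consP {S : Type*} (x : S) (X : ℕ → S) : ℕ → S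
  | 0 => x
  | n + 1 => X n

@[simp] theorem consP_zero {S : Type*} (x : S) (X : ℕ → S) : consP x X 0 = x := rfl
@[simp] theorem consP_succ {S : Type*} (x : S) (X : ℕ → S) (n : ℕ) :
    consP x X (n + 1) = X n := rfl

theorem measurable_consP {S : Type*} [MeasurableSpace S] (x : S) :
    Measurable (consP x : (ℕ → S) → ℕ → S) := by
  refine measurable_pi_lambda _ ?_
  intro n
  cases n with
  | zero => exact measurable_const
  | succ n => exact measurable_pi_apply n

/-- The event that, while staying in `U`, the function `h` reaches `lam` by time `N`. -/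
def hitBy {S : Type*} (h : S → ENNReal) (U : Set S) (lam : ENNReal) (N : ℕ) : Set (ℕ → S) :=
  {X | ∃ n ≤ N, (∀ k < n, X k ∈ U) ∧ lam ≤ h (X n)}

/-- The event that, while staying in `U`, the function `h` reaches `lam`. -/
def hitEver {S : Type*} (h : S → ENNReal) (U : Set S) (lam : ENNReal) : Set (ℕ → S) :=
  {X | ∃ n, (∀ k < n, X k ∈ U) ∧ lam ≤ h (X n)}

section
variable {S : Type*} [MeasurableSpace S] [DiscreteMeasurableSpace S]

theorem measurableSet_hitBy (h : S → ENNReal) (U : Set S) (lam : ENNReal) (N : ℕ) :
    MeasurableSet (hitBy h U lam N) := by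
  have : hitBy h U lam N = ⋃ n ∈ Finset.range (N + 1),
      ((⋂ k ∈ Finset.range n, (fun X : ℕ → S => X k) ⁻¹' U) ∩
        (fun X : ℕ → S => X n) ⁻¹' {z | lam ≤ h z}) := by
    ext X
    simp only [hitBy, Set.mem_setOf_eq, Finset.mem_range, Set.mem_iUnion, Set.mem_inter_iff,
      Set.mem_iInter, Set.mem_preimage, exists_prop, Nat.lt_succ_iff]
  rw [this]
  refine Finset.measurableSet_biUnion _ fun n _ => MeasurableSet.inter ?_ ?_
  · exact Finset.measurableSet_biInter _ fun k _ =>
      (measurable_pi_apply k) (MeasurableSet.of_discrete)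
  · exact (measurable_pi_apply n) (MeasurableSet.of_discrete)

theorem hitEver_eq (h : S → ENNReal) (U : Set S) (lam : ENNReal) :
    hitEver h U lam = ⋃ N, hitBy h U lam N := by
  ext X
  simp only [hitEver, hitBy, Set.mem_setOf_eq, Set.mem_iUnion]
  constructor
  · rintro ⟨n, hn⟩
    exact ⟨n, n, le_rfl, hn⟩
  · rintro ⟨N, n, _, hn⟩
    exact ⟨n, hn⟩


variable {E : Type*} [Fintype E] (nb : S → E → S) (p : S → E → ENNReal)
  (κ : S → Measure (ℕ → S)) [∀ x, IsProbabilityMeasure (κ x)]
  (hM : ∀ (x : S) (B : Set (ℕ → S)), MeasurableSet B →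
    κ x B = ∑ e, p x e * κ (nb x e) {X | consP x X ∈ B})

include hM

/-- Finite-horizon maximal inequality. -/
theorem hitBy_le (h : S → ENNReal) (U : Set S)
    (hsup : ∀ z ∈ U, ∑ e, p z e * h (nb z e) ≤ h z) {lam : ENNReal} (h0 : lam ≠ 0)
    (ht : lam ≠ ⊤) (N : ℕ) : ∀ x, κ x (hitBy h U lam N) ≤ h x / lam := by
  induction N with
  | zero =>
    intro x
    by_cases hx : lam ≤ h x
    · refine prob_le_one.trans ?_
      rw [ENNReal.le_div_iff_mul_le (Or.inl h0) (Or.inl ht), one_mul]
      exact hx
    · rw [hM x _ (measurableSet_hitBy h U lam 0)]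
      have he : {X : ℕ → S | consP x X ∈ hitBy h U lam 0} = ∅ := by
        ext X
        simp only [hitBy, Set.mem_setOf_eq, Nat.le_zero, exists_eq_left, consP_zero,
          Set.mem_empty_iff_false, iff_false, not_and]
        intro _
        exact hx
      simp [he]
  | succ N ih =>
    intro x
    by_cases hx : lam ≤ h x
    · refine prob_le_one.trans ?_
      rw [ENNReal.le_div_iff_mul_le (Or.inl h0) (Or.inl ht), one_mul]
      exact hx
    · rw [hM x _ (measurableSet_hitBy h U lam (N + 1))]
      by_cases hU : x ∈ U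
      · have hsub : {X : ℕ → S | consP x X ∈ hitBy h U lam (N + 1)} ⊆ hitBy h U lam N := by
          rintro X ⟨n, hn, h1, h2⟩
          cases n with
          | zero => exact absurd h2 hx
          | succ n =>
            refine ⟨n, by omega, ?_, h2⟩
            intro k hk
            exact h1 (k + 1) (by omega)
        calc ∑ e, p x e * κ (nb x e) {X | consP x X ∈ hitBy h U lam (N + 1)}
            ≤ ∑ e, p x e * (h (nb x e) / lam) := by
              refine Finset.sum_le_sum fun e _ => ?_
              gcongr
              exact (measure_mono hsub).trans (ih _)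
          _ = (∑ e, p x e * h (nb x e)) / lam := by
              rw [ENNReal.div_eq_inv_mul, Finset.mul_sum]
              refine Finset.sum_congr rfl fun e _ => ?_
              rw [ENNReal.div_eq_inv_mul]
              ring
          _ ≤ h x / lam := by
              gcongr
              exact hsup x hU
      · have he : {X : ℕ → S | consP x X ∈ hitBy h U lam (N + 1)} = ∅ := by
          ext X
          simp only [Set.mem_setOf_eq, Set.mem_empty_iff_false, iff_false]
          rintro ⟨n, hn, h1, h2⟩
          cases n with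
          | zero => exact hx h2
          | succ n => exact hU (h1 0 (by omega))
        simp [he]

/-- **Maximal inequality** for a function superharmonic on `U`, along the walk up to the exit
of `U`. -/
theorem hitEver_le (h : S → ENNReal) (U : Set S)
    (hsup : ∀ z ∈ U, ∑ e, p z e * h (nb z e) ≤ h z) {lam : ENNReal} (h0 : lam ≠ 0)
    (ht : lam ≠ ⊤) (x : S) : κ x (hitEver h U lam) ≤ h x / lam := by
  rw [hitEver_eq]
  have hmono : Monotone fun N => hitBy h U lam N := by
    intro M N hMN X
    rintro ⟨n, hn, h1⟩
    exact ⟨n, hn.trans hMN, h1⟩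
  rw [hmono.measure_iUnion]
  exact iSup_le fun N => hitBy_le nb p κ hM h U hsup h0 ht N x

/-- The probability of an event that is invariant under putting a point of `U` in front is
harmonic on `U`. -/
theorem harmonic_event (B : Set (ℕ → S)) (hB : MeasurableSet B) (U : Set S)
    (hinv : ∀ z ∈ U, ∀ X : ℕ → S, consP z X ∈ B ↔ X ∈ B) :
    ∀ z ∈ U, ∑ e, p z e * κ (nb z e) B = κ z B := by
  intro z hz
  rw [hM z B hB]
  refine Finset.sum_congr rfl fun e _ => ?_
  congr 2
  ext X
  exact (hinv z hz X).symm

/-- **Doob for events**: `P^x(sup_{n ≤ exit} P^{X_n}(B) ≥ lam) ≤ P^x(B) / lam`. -/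
theorem doob_event (B : Set (ℕ → S)) (hB : MeasurableSet B) (U : Set S)
    (hinv : ∀ z ∈ U, ∀ X : ℕ → S, consP z X ∈ B ↔ X ∈ B) {lam : ENNReal} (h0 : lam ≠ 0)
    (ht : lam ≠ ⊤) (x : S) :
    κ x (hitEver (fun z => κ z B) U lam) ≤ κ x B / lam :=
  hitEver_le nb p κ hM _ U
    (fun z hz => (harmonic_event nb p κ hM B hB U hinv z hz).le) h0 ht x

end

/-! ### `E sup ≤ a (1 + log (1/a))` -/


section
variable {S : Type*} [MeasurableSpace S] [DiscreteMeasurableSpace S]
variable {E : Type*} [Fintype E] (nb : S → E → S) (p : S → E → ENNReal)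
  (κ : S → Measure (ℕ → S)) [∀ x, IsProbabilityMeasure (κ x)]
  (hM : ∀ (x : S) (B : Set (ℕ → S)), MeasurableSet B →
    κ x B = ∑ e, p x e * κ (nb x e) {X | consP x X ∈ B})








end

end Crest.Agent.R154.Doob804
end

-- ▼ part R154/DoobQ_804

/-!
Row 154, block B0d: the maximal inequalities of `Doob_804` for the quenched law.  (helper804)

`quenched_markov_one`: Markov property at time one.
`q_hitEver_le`, `q_doob_event`, `q_low_event`, `q_lintegral_sup_event_le`: quenched.
`ann_low_event`, `ann_lintegral_sup_event_le`: annealed.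
-/

set_option autoImplicit false

open MeasureTheory ProbabilityTheory Crest.ProbabilityR.RandomEnvironment
open scoped ENNReal

namespace Crest.Agent.R154.Doob804

variable {d : ℕ}

theorem quenched_start (ω : Environment d) (x : Site d) :
    ∀ᵐ X ∂(quenchedLaw ω x), X 0 = x := by
  have h := quenched_cyl ω x (fun _ => x) 0
  rw [if_pos rfl] at h
  have h1 : wt ω (fun _ => x) 0 = 1 := by simp [wt]
  rw [h1] at h
  have h2 : cyl (fun _ => x) 0 = {X : Path d | X 0 = x} := by
    ext X
    simp [cyl, Agree]
  rw [h2] at h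
  rw [ae_iff]
  have h3 : {X : Path d | ¬ X 0 = x} = {X : Path d | X 0 = x}ᶜ := rfl
  rw [h3, prob_compl_eq_one_sub (by
    have : {X : Path d | X 0 = x} = (fun X : Path d => X 0) ⁻¹' {x} := rfl
    rw [this]
    exact measurable_pi_apply 0 (measurableSet_singleton x)), h]
  simp

theorem quenched_one_apply (ω : Environment d) (x y : Site d) :
    quenchedLaw ω x {X | X 1 = y} = stepP ω x y := by
  have h := quenched_cyl ω x (fun n => if n = 0 then x else y) 1
  rw [if_pos (by simp)] at h
  have h1 : wt ω (fun n => if n = 0 then x else y) 1 = stepP ω x y := by simp [wt]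
  rw [h1] at h
  rw [← h]
  refine measure_congr ?_
  filter_upwards [quenched_start ω x] with X hX
  refine propext ?_
  show X 1 = y ↔ Agree 1 X _
  constructor
  · intro h1 i hi
    interval_cases i
    · simpa using hX
    · simpa using h1
  · intro h1
    simpa using h1 1 le_rfl

theorem quenched_lintegral_one (ω : Environment d) (x : Site d) (f : Site d → ℝ≥0∞) :
    ∫⁻ X, f (X 1) ∂(quenchedLaw ω x) = ∑ e : Step d, ENNReal.ofReal ((ω x).1 e) *
      f (x + stepVec e) := by
  classical
  have hm : Measurable fun X : Path d => X 1 := measurable_pi_apply 1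
  have h0 : ∫⁻ X, f (X 1) ∂(quenchedLaw ω x)
      = ∫⁻ y, f y ∂((quenchedLaw ω x).map (fun X => X 1)) :=
    (lintegral_map (Measurable.of_discrete) hm).symm
  rw [h0, lintegral_countable']
  have h1 : ∀ y : Site d, (quenchedLaw ω x).map (fun X => X 1) {y}
      = ∑ e : Step d, if x + stepVec e = y then ENNReal.ofReal ((ω x).1 e) else 0 := by
    intro y
    rw [Measure.map_apply hm (measurableSet_singleton y), ← stepP_eq, ← quenched_one_apply]
    rfl
  simp_rw [h1, Finset.mul_sum]
  rw [Summable.tsum_finsetSum fun _ _ => ENNReal.summable]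
  refine Finset.sum_congr rfl fun e _ => ?_
  rw [tsum_eq_single (x + stepVec e)]
  · rw [if_pos rfl, mul_comm]
  · intro y hy
    rw [if_neg (Ne.symm hy), mul_zero]

/-- **Markov property at time one** for the quenched law. -/
theorem quenched_markov_one (ω : Environment d) (x : Site d) (B : Set (Path d))
    (hB : MeasurableSet B) :
    quenchedLaw ω x B = ∑ e : Step d, ENNReal.ofReal ((ω x).1 e) *
      quenchedLaw ω (x + stepVec e) {X | consP x X ∈ B} := by
  have hB' : MeasurableSet {X : Path d | consP x X ∈ B} := measurable_consP x hB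
  have h1 : quenchedLaw ω x B
      = ∫⁻ X, 1 * (Set.indicator {X : Path d | consP x X ∈ B} (fun _ => (1 : ℝ≥0∞)) (shift 1 X))
        ∂(quenchedLaw ω x) := by
    rw [← lintegral_indicator_one hB]
    refine lintegral_congr_ae ?_
    filter_upwards [quenched_start ω x] with X hX
    have hc : consP x (shift 1 X) = X := by
      funext i
      cases i with
      | zero => exact hX.symm
      | succ i => show X (1 + i) = X (i + 1); rw [Nat.add_comm]
    rw [one_mul]
    by_cases hXB : X ∈ B
    · rw [Set.indicator_of_mem hXB, Set.indicator_of_mem (by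
        show consP x (shift 1 X) ∈ B
        rw [hc]; exact hXB)]
      rfl
    · rw [Set.indicator_of_notMem hXB, Set.indicator_of_notMem (by
        show ¬ consP x (shift 1 X) ∈ B
        rw [hc]; exact hXB)]
  rw [h1, markov_time ω x 1 (fun _ => 1) (fun _ _ _ => rfl) _
    (measurable_const.indicator hB')]
  simp_rw [one_mul]
  rw [quenched_lintegral_one ω x (fun y => ∫⁻ Y, Set.indicator {X : Path d | consP x X ∈ B}
    (fun _ => (1 : ℝ≥0∞)) Y ∂(quenchedLaw ω y))]
  refine Finset.sum_congr rfl fun e _ => ?_
  congr 1
  have := lintegral_indicator_one (μ := quenchedLaw ω (x + stepVec e)) hB'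
  exact this


/-- `P_ω^z(B)` is harmonic on `U` when `B` is invariant under prepending points of `U`. -/
theorem q_harmonic_event (ω : Environment d) (B : Set (Path d)) (hB : MeasurableSet B)
    (U : Set (Site d)) (hinv : ∀ z ∈ U, ∀ X : Path d, consP z X ∈ B ↔ X ∈ B) :
    ∀ z ∈ U, ∑ e : Step d, ENNReal.ofReal ((ω z).1 e) * quenchedLaw ω (z + stepVec e) B
      = quenchedLaw ω z B :=
  harmonic_event (fun z (e : Step d) => z + stepVec e) (fun z e => ENNReal.ofReal ((ω z).1 e))
    (fun z => quenchedLaw ω z) (fun x B hB => quenched_markov_one ω x B hB) B hB U hinv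

/-- Quenched Doob inequality for an event. -/
theorem q_doob_event (ω : Environment d) (B : Set (Path d)) (hB : MeasurableSet B)
    (U : Set (Site d)) (hinv : ∀ z ∈ U, ∀ X : Path d, consP z X ∈ B ↔ X ∈ B)
    {lam : ℝ≥0∞} (h0 : lam ≠ 0) (ht : lam ≠ ⊤) (x : Site d) :
    quenchedLaw ω x (hitEver (fun z => quenchedLaw ω z B) U lam) ≤ quenchedLaw ω x B / lam :=
  doob_event (fun z (e : Step d) => z + stepVec e) (fun z e => ENNReal.ofReal ((ω z).1 e))
    (fun z => quenchedLaw ω z) (fun x B hB => quenched_markov_one ω x B hB) B hB U hinv h0 ht x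


/-! ### The lower inequality: `P(B, the quenched probability of B gets below lam) ≤ lam` -/



section low
set_option linter.unusedSectionVars false
set_option linter.deprecated false
variable {S : Type*} [MeasurableSpace S] [DiscreteMeasurableSpace S]




variable {E : Type*} [Fintype E] (nb : S → E → S) (p : S → E → ℝ≥0∞)
  (hp : ∀ x, ∑ e, p x e ≤ 1)
  (κ : S → Measure (ℕ → S)) [∀ x, IsProbabilityMeasure (κ x)]
  (hM : ∀ (x : S) (B : Set (ℕ → S)), MeasurableSet B →
    κ x B = ∑ e, p x e * κ (nb x e) {X | consP x X ∈ B})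

include hp hM



end low

/-- rows have total mass at most one. -/
theorem sum_row_le_one (ω : Environment d) (x : Site d) :
    ∑ e : Step d, ENNReal.ofReal ((ω x).1 e) ≤ 1 := by
  have h := quenched_markov_one ω x Set.univ MeasurableSet.univ
  simp only [Set.mem_univ, Set.ofPred_true, measure_univ, mul_one] at h
  exact h.symm.le


/-! ### annealed versions -/





end Crest.Agent.R154.Doob804
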