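import Crest.Agent.R154.Loc_561

/-! R154 B0: product formulas for the environment, annealed path weights. -/

set_option autoImplicit false

open MeasureTheory ProbabilityTheory
open scoped ENNReal

namespace Crest.Agent.R154.Q561

open Crest.ProbabilityR.RandomEnvironment

variable {d : ℕ}

/-- `f` depends only on the rows in `S` -/
def LocOn {β : Type*} (S : Set (Site d)) (f : Environment d → β) : Prop :=
  ∀ ω ω' : Environment d, (∀ z ∈ S, ω z = ω' z) → f ω = f ω'

theorem LocOn.mono {β : Type*} {S T : Set (Site d)} (hST : S ⊆ T) {f : Environment d → β}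
    (hf : LocOn S f) : LocOn T f := fun ω ω' h => hf ω ω' fun z hz => h z (hST hz)

theorem locOn_quenched {S : Set (Site d)} (x : Site d) {A : Set (Path d)}
    (hA : MeasurableSet A) (hd : Dec S A) :
    LocOn S fun ω : Environment d => quenchedLaw ω x A :=
  fun _ _ h => quenched_congr h x hA hd

theorem coord_eq_iSup (S : Set (Site d)) :
    coordSigmaAlgebra S
      = ⨆ z ∈ S, MeasurableSpace.comap (fun ω : Environment d => ω z) inferInstance := by
  unfold coordSigmaAlgebra
  rw [show (inferInstance : MeasurableSpace (S → Row d)) = MeasurableSpace.pi from rfl,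
    MeasurableSpace.pi, MeasurableSpace.comap_iSup, iSup_subtype]
  refine iSup_congr fun z => iSup_congr fun hz => ?_
  rw [MeasurableSpace.comap_comp]
  rfl

theorem iIndep_iid (ν : Measure (Row d)) [IsProbabilityMeasure ν] :
    iIndep (fun z : Site d => MeasurableSpace.comap (fun ω : Environment d => ω z) inferInstance)
      (iidEnvironmentLaw ν) := by
  have h : iIndepFun (fun (z : Site d) (ω : Environment d) => ω z) (iidEnvironmentLaw ν) := by
    rw [iIndepFun_iff_map_fun_eq_infinitePi_map (fun z => measurable_pi_apply z)]
    have e : ∀ z : Site d, (iidEnvironmentLaw ν).map (fun ω : Environment d => ω z) = ν :=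
      fun z => (measurePreserving_eval_infinitePi (fun _ : Site d => ν) z).map_eq
    simp only [e]
    have : (fun (ω : Environment d) (i : Site d) => ω i) = id := rfl
    rw [this, Measure.map_id]
    rfl
  exact h.iIndep

/-- disjoint sets of sites are independent under the iid law -/
theorem indep_iid (ν : Measure (Row d)) [IsProbabilityMeasure ν] {S T : Set (Site d)}
    (hST : Disjoint S T) :
    Indep (coordSigmaAlgebra S) (coordSigmaAlgebra T) (iidEnvironmentLaw ν) := by
  rw [coord_eq_iSup, coord_eq_iSup]
  exact indep_iSup_of_disjoint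
    (fun z => (measurable_pi_apply z : Measurable fun ω : Environment d => ω z).comap_le)
    (iIndep_iid ν) hST

theorem iid_isFiniteRangeDependent (ν : Measure (Row d)) [IsProbabilityMeasure ν] (R : ℕ) :
    IsFiniteRangeDependent (iidEnvironmentLaw ν) R := by
  intro A B _ _ h
  apply indep_iid
  rw [Set.disjoint_left]
  intro z hA hB
  obtain ⟨i, hi⟩ := h z hA z hB
  simp at hi
  omega

/-- general product formula from independence of two coordinate sigma-algebras -/
theorem lintegral_mul_of_indep {Q : Measure (Environment d)} {S T : Set (Site d)}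
    (hind : Indep (coordSigmaAlgebra S) (coordSigmaAlgebra T) Q)
    {f g : Environment d → ℝ≥0∞} (hf : Measurable f) (hg : Measurable g)
    (hfl : LocOn S f) (hgl : LocOn T g) :
    ∫⁻ ω, f ω * g ω ∂Q = (∫⁻ ω, f ω ∂Q) * ∫⁻ ω, g ω ∂Q :=
  lintegral_mul_eq_lintegral_mul_lintegral_of_independent_measurableSpace
    (coord_le S) (coord_le T) hind (measurable_coord hf hfl) (measurable_coord hg hgl)

/-- product formula under the iid law, two disjoint sets -/
theorem iid_lintegral_mul (ν : Measure (Row d)) [IsProbabilityMeasure ν] {S T : Set (Site d)}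
    (hST : Disjoint S T) {f g : Environment d → ℝ≥0∞} (hf : Measurable f) (hg : Measurable g)
    (hfl : LocOn S f) (hgl : LocOn T g) :
    ∫⁻ ω, f ω * g ω ∂(iidEnvironmentLaw ν)
      = (∫⁻ ω, f ω ∂(iidEnvironmentLaw ν)) * ∫⁻ ω, g ω ∂(iidEnvironmentLaw ν) :=
  lintegral_mul_of_indep (indep_iid ν hST) hf hg hfl hgl

/-- product formula under the iid law, finitely many pairwise disjoint sets -/
theorem iid_lintegral_prod (ν : Measure (Row d)) [IsProbabilityMeasure ν] {ι : Type*}
    (s : Finset ι) (S : ι → Set (Site d)) (hdisj : (s : Set ι).PairwiseDisjoint S)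
    (f : ι → Environment d → ℝ≥0∞) (hf : ∀ i ∈ s, Measurable (f i))
    (hfl : ∀ i ∈ s, LocOn (S i) (f i)) :
    ∫⁻ ω, ∏ i ∈ s, f i ω ∂(iidEnvironmentLaw ν)
      = ∏ i ∈ s, ∫⁻ ω, f i ω ∂(iidEnvironmentLaw ν) := by
  classical
  induction s using Finset.induction_on with
  | empty => simp
  | insert a s ha ih =>
    simp only [Finset.prod_insert ha]
    have hd : Disjoint (S a) (⋃ i ∈ s, S i) := by
      rw [Set.disjoint_iUnion₂_right]
      intro i hi
      exact hdisj (Finset.mem_coe.2 (Finset.mem_insert_self a s))
        (Finset.mem_coe.2 (Finset.mem_insert_of_mem hi)) fun h => ha (h ▸ hi)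
    rw [iid_lintegral_mul ν hd (hf a (Finset.mem_insert_self a s))
      (Finset.measurable_prod _ fun i hi => hf i (Finset.mem_insert_of_mem hi))
      (hfl a (Finset.mem_insert_self a s))]
    · rw [ih (hdisj.subset (by simp [Set.subset_insert]))
        (fun i hi => hf i (Finset.mem_insert_of_mem hi))
        (fun i hi => hfl i (Finset.mem_insert_of_mem hi))]
    · intro ω ω' h
      refine Finset.prod_congr rfl fun i hi => ?_
      exact hfl i (Finset.mem_insert_of_mem hi) ω ω' fun z hz =>
        h z (Set.mem_biUnion hi hz)


/-! ### rows and annealed path weights -/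




theorem stepVec_injective : Function.Injective (stepVec : Step d → Site d) := by
  rintro ⟨i, a⟩ ⟨j, b⟩ h
  have h1 := congrFun h i
  have h2 := congrFun h j
  simp only [stepVec, Pi.single_apply] at h1 h2
  have hij : i = j := by
    by_contra hne
    have hne' : ¬ j = i := fun h => hne h.symm
    simp only [if_true, hne, if_false] at h1
    split_ifs at h1 <;> omega
  subst hij
  simp only [if_true] at h1
  have : a = b := by
    cases a <;> cases b <;> simp_all
  rw [this]




end Crest.Agent.R154.Q561
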