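import Crest.Agent.R154.Strong_541
import Crest.Agent.R154.Prod_561
import Crest.Agent.R154.DoobQ_804

-- ▼ part R154/FluxDefs_566
section

/-! Row 154, block B5 = FLUX (helper566): definitions and the literal input statements.

`e0` is a coordinate step; `lev e0 x = x · e0`; "up" = direction `e0`.
* `LatUp e0 Q`  : polynomial lateral bound at the first hit of level `n` (for the up-walk);
* `QDn e0 Q`    : all polynomial moments of `1/q⁻(0)` (uniformly elliptic / S0221 form);
* `QDn' e0 r Q` : the same for the maximum of `q⁻` over a lateral ball of radius `r n`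
                  (merely elliptic form, S0219); `r n = o(log n)` is what is used. -/

set_option autoImplicit false

open MeasureTheory ProbabilityTheory Crest.ProbabilityR.RandomEnvironment
open scoped ENNReal

namespace Crest.Agent.R154.Flux566

variable {d : ℕ}

/-- level of a site in direction `e0` -/
def lev (e0 : Step d) (x : Site d) : ℤ := if e0.2 then x e0.1 else - x e0.1


/-- paths which never go above their initial level -/
def Down (e0 : Step d) : Set (Path d) := {X | ∀ k, lev e0 (X k) ≤ lev e0 (X 0)}









end Crest.Agent.R154.Flux566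
end

-- ▼ part R154/Flux_566
section

/-! Row 154, block B5 = FLUX (helper566): the flux identity and its consequences. -/

set_option autoImplicit false

open MeasureTheory ProbabilityTheory Crest.ProbabilityR.RandomEnvironment
open scoped ENNReal

namespace Crest.Agent.R154.Flux566

variable {d : ℕ}

/-! ### levels -/

lemma lev_add (e0 : Step d) (x y : Site d) : lev e0 (x + y) = lev e0 x + lev e0 y := by
  unfold lev; split_ifs <;> simp; ring

lemma lev_neg (e0 : Step d) (x : Site d) : lev e0 (-x) = - lev e0 x := by
  unfold lev; split_ifs <;> simp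

lemma lev_zero (e0 : Step d) : lev e0 0 = 0 := by unfold lev; simp

lemma lev_self (e0 : Step d) : lev e0 (stepVec e0) = 1 := by
  unfold lev stepVec
  split_ifs with h <;> simp

lemma abs_lev_stepVec (e0 e : Step d) : |lev e0 (stepVec e)| ≤ 1 := by
  unfold lev stepVec
  by_cases h : e0.1 = e.1
  · rw [h]
    split_ifs <;> simp
  · rw [Pi.single_eq_of_ne h]; split_ifs <;> simp


/-! ### measurability -/








/-! ### the flux inequality, quenched -/





/-! ### translation -/










end Crest.Agent.R154.Flux566
end

-- ▼ part R154/Flux2_566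

/-! Row 154, FLUX (helper566), part 2: following a lateral word; annealed weight of a word at distinct
sites. -/

set_option autoImplicit false

open MeasureTheory ProbabilityTheory Crest.ProbabilityR.RandomEnvironment
open scoped ENNReal

namespace Crest.Agent.R154.Flux566

variable {d : ℕ}

/-- quenched weight of a word -/
noncomputable def lw (ω : Environment d) : Site d → List (Step d) → ℝ≥0∞
  | _, [] => 1
  | x, e :: l => ENNReal.ofReal ((ω x).1 e) * lw ω (x + stepVec e) l

/-- endpoint of a word -/
def endp : Site d → List (Step d) → Site d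
  | x, [] => x
  | x, e :: l => endp (x + stepVec e) l

/-- sites at which a word reads the environment -/
def sitesL : Site d → List (Step d) → List (Site d)
  | _, [] => []
  | x, e :: l => x :: sitesL (x + stepVec e) l

/-- follow a word, then `B` -/
def Fol : List (Step d) → Set (Path d) → Set (Path d)
  | [], B => B
  | e :: l, B => {X | X 1 = X 0 + stepVec e ∧ shift 1 X ∈ Fol l B}

lemma measurableSet_Fol (l : List (Step d)) {B : Set (Path d)} (hB : MeasurableSet B) :
    MeasurableSet (Fol l B) := by
  induction l with
  | nil => exact hB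
  | cons e l ih =>
    have h1 : MeasurableSet {X : Path d | X 1 = X 0 + stepVec e} :=
      measurableSet_of_agree 1 _ fun X Y h => by
        simp only [Set.mem_ofPred_eq]
        rw [h 0 (by omega), h 1 le_rfl]
    exact h1.inter (measurable_shift 1 ih)

lemma fol_ge (ω : Environment d) (l : List (Step d)) (x : Site d) {B : Set (Path d)}
    (hB : MeasurableSet B) :
    lw ω x l * quenchedLaw ω (endp x l) B ≤ quenchedLaw ω x (Fol l B) := by
  induction l generalizing x with
  | nil => simp [lw, endp, Fol]
  | cons e l ih =>
    rw [Doob804.quenched_markov_one ω x _ (measurableSet_Fol (e :: l) hB)]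
    refine le_trans ?_ (Finset.single_le_sum (f := fun e' : Step d =>
      ENNReal.ofReal ((ω x).1 e') * quenchedLaw ω (x + stepVec e')
        {X | Doob804.consP x X ∈ Fol (e :: l) B}) (fun _ _ => zero_le) (Finset.mem_univ e))
    simp only [lw, endp]
    rw [mul_assoc]
    refine mul_le_mul_right ((ih (x + stepVec e)).trans ?_) _
    refine measure_mono_ae ?_
    filter_upwards [quenched_zero_eq ω (x + stepVec e)] with X hX hXF
    change Doob804.consP x X ∈ Fol (e :: l) B
    refine ⟨?_, ?_⟩
    · change X 0 = x + stepVec e
      exact hX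
    · have : shift 1 (Doob804.consP x X) = X := by
        funext i
        simp only [shift]
        rw [Nat.add_comm]
        rfl
      rw [this]
      exact hXF

lemma endp_append (l l' : List (Step d)) (x : Site d) :
    endp x (l ++ l') = endp (endp x l) l' := by
  induction l generalizing x with
  | nil => rfl
  | cons e l ih => exact ih _

lemma endp_eq_add (l : List (Step d)) (x : Site d) : endp x l = x + endp 0 l := by
  induction l generalizing x with
  | nil => simp [endp]
  | cons e l ih =>
    simp only [endp]
    rw [ih (x + stepVec e), ih (0 + stepVec e)]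
    abel

lemma measurable_lw (x : Site d) (l : List (Step d)) :
    Measurable fun ω : Environment d => lw ω x l := by
  induction l generalizing x with
  | nil => exact measurable_const
  | cons e l ih =>
    refine Measurable.mul ?_ (ih _)
    exact ENNReal.measurable_ofReal.comp
      ((measurable_pi_apply e).comp (measurable_subtype_coe.comp (measurable_pi_apply x)))

lemma locOn_lw (x : Site d) (l : List (Step d)) :
    Q561.LocOn {y | y ∈ sitesL x l} fun ω : Environment d => lw ω x l := by
  induction l generalizing x with
  | nil => intro ω ω' _; rfl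
  | cons e l ih =>
    intro ω ω' h
    simp only [lw]
    rw [h x (by simp [sitesL])]
    congr 1
    exact ih _ ω ω' fun z hz => h z (by
      simp only [sitesL, List.mem_cons, Set.mem_ofPred_eq] at hz ⊢
      exact Or.inr hz)


/-- annealed weight of a word which reads distinct sites (iid law) -/
lemma ann_lw_ge (ν : Measure (Row d)) [IsProbabilityMeasure ν] (c : ℝ≥0∞)
    (hc : ∀ (x : Site d) (e : Step d),
      c ≤ ∫⁻ ω : Environment d, ENNReal.ofReal ((ω x).1 e) ∂(iidEnvironmentLaw ν))
    (l : List (Step d)) (x : Site d) (hnd : (sitesL x l).Nodup) :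
    c ^ l.length ≤ ∫⁻ ω, lw ω x l ∂(iidEnvironmentLaw ν) := by
  induction l generalizing x with
  | nil => simp [lw]
  | cons e l ih =>
    simp only [sitesL, List.nodup_cons] at hnd
    simp only [lw, List.length_cons]
    have hm1 : Measurable fun ω : Environment d => ENNReal.ofReal ((ω x).1 e) :=
      ENNReal.measurable_ofReal.comp
        ((measurable_pi_apply e).comp (measurable_subtype_coe.comp (measurable_pi_apply x)))
    rw [Q561.iid_lintegral_mul ν (S := {x}) (T := {y | y ∈ sitesL (x + stepVec e) l}) ?_ hm1
      (measurable_lw _ _) ?_ (locOn_lw _ _)]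
    · rw [pow_succ, mul_comm]
      exact mul_le_mul' (hc x e) (ih _ hnd.2)
    · rw [Set.disjoint_left]
      rintro y hy hy'
      rw [Set.mem_singleton_iff] at hy
      subst hy
      exact hnd.1 hy'
    · intro ω ω' h
      simp only
      rw [h x rfl]

/-! ### lateral words -/

/-- `ℓ¹` norm -/
def n1 (v : Site d) : ℕ := ∑ i, (v i).natAbs

lemma n1_eq_zero {v : Site d} (h : n1 v = 0) : v = 0 := by
  funext i
  unfold n1 at h
  rw [Finset.sum_eq_zero_iff] at h
  have := h i (Finset.mem_univ i)
  simpa using this

/-- one step towards the origin -/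
lemma exists_step (e0 : Step d) (v : Site d) (hv : lev e0 v = 0) (m : ℕ) (hm : n1 v = m + 1) :
    ∃ e : Step d, lev e0 (stepVec e) = 0 ∧ n1 (v - stepVec e) = m := by
  classical
  have hne : ∃ i, v i ≠ 0 := by
    by_contra hcon
    push Not at hcon
    have : n1 v = 0 := by unfold n1; simp [hcon]
    omega
  obtain ⟨i, hi⟩ := hne
  have hi0 : i ≠ e0.1 := by
    rintro rfl
    apply hi
    unfold lev at hv
    split_ifs at hv with h
    · exact hv
    · simpa using hv
  refine ⟨(i, decide (0 < v i)), ?_, ?_⟩
  · unfold lev stepVec
    rw [Pi.single_eq_of_ne hi0.symm]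
    simp
  · have h1 : n1 v = (v i).natAbs + ∑ j ∈ Finset.univ.erase i, (v j).natAbs := by
      unfold n1; exact (Finset.add_sum_erase _ (fun j => (v j).natAbs) (Finset.mem_univ i)).symm
    have h2 : n1 (v - stepVec (i, decide (0 < v i)))
        = ((v - stepVec (i, decide (0 < v i))) i).natAbs
          + ∑ j ∈ Finset.univ.erase i, ((v - stepVec (i, decide (0 < v i))) j).natAbs := by
      unfold n1
      exact (Finset.add_sum_erase _
        (fun j => ((v - stepVec (i, decide (0 < v i))) j).natAbs) (Finset.mem_univ i)).symm
    have h3 : ∑ j ∈ Finset.univ.erase i, ((v - stepVec (i, decide (0 < v i))) j).natAbs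
        = ∑ j ∈ Finset.univ.erase i, (v j).natAbs := by
      refine Finset.sum_congr rfl fun j hj => ?_
      have : j ≠ i := Finset.ne_of_mem_erase hj
      simp only [Pi.sub_apply, stepVec]
      rw [Pi.single_eq_of_ne this, sub_zero]
    have h4 : ((v - stepVec (i, decide (0 < v i))) i).natAbs + 1 = (v i).natAbs := by
      simp only [Pi.sub_apply, stepVec, Pi.single_eq_same, decide_eq_true_eq]
      split_ifs with h <;> omega
    omega

/-- a lateral word with given displacement, reading distinct sites -/
lemma exists_word (e0 a : Step d) (m : ℕ) : ∀ v : Site d, lev e0 v = 0 → n1 v = m →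
    ∃ l : List (Step d), (∀ e ∈ l, lev e0 (stepVec e) = 0) ∧ l.length = m ∧ ∀ x : Site d,
      endp x l = x + v ∧ (sitesL x (l ++ [a])).Nodup ∧
      ∀ y ∈ sitesL x (l ++ [a]), n1 (x + v - y) ≤ m := by
  induction m with
  | zero =>
    intro v _ hm
    have hv0 := n1_eq_zero hm
    subst hv0
    refine ⟨[], by simp, rfl, fun x => ⟨by simp [endp], by simp [sitesL], ?_⟩⟩
    intro y hy
    simp only [List.nil_append, sitesL, List.mem_singleton] at hy
    subst hy
    simp [n1]
  | succ m ih =>
    intro v hv hm
    obtain ⟨e, he, hm'⟩ := exists_step e0 v hv m hm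
    have hv' : lev e0 (v - stepVec e) = 0 := by
      rw [sub_eq_add_neg, lev_add, lev_neg, hv, he]; simp
    obtain ⟨l, hl1, hl2, hl3⟩ := ih (v - stepVec e) hv' hm'
    refine ⟨e :: l, ?_, by simp [hl2], fun x => ?_⟩
    · intro e' he'
      rcases List.mem_cons.1 he' with rfl | h
      · exact he
      · exact hl1 e' h
    · obtain ⟨h1, h2, h3⟩ := hl3 (x + stepVec e)
      have hxv : x + stepVec e + (v - stepVec e) = x + v := by abel
      rw [hxv] at h1 h3
      refine ⟨h1, ?_, ?_⟩
      · simp only [List.cons_append, sitesL, List.nodup_cons]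
        refine ⟨fun hmem => ?_, h2⟩
        have := h3 x hmem
        rw [add_sub_cancel_left] at this
        omega
      · intro y hy
        simp only [List.cons_append, sitesL, List.mem_cons] at hy
        rcases hy with rfl | hy
        · rw [add_sub_cancel_left]; omega
        · exact (h3 y hy).trans (Nat.le_succ m)

lemma lev_sites (e0 a : Step d) (l : List (Step d)) (hl : ∀ e ∈ l, lev e0 (stepVec e) = 0)
    (x y : Site d) (hy : y ∈ sitesL x (l ++ [a])) : lev e0 y = lev e0 x := by
  induction l generalizing x with
  | nil =>
    simp only [List.nil_append, sitesL, List.mem_singleton] at hy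
    rw [hy]
  | cons e l ih =>
    simp only [List.cons_append, sitesL, List.mem_cons] at hy
    rcases hy with rfl | hy
    · rfl
    · rw [ih (fun e' he' => hl e' (List.mem_cons_of_mem _ he')) _ hy, lev_add,
        hl e (List.mem_cons_self), add_zero]

/-- opposite step -/
def opp (e0 : Step d) : Step d := (e0.1, !e0.2)

lemma stepVec_opp (e0 : Step d) : stepVec (opp e0) = - stepVec e0 := by
  obtain ⟨i, b⟩ := e0
  unfold opp stepVec
  simp only
  rw [← Pi.single_neg]
  cases b <;> simp






end Crest.Agent.R154.Flux566
private theorem rz_572dd8a393 : type_of% @_root_.Crest.Agent.R154.Flux566.Fol.eq_def := @_root_.Crest.Agent.R154.Flux566.Fol.eq_def -- L32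
private theorem rz_51bd966c4e : type_of% @_root_.Crest.Agent.R154.Flux566.Fol.eq_1 := @_root_.Crest.Agent.R154.Flux566.Fol.eq_1 -- L32
private theorem rz_9af086e2f1 : type_of% @_root_.Crest.Agent.R154.Flux566.endp.eq_def := @_root_.Crest.Agent.R154.Flux566.endp.eq_def -- L22
private theorem rz_f3b6ede443 : type_of% @_root_.Crest.Agent.R154.Flux566.endp.eq_1 := @_root_.Crest.Agent.R154.Flux566.endp.eq_1 -- L22
private theorem rz_b08a510e84 : type_of% @_root_.Crest.Agent.R154.Flux566.lw.eq_def := @_root_.Crest.Agent.R154.Flux566.lw.eq_def -- L17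
private theorem rz_6c67a6c6f6 : type_of% @_root_.Crest.Agent.R154.Flux566.lw.eq_1 := @_root_.Crest.Agent.R154.Flux566.lw.eq_1 -- L17
private theorem rz_94ddb19bdf : type_of% @_root_.Crest.Agent.R154.Flux566.sitesL.eq_def := @_root_.Crest.Agent.R154.Flux566.sitesL.eq_def -- L27
private theorem rz_b9255c4111 : type_of% @_root_.Crest.Agent.R154.Flux566.sitesL.eq_1 := @_root_.Crest.Agent.R154.Flux566.sitesL.eq_1 -- L27
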