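import Mathlib

-- ▼ part R154/B6Num_833
section

/-! R154 block B6, pure number part (helper833): slow variation from the two-step recursion. -/

set_option autoImplicit false

open Filter Topology
open scoped BigOperators

namespace Crest.Agent.R154.B6_833

/-- dichotomy: once a ratio is `≥ 1/2` it stays `≥ 7/8`; otherwise the decay is too fast. -/
lemma ratio_of_rec (B : ℕ → ℝ) (hpos : ∀ j, 0 ≤ B j) (hle : ∀ j, B j ≤ 1)
    (j₀ q : ℕ) (c₀ : ℝ)
    (hrec : ∀ j, j₀ ≤ j → B (j+1) - B (j+2) ≤ B j / 16)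
    (hlow : c₀ * (7/8:ℝ)^(j₀+q) ≤ B (j₀+q))
    (hq : (1/8:ℝ)^q < c₀ * (7/8:ℝ)^(j₀+q)) :
    ∀ j, j₀ + q + 1 ≤ j → 7/8 * B j ≤ B (j+1) := by
  have key : ∀ i, j₀ ≤ i → B i / 2 ≤ B (i+1) → ∀ j, i + 1 ≤ j → 7/8 * B j ≤ B (j+1) := by
    intro i hi h2 j hj
    have aux : ∀ j, i + 1 ≤ j → B (j-1) / 2 ≤ B j ∧ 7/8 * B j ≤ B (j+1) := by
      intro j hj
      induction j, hj using Nat.le_induction with
      | base =>
        refine ⟨by simpa using h2, ?_⟩
        have := hrec i hi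
        nlinarith [hpos i]
      | succ j hj ih =>
        have h1 : B j / 2 ≤ B (j+1) := by nlinarith [ih.2, hpos j]
        refine ⟨by simpa using h1, ?_⟩
        have := hrec j (by omega)
        show 7/8 * B (j+1) ≤ B (j+2)
        nlinarith [hpos j]
    exact (aux j hj).2
  by_cases hex : ∃ i, j₀ ≤ i ∧ i ≤ j₀ + q ∧ B i / 2 ≤ B (i+1)
  · obtain ⟨i, h1, h2, h3⟩ := hex
    intro j hj
    exact key i h1 h3 j (by omega)
  · exfalso
    push Not at hex
    have hdec : ∀ i, i ≤ q → B (j₀ + i) ≤ (1/8:ℝ)^i := by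
      intro i
      induction i with
      | zero => intro _; simpa using hle j₀
      | succ i ih =>
        intro hi
        have h1 := hex (j₀+i+1) (by omega) (by omega)
        have h2 := hrec (j₀+i) (by omega)
        have h3 := ih (by omega)
        have h4 : B (j₀ + i + 1) ≤ B (j₀+i) / 8 := by
          have : B (j₀ + i + 2) < B (j₀+i+1) / 2 := h1
          linarith
        calc B (j₀ + (i+1)) = B (j₀ + i + 1) := by ring_nf
          _ ≤ B (j₀+i) / 8 := h4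
          _ ≤ (1/8:ℝ)^i / 8 := by linarith
          _ = (1/8:ℝ)^(i+1) := by rw [pow_succ]; ring
    have := hdec q le_rfl
    linarith

/-- uniform family hypotheses -/
structure SVFam (𝓑 : Set (ℕ → ℝ)) : Prop where
  anti : ∀ f ∈ 𝓑, Antitone f
  pos : ∀ f ∈ 𝓑, ∀ n, 0 ≤ f n
  le1 : ∀ f ∈ 𝓑, ∀ n, f n ≤ 1
  ratio : ∀ ε > (0:ℝ), ∃ J : ℕ, ∀ j ≥ J, ∀ f ∈ 𝓑, (1 - ε) * f (2^j) ≤ f (2^(j+1))
  low : ∃ c > (0:ℝ), ∀ f ∈ 𝓑, ∀ j, c * (7/8:ℝ)^j ≤ f (2^j)

lemma SVFam.ratio_iter {𝓑 : Set (ℕ → ℝ)} (H : SVFam 𝓑) (t : ℕ) :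
    ∀ ε > (0:ℝ), ∃ J : ℕ, ∀ j ≥ J, ∀ f ∈ 𝓑, (1 - ε) * f (2^j) ≤ f (2^(j+t)) := by
  induction t with
  | zero =>
    intro ε hε
    refine ⟨0, fun j _ f hf => ?_⟩
    simp only [add_zero]
    nlinarith [H.pos f hf (2^j)]
  | succ t ih =>
    intro ε hε
    set ε' := min (ε/2) (1/2) with hε'
    have hε'pos : 0 < ε' := by rw [hε']; positivity
    have h1 : ε' ≤ ε / 2 := min_le_left _ _
    have h2 : ε' ≤ 1/2 := min_le_right _ _
    obtain ⟨J1, h3⟩ := ih ε' hε'pos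
    obtain ⟨J2, h4⟩ := H.ratio ε' hε'pos
    refine ⟨max J1 J2, fun j hj f hf => ?_⟩
    have e1 := h3 j (le_trans (le_max_left _ _) hj) f hf
    have e2 := h4 (j+t) (by have := le_trans (le_max_right J1 J2) hj; omega) f hf
    have e3 : f (2^(j+(t+1))) = f (2^(j+t+1)) := by rw [add_assoc]
    rw [e3]
    have p0 := H.pos f hf (2^j)
    have hq : 1 - ε ≤ (1-ε') * (1-ε') := by nlinarith [sq_nonneg ε']
    have : (1-ε) * f (2^j) ≤ (1-ε') * ((1-ε') * f (2^j)) := by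
      rw [← mul_assoc]; exact mul_le_mul_of_nonneg_right hq p0
    have e4 : (1-ε') * ((1-ε') * f (2^j)) ≤ (1-ε') * f (2^(j+t)) :=
      mul_le_mul_of_nonneg_left e1 (by linarith)
    linarith

lemma exists_pow (n : ℕ) (hn : 1 ≤ n) : ∃ J : ℕ, 2^J ≤ n ∧ n < 2^(J+1) := by
  refine ⟨Nat.log 2 n, Nat.pow_log_le_self 2 (by omega), ?_⟩
  exact Nat.lt_pow_succ_log_self (by norm_num) n

lemma SVFam.sv2 {𝓑 : Set (ℕ → ℝ)} (H : SVFam 𝓑) (C : ℕ) :
    ∀ ε > (0:ℝ), ∃ n₀ : ℕ, ∀ n ≥ n₀, ∀ f ∈ 𝓑, f n - f (C * n) ≤ ε * f n := by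
  intro ε hε
  obtain ⟨t, ht⟩ : ∃ t : ℕ, C ≤ 2^t := ⟨C, Nat.lt_two_pow_self.le⟩
  obtain ⟨J, hJ⟩ := H.ratio_iter (t+1) (min ε 1) (by positivity)
  refine ⟨2^J, fun n hn f hf => ?_⟩
  obtain ⟨K, hK1, hK2⟩ := exists_pow n (le_trans Nat.one_le_two_pow hn)
  have hJK : J ≤ K := by
    by_contra h
    have : K + 1 ≤ J := by omega
    have := Nat.pow_le_pow_right (show 0 < 2 by norm_num) this
    omega
  have h1 := hJ K hJK f hf
  have h2 : f n ≤ f (2^K) := H.anti f hf hK1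
  have h3 : f (2^(K+(t+1))) ≤ f (C * n) := by
    apply H.anti f hf
    calc C * n ≤ 2^t * 2^(K+1) := Nat.mul_le_mul ht hK2.le
      _ = 2^(K+(t+1)) := by rw [← pow_add]; ring_nf
  have h4 : min ε 1 ≤ ε := min_le_left _ _
  have h5 : min ε 1 ≤ 1 := min_le_right _ _
  have h6 : (1 - min ε 1) * f n ≤ (1 - min ε 1) * f (2^K) :=
    mul_le_mul_of_nonneg_left h2 (by linarith)
  have h7 := H.pos f hf n
  nlinarith

lemma SVFam.sum_le {𝓑 : Set (ℕ → ℝ)} (H : SVFam 𝓑) :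
    ∃ C₀ > (0:ℝ), ∃ J₁ : ℕ, ∀ j ≥ J₁, ∀ f ∈ 𝓑,
      ∑ h ∈ Finset.range (2^j), f h ≤ C₀ * 2^j * f (2^j) := by
  obtain ⟨J, hJ⟩ := H.ratio (1/8) (by norm_num)
  obtain ⟨c, hc, hlow⟩ := H.low
  refine ⟨max 2 (1 / (c * (7/8)^J)), by positivity, J, ?_⟩
  set C₀ := max (2:ℝ) (1 / (c * (7/8)^J)) with hC
  have hC2 : 2 ≤ C₀ := le_max_left _ _
  have hC3 : 1 / (c * (7/8)^J) ≤ C₀ := le_max_right _ _
  intro j hj f hf
  induction j, hj using Nat.le_induction with
  | base =>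
    have h1 : ∑ h ∈ Finset.range (2^J), f h ≤ ∑ h ∈ Finset.range (2^J), (1:ℝ) :=
      Finset.sum_le_sum fun h _ => H.le1 f hf h
    have h2 : ∑ h ∈ Finset.range (2^J), (1:ℝ) = 2^J := by simp
    have h3 := hlow f hf J
    have hcp : 0 < c * (7/8:ℝ)^J := by positivity
    have h4 : 1 ≤ C₀ * f (2^J) := by
      calc (1:ℝ) = (1 / (c * (7/8)^J)) * (c * (7/8)^J) := by field_simp
        _ ≤ C₀ * f (2^J) := mul_le_mul hC3 h3 hcp.le (by linarith)
    have h5 : (2:ℝ)^J * 1 ≤ 2^J * (C₀ * f (2^J)) :=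
      mul_le_mul_of_nonneg_left h4 (by positivity)
    nlinarith
  | succ j hj ih =>
    have h1 : ∑ h ∈ Finset.range (2^(j+1)), f h
        = ∑ h ∈ Finset.range (2^j), f h + ∑ h ∈ Finset.Ico (2^j) (2^(j+1)), f h := by
      rw [Finset.range_eq_Ico, Finset.range_eq_Ico, Finset.sum_Ico_consecutive]
      · exact Nat.zero_le _
      · exact Nat.pow_le_pow_right (by norm_num) (Nat.le_succ j)
    have h2 : ∑ h ∈ Finset.Ico (2^j) (2^(j+1)), f h ≤ ∑ h ∈ Finset.Ico (2^j) (2^(j+1)), f (2^j) :=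
      Finset.sum_le_sum fun h hh => H.anti f hf (Finset.mem_Ico.mp hh).1
    have h3 : ∑ h ∈ Finset.Ico (2^j) (2^(j+1)), f (2^j) = 2^j * f (2^j) := by
      rw [Finset.sum_const, Nat.card_Ico, nsmul_eq_mul]
      congr 1
      rw [pow_succ]
      have : 2^j * 2 - 2^j = 2^j := by omega
      rw [this]; push_cast; rfl
    have h4 := hJ j hj f hf
    have p0 := H.pos f hf (2^j)
    have p1 := H.pos f hf (2^(j+1))
    have hp : (0:ℝ) < 2^j := by positivity
    rw [h1]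
    have h5 : ∑ h ∈ Finset.range (2^j), f h + ∑ h ∈ Finset.Ico (2^j) (2^(j+1)), f h
        ≤ (C₀ + 1) * 2^j * f (2^j) := by
      rw [h3] at h2; linarith
    have h6 : f (2^j) ≤ 8/7 * f (2^(j+1)) := by linarith
    calc _ ≤ (C₀ + 1) * 2^j * f (2^j) := h5
      _ ≤ (C₀ + 1) * 2^j * (8/7 * f (2^(j+1))) :=
          mul_le_mul_of_nonneg_left h6 (by positivity)
      _ = ((C₀ + 1) * (8/7)) * (2^j * f (2^(j+1))) := by ring
      _ ≤ (2 * C₀) * (2^j * f (2^(j+1))) := by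
          apply mul_le_mul_of_nonneg_right _ (by positivity)
          linarith
      _ = C₀ * 2^(j+1) * f (2^(j+1)) := by rw [pow_succ]; ring

/-- slow variation in the summed form -/
lemma SVFam.sv1 {𝓑 : Set (ℕ → ℝ)} (H : SVFam 𝓑) :
    ∀ ε > (0:ℝ), ∃ n₀ : ℕ, ∀ n ≥ n₀, ∀ f ∈ 𝓑,
      ∑ h ∈ Finset.range n, (f h - f n) ≤ ε * n * f n := by
  intro ε hε
  obtain ⟨C₀, hC0, J₁, hJ₁⟩ := H.sum_le
  obtain ⟨t, ht⟩ : ∃ t : ℕ, 4 * C₀ / ε ≤ 2^t := by
    obtain ⟨t, ht⟩ := exists_nat_gt (4 * C₀ / ε)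
    refine ⟨t, ht.le.trans ?_⟩
    exact_mod_cast Nat.lt_two_pow_self.le
  set ε' := min (ε/4) (1/2) with hε'
  have hε'pos : 0 < ε' := by rw [hε']; positivity
  have hε1 : ε' ≤ ε/4 := min_le_left _ _
  have hε2 : ε' ≤ 1/2 := min_le_right _ _
  obtain ⟨J₂, hJ₂⟩ := H.ratio_iter (t+1) ε' hε'pos
  refine ⟨2^(max J₁ J₂ + t), fun n hn f hf => ?_⟩
  obtain ⟨K, hK1, hK2⟩ := exists_pow n (le_trans Nat.one_le_two_pow hn)
  have hJK : max J₁ J₂ + t ≤ K := by
    by_contra h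
    have : K + 1 ≤ max J₁ J₂ + t := by omega
    have := Nat.pow_le_pow_right (show 0 < 2 by norm_num) this
    omega
  obtain ⟨i, hi⟩ : ∃ i, K = i + t := ⟨K - t, by omega⟩
  have hi1 : J₁ ≤ i := by have := le_max_left J₁ J₂; omega
  have hi2 : J₂ ≤ i := by have := le_max_right J₁ J₂; omega
  have h1 := hJ₁ i hi1 f hf
  have h2 := hJ₂ i hi2 f hf
  have pn := H.pos f hf n
  have pi' := H.pos f hf (2^i)
  have h3 : f (2^(i+(t+1))) ≤ f n := by
    apply H.anti f hf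
    have : i + (t+1) = K + 1 := by omega
    rw [this]; exact hK2.le
  have h4 : f (2^i) ≤ 2 * f n := by nlinarith
  have h5 : f (2^i) - f n ≤ ε/2 * f n := by nlinarith
  have hle : 2^i ≤ n := by
    refine le_trans ?_ hK1
    exact Nat.pow_le_pow_right (by norm_num) (by omega)
  have hsplit : ∑ h ∈ Finset.range n, (f h - f n)
      = ∑ h ∈ Finset.range (2^i), (f h - f n) + ∑ h ∈ Finset.Ico (2^i) n, (f h - f n) := by
    rw [Finset.range_eq_Ico, Finset.range_eq_Ico, Finset.sum_Ico_consecutive _ (Nat.zero_le _) hle]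
  have hA : ∑ h ∈ Finset.range (2^i), (f h - f n) ≤ ∑ h ∈ Finset.range (2^i), f h :=
    Finset.sum_le_sum fun h _ => by linarith
  have hB : ∑ h ∈ Finset.Ico (2^i) n, (f h - f n) ≤ n * (ε/2 * f n) := by
    calc _ ≤ ∑ h ∈ Finset.Ico (2^i) n, (ε/2 * f n) := by
          refine Finset.sum_le_sum fun h hh => ?_
          have := H.anti f hf (Finset.mem_Ico.mp hh).1
          linarith
      _ = ((n - 2^i : ℕ) : ℝ) * (ε/2 * f n) := by
          rw [Finset.sum_const, Nat.card_Ico, nsmul_eq_mul]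
      _ ≤ n * (ε/2 * f n) := by
          apply mul_le_mul_of_nonneg_right _ (by positivity)
          exact_mod_cast Nat.sub_le _ _
  have hC : C₀ * 2^i * f (2^i) ≤ n * (ε/2 * f n) := by
    have e1 : (2:ℝ)^t * 2^i ≤ n := by
      have : 2^t * 2^i ≤ n := by
        rw [← pow_add]; refine le_trans ?_ hK1
        exact Nat.pow_le_pow_right (by norm_num) (by omega)
      exact_mod_cast this
    have e2 : 4 * C₀ ≤ ε * 2^t := by
      rw [div_le_iff₀ hε] at ht; linarith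
    have e3 : C₀ * 2^i * f (2^i) ≤ C₀ * 2^i * (2 * f n) :=
      mul_le_mul_of_nonneg_left h4 (by positivity)
    have e4 : 4 * C₀ * 2^i ≤ ε * n := by
      calc 4 * C₀ * 2^i ≤ (ε * 2^t) * 2^i := mul_le_mul_of_nonneg_right e2 (by positivity)
        _ = ε * (2^t * 2^i) := by ring
        _ ≤ ε * n := mul_le_mul_of_nonneg_left e1 hε.le
    nlinarith
  rw [hsplit]
  nlinarith

/-- polynomially small lower bound, in the form used for the number of contact stages -/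
lemma SVFam.sv3 {𝓑 : Set (ℕ → ℝ)} (H : SVFam 𝓑) :
    ∀ ε > (0:ℝ), ∃ n₀ : ℕ, ∀ n ≥ n₀, ∃ u > (0:ℝ), (∀ f ∈ 𝓑, u ≤ f n) ∧ 1 ≤ ε * n * u := by
  intro ε hε
  obtain ⟨c, hc, hlow⟩ := H.low
  have hlim : Tendsto (fun K : ℕ => ε * c * (7/8) * (7/4:ℝ)^K) atTop atTop := by
    apply Tendsto.const_mul_atTop (by positivity)
    exact tendsto_pow_atTop_atTop_of_one_lt (by norm_num)
  obtain ⟨K₀, hK₀⟩ := (hlim.eventually_ge_atTop 1).exists_forall_of_atTop
  refine ⟨2^K₀, fun n hn => ?_⟩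
  obtain ⟨K, hK1, hK2⟩ := exists_pow n (le_trans Nat.one_le_two_pow hn)
  have hJK : K₀ ≤ K := by
    by_contra h
    have : K + 1 ≤ K₀ := by omega
    have := Nat.pow_le_pow_right (show 0 < 2 by norm_num) this
    omega
  refine ⟨c * (7/8)^(K+1), by positivity, fun f hf => ?_, ?_⟩
  · exact (hlow f hf (K+1)).trans (H.anti f hf hK2.le)
  · have h1 := hK₀ K hJK
    have h2 : (2:ℝ)^K ≤ n := by exact_mod_cast hK1
    calc (1:ℝ) ≤ ε * c * (7/8) * (7/4:ℝ)^K := h1
      _ = ε * 2^K * (c * (7/8)^(K+1)) := by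
          have : (7/4:ℝ)^K = 2^K * (7/8)^K := by rw [← mul_pow]; norm_num
          rw [this, pow_succ]; ring
      _ ≤ ε * n * (c * (7/8)^(K+1)) := by
          apply mul_le_mul_of_nonneg_right _ (by positivity)
          exact mul_le_mul_of_nonneg_left h2 hε.le

end Crest.Agent.R154.B6_833
end

-- ▼ part R154/B6Abs_833

/-! R154 block B6, abstract part (helper833): two walkers in the same environment, seen level by
level, as an abstract system.  Steps 1-6 of `r154_doc` B6. Mathlib only. -/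

set_option autoImplicit false
set_option linter.unusedSectionVars false
set_option linter.deprecated false

open MeasureTheory Set Filter Topology
open scoped BigOperators

namespace Crest.Agent.R154.B6_833

/-- abstract system: a pair of walkers explored level by level. `N i j` = both stay at levels
`≥ i` between the first hits of `i` and `j`; `cs l` = new contact in stage `l`. -/
structure PairSys (S Ω : Type*) [MeasurableSpace S] [mΩ : MeasurableSpace Ω] where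
  P : S → Measure Ω
  prob : ∀ s, IsProbabilityMeasure (P s)
  F : ℕ → MeasurableSpace Ω
  F_le : ∀ j, F j ≤ mΩ
  F_mono : ∀ i j, i ≤ j → F i ≤ F j
  st : ℕ → Ω → S
  st_meas : ∀ j, Measurable[F j] (st j)
  N : ℕ → ℕ → Set Ω
  N_meas : ∀ i j, i ≤ j → MeasurableSet[F j] (N i j)
  N_trans : ∀ i j k, i ≤ j → j ≤ k → ∀ ω, ω ∈ N i j → ω ∈ N j k → ω ∈ N i k
  N_left : ∀ i j k, i ≤ j → j ≤ k → ∀ ω, ω ∈ N i k → ω ∈ N i j
  cs : ℕ → Set Ω
  cs_meas : ∀ l, MeasurableSet[F l] (cs l)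
  /-- both walkers have reached level `j` -/
  al : ℕ → Set Ω
  al_meas : ∀ j, MeasurableSet[F j] (al j)
  al_anti : ∀ i j, i ≤ j → al j ⊆ al i
  N_al : ∀ i j, i ≤ j → N i j ⊆ al j
  Dist : Set S

namespace PairSys

variable {S Ω : Type*} [MeasurableSpace S] [mΩ : MeasurableSpace Ω] (A : PairSys S Ω)

/-- no contact stage in `(j, L]` -/
def nocs (j L : ℕ) : Set Ω := {ω | ∀ l, j < l → l ≤ L → ω ∉ A.cs l}

/-- natural up to `n`, no contact up to stage `h`, from `s` at level 0 -/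
noncomputable def φ (n h : ℕ) (s : S) : ℝ := (A.P s).real (A.N 0 n ∩ A.nocs 0 h)

noncomputable def b (m : ℕ) (s : S) : ℝ := A.φ m m s

/-- the hypotheses used from the random walk in random environment -/
structure Hyp [DiscreteMeasurableSpace S] (a : ℕ) (c₁ cₑ : ℝ) (β : ℕ → ℝ) (h : ℕ → ℝ) (p : ℝ)
    (Far : ℕ → Set S) (χ : ℕ → S → ℝ) : Prop where
  a1 : 1 ≤ a
  c₁pos : 0 < c₁
  cₑpos : 0 < cₑ
  /-- fresh restart -/
  FP : ∀ s j L n, j ≤ L → L ≤ n → ∀ B, MeasurableSet[A.F j] B → B ⊆ A.al j →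
    (A.P s).real (B ∩ (A.N j n ∩ A.nocs j L)) = ∫ ω in B, A.φ (n - j) (L - j) (A.st j ω) ∂(A.P s)
  lower : ∀ s n, c₁ ≤ A.φ n 0 s
  tail : ∀ s m n, m ≤ n → A.φ m 0 s - A.φ n 0 s ≤ β m
  β_lim : Tendsto β atTop (𝓝 0)
  KB : ∀ ε > (0:ℝ), ∃ m₀ : ℕ, ∀ m ≥ m₀, ∀ s ∈ A.Dist, A.b m s - A.b (2 * m) s ≤ ε
  eqz : ∀ s, s ∉ A.Dist → ∀ n k, a ≤ k → k ≤ n → A.φ n k s = 0
  ppos : 0 < p
  h_lim : Tendsto h atTop (𝓝 p)
  h_ge : ∀ m, p ≤ h m
  ub : ∀ s ∈ A.Dist, ∀ m, A.b m s ≤ h m ^ 2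
  far_dist : ∀ R, Far R ⊆ A.Dist
  far : ∀ m, ∀ ε > (0:ℝ), ∃ R, ∀ s ∈ Far R, h m ^ 2 - ε ≤ A.b m s
  ue1 : ∀ R, ∃ c > (0:ℝ), ∀ s ∈ A.Dist, ∃ s' ∈ Far R, ∀ m, c * A.b m s' ≤ A.b (m+a) s
  ue3 : ∀ s l, ∀ B, MeasurableSet[A.F l] B → B ⊆ A.al l → (∀ ω ∈ B, A.st l ω ∉ A.Dist) →
    cₑ * (A.P s).real B ≤
      (A.P s).real (B ∩ (A.N l (l+a) ∩ A.cs (l+a) ∩ A.st (l+a) ⁻¹' A.Dist))
  χ0 : ∀ m s, 0 ≤ χ m s
  χ1 : ∀ m s, χ m s ≤ 1
  χFP : ∀ s j n m, j ≤ n → ∀ B, MeasurableSet[A.F j] B → B ⊆ A.al j →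
    (∀ ω ∈ B, A.st j ω ∈ A.Dist) →
    ∫ ω in B ∩ (A.N j n ∩ A.nocs j n), χ m (A.st n ω) ∂(A.P s) ≤
      ∫ ω in B, (A.b (n - j) (A.st j ω) - A.b (n - j + m) (A.st j ω)) ∂(A.P s)

variable {A}

section basic

lemma nocs_meas (j L : ℕ) : MeasurableSet[A.F L] (A.nocs j L) := by
  have : A.nocs j L = ⋂ l ∈ {l : ℕ | j < l ∧ l ≤ L}, (A.cs l)ᶜ := by
    ext ω; simp [nocs]
  rw [this]
  refine MeasurableSet.biInter (Set.to_countable _) ?_
  intro l hl
  exact ((A.F_mono l L hl.2) _ (A.cs_meas l)).compl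

lemma meas (j : ℕ) {B : Set Ω} (hB : MeasurableSet[A.F j] B) : MeasurableSet B := A.F_le j _ hB

lemma N_measΩ (i j : ℕ) (hij : i ≤ j) : MeasurableSet (A.N i j) := A.F_le j _ (A.N_meas i j hij)

lemma nocs_measΩ (j L : ℕ) : MeasurableSet (A.nocs j L) := A.F_le L _ (nocs_meas j L)

lemma φ_nonneg (n h : ℕ) (s : S) : 0 ≤ A.φ n h s := measureReal_nonneg

lemma φ_le_one (n h : ℕ) (s : S) : A.φ n h s ≤ 1 := by
  have := A.prob s
  exact measureReal_le_one

lemma b_nonneg (n : ℕ) (s : S) : 0 ≤ A.b n s := measureReal_nonneg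

lemma b_le_one (n : ℕ) (s : S) : A.b n s ≤ 1 := φ_le_one n n s

lemma nocs_anti {j L L' : ℕ} (h : L ≤ L') : A.nocs j L' ⊆ A.nocs j L :=
  fun _ hω l h1 h2 => hω l h1 (h2.trans h)

lemma nocs_left {j j' L : ℕ} (h : j ≤ j') : A.nocs j L ⊆ A.nocs j' L :=
  fun _ hω l h1 h2 => hω l (lt_of_le_of_lt h h1) h2

lemma φ_anti {n n' k k' : ℕ} (s : S) (hn : n ≤ n') (hk : k ≤ k') : A.φ n' k' s ≤ A.φ n k s := by
  have := A.prob s
  refine measureReal_mono ?_
  exact fun ω hω => ⟨A.N_left 0 n n' (Nat.zero_le _) hn ω hω.1, nocs_anti hk hω.2⟩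

lemma b_anti (s : S) : Antitone (fun m => A.b m s) := fun _ _ h => φ_anti s h h

lemma φ_le_b {n k : ℕ} (s : S) (h : k ≤ n) : A.φ n k s ≤ A.b k s := φ_anti s h le_rfl

end basic

section integrals

variable [DiscreteMeasurableSpace S]

lemma integ_st (s : S) (j : ℕ) (f : S → ℝ) (C : ℝ) (hf : ∀ t, |f t| ≤ C) :
    Integrable (fun ω => f (A.st j ω)) (A.P s) := by
  have := A.prob s
  have hm : Measurable (fun ω => f (A.st j ω)) :=
    (Measurable.of_discrete (f := f)).comp ((A.st_meas j).mono (A.F_le j) le_rfl)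
  refine Integrable.of_bound hm.aestronglyMeasurable C ?_
  exact ae_of_all _ fun ω => by simpa [Real.norm_eq_abs] using hf _

lemma abs_φ_le (n h : ℕ) (s : S) : |A.φ n h s| ≤ 1 := by
  rw [abs_of_nonneg (φ_nonneg n h s)]; exact φ_le_one n h s

lemma integ_φ (s : S) (j n h : ℕ) : Integrable (fun ω => A.φ n h (A.st j ω)) (A.P s) :=
  integ_st s j (A.φ n h) 1 (abs_φ_le n h)

lemma nocs_self (j : ℕ) : A.nocs j j = univ := by
  ext ω; simp only [nocs, mem_setOf_eq, mem_univ, iff_true]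
  intro l h1 h2; omega

variable {a : ℕ} {c₁ cₑ : ℝ} {β : ℕ → ℝ} {h : ℕ → ℝ} {p : ℝ} {Far : ℕ → Set S} {χ : ℕ → S → ℝ}

lemma FP0 (H : A.Hyp a c₁ cₑ β h p Far χ) (s : S) (j n : ℕ) (hjn : j ≤ n) (B : Set Ω)
    (hB : MeasurableSet[A.F j] B) (hBa : B ⊆ A.al j) :
    (A.P s).real (B ∩ A.N j n) = ∫ ω in B, A.φ (n - j) 0 (A.st j ω) ∂(A.P s) := by
  have := H.FP s j j n le_rfl hjn B hB hBa
  rw [nocs_self, inter_univ, Nat.sub_self] at this
  exact this

lemma lowerN (H : A.Hyp a c₁ cₑ β h p Far χ) (s : S) (j n : ℕ) (hjn : j ≤ n) (B : Set Ω)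
    (hB : MeasurableSet[A.F j] B) (hBa : B ⊆ A.al j) :
    c₁ * (A.P s).real B ≤ (A.P s).real (B ∩ A.N j n) := by
  have := A.prob s
  rw [FP0 H s j n hjn B hB hBa]
  have hBm := meas j hB
  calc c₁ * (A.P s).real B = ∫ ω in B, c₁ ∂(A.P s) := by
        rw [setIntegral_const, smul_eq_mul, mul_comm]
    _ ≤ _ := by
        refine setIntegral_mono_on (integrable_const _).integrableOn (integ_φ s j _ _).integrableOn
          hBm ?_
        intro ω _; exact H.lower _ _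

lemma c₁_le (H : A.Hyp a c₁ cₑ β h p Far χ) (s : S) : c₁ ≤ 1 := (H.lower s 0).trans (φ_le_one _ _ _)

lemma β_nonneg (H : A.Hyp a c₁ cₑ β h p Far χ) (s : S) (m : ℕ) : 0 ≤ β m := by
  have := H.tail s m m le_rfl; linarith

lemma tailN (H : A.Hyp a c₁ cₑ β h p Far χ) (s : S) (j m n : ℕ) (hjn : j + m ≤ n) (B : Set Ω)
    (hB : MeasurableSet[A.F j] B) (hBa : B ⊆ A.al j) :
    (A.P s).real ((B ∩ A.N j (j+m)) \ A.N j n) ≤ β m * (A.P s).real B := by
  have := A.prob s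
  have hBm := meas j hB
  have h1 : (A.P s).real ((B ∩ A.N j (j+m)) \ A.N j n)
      = (A.P s).real (B ∩ A.N j (j+m)) - (A.P s).real (B ∩ A.N j n) := by
    have hsub : B ∩ A.N j n ⊆ B ∩ A.N j (j+m) := fun ω hω =>
      ⟨hω.1, A.N_left j (j+m) n (by omega) hjn ω hω.2⟩
    have : (B ∩ A.N j (j+m)) \ A.N j n = (B ∩ A.N j (j+m)) \ (B ∩ A.N j n) := by
      ext ω; simp only [mem_diff, mem_inter_iff]; tauto
    rw [this, measureReal_diff hsub (hBm.inter (N_measΩ j n (by omega)))]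
  rw [h1, FP0 H s j _ (by omega) B hB hBa, FP0 H s j n (by omega) B hB hBa,
    ← integral_sub (integ_φ s j _ _).integrableOn (integ_φ s j _ _).integrableOn]
  calc _ ≤ ∫ ω in B, β m ∂(A.P s) := by
        refine setIntegral_mono_on ((integ_φ s j _ _).sub (integ_φ s j _ _)).integrableOn
          (integrable_const _).integrableOn hBm ?_
        intro ω _
        have := H.tail (A.st j ω) m (n - j) (by omega)
        have e : j + m - j = m := by omega
        rw [e]; exact this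
    _ = β m * (A.P s).real B := by rw [setIntegral_const, smul_eq_mul, mul_comm]

/-- no joint natural level (horizon `n`) in `[L, K]` -/
def none (A : PairSys S Ω) (n L K : ℕ) : Set Ω := {ω | ∀ j, L ≤ j → j ≤ K → ω ∉ A.N j n}

lemma none_anti {n L K K' : ℕ} (hK : K ≤ K') : A.none n L K' ⊆ A.none n L K :=
  fun _ hω j h1 h2 => hω j h1 (h2.trans hK)

/-- Step 1 -/
lemma delta_step (H : A.Hyp a c₁ cₑ β h p Far χ) (s : S) (m n : ℕ) : ∀ r L : ℕ, ∀ B : Set Ω,
    L + r * m ≤ n → MeasurableSet[A.F L] B → B ⊆ A.al L →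
    (A.P s).real (B ∩ (A.none n L (L + r * m) ∩ A.al n)) ≤
      ((1 - c₁)^r + β m / c₁) * (A.P s).real B := by
  have := A.prob s
  have hc := H.c₁pos
  have hc1 := c₁_le H s
  have hβ := β_nonneg H s m
  intro r
  induction r with
  | zero =>
    intro L B _ hB _
    have h1 : (A.P s).real (B ∩ (A.none n L (L + 0 * m) ∩ A.al n)) ≤ (A.P s).real B :=
      measureReal_mono inter_subset_left
    have h2 : 0 ≤ (A.P s).real B := measureReal_nonneg
    have h3 : 0 ≤ β m / c₁ := by positivity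
    simp only [pow_zero]
    nlinarith
  | succ r ih =>
    intro L B hL hB hBa
    have hexp : L + (r+1) * m = L + m + r * m := by ring
    have hBm := meas L hB
    have hLm : L + m ≤ n := by
      have : (r+1) * m = m + r * m := by ring
      omega
    set B' := (B \ A.N L (L+m)) ∩ A.al (L+m) with hB'
    have hB'm : MeasurableSet[A.F (L+m)] B' :=
      MeasurableSet.inter (MeasurableSet.diff (A.F_mono L (L+m) (by omega) _ hB)
        (A.N_meas L (L+m) (by omega))) (A.al_meas _)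
    have hsub : B ∩ (A.none n L (L + (r+1) * m) ∩ A.al n) ⊆
        ((B ∩ A.N L (L+m)) \ A.N L n) ∪ (B' ∩ (A.none n (L+m) (L+m+r*m) ∩ A.al n)) := by
      intro ω hω
      by_cases hN : ω ∈ A.N L (L+m)
      · left
        refine ⟨⟨hω.1, hN⟩, hω.2.1 L le_rfl (by omega)⟩
      · right
        refine ⟨⟨⟨hω.1, hN⟩, A.al_anti (L+m) n hLm hω.2.2⟩, ?_, hω.2.2⟩
        intro j h1 h2
        exact hω.2.1 j (by omega) (by omega)
    have h1 := measureReal_mono (μ := A.P s) hsub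
    have h2 := measureReal_union_le (μ := A.P s) ((B ∩ A.N L (L+m)) \ A.N L n)
      (B' ∩ (A.none n (L+m) (L+m+r*m) ∩ A.al n))
    have h3 := tailN H s L m n hLm B hB hBa
    have h4 := ih (L+m) B' (by omega) hB'm inter_subset_right
    have h5 : (A.P s).real B' ≤ (1 - c₁) * (A.P s).real B := by
      have e0 : (A.P s).real B' ≤ (A.P s).real (B \ A.N L (L+m)) :=
        measureReal_mono inter_subset_left
      have e1 : (A.P s).real (B \ A.N L (L+m))
          = (A.P s).real B - (A.P s).real (B ∩ A.N L (L+m)) := by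
        have : B \ A.N L (L+m) = B \ (B ∩ A.N L (L+m)) := by
          ext ω; simp only [mem_diff, mem_inter_iff]; tauto
        rw [this, measureReal_diff inter_subset_left (hBm.inter (N_measΩ L _ (by omega)))]
      have e2 := lowerN H s L (L+m) (by omega) B hB hBa
      rw [e1] at e0; linarith
    have hpos : 0 ≤ (1 - c₁)^r + β m / c₁ := by
      have : 0 ≤ (1 - c₁)^r := pow_nonneg (by linarith) _
      positivity
    have h6 : ((1 - c₁)^r + β m / c₁) * (A.P s).real B'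
        ≤ ((1 - c₁)^r + β m / c₁) * ((1 - c₁) * (A.P s).real B) :=
      mul_le_mul_of_nonneg_left h5 hpos
    have h7 : β m * (A.P s).real B + ((1 - c₁)^r + β m / c₁) * ((1 - c₁) * (A.P s).real B)
        = ((1 - c₁)^(r+1) + β m / c₁) * (A.P s).real B := by
      rw [pow_succ]; field_simp; ring
    linarith

lemma delta (H : A.Hyp a c₁ cₑ β h p Far χ) : ∀ ε > (0:ℝ), ∃ k : ℕ, ∀ s : S, ∀ L n : ℕ, ∀ B : Set Ω,
    L + k ≤ n → MeasurableSet[A.F L] B → B ⊆ A.al L →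
    (A.P s).real (B ∩ (A.none n L (L + k) ∩ A.al n)) ≤ ε * (A.P s).real B := by
  intro ε hε
  by_cases hS : Nonempty S
  · obtain ⟨s₀⟩ := hS
    have hc := H.c₁pos
    have hc1 := c₁_le H s₀
    obtain ⟨r, hr⟩ : ∃ r : ℕ, (1 - c₁)^r < ε/2 :=
      exists_pow_lt_of_lt_one (by positivity) (by linarith)
    have hβ : ∀ᶠ m in atTop, β m < ε/2 * c₁ :=
      H.β_lim.eventually_lt_const (by positivity)
    obtain ⟨m, hm⟩ := hβ.exists
    refine ⟨r * m, fun s L n B hL hB hBa => ?_⟩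
    have h1 := delta_step H s m n r L B hL hB hBa
    refine h1.trans ?_
    apply mul_le_mul_of_nonneg_right _ measureReal_nonneg
    have : β m / c₁ < ε/2 := by rw [div_lt_iff₀ hc]; exact hm
    linarith
  · exact ⟨0, fun s => (hS ⟨s⟩).elim⟩

/-- sum of disjoint events inside `G` -/
lemma sum_disj_le {μ : Measure Ω} [IsProbabilityMeasure μ] (t : Finset ℕ) (D : ℕ → Set Ω)
    (G : Set Ω) (hm : ∀ j ∈ t, MeasurableSet (D j)) (hG : ∀ j ∈ t, D j ⊆ G)
    (hd : ∀ i ∈ t, ∀ j ∈ t, i < j → ∀ ω, ω ∈ D i → ω ∉ D j) :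
    ∑ j ∈ t, μ.real (D j) ≤ μ.real G := by
  have hdis : (t : Set ℕ).PairwiseDisjoint D := by
    intro i hi j hj hij
    rw [Function.onFun, Set.disjoint_left]
    intro ω h1 h2
    rcases lt_or_gt_of_ne hij with h | h
    · exact hd i hi j hj h ω h1 h2
    · exact hd j hj i hi h ω h2 h1
  rw [← measureReal_biUnion_finset hdis hm]
  exact measureReal_mono (iUnion₂_subset hG)

lemma real_iUnion_le {μ : Measure Ω} [IsProbabilityMeasure μ] (t : Finset ℕ) (D : ℕ → Set Ω) :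
    μ.real (⋃ j ∈ t, D j) ≤ ∑ j ∈ t, μ.real (D j) := measureReal_biUnion_finset_le t D

/-- `i` killed at `j` for all `i ∈ [a, j)` -/
def killed (A : PairSys S Ω) (a j : ℕ) : Set Ω := {ω | ∀ i, a ≤ i → i < j → ω ∉ A.N i j}

lemma killed_meas (a j : ℕ) : MeasurableSet[A.F j] (A.killed a j) := by
  have : A.killed a j = ⋂ i ∈ {i : ℕ | a ≤ i ∧ i < j}, (A.N i j)ᶜ := by
    ext ω; simp [killed]
  rw [this]
  refine MeasurableSet.biInter (Set.to_countable _) ?_
  intro i hi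
  exact (A.N_meas i j hi.2.le).compl

/-- Step 2: two-step recursion -/
lemma recursion (H : A.Hyp a c₁ cₑ β h p Far χ) (q : ℕ) (hq : a ≤ q) (ζ δ : ℝ)
    (hζ : ∀ s ∈ A.Dist, A.b q s - A.b (8*q) s ≤ ζ)
    (hδ : ∀ s : S, ∀ L n : ℕ, ∀ B : Set Ω, L + q ≤ n → MeasurableSet[A.F L] B → B ⊆ A.al L →
      (A.P s).real (B ∩ (A.none n L (L + q) ∩ A.al n)) ≤ δ * (A.P s).real B)
    (s : S) (hs : s ∈ A.Dist) :
    A.b (4*q) s - A.b (8*q) s ≤ (ζ / c₁ + δ) * A.b (2*q) s := by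
  have := A.prob s
  have hc := H.c₁pos
  have ha1 := H.a1
  have hζ0 : 0 ≤ ζ := by
    have h1 := hζ s hs
    have h2 := b_anti (A := A) s (show q ≤ 8*q by omega)
    simp only at h2
    linarith
  set μ := A.P s with hμ
  set G := A.N 0 (2*q) ∩ A.nocs 0 (2*q) with hG
  have hGm : MeasurableSet[A.F (2*q)] G :=
    MeasurableSet.inter (A.N_meas 0 (2*q) (Nat.zero_le _)) (nocs_meas 0 (2*q))
  have hGb : μ.real G = A.b (2*q) s := rfl
  set E1 := A.N 0 (4*q) ∩ A.nocs 0 (4*q) with hE1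
  set E2 := A.N 0 (8*q) ∩ A.nocs 0 (8*q) with hE2
  have hE2m : MeasurableSet E2 := (N_measΩ 0 _ (Nat.zero_le _)).inter (nocs_measΩ 0 _)
  have hsub21 : E2 ⊆ E1 := fun ω hω =>
    ⟨A.N_left 0 (4*q) (8*q) (Nat.zero_le _) (by omega) ω hω.1, nocs_anti (by omega) hω.2⟩
  have hdiff : A.b (4*q) s - A.b (8*q) s = μ.real (E1 \ E2) := by
    rw [measureReal_diff hsub21 hE2m]; rfl
  set Bj : ℕ → Set Ω := fun j => (A.N 0 j ∩ A.nocs 0 j) ∩ A.killed (2*q) j with hBj
  have hBjm : ∀ j, MeasurableSet[A.F j] (Bj j) := fun j =>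
    MeasurableSet.inter (MeasurableSet.inter (A.N_meas 0 j (Nat.zero_le _)) (nocs_meas 0 j))
      (killed_meas _ _)
  have hBja : ∀ j, Bj j ⊆ A.al j := fun j ω hω => A.N_al 0 j (Nat.zero_le _) hω.1.1
  set t := Finset.Icc (2*q) (3*q) with ht
  set D : ℕ → Set Ω := fun j =>
    (Bj j ∩ (A.N j (4*q) ∩ A.nocs j (4*q))) \ (Bj j ∩ (A.N j (8*q) ∩ A.nocs j (8*q))) with hD
  have hcover : E1 \ E2 ⊆ (G ∩ (A.none (4*q) (2*q) (2*q+q) ∩ A.al (4*q))) ∪ ⋃ j ∈ t, D j := by
    intro ω hω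
    obtain ⟨⟨hN, hn⟩, hnot⟩ := hω
    by_cases hnone : ω ∈ A.none (4*q) (2*q) (2*q+q)
    · left
      exact ⟨⟨A.N_left 0 (2*q) (4*q) (Nat.zero_le _) (by omega) ω hN, nocs_anti (by omega) hn⟩,
        hnone, A.N_al 0 (4*q) (Nat.zero_le _) hN⟩
    · right
      simp only [none, mem_setOf_eq, not_forall] at hnone
      classical
      have hex : ∃ j, 2*q ≤ j ∧ j ≤ 2*q+q ∧ ω ∈ A.N j (4*q) := by
        obtain ⟨j, h1, h2, h3⟩ := hnone
        exact ⟨j, h1, h2, not_not.mp h3⟩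
      obtain ⟨h1, h2, h3⟩ := Nat.find_spec hex
      set j := Nat.find hex with hj
      have hmin : ∀ i, 2*q ≤ i → i < j → ω ∉ A.N i (4*q) := by
        intro i hi hij hNi
        exact Nat.find_min hex hij ⟨hi, by omega, hNi⟩
      refine mem_iUnion₂.mpr ⟨j, Finset.mem_Icc.mpr ⟨h1, by omega⟩, ?_⟩
      have hNj : ω ∈ A.N 0 j := A.N_left 0 j (4*q) (Nat.zero_le _) (by omega) ω hN
      have hB : ω ∈ Bj j := by
        refine ⟨⟨hNj, nocs_anti (by omega) hn⟩, ?_⟩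
        intro i hi hij hNi
        exact hmin i hi hij (A.N_trans i j (4*q) hij.le (by omega) ω hNi h3)
      refine ⟨⟨hB, h3, nocs_left (Nat.zero_le _) hn⟩, ?_⟩
      intro hbad
      apply hnot
      refine ⟨A.N_trans 0 j (8*q) (Nat.zero_le _) (by omega) ω hNj hbad.2.1, ?_⟩
      intro l hl1 hl2
      by_cases hl : l ≤ 4*q
      · exact hn l hl1 hl
      · exact hbad.2.2 l (by omega) hl2
  have h1 := measureReal_mono (μ := μ) hcover
  have h2 := measureReal_union_le (μ := μ)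
    (G ∩ (A.none (4*q) (2*q) (2*q+q) ∩ A.al (4*q))) (⋃ j ∈ t, D j)
  have h3 := hδ s (2*q) (4*q) G (by omega) hGm
    (fun ω hω => A.N_al 0 (2*q) (Nat.zero_le _) hω.1)
  have h4 := real_iUnion_le (μ := μ) t D
  have h5 : ∀ j ∈ t, μ.real (D j) ≤ ζ * μ.real (Bj j) := by
    intro j hj
    rw [ht, Finset.mem_Icc] at hj
    have hsub : Bj j ∩ (A.N j (8*q) ∩ A.nocs j (8*q)) ⊆ Bj j ∩ (A.N j (4*q) ∩ A.nocs j (4*q)) :=
      fun ω hω => ⟨hω.1, A.N_left j (4*q) (8*q) (by omega) (by omega) ω hω.2.1,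
        nocs_anti (by omega) hω.2.2⟩
    have e0 : μ.real (D j) = μ.real (Bj j ∩ (A.N j (4*q) ∩ A.nocs j (4*q)))
        - μ.real (Bj j ∩ (A.N j (8*q) ∩ A.nocs j (8*q))) := by
      rw [hD]
      exact measureReal_diff hsub ((meas j (hBjm j)).inter
        ((N_measΩ j _ (by omega)).inter (nocs_measΩ j _)))
    rw [e0, hμ, H.FP s j (4*q) (4*q) (by omega) (by omega) _ (hBjm j) (hBja j),
      H.FP s j (8*q) (8*q) (by omega) (by omega) _ (hBjm j) (hBja j),
      ← integral_sub (integ_φ s j _ _).integrableOn (integ_φ s j _ _).integrableOn]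
    calc _ ≤ ∫ ω in Bj j, ζ ∂(A.P s) := by
          refine setIntegral_mono_on ((integ_φ s j _ _).sub (integ_φ s j _ _)).integrableOn
            (integrable_const _).integrableOn (meas j (hBjm j)) ?_
          intro ω _
          by_cases hd : A.st j ω ∈ A.Dist
          · have f1 : A.φ (4*q-j) (4*q-j) (A.st j ω) ≤ A.b q (A.st j ω) :=
              b_anti (A := A) (A.st j ω) (show q ≤ 4*q-j by omega)
            have f2 : A.b (8*q) (A.st j ω) ≤ A.φ (8*q-j) (8*q-j) (A.st j ω) :=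
              b_anti (A := A) (A.st j ω) (show 8*q-j ≤ 8*q by omega)
            have f3 := hζ _ hd
            linarith
          · have f1 := H.eqz _ hd (4*q-j) (4*q-j) (by omega) (by omega)
            have f2 := φ_nonneg (A := A) (8*q-j) (8*q-j) (A.st j ω)
            linarith
      _ = ζ * (A.P s).real (Bj j) := by rw [setIntegral_const, smul_eq_mul, mul_comm]
  have h6 : ∑ j ∈ t, μ.real (Bj j ∩ A.N j (4*q)) ≤ μ.real G := by
    refine sum_disj_le t _ G ?_ ?_ ?_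
    · intro j hj
      rw [ht, Finset.mem_Icc] at hj
      exact (meas j (hBjm j)).inter (N_measΩ j _ (by omega))
    · intro j hj ω hω
      rw [ht, Finset.mem_Icc] at hj
      exact ⟨A.N_left 0 (2*q) j (Nat.zero_le _) hj.1 ω hω.1.1.1, nocs_anti hj.1 hω.1.1.2⟩
    · intro i hi j hj hij ω hωi hωj
      rw [ht, Finset.mem_Icc] at hi hj
      exact hωj.1.2 i hi.1 hij (A.N_left i j (4*q) hij.le (by omega) ω hωi.2)
  have h7 : ∀ j ∈ t, c₁ * μ.real (Bj j) ≤ μ.real (Bj j ∩ A.N j (4*q)) := by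
    intro j hj
    rw [ht, Finset.mem_Icc] at hj
    exact lowerN H s j (4*q) (by omega) _ (hBjm j) (hBja j)
  have h8 : ∑ j ∈ t, μ.real (Bj j) ≤ μ.real G / c₁ := by
    rw [le_div_iff₀ hc, mul_comm, Finset.mul_sum]
    exact (Finset.sum_le_sum h7).trans h6
  have h9 : ∑ j ∈ t, μ.real (D j) ≤ ζ * (μ.real G / c₁) := by
    refine (Finset.sum_le_sum h5).trans ?_
    rw [← Finset.mul_sum]
    exact mul_le_mul_of_nonneg_left h8 hζ0
  rw [hdiff, ← hGb]
  have : (ζ / c₁ + δ) * μ.real G = ζ * (μ.real G / c₁) + δ * μ.real G := by ring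
  rw [this]
  linarith

/-- Step 2, in the limit form -/
lemma recursion_lim (H : A.Hyp a c₁ cₑ β h p Far χ) : ∀ ε > (0:ℝ), ∃ q₀ : ℕ, ∀ q ≥ q₀, ∀ s ∈ A.Dist,
    A.b (4*q) s - A.b (8*q) s ≤ ε * A.b (2*q) s := by
  intro ε hε
  have hc := H.c₁pos
  obtain ⟨k, hk⟩ := delta H (ε/2) (by positivity)
  obtain ⟨m₀, hm₀⟩ := H.KB (ε * c₁ / 6) (by positivity)
  refine ⟨max (max k m₀) a, fun q hq s hs => ?_⟩
  have hq1 : a ≤ q := le_trans (le_max_right _ _) hq
  have hqk : k ≤ q := le_trans (le_trans (le_max_left _ _) (le_max_left _ _)) hq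
  have hqm : m₀ ≤ q := le_trans (le_trans (le_max_right _ _) (le_max_left _ _)) hq
  have hζ : ∀ s ∈ A.Dist, A.b q s - A.b (8*q) s ≤ ε * c₁ / 2 := by
    intro s hs
    have h1 := hm₀ q hqm s hs
    have h2 := hm₀ (2*q) (by omega) s hs
    have h3 := hm₀ (4*q) (by omega) s hs
    have e2 : 2 * (2*q) = 4*q := by ring
    have e3 : 2 * (4*q) = 8*q := by ring
    rw [e2] at h2; rw [e3] at h3
    linarith
  have := recursion H q hq1 (ε * c₁ / 2) (ε/2) hζ ?_ s hs
  · have e : ε * c₁ / 2 / c₁ + ε / 2 = ε := by field_simp; ring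
    rw [e] at this; exact this
  · intro s L n B hL hB hBa
    have hP := A.prob s
    refine le_trans ?_ (hk s L n B (by omega) hB hBa)
    exact measureReal_mono (inter_subset_inter_right _
      (inter_subset_inter_left _ (none_anti (by omega))))

/-- the family of all `b · s`, `s` distinct -/
def fam (A : PairSys S Ω) : Set (ℕ → ℝ) := {f | ∃ s ∈ A.Dist, f = fun m => A.b m s}

/-- Step 3 -/
lemma svfam (H : A.Hyp a c₁ cₑ β h p Far χ) : SVFam A.fam := by
  have hp := H.ppos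
  -- recursion at dyadic scales with 1/16
  obtain ⟨q₀, hq₀⟩ := recursion_lim H (1/16) (by norm_num)
  obtain ⟨i₀, hi₀⟩ : ∃ i₀ : ℕ, q₀ ≤ 2^i₀ := ⟨q₀, Nat.lt_two_pow_self.le⟩
  have hrec : ∀ i, i₀ ≤ i → ∀ s ∈ A.Dist,
      A.b (2^(i+2)) s - A.b (2^(i+3)) s ≤ 1/16 * A.b (2^(i+1)) s := by
    intro i hi s hs
    have h1 : q₀ ≤ 2^i := hi₀.trans (Nat.pow_le_pow_right (by norm_num) hi)
    have h2 := hq₀ (2^i) h1 s hs
    have e1 : 4 * 2^i = 2^(i+2) := by ring
    have e2 : 8 * 2^i = 2^(i+3) := by ring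
    have e3 : 2 * 2^i = 2^(i+1) := by ring
    rw [e1, e2, e3] at h2
    exact h2
  -- far start
  have hlim : Tendsto (fun j : ℕ => h (2^j)) atTop (𝓝 p) :=
    H.h_lim.comp (tendsto_pow_atTop_atTop_of_one_lt (by norm_num))
  have hev : ∀ᶠ j in atTop, h (2^j) < p * (11/10) :=
    hlim.eventually_lt_const (by nlinarith)
  obtain ⟨j₁, hj₁⟩ := (hev.and (eventually_ge_atTop (i₀+1))).exists
  obtain ⟨hj1a, hj1b⟩ := hj₁
  obtain ⟨R, hR⟩ := H.far (2^(j₁+1)) (p^2/4) (by positivity)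
  -- for far states, all later ratios are ≥ 7/8
  have hfar0 : ∀ s ∈ Far R, 3/4 * p^2 ≤ A.b (2^(j₁+1)) s := by
    intro s hs
    have h1 := hR s hs
    have h2 := H.h_ge (2^(j₁+1))
    have : p^2 ≤ h (2^(j₁+1)) ^ 2 := by gcongr
    linarith
  have hfar1 : ∀ s ∈ Far R, A.b (2^j₁) s / 2 ≤ A.b (2^(j₁+1)) s := by
    intro s hs
    have h1 := H.ub s (H.far_dist R hs) (2^j₁)
    have h2 := H.h_ge (2^j₁)
    have h3 : h (2^j₁) ^ 2 ≤ (p * (11/10))^2 :=
      pow_le_pow_left₀ (by linarith) hj1a.le 2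
    have h4 := hfar0 s hs
    nlinarith
  have hfar2 : ∀ s ∈ Far R, ∀ j, j₁ + 1 ≤ j →
      A.b (2^(j-1)) s / 2 ≤ A.b (2^j) s ∧ 7/8 * A.b (2^j) s ≤ A.b (2^(j+1)) s := by
    intro s hs j hj
    have hsd := H.far_dist R hs
    induction j, hj using Nat.le_induction with
    | base =>
      refine ⟨by simpa using hfar1 s hs, ?_⟩
      have h1 := hrec (j₁-1) (by omega) s hsd
      have e1 : j₁ - 1 + 2 = j₁ + 1 := by omega
      have e2 : j₁ - 1 + 3 = j₁ + 1 + 1 := by omega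
      have e3 : j₁ - 1 + 1 = j₁ := by omega
      rw [e1, e2, e3] at h1
      have h2 := hfar1 s hs
      linarith
    | succ j hj ih =>
      have pj := b_nonneg (A := A) (2^j) s
      have h1 : A.b (2^j) s / 2 ≤ A.b (2^(j+1)) s := by linarith [ih.2]
      refine ⟨by simpa using h1, ?_⟩
      have h2 := hrec (j-1) (by omega) s hsd
      have e1 : j - 1 + 2 = j + 1 := by omega
      have e2 : j - 1 + 3 = j + 1 + 1 := by omega
      have e3 : j - 1 + 1 = j := by omega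
      rw [e1, e2, e3] at h2
      linarith
  have hfar3 : ∀ s ∈ Far R, ∀ j, 3/4 * p^2 * (7/8)^j ≤ A.b (2^j) s := by
    intro s hs j
    have hbig : ∀ j, j₁ + 1 ≤ j → 3/4 * p^2 * (7/8)^(j-(j₁+1)) ≤ A.b (2^j) s := by
      intro j hj
      induction j, hj using Nat.le_induction with
      | base => simpa using hfar0 s hs
      | succ j hj ih =>
        have h1 := (hfar2 s hs j hj).2
        have e : j + 1 - (j₁+1) = (j - (j₁+1)) + 1 := by omega
        rw [e]
        have e' : 3/4 * p^2 * (7/8:ℝ)^((j - (j₁+1)) + 1)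
            = 7/8 * (3/4 * p^2 * (7/8)^(j-(j₁+1))) := by rw [pow_succ (7/8:ℝ)]; ring
        rw [e']
        linarith
    by_cases hj : j₁ + 1 ≤ j
    · refine le_trans ?_ (hbig j hj)
      apply mul_le_mul_of_nonneg_left _ (by positivity)
      exact pow_le_pow_of_le_one (by norm_num) (by norm_num) (Nat.sub_le _ _)
    · have h1 : A.b (2^(j₁+1)) s ≤ A.b (2^j) s :=
        b_anti (A := A) s (Nat.pow_le_pow_right (by norm_num) (by omega))
      have h2 := hfar0 s hs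
      have h3 : 3/4 * p^2 * (7/8)^j ≤ 3/4 * p^2 := by
        have : (7/8:ℝ)^j ≤ 1 := pow_le_one₀ (by norm_num) (by norm_num)
        nlinarith [sq_nonneg p]
      linarith
  -- general lower bound
  obtain ⟨c, hc, hue⟩ := H.ue1 R
  have hlow : ∀ s ∈ A.Dist, ∀ j, (c * (3/4 * p^2)) * (7/8:ℝ)^j ≤ A.b (2^j) s := by
    intro s hs j
    obtain ⟨s', hs', h1⟩ := hue s hs
    have h2 := h1 (2^j)
    have h3 := hfar3 s' hs' j
    have h4 : A.b (2^j+a) s ≤ A.b (2^j) s := b_anti (A := A) s (Nat.le_add_right _ _)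
    calc _ = c * (3/4 * p^2 * (7/8)^j) := by ring
      _ ≤ c * A.b (2^j) s' := mul_le_mul_of_nonneg_left h3 hc.le
      _ ≤ _ := h2.trans h4
  -- uniform ratio ≥ 7/8 from some scale on
  set c₂ := c * (3/4 * p^2) with hc₂
  have hc₂pos : 0 < c₂ := by positivity
  obtain ⟨q, hq⟩ : ∃ q : ℕ, (1/8:ℝ)^q < c₂ * (7/8:ℝ)^(i₀+1+q) := by
    obtain ⟨q, hq⟩ : ∃ q : ℕ, (1/7:ℝ)^q < c₂ * (7/8:ℝ)^(i₀+1) :=
      exists_pow_lt_of_lt_one (by positivity) (by norm_num)
    refine ⟨q, ?_⟩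
    have e1 : (1/8:ℝ)^q = (1/7)^q * (7/8)^q := by rw [← mul_pow]; norm_num
    have e2 : c₂ * (7/8:ℝ)^(i₀+1+q) = c₂ * (7/8)^(i₀+1) * (7/8)^q := by rw [pow_add]; ring
    rw [e1, e2]
    exact mul_lt_mul_of_pos_right hq (by positivity)
  have hratio0 : ∀ s ∈ A.Dist, ∀ j, i₀ + 1 + q + 1 ≤ j →
      7/8 * A.b (2^j) s ≤ A.b (2^(j+1)) s := by
    intro s hs
    refine ratio_of_rec (fun j => A.b (2^j) s) (fun j => b_nonneg _ _) (fun j => b_le_one _ _)
      (i₀+1) q c₂ ?_ (hlow s hs _) hq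
    intro j hj
    have h1 := hrec (j-1) (by omega) s hs
    have e1 : j - 1 + 2 = j + 1 := by omega
    have e2 : j - 1 + 3 = j + 2 := by omega
    have e3 : j - 1 + 1 = j := by omega
    rw [e1, e2, e3] at h1
    show A.b (2^(j+1)) s - A.b (2^(j+2)) s ≤ A.b (2^j) s / 16
    linarith
  refine ⟨?_, ?_, ?_, ?_, ?_⟩
  · rintro f ⟨s, _, rfl⟩; exact b_anti s
  · rintro f ⟨s, _, rfl⟩ n; exact b_nonneg _ _
  · rintro f ⟨s, _, rfl⟩ n; exact b_le_one _ _
  · intro ε hε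
    obtain ⟨q₁, hq₁⟩ := recursion_lim H (ε/2) (by positivity)
    obtain ⟨i₁, hi₁⟩ : ∃ i₁ : ℕ, q₁ ≤ 2^i₁ := ⟨q₁, Nat.lt_two_pow_self.le⟩
    refine ⟨max (i₁+2) (i₀+1+q+3), fun j hj f hf => ?_⟩
    obtain ⟨s, hs, rfl⟩ := hf
    have hj1 : i₁ + 2 ≤ j := le_trans (le_max_left _ _) hj
    have hj2 : i₀+1+q+3 ≤ j := le_trans (le_max_right _ _) hj
    obtain ⟨i, hi⟩ : ∃ i, j = i + 2 := ⟨j - 2, by omega⟩
    have h1 := hq₁ (2^i) (hi₁.trans (Nat.pow_le_pow_right (by norm_num) (by omega))) s hs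
    have e1 : 4 * 2^i = 2^(i+2) := by ring
    have e2 : 8 * 2^i = 2^(i+2+1) := by ring
    have e3 : 2 * 2^i = 2^(i+1) := by ring
    rw [e1, e2, e3] at h1
    have h2 := hratio0 s hs (i+1) (by omega)
    have e4 : i + 1 + 1 = i + 2 := by omega
    rw [e4] at h2
    subst hi
    have pj := b_nonneg (A := A) (2^(i+2)) s
    show (1-ε) * A.b (2^(i+2)) s ≤ A.b (2^(i+2+1)) s
    nlinarith
  · refine ⟨c₂, hc₂pos, ?_⟩
    rintro f ⟨s, hs, rfl⟩ j
    exact hlow s hs j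


lemma integ_b (s : S) (j n : ℕ) : Integrable (fun ω => A.b n (A.st j ω)) (A.P s) :=
  integ_φ s j n n

/-- Step 4: contact stages are few -/
lemma contact_few (H : A.Hyp a c₁ cₑ β h p Far χ) (s : S) (n : ℕ) (u : ℝ) (hu : 0 < u)
    (hub : ∀ s' ∈ A.Dist, u ≤ A.b n s') :
    ∑ l ∈ Finset.Icc 1 n, (A.P s).real (A.cs l ∩ A.N 0 l) ≤ (1 + 1/cₑ) * (1/u) + a := by
  have := A.prob s
  have hce := H.cₑpos
  set μ := A.P s with hμ
  set D : ℕ → Set Ω := fun l => (A.cs l ∩ A.N 0 l) ∩ A.st l ⁻¹' A.Dist with hD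
  set D' : ℕ → Set Ω := fun l => (A.cs l ∩ A.N 0 l) ∩ A.st l ⁻¹' A.Distᶜ with hD'
  have hDm : ∀ l, MeasurableSet[A.F l] (D l) := fun l =>
    MeasurableSet.inter (MeasurableSet.inter (A.cs_meas l) (A.N_meas 0 l (Nat.zero_le _)))
      (A.st_meas l (MeasurableSet.of_discrete))
  have hD'm : ∀ l, MeasurableSet[A.F l] (D' l) := fun l =>
    MeasurableSet.inter (MeasurableSet.inter (A.cs_meas l) (A.N_meas 0 l (Nat.zero_le _)))
      (A.st_meas l (MeasurableSet.of_discrete))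
  have hDa : ∀ l, D l ⊆ A.al l := fun l ω hω => A.N_al 0 l (Nat.zero_le _) hω.1.2
  have hD'a : ∀ l, D' l ⊆ A.al l := fun l ω hω => A.N_al 0 l (Nat.zero_le _) hω.1.2
  have h1 : ∀ l ∈ Finset.Icc 1 n, u * μ.real (D l) ≤ μ.real (D l ∩ (A.N l n ∩ A.nocs l n)) := by
    intro l hl
    rw [Finset.mem_Icc] at hl
    rw [hμ, H.FP s l n n hl.2 le_rfl _ (hDm l) (hDa l)]
    calc u * (A.P s).real (D l) = ∫ ω in D l, u ∂(A.P s) := by
          rw [setIntegral_const, smul_eq_mul, mul_comm]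
      _ ≤ _ := by
          refine setIntegral_mono_on (integrable_const _).integrableOn
            (integ_φ s l _ _).integrableOn (meas l (hDm l)) ?_
          intro ω hω
          exact (hub _ hω.2).trans (b_anti (A := A) (A.st l ω) (Nat.sub_le n l))
  have h2 : ∑ l ∈ Finset.Icc 1 n, μ.real (D l ∩ (A.N l n ∩ A.nocs l n)) ≤ 1 := by
    have := sum_disj_le (μ := μ) (Finset.Icc 1 n) (fun l => D l ∩ (A.N l n ∩ A.nocs l n)) univ
      (fun l hl => (meas l (hDm l)).inter ((N_measΩ l n (Finset.mem_Icc.mp hl).2).inter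
        (nocs_measΩ l n))) (fun _ _ => subset_univ _) ?_
    · simpa using this
    · intro i hi j hj hij ω hωi hωj
      exact hωi.2.2 j hij (Finset.mem_Icc.mp hj).2 hωj.1.1.1
  have h3 : ∑ l ∈ Finset.Icc 1 n, μ.real (D l) ≤ 1/u := by
    rw [le_div_iff₀ hu, mul_comm, Finset.mul_sum]
    exact (Finset.sum_le_sum h1).trans h2
  have h4 : ∀ l ∈ Finset.Ico 1 (n+1-a), cₑ * μ.real (D' l) ≤ μ.real (D (l+a)) := by
    intro l _
    refine (H.ue3 s l (D' l) (hD'm l) (hD'a l) (fun ω hω => hω.2)).trans ?_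
    refine measureReal_mono ?_
    intro ω hω
    exact ⟨⟨hω.2.1.2, A.N_trans 0 l (l+a) (Nat.zero_le _) (Nat.le_add_right _ _) ω
      hω.1.1.2 hω.2.1.1⟩, hω.2.2⟩
  have h5 : ∑ l ∈ Finset.Ico 1 (n+1-a), μ.real (D' l) ≤ (1/cₑ) * (1/u) := by
    have e1 : ∑ l ∈ Finset.Ico 1 (n+1-a), μ.real (D (l+a)) ≤ ∑ l ∈ Finset.Icc 1 n, μ.real (D l) := by
      have e2 : ∑ l ∈ Finset.Ico 1 (n+1-a), μ.real (D (l+a))
          = ∑ l ∈ Finset.Ico (1+a) (n+1-a+a), μ.real (D l) :=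
        Finset.sum_Ico_add' (fun l => μ.real (D l)) 1 (n+1-a) a
      rw [e2]
      by_cases han : a ≤ n + 1
      · refine Finset.sum_le_sum_of_subset_of_nonneg ?_ (fun _ _ _ => measureReal_nonneg)
        intro l hl
        rw [Finset.mem_Ico] at hl
        rw [Finset.mem_Icc]; omega
      · have : Finset.Ico (1+a) (n+1-a+a) = ∅ := by
          apply Finset.Ico_eq_empty; omega
        rw [this, Finset.sum_empty]
        exact Finset.sum_nonneg fun _ _ => measureReal_nonneg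
    have e3 := Finset.sum_le_sum h4
    rw [← Finset.mul_sum] at e3
    have e4 : cₑ * ∑ l ∈ Finset.Ico 1 (n+1-a), μ.real (D' l) ≤ 1/u := e3.trans (e1.trans h3)
    rw [div_mul_eq_mul_div, le_div_iff₀ hce, one_mul, mul_comm]
    exact e4
  have h6 : ∀ l, μ.real (A.cs l ∩ A.N 0 l) ≤ μ.real (D l) + μ.real (D' l) := by
    intro l
    refine le_trans (measureReal_mono ?_) (measureReal_union_le _ _)
    intro ω hω
    by_cases hd : A.st l ω ∈ A.Dist
    · exact Or.inl ⟨hω, hd⟩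
    · exact Or.inr ⟨hω, hd⟩
  have h7 : ∑ l ∈ Finset.Icc 1 n, μ.real (D' l) ≤ (1/cₑ) * (1/u) + a := by
    have e : Finset.Icc 1 n ⊆ Finset.Ico 1 (n+1-a) ∪ Finset.Ico (n+1-a) (n+1) := by
      intro l hl
      rw [Finset.mem_Icc] at hl
      rw [Finset.mem_union, Finset.mem_Ico, Finset.mem_Ico]; omega
    refine (Finset.sum_le_sum_of_subset_of_nonneg e fun _ _ _ => measureReal_nonneg).trans ?_
    refine (Finset.sum_union_inter (s₁ := Finset.Ico 1 (n+1-a)) (s₂ := Finset.Ico (n+1-a) (n+1))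
      (f := fun l => μ.real (D' l)) ▸ (le_add_of_nonneg_right
        (Finset.sum_nonneg fun _ _ => measureReal_nonneg))).trans ?_
    apply add_le_add h5
    calc ∑ l ∈ Finset.Ico (n+1-a) (n+1), μ.real (D' l)
        ≤ ∑ l ∈ Finset.Ico (n+1-a) (n+1), (1:ℝ) := Finset.sum_le_sum fun _ _ => measureReal_le_one
      _ = ((n+1-(n+1-a) : ℕ) : ℝ) := by rw [Finset.sum_const, Nat.card_Ico, nsmul_eq_mul, mul_one]
      _ ≤ a := by exact_mod_cast (by omega : n+1-(n+1-a) ≤ a)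
  calc _ ≤ ∑ l ∈ Finset.Icc 1 n, (μ.real (D l) + μ.real (D' l)) :=
        Finset.sum_le_sum fun l _ => h6 l
    _ = ∑ l ∈ Finset.Icc 1 n, μ.real (D l) + ∑ l ∈ Finset.Icc 1 n, μ.real (D' l) :=
        Finset.sum_add_distrib
    _ ≤ _ := by
        have : (1 + 1/cₑ) * (1/u) + a = 1/u + ((1/cₑ) * (1/u) + a) := by ring
        rw [this]; linarith

/-- wasted level -/
def W (A : PairSys S Ω) (n L : ℕ) : Set Ω :=
  {ω | ∃ l, 1 ≤ l ∧ l ≤ L ∧ ω ∈ A.cs l ∧ ω ∈ A.none n l L}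

/-- Step 5 -/
lemma waste (s : S) (n k : ℕ) (δ : ℝ)
    (hδ : ∀ L : ℕ, L + k ≤ n → (A.P s).real (A.al L ∩ (A.none n L (L + k) ∩ A.al n)) ≤ δ)
    (hδ0 : 0 ≤ δ) :
    ∑ L ∈ Finset.range n, (A.P s).real (A.W n L ∩ A.N 0 n) ≤
      n * δ + k * ∑ l ∈ Finset.Icc 1 n, (A.P s).real (A.cs l ∩ A.N 0 l) := by
  have := A.prob s
  set μ := A.P s with hμ
  have h1 : ∀ L ∈ Finset.range n, μ.real (A.W n L ∩ A.N 0 n) ≤
      δ + ∑ l ∈ Finset.Icc 1 n, (if l ≤ L ∧ L < l + k then μ.real (A.cs l ∩ A.N 0 l) else 0) := by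
    intro L hL
    rw [Finset.mem_range] at hL
    have hcov : A.W n L ∩ A.N 0 n ⊆
        (if k ≤ L then A.al (L-k) ∩ (A.none n (L-k) (L-k+k) ∩ A.al n) else ∅) ∪
        ⋃ l ∈ (Finset.Icc 1 n).filter (fun l => l ≤ L ∧ L < l + k), (A.cs l ∩ A.N 0 l) := by
      rintro ω ⟨⟨l, hl1, hl2, hcs, hnone⟩, hN⟩
      by_cases hlk : L < l + k
      · right
        refine mem_iUnion₂.mpr ⟨l, ?_, hcs, A.N_left 0 l n (Nat.zero_le _) (by omega) ω hN⟩
        rw [Finset.mem_filter, Finset.mem_Icc]; omega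
      · left
        rw [if_pos (by omega)]
        have hal := A.N_al 0 n (Nat.zero_le _) hN
        refine ⟨A.al_anti _ n (by omega) hal, ?_, hal⟩
        intro j hj1 hj2
        exact hnone j (by omega) (by omega)
    refine (measureReal_mono hcov).trans ((measureReal_union_le _ _).trans ?_)
    apply add_le_add
    · split_ifs with hk
      · exact hδ (L-k) (by omega)
      · simpa using hδ0
    · refine (real_iUnion_le _ _).trans ?_
      rw [Finset.sum_filter]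
  refine (Finset.sum_le_sum h1).trans ?_
  rw [Finset.sum_add_distrib, Finset.sum_const, Finset.card_range, nsmul_eq_mul,
    Finset.sum_comm]
  apply add_le_add le_rfl
  rw [Finset.mul_sum]
  refine Finset.sum_le_sum fun l _ => ?_
  rw [← Finset.sum_filter, Finset.sum_const, nsmul_eq_mul]
  apply mul_le_mul_of_nonneg_right _ measureReal_nonneg
  have hsub : (Finset.range n).filter (fun L => l ≤ L ∧ L < l + k) ⊆ Finset.Ico l (l+k) := by
    intro L hL
    rw [Finset.mem_filter] at hL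
    rw [Finset.mem_Ico]; exact hL.2
  have := Finset.card_le_card hsub
  rw [Nat.card_Ico] at this
  have h2 : l + k - l = k := by omega
  rw [h2] at this
  exact_mod_cast this

/-- level `j` starts a run, last contact stage `l` -/
def Bjl (A : PairSys S Ω) (j l : ℕ) : Set Ω :=
  (A.N 0 j ∩ {ω | l = 0 ∨ ω ∈ A.cs l}) ∩ (A.nocs l j ∩ A.killed l j)

def Bst (A : PairSys S Ω) (j : ℕ) : Set Ω := ⋃ l ∈ Finset.range (j+1), A.Bjl j l

lemma Bjl_meas (j l : ℕ) (hl : l ≤ j) : MeasurableSet[A.F j] (A.Bjl j l) := by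
  refine MeasurableSet.inter (MeasurableSet.inter (A.N_meas 0 j (Nat.zero_le _)) ?_)
    (MeasurableSet.inter (nocs_meas l j) (killed_meas l j))
  by_cases h0 : l = 0
  · have : {ω | l = 0 ∨ ω ∈ A.cs l} = univ := by ext ω; simp [h0]
    rw [this]; exact MeasurableSet.univ
  · have : {ω | l = 0 ∨ ω ∈ A.cs l} = A.cs l := by ext ω; simp [h0]
    rw [this]; exact A.F_mono l j hl _ (A.cs_meas l)

lemma Bst_meas (j : ℕ) : MeasurableSet[A.F j] (A.Bst j) := by
  refine MeasurableSet.biUnion (Finset.countable_toSet _) ?_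
  intro l hl
  exact Bjl_meas j l (by have := Finset.mem_range.mp hl; omega)

lemma Bst_al (j : ℕ) : A.Bst j ⊆ A.al j := by
  intro ω hω
  obtain ⟨l, _, hB⟩ := mem_iUnion₂.mp hω
  exact A.N_al 0 j (Nat.zero_le _) hB.1.1

lemma Bst_disj (n i j : ℕ) (hij : i < j) (hj : j ≤ n) (ω : Ω)
    (h1 : ω ∈ A.Bst i ∩ (A.N i n ∩ A.nocs i n)) (h2 : ω ∈ A.Bst j ∩ (A.N j n ∩ A.nocs j n)) :
    False := by
  obtain ⟨l, hl, hB⟩ := mem_iUnion₂.mp h2.1
  rw [Finset.mem_range] at hl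
  have hNij : ω ∈ A.N i j := A.N_left i j n hij.le hj ω h1.2.1
  have hil : i < l := by
    by_contra hcon
    exact hB.2.2 i (by omega) hij hNij
  have hcs : ω ∈ A.cs l := by
    rcases hB.1.2 with h0 | h0
    · omega
    · exact h0
  exact h1.2.2 l hil (by omega) hcs

/-- (6a) -/
lemma sum_start_b (H : A.Hyp a c₁ cₑ β h p Far χ) (s : S) (n : ℕ) :
    ∑ j ∈ Finset.range (n+1), ∫ ω in A.Bst j, A.b (n-j) (A.st j ω) ∂(A.P s) ≤ 1 := by
  have := A.prob s
  have h1 : ∀ j ∈ Finset.range (n+1), ∫ ω in A.Bst j, A.b (n-j) (A.st j ω) ∂(A.P s)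
      = (A.P s).real (A.Bst j ∩ (A.N j n ∩ A.nocs j n)) := by
    intro j hj
    rw [Finset.mem_range] at hj
    rw [H.FP s j n n (by omega) le_rfl _ (Bst_meas j) (Bst_al j)]
    rfl
  rw [Finset.sum_congr rfl h1]
  have := sum_disj_le (μ := A.P s) (Finset.range (n+1))
    (fun j => A.Bst j ∩ (A.N j n ∩ A.nocs j n)) univ
    (fun j hj => (meas j (Bst_meas j)).inter ((N_measΩ j n (by
      have := Finset.mem_range.mp hj; omega)).inter (nocs_measΩ j n)))
    (fun _ _ => subset_univ _) ?_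
  · simpa using this
  · intro i hi j hj hij ω hωi hωj
    exact Bst_disj n i j hij (by have := Finset.mem_range.mp hj; omega) ω hωi hωj

/-- (6b) -/
lemma sum_start (H : A.Hyp a c₁ cₑ β h p Far χ) (s : S) (n : ℕ) :
    ∑ j ∈ Finset.range (n+1), (A.P s).real (A.Bst j) ≤
      (1/c₁) * (1 + ∑ l ∈ Finset.Icc 1 n, (A.P s).real (A.cs l ∩ A.N 0 l)) := by
  have := A.prob s
  have hc := H.c₁pos
  set μ := A.P s with hμ
  have h1 : ∀ j ∈ Finset.range (n+1), c₁ * μ.real (A.Bst j) ≤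
      ∑ l ∈ Finset.range (n+1), (if l ≤ j then μ.real (A.Bjl j l ∩ A.N j n) else 0) := by
    intro j hj
    rw [Finset.mem_range] at hj
    refine (lowerN H s j n (by omega) _ (Bst_meas j) (Bst_al j)).trans ?_
    have hcov : A.Bst j ∩ A.N j n ⊆
        ⋃ l ∈ (Finset.range (n+1)).filter (fun l => l ≤ j), (A.Bjl j l ∩ A.N j n) := by
      rintro ω ⟨hB, hN⟩
      obtain ⟨l, hl, hB⟩ := mem_iUnion₂.mp hB
      rw [Finset.mem_range] at hl
      refine mem_iUnion₂.mpr ⟨l, ?_, hB, hN⟩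
      rw [Finset.mem_filter, Finset.mem_range]; omega
    refine (measureReal_mono hcov (measure_ne_top _ _)).trans ((real_iUnion_le _ _).trans ?_)
    rw [Finset.sum_filter]
  have h2 : c₁ * ∑ j ∈ Finset.range (n+1), μ.real (A.Bst j) ≤
      ∑ l ∈ Finset.range (n+1), ∑ j ∈ Finset.range (n+1),
        (if l ≤ j then μ.real (A.Bjl j l ∩ A.N j n) else 0) := by
    rw [Finset.mul_sum, Finset.sum_comm]
    exact Finset.sum_le_sum h1
  have h3 : ∀ l ∈ Finset.range (n+1), ∑ j ∈ Finset.range (n+1),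
      (if l ≤ j then μ.real (A.Bjl j l ∩ A.N j n) else 0) ≤
      μ.real ({ω | l = 0 ∨ ω ∈ A.cs l} ∩ A.N 0 l) := by
    intro l hl
    rw [← Finset.sum_filter]
    refine sum_disj_le _ _ _ ?_ ?_ ?_
    · intro j hj
      rw [Finset.mem_filter, Finset.mem_range] at hj
      exact (meas j (Bjl_meas j l hj.2)).inter (N_measΩ j n (by omega))
    · intro j hj ω hω
      rw [Finset.mem_filter] at hj
      exact ⟨hω.1.1.2, A.N_left 0 l j (Nat.zero_le _) hj.2 ω hω.1.1.1⟩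
    · intro i hi j hj hij ω hωi hωj
      rw [Finset.mem_filter, Finset.mem_range] at hi hj
      exact hωj.1.2.2 i hi.2 hij (A.N_left i j n hij.le (by omega) ω hωi.2)
  have h4 : ∑ l ∈ Finset.range (n+1), μ.real ({ω | l = 0 ∨ ω ∈ A.cs l} ∩ A.N 0 l) ≤
      1 + ∑ l ∈ Finset.Icc 1 n, μ.real (A.cs l ∩ A.N 0 l) := by
    have e : Finset.range (n+1) = insert 0 (Finset.Icc 1 n) := by
      ext l; simp only [Finset.mem_range, Finset.mem_insert, Finset.mem_Icc]; omega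
    rw [e, Finset.sum_insert (by simp)]
    apply add_le_add measureReal_le_one
    refine Finset.sum_le_sum fun l hl => ?_
    rw [Finset.mem_Icc] at hl
    refine measureReal_mono ?_
    intro ω hω
    rcases hω.1 with h0 | h0
    · omega
    · exact ⟨h0, hω.2⟩
  have h5 := h2.trans ((Finset.sum_le_sum h3).trans h4)
  rw [div_mul_eq_mul_div, le_div_iff₀ hc, one_mul, mul_comm]
  exact h5

lemma exists_start (n L K : ℕ) (hL : L ≤ n) (hK : K ≤ L) (ω : Ω) (hN : ω ∈ A.N 0 n)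
    (hw : ∀ l, 1 ≤ l → l ≤ L → ω ∈ A.cs l → ∃ j, l ≤ j ∧ j ≤ K ∧ ω ∈ A.N j n) :
    ∃ j, j ≤ K ∧ ω ∈ A.Bst j ∩ (A.N j n ∩ A.nocs j L) := by
  classical
  set l := Nat.findGreatest (fun l => l = 0 ∨ ω ∈ A.cs l) L with hl
  have hlL : l ≤ L := Nat.findGreatest_le L
  have hlspec : l = 0 ∨ ω ∈ A.cs l :=
    Nat.findGreatest_spec (P := fun l => l = 0 ∨ ω ∈ A.cs l) (Nat.zero_le L) (Or.inl rfl)
  have hnocs : ω ∈ A.nocs l L := by
    intro i h1 h2 h3
    exact Nat.findGreatest_is_greatest h1 h2 (Or.inr h3)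
  have hex : ∃ j, l ≤ j ∧ j ≤ K ∧ ω ∈ A.N j n := by
    by_cases h0 : l = 0
    · exact ⟨0, by omega, Nat.zero_le _, hN⟩
    · have h1 : ω ∈ A.cs l := by tauto
      exact hw l (by omega) hlL h1
  obtain ⟨h1, h2, h3⟩ := Nat.find_spec hex
  set j := Nat.find hex with hj
  refine ⟨j, h2, mem_iUnion₂.mpr ⟨l, Finset.mem_range.mpr (by omega), ?_⟩, h3,
    nocs_left h1 hnocs⟩
  refine ⟨⟨A.N_left 0 j n (Nat.zero_le _) (by omega) ω hN, hlspec⟩, nocs_anti (by omega) hnocs, ?_⟩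
  intro i hi hij hNi
  exact Nat.find_min hex hij ⟨hi, by omega, A.N_trans i j n hij.le (by omega) ω hNi h3⟩

/-- contact stage in `(n/2, n]` -/
def Late (A : PairSys S Ω) (n : ℕ) : Set Ω :=
  A.N 0 n ∩ {ω | ∃ l, n < 2 * l ∧ l ≤ n ∧ ω ∈ A.cs l}

/-- Step 6, quantitative -/
lemma late_le (H : A.Hyp a c₁ cₑ β h p Far χ) (s : S) (n k : ℕ) (hn : 2 ≤ n) (δ ε : ℝ)
    (hδ : ∀ L : ℕ, L + k ≤ n → (A.P s).real (A.al L ∩ (A.none n L (L + k) ∩ A.al n)) ≤ δ)
    (hδ0 : 0 ≤ δ) (hε0 : 0 ≤ ε)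
    (hsv : ∀ m, n ≤ 2 * m → ∀ s' ∈ A.Dist,
      ∑ i ∈ Finset.range m, (A.b i s' - A.b m s') ≤ ε * m * A.b m s') :
    (n / 2 : ℝ) * (A.P s).real (A.Late n) ≤ n * δ +
      k * ∑ l ∈ Finset.Icc 1 n, (A.P s).real (A.cs l ∩ A.N 0 l) + ε * n +
      a * ((1/c₁) * (1 + ∑ l ∈ Finset.Icc 1 n, (A.P s).real (A.cs l ∩ A.N 0 l))) := by
  have := A.prob s
  have ha1 := H.a1
  set μ := A.P s with hμ
  set U := ∑ l ∈ Finset.Icc 1 n, μ.real (A.cs l ∩ A.N 0 l) with hU
  set M := n / 2 + 1 with hM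
  -- per level bound
  have h1 : ∀ L ∈ Finset.range M, μ.real (A.Late n) ≤ μ.real (A.W n L ∩ A.N 0 n) +
      ∑ j ∈ Finset.range M, (if j ≤ L then
        ∫ ω in A.Bst j, (A.φ (n-j) (L-j) (A.st j ω) - A.b (n-j) (A.st j ω)) ∂μ else 0) := by
    intro L hL
    rw [Finset.mem_range] at hL
    have hcov : A.Late n ⊆ (A.W n L ∩ A.N 0 n) ∪
        ⋃ j ∈ (Finset.range M).filter (fun j => j ≤ L),
          ((A.Bst j ∩ (A.N j n ∩ A.nocs j L)) \ (A.Bst j ∩ (A.N j n ∩ A.nocs j n))) := by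
      rintro ω ⟨hN, l, hl1, hl2, hl3⟩
      by_cases hW : ω ∈ A.W n L
      · exact Or.inl ⟨hW, hN⟩
      · right
        obtain ⟨j, hj, hjm⟩ := exists_start n L L (by omega) le_rfl ω hN (by
          intro i hi1 hi2 hi3
          by_contra hcon
          apply hW
          refine ⟨i, hi1, hi2, hi3, ?_⟩
          intro j hj1 hj2 hj3
          exact hcon ⟨j, hj1, hj2, hj3⟩)
        refine mem_iUnion₂.mpr ⟨j, by rw [Finset.mem_filter, Finset.mem_range]; omega, hjm, ?_⟩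
        intro hbad
        exact hbad.2.2 l (by omega) hl2 hl3
    refine (measureReal_mono hcov (measure_ne_top _ _)).trans
      ((measureReal_union_le _ _).trans ?_)
    apply add_le_add le_rfl
    refine (real_iUnion_le _ _).trans ?_
    rw [Finset.sum_filter]
    refine Finset.sum_le_sum fun j hj => ?_
    rw [Finset.mem_range] at hj
    split_ifs with hjL
    · have hsub : A.Bst j ∩ (A.N j n ∩ A.nocs j n) ⊆ A.Bst j ∩ (A.N j n ∩ A.nocs j L) :=
        fun ω hω => ⟨hω.1, hω.2.1, nocs_anti (by omega) hω.2.2⟩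
      rw [measureReal_diff hsub ((meas j (Bst_meas j)).inter
        ((N_measΩ j n (by omega)).inter (nocs_measΩ j n))), hμ,
        H.FP s j L n hjL (by omega) _ (Bst_meas j) (Bst_al j),
        H.FP s j n n (by omega) le_rfl _ (Bst_meas j) (Bst_al j),
        ← integral_sub (integ_φ s j _ _).integrableOn (integ_φ s j _ _).integrableOn]
      rfl
    · exact le_rfl
  have h2 := Finset.sum_le_sum h1
  rw [Finset.sum_const, Finset.card_range, nsmul_eq_mul, Finset.sum_add_distrib,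
    Finset.sum_comm] at h2
  have h3 : ∑ L ∈ Finset.range M, μ.real (A.W n L ∩ A.N 0 n) ≤ n * δ + k * U := by
    refine le_trans ?_ (waste s n k δ hδ hδ0)
    refine Finset.sum_le_sum_of_subset_of_nonneg ?_ (fun _ _ _ => measureReal_nonneg)
    intro L hL
    rw [Finset.mem_range] at hL ⊢
    omega
  have h4 : ∀ j ∈ Finset.range M, ∑ L ∈ Finset.range M, (if j ≤ L then
        ∫ ω in A.Bst j, (A.φ (n-j) (L-j) (A.st j ω) - A.b (n-j) (A.st j ω)) ∂μ else 0)
      ≤ ε * n * ∫ ω in A.Bst j, A.b (n-j) (A.st j ω) ∂μ + a * μ.real (A.Bst j) := by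
    intro j hj
    rw [Finset.mem_range] at hj
    rw [← Finset.sum_filter]
    have hint : ∀ L ∈ (Finset.range M).filter (fun L => j ≤ L),
        IntegrableOn (fun ω => A.φ (n-j) (L-j) (A.st j ω) - A.b (n-j) (A.st j ω)) (A.Bst j) μ :=
      fun L _ => ((integ_φ s j _ _).sub (integ_b s j _)).integrableOn
    rw [← integral_finset_sum _ hint]
    have e1 : ε * n * ∫ ω in A.Bst j, A.b (n-j) (A.st j ω) ∂μ + a * μ.real (A.Bst j)
        = ∫ ω in A.Bst j, (ε * n * A.b (n-j) (A.st j ω) + a) ∂μ := by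
      rw [integral_add ((integ_b s j _).const_mul _).integrableOn
        (integrable_const _).integrableOn, integral_const_mul, setIntegral_const, smul_eq_mul,
        mul_comm (μ.real (A.Bst j))]
    rw [e1]
    refine setIntegral_mono_on (integrable_finset_sum _ hint)
      (((integ_b s j _).const_mul _).add (integrable_const _)).integrableOn
      (meas j (Bst_meas j)) ?_
    intro ω _
    set s' := A.st j ω with hs'
    have hbn := b_nonneg (A := A) (n-j) s'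
    have hreindex : ∑ L ∈ (Finset.range M).filter (fun L => j ≤ L),
        (A.φ (n-j) (L-j) s' - A.b (n-j) s')
        = ∑ i ∈ Finset.range (M - j), (A.φ (n-j) i s' - A.b (n-j) s') := by
      refine Finset.sum_bij' (fun L _ => L - j) (fun i _ => i + j) ?_ ?_ ?_ ?_ ?_
      · intro L hL; rw [Finset.mem_filter, Finset.mem_range] at hL
        rw [Finset.mem_range]; omega
      · intro i hi; rw [Finset.mem_range] at hi
        rw [Finset.mem_filter, Finset.mem_range]; omega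
      · intro L hL; rw [Finset.mem_filter, Finset.mem_range] at hL; show L - j + j = L; omega
      · intro i hi; show i + j - j = i; omega
      · intro L hL; rfl
    rw [hreindex]
    by_cases hd : s' ∈ A.Dist
    · have hle : M - j ≤ n - j := by omega
      have h5 : ∑ i ∈ Finset.range (M - j), (A.φ (n-j) i s' - A.b (n-j) s')
          ≤ ∑ i ∈ Finset.range (M - j), (A.b i s' - A.b (n-j) s') := by
        refine Finset.sum_le_sum fun i hi => ?_
        rw [Finset.mem_range] at hi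
        have := φ_le_b (A := A) (n := n-j) (k := i) s' (by omega)
        linarith
      have h6 : ∑ i ∈ Finset.range (M - j), (A.b i s' - A.b (n-j) s')
          ≤ ∑ i ∈ Finset.range (n - j), (A.b i s' - A.b (n-j) s') := by
        refine Finset.sum_le_sum_of_subset_of_nonneg (Finset.range_mono hle) ?_
        intro i hi _
        rw [Finset.mem_range] at hi
        have := b_anti (A := A) s' hi.le
        simp only at this
        linarith
      have h7 := hsv (n-j) (by omega) s' hd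
      have h8 : ε * ((n - j : ℕ) : ℝ) * A.b (n-j) s' ≤ ε * n * A.b (n-j) s' := by
        apply mul_le_mul_of_nonneg_right _ hbn
        apply mul_le_mul_of_nonneg_left _ hε0
        exact_mod_cast Nat.sub_le n j
      linarith
    · have h5 : ∀ i ∈ Finset.range (M - j), A.φ (n-j) i s' - A.b (n-j) s'
          ≤ if i < a then 1 else 0 := by
        intro i hi
        rw [Finset.mem_range] at hi
        split_ifs with h0
        · have := φ_le_one (A := A) (n-j) i s'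
          linarith
        · have := H.eqz s' hd (n-j) i (by omega) (by omega)
          linarith
      refine (Finset.sum_le_sum h5).trans ?_
      rw [← Finset.sum_filter, Finset.sum_const, nsmul_eq_mul, mul_one]
      have h6 : ((Finset.range (M-j)).filter (fun i => i < a)).card ≤ a := by
        have : (Finset.range (M-j)).filter (fun i => i < a) ⊆ Finset.range a := by
          intro i hi
          rw [Finset.mem_filter] at hi
          exact Finset.mem_range.mpr hi.2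
        simpa using Finset.card_le_card this
      have h7 : (((Finset.range (M-j)).filter (fun i => i < a)).card : ℝ) ≤ a := by
        exact_mod_cast h6
      have : 0 ≤ ε * n * A.b (n-j) s' := by positivity
      linarith
  have h9 := Finset.sum_le_sum h4
  rw [Finset.sum_add_distrib, ← Finset.mul_sum, ← Finset.mul_sum] at h9
  have hsubM : Finset.range M ⊆ Finset.range (n+1) := by
    intro j hj; rw [Finset.mem_range] at hj ⊢; omega
  have h10 : ∑ j ∈ Finset.range M, ∫ ω in A.Bst j, A.b (n-j) (A.st j ω) ∂μ ≤ 1 := by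
    refine le_trans (Finset.sum_le_sum_of_subset_of_nonneg hsubM ?_) (sum_start_b H s n)
    intro j _ _
    exact integral_nonneg fun ω => b_nonneg _ _
  have h11 : ∑ j ∈ Finset.range M, μ.real (A.Bst j) ≤ (1/c₁) * (1 + U) := by
    refine le_trans (Finset.sum_le_sum_of_subset_of_nonneg hsubM ?_) (sum_start H s n)
    intro j _ _
    exact measureReal_nonneg
  have h12 : ε * n * ∑ j ∈ Finset.range M, ∫ ω in A.Bst j, A.b (n-j) (A.st j ω) ∂μ ≤ ε * n := by
    have : 0 ≤ ε * n := by positivity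
    nlinarith
  have h11' : (a:ℝ) * ∑ j ∈ Finset.range M, μ.real (A.Bst j) ≤ a * ((1/c₁) * (1 + U)) :=
    mul_le_mul_of_nonneg_left h11 (by positivity)
  have hMn : (n / 2 : ℝ) ≤ M := by
    rw [hM]
    have : (n:ℝ) ≤ 2 * ((n/2 + 1 : ℕ) : ℝ) := by
      have : n ≤ 2 * (n/2 + 1) := by omega
      exact_mod_cast this
    linarith
  have h13 : (n / 2 : ℝ) * μ.real (A.Late n) ≤ M * μ.real (A.Late n) :=
    mul_le_mul_of_nonneg_right hMn measureReal_nonneg
  linarith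

/-- Step 6: no late contact, uniformly in the start -/
lemma late_lim (H : A.Hyp a c₁ cₑ β h p Far χ) : ∀ ε > (0:ℝ), ∃ n₀ : ℕ, ∀ n ≥ n₀, ∀ s : S,
    (A.P s).real (A.Late n) ≤ ε := by
  intro ε hε
  have hc := H.c₁pos
  have hce := H.cₑpos
  have HF := svfam H
  obtain ⟨k, hk⟩ := delta H (ε/8) (by positivity)
  obtain ⟨n₁, hn₁⟩ := HF.sv1 (ε/8) (by positivity)
  set K : ℝ := (k + a/c₁) with hK
  have ha1 : (1:ℝ) ≤ a := by exact_mod_cast H.a1
  have hKpos : 0 < K := by rw [hK]; positivity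
  set θ : ℝ := ε / (16 * K * (1 + 1/cₑ)) with hθ
  have hθpos : 0 < θ := by rw [hθ]; positivity
  obtain ⟨n₂, hn₂⟩ := HF.sv3 θ hθpos
  obtain ⟨n₃, hn₃⟩ := exists_nat_gt (16 * (K * a + a/c₁) / ε)
  refine ⟨max (max (2*n₁+2) n₂) (max n₃ 2), fun n hn s => ?_⟩
  have hna : 2 * n₁ + 2 ≤ n := le_trans (le_trans (le_max_left _ _) (le_max_left _ _)) hn
  have hnb : n₂ ≤ n := le_trans (le_trans (le_max_right _ _) (le_max_left _ _)) hn
  have hnc : n₃ ≤ n := le_trans (le_trans (le_max_left _ _) (le_max_right _ _)) hn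
  have hnd : 2 ≤ n := le_trans (le_trans (le_max_right _ _) (le_max_right _ _)) hn
  have := A.prob s
  obtain ⟨u, hu, hub, hun⟩ := hn₂ n hnb
  set U := ∑ l ∈ Finset.Icc 1 n, (A.P s).real (A.cs l ∩ A.N 0 l) with hU
  have hU1 : U ≤ (1 + 1/cₑ) * (1/u) + a :=
    contact_few H s n u hu (fun s' hs' => hub _ ⟨s', hs', rfl⟩)
  have hδ : ∀ L : ℕ, L + k ≤ n →
      (A.P s).real (A.al L ∩ (A.none n L (L + k) ∩ A.al n)) ≤ ε/8 := by
    intro L hL
    have h1 := hk s L n (A.al L) hL (A.al_meas L) subset_rfl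
    have h2 : (A.P s).real (A.al L) ≤ 1 := measureReal_le_one
    nlinarith
  have h1 := late_le H s n k hnd (ε/8) (ε/8) hδ (by positivity) (by positivity) (by
    intro m hm s' hs'
    exact hn₁ m (by omega) _ ⟨s', hs', rfl⟩)
  have hnpos : (0:ℝ) < n := by
    have : (2:ℝ) ≤ n := by exact_mod_cast hnd
    linarith
  have h2 : 1/u ≤ θ * n := by
    rw [div_le_iff₀ hu]; linarith
  have h3 : (1 + 1/cₑ) * (1/u) ≤ (1 + 1/cₑ) * (θ * n) :=
    mul_le_mul_of_nonneg_left h2 (by positivity)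
  have h4 : K * ((1 + 1/cₑ) * (θ * n)) = ε/16 * n := by
    rw [hθ]; field_simp
  have h5 : K * U ≤ ε/16 * n + K * a := by
    have : K * U ≤ K * ((1 + 1/cₑ) * (θ * n) + a) :=
      mul_le_mul_of_nonneg_left (by linarith) hKpos.le
    linarith
  have h6 : 16 * (K * a + a/c₁) < ε * n := by
    rw [div_lt_iff₀ hε] at hn₃
    have : (n₃:ℝ) ≤ n := by exact_mod_cast hnc
    nlinarith
  have h7 : n * (ε/8) + k * U + ε/8 * n + a * ((1/c₁) * (1 + U))
      = n * (ε/8) + ε/8 * n + K * U + a/c₁ := by rw [hK]; ring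
  have h8 : (n/2 : ℝ) * (A.P s).real (A.Late n) ≤ (n/2) * ε := by
    calc _ ≤ n * (ε/8) + k * U + ε/8 * n + a * ((1/c₁) * (1 + U)) := h1
      _ = n * (ε/8) + ε/8 * n + K * U + a/c₁ := h7
      _ ≤ (n/2) * ε := by nlinarith
  exact le_of_mul_le_mul_left h8 (by positivity)

/-- **THEOREM B6 (abstract form)** -/
theorem main (H : A.Hyp a c₁ cₑ β h p Far χ) (C : ℕ) : ∀ ε > (0:ℝ), ∃ n₀ : ℕ, ∀ n ≥ n₀, ∀ s : S,
    ∫ ω in A.N 0 n, χ (C * n) (A.st n ω) ∂(A.P s) ≤ ε := by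
  intro ε hε
  have hc := H.c₁pos
  have HF := svfam H
  obtain ⟨n₁, hn₁⟩ := late_lim H (ε/3) (by positivity)
  obtain ⟨k, hk⟩ := delta H (ε/3) (by positivity)
  obtain ⟨n₂, hn₂⟩ := HF.sv2 (4*C+1) (ε/3) (by positivity)
  have ha1 := H.a1
  refine ⟨max (max n₁ (4*k)) (max (4*n₂+4) (4*a)), fun n hn s => ?_⟩
  have hna : n₁ ≤ n := le_trans (le_trans (le_max_left _ _) (le_max_left _ _)) hn
  have hnb : 4*k ≤ n := le_trans (le_trans (le_max_right _ _) (le_max_left _ _)) hn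
  have hnc : 4*n₂+4 ≤ n := le_trans (le_trans (le_max_left _ _) (le_max_right _ _)) hn
  have hnd : 4*a ≤ n := le_trans (le_trans (le_max_right _ _) (le_max_right _ _)) hn
  have := A.prob s
  set μ := A.P s with hμ
  set m := C * n with hm
  set K := n/2 + n/4 with hK
  set f : Ω → ℝ := fun ω => χ m (A.st n ω) with hf
  have hf0 : ∀ ω, 0 ≤ f ω := fun ω => H.χ0 _ _
  have hf1 : ∀ ω, f ω ≤ 1 := fun ω => H.χ1 _ _
  have hfi : Integrable f μ := integ_st s n (χ m) 1 (fun t => by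
    rw [abs_of_nonneg (H.χ0 m t)]; exact H.χ1 m t)
  set E : ℕ → Set Ω := fun j => A.Bst j ∩ (A.N j n ∩ A.nocs j n) with hE
  have hEm : ∀ j, j ≤ n → MeasurableSet (E j) := fun j hj =>
    (meas j (Bst_meas j)).inter ((N_measΩ j n hj).inter (nocs_measΩ j n))
  set Q := A.al (n/2) ∩ (A.none n (n/2) (n/2 + n/4) ∩ A.al n) with hQ
  have hQm : MeasurableSet Q := by
    have : A.none n (n/2) (n/2 + n/4) = ⋂ j ∈ {j : ℕ | n/2 ≤ j ∧ j ≤ n/2 + n/4}, (A.N j n)ᶜ := by
      ext ω; simp [none]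
    rw [hQ, this]
    refine (A.F_le _ _ (A.al_meas _)).inter (MeasurableSet.inter ?_ (A.F_le _ _ (A.al_meas _)))
    refine MeasurableSet.biInter (Set.to_countable _) ?_
    intro j hj
    exact (N_measΩ j n (by have := hj.2; omega)).compl
  have hLm : MeasurableSet (A.Late n) := by
    have : A.Late n = A.N 0 n ∩ ⋃ l ∈ {l : ℕ | n < 2*l ∧ l ≤ n}, A.cs l := by
      ext ω
      simp only [Late, mem_inter_iff, mem_setOf_eq, mem_iUnion, exists_prop]
      constructor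
      · rintro ⟨h1, l, h2, h3, h4⟩; exact ⟨h1, l, ⟨h2, h3⟩, h4⟩
      · rintro ⟨h1, l, ⟨h2, h3⟩, h4⟩; exact ⟨h1, l, h2, h3, h4⟩
    rw [this]
    refine (N_measΩ 0 n (Nat.zero_le _)).inter (MeasurableSet.biUnion (Set.to_countable _) ?_)
    intro l _
    exact A.F_le l _ (A.cs_meas l)
  have hN0m : MeasurableSet (A.N 0 n) := N_measΩ 0 n (Nat.zero_le _)
  -- pointwise bound
  have hpt : ∀ ω, (A.N 0 n).indicator f ω ≤ (A.Late n).indicator (fun _ => (1:ℝ)) ω +
      Q.indicator (fun _ => (1:ℝ)) ω + ∑ j ∈ Finset.range (K+1), (E j).indicator f ω := by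
    intro ω
    have hL0 : 0 ≤ (A.Late n).indicator (fun _ => (1:ℝ)) ω :=
      indicator_nonneg (fun _ _ => zero_le_one) ω
    have hQ0 : 0 ≤ Q.indicator (fun _ => (1:ℝ)) ω :=
      indicator_nonneg (fun _ _ => zero_le_one) ω
    have hS0 : ∀ j ∈ Finset.range (K+1), 0 ≤ (E j).indicator f ω :=
      fun j _ => indicator_nonneg (fun ω _ => hf0 ω) ω
    have hS := Finset.sum_nonneg hS0
    by_cases hN : ω ∈ A.N 0 n
    · rw [indicator_of_mem hN]
      by_cases hL : ω ∈ A.Late n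
      · rw [indicator_of_mem hL]; linarith [hf1 ω]
      by_cases hq : ω ∈ Q
      · rw [indicator_of_mem hq]; linarith [hf1 ω]
      have hj0 : ∃ j, n/2 ≤ j ∧ j ≤ K ∧ ω ∈ A.N j n := by
        by_contra hcon
        apply hq
        have hal := A.N_al 0 n (Nat.zero_le _) hN
        refine ⟨A.al_anti _ n (by omega) hal, ?_, hal⟩
        intro j hj1 hj2 hj3
        exact hcon ⟨j, hj1, hj2, hj3⟩
      obtain ⟨j₀, hj1, hj2, hj3⟩ := hj0
      obtain ⟨j, hj, hjm⟩ := exists_start n n K le_rfl (by omega) ω hN (by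
        intro l hl1 hl2 hl3
        refine ⟨j₀, ?_, hj2, hj3⟩
        by_contra hcon
        apply hL
        exact ⟨hN, l, by omega, hl2, hl3⟩)
      have h1 : f ω ≤ ∑ j ∈ Finset.range (K+1), (E j).indicator f ω := by
        have h2 : f ω = (E j).indicator f ω := by rw [indicator_of_mem hjm]
        rw [h2]
        exact Finset.single_le_sum hS0 (Finset.mem_range.mpr (by omega))
      linarith
    · rw [indicator_of_notMem hN]; linarith
  have hint1 : Integrable ((A.N 0 n).indicator f) μ := hfi.indicator hN0m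
  have hint2 : Integrable ((A.Late n).indicator (fun _ => (1:ℝ))) μ :=
    (integrable_const _).indicator hLm
  have hint3 : Integrable (Q.indicator (fun _ => (1:ℝ))) μ := (integrable_const _).indicator hQm
  have hint4 : ∀ j ∈ Finset.range (K+1), Integrable ((E j).indicator f) μ := fun j hj =>
    hfi.indicator (hEm j (by have := Finset.mem_range.mp hj; omega))
  have h1 := integral_mono hint1 ((hint2.add hint3).add (integrable_finset_sum _ hint4)) hpt
  have e1 : ∫ ω, (A.N 0 n).indicator f ω ∂μ = ∫ ω in A.N 0 n, f ω ∂μ := integral_indicator hN0m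
  have e2 : ∫ ω, ((A.Late n).indicator (fun _ => (1:ℝ)) ω + Q.indicator (fun _ => (1:ℝ)) ω +
      ∑ j ∈ Finset.range (K+1), (E j).indicator f ω) ∂μ
      = μ.real (A.Late n) + μ.real Q + ∑ j ∈ Finset.range (K+1), ∫ ω in E j, f ω ∂μ := by
    have hA : Integrable (fun ω => (A.Late n).indicator (fun _ => (1:ℝ)) ω +
        Q.indicator (fun _ => (1:ℝ)) ω) μ := hint2.add hint3
    rw [integral_add hA (integrable_finset_sum _ hint4), integral_add hint2 hint3,
      integral_finset_sum _ hint4]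
    congr 1
    · congr 1
      · rw [integral_indicator hLm, setIntegral_const, smul_eq_mul, mul_one]
      · rw [integral_indicator hQm, setIntegral_const, smul_eq_mul, mul_one]
    · refine Finset.sum_congr rfl fun j hj => ?_
      exact integral_indicator (hEm j (by have := Finset.mem_range.mp hj; omega))
  have h2 : ∫ ω in A.N 0 n, f ω ∂μ ≤
      μ.real (A.Late n) + μ.real Q + ∑ j ∈ Finset.range (K+1), ∫ ω in E j, f ω ∂μ := by
    rw [← e1, ← e2]; exact h1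
  have h3 : μ.real (A.Late n) ≤ ε/3 := hn₁ n hna s
  have h4 : μ.real Q ≤ ε/3 := by
    have h5 := hk s (n/2) n (A.al (n/2)) (by omega) (A.al_meas _) subset_rfl
    have h6 : (A.P s).real (A.al (n/2)) ≤ 1 := measureReal_le_one
    have h7 : μ.real Q ≤ (A.P s).real (A.al (n/2) ∩ (A.none n (n/2) (n/2+k) ∩ A.al n)) :=
      measureReal_mono (inter_subset_inter_right _
        (inter_subset_inter_left _ (none_anti (by omega))))
    nlinarith
  have h5 : ∀ j ∈ Finset.range (K+1), ∫ ω in E j, f ω ∂μ ≤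
      ε/3 * ∫ ω in A.Bst j, A.b (n-j) (A.st j ω) ∂μ := by
    intro j hj
    rw [Finset.mem_range] at hj
    have hjn : j ≤ n := by omega
    set Bd := A.Bst j ∩ A.st j ⁻¹' A.Dist with hBd
    set Bn := A.Bst j ∩ A.st j ⁻¹' A.Distᶜ with hBn
    have hBdm : MeasurableSet[A.F j] Bd :=
      MeasurableSet.inter (Bst_meas j) (A.st_meas j MeasurableSet.of_discrete)
    have hBnm : MeasurableSet[A.F j] Bn :=
      MeasurableSet.inter (Bst_meas j) (A.st_meas j MeasurableSet.of_discrete)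
    have hBda : Bd ⊆ A.al j := fun ω hω => Bst_al j hω.1
    have hBna : Bn ⊆ A.al j := fun ω hω => Bst_al j hω.1
    have hEd : E j = (Bd ∩ (A.N j n ∩ A.nocs j n)) ∪ (Bn ∩ (A.N j n ∩ A.nocs j n)) := by
      ext ω
      simp only [hE, hBd, hBn, mem_inter_iff, mem_union, mem_preimage, mem_compl_iff]
      tauto
    have hz : μ.real (Bn ∩ (A.N j n ∩ A.nocs j n)) = 0 := by
      rw [hμ, H.FP s j n n hjn le_rfl _ hBnm hBna]
      have : ∫ ω in Bn, A.φ (n-j) (n-j) (A.st j ω) ∂(A.P s) = ∫ ω in Bn, (0:ℝ) ∂(A.P s) := by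
        refine setIntegral_congr_fun (meas j hBnm) ?_
        intro ω hω
        exact H.eqz _ hω.2 (n-j) (n-j) (by omega) le_rfl
      rw [this]; simp
    have hz' : μ (Bn ∩ (A.N j n ∩ A.nocs j n)) = 0 := by
      rwa [measureReal_eq_zero_iff] at hz
    have e3 : ∫ ω in E j, f ω ∂μ = ∫ ω in Bd ∩ (A.N j n ∩ A.nocs j n), f ω ∂μ := by
      rw [hEd]
      refine setIntegral_congr_set ?_
      exact union_ae_eq_left_of_ae_eq_empty (by rwa [ae_eq_empty])
    rw [e3]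
    refine (H.χFP s j n m hjn Bd hBdm hBda (fun ω hω => hω.2)).trans ?_
    have h6 : ∫ ω in Bd, (A.b (n-j) (A.st j ω) - A.b (n-j+m) (A.st j ω)) ∂(A.P s)
        ≤ ∫ ω in Bd, (ε/3 * A.b (n-j) (A.st j ω)) ∂(A.P s) := by
      refine setIntegral_mono_on ((integ_b s j _).sub (integ_b s j _)).integrableOn
        ((integ_b s j _).const_mul _).integrableOn (meas j hBdm) ?_
      intro ω hω
      have h7 := hn₂ (n-j) (by omega) _ ⟨A.st j ω, hω.2, rfl⟩
      have h8 : A.b ((4*C+1)*(n-j)) (A.st j ω) ≤ A.b (n-j+m) (A.st j ω) := by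
        refine b_anti (A := A) (A.st j ω) ?_
        have : n ≤ 4 * (n-j) := by omega
        have h9 : C * n ≤ C * (4 * (n-j)) := Nat.mul_le_mul_left C this
        rw [hm]
        calc n - j + C * n ≤ n - j + C * (4 * (n-j)) := by omega
          _ = (4*C+1) * (n-j) := by ring
      linarith
    refine h6.trans ?_
    rw [integral_const_mul]
    apply mul_le_mul_of_nonneg_left _ (by positivity)
    refine setIntegral_mono_set (integ_b s j _).integrableOn
      (ae_of_all _ fun ω => b_nonneg _ _) ?_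
    exact (inter_subset_left : Bd ⊆ A.Bst j).eventuallyLE
  have h6 : ∑ j ∈ Finset.range (K+1), ∫ ω in E j, f ω ∂μ ≤ ε/3 := by
    refine (Finset.sum_le_sum h5).trans ?_
    rw [← Finset.mul_sum]
    have h7 : ∑ j ∈ Finset.range (K+1), ∫ ω in A.Bst j, A.b (n-j) (A.st j ω) ∂μ ≤ 1 := by
      refine le_trans (Finset.sum_le_sum_of_subset_of_nonneg ?_ ?_) (sum_start_b H s n)
      · intro j hj; rw [Finset.mem_range] at hj ⊢; omega
      · intro j _ _
        exact integral_nonneg fun ω => b_nonneg _ _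
    nlinarith
  linarith

end integrals

end PairSys

end Crest.Agent.R154.B6_833
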