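import Mathlib

-- ▼ part R154/KSet_402
section

/-!
Row 154, block B7 (K-set bound), abstract probability part (helper402).

Sequential experiments `i = 0,1,2,...` on a probability space with a filtration `F`; the `i`-th
experiment is `F (i+1)`-measurable, its conditional law given `F i` is only used through integrals
over `F i`-measurable sets (no conditional expectation in the interface).
-/

open MeasureTheory Filter Finset
open scoped ENNReal

namespace Crest.Agent.R154.KSet

section meas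

variable {Ω : Type*} {m : MeasurableSpace Ω}


theorem meas_prod {ι : Type*} (s : Finset ι) {f : ι → Ω → ℝ≥0∞} (hf : ∀ i ∈ s, Measurable (f i)) :
    Measurable fun ω => ∏ i ∈ s, f i ω :=
  Finset.measurable_fun_prod s hf


theorem meas_exp {ι : Type*} (s : Finset ι) {f : ι → Ω → ℝ} (hf : ∀ i ∈ s, Measurable (f i))
    (θ : ℝ) : Measurable fun ω => ENNReal.ofReal (Real.exp (θ * ∑ i ∈ s, f i ω)) := by
  refine ENNReal.measurable_ofReal.comp (Real.measurable_exp.comp ?_)
  exact Measurable.const_mul (Finset.measurable_fun_sum s hf) θ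








end meas

/-- comparison of set integrals over `m`-measurable sets gives comparison against `m`-measurable
weights -/
theorem lintegral_mul_mono_of_sets {Ω : Type*} {m m0 : MeasurableSpace Ω} (hm : m ≤ m0)
    (P : Measure Ω)
    {X Y f : Ω → ℝ≥0∞} (hX : Measurable X) (hY : Measurable Y)
    (hf : Measurable[m] f)
    (h : ∀ B, MeasurableSet[m] B → ∫⁻ ω in B, X ω ∂P ≤ ∫⁻ ω in B, Y ω ∂P) :
    ∫⁻ ω, f ω * X ω ∂P ≤ ∫⁻ ω, f ω * Y ω ∂P := by
  have hf0 : Measurable f := hf.mono hm le_rfl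
  have key : ∀ Z : Ω → ℝ≥0∞, Measurable Z →
      ∫⁻ ω, f ω * Z ω ∂P = ∫⁻ ω, f ω ∂((P.withDensity Z).trim hm) := by
    intro Z hZ
    rw [lintegral_trim hm hf, lintegral_withDensity_eq_lintegral_mul _ hZ hf0]
    refine lintegral_congr fun ω => ?_
    simp [mul_comm]
  rw [key X hX, key Y hY]
  refine lintegral_mono' ?_ le_rfl
  rw [Measure.le_iff]
  intro B hB
  rw [trim_measurableSet_eq hm hB, trim_measurableSet_eq hm hB,
    withDensity_apply _ (hm _ hB), withDensity_apply _ (hm _ hB)]
  exact h B hB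

variable {Ω : Type*} {m0 : MeasurableSpace Ω}











end Crest.Agent.R154.KSet
end

-- ▼ part R154/Comp_402

/-!
Row 154, block B8, chain part ((C1), (C2), FINAL of helper112 #27112), helper402.
Abstract: `a i = -log S_{10^i}`, `G i` = rows below level `10^i`.
-/

open MeasureTheory Filter Finset
open scoped ENNReal

namespace Crest.Agent.R154.Comp

open Crest.Agent.R154.KSet

section meas
variable {Ω : Type*} {m : MeasurableSpace Ω}

theorem meas_expmax {f : Ω → ℝ} (hf : Measurable f) (c s : ℝ) :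
    Measurable fun ω => ENNReal.ofReal (Real.exp (c * max (f ω - s) 0)) :=
  ENNReal.measurable_ofReal.comp
    (Real.measurable_exp.comp (((hf.sub_const s).max measurable_const).const_mul c))

theorem meas_sub {f g : Ω → ℝ} (hf : Measurable f) (hg : Measurable g) :
    Measurable fun ω => f ω - g ω := hf.sub hg

theorem meas_setge {f : Ω → ℝ} (hf : Measurable f) (u : ℝ) :
    MeasurableSet {ω | u ≤ f ω} := measurableSet_le measurable_const hf

end meas

variable {Ω : Type*} {m0 : MeasurableSpace Ω}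

/-- Lemma A: exponential tail (rate `2c`, constant `K`) gives exponential moment at rate `c`. -/
theorem expmoment_of_tail (μ : Measure Ω) {V : Ω → ℝ} (hV : Measurable V) {c s K : ℝ}
    (hc : 0 < c) (hK : 0 ≤ K) {B : Set Ω}
    (h : ∀ v : ℝ, 0 ≤ v → μ (B ∩ {ω | s + v ≤ V ω}) ≤ ENNReal.ofReal (K * Real.exp (-(2 * c * v))) * μ B) :
    ∫⁻ ω in B, ENNReal.ofReal (Real.exp (c * max (V ω - s) 0)) ∂μ
      ≤ ENNReal.ofReal (Real.exp c * (1 + K * (1 - Real.exp (-c))⁻¹)) * μ B := by
  have hec : Real.exp (-c) < 1 := by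
    rw [Real.exp_lt_one_iff]; linarith
  have hpt : ∀ ω, ENNReal.ofReal (Real.exp (c * max (V ω - s) 0))
      ≤ ENNReal.ofReal (Real.exp c) + ∑' n : ℕ, ENNReal.ofReal (Real.exp (c * (n + 1)))
        * ({ω | s + (n : ℝ) ≤ V ω}.indicator 1 ω) := by
    intro ω
    by_cases hlt : V ω - s < 0
    · refine le_trans (ENNReal.ofReal_le_ofReal ?_) le_self_add
      rw [max_eq_right hlt.le, mul_zero]
      exact Real.exp_le_exp.2 hc.le
    · rw [not_lt] at hlt
      refine le_trans ?_ le_add_self
      set n := ⌊V ω - s⌋₊ with hn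
      have h1 : (n : ℝ) ≤ V ω - s := Nat.floor_le hlt
      have h2 : V ω - s < n + 1 := Nat.lt_floor_add_one _
      refine le_trans ?_ (ENNReal.le_tsum n)
      rw [Set.indicator_of_mem (by simp only [Set.mem_ofPred_eq]; linarith)]
      simp only [Pi.one_apply, mul_one]
      refine ENNReal.ofReal_le_ofReal (Real.exp_le_exp.2 ?_)
      rw [max_eq_left hlt]
      exact mul_le_mul_of_nonneg_left h2.le hc.le
  have hms : ∀ n : ℕ, MeasurableSet {ω | s + (n : ℝ) ≤ V ω} := fun n => meas_setge hV _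
  calc ∫⁻ ω in B, ENNReal.ofReal (Real.exp (c * max (V ω - s) 0)) ∂μ
      ≤ ∫⁻ ω in B, (ENNReal.ofReal (Real.exp c) + ∑' n : ℕ, ENNReal.ofReal (Real.exp (c * (n + 1)))
        * ({ω | s + (n : ℝ) ≤ V ω}.indicator 1 ω)) ∂μ := lintegral_mono hpt
    _ = ENNReal.ofReal (Real.exp c) * μ B + ∑' n : ℕ, ENNReal.ofReal (Real.exp (c * (n + 1)))
        * μ (B ∩ {ω | s + (n : ℝ) ≤ V ω}) := by
        rw [lintegral_add_left measurable_const, setLIntegral_const, lintegral_tsum]
        · congr 1
          refine tsum_congr fun n => ?_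
          rw [lintegral_const_mul _ (measurable_one.indicator (hms n)),
            lintegral_indicator_one (hms n), Measure.restrict_apply (hms n), Set.inter_comm]
        · intro n
          exact ((measurable_one.indicator (hms n)).const_mul _).aemeasurable
    _ ≤ ENNReal.ofReal (Real.exp c) * μ B + ∑' n : ℕ,
        (ENNReal.ofReal (Real.exp c * (K * Real.exp (-c) ^ n)) * μ B) := by
        refine add_le_add le_rfl (ENNReal.tsum_le_tsum fun n => ?_)
        calc ENNReal.ofReal (Real.exp (c * (n + 1))) * μ (B ∩ {ω | s + (n : ℝ) ≤ V ω})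
            ≤ ENNReal.ofReal (Real.exp (c * (n + 1)))
              * (ENNReal.ofReal (K * Real.exp (-(2 * c * n))) * μ B) := by
              gcongr; exact h n (Nat.cast_nonneg n)
          _ = ENNReal.ofReal (Real.exp c * (K * Real.exp (-c) ^ n)) * μ B := by
              rw [← mul_assoc, ← ENNReal.ofReal_mul (Real.exp_pos _).le]
              congr 2
              rw [← Real.exp_nat_mul, mul_left_comm (Real.exp (c * (n + 1))), ← Real.exp_add,
                mul_left_comm (Real.exp c), ← Real.exp_add]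
              congr 2; ring
    _ = ENNReal.ofReal (Real.exp c * (1 + K * (1 - Real.exp (-c))⁻¹)) * μ B := by
        rw [ENNReal.tsum_mul_right, ← add_mul]
        congr 1
        rw [← ENNReal.ofReal_tsum_of_nonneg]
        · rw [tsum_mul_left, tsum_mul_left, tsum_geometric_of_lt_one (Real.exp_pos _).le hec,
            ← ENNReal.ofReal_add (Real.exp_pos _).le]
          · congr 1; ring
          · have : 0 ≤ (1 - Real.exp (-c))⁻¹ := inv_nonneg.2 (by linarith)
            positivity
        · intro n; positivity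
        · exact ((summable_geometric_of_lt_one (Real.exp_pos _).le hec).mul_left K).mul_left _

/-- Lemma B: product of adapted factors with conditional mean `≤ M`. -/
theorem lintegral_prod_le (μ : Measure Ω) (F : ℕ → MeasurableSpace Ω) (hF : ∀ j, F j ≤ m0)
    (hmono : Monotone F) (n : ℕ) (f : ℕ → Ω → ℝ≥0∞) (M : ℝ≥0∞)
    (hf : ∀ j < n, Measurable[F (j + 1)] (f j))
    (hc : ∀ j < n, ∀ B, MeasurableSet[F j] B → ∫⁻ ω in B, f j ω ∂μ ≤ M * μ B) :
    ∫⁻ ω, ∏ j ∈ range n, f j ω ∂μ ≤ M ^ n * μ Set.univ := by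
  induction n with
  | zero => simp
  | succ n ih =>
    have ih' := ih (fun j hj => hf j (by omega)) (fun j hj => hc j (by omega))
    have hpm : Measurable[F n] fun ω => ∏ j ∈ range n, f j ω := by
      refine meas_prod _ fun i hi => ?_
      have hi' : i < n := by simpa using hi
      exact (hf i (by omega)).mono (hmono (by omega)) le_rfl
    have h2 := lintegral_mul_mono_of_sets (m := F n) (m0 := m0) (hF n) μ
      (X := f n) (Y := fun _ => M) ((hf n (by omega)).mono (hF _) le_rfl) measurable_const hpm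
      (fun B hB => by simpa using hc n (by omega) B hB)
    calc ∫⁻ ω, ∏ j ∈ range (n + 1), f j ω ∂μ
        = ∫⁻ ω, (∏ j ∈ range n, f j ω) * f n ω ∂μ := by
          refine lintegral_congr fun ω => ?_
          rw [prod_range_succ]
      _ ≤ ∫⁻ ω, (∏ j ∈ range n, f j ω) * M ∂μ := h2
      _ = (∫⁻ ω, ∏ j ∈ range n, f j ω ∂μ) * M :=
          lintegral_mul_const _ (hpm.mono (hF n) le_rfl)
      _ ≤ M ^ n * μ Set.univ * M := by gcongr
      _ = M ^ (n + 1) * μ Set.univ := by ring

theorem sum_range_two_mul (n : ℕ) (X : ℕ → ℝ) :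
    ∑ j ∈ range (2 * n), X j = ∑ i ∈ range n, X (2 * i) + ∑ i ∈ range n, X (2 * i + 1) := by
  induction n with
  | zero => simp
  | succ n ih =>
    rw [show 2 * (n + 1) = 2 * n + 1 + 1 by ring, sum_range_succ, sum_range_succ, ih,
      sum_range_succ, sum_range_succ]
    ring

/-- Lemma C: tail of a sum of increments; the `j`-th increment is `g (j+2)`-measurable and
controlled given `g j`. -/
theorem tail_sum_of_overlap (μ : Measure Ω) (g : ℕ → MeasurableSpace Ω) (hg : ∀ j, g j ≤ m0)
    (hmono : Monotone g) (n : ℕ) (D : ℕ → Ω → ℝ) {c s M v : ℝ} (hc : 0 < c) (hM : 1 ≤ M)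
    (hD : ∀ j < n, Measurable[g (j + 2)] (D j))
    (hcond : ∀ j < n, ∀ B, MeasurableSet[g j] B →
      ∫⁻ ω in B, ENNReal.ofReal (Real.exp (c * max (D j ω - s) 0)) ∂μ
        ≤ ENNReal.ofReal M * μ B) :
    μ {ω | n * s + v ≤ ∑ j ∈ range n, D j ω}
      ≤ ENNReal.ofReal (2 * M ^ n * Real.exp (-(c * v / 2))) * μ Set.univ := by
  classical
  set X : ℕ → Ω → ℝ := fun j ω => if j < n then max (D j ω - s) 0 else 0 with hX
  have hX0 : ∀ j ω, 0 ≤ X j ω := by
    intro j ω; simp only [hX]; split_ifs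
    · exact le_max_right _ _
    · exact le_rfl
  -- the two parity chains
  have key : ∀ p : ℕ, p ≤ 1 →
      ∫⁻ ω, ENNReal.ofReal (Real.exp (c * ∑ i ∈ range n, X (2 * i + p) ω)) ∂μ
        ≤ ENNReal.ofReal (M ^ n) * μ Set.univ := by
    intro p hp
    have h := lintegral_prod_le μ (fun i => g (2 * i + p)) (fun i => hg _)
      (fun i j hij => hmono (by omega)) n
      (fun i ω => ENNReal.ofReal (Real.exp (c * X (2 * i + p) ω))) (ENNReal.ofReal M)
      (fun i _ => by
        by_cases hlt : 2 * i + p < n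
        · have : (fun ω => ENNReal.ofReal (Real.exp (c * X (2 * i + p) ω)))
              = fun ω => ENNReal.ofReal (Real.exp (c * max (D (2 * i + p) ω - s) 0)) := by
            funext ω; simp only [hX, if_pos hlt]
          rw [this]
          have e : 2 * (i + 1) + p = 2 * i + p + 2 := by ring
          rw [e]
          exact meas_expmax (hD _ hlt) c s
        · have : (fun ω => ENNReal.ofReal (Real.exp (c * X (2 * i + p) ω)))
              = fun _ => ENNReal.ofReal (Real.exp (c * 0)) := by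
            funext ω; simp only [hX, if_neg hlt]
          rw [this]
          exact measurable_const)
      (fun i _ B hB => by
        by_cases hlt : 2 * i + p < n
        · have : ∀ ω, ENNReal.ofReal (Real.exp (c * X (2 * i + p) ω))
              = ENNReal.ofReal (Real.exp (c * max (D (2 * i + p) ω - s) 0)) := by
            intro ω; simp only [hX, if_pos hlt]
          simp_rw [this]
          exact hcond _ hlt B hB
        · have : ∀ ω, ENNReal.ofReal (Real.exp (c * X (2 * i + p) ω)) = 1 := by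
            intro ω; simp only [hX, if_neg hlt]; simp
          simp_rw [this]
          simp only [lintegral_const, MeasurableSet.univ, Measure.restrict_apply, Set.univ_inter,
            one_mul]
          calc μ B = 1 * μ B := by simp
            _ ≤ ENNReal.ofReal M * μ B := by
              gcongr
              rw [← ENNReal.ofReal_one]; exact ENNReal.ofReal_le_ofReal hM)
    rw [← ENNReal.ofReal_pow (by linarith)] at h
    refine le_trans (le_of_eq ?_) h
    refine lintegral_congr fun ω => ?_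
    rw [mul_sum, Real.exp_sum, ENNReal.ofReal_prod_of_nonneg (fun i _ => (Real.exp_pos _).le)]
  have hXm : ∀ j, Measurable (X j) := by
    intro j
    by_cases hlt : j < n
    · have : X j = fun ω => max (D j ω - s) 0 := by funext ω; simp only [hX, if_pos hlt]
      rw [this]
      exact (((hD j hlt).mono (hg _) le_rfl).sub_const s).max measurable_const
    · have : X j = fun _ => 0 := by funext ω; simp only [hX, if_neg hlt]
      rw [this]; exact measurable_const
  have tail : ∀ p : ℕ, p ≤ 1 → μ {ω | v / 2 ≤ ∑ i ∈ range n, X (2 * i + p) ω}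
      ≤ ENNReal.ofReal (M ^ n * Real.exp (-(c * v / 2))) * μ Set.univ := by
    intro p hp
    have hm : Measurable fun ω => ENNReal.ofReal (Real.exp (c * ∑ i ∈ range n, X (2 * i + p) ω)) :=
      meas_exp _ (fun i _ => hXm _) c
    have hMk := mul_meas_ge_le_lintegral (μ := μ) hm (ENNReal.ofReal (Real.exp (c * v / 2)))
    have hsub : {ω | v / 2 ≤ ∑ i ∈ range n, X (2 * i + p) ω} ⊆
        {ω | ENNReal.ofReal (Real.exp (c * v / 2))
          ≤ ENNReal.ofReal (Real.exp (c * ∑ i ∈ range n, X (2 * i + p) ω))} := by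
      intro ω hω
      simp only [Set.mem_ofPred_eq] at hω ⊢
      refine ENNReal.ofReal_le_ofReal (Real.exp_le_exp.2 ?_)
      have := mul_le_mul_of_nonneg_left hω hc.le
      linarith
    have hpos : ENNReal.ofReal (Real.exp (c * v / 2)) ≠ 0 := by simp [Real.exp_pos]
    have hfin : ENNReal.ofReal (Real.exp (c * v / 2)) ≠ ⊤ := ENNReal.ofReal_ne_top
    have h3 := (mul_le_mul' le_rfl (measure_mono hsub)).trans (hMk.trans (key p hp))
    rw [mul_comm, ← ENNReal.le_div_iff_mul_le (Or.inl hpos) (Or.inl hfin)] at h3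
    refine h3.trans (le_of_eq ?_)
    rw [Real.exp_neg, ENNReal.ofReal_mul (by positivity),
      ENNReal.ofReal_inv_of_pos (Real.exp_pos _), ENNReal.div_eq_inv_mul]
    ring
  have hsub : {ω | n * s + v ≤ ∑ j ∈ range n, D j ω} ⊆
      {ω | v / 2 ≤ ∑ i ∈ range n, X (2 * i + 0) ω} ∪
      {ω | v / 2 ≤ ∑ i ∈ range n, X (2 * i + 1) ω} := by
    intro ω hω
    simp only [Set.mem_ofPred_eq, Set.mem_union] at hω ⊢
    by_contra hcon
    rw [not_or, not_le, not_le] at hcon
    have h1 : ∑ j ∈ range n, D j ω ≤ n * s + ∑ j ∈ range n, X j ω := by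
      have : (n : ℝ) * s = ∑ _j ∈ range n, s := by simp
      rw [this, ← sum_add_distrib]
      refine sum_le_sum fun j hj => ?_
      have hj' : j < n := by simpa using hj
      simp only [hX, if_pos hj']
      have := le_max_left (D j ω - s) 0
      linarith
    have h2 : ∑ j ∈ range n, X j ω ≤ ∑ j ∈ range (2 * n), X j ω :=
      sum_le_sum_of_subset_of_nonneg (by
        intro j hj; simp only [mem_range] at hj ⊢; omega) (fun j _ _ => hX0 j ω)
    rw [sum_range_two_mul n (fun j => X j ω)] at h2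
    simp only [add_zero] at hcon
    linarith [hcon.1, hcon.2]
  refine (measure_mono hsub).trans ((measure_union_le _ _).trans ?_)
  refine (add_le_add (tail 0 (by norm_num)) (tail 1 le_rfl)).trans (le_of_eq ?_)
  rw [← add_mul, ← ENNReal.ofReal_add (by positivity) (by positivity)]
  congr 2; ring

/-- The inputs (W) and (R) of the chain (helper112 #27112), with their constants.
`a i = -log S_{10^i}`, `G i` = rows below level `10^i`. -/
structure Proc (u0 : ℝ → ℝ) (k0 : ℝ → ℝ → ℕ) (i1 : ℝ → ℝ → ℕ → ℕ) (P : Measure Ω)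
    (G : Filtration ℕ m0) (a : ℕ → Ω → ℝ) : Prop where
  meas : ∀ i, Measurable[G i] (a i)
  nonneg : ∀ i ω, 0 ≤ a i ω
  mono : ∀ ω, Monotone fun i => a i ω
  W : ∀ lam : ℝ, 0 < lam → ∀ i : ℕ, ∀ u : ℝ, u0 lam ≤ u → ∀ B, MeasurableSet[G i] B →
    P (B ∩ {ω | u ≤ a (i + 2) ω - a (i + 1) ω}) ≤ ENNReal.ofReal (Real.exp (-(lam * u))) * P B
  R : ∀ ε b : ℝ, 0 < ε → 0 < b → ∀ k : ℕ, k0 ε b ≤ k → 0 < k → ∀ i : ℕ, i1 ε b k ≤ i →
    ∀ B, MeasurableSet[G i] B →
    P (B ∩ {ω | ε * k ≤ a (i + 1 + k) ω - a (i + 1) ω})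
      ≤ ENNReal.ofReal (Real.exp (-(b * k))) * P B

/-- the constant of one step in (C1). -/
noncomputable def M1 (c : ℝ) : ℝ := Real.exp c * (1 + 1 * (1 - Real.exp (-c))⁻¹)

theorem M1_ge {c : ℝ} (hc : 0 < c) : 1 ≤ M1 c := by
  have hec : Real.exp (-c) < 1 := by rw [Real.exp_lt_one_iff]; linarith
  have h1 : 0 ≤ (1 - Real.exp (-c))⁻¹ := inv_nonneg.2 (by linarith)
  have h2 : 1 ≤ Real.exp c := Real.one_le_exp hc.le
  unfold M1
  nlinarith

/-- (C1), conditional tail form: `k` consecutive windows. -/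
theorem block_tail {u0 : ℝ → ℝ} {k0 : ℝ → ℝ → ℕ} {i1 : ℝ → ℝ → ℕ → ℕ} {P : Measure Ω}
    {G : Filtration ℕ m0} {a : ℕ → Ω → ℝ} (hp : Proc u0 k0 i1 P G a) {c : ℝ} (hc : 0 < c)
    (i0 k : ℕ) {v : ℝ} {B : Set Ω} (hB : MeasurableSet[G i0] B) :
    P (B ∩ {ω | k * max (u0 (2 * c)) 0 + v ≤ a (i0 + 1 + k) ω - a (i0 + 1) ω})
      ≤ ENNReal.ofReal (2 * M1 c ^ k * Real.exp (-(c * v / 2))) * P B := by
  have hBm : MeasurableSet B := G.le _ _ hB
  have h := tail_sum_of_overlap (P.restrict B) (fun j => G (i0 + j)) (fun j => G.le _)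
    (fun i j hij => G.mono (by omega)) k (fun j ω => a (i0 + 1 + (j + 1)) ω - a (i0 + 1 + j) ω)
    (c := c) (s := max (u0 (2 * c)) 0) (M := M1 c) (v := v) hc (M1_ge hc)
    (fun j _ => meas_sub ((hp.meas _).mono (G.mono (by omega)) le_rfl)
      ((hp.meas _).mono (G.mono (by omega)) le_rfl))
    (fun j _ B' hB' => by
      have hB'm : MeasurableSet B' := G.le _ _ hB'
      refine (expmoment_of_tail (P.restrict B) (K := 1) ?_ hc zero_le_one (B := B')
        (fun w hw => ?_)).trans (le_of_eq rfl)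
      · exact meas_sub ((hp.meas _).mono (G.le _) le_rfl) ((hp.meas _).mono (G.le _) le_rfl)
      · have hBB : MeasurableSet[G (i0 + j)] (B' ∩ B) :=
          MeasurableSet.inter hB' (G.mono (by omega) _ hB)
        have h1 := hp.W (2 * c) (by positivity) (i0 + j) (max (u0 (2 * c)) 0 + w)
          (le_trans (le_max_left _ _) (by linarith)) (B' ∩ B) hBB
        rw [Measure.restrict_apply' hBm, Measure.restrict_apply' hBm]
        have e1 : (B' ∩ {ω | max (u0 (2 * c)) 0 + w ≤ a (i0 + 1 + (j + 1)) ω - a (i0 + 1 + j) ω}) ∩ B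
            = (B' ∩ B) ∩ {ω | max (u0 (2 * c)) 0 + w ≤ a (i0 + j + 2) ω - a (i0 + j + 1) ω} := by
          have e2 : i0 + 1 + (j + 1) = i0 + j + 2 := by ring
          have e3 : i0 + 1 + j = i0 + j + 1 := by ring
          rw [e2, e3, Set.inter_right_comm]
        rw [e1]
        refine h1.trans ?_
        gcongr
        rw [one_mul]
        refine Real.exp_le_exp.2 ?_
        have : 0 ≤ 2 * c * max (u0 (2 * c)) 0 := by positivity
        nlinarith)
  rw [Measure.restrict_apply' hBm, Measure.restrict_apply MeasurableSet.univ, Set.univ_inter] at h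
  refine le_trans (le_of_eq ?_) h
  rw [Set.inter_comm]
  congr 1
  ext ω
  simp only [Set.mem_inter_iff, Set.mem_ofPred_eq, and_congr_left_iff]
  intro _
  have : ∑ j ∈ range k, (a (i0 + 1 + (j + 1)) ω - a (i0 + 1 + j) ω)
      = a (i0 + 1 + k) ω - a (i0 + 1) ω := by
    have := Finset.sum_range_sub (fun j => a (i0 + 1 + j) ω) k
    simpa using this
  rw [this]

/-- the constant of one block. -/
noncomputable def Mbar (c : ℝ) : ℝ :=
  Real.exp (2 * c) * (1 + 2 * (1 - Real.exp (-(2 * c)))⁻¹) * M1 (8 * c)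

theorem Mbar_ge {c : ℝ} (hc : 0 < c) : 1 ≤ Mbar c := by
  have hec : Real.exp (-(2 * c)) < 1 := by rw [Real.exp_lt_one_iff]; linarith
  have h1 : 0 ≤ (1 - Real.exp (-(2 * c)))⁻¹ := inv_nonneg.2 (by linarith)
  have h2 : 1 ≤ Real.exp (2 * c) := Real.one_le_exp (by linarith)
  have h3 := M1_ge (c := 8 * c) (by positivity)
  unfold Mbar
  have h4 : 1 ≤ Real.exp (2 * c) * (1 + 2 * (1 - Real.exp (-(2 * c)))⁻¹) := by nlinarith
  nlinarith

/-- exponential moment of a block of `k` windows. -/
theorem block_exp {u0 : ℝ → ℝ} {k0 : ℝ → ℝ → ℕ} {i1 : ℝ → ℝ → ℕ → ℕ} {P : Measure Ω}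
    {G : Filtration ℕ m0} {a : ℕ → Ω → ℝ} (hp : Proc u0 k0 i1 P G a) {c : ℝ} (hc : 0 < c)
    (i0 k : ℕ) (hk : 0 < k) {B : Set Ω} (hB : MeasurableSet[G i0] B) :
    ∫⁻ ω in B, ENNReal.ofReal (Real.exp (2 * c *
        max ((a (i0 + 1 + k) ω - a (i0 + 1) ω) - k * max (u0 (2 * (8 * c))) 0) 0)) ∂P
      ≤ ENNReal.ofReal (Mbar c ^ k) * P B := by
  have hec : Real.exp (-(2 * c)) < 1 := by rw [Real.exp_lt_one_iff]; linarith
  have hG : 0 ≤ (1 - Real.exp (-(2 * c)))⁻¹ := inv_nonneg.2 (by linarith)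
  have hM1 := M1_ge (c := 8 * c) (by positivity)
  have h := expmoment_of_tail P (V := fun ω => a (i0 + 1 + k) ω - a (i0 + 1) ω)
    (meas_sub ((hp.meas _).mono (G.le _) le_rfl) ((hp.meas _).mono (G.le _) le_rfl))
    (c := 2 * c) (s := k * max (u0 (2 * (8 * c))) 0) (K := 2 * M1 (8 * c) ^ k)
    (by positivity) (by positivity) (B := B)
    (fun v _ => by
      refine (block_tail hp (c := 8 * c) (by positivity) i0 k (v := v) hB).trans ?_
      gcongr
      linarith)
  refine h.trans ?_
  gcongr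
  unfold Mbar
  rw [mul_pow, mul_pow]
  have hM1k : 1 ≤ M1 (8 * c) ^ k := one_le_pow₀ hM1
  have h1 : Real.exp (2 * c) ≤ Real.exp (2 * c) ^ k :=
    le_self_pow₀ (Real.one_le_exp (by linarith)) hk.ne'
  have h2 : (1 + 2 * (1 - Real.exp (-(2 * c)))⁻¹) ≤ (1 + 2 * (1 - Real.exp (-(2 * c)))⁻¹) ^ k :=
    le_self_pow₀ (by linarith) hk.ne'
  calc Real.exp (2 * c) * (1 + 2 * M1 (8 * c) ^ k * (1 - Real.exp (-(2 * c)))⁻¹)
      ≤ Real.exp (2 * c) * ((1 + 2 * (1 - Real.exp (-(2 * c)))⁻¹) * M1 (8 * c) ^ k) := by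
        gcongr
        nlinarith
    _ = Real.exp (2 * c) * (1 + 2 * (1 - Real.exp (-(2 * c)))⁻¹) * M1 (8 * c) ^ k := by ring
    _ ≤ Real.exp (2 * c) ^ k * (1 + 2 * (1 - Real.exp (-(2 * c)))⁻¹) ^ k * M1 (8 * c) ^ k := by
        gcongr

/-- threshold slope `K1` of a block. -/
noncomputable def K1 (u0 : ℝ → ℝ) (c : ℝ) : ℝ :=
  2 * max (u0 (2 * (8 * c))) 0 + Real.log (Mbar c) / c + 1

/-- (C2), one block: with (R) at rate `b = c * K1` the exponential moment above `ε k` is `≤ 3`. -/
theorem block_exp3 {u0 : ℝ → ℝ} {k0 : ℝ → ℝ → ℕ} {i1 : ℝ → ℝ → ℕ → ℕ} {P : Measure Ω}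
    {G : Filtration ℕ m0} {a : ℕ → Ω → ℝ} (hp : Proc u0 k0 i1 P G a) {c ε : ℝ} (hc : 0 < c)
    (hε : 0 < ε) (i0 k : ℕ) (hk : 0 < k) (hk0 : k0 ε (c * K1 u0 c) ≤ k)
    (hi : i1 ε (c * K1 u0 c) k ≤ i0) {B : Set Ω} (hB : MeasurableSet[G i0] B) :
    ∫⁻ ω in B, ENNReal.ofReal (Real.exp (c *
        max ((a (i0 + 1 + k) ω - a (i0 + 1) ω) - ε * k) 0)) ∂P
      ≤ ENNReal.ofReal 3 * P B := by
  have hBm : MeasurableSet B := G.le _ _ hB
  set V : Ω → ℝ := fun ω => a (i0 + 1 + k) ω - a (i0 + 1) ω with hV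
  have hVm : Measurable V :=
    meas_sub ((hp.meas _).mono (G.le _) le_rfl) ((hp.meas _).mono (G.le _) le_rfl)
  have hV0 : ∀ ω, 0 ≤ V ω := fun ω => sub_nonneg.2 (hp.mono ω (by omega))
  set U : ℝ := max (u0 (2 * (8 * c))) 0 with hU
  have hU0 : 0 ≤ U := le_max_right _ _
  have hlog : 0 ≤ Real.log (Mbar c) := Real.log_nonneg (Mbar_ge hc)
  have hK1 : 0 < K1 u0 c := by
    unfold K1
    have : 0 ≤ Real.log (Mbar c) / c := div_nonneg hlog hc.le
    positivity
  have hk' : (0 : ℝ) < k := by exact_mod_cast hk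
  set E : Set Ω := {ω | ε * k ≤ V ω} with hE
  have hEm : MeasurableSet E := meas_setge hVm _
  have hpt : ∀ ω, ENNReal.ofReal (Real.exp (c * max (V ω - ε * k) 0))
      ≤ 1 + ENNReal.ofReal (Real.exp (c * K1 u0 c * k)) * E.indicator 1 ω
        + ENNReal.ofReal (Real.exp (-(c * K1 u0 c * k) + 2 * c * (k * U)))
          * ENNReal.ofReal (Real.exp (2 * c * max (V ω - k * U) 0)) := by
    intro ω
    by_cases h1 : V ω - ε * k < 0
    · rw [max_eq_right h1.le, mul_zero, Real.exp_zero, ENNReal.ofReal_one]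
      exact le_self_add.trans le_self_add
    · rw [not_lt] at h1
      have hmem : ω ∈ E := by simp only [hE, Set.mem_ofPred_eq]; linarith
      rw [max_eq_left h1, Set.indicator_of_mem hmem]
      simp only [Pi.one_apply, mul_one]
      have hεk : 0 ≤ ε * k := by positivity
      by_cases h2 : V ω ≤ K1 u0 c * k
      · refine le_trans ?_ (le_self_add)
        refine le_trans ?_ le_add_self
        refine ENNReal.ofReal_le_ofReal (Real.exp_le_exp.2 ?_)
        nlinarith
      · rw [not_le] at h2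
        refine le_trans ?_ le_add_self
        rw [← ENNReal.ofReal_mul (Real.exp_pos _).le, ← Real.exp_add]
        refine ENNReal.ofReal_le_ofReal (Real.exp_le_exp.2 ?_)
        have h3 : V ω - k * U ≤ max (V ω - k * U) 0 := le_max_left _ _
        nlinarith
  have hI := block_exp hp hc i0 k hk hB
  have hR := hp.R ε (c * K1 u0 c) hε (by positivity) k hk0 hk i0 hi B hB
  have hind : ∫⁻ ω in B, E.indicator 1 ω ∂P = P (B ∩ E) := by
    rw [lintegral_indicator_one hEm, Measure.restrict_apply hEm, Set.inter_comm]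
  calc ∫⁻ ω in B, ENNReal.ofReal (Real.exp (c * max (V ω - ε * k) 0)) ∂P
      ≤ ∫⁻ ω in B, (1 + ENNReal.ofReal (Real.exp (c * K1 u0 c * k)) * E.indicator 1 ω
        + ENNReal.ofReal (Real.exp (-(c * K1 u0 c * k) + 2 * c * (k * U)))
          * ENNReal.ofReal (Real.exp (2 * c * max (V ω - k * U) 0))) ∂P := lintegral_mono hpt
    _ = P B + ENNReal.ofReal (Real.exp (c * K1 u0 c * k)) * P (B ∩ E)
        + ENNReal.ofReal (Real.exp (-(c * K1 u0 c * k) + 2 * c * (k * U)))
          * ∫⁻ ω in B, ENNReal.ofReal (Real.exp (2 * c * max (V ω - k * U) 0)) ∂P := by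
        rw [lintegral_add_right _ ((meas_expmax hVm (2 * c) (k * U)).const_mul _),
          lintegral_add_left measurable_const,
          lintegral_const_mul _ (measurable_one.indicator hEm), hind,
          lintegral_const_mul _ (meas_expmax hVm (2 * c) (k * U))]
        simp
    _ ≤ P B + ENNReal.ofReal (Real.exp (c * K1 u0 c * k))
          * (ENNReal.ofReal (Real.exp (-(c * K1 u0 c * k))) * P B)
        + ENNReal.ofReal (Real.exp (-(c * K1 u0 c * k) + 2 * c * (k * U)))
          * (ENNReal.ofReal (Mbar c ^ k) * P B) := by gcongr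
    _ ≤ ENNReal.ofReal 3 * P B := by
        have e1 : ENNReal.ofReal (Real.exp (c * K1 u0 c * k))
            * (ENNReal.ofReal (Real.exp (-(c * K1 u0 c * k))) * P B) = P B := by
          rw [← mul_assoc, ← ENNReal.ofReal_mul (Real.exp_pos _).le, ← Real.exp_add]
          simp
        have e2 : ENNReal.ofReal (Real.exp (-(c * K1 u0 c * k) + 2 * c * (k * U)))
            * (ENNReal.ofReal (Mbar c ^ k) * P B) ≤ P B := by
          rw [← mul_assoc, ← ENNReal.ofReal_mul (Real.exp_pos _).le]
          have hMb : Mbar c ^ k = Real.exp (k * Real.log (Mbar c)) := by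
            rw [Real.exp_nat_mul, Real.exp_log (lt_of_lt_of_le one_pos (Mbar_ge hc))]
          rw [hMb, ← Real.exp_add]
          have hle : -(c * K1 u0 c * k) + 2 * c * (k * U) + k * Real.log (Mbar c) ≤ 0 := by
            have : c * K1 u0 c = 2 * c * U + Real.log (Mbar c) + c := by
              unfold K1; rw [← hU]; field_simp
            rw [this]
            nlinarith
          calc ENNReal.ofReal (Real.exp (-(c * K1 u0 c * k) + 2 * c * (k * U)
                + k * Real.log (Mbar c))) * P B ≤ ENNReal.ofReal 1 * P B := by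
                gcongr
                exact (Real.exp_le_one_iff).2 hle
            _ = P B := by simp
        rw [e1]
        calc P B + P B + ENNReal.ofReal (Real.exp (-(c * K1 u0 c * k) + 2 * c * (k * U)))
            * (ENNReal.ofReal (Mbar c ^ k) * P B) ≤ P B + P B + P B := by gcongr
          _ = ENNReal.ofReal 3 * P B := by
              rw [show (ENNReal.ofReal 3) = 3 by norm_num]; ring


end Crest.Agent.R154.Comp
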