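import Crest.Agent.R154.B6Main_833
import Crest.Agent.R154.KerP_561

/-! R154 block B6 (helper833), part 8: `0 < pp` in the frame, the link with the output of B4. -/

set_option autoImplicit false
set_option linter.unusedSectionVars false
set_option linter.deprecated false

open MeasureTheory ProbabilityTheory Filter Set
open scoped ENNReal Topology

namespace Crest.Agent.R154.B6I

open Crest.ProbabilityR.RandomEnvironment Crest.Agent.R154.Q561 Crest.Agent.R154.Ren263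
open Crest.Agent.R154.Mk561
open Crest.Agent.R154.Flux132 (lev)
open Crest.Agent.R154.Fin804 (lev_add lev_step_le)

variable {d : ℕ} {u : Step d} {R : ℕ}
variable {κ : ℝ} {Q : Measure (Environment d)} [IsProbabilityMeasure Q]

lemma zh_eq_zt (u : Step d) (M : MPath d) (n : ℕ) : B4Inst797.zh u M n = zt u M n := by
  unfold B4Inst797.zh zt
  exact Finset.sum_congr rfl fun i _ => (RatioR872.lev_stp u (M i)).symm

lemma hit_iff_797 (u : Step d) (M : MPath d) (l n : ℕ) :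
    B4Inst797.Hit u l n M ↔ Hit u l M n := by
  unfold B4Inst797.Hit Hit
  simp only [zh_eq_zt]

lemma nt_of_nat0 {s : MPath d} (h1 : s ∈ B4Inst797.Nat0 u R) {m n : ℕ} (h2 : Hit u m s n) :
    Nt u R 0 m s := by
  refine ⟨0, n, hit_zero s, h2, fun i _ _ => ⟨fun hi => h1.1 i (by omega), fun hi => ?_⟩⟩
  have := h1.2 i (by omega)
  rw [zh_eq_zt] at this
  push_cast; linarith

/-- **natural for ever has positive probability** -/
theorem pp_pos (F : Bind263.Frame Q κ R) (u : Step d)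
    (hA : annealedProb Q 0 (escapeEvent (B2d.dirVec u)) ≠ 0) : 0 < pp u R κ Q := by
  unfold pp
  refine ENNReal.toReal_pos ?_ (measure_ne_top _ _)
  intro h0
  refine B4Inst797.nat_ne_zero F u hA ?_
  refine measure_mono_null (t := {M | ∀ m, Nt u R 0 m M} ∪
    ⋃ m : ℕ, (B4Inst797.Nat0 u R ∩ {s | ∀ n, ¬ B4Inst797.Hit u m n s})) ?_ ?_
  · intro s hs
    by_cases hex : ∀ m, ∃ n, B4Inst797.Hit u m n s
    · refine Or.inl fun m => ?_
      obtain ⟨n, hn⟩ := hex m
      exact nt_of_nat0 hs ((hit_iff_797 u s m n).1 hn)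
    · push Not at hex
      obtain ⟨m, hm⟩ := hex
      exact Or.inr (Set.mem_iUnion.2 ⟨m, hs, hm⟩)
  · rw [measure_union_null_iff]
    exact ⟨h0, measure_iUnion_null fun m => B4Inst797.nat_hit F u m⟩

lemma b_eq_PS (m : ℕ) (s : SP u) :
    (sys u R κ Q).b m s = (PSm κ Q s.1.1 s.1.2).real
      ({p | Nt u R 0 m p.1 ∧ Nt u R 0 m p.2} ∩ {p | NoC R 0 m ((s, p) : Om u)}) := by
  unfold B6_833.PairSys.b
  rw [phi_eq]
  simp only [Measure.real]
  rw [P_apply s (meas_EN _ _)]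
  rfl

/-- **(KB) from the output of B4** -/
theorem KB_of_PS (h : ∀ ε > (0:ℝ), ∃ m₀ : ℕ, ∀ m ≥ m₀, ∀ s : SP u,
    (PSm κ Q s.1.1 s.1.2).real
        ({p | Nt u R 0 m p.1 ∧ Nt u R 0 m p.2} ∩ {p | NoC R 0 m ((s, p) : Om u)})
      - (PSm κ Q s.1.1 s.1.2).real
        ({p | Nt u R 0 (2*m) p.1 ∧ Nt u R 0 (2*m) p.2} ∩ {p | NoC R 0 (2*m) ((s, p) : Om u)})
      ≤ ε) : KB u R κ Q := by
  intro ε hε
  obtain ⟨m₀, hm₀⟩ := h ε hε
  refine ⟨m₀, fun m hm s _ => ?_⟩
  rw [b_eq_PS, b_eq_PS]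
  exact hm₀ m hm s



end Crest.Agent.R154.B6I
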