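import Crest.Agent.R154.Kal_132

/-! Row 154, FLUX block (S0219 and S0221 from Theorem Q(-) and a polynomial lateral bound):
definitions and literal inputs. -/

set_option autoImplicit false

namespace Crest.Agent.R154.Flux132

open MeasureTheory ProbabilityTheory Crest.ProbabilityR.RandomEnvironment
open Filter
open scoped ENNReal Topology

variable {d : ℕ}

/-- the level in the direction of the step `u`. -/
def lev (u : Step d) (x : Site d) : ℤ := if u.2 then x u.1 else - x u.1

/-- the opposite step. -/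
def opp (u : Step d) : Step d := (u.1, !u.2)

/-- natural down: never above the starting level. -/
def Dn (u : Step d) : Set (Path d) := {X | ∀ n, lev u (X n) ≤ lev u (X 0)}


/-- **polynomial lateral bound** for the first hit of level `n`. -/
def LAT (Q : Measure (Environment d)) (u : Step d) : Prop :=
  ∃ (A : ℕ) (c : ℝ≥0∞), c ≠ 0 ∧ ∀ n : ℕ, 1 ≤ n →
    c ≤ annealed Q 0 {X : Path d | ∃ m, (∀ i, i < m → lev u (X i) < n) ∧ lev u (X m) = n ∧
      ∀ i, |X m i| ≤ (n : ℤ) ^ A}

/-- `l¹` norm -/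
def norm1 (x : Site d) : ℕ := ∑ i, (x i).natAbs

/-- the frame of the flux argument: stationary law, an event `G0`, and excursions above the level
`0` with weights bounded below by `θ^length`, independently of the environment at levels `≤ 0`. -/
structure FluxFrame (Q : Measure (Environment d)) (u : Step d) : Prop where
  hstat : ∀ z : Site d, MeasurePreserving (shiftEnv z) Q Q
  exc : ∃ (G0 : Set (Environment d)) (θ g0 : ℝ≥0∞), MeasurableSet G0 ∧ θ ≠ 0 ∧ θ ≤ 1 ∧ g0 ≠ 0 ∧
    (∀ h : Environment d → ℝ≥0∞, Measurable h → Q561.LocOn {x | lev u x < 0} h →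
      g0 * ∫⁻ ω, h ω ∂Q ≤ ∫⁻ ω in G0, h ω ∂Q) ∧
    ∀ z : Site d, lev u z = 0 → ∃ ρ : Path d, ρ 0 = 0 ∧ ρ (norm1 z + 2) = z ∧
      (∀ j, j ≤ norm1 z + 2 → lev u (ρ j) ≤ 1) ∧ lev u (ρ 1) = 1 ∧
      ∀ f : Environment d → ℝ≥0∞, Measurable f → Q561.LocOn {x | lev u x ≤ 0} f →
        θ ^ (norm1 z + 2) * ∫⁻ ω in G0, f ω ∂Q
          ≤ ∫⁻ ω, f ω * quenchedLaw ω 0 (cyl ρ (norm1 z + 2)) ∂Q

end Crest.Agent.R154.Flux132
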