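import Crest.Agent.R154.Strong_541
import Crest.Agent.R154.Pair_850
import Crest.Agent.R154.FluxDefs_132

/-!
Row 154 (helper804): from quenched lower bounds for the probability of climbing `h` levels (finite
level only) to the backtracking probability.  Quenched part.

`stages`: if from every alive site the progress `φ` increases by `c` (while alive) with quenched
probability at most `θ`, then it increases by `m c` with probability at most `θ ^ m`.
`down_le`: if every site of the slab `-h < level ≤ 0` (in a box) climbs `h` levels before going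
below its start level with probability `≥ s`, then the walk goes to level `-h` before level `1`
with probability `≤ (1-s)^h + P(lateral range)`; with laterally confined climbs `≤ 2 (1-s)^h`.
-/

set_option autoImplicit false

namespace Crest.Agent.R154.Fin804

open MeasureTheory ProbabilityTheory Crest.ProbabilityR.RandomEnvironment Crest.Agent.R154
open Crest.Agent.R154.Flux132 (lev opp)
open scoped ENNReal

variable {d : ℕ}

/-- the walk reaches `φ ≥ L`, being alive before. -/
def Prog (alive : Site d → Prop) (φ : Site d → ℤ) (L : ℤ) : Set (Path d) :=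
  {X | ∃ n, (∀ k < n, alive (X k)) ∧ L ≤ φ (X n)}

theorem prog_anti (alive : Site d → Prop) (φ : Site d → ℤ) {L L' : ℤ} (h : L ≤ L') :
    Prog alive φ L' ⊆ Prog alive φ L := by
  rintro X ⟨n, h1, h2⟩
  exact ⟨n, h1, h.trans h2⟩

theorem measurableSet_prog (alive : Site d → Prop) (φ : Site d → ℤ) (L : ℤ) :
    MeasurableSet (Prog alive φ L) := by
  have : Prog alive φ L = ⋃ n : ℕ, {X : Path d | (∀ k < n, alive (X k)) ∧ L ≤ φ (X n)} := by
    ext X
    simp only [Prog, Set.mem_ofPred_eq, Set.mem_iUnion]
  rw [this]
  refine MeasurableSet.iUnion fun n => measurableSet_of_agree n _ fun X Y hXY => ?_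
  simp only [Set.mem_ofPred_eq]
  rw [hXY n le_rfl]
  constructor
  · rintro ⟨h1, h2⟩
    exact ⟨fun k hk => by rw [← hXY k hk.le]; exact h1 k hk, h2⟩
  · rintro ⟨h1, h2⟩
    exact ⟨fun k hk => by rw [hXY k hk.le]; exact h1 k hk, h2⟩

/-- **Stages.** -/
theorem stages (ω : Environment d) (alive : Site d → Prop) (φ : Site d → ℤ)
    (hφ : ∀ (x : Site d) (e : Step d), φ (x + stepVec e) ≤ φ x + 1) {c : ℤ} (hc : 1 ≤ c)
    {θ : ℝ≥0∞}
    (h1 : ∀ x, alive x → quenchedLaw ω x (Prog alive φ (φ x + c)) ≤ θ) (m : ℕ) :
    ∀ x, quenchedLaw ω x (Prog alive φ (φ x + m * c)) ≤ θ ^ m := by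
  induction m with
  | zero => intro x; rw [pow_zero]; exact prob_le_one
  | succ m ih =>
    intro x
    by_cases hx : alive x
    · set τ : Path d → ℕ∞ := firstTime (fun z => φ x + c ≤ φ z) with hτd
      have hτ : IsStop τ := isStop_firstTime _
      set A : Set (Path d) := {X | ∀ k : ℕ, (k : ℕ∞) < τ X → alive (X k)} with hAd
      set B : Set (Path d) := Prog alive φ (φ x + ((m + 1 : ℕ) : ℤ) * c) with hBd
      have hBm : MeasurableSet B := measurableSet_prog _ _ _
      have hA : DetBy τ (· ∈ A) := by
        intro X Y n hXY hn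
        have hn' : τ Y = n := hτ X Y n hXY hn
        simp only [hAd, Set.mem_ofPred_eq, hn, hn', eq_iff_iff]
        constructor
        · intro h k hk
          have hk' : k < n := by exact_mod_cast hk
          rw [← hXY k hk'.le]; exact h k hk
        · intro h k hk
          have hk' : k < n := by exact_mod_cast hk
          rw [hXY k hk'.le]; exact h k hk
      have hAm : MeasurableSet A := by
        have : A = ⋂ k : ℕ, {X : Path d | (k : ℕ∞) < τ X → alive (X k)} := by
          ext X
          simp only [hAd, Set.mem_ofPred_eq, Set.mem_iInter]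
        rw [this]
        refine MeasurableSet.iInter fun k => ?_
        have h2 : {X : Path d | (k : ℕ∞) < τ X → alive (X k)}
            = {X : Path d | (k : ℕ∞) < τ X}ᶜ ∪ {X | alive (X k)} := by
          ext X
          simp only [Set.mem_ofPred_eq, Set.mem_union, Set.mem_compl_iff]
          tauto
        rw [h2]
        refine MeasurableSet.union (MeasurableSet.compl ?_) ?_
        · exact hτ.measurable (t := Set.Ioi (k : ℕ∞)) (Set.to_countable _).measurableSet
        · exact measurableSet_of_agree k _ fun X Y hXY => by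
            simp only [Set.mem_ofPred_eq]; rw [hXY k le_rfl]
      have hsub : quenchedLaw ω x B
          ≤ quenchedLaw ω x ({X | τ X ≠ ⊤} ∩ A ∩ {X | shift (τ X).toNat X ∈ B}) := by
        refine measure_mono ?_
        rintro X ⟨n, hal, hL⟩
        have hge : φ x + c ≤ φ (X n) := by
          have : (0 : ℤ) ≤ m * c := by positivity
          push_cast at hL
          nlinarith
        have hle : τ X ≤ n := firstTime_le (p := fun z => φ x + c ≤ φ z) hge
        have hne : τ X ≠ ⊤ := ne_top_of_le_ne_top (ENat.natCast_ne_top n) hle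
        obtain ⟨k, hk⟩ := ENat.ne_top_iff_exists.1 hne
        have hkn : k ≤ n := by
          rw [← hk] at hle; exact_mod_cast hle
        refine ⟨⟨hne, ?_⟩, ?_⟩
        · intro i hi
          rw [← hk] at hi
          have : i < k := by exact_mod_cast hi
          exact hal i (by omega)
        · show shift (τ X).toNat X ∈ B
          rw [← hk, ENat.toNat_natCast]
          refine ⟨n - k, ?_, ?_⟩
          · intro i hi
            exact hal (k + i) (by omega)
          · show _ ≤ φ (X (k + (n - k)))
            rw [Nat.add_sub_cancel' hkn]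
            exact hL
      refine hsub.trans ?_
      rw [strong_markov_event ω x hτ hA hAm hBm]
      have hbd : ∫⁻ X in {X | τ X ≠ ⊤} ∩ A, quenchedLaw ω (X (τ X).toNat) B ∂quenchedLaw ω x
          ≤ ∫⁻ _ in {X | τ X ≠ ⊤} ∩ A, θ ^ m ∂quenchedLaw ω x := by
        refine lintegral_mono_ae ?_
        refine (ae_restrict_iff' (hτ.measurableSet_ne_top.inter hAm)).2 ?_
        filter_upwards [quenched_nn ω x, quenched_zero_eq ω x] with X hnn h0 hX
        obtain ⟨hne, -⟩ := hX
        obtain ⟨k, hk⟩ := ENat.ne_top_iff_exists.1 (show τ X ≠ ⊤ from hne)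
        rw [← hk, ENat.toNat_natCast]
        have hspec := firstTime_spec (p := fun z => φ x + c ≤ φ z) (X := X) hk.symm
        have hφk : φ (X k) ≤ φ x + c := by
          cases k with
          | zero => rw [h0]; omega
          | succ k =>
            have h3 := hspec.2 k (Nat.lt_succ_self k)
            obtain ⟨e, he⟩ := hnn k
            rw [he]
            have h4 := hφ (X k) e
            simp only [not_le] at h3
            omega
        refine (measure_mono (prog_anti alive φ ?_)).trans (ih (X k))
        push_cast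
        nlinarith
      refine hbd.trans ?_
      rw [setLIntegral_const, pow_succ]
      gcongr
      refine (measure_mono ?_).trans (h1 x hx)
      rintro X ⟨hne, hXA⟩
      obtain ⟨k, hk⟩ := ENat.ne_top_iff_exists.1 (show τ X ≠ ⊤ from hne)
      have hspec := firstTime_spec (p := fun z => φ x + c ≤ φ z) (X := X) hk.symm
      refine ⟨k, ?_, hspec.1⟩
      intro i hi
      refine hXA i ?_
      rw [← hk]
      exact_mod_cast hi
    · have hz : quenchedLaw ω x (Prog alive φ (φ x + ((m + 1 : ℕ) : ℤ) * c)) = 0 := by
        refine measure_mono_null (t := {X | ¬ X 0 = x}) ?_ (ae_iff.1 (quenched_zero_eq ω x))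
        rintro X ⟨n, hal, hL⟩
        simp only [Set.mem_ofPred_eq]
        intro h0
        cases n with
        | zero =>
          rw [h0] at hL
          have : (0 : ℤ) < ((m + 1 : ℕ) : ℤ) * c := by positivity
          omega
        | succ n =>
          apply hx
          rw [← h0]
          exact hal 0 (Nat.succ_pos n)
      rw [hz]
      exact zero_le (a := θ ^ (m + 1))

/-! ### levels, boxes, climbs -/

theorem lev_add (u : Step d) (x y : Site d) : lev u (x + y) = lev u x + lev u y := by
  unfold lev
  split_ifs <;> simp [add_comm]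

theorem lev_step_le (u : Step d) (e : Step d) : |lev u (stepVec e)| ≤ 1 := by
  unfold lev stepVec
  by_cases h : u.1 = e.1
  · rw [h]
    simp only [Pi.single_eq_same]
    split_ifs <;> norm_num
  · simp only [Pi.single_eq_of_ne h]
    split_ifs <;> norm_num

/-- sup norm, integer valued. -/
def nrm (x : Site d) : ℤ := ((Finset.univ.sup fun i => (x i).natAbs : ℕ) : ℤ)

theorem nrm_le_iff {x : Site d} {r : ℤ} (hr : 0 ≤ r) : nrm x ≤ r ↔ ∀ i, |x i| ≤ r := by
  unfold nrm
  obtain ⟨m, rfl⟩ := Int.eq_ofNat_of_zero_le hr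
  rw [Nat.cast_le, Finset.sup_le_iff]
  constructor
  · intro h i
    have := h i (Finset.mem_univ i)
    rw [Int.abs_eq_natAbs]
    exact_mod_cast this
  · intro h i _
    have := h i
    rw [Int.abs_eq_natAbs] at this
    exact_mod_cast this


theorem nrm_nonneg (x : Site d) : 0 ≤ nrm x := by unfold nrm; positivity



@[simp] theorem nrm_zero : nrm (0 : Site d) = 0 :=
  le_antisymm ((nrm_le_iff le_rfl).2 fun i => by simp) (nrm_nonneg _)

/-- the walk climbs `h` levels before going below its starting level. -/
def Climb (u : Step d) (h : ℕ) : Set (Path d) :=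
  {X | ∃ n, lev u (X 0) + h ≤ lev u (X n) ∧ ∀ k ≤ n, lev u (X 0) ≤ lev u (X k)}




theorem measurableSet_climb (u : Step d) (h : ℕ) : MeasurableSet (Climb u h) := by
  have : Climb u h = ⋃ n : ℕ, {X : Path d | lev u (X 0) + h ≤ lev u (X n) ∧
      ∀ k ≤ n, lev u (X 0) ≤ lev u (X k)} := by
    ext X
    simp only [Climb, Set.mem_ofPred_eq, Set.mem_iUnion]
  rw [this]
  refine MeasurableSet.iUnion fun n => measurableSet_of_agree n _ fun X Y hXY => ?_
  simp only [Set.mem_ofPred_eq]
  rw [hXY n le_rfl, hXY 0 (Nat.zero_le n)]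
  constructor
  · rintro ⟨h1, h2⟩
    exact ⟨h1, fun k hk => by rw [← hXY k hk]; exact h2 k hk⟩
  · rintro ⟨h1, h2⟩
    exact ⟨h1, fun k hk => by rw [hXY k hk]; exact h2 k hk⟩

/-- inside the slab `-h < level ≤ 0` and the box of radius `R`. -/
def InSlab (u : Step d) (h R : ℕ) (x : Site d) : Prop :=
  -(h : ℤ) < lev u x ∧ lev u x ≤ 0 ∧ nrm x ≤ R

/-- the walk reaches level `≤ -h` before level `1` and before leaving the box of radius `R`. -/
def DownIn (u : Step d) (h R : ℕ) : Set (Path d) :=
  {X | ∃ n, (∀ k < n, lev u (X k) ≤ 0 ∧ nrm (X k) ≤ R) ∧ lev u (X n) ≤ -(h : ℤ)}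

/-- the walk reaches level `≤ -h` before level `1`. -/
def Down (u : Step d) (h : ℕ) : Set (Path d) :=
  {X | ∃ n, (∀ k < n, lev u (X k) ≤ 0) ∧ lev u (X n) ≤ -(h : ℤ)}


theorem measurableSet_down (u : Step d) (h : ℕ) : MeasurableSet (Down u h) := by
  have : Down u h = ⋃ n : ℕ, {X : Path d | (∀ k < n, lev u (X k) ≤ 0) ∧
      lev u (X n) ≤ -(h : ℤ)} := by
    ext X
    simp only [Down, Set.mem_ofPred_eq, Set.mem_iUnion]
  rw [this]
  refine MeasurableSet.iUnion fun n => measurableSet_of_agree n _ fun X Y hXY => ?_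
  simp only [Set.mem_ofPred_eq]
  rw [hXY n le_rfl]
  constructor
  · rintro ⟨h1, h2⟩
    exact ⟨fun k hk => by rw [← hXY k hk.le]; exact h1 k hk, h2⟩
  · rintro ⟨h1, h2⟩
    exact ⟨fun k hk => by rw [hXY k hk.le]; exact h1 k hk, h2⟩

theorem measurableSet_downIn (u : Step d) (h R : ℕ) : MeasurableSet (DownIn u h R) := by
  have : DownIn u h R = ⋃ n : ℕ, {X : Path d | (∀ k < n, lev u (X k) ≤ 0 ∧ nrm (X k) ≤ R) ∧
      lev u (X n) ≤ -(h : ℤ)} := by
    ext X
    simp only [DownIn, Set.mem_ofPred_eq, Set.mem_iUnion]
  rw [this]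
  refine MeasurableSet.iUnion fun n => measurableSet_of_agree n _ fun X Y hXY => ?_
  simp only [Set.mem_ofPred_eq]
  rw [hXY n le_rfl]
  constructor
  · rintro ⟨h1, h2⟩
    exact ⟨fun k hk => by rw [← hXY k hk.le]; exact h1 k hk, h2⟩
  · rintro ⟨h1, h2⟩
    exact ⟨fun k hk => by rw [hXY k hk.le]; exact h1 k hk, h2⟩



/-- **Quenched bound for going down inside the box.** -/
theorem downIn_le (ω : Environment d) (u : Step d) (h R : ℕ) {s : ℝ≥0∞}
    (hs : ∀ x, InSlab u h R x → s ≤ quenchedLaw ω x (Climb u h)) :
    quenchedLaw ω 0 (DownIn u h R) ≤ (1 - s) ^ h := by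
  have hst := stages ω (InSlab u h R) (fun x => - lev u x) (c := 1) (θ := 1 - s)
    (fun x e => by
      have := abs_le.1 (lev_step_le u e)
      simp only [lev_add]
      omega) le_rfl ?_ h 0
  · refine (measure_mono ?_).trans hst
    rintro X ⟨n, h1, h2⟩
    classical
    have hex : ∃ n, lev u (X n) ≤ -(h : ℤ) := ⟨n, h2⟩
    have hmn : Nat.find hex ≤ n := Nat.find_min' hex h2
    refine ⟨Nat.find hex, fun k hk => ⟨?_, (h1 k (by omega)).1, (h1 k (by omega)).2⟩, ?_⟩
    · have := Nat.find_min hex hk
      omega
    · have h3 := Nat.find_spec hex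
      have h4 : lev u (0 : Site d) = 0 := by simp [lev]
      simp only [h4]
      omega
  · intro x hx
    have hcl := hs x hx
    have hdisj : quenchedLaw ω x (Prog (InSlab u h R) (fun x => - lev u x) (- lev u x + 1))
        ≤ quenchedLaw ω x (Climb u h)ᶜ := by
      refine measure_mono_ae ?_
      filter_upwards [quenched_zero_eq ω x] with X h0 hP hC
      obtain ⟨n1, hal, hL⟩ := hP
      obtain ⟨n2, hc1, hc2⟩ := hC
      rw [h0] at hc1 hc2
      obtain ⟨hx1, hx2, hx3⟩ := hx
      rcases le_or_gt n1 n2 with hle | hlt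
      · have := hc2 n1 hle
        simp only at hL
        omega
      · have := (hal n2 hlt).2.1
        omega
    refine hdisj.trans ?_
    rw [prob_compl_eq_one_sub (measurableSet_climb u h)]
    exact tsub_le_tsub_left hcl 1



end Crest.Agent.R154.Fin804
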