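import Crest.Agent.R154.MkD_561
import Crest.Agent.R154.Fin_804
import Crest.Agent.R154.B6Abs_833

-- ▼ part R154/B6Def_833
section

/-! R154 block B6, instance (helper833), part 1: the pair of marked walkers, seen level by level:
heights, first hits, naturalness, contacts.  Deterministic part. -/

set_option autoImplicit false
set_option linter.unusedSectionVars false
set_option linter.deprecated false

open MeasureTheory ProbabilityTheory Filter Set
open scoped ENNReal Topology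

namespace Crest.Agent.R154.B6I

open Crest.ProbabilityR.RandomEnvironment Crest.Agent.R154.Q561 Crest.Agent.R154.Ren263
open Crest.Agent.R154.Mk561
open Crest.Agent.R154.Flux132 (lev)
open Crest.Agent.R154.Fin804 (lev_add lev_step_le)

variable {d : ℕ} (u : Step d)

local notation "shf" => Crest.Agent.R154.Ren263.shift

/-! ### heights -/

/-- height of the marked path above its start (integer). -/
def zt (M : MPath d) (n : ℕ) : ℤ := ∑ i ∈ Finset.range n, lev u (stp (M i))

@[simp] lemma zt_zero (M : MPath d) : zt u M 0 = 0 := by simp [zt]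

lemma zt_succ (M : MPath d) (n : ℕ) : zt u M (n+1) = zt u M n + lev u (stp (M n)) := by
  simp [zt, Finset.sum_range_succ]

lemma lev_zero : lev u (0 : Site d) = 0 := by
  unfold Flux132.lev; split_ifs <;> simp

lemma lev_pos (x : Site d) (M : MPath d) (n : ℕ) : lev u (pos x M n) = lev u x + zt u M n := by
  induction n with
  | zero => simp [pos_zero]
  | succ n ih => rw [pos_succ, lev_add, ih, zt_succ]; ring

lemma zt_congr {M M' : MPath d} {n : ℕ} (h : ∀ i < n, M i = M' i) {k : ℕ} (hk : k ≤ n) :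
    zt u M k = zt u M' k := by
  unfold zt
  refine Finset.sum_congr rfl fun i hi => ?_
  rw [h i (lt_of_lt_of_le (Finset.mem_range.1 hi) hk)]

lemma zt_shift (M : MPath d) (n k : ℕ) : zt u (shf n M) k = zt u M (n+k) - zt u M n := by
  unfold zt Ren263.shift
  rw [Finset.sum_range_add]; ring

lemma zt_step (M : MPath d) (n : ℕ) : |zt u M (n+1) - zt u M n| ≤ 1 := by
  rw [zt_succ]
  have := lev_step_le u (M n).1
  have h : zt u M n + lev u (stp (M n)) - zt u M n = lev u (stepVec (M n).1) := by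
    unfold stp; ring
  rw [h]; exact this

lemma lev_self : lev u (stepVec u) = 1 := by
  unfold Flux132.lev stepVec
  split_ifs <;> simp_all

lemma lev_lat {f : Step d} (hf : f.1 ≠ u.1) : lev u (stepVec f) = 0 := by
  unfold Flux132.lev stepVec
  rw [Pi.single_eq_of_ne (Ne.symm hf)]
  simp

/-! ### first hits -/

/-- `n` is the first time at level `j` -/
def Hit (j : ℕ) (M : MPath d) (n : ℕ) : Prop := zt u M n = j ∧ ∀ k < n, zt u M k < j

/-- `i` is before the first hit of level `j` -/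
def bf (j : ℕ) (M : MPath d) (i : ℕ) : Prop := ∀ k ≤ i, zt u M k < j

/-- level `j` is reached -/
def Alv (j : ℕ) (M : MPath d) : Prop := ∃ n, Hit u j M n

/-- the two paths agree before level `j`. -/
def Eqv (j : ℕ) (M M' : MPath d) : Prop := ∀ n, bf u j M n → M n = M' n

variable {u}

lemma Hit.unique {j : ℕ} {M : MPath d} {n m : ℕ} (h : Hit u j M n) (h' : Hit u j M m) : n = m := by
  rcases lt_trichotomy n m with hlt | heq | hgt
  · have := h'.2 n hlt; rw [h.1] at this; exact absurd this (lt_irrefl _)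
  · exact heq
  · have := h.2 m hgt; rw [h'.1] at this; exact absurd this (lt_irrefl _)

lemma hit_zero (M : MPath d) : Hit u 0 M 0 := ⟨by simp, fun k hk => absurd hk (Nat.not_lt_zero _)⟩

lemma bf_iff_of_hit {j : ℕ} {M : MPath d} {n : ℕ} (h : Hit u j M n) (i : ℕ) :
    bf u j M i ↔ i < n := by
  constructor
  · intro hb
    by_contra hcon
    have := hb n (by omega)
    rw [h.1] at this; exact absurd this (lt_irrefl _)
  · intro hi k hk
    exact h.2 k (by omega)

lemma bf_mono {i j : ℕ} (hij : i ≤ j) {M : MPath d} {n : ℕ} (h : bf u i M n) : bf u j M n :=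
  fun k hk => lt_of_lt_of_le (h k hk) (by exact_mod_cast hij)

lemma bf_le {j : ℕ} {M : MPath d} {n m : ℕ} (hmn : m ≤ n) (h : bf u j M n) : bf u j M m :=
  fun k hk => h k (by omega)

lemma not_bf_zero (M : MPath d) (n : ℕ) : ¬ bf u 0 M n := by
  intro h
  have := h 0 (Nat.zero_le _)
  simp at this

/-- reaching height `≥ j` at time `n` gives a first hit before. -/
lemma exists_hit {j : ℕ} {M : MPath d} {n : ℕ} (h : (j:ℤ) ≤ zt u M n) :
    ∃ m ≤ n, Hit u j M m := by
  classical
  have hex : ∃ m, (j:ℤ) ≤ zt u M m := ⟨n, h⟩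
  refine ⟨Nat.find hex, Nat.find_min' hex h, ?_, fun k hk => by
    have := Nat.find_min hex hk; omega⟩
  have h1 := Nat.find_spec hex
  refine le_antisymm ?_ h1
  rcases Nat.eq_zero_or_pos (Nat.find hex) with h0 | hpos
  · rw [h0]; simp
  · obtain ⟨m, hm⟩ : ∃ m, Nat.find hex = m+1 := ⟨Nat.find hex - 1, by omega⟩
    have h2 := Nat.find_min hex (m := m) (by omega)
    have h3 := zt_step u M m
    rw [abs_le] at h3
    rw [hm]
    omega

lemma Alv.anti {i j : ℕ} (hij : i ≤ j) {M : MPath d} (h : Alv u j M) : Alv u i M := by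
  obtain ⟨n, hn⟩ := h
  obtain ⟨m, _, hm⟩ := exists_hit (u := u) (j := i) (M := M) (n := n) (by rw [hn.1]; exact_mod_cast hij)
  exact ⟨m, hm⟩

lemma Hit.le_of_le {i j : ℕ} (hij : i ≤ j) {M : MPath d} {n m : ℕ} (h : Hit u i M n)
    (h' : Hit u j M m) : n ≤ m := by
  obtain ⟨k, hk, hk'⟩ := exists_hit (u := u) (j := i) (M := M) (n := m)
    (by rw [h'.1]; exact_mod_cast hij)
  rw [h.unique hk']; exact hk

/-- speed one: level `j` is reached at least `j - i` steps after level `i`. -/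
lemma Hit.add_le {i j : ℕ} (hij : i ≤ j) {M : MPath d} {n m : ℕ} (h : Hit u i M n)
    (h' : Hit u j M m) : n + (j - i) ≤ m := by
  have key : ∀ k, zt u M (n+k) ≤ i + k := by
    intro k
    induction k with
    | zero => simp [h.1]
    | succ k ih =>
      have := zt_step u M (n+k)
      rw [abs_le] at this
      have h2 : n + (k+1) = n + k + 1 := by omega
      rw [h2]; push_cast; omega
  have h1 := h.le_of_le hij h'
  have h2 := key (m - n)
  rw [show n + (m-n) = m by omega, h'.1] at h2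
  omega

lemma hit_shift_iff {i j : ℕ} (hij : i ≤ j) {M : MPath d} {a : ℕ} (h : Hit u i M a) (n : ℕ) :
    Hit u (j - i) (shf a M) n ↔ Hit u j M (a + n) := by
  have hcast : ((j - i : ℕ) : ℤ) = (j:ℤ) - i := by push_cast [Nat.cast_sub hij]; ring
  constructor
  · rintro ⟨h1, h2⟩
    rw [zt_shift, h.1, hcast] at h1
    refine ⟨by linarith, fun k hk => ?_⟩
    rcases lt_or_ge k a with hka | hka
    · exact lt_of_lt_of_le (h.2 k hka) (by exact_mod_cast hij)
    · have := h2 (k - a) (by omega)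
      rw [zt_shift, h.1, hcast, show a + (k-a) = k by omega] at this
      linarith
  · rintro ⟨h1, h2⟩
    refine ⟨by rw [zt_shift, h.1, hcast]; linarith, fun k hk => ?_⟩
    rw [zt_shift, h.1, hcast]
    have := h2 (a+k) (by omega)
    linarith

lemma bf_shift_iff {i j : ℕ} (hij : i ≤ j) {M : MPath d} {a : ℕ} (h : Hit u i M a) (n : ℕ) :
    bf u (j - i) (shf a M) n ↔ bf u j M (a + n) := by
  have hcast : ((j - i : ℕ) : ℤ) = (j:ℤ) - i := by push_cast [Nat.cast_sub hij]; ring
  constructor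
  · intro hb k hk
    rcases lt_or_ge k a with hka | hka
    · exact lt_of_lt_of_le (h.2 k hka) (by exact_mod_cast hij)
    · have := hb (k - a) (by omega)
      rw [zt_shift, h.1, hcast, show a + (k-a) = k by omega] at this
      linarith
  · intro hb k hk
    rw [zt_shift, h.1, hcast]
    have := hb (a+k) (by omega)
    linarith

/-! ### the equivalence -/

lemma Eqv.zt_eq {j : ℕ} {M M' : MPath d} (h : Eqv u j M M') :
    ∀ n, (∀ k < n, zt u M k < j) → zt u M n = zt u M' n ∧ ∀ i < n, M i = M' i := by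
  intro n hn
  have : ∀ i < n, M i = M' i := fun i hi => h i (fun k hk => hn k (by omega))
  exact ⟨zt_congr u this le_rfl, this⟩

lemma Eqv.bf_imp {j : ℕ} {M M' : MPath d} (h : Eqv u j M M') :
    ∀ n, bf u j M' n → bf u j M n := by
  intro n
  induction n with
  | zero => intro _ k hk; rw [Nat.le_zero.1 hk]; have := ‹bf u j M' 0› 0 le_rfl; simpa using this
  | succ n ih =>
    intro hb
    have h1 := ih (bf_le (Nat.le_succ n) hb)
    intro k hk
    rcases Nat.lt_or_ge k (n+1) with hlt | hge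
    · exact h1 k (by omega)
    · have hk' : k = n+1 := by omega
      subst hk'
      have := (h.zt_eq (n+1) (fun k hk => h1 k (by omega))).1
      rw [this]; exact hb (n+1) le_rfl

lemma Eqv.symm {j : ℕ} {M M' : MPath d} (h : Eqv u j M M') : Eqv u j M' M :=
  fun n hn => (h n (h.bf_imp n hn)).symm

lemma Eqv.refl (j : ℕ) (M : MPath d) : Eqv u j M M := fun _ _ => rfl

lemma Eqv.mono {i j : ℕ} (hij : i ≤ j) {M M' : MPath d} (h : Eqv u j M M') : Eqv u i M M' :=
  fun n hn => h n (bf_mono hij hn)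

lemma Eqv.bf_iff {j : ℕ} {M M' : MPath d} (h : Eqv u j M M') (n : ℕ) :
    bf u j M n ↔ bf u j M' n := ⟨h.symm.bf_imp n, h.bf_imp n⟩

lemma Eqv.hit {j : ℕ} {M M' : MPath d} (h : Eqv u j M M') {n : ℕ} (hn : Hit u j M n) :
    Hit u j M' n := by
  have h1 := h.zt_eq n hn.2
  refine ⟨by rw [← h1.1]; exact hn.1, fun k hk => ?_⟩
  rw [← zt_congr u h1.2 hk.le]; exact hn.2 k hk


lemma Eqv.agree {j : ℕ} {M M' : MPath d} (h : Eqv u j M M') {n : ℕ} (hn : Hit u j M n) :
    ∀ i < n, M i = M' i := (h.zt_eq n hn.2).2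

lemma eqv_iff_of_hit {j : ℕ} {M M' : MPath d} {n : ℕ} (hn : Hit u j M n) :
    Eqv u j M M' ↔ M' ∈ Cy M n := by
  constructor
  · intro h i hi; exact (h.agree hn i hi).symm
  · intro h i hi
    exact (h i ((bf_iff_of_hit hn i).1 hi)).symm

variable (u)

/-! ### naturalness of one walker -/

/-- **natural between the levels `i` and `j`**: after the first hit of `i`, `R` forced steps up, then
never below the level `i + R`, until the first hit of `j` -/
def Nt (R i j : ℕ) (M : MPath d) : Prop :=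
  ∃ a b, Hit u i M a ∧ Hit u j M b ∧
    ∀ n, a ≤ n → n < b → (n < a + R → M n = (u, true)) ∧ (a + R ≤ n → (i:ℤ) + R ≤ zt u M n)

variable {u}

lemma Nt.alv {R i j : ℕ} {M : MPath d} (h : Nt u R i j M) : Alv u j M := by
  obtain ⟨a, b, _, hb, _⟩ := h; exact ⟨b, hb⟩


lemma Nt.left {R i j k : ℕ} (hjk : j ≤ k) {M : MPath d} (h : Nt u R i k M) :
    Nt u R i j M := by
  obtain ⟨a, b, ha, hb, H⟩ := h
  obtain ⟨c, hc⟩ := Alv.anti hjk ⟨b, hb⟩
  refine ⟨a, c, ha, hc, fun n hn hnc => H n hn (lt_of_lt_of_le hnc (hc.le_of_le hjk hb))⟩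

/-- heights along forced steps. -/
lemma zt_forced {M : MPath d} {a n : ℕ} (h : ∀ m, a ≤ m → m < a + n → M m = (u, true)) :
    zt u M (a+n) = zt u M a + n := by
  induction n with
  | zero => simp
  | succ n ih =>
    have h1 := ih (fun m h1 h2 => h m h1 (by omega))
    have h2 := h (a+n) (by omega) (by omega)
    rw [show a + (n+1) = a + n + 1 by omega, zt_succ, h1, h2]
    have : lev u (stp ((u, true) : Mark d)) = 1 := lev_self u
    rw [this]; push_cast; ring

lemma Nt.trans {R i j k : ℕ} (hij : i ≤ j) (hjk : j ≤ k) {M : MPath d} (h : Nt u R i j M)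
    (h' : Nt u R j k M) : Nt u R i k M := by
  obtain ⟨a, b, ha, hb, H⟩ := h
  obtain ⟨b', c, hb', hc, H'⟩ := h'
  have : b' = b := hb'.unique hb
  subst this
  refine ⟨a, c, ha, hc, fun n hn hnc => ?_⟩
  have hab := ha.add_le hij hb
  rcases lt_or_ge n b' with hnb | hnb
  · exact H n hn hnb
  · obtain ⟨H1, H2⟩ := H' n hnb hnc
    refine ⟨fun hlt => ?_, fun hge => ?_⟩
    · -- all letters forced from a to b'
      exact H1 (by omega)
    · rcases lt_or_ge n (b' + R) with hnR | hnR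
      · -- letters b'..n forced
        have e1 : zt u M n = zt u M b' + (n - b' : ℕ) := by
          have := zt_forced (u := u) (M := M) (a := b') (n := n - b')
            (fun m h1 h2 => (H' m h1 (by omega)).1 (by omega))
          rwa [show b' + (n - b') = n by omega] at this
        rw [e1, hb.1]
        rcases lt_or_ge j (i + R) with hji | hji
        · -- then b' = a + (j-i)
          have hb2 : b' ≤ a + (j - i) := by
            by_contra hcon
            have e2 := zt_forced (u := u) (M := M) (a := a) (n := j - i)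
              (fun m h1 h2 => (H m h1 (by omega)).1 (by omega))
            have e3 := hb.2 (a + (j-i)) (by omega)
            rw [e2, ha.1] at e3
            have : ((j - i : ℕ) : ℤ) = (j:ℤ) - i := by push_cast [Nat.cast_sub hij]; ring
            rw [this] at e3
            linarith
          have : ((n - b' : ℕ) : ℤ) = (n:ℤ) - b' := by push_cast [Nat.cast_sub hnb]; ring
          rw [this]
          have h5 : (b':ℤ) ≤ a + ((j:ℤ) - i) := by
            have : ((j - i : ℕ) : ℤ) = (j:ℤ) - i := by push_cast [Nat.cast_sub hij]; ring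
            rw [← this]; exact_mod_cast hb2
          have h6 : (a:ℤ) + R ≤ n := by exact_mod_cast hge
          linarith
        · have : (i:ℤ) + R ≤ j := by exact_mod_cast hji
          have h7 : (0:ℤ) ≤ ((n - b' : ℕ) : ℤ) := Int.natCast_nonneg _
          linarith
      · have := H2 hnR
        have h8 : (i:ℤ) ≤ j := by exact_mod_cast hij
        linarith

lemma Eqv.nt {R i j : ℕ} (hij : i ≤ j) {M M' : MPath d} (h : Eqv u j M M') (hN : Nt u R i j M) :
    Nt u R i j M' := by
  obtain ⟨a, b, ha, hb, H⟩ := hN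
  refine ⟨a, b, (h.mono hij).hit ha, h.hit hb, fun n hn hnb => ?_⟩
  have hag := h.agree hb
  rw [← hag n hnb, ← zt_congr u hag hnb.le]
  exact H n hn hnb

lemma nt_shift_iff {R i j k : ℕ} (hij : i ≤ j) (hjk : j ≤ k) {M : MPath d} {a : ℕ}
    (h : Hit u i M a) : Nt u R (j - i) (k - i) (shf a M) ↔ Nt u R j k M := by
  have hik := hij.trans hjk
  have hcast : ((j - i : ℕ) : ℤ) = (j:ℤ) - i := by push_cast [Nat.cast_sub hij]; ring
  constructor
  · rintro ⟨b, c, hb, hc, H⟩
    refine ⟨a+b, a+c, (hit_shift_iff hij h b).1 hb, (hit_shift_iff hik h c).1 hc,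
      fun n hn hnc => ?_⟩
    obtain ⟨H1, H2⟩ := H (n-a) (by omega) (by omega)
    have e1 : shf a M (n-a) = M n := by
      simp only [Ren263.shift]; rw [show a + (n-a) = n by omega]
    have e2 : zt u (shf a M) (n-a) = zt u M n - i := by
      rw [zt_shift, h.1, show a + (n-a) = n by omega]
    rw [e1] at H1
    rw [e2, hcast] at H2
    exact ⟨fun h1 => H1 (by omega), fun h1 => by have := H2 (by omega); linarith⟩
  · rintro ⟨b, c, hb, hc, H⟩
    have hab := h.le_of_le hij hb
    have hac := h.le_of_le hik hc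
    refine ⟨b-a, c-a, (hit_shift_iff hij h _).2 (by rwa [show a + (b-a) = b by omega]),
      (hit_shift_iff hik h _).2 (by rwa [show a + (c-a) = c by omega]), fun n hn hnc => ?_⟩
    obtain ⟨H1, H2⟩ := H (a+n) (by omega) (by omega)
    refine ⟨fun h1 => H1 (by omega), fun h1 => ?_⟩
    have := H2 (by omega)
    rw [zt_shift, h.1, hcast]; linarith

/-- after a natural start at level `i`, all READ sites before the hit of `j` are at levels
`≥ i + R`. -/
lemma Nt.read_ge {R i j : ℕ} {M : MPath d} (h : Nt u R i j M) {a : ℕ} (ha : Hit u i M a)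
    {n : ℕ} (hn : a ≤ n) (hb : bf u j M n) (hf : (M n).2 = false) : (i:ℤ) + R ≤ zt u M n := by
  obtain ⟨a', b, ha', hb', H⟩ := h
  have := ha'.unique ha
  subst this
  obtain ⟨H1, H2⟩ := H n hn ((bf_iff_of_hit hb' n).1 hb)
  rcases lt_or_ge n (a' + R) with h1 | h1
  · have := H1 h1
    rw [this] at hf; simp at hf
  · exact H2 h1

end Crest.Agent.R154.B6I
end

-- ▼ part R154/B6Pair_833
section

/-! R154 block B6, instance (helper833), part 2: pairs of marked walkers; fresh restart of the pair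
at the first hits of a level, for every family of pair laws which is multiplicative on natural
cylinders (same environment: `PS`; independent environments: `PI`). -/

set_option autoImplicit false
set_option linter.unusedSectionVars false
set_option linter.deprecated false

open MeasureTheory ProbabilityTheory Filter Set
open scoped ENNReal Topology

namespace Crest.Agent.R154.B6I

open Crest.ProbabilityR.RandomEnvironment Crest.Agent.R154.Q561 Crest.Agent.R154.Ren263
open Crest.Agent.R154.Mk561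
open Crest.Agent.R154.Flux132 (lev)
open Crest.Agent.R154.Fin804 (lev_add lev_step_le)

local notation "shf" => Crest.Agent.R154.Ren263.shift

variable {d : ℕ} (u : Step d)

/-- pairs of sites at the same level -/
abbrev SP : Type := {q : Site d × Site d // lev u q.1 = lev u q.2}

/-- pairs of marked paths -/
abbrev PP (d : ℕ) : Type := MPath d × MPath d

/-- start pair and pair of marked paths -/
abbrev Om : Type := SP u × PP d

variable {u}

/-- the read sites at the times `i` of the first and `i'` of the second walker are within `R`. -/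
def ct (R : ℕ) (s : SP u) (p : PP d) (i i' : ℕ) : Prop :=
  (p.1 i).2 = false ∧ (p.2 i').2 = false ∧
    ∀ c, |pos s.1.1 p.1 i c - pos s.1.2 p.2 i' c| ≤ (R : ℤ)

/-- new contact in stage `l` -/
def Cs (R l : ℕ) (ω : Om u) : Prop :=
  ∃ i i', bf u l ω.2.1 i ∧ bf u l ω.2.2 i' ∧ ct R ω.1 ω.2 i i' ∧
    ¬ (bf u (l-1) ω.2.1 i ∧ bf u (l-1) ω.2.2 i')

/-- no contact between the stages `j` and `L`, all at once. -/
def NoC (R j L : ℕ) (ω : Om u) : Prop :=
  ∀ i i', bf u L ω.2.1 i → bf u L ω.2.2 i' → ct R ω.1 ω.2 i i' →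
    bf u j ω.2.1 i ∧ bf u j ω.2.2 i'

lemma noC_iff {R j L : ℕ} (hjL : j ≤ L) (ω : Om u) :
    (∀ l, j < l → l ≤ L → ¬ Cs R l ω) ↔ NoC R j L ω := by
  constructor
  · induction L, hjL using Nat.le_induction with
    | base => intro _ i i' h1 h2 _; exact ⟨h1, h2⟩
    | succ L hL ih =>
      intro H i i' h1 h2 h3
      have h4 := H (L+1) (by omega) le_rfl
      have h5 : bf u L ω.2.1 i ∧ bf u L ω.2.2 i' := by
        by_contra hcon
        exact h4 ⟨i, i', h1, h2, h3, by simpa using hcon⟩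
      exact ih (fun l hl hlL => H l hl (by omega)) i i' h5.1 h5.2 h3
  · rintro H l hl hlL ⟨i, i', h1, h2, h3, h4⟩
    obtain ⟨h5, h6⟩ := H i i' (bf_mono hlL h1) (bf_mono hlL h2) h3
    exact h4 ⟨bf_mono (by omega) h5, bf_mono (by omega) h6⟩

/-! ### the tips -/

variable (u) in
/-- first hitting time of level `j` (junk `0` if not reached) -/
noncomputable def hn (j : ℕ) (M : MPath d) : ℕ :=
  open Classical in if h : Alv u j M then h.choose else 0

lemma hn_eq {j : ℕ} {M : MPath d} {n : ℕ} (h : Hit u j M n) : hn u j M = n := by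
  have h' : Alv u j M := ⟨n, h⟩
  unfold hn
  rw [dif_pos h']
  exact h'.choose_spec.unique h

lemma hit_hn {j : ℕ} {M : MPath d} (h : Alv u j M) : Hit u j M (hn u j M) := by
  obtain ⟨n, hn'⟩ := h
  rw [hn_eq hn']; exact hn'

/-- both alive at level `j`. -/
def Al (u : Step d) (j : ℕ) (p : PP d) : Prop := Alv u j p.1 ∧ Alv u j p.2

lemma tip_aux {j : ℕ} (s : SP u) {p : PP d} (h : Al u j p) :
    lev u (pos s.1.1 p.1 (hn u j p.1)) = lev u (pos s.1.2 p.2 (hn u j p.2)) := by
  rw [lev_pos, lev_pos, (hit_hn h.1).1, (hit_hn h.2).1, s.2]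

/-- the pair of sites at the first hits of level `j` -/
noncomputable def tip (j : ℕ) (s : SP u) (p : PP d) : SP u :=
  open Classical in
  if h : Al u j p then ⟨(pos s.1.1 p.1 (hn u j p.1), pos s.1.2 p.2 (hn u j p.2)), tip_aux s h⟩
  else s

lemma tip_val {j : ℕ} (s : SP u) {p : PP d} {a b : ℕ} (h1 : Hit u j p.1 a) (h2 : Hit u j p.2 b) :
    (tip j s p).1 = (pos s.1.1 p.1 a, pos s.1.2 p.2 b) := by
  have h : Al u j p := ⟨⟨a, h1⟩, ⟨b, h2⟩⟩
  unfold tip
  rw [dif_pos h]
  change (pos s.1.1 p.1 (hn u j p.1), pos s.1.2 p.2 (hn u j p.2)) = _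
  rw [hn_eq h1, hn_eq h2]

/-- the pair of futures from the first hits of level `j` -/
noncomputable def th (u : Step d) (j : ℕ) (p : PP d) : PP d :=
  (shf (hn u j p.1) p.1, shf (hn u j p.2) p.2)

lemma th_eq {j : ℕ} {p : PP d} {a b : ℕ} (h1 : Hit u j p.1 a) (h2 : Hit u j p.2 b) :
    th u j p = (shf a p.1, shf b p.2) := by
  unfold th; rw [hn_eq h1, hn_eq h2]

/-! ### determined sets -/

/-- `B` is determined by the two paths up to the first hits of level `j`. -/
def Dt (u : Step d) (j : ℕ) (B : Set (PP d)) : Prop :=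
  ∀ p q : PP d, Eqv u j p.1 q.1 → Eqv u j p.2 q.2 → p ∈ B → q ∈ B

lemma Dt.mono {i j : ℕ} (hij : i ≤ j) {B : Set (PP d)} (h : Dt u i B) : Dt u j B :=
  fun p q h1 h2 hp => h p q (h1.mono hij) (h2.mono hij) hp

lemma Dt.inter {j : ℕ} {B C : Set (PP d)} (h : Dt u j B) (h' : Dt u j C) : Dt u j (B ∩ C) :=
  fun p q h1 h2 hp => ⟨h p q h1 h2 hp.1, h' p q h1 h2 hp.2⟩

lemma Dt.compl {j : ℕ} {B : Set (PP d)} (h : Dt u j B) : Dt u j Bᶜ :=
  fun p q h1 h2 hp hq => hp (h q p h1.symm h2.symm hq)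

lemma alv_eqv {j : ℕ} {M M' : MPath d} (h : Eqv u j M M') (hM : Alv u j M) : Alv u j M' := by
  obtain ⟨n, hn⟩ := hM; exact ⟨n, h.hit hn⟩

lemma dt_al (j : ℕ) : Dt u j {p | Al u j p} :=
  fun _ _ h1 h2 hp => ⟨alv_eqv h1 hp.1, alv_eqv h2 hp.2⟩

lemma tip_eqv {j : ℕ} (s : SP u) {p q : PP d} (h1 : Eqv u j p.1 q.1) (h2 : Eqv u j p.2 q.2) :
    tip j s p = tip j s q := by
  by_cases h : Al u j p
  · obtain ⟨⟨a, ha⟩, ⟨b, hb⟩⟩ := h
    apply Subtype.ext
    rw [tip_val s ha hb, tip_val s (h1.hit ha) (h2.hit hb)]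
    rw [pos_congr _ (h1.agree ha) le_rfl, pos_congr _ (h2.agree hb) le_rfl]
  · have h' : ¬ Al u j q := fun h' => h ⟨alv_eqv h1.symm h'.1, alv_eqv h2.symm h'.2⟩
    unfold tip
    rw [dif_neg h, dif_neg h']

lemma dt_tip (j : ℕ) (s t : SP u) : Dt u j {p | tip j s p = t} :=
  fun p q h1 h2 hp => by
    simp only [Set.mem_ofPred_eq] at hp ⊢
    rw [← tip_eqv s h1 h2]; exact hp

lemma dt_nt {R i j : ℕ} (hij : i ≤ j) : Dt u j {p | Nt u R i j p.1 ∧ Nt u R i j p.2} :=
  fun _ _ h1 h2 hp => ⟨h1.nt hij hp.1, h2.nt hij hp.2⟩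

lemma ct_eqv {R j : ℕ} {s : SP u} {p q : PP d} (h1 : Eqv u j p.1 q.1) (h2 : Eqv u j p.2 q.2)
    {i i' : ℕ} (hi : bf u j p.1 i) (hi' : bf u j p.2 i') (h : ct R s p i i') : ct R s q i i' := by
  obtain ⟨e1, e2, e3⟩ := h
  have a1 : ∀ k < i + 1, p.1 k = q.1 k := fun k hk => h1 k (bf_le (by omega) hi)
  have a2 : ∀ k < i' + 1, p.2 k = q.2 k := fun k hk => h2 k (bf_le (by omega) hi')
  refine ⟨by rw [← a1 i (by omega)]; exact e1, by rw [← a2 i' (by omega)]; exact e2, fun c => ?_⟩
  rw [← pos_congr s.1.1 a1 (Nat.le_succ i), ← pos_congr s.1.2 a2 (Nat.le_succ i')]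
  exact e3 c

lemma dt_cs (R l : ℕ) (s : SP u) : Dt u l {p | Cs R l ((s, p) : Om u)} := by
  rintro p q h1 h2 ⟨i, i', e1, e2, e3, e4⟩
  refine ⟨i, i', (h1.bf_iff i).1 e1, (h2.bf_iff i').1 e2, ct_eqv h1 h2 e1 e2 e3, fun hcon => e4 ?_⟩
  have m1 : Eqv u (l-1) p.1 q.1 := h1.mono (Nat.sub_le _ _)
  have m2 : Eqv u (l-1) p.2 q.2 := h2.mono (Nat.sub_le _ _)
  exact ⟨(m1.bf_iff i).2 hcon.1, (m2.bf_iff i').2 hcon.2⟩

lemma dt_noC {R j L : ℕ} (hjL : j ≤ L) (s : SP u) : Dt u L {p | NoC R j L ((s, p) : Om u)} := by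
  intro p q h1 h2 H i i' e1 e2 e3
  have e1' : bf u L p.1 i := (h1.bf_iff i).2 e1
  have e2' : bf u L p.2 i' := (h2.bf_iff i').2 e2
  obtain ⟨f1, f2⟩ := H i i' e1' e2' (ct_eqv h1.symm h2.symm e1 e2 e3)
  exact ⟨((h1.mono hjL).bf_iff i).1 f1, ((h2.mono hjL).bf_iff i').1 f2⟩

/-! ### shifting a pair -/

/-- **naturalness and no contact, restarted at level `j`.** -/
lemma shift_iff {R j L n : ℕ} (hjL : j ≤ L) (hLn : L ≤ n) (s : SP u) {p : PP d} (h : Al u j p) :
    ((Nt u R j n p.1 ∧ Nt u R j n p.2) ∧ NoC R j L ((s, p) : Om u)) ↔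
      ((Nt u R 0 (n-j) (th u j p).1 ∧ Nt u R 0 (n-j) (th u j p).2) ∧
        NoC R 0 (L-j) ((tip j s p, th u j p) : Om u)) := by
  obtain ⟨⟨a, ha⟩, ⟨b, hb⟩⟩ := h
  rw [th_eq ha hb]
  have hjn := hjL.trans hLn
  have e1 := nt_shift_iff (R := R) (le_refl j) hjn ha
  have e2 := nt_shift_iff (R := R) (le_refl j) hjn hb
  rw [Nat.sub_self] at e1 e2
  rw [e1, e2]
  refine and_congr_right fun hN => ?_
  have htip := tip_val s ha hb
  have hctc : ∀ i i', ct R (tip j s p) (shf a p.1, shf b p.2) i i' ↔ ct R s p (a+i) (b+i') := by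
    intro i i'
    unfold ct
    rw [htip]
    simp only [pos_shift]
    simp only [Ren263.shift]
  constructor
  · intro H i i' f1 f2 f3
    exfalso
    simp only at f1 f2
    rw [bf_shift_iff hjL ha] at f1
    rw [bf_shift_iff hjL hb] at f2
    rw [hctc] at f3
    have := (H _ _ f1 f2 f3).1
    rw [bf_iff_of_hit ha] at this
    omega
  · intro H i i' f1 f2 f3
    simp only at f1 f2
    rcases lt_or_ge i a with hia | hia
    · rcases lt_or_ge i' b with hib | hib
      · exact ⟨(bf_iff_of_hit ha i).2 hia, (bf_iff_of_hit hb i').2 hib⟩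
      · -- first before level j, second after: not in contact
        exfalso
        have g1 := hN.2.read_ge hb hib (bf_mono hLn f2) f3.2.1
        have g2 := ha.2 i hia
        have g3 := f3.2.2
        have g4 : |lev u (pos s.1.1 p.1 i) - lev u (pos s.1.2 p.2 i')| ≤ R := by
          have := g3 u.1
          unfold Flux132.lev
          split_ifs
          · exact this
          · rw [show -pos s.1.1 p.1 i u.1 - -pos s.1.2 p.2 i' u.1
              = -(pos s.1.1 p.1 i u.1 - pos s.1.2 p.2 i' u.1) by ring, abs_neg]; exact this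
        rw [lev_pos, lev_pos, s.2, abs_le] at g4
        omega
    · rcases lt_or_ge i' b with hib | hib
      · exfalso
        have g1 := hN.1.read_ge ha hia (bf_mono hLn f1) f3.1
        have g2 := hb.2 i' hib
        have g3 := f3.2.2
        have g4 : |lev u (pos s.1.1 p.1 i) - lev u (pos s.1.2 p.2 i')| ≤ R := by
          have := g3 u.1
          unfold Flux132.lev
          split_ifs
          · exact this
          · rw [show -pos s.1.1 p.1 i u.1 - -pos s.1.2 p.2 i' u.1
              = -(pos s.1.1 p.1 i u.1 - pos s.1.2 p.2 i' u.1) by ring, abs_neg]; exact this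
        rw [lev_pos, lev_pos, s.2, abs_le] at g4
        omega
      · exfalso
        obtain ⟨i, rfl⟩ := Nat.exists_eq_add_of_le hia
        obtain ⟨i', rfl⟩ := Nat.exists_eq_add_of_le hib
        rw [← hctc] at f3
        rw [← bf_shift_iff hjL ha] at f1
        rw [← bf_shift_iff hjL hb] at f2
        exact not_bf_zero _ _ (H i i' f1 f2 f3).1

/-- the tip at level `n` of the shifted pair. -/
lemma tip_shift {j n : ℕ} (hjn : j ≤ n) (s : SP u) {p : PP d} (h : Al u n p) :
    tip (n-j) (tip j s p) (th u j p) = tip n s p := by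
  obtain ⟨⟨a', ha'⟩, ⟨b', hb'⟩⟩ := h
  obtain ⟨a, ha⟩ := Alv.anti hjn ⟨a', ha'⟩
  obtain ⟨b, hb⟩ := Alv.anti hjn ⟨b', hb'⟩
  have h1 := ha.le_of_le hjn ha'
  have h2 := hb.le_of_le hjn hb'
  rw [th_eq ha hb]
  apply Subtype.ext
  rw [tip_val s ha' hb']
  have e1 : Hit u (n-j) (shf a p.1) (a'-a) :=
    (hit_shift_iff hjn ha _).2 (by rwa [show a + (a'-a) = a' by omega])
  have e2 : Hit u (n-j) (shf b p.2) (b'-b) :=
    (hit_shift_iff hjn hb _).2 (by rwa [show b + (b'-b) = b' by omega])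
  rw [tip_val (p := (shf a p.1, shf b p.2)) _ e1 e2, tip_val s ha hb]
  simp only [pos_shift]
  rw [show a + (a'-a) = a' by omega, show b + (b'-b) = b' by omega]

/-! ### decomposition into cylinders -/

/-- finite words -/
abbrev Wx (d : ℕ) : Type := Σ n : ℕ, (Fin n → Mark d)

/-- a path with a given initial word -/
def wx (u : Step d) (w : Wx d) : MPath d := fun i => if h : i < w.1 then w.2 ⟨i, h⟩ else (u, true)

lemma mem_cy_wx {w : Wx d} {M : MPath d} : M ∈ Cy (wx u w) w.1 ↔ (fun i : Fin w.1 => M i) = w.2 := by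
  constructor
  · intro h
    funext i
    have := h i i.2
    rw [this]; simp [wx]
  · intro h i hi
    have := congrFun h ⟨i, hi⟩
    simp only at this
    rw [this]; simp [wx, hi]

/-- the pair cylinder of two words -/
def cylp (u : Step d) (c : Wx d × Wx d) : Set (PP d) :=
  Cy (wx u c.1) c.1.1 ×ˢ Cy (wx u c.2) c.2.1

lemma measurableSet_cylp (c : Wx d × Wx d) : MeasurableSet (cylp u c) :=
  (measurableSet_Cy _ _).prod (measurableSet_Cy _ _)

/-- the words stopped at level `j` inside `B` -/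
abbrev Bix (u : Step d) (j : ℕ) (B : Set (PP d)) : Type :=
  {c : Wx d × Wx d // Hit u j (wx u c.1) c.1.1 ∧ Hit u j (wx u c.2) c.2.1 ∧
    (wx u c.1, wx u c.2) ∈ B}

instance (j : ℕ) (B : Set (PP d)) : Countable (Bix u j B) := inferInstance

lemma decomp {j : ℕ} {B : Set (PP d)} (hBa : ∀ p ∈ B, Al u j p) (hB : Dt u j B) :
    B = ⋃ c : Bix u j B, cylp u c.1 := by
  ext p
  rw [Set.mem_iUnion]
  constructor
  · intro hp
    obtain ⟨⟨a, ha⟩, ⟨b, hb⟩⟩ := hBa p hp
    have k1 : p.1 ∈ Cy (wx u ⟨a, fun i => p.1 i⟩) a := mem_cy_wx.2 rfl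
    have k2 : p.2 ∈ Cy (wx u ⟨b, fun i => p.2 i⟩) b := mem_cy_wx.2 rfl
    have k1' : wx u ⟨a, fun i => p.1 i⟩ ∈ Cy p.1 a := fun i hi => (k1 i hi).symm
    have k2' : wx u ⟨b, fun i => p.2 i⟩ ∈ Cy p.2 b := fun i hi => (k2 i hi).symm
    have q1 := (eqv_iff_of_hit ha).2 k1'
    have q2 := (eqv_iff_of_hit hb).2 k2'
    exact ⟨⟨(⟨a, fun i => p.1 i⟩, ⟨b, fun i => p.2 i⟩), q1.hit ha, q2.hit hb,
      hB p (_, _) q1 q2 hp⟩, k1, k2⟩
  · rintro ⟨⟨c, h1, h2, h3⟩, k1, k2⟩
    exact hB (wx u c.1, wx u c.2) p ((eqv_iff_of_hit h1).2 k1) ((eqv_iff_of_hit h2).2 k2) h3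

lemma pairwise_cylp {j : ℕ} {B : Set (PP d)} :
    Pairwise (Function.onFun Disjoint fun c : Bix u j B => cylp u c.1) := by
  rintro ⟨c, h1, h2, h3⟩ ⟨c', h1', h2', h3'⟩ hne
  rw [Function.onFun, Set.disjoint_left]
  rintro p ⟨k1, k2⟩ ⟨k1', k2'⟩
  apply hne
  have q1 := ((eqv_iff_of_hit h1).2 k1).hit h1
  have q2 := ((eqv_iff_of_hit h2).2 k2).hit h2
  have q1' := ((eqv_iff_of_hit h1').2 k1').hit h1'
  have q2' := ((eqv_iff_of_hit h2').2 k2').hit h2'
  have e1 := q1.unique q1'
  have e2 := q2.unique q2'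
  rw [mem_cy_wx] at k1 k2 k1' k2'
  obtain ⟨⟨n, w⟩, ⟨m, v⟩⟩ := c
  obtain ⟨⟨n', w'⟩, ⟨m', v'⟩⟩ := c'
  simp only at e1 e2
  subst e1 e2
  simp only at k1 k2 k1' k2'
  subst k1 k2 k1' k2'
  rfl

lemma lintegral_decomp {j : ℕ} {B : Set (PP d)} (hBa : ∀ p ∈ B, Al u j p) (hB : Dt u j B)
    (μ : Measure (PP d)) (F : PP d → ℝ≥0∞) :
    ∫⁻ p in B, F p ∂μ = ∑' c : Bix u j B, ∫⁻ p in cylp u c.1, F p ∂μ := by
  conv_lhs => rw [decomp hBa hB]
  exact lintegral_iUnion (fun c : Bix u j B => measurableSet_cylp c.1) pairwise_cylp F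

lemma measure_decomp {j : ℕ} {B : Set (PP d)} (hBa : ∀ p ∈ B, Al u j p) (hB : Dt u j B)
    (μ : Measure (PP d)) : μ B = ∑' c : Bix u j B, μ (cylp u c.1) := by
  conv_lhs => rw [decomp hBa hB]
  exact measure_iUnion pairwise_cylp (fun c : Bix u j B => measurableSet_cylp c.1)

lemma measurableSet_of_dt {j : ℕ} {B : Set (PP d)} (hBa : ∀ p ∈ B, Al u j p) (hB : Dt u j B) :
    MeasurableSet B := by
  rw [decomp hBa hB]
  exact MeasurableSet.iUnion fun c => measurableSet_cylp c.1

lemma measurable_shf (n : ℕ) : Measurable (shf n : MPath d → MPath d) :=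
  measurable_pi_lambda _ fun _ => measurable_pi_apply _

/-! ### fresh restart -/

/-- multiplicative families of pair laws -/
structure Mult (R : ℕ) (μ : SP u → Measure (PP d)) : Prop where
  prob : ∀ s, IsProbabilityMeasure (μ s)
  mul : ∀ (s t : SP u) (j k : ℕ) (W V W' V' : MPath d) (n m n' m' : ℕ),
    Hit u j W n → Hit u j V m → Hit u k W' n' → Hit u k V' m' →
    Nt u R 0 k W' → Nt u R 0 k V' → t.1 = (pos s.1.1 W n, pos s.1.2 V m) →
    μ s (Cy (spl W n W') (n+n') ×ˢ Cy (spl V m V') (m+m'))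
      = μ s (Cy W n ×ˢ Cy V m) * μ t (Cy W' n' ×ˢ Cy V' m')

variable {R : ℕ} {μ : SP u → Measure (PP d)}

/-- restart on one cylinder -/
lemma Mult.cyl (hμ : Mult R μ) (s t : SP u) {j k : ℕ} {W V : MPath d} {n m : ℕ}
    (hW : Hit u j W n) (hV : Hit u j V m) (ht : t.1 = (pos s.1.1 W n, pos s.1.2 V m))
    {E : Set (PP d)} (hEd : Dt u k E)
    (hEN : ∀ p ∈ E, Nt u R 0 k p.1 ∧ Nt u R 0 k p.2) :
    μ s ((Cy W n ×ˢ Cy V m) ∩ (Prod.map (shf n) (shf m)) ⁻¹' E)
      = μ s (Cy W n ×ˢ Cy V m) * μ t E := by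
  have hEa : ∀ p ∈ E, Al u k p := fun p hp => ⟨(hEN p hp).1.alv, (hEN p hp).2.alv⟩
  have hEm := measurableSet_of_dt hEa hEd
  have hC : MeasurableSet (Cy W n ×ˢ Cy V m : Set (PP d)) :=
    (measurableSet_Cy _ _).prod (measurableSet_Cy _ _)
  have hsh : Measurable (Prod.map (shf n) (shf m) : PP d → PP d) :=
    (measurable_shf n).prodMap (measurable_shf m)
  have e1 : μ s ((Cy W n ×ˢ Cy V m) ∩ (Prod.map (shf n) (shf m)) ⁻¹' E)
      = (((μ s).restrict (Cy W n ×ˢ Cy V m)).map (Prod.map (shf n) (shf m))) E := by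
    rw [Measure.map_apply hsh hEm, Measure.restrict_apply (hsh hEm), Set.inter_comm]
  rw [e1, measure_decomp hEa hEd, measure_decomp hEa hEd (μ t), ← ENNReal.tsum_mul_left]
  refine tsum_congr fun c => ?_
  obtain ⟨c, h1, h2, h3⟩ := c
  rw [Measure.map_apply hsh (measurableSet_cylp _),
    Measure.restrict_apply (hsh (measurableSet_cylp _))]
  obtain ⟨n1, n2⟩ := hEN _ h3
  simp only at n1 n2
  have := hμ.mul s t j k W V _ _ n m _ _ hW hV h1 h2 n1 n2 ht
  rw [cylp, ← this]
  congr 1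
  rw [← cy_inter_shift, ← cy_inter_shift]
  ext p
  simp only [Set.mem_inter_iff, Set.mem_preimage, Set.mem_prod, Prod.map]
  tauto

/-- **FRESH RESTART OF THE PAIR at level `j`.** -/
theorem Mult.restart (hμ : Mult R μ) (s : SP u) {j k : ℕ} {B : Set (PP d)}
    (hBa : ∀ p ∈ B, Al u j p) (hB : Dt u j B) {E : Set (Om u)}
    (hEd : ∀ t, Dt u k {p | ((t, p) : Om u) ∈ E})
    (hEN : ∀ t p, ((t, p) : Om u) ∈ E → Nt u R 0 k p.1 ∧ Nt u R 0 k p.2) :
    μ s (B ∩ {p | ((tip j s p, th u j p) : Om u) ∈ E})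
      = ∫⁻ p in B, μ (tip j s p) {q | ((tip j s p, q) : Om u) ∈ E} ∂(μ s) := by
  rw [lintegral_decomp hBa hB]
  have e0 : B ∩ {p | ((tip j s p, th u j p) : Om u) ∈ E}
      = ⋃ c : Bix u j B, (cylp u c.1 ∩ {p | ((tip j s p, th u j p) : Om u) ∈ E}) := by
    conv_lhs => rw [decomp hBa hB]
    rw [Set.iUnion_inter]
  -- on one cylinder
  have key : ∀ c : Bix u j B, ∃ t : SP u, (∀ p ∈ cylp u c.1, tip j s p = t) ∧
      cylp u c.1 ∩ {p | ((tip j s p, th u j p) : Om u) ∈ E}
        = cylp u c.1 ∩ (Prod.map (shf c.1.1.1) (shf c.1.2.1)) ⁻¹' {p | ((t, p) : Om u) ∈ E} ∧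
      μ s (cylp u c.1 ∩ (Prod.map (shf c.1.1.1) (shf c.1.2.1)) ⁻¹' {p | ((t, p) : Om u) ∈ E})
        = μ s (cylp u c.1) * μ t {p | ((t, p) : Om u) ∈ E} := by
    rintro ⟨c, h1, h2, h3⟩
    refine ⟨tip j s (wx u c.1, wx u c.2), ?_, ?_, ?_⟩
    · rintro p ⟨k1, k2⟩
      exact (tip_eqv (p := (wx u c.1, wx u c.2)) (q := p) s ((eqv_iff_of_hit h1).2 k1)
        ((eqv_iff_of_hit h2).2 k2)).symm
    · ext p
      simp only [Set.mem_inter_iff, Set.mem_ofPred_eq, Set.mem_preimage]
      refine and_congr_right fun hp => ?_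
      obtain ⟨k1, k2⟩ := hp
      have q1 := (eqv_iff_of_hit h1).2 k1
      have q2 := (eqv_iff_of_hit h2).2 k2
      rw [← tip_eqv (p := (wx u c.1, wx u c.2)) (q := p) s q1 q2,
        th_eq (p := p) (q1.hit h1) (q2.hit h2)]
      rfl
    · exact hμ.cyl s (tip j s (wx u c.1, wx u c.2)) h1 h2
        (tip_val (p := (wx u c.1, wx u c.2)) s h1 h2) (hEd _) (fun p hp => hEN _ p hp)
  have hEm : ∀ t, MeasurableSet {p | ((t, p) : Om u) ∈ E} := fun t =>
    measurableSet_of_dt (j := k) (fun p hp => ⟨(hEN t p hp).1.alv, (hEN t p hp).2.alv⟩) (hEd t)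
  rw [e0, measure_iUnion]
  · refine tsum_congr fun c => ?_
    obtain ⟨t, k1, k2, k3⟩ := key c
    rw [k2, k3]
    have : ∫⁻ p in cylp u c.1, μ (tip j s p) {q | ((tip j s p, q) : Om u) ∈ E} ∂(μ s)
        = ∫⁻ _ in cylp u c.1, μ t {q | ((t, q) : Om u) ∈ E} ∂(μ s) := by
      refine setLIntegral_congr_fun (measurableSet_cylp _) fun p hp => ?_
      rw [k1 p hp]
    rw [this, setLIntegral_const, mul_comm]
  · intro c c' hne
    exact (pairwise_cylp hne).mono Set.inter_subset_left Set.inter_subset_left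
  · intro c
    obtain ⟨t, k1, k2, k3⟩ := key c
    rw [k2]
    exact (measurableSet_cylp _).inter
      (((measurable_shf _).prodMap (measurable_shf _)) (hEm t))

end Crest.Agent.R154.B6I
end

-- ▼ part R154/B6Laws_833

/-! R154 block B6, instance (helper833), part 3: the two pair laws (same environment `PS`,
independent environments `PI`), their fresh restart, and `PS = PI` before the first contact. -/

set_option autoImplicit false
set_option linter.unusedSectionVars false
set_option linter.deprecated false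

open MeasureTheory ProbabilityTheory Filter Set
open scoped ENNReal Topology

namespace Crest.Agent.R154.B6I

open Crest.ProbabilityR.RandomEnvironment Crest.Agent.R154.Q561 Crest.Agent.R154.Ren263
open Crest.Agent.R154.Mk561
open Crest.Agent.R154.Flux132 (lev)
open Crest.Agent.R154.Fin804 (lev_add lev_step_le)

local notation "shf" => Crest.Agent.R154.Ren263.shift

variable {d : ℕ}

/-- two marked walkers in the same environment -/
noncomputable def PSm (κ : ℝ) (Q : Measure (Environment d)) (x y : Site d) : Measure (PP d) :=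
  Q.bind (mkK κ x ×ₖ mkK κ y)

/-- two marked walkers in independent environments -/
noncomputable def PIm (κ : ℝ) (Q : Measure (Environment d)) (x y : Site d) : Measure (PP d) :=
  (mkAnn κ Q x).prod (mkAnn κ Q y)

variable (κ : ℝ) (Q : Measure (Environment d)) [IsProbabilityMeasure Q]

instance (x y : Site d) : IsProbabilityMeasure (PSm κ Q x y) := by
  unfold PSm; infer_instance

instance (x y : Site d) : IsProbabilityMeasure (PIm κ Q x y) := by
  unfold PIm; infer_instance

lemma PSm_apply (x y : Site d) {B : Set (PP d)} (hB : MeasurableSet B) :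
    PSm κ Q x y B = ∫⁻ ω, ((mkLaw κ ω x).prod (mkLaw κ ω y)) B ∂Q := by
  rw [PSm, Measure.bind_apply hB (Kernel.measurable _).aemeasurable]
  refine lintegral_congr fun ω => ?_
  rw [Kernel.prod_apply]; rfl

lemma PSm_prod (x y : Site d) {A B : Set (MPath d)} (hA : MeasurableSet A) (hB : MeasurableSet B) :
    PSm κ Q x y (A ×ˢ B) = ∫⁻ ω, mkLaw κ ω x A * mkLaw κ ω y B ∂Q := by
  rw [PSm_apply κ Q x y (hA.prod hB)]
  exact lintegral_congr fun ω => Measure.prod_prod _ _

lemma PSm_cyl (x y : Site d) (W V : MPath d) (n m : ℕ) :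
    PSm κ Q x y (Cy W n ×ˢ Cy V m) = ∫⁻ ω, wgt κ ω x W n * wgt κ ω y V m ∂Q := by
  rw [PSm_prod κ Q x y (measurableSet_Cy _ _) (measurableSet_Cy _ _)]
  simp only [mk_cyl]

lemma PIm_cyl (x y : Site d) (W V : MPath d) (n m : ℕ) :
    PIm κ Q x y (Cy W n ×ˢ Cy V m)
      = (∫⁻ ω, wgt κ ω x W n ∂Q) * ∫⁻ ω, wgt κ ω y V m ∂Q := by
  unfold PIm
  rw [Measure.prod_prod, mkAnn_apply κ Q x (measurableSet_Cy _ _),
    mkAnn_apply κ Q y (measurableSet_Cy _ _)]
  simp only [mk_cyl]

/-- the marginals of the same-environment law. -/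
lemma PSm_fst (x y : Site d) {A : Set (MPath d)} (hA : MeasurableSet A) :
    PSm κ Q x y {p | p.1 ∈ A} = mkAnn κ Q x A := by
  have : {p : PP d | p.1 ∈ A} = A ×ˢ Set.univ := by ext p; simp
  rw [this, PSm_prod κ Q x y hA MeasurableSet.univ, mkAnn_apply κ Q x hA]
  simp

lemma PSm_snd (x y : Site d) {A : Set (MPath d)} (hA : MeasurableSet A) :
    PSm κ Q x y {p | p.2 ∈ A} = mkAnn κ Q y A := by
  have : {p : PP d | p.2 ∈ A} = Set.univ ×ˢ A := by ext p; simp
  rw [this, PSm_prod κ Q x y MeasurableSet.univ hA, mkAnn_apply κ Q y hA]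
  simp

/-! ### locality of words -/

variable {κ Q} {u : Step d} {R : ℕ}

/-- a word stopped at level `j` reads below the level `j` -/
lemma hit_mem_RdB {x : Site d} {W : MPath d} {n j : ℕ} (h : Hit u j W n) :
    W ∈ RdB {z | lev u z < lev u x + j} x n := by
  intro i hi _
  simp only [Set.mem_ofPred_eq]
  rw [lev_pos]
  have := h.2 i hi
  linarith

/-- a natural word reads at levels `≥ R` -/
lemma nt_mem_RdB {x : Site d} {W : MPath d} {n k : ℕ} (h : Hit u k W n) (hN : Nt u R 0 k W) :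
    W ∈ RdB {z | lev u x + R ≤ lev u z} x n := by
  intro i hi hf
  simp only [Set.mem_ofPred_eq]
  rw [lev_pos]
  have := hN.read_ge (hit_zero W) (Nat.zero_le i) ((bf_iff_of_hit h i).2 hi) hf
  push_cast at this
  linarith

lemma sepR_lev {j j' : ℤ} (h : j + R ≤ j') :
    SepR R {z : Site d | lev u z < j} {z | j' ≤ lev u z} := by
  intro a ha b hb
  refine ⟨u.1, ?_⟩
  simp only [Set.mem_ofPred_eq] at ha hb
  have h1 : (R:ℤ) < lev u b - lev u a := by linarith
  have h2 : |lev u b - lev u a| = |a u.1 - b u.1| := by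
    unfold Flux132.lev
    split_ifs
    · rw [abs_sub_comm]
    · congr 1; ring
  rw [← h2]
  exact lt_of_lt_of_le h1 (le_abs_self _)

lemma locOn_wgt {S : Set (Site d)} {x : Site d} {W : MPath d} {n : ℕ} (hW : W ∈ RdB S x n) :
    LocOn S fun ω => wgt κ ω x W n := fun _ _ h => wgt_local κ h hW

lemma LocOn.mul' {S : Set (Site d)} {f g : Environment d → ℝ≥0∞} (hf : LocOn S f)
    (hg : LocOn S g) : LocOn S fun ω => f ω * g ω := fun ω ω' h => by
  simp only [hf ω ω' h, hg ω ω' h]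

lemma wgt_spl (ω : Environment d) (x : Site d) (W W' : MPath d) (n n' : ℕ) :
    wgt κ ω x (spl W n W') (n+n') = wgt κ ω x W n * wgt κ ω (pos x W n) W' n' := by
  have h0 : ∀ i < n, spl W n W' i = W i := fun i hi => spl_lt hi
  rw [wgt_add, wgt_congr κ ω x h0]
  congr 1
  rw [pos_congr x h0 le_rfl]
  have : shf n (spl W n W') = W' := shift_spl W W' n
  rw [this]

variable (κ) in
/-- **the same-environment law is multiplicative.** -/
lemma mult_PS (hR : IsFiniteRangeDependent Q R) :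
    Mult R (fun s : SP u => PSm κ Q s.1.1 s.1.2) where
  prob s := inferInstance
  mul s t j k W V W' V' n m n' m' hW hV hW' hV' hN hN' ht := by
    rw [PSm_cyl, PSm_cyl, PSm_cyl]
    have e1 : ∀ ω, wgt κ ω s.1.1 (spl W n W') (n+n') * wgt κ ω s.1.2 (spl V m V') (m+m')
        = (wgt κ ω s.1.1 W n * wgt κ ω s.1.2 V m)
          * (wgt κ ω t.1.1 W' n' * wgt κ ω t.1.2 V' m') := by
      intro ω
      rw [wgt_spl, wgt_spl, ht]
      ring
    simp only [e1]
    have hs := s.2
    have l1 : lev u t.1.1 = lev u s.1.1 + j := by rw [ht]; simp only; rw [lev_pos, hW.1]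
    have l2 : lev u t.1.2 = lev u s.1.1 + j := by rw [ht]; simp only; rw [lev_pos, hV.1, s.2]
    refine lintegral_mul_sep hR (sepR_lev (R := R) (u := u) (j := lev u s.1.1 + j)
      (j' := lev u s.1.1 + j + R) le_rfl)
      ((measurable_wgt κ _ _ _).mul (measurable_wgt κ _ _ _))
      ((measurable_wgt κ _ _ _).mul (measurable_wgt κ _ _ _)) ?_ ?_
    · refine LocOn.mul' (locOn_wgt (hit_mem_RdB hW)) (locOn_wgt ?_)
      have := hit_mem_RdB (x := s.1.2) hV
      rw [← hs] at this; exact this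
    · refine LocOn.mul' (locOn_wgt ?_) (locOn_wgt ?_)
      · have := nt_mem_RdB (x := t.1.1) hW' hN
        rw [l1] at this; exact this
      · have := nt_mem_RdB (x := t.1.2) hV' hN'
        rw [l2] at this; exact this

variable (κ) in
/-- one walker: multiplicativity. -/
lemma wgt_mult (hR : IsFiniteRangeDependent Q R) (x : Site d) {j k : ℕ} {W W' : MPath d} {n n' : ℕ}
    (hW : Hit u j W n) (hW' : Hit u k W' n') (hN : Nt u R 0 k W') :
    ∫⁻ ω, wgt κ ω x (spl W n W') (n+n') ∂Q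
      = (∫⁻ ω, wgt κ ω x W n ∂Q) * ∫⁻ ω, wgt κ ω (pos x W n) W' n' ∂Q := by
  simp only [wgt_spl]
  refine lintegral_mul_sep hR (sepR_lev (R := R) (u := u) (j := lev u x + j)
      (j' := lev u x + j + R) le_rfl)
      (measurable_wgt κ _ _ _) (measurable_wgt κ _ _ _) (locOn_wgt (hit_mem_RdB hW))
      (locOn_wgt ?_)
  have := nt_mem_RdB (x := pos x W n) hW' hN
  rw [lev_pos, hW.1] at this; exact this

variable (κ) in
/-- **the independent-environments law is multiplicative.** -/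
lemma mult_PI (hR : IsFiniteRangeDependent Q R) :
    Mult R (fun s : SP u => PIm κ Q s.1.1 s.1.2) where
  prob s := inferInstance
  mul s t j k W V W' V' n m n' m' hW hV hW' hV' hN hN' ht := by
    rw [PIm_cyl, PIm_cyl, PIm_cyl, wgt_mult κ hR s.1.1 hW hW' hN, wgt_mult κ hR s.1.2 hV hV' hN',
      ht]
    ring

/-! ### same = independent before the first contact -/

/-- words without contact -/
lemma PS_eq_PI_cyl (hR : IsFiniteRangeDependent Q R) (s : SP u) {j : ℕ} {W V : MPath d} {n m : ℕ}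
    (hW : Hit u j W n) (hV : Hit u j V m) (h : NoC R 0 j ((s, (W, V)) : Om u)) :
    PSm κ Q s.1.1 s.1.2 (Cy W n ×ˢ Cy V m) = PIm κ Q s.1.1 s.1.2 (Cy W n ×ˢ Cy V m) := by
  rw [PSm_cyl, PIm_cyl]
  refine lintegral_mul_sep hR
    (S := {z | ∃ i < n, (W i).2 = false ∧ pos s.1.1 W i = z})
    (T := {z | ∃ i < m, (V i).2 = false ∧ pos s.1.2 V i = z}) ?_
    (measurable_wgt κ _ _ _) (measurable_wgt κ _ _ _)
    (locOn_wgt fun i hi hf => ⟨i, hi, hf, rfl⟩) (locOn_wgt fun i hi hf => ⟨i, hi, hf, rfl⟩)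
  rintro a ⟨i, hi, hf, rfl⟩ b ⟨i', hi', hf', rfl⟩
  by_contra hcon
  push Not at hcon
  have := h i i' ((bf_iff_of_hit hW i).2 hi) ((bf_iff_of_hit hV i').2 hi') ⟨hf, hf', hcon⟩
  exact not_bf_zero _ _ this.1

/-- **SAME = INDEPENDENT before the first contact** (functional form) -/
theorem PS_eq_PI (hR : IsFiniteRangeDependent Q R) (s : SP u) {j : ℕ} {B : Set (PP d)}
    (hBa : ∀ p ∈ B, Al u j p) (hB : Dt u j B) (hC : ∀ p ∈ B, NoC R 0 j ((s, p) : Om u))
    {F : PP d → ℝ≥0∞} (hF : ∀ p q : PP d, Eqv u j p.1 q.1 → Eqv u j p.2 q.2 → F p = F q) :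
    ∫⁻ p in B, F p ∂(PSm κ Q s.1.1 s.1.2) = ∫⁻ p in B, F p ∂(PIm κ Q s.1.1 s.1.2) := by
  rw [lintegral_decomp hBa hB, lintegral_decomp hBa hB]
  refine tsum_congr fun c => ?_
  obtain ⟨c, h1, h2, h3⟩ := c
  have hconst : ∀ μ : Measure (PP d), ∫⁻ p in cylp u c, F p ∂μ
      = F (wx u c.1, wx u c.2) * μ (cylp u c) := by
    intro μ
    have : ∫⁻ p in cylp u c, F p ∂μ = ∫⁻ _ in cylp u c, F (wx u c.1, wx u c.2) ∂μ := by
      refine setLIntegral_congr_fun (measurableSet_cylp _) fun p hp => ?_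
      exact (hF (wx u c.1, wx u c.2) p ((eqv_iff_of_hit h1).2 hp.1)
        ((eqv_iff_of_hit h2).2 hp.2)).symm
    rw [this, setLIntegral_const]
  rw [hconst, hconst]
  congr 1
  exact PS_eq_PI_cyl hR s h1 h2 (hC _ h3)

theorem PS_eq_PI_set (hR : IsFiniteRangeDependent Q R) (s : SP u) {j : ℕ} {B : Set (PP d)}
    (hBa : ∀ p ∈ B, Al u j p) (hB : Dt u j B) (hC : ∀ p ∈ B, NoC R 0 j ((s, p) : Om u)) :
    PSm κ Q s.1.1 s.1.2 B = PIm κ Q s.1.1 s.1.2 B := by
  have := PS_eq_PI (κ := κ) hR s hBa hB hC (F := fun _ => 1) (fun _ _ _ _ => rfl)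
  simpa using this

end Crest.Agent.R154.B6I
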