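import Crest.Agent.R154.B6Sys_833

-- ▼ part R154/B6Hyp_833
section

/-! R154 block B6, instance (helper833), part 5: the hypotheses of the abstract theorem for the pair
of marked walkers (all except the moves). -/

set_option autoImplicit false
set_option linter.unusedSectionVars false
set_option linter.deprecated false

open MeasureTheory ProbabilityTheory Filter Set
open scoped ENNReal Topology

namespace Crest.Agent.R154.B6I

open Crest.ProbabilityR.RandomEnvironment Crest.Agent.R154.Q561 Crest.Agent.R154.Ren263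
open Crest.Agent.R154.Mk561
open Crest.Agent.R154.Flux132 (lev)
open Crest.Agent.R154.Fin804 (lev_add lev_step_le)

local notation "shf" => Crest.Agent.R154.Ren263.shift

variable {d : ℕ} {u : Step d} {R : ℕ}
variable {κ : ℝ} {Q : Measure (Environment d)} [IsProbabilityMeasure Q]

/-- natural up to `n`, no contact up to stage `L`. -/
def EN (u : Step d) (R n L : ℕ) : Set (Om u) :=
  {ω | (Nt u R 0 n ω.2.1 ∧ Nt u R 0 n ω.2.2) ∧ NoC R 0 L ω}

lemma meas_EN (n L : ℕ) : MeasurableSet (EN u R n L) :=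
  set_of_mp (Measurable.and (Measurable.and ((mp_nt R 0 n).comp meas_p1)
    ((mp_nt R 0 n).comp meas_p2)) (mp_noC R 0 L))

lemma dt_EN {n L : ℕ} (hLn : L ≤ n) (s : SP u) :
    Dt u n {p | ((s, p) : Om u) ∈ EN u R n L} :=
  (dt_nt (Nat.zero_le n)).inter ((dt_noC (Nat.zero_le L) s).mono hLn)

instance (s : SP u) : IsProbabilityMeasure ((sys u R κ Q).P s) := (sys u R κ Q).prob s

lemma meas_tip_comp (j : ℕ) {α : Type*} [MeasurableSpace α] (g : SP u → α) :
    Measurable fun ω : Om u => g (tip j ω.1 ω.2) := by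
  have h : Measurable fun ω : Om u => tip j ω.1 ω.2 :=
    measurable_to_countable' fun t => set_of_mp (mp_tip j t)
  exact (measurable_of_countable g).comp h

/-- **fresh restart in the system** -/
lemma P_restart (hR : IsFiniteRangeDependent Q R) (s : SP u) {j k : ℕ} {B G E : Set (Om u)}
    (hB : MeasurableSet[Fj u j] B) (hBa : ∀ ω ∈ B, Al u j ω.2) (hE : MeasurableSet[Fj u k] E)
    (hEN : ∀ t p, ((t, p) : Om u) ∈ E → Nt u R 0 k p.1 ∧ Nt u R 0 k p.2)
    (hG : MeasurableSet G)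
    (hGE : ∀ ω ∈ B, ω ∈ G ↔ ((tip j ω.1 ω.2, th u j ω.2) : Om u) ∈ E) :
    (sys u R κ Q).P s (B ∩ G)
      = ∫⁻ ω in B, (sys u R κ Q).P (tip j ω.1 ω.2) E ∂((sys u R κ Q).P s) := by
  rw [P_apply s (hB.1.inter hG),
    P_lintegral s hB.1 (meas_tip_comp j fun t => (sys u R κ Q).P t E)]
  have h1 : {p : PP d | ((s, p) : Om u) ∈ B ∩ G}
      = {p | ((s, p) : Om u) ∈ B} ∩ {p | ((tip j s p, th u j p) : Om u) ∈ E} := by
    ext p
    simp only [Set.mem_ofPred_eq, Set.mem_inter_iff]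
    exact and_congr_right fun hp => hGE (s, p) hp
  rw [h1]
  have key := (mult_PS κ hR).restart s (B := {p | ((s, p) : Om u) ∈ B}) (j := j) (k := k)
    (fun p hp => hBa (s, p) hp) (hB.2 s) hE.2 hEN
  refine key.trans (lintegral_congr fun p => ?_)
  exact (P_apply _ hE.1).symm

lemma P_restart_real (hR : IsFiniteRangeDependent Q R) (s : SP u) {j k : ℕ} {B G E : Set (Om u)}
    (hB : MeasurableSet[Fj u j] B) (hBa : ∀ ω ∈ B, Al u j ω.2) (hE : MeasurableSet[Fj u k] E)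
    (hEN : ∀ t p, ((t, p) : Om u) ∈ E → Nt u R 0 k p.1 ∧ Nt u R 0 k p.2)
    (hG : MeasurableSet G)
    (hGE : ∀ ω ∈ B, ω ∈ G ↔ ((tip j ω.1 ω.2, th u j ω.2) : Om u) ∈ E) :
    ((sys u R κ Q).P s).real (B ∩ G)
      = ∫ ω in B, ((sys u R κ Q).P (tip j ω.1 ω.2)).real E ∂((sys u R κ Q).P s) := by
  simp only [Measure.real]
  rw [P_restart hR s hB hBa hE hEN hG hGE,
    integral_toReal (meas_tip_comp j fun t => (sys u R κ Q).P t E).aemeasurable]
  exact Filter.Eventually.of_forall fun ω => measure_lt_top _ _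

lemma phi_eq {n L : ℕ} (s : SP u) :
    (sys u R κ Q).φ n L s = ((sys u R κ Q).P s).real (EN u R n L) := by
  unfold B6_833.PairSys.φ
  rw [nocs_eq (Nat.zero_le L)]
  rfl

lemma FP_field (hR : IsFiniteRangeDependent Q R) (s : SP u) (j L n : ℕ) (hjL : j ≤ L)
    (hLn : L ≤ n) (B : Set (Om u)) (hB : MeasurableSet[(sys u R κ Q).F j] B)
    (hBa : B ⊆ (sys u R κ Q).al j) :
    ((sys u R κ Q).P s).real (B ∩ ((sys u R κ Q).N j n ∩ (sys u R κ Q).nocs j L))
      = ∫ ω in B, (sys u R κ Q).φ (n - j) (L - j) ((sys u R κ Q).st j ω)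
          ∂((sys u R κ Q).P s) := by
  simp only [phi_eq]
  rw [nocs_eq hjL]
  refine P_restart_real hR s (k := n - j) hB hBa
    ⟨meas_EN _ _, fun t => dt_EN (by omega) t⟩ (fun t p hp => hp.1) ?_ ?_
  · exact set_of_mp (Measurable.and (Measurable.and ((mp_nt R j n).comp meas_p1)
      ((mp_nt R j n).comp meas_p2)) (mp_noC R j L))
  · intro ω hω
    exact shift_iff hjL hLn ω.1 (hBa hω)

/-! ### one walker -/

variable (u R κ Q) in
/-- probability that one walker is natural up to level `m` -/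
noncomputable def hh (m : ℕ) : ℝ := (mkAnn κ Q 0).real {M | Nt u R 0 m M}

variable (u R κ Q) in
/-- probability that one walker is natural for ever -/
noncomputable def pp : ℝ := (mkAnn κ Q 0).real {M | ∀ m, Nt u R 0 m M}

lemma meas_nt (R i j : ℕ) : MeasurableSet {M : MPath d | Nt u R i j M} := set_of_mp (mp_nt R i j)

lemma pp_le_hh (m : ℕ) : pp u R κ Q ≤ hh u R κ Q m :=
  measureReal_mono (fun _ h => h m)

lemma hh_le_one (m : ℕ) : hh u R κ Q m ≤ 1 := measureReal_le_one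

lemma hh_nonneg (m : ℕ) : 0 ≤ hh u R κ Q m := measureReal_nonneg


lemma hh_lim : Tendsto (hh u R κ Q) atTop (𝓝 (pp u R κ Q)) := by
  have h := tendsto_measure_iInter_atTop (μ := mkAnn κ Q 0)
    (s := fun m => {M : MPath d | Nt u R 0 m M})
    (fun m => (meas_nt R 0 m).nullMeasurableSet) (fun a b hab M hM => hM.left hab)
    ⟨0, measure_ne_top _ _⟩
  have h2 : (⋂ m, {M : MPath d | Nt u R 0 m M}) = {M | ∀ m, Nt u R 0 m M} := by
    ext M; simp
  rw [h2] at h
  exact (ENNReal.tendsto_toReal (measure_ne_top _ _)).comp h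

lemma b_eq (hR : IsFiniteRangeDependent Q R) (m : ℕ) (s : SP u) :
    (sys u R κ Q).b m s = (PIm κ Q s.1.1 s.1.2).real {p | ((s, p) : Om u) ∈ EN u R m m} := by
  unfold B6_833.PairSys.b
  rw [phi_eq]
  simp only [Measure.real]
  rw [P_apply s (meas_EN _ _)]
  congr 1
  exact PS_eq_PI_set hR s (j := m) (fun p hp => ⟨hp.1.1.alv, hp.1.2.alv⟩) (dt_EN le_rfl s)
    (fun p hp => hp.2)

variable (hstat : ∀ z : Site d, MeasurePreserving (shiftEnv z) Q Q)
include hstat

lemma PI_nt (m : ℕ) (x y : Site d) :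
    (PIm κ Q x y).real ({M | Nt u R 0 m M} ×ˢ {M | Nt u R 0 m M}) = hh u R κ Q m ^ 2 := by
  unfold PIm hh
  simp only [Measure.real]
  rw [Measure.prod_prod, mkAnn_stat hstat κ x, mkAnn_stat hstat κ y, ENNReal.toReal_mul, sq]

lemma ub_field (hR : IsFiniteRangeDependent Q R) (s : SP u) (m : ℕ) :
    (sys u R κ Q).b m s ≤ hh u R κ Q m ^ 2 := by
  rw [b_eq hR, ← PI_nt hstat m s.1.1 s.1.2]
  exact measureReal_mono (fun p hp => ⟨hp.1.1, hp.1.2⟩)

lemma tail_field (s : SP u) (m n : ℕ) (hmn : m ≤ n) :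
    (sys u R κ Q).φ m 0 s - (sys u R κ Q).φ n 0 s ≤ 2 * (hh u R κ Q m - pp u R κ Q) := by
  rw [phi_eq, phi_eq]
  simp only [Measure.real]
  rw [P_apply s (meas_EN _ _), P_apply s (meas_EN _ _)]
  set μ := PSm κ Q s.1.1 s.1.2 with hμ
  set A : ℕ → Set (MPath d) := fun m => {M | Nt u R 0 m M} with hA
  have hAm : ∀ m, MeasurableSet (A m) := fun m => meas_nt R 0 m
  have e : ∀ m, {p : PP d | ((s, p) : Om u) ∈ EN u R m 0} = {p | p.1 ∈ A m ∧ p.2 ∈ A m} := by
    intro m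
    ext p
    constructor
    · intro h; exact h.1
    · intro h; exact ⟨h, fun i i' h1 _ _ => absurd h1 (not_bf_zero _ _)⟩
  rw [e, e]
  have hsub : {p : PP d | p.1 ∈ A m ∧ p.2 ∈ A m} ⊆ {p | p.1 ∈ A n ∧ p.2 ∈ A n}
      ∪ ({p | p.1 ∈ A m \ A n} ∪ {p | p.2 ∈ A m \ A n}) := by
    rintro p ⟨h1, h2⟩
    by_cases h3 : p.1 ∈ A n
    · by_cases h4 : p.2 ∈ A n
      · exact Or.inl ⟨h3, h4⟩
      · exact Or.inr (Or.inr ⟨h2, h4⟩)
    · exact Or.inr (Or.inl ⟨h1, h3⟩)
  have hanti : A n ⊆ A m := fun M hM => hM.left hmn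
  have hd : (mkAnn κ Q 0).real (A m \ A n) = hh u R κ Q m - hh u R κ Q n :=
    measureReal_diff hanti (hAm n)
  have h1 : μ.real {p | p.1 ∈ A m \ A n} = hh u R κ Q m - hh u R κ Q n := by
    rw [← hd, hμ]
    simp only [Measure.real]
    rw [PSm_fst κ Q _ _ ((hAm m).diff (hAm n)), mkAnn_stat hstat κ]
  have h2 : μ.real {p | p.2 ∈ A m \ A n} = hh u R κ Q m - hh u R κ Q n := by
    rw [← hd, hμ]
    simp only [Measure.real]
    rw [PSm_snd κ Q _ _ ((hAm m).diff (hAm n)), mkAnn_stat hstat κ]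
  have h3 : μ.real {p | p.1 ∈ A m ∧ p.2 ∈ A m} ≤ μ.real {p | p.1 ∈ A n ∧ p.2 ∈ A n}
      + (μ.real {p | p.1 ∈ A m \ A n} + μ.real {p | p.2 ∈ A m \ A n}) :=
    (measureReal_mono hsub).trans ((measureReal_union_le _ _).trans
      (add_le_add le_rfl (measureReal_union_le _ _)))
  have h4 := pp_le_hh (u := u) (R := R) (κ := κ) (Q := Q) n
  simp only [Measure.real] at h1 h2 h3
  rw [h1, h2] at h3
  linarith

/-! ### far pairs -/

omit hstat in
lemma pos_dist (x : Site d) (M : MPath d) (n : ℕ) (c : Fin d) :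
    |pos x M n c - x c| ≤ n := by
  induction n with
  | zero => simp [pos_zero]
  | succ n ih =>
    rw [pos_succ, Pi.add_apply]
    have h1 : |stp (M n) c| ≤ 1 := by
      unfold stp stepVec
      by_cases h : c = (M n).1.1
      · rw [h, Pi.single_eq_same]; split_ifs <;> norm_num
      · rw [Pi.single_eq_of_ne h]; norm_num
    have h2 : pos x M n c + stp (M n) c - x c = (pos x M n c - x c) + stp (M n) c := by ring
    rw [h2]
    have := abs_add_le (pos x M n c - x c) (stp (M n) c)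
    push_cast
    linarith

/-- pairs of sites at distance `> r` -/
def Far (u : Step d) (r : ℕ) : Set (SP u) := {s | ∃ c, (r:ℤ) < |s.1.1 c - s.1.2 c|}

lemma far_field (hR : IsFiniteRangeDependent Q R) (m : ℕ) (ε : ℝ) (hε : 0 < ε) :
    ∃ r, ∀ s ∈ Far u r, hh u R κ Q m ^ 2 - ε ≤ (sys u R κ Q).b m s := by
  -- the walker hits level `m` before time `K`
  set A : Set (MPath d) := {M | Nt u R 0 m M} with hA
  set D : ℕ → Set (MPath d) := fun K => {M | Nt u R 0 m M ∧ ∀ n ≤ K, ¬ Hit u m M n} with hD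
  have hDm : ∀ K, MeasurableSet (D K) := fun K => set_of_mp (Measurable.and (mp_nt R 0 m)
    (Measurable.forall fun n => Measurable.imp measurable_const (Measurable.not (mp_hit m n))))
  have hlim : Tendsto (fun K => (mkAnn κ Q 0).real (D K)) atTop (𝓝 0) := by
    have h := tendsto_measure_iInter_atTop (μ := mkAnn κ Q 0) (s := D)
      (fun K => (hDm K).nullMeasurableSet)
      (fun a b hab M hM => ⟨hM.1, fun n hn => hM.2 n (hn.trans hab)⟩)
      ⟨0, measure_ne_top _ _⟩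
    have h2 : (⋂ K, D K) = ∅ := by
      rw [Set.eq_empty_iff_forall_notMem]
      intro M hM
      rw [Set.mem_iInter] at hM
      obtain ⟨n, hn⟩ := (hM 0).1.alv
      exact (hM n).2 n le_rfl hn
    rw [h2, measure_empty] at h
    have := (ENNReal.tendsto_toReal (ENNReal.zero_ne_top)).comp h
    rw [ENNReal.toReal_zero] at this
    exact this
  obtain ⟨K, hK⟩ := ((tendsto_order.1 hlim).2 (ε/2) (by positivity)).exists
  refine ⟨2*K + R, fun s hs => ?_⟩
  obtain ⟨c, hc⟩ := hs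
  rw [b_eq hR]
  set A' : Set (MPath d) := A \ D K with hA'
  have hA'm : MeasurableSet A' := (meas_nt R 0 m).diff (hDm K)
  have hsub : A' ×ˢ A' ⊆ {p | ((s, p) : Om u) ∈ EN u R m m} := by
    rintro p ⟨⟨h1, h2⟩, ⟨h3, h4⟩⟩
    refine ⟨⟨h1, h3⟩, ?_⟩
    have g1 : ∃ n ≤ K, Hit u m p.1 n := by
      by_contra hcon; push Not at hcon; exact h2 ⟨h1, hcon⟩
    have g2 : ∃ n ≤ K, Hit u m p.2 n := by
      by_contra hcon; push Not at hcon; exact h4 ⟨h3, hcon⟩
    obtain ⟨n1, hn1, hh1⟩ := g1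
    obtain ⟨n2, hn2, hh2⟩ := g2
    intro i i' f1 f2 f3
    exfalso
    have f1' := (bf_iff_of_hit hh1 i).1 f1
    have f2' := (bf_iff_of_hit hh2 i').1 f2
    have k1 := pos_dist s.1.1 p.1 i c
    have k2 := pos_dist s.1.2 p.2 i' c
    have k3 := f3.2.2 c
    simp only at k1 k2 k3
    rw [abs_le] at k1 k2 k3
    rcases lt_abs.1 hc with hc | hc <;> push_cast at hc <;> omega
  have h1 : (PIm κ Q s.1.1 s.1.2).real (A' ×ˢ A')
      = ((mkAnn κ Q 0).real A')^2 := by
    unfold PIm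
    simp only [Measure.real]
    rw [Measure.prod_prod, mkAnn_stat hstat κ s.1.1, mkAnn_stat hstat κ s.1.2,
      ENNReal.toReal_mul, sq]
  have h2 : (mkAnn κ Q 0).real A' = hh u R κ Q m - (mkAnn κ Q 0).real (D K) :=
    measureReal_diff (fun M hM => hM.1) (hDm K)
  have h3 := measureReal_mono (μ := PIm κ Q s.1.1 s.1.2) hsub
  rw [h1, h2] at h3
  have h4 := hh_le_one (u := u) (R := R) (κ := κ) (Q := Q) m
  have h5 := hh_nonneg (u := u) (R := R) (κ := κ) (Q := Q) m
  have h6 : 0 ≤ (mkAnn κ Q 0).real (D K) := measureReal_nonneg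
  nlinarith

end Crest.Agent.R154.B6I
end

-- ▼ part R154/B6Hyp2_833
section

/-! R154 block B6, instance (helper833), part 6: the contact function `χ` and its restart; the
consequences of the moves; the main theorem for the pair of marked walkers. -/

set_option autoImplicit false
set_option linter.unusedSectionVars false
set_option linter.deprecated false

open MeasureTheory ProbabilityTheory Filter Set
open scoped ENNReal Topology

namespace Crest.Agent.R154.B6I

open Crest.ProbabilityR.RandomEnvironment Crest.Agent.R154.Q561 Crest.Agent.R154.Ren263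
open Crest.Agent.R154.Mk561
open Crest.Agent.R154.Flux132 (lev)
open Crest.Agent.R154.Fin804 (lev_add lev_step_le)

local notation "shf" => Crest.Agent.R154.Ren263.shift

variable {d : ℕ} {u : Step d} {R : ℕ}
variable {κ : ℝ} {Q : Measure (Environment d)} [IsProbabilityMeasure Q]

/-- both natural up to `m`, with a contact before level `m` -/
def EC (u : Step d) (R m : ℕ) : Set (Om u) :=
  {ω | (Nt u R 0 m ω.2.1 ∧ Nt u R 0 m ω.2.2) ∧ ¬ NoC R 0 m ω}


lemma dt_EC (m : ℕ) (s : SP u) : Dt u m {p | ((s, p) : Om u) ∈ EC u R m} :=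
  (dt_nt (Nat.zero_le m)).inter (dt_noC (Nat.zero_le m) s).compl

variable (R κ Q) in
/-- probability (independent environments) of a contact of two natural walkers, `ℝ≥0∞` -/
noncomputable def XE (m : ℕ) (s : SP u) : ℝ≥0∞ :=
  PIm κ Q s.1.1 s.1.2 {p | ((s, p) : Om u) ∈ EC u R m}

variable (R κ Q) in
/-- **`χ_m(x,y)`: two independent-environment walkers from `x, y` are natural up to level `m` and
have a contact before level `m`** -/
noncomputable def chi (m : ℕ) (s : SP u) : ℝ := (XE R κ Q m s).toReal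

lemma XE_le_one (m : ℕ) (s : SP u) : XE R κ Q m s ≤ 1 := prob_le_one


lemma chi_nonneg (m : ℕ) (s : SP u) : 0 ≤ chi R κ Q m s := ENNReal.toReal_nonneg

lemma chi_le_one (m : ℕ) (s : SP u) : chi R κ Q m s ≤ 1 :=
  ENNReal.toReal_le_of_le_ofReal zero_le_one (by simpa using XE_le_one m s)

variable (R κ Q) in
/-- loss between the levels `k` and `k+m` -/
noncomputable def DE (k m : ℕ) (s : SP u) : ℝ≥0∞ :=
  PIm κ Q s.1.1 s.1.2 ({p | ((s, p) : Om u) ∈ EN u R k k} \
    {p | ((s, p) : Om u) ∈ EN u R (k+m) (k+m)})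

lemma EN_anti {k m : ℕ} : EN u R (k+m) (k+m) ⊆ EN u R k k := by
  rintro ω ⟨⟨h1, h2⟩, h3⟩
  refine ⟨⟨h1.left (by omega), h2.left (by omega)⟩, fun i i' f1 f2 f3 => ?_⟩
  exact h3 i i' (bf_mono (by omega) f1) (bf_mono (by omega) f2) f3

lemma DE_toReal (hR : IsFiniteRangeDependent Q R) (k m : ℕ) (s : SP u) :
    (DE R κ Q k m s).toReal = (sys u R κ Q).b k s - (sys u R κ Q).b (k+m) s := by
  rw [b_eq hR, b_eq hR]
  unfold DE
  exact measureReal_diff (fun p hp => EN_anti hp) (measurableSet_of_dt (j := k+m)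
    (fun p hp => ⟨hp.1.1.alv, hp.1.2.alv⟩) (dt_EN le_rfl s))

/-- countable sums over the tips -/
lemma lint_tip (ν : Measure (Om u)) {A : Set (Om u)} (n : ℕ) (X : SP u → ℝ≥0∞) :
    ∫⁻ ω in A, X (tip n ω.1 ω.2) ∂ν = ∑' t, X t * ν (A ∩ {ω | tip n ω.1 ω.2 = t}) := by
  have hg : Measurable fun ω : Om u => tip n ω.1 ω.2 := meas_tip_comp n fun t => t
  have h1 : ∫⁻ ω in A, X (tip n ω.1 ω.2) ∂ν
      = ∫⁻ t, X t ∂((ν.restrict A).map fun ω : Om u => tip n ω.1 ω.2) :=
    (lintegral_map (measurable_of_countable X) hg).symm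
  rw [h1, lintegral_countable']
  refine tsum_congr fun t => ?_
  rw [Measure.map_apply hg (measurableSet_singleton t),
    Measure.restrict_apply (hg (measurableSet_singleton t)), Set.inter_comm]
  rfl

/-- restart of the contact function at level `j` -/
lemma X_restart (hR : IsFiniteRangeDependent Q R) (X : SP u → ℝ≥0∞) (s : SP u) {j n : ℕ}
    (hjn : j ≤ n) {B : Set (Om u)} (hB : MeasurableSet[Fj u j] B) (hBa : ∀ ω ∈ B, Al u j ω.2) :
    ∫⁻ ω in B ∩ {ω | (Nt u R j n ω.2.1 ∧ Nt u R j n ω.2.2) ∧ NoC R j n ω},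
        X (tip n ω.1 ω.2) ∂((sys u R κ Q).P s)
      = ∫⁻ ω in B, (∫⁻ ω' in EN u R (n-j) (n-j), X (tip (n-j) ω'.1 ω'.2)
          ∂((sys u R κ Q).P (tip j ω.1 ω.2))) ∂((sys u R κ Q).P s) := by
  simp only [lint_tip]
  rw [lintegral_tsum]
  · refine tsum_congr fun t => ?_
    have hm : Measurable fun ω : Om u => (sys u R κ Q).P (tip j ω.1 ω.2)
        (EN u R (n-j) (n-j) ∩ {ω | tip (n-j) ω.1 ω.2 = t}) :=
      meas_tip_comp j fun r => (sys u R κ Q).P r (EN u R (n-j) (n-j) ∩ {ω | tip (n-j) ω.1 ω.2 = t})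
    rw [lintegral_const_mul _ hm]
    congr 1
    have hNm : MeasurableSet {ω : Om u | (Nt u R j n ω.2.1 ∧ Nt u R j n ω.2.2) ∧ NoC R j n ω} :=
      set_of_mp (Measurable.and (Measurable.and ((mp_nt R j n).comp meas_p1)
        ((mp_nt R j n).comp meas_p2)) (mp_noC R j n))
    rw [Set.inter_assoc]
    refine P_restart hR s (k := n-j) hB hBa
      (E := EN u R (n-j) (n-j) ∩ {ω | tip (n-j) ω.1 ω.2 = t}) ?_ (fun r p hp => hp.1.1)
      (hNm.inter (set_of_mp (mp_tip n t))) ?_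
    · exact ⟨(meas_EN _ _).inter (set_of_mp (mp_tip _ t)), fun r =>
        (dt_EN le_rfl r).inter (dt_tip _ r t)⟩
    · intro ω hω
      have h1 := shift_iff (R := R) hjn (le_refl n) ω.1 (hBa ω hω)
      constructor
      · rintro ⟨h2, h3⟩
        refine ⟨h1.1 h2, ?_⟩
        have h4 : Al u n ω.2 := ⟨h2.1.1.alv, h2.1.2.alv⟩
        simp only [Set.mem_ofPred_eq] at h3 ⊢
        rw [tip_shift hjn ω.1 h4]; exact h3
      · rintro ⟨h2, h3⟩
        have h5 := h1.2 h2
        refine ⟨h5, ?_⟩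
        have h4 : Al u n ω.2 := ⟨h5.1.1.alv, h5.1.2.alv⟩
        simp only [Set.mem_ofPred_eq] at h3 ⊢
        rw [tip_shift hjn ω.1 h4] at h3; exact h3
  · intro t
    exact ((meas_tip_comp j fun r => X t * (sys u R κ Q).P r
      (EN u R (n-j) (n-j) ∩ {ω | tip (n-j) ω.1 ω.2 = t}))).aemeasurable

/-- one block: no contact up to `k`, then contact -/
lemma X_step (hR : IsFiniteRangeDependent Q R) (t : SP u) (k m : ℕ) :
    ∫⁻ ω in EN u R k k, XE R κ Q m (tip k ω.1 ω.2) ∂((sys u R κ Q).P t) ≤ DE R κ Q k m t := by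
  rw [P_lintegral t (meas_EN _ _) (meas_tip_comp k fun r => XE R κ Q m r)]
  have hBa : ∀ p ∈ {p | ((t, p) : Om u) ∈ EN u R k k}, Al u k p :=
    fun p hp => ⟨hp.1.1.alv, hp.1.2.alv⟩
  rw [PS_eq_PI (κ := κ) hR t (j := k) hBa (dt_EN le_rfl t) (fun p hp => hp.2)
    (F := fun p => XE R κ Q m (tip k t p)) (fun p q h1 h2 => by rw [tip_eqv t h1 h2])]
  have key := (mult_PI κ hR (u := u)).restart t (j := k) (k := m)
    (B := {p | ((t, p) : Om u) ∈ EN u R k k}) (E := EC u R m) hBa (dt_EN le_rfl t)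
    (fun r => dt_EC m r) (fun r p hp => hp.1)
  refine le_trans (le_of_eq key.symm) (measure_mono ?_)
  rintro p ⟨hp1, hp2⟩
  refine ⟨hp1, fun hp3 => ?_⟩
  have hal := hBa p hp1
  have h1 := shift_iff (R := R) (j := k) (L := k+m) (n := k+m) (by omega) le_rfl t hal
  rw [show k + m - k = m by omega] at h1
  obtain ⟨⟨a, ha⟩, ⟨b, hb⟩⟩ := hal
  have e1 := nt_shift_iff (R := R) (le_refl k) (show k ≤ k+m by omega) ha
  have e2 := nt_shift_iff (R := R) (le_refl k) (show k ≤ k+m by omega) hb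
  rw [Nat.sub_self, show k + m - k = m by omega] at e1 e2
  obtain ⟨⟨g1, g2⟩, g3⟩ := hp2
  simp only at g1 g2
  rw [th_eq ha hb] at g1 g2
  refine g3 (h1.1 ⟨⟨e1.1 g1, e2.1 g2⟩, fun i i' f1 f2 f3 => ?_⟩).2
  exact absurd (hp3.2 i i' f1 f2 f3).1 (not_bf_zero _ _)

lemma chiFP_field (hR : IsFiniteRangeDependent Q R) (s : SP u) (j n m : ℕ) (hjn : j ≤ n)
    (B : Set (Om u)) (hB : MeasurableSet[(sys u R κ Q).F j] B) (hBa : B ⊆ (sys u R κ Q).al j) :
    ∫ ω in B ∩ ((sys u R κ Q).N j n ∩ (sys u R κ Q).nocs j n),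
        chi R κ Q m ((sys u R κ Q).st n ω) ∂((sys u R κ Q).P s)
      ≤ ∫ ω in B, ((sys u R κ Q).b (n - j) ((sys u R κ Q).st j ω)
          - (sys u R κ Q).b (n - j + m) ((sys u R κ Q).st j ω)) ∂((sys u R κ Q).P s) := by
  simp only [← DE_toReal hR]
  rw [nocs_eq hjn]
  have h1 : ∫ ω in B, (DE R κ Q (n-j) m ((sys u R κ Q).st j ω)).toReal ∂((sys u R κ Q).P s)
      = (∫⁻ ω in B, DE R κ Q (n-j) m (tip j ω.1 ω.2) ∂((sys u R κ Q).P s)).toReal :=
    integral_toReal (meas_tip_comp j fun r => DE R κ Q (n-j) m r).aemeasurable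
      (Filter.Eventually.of_forall fun ω => measure_lt_top _ _)
  have h2 : ∫ ω in B ∩ ((sys u R κ Q).N j n ∩ {ω | NoC R j n ω}),
        chi R κ Q m ((sys u R κ Q).st n ω) ∂((sys u R κ Q).P s)
      = (∫⁻ ω in B ∩ {ω | (Nt u R j n ω.2.1 ∧ Nt u R j n ω.2.2) ∧ NoC R j n ω},
          XE R κ Q m (tip n ω.1 ω.2) ∂((sys u R κ Q).P s)).toReal :=
    integral_toReal (meas_tip_comp n fun r => XE R κ Q m r).aemeasurable
      (Filter.Eventually.of_forall fun ω => measure_lt_top _ _)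
  rw [h1, h2]
  refine ENNReal.toReal_mono ?_ ?_
  · refine ne_top_of_le_ne_top (measure_ne_top ((sys u R κ Q).P s) B) ?_
    calc ∫⁻ ω in B, DE R κ Q (n-j) m (tip j ω.1 ω.2) ∂((sys u R κ Q).P s)
        ≤ ∫⁻ _ in B, 1 ∂((sys u R κ Q).P s) := lintegral_mono fun ω => prob_le_one
      _ = (sys u R κ Q).P s B := by simp
  · rw [X_restart hR (fun t => XE R κ Q m t) s hjn hB (fun ω hω => hBa hω)]
    exact lintegral_mono fun ω => X_step hR _ _ _

end Crest.Agent.R154.B6I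
end

-- ▼ part R154/B6Main_833

/-! R154 block B6, instance (helper833), part 7: consequences of the moves, main theorem of B6 for
the pair of marked walkers. -/

set_option autoImplicit false
set_option linter.unusedSectionVars false
set_option linter.deprecated false

open MeasureTheory ProbabilityTheory Filter Set
open scoped ENNReal Topology

namespace Crest.Agent.R154.B6I

open Crest.ProbabilityR.RandomEnvironment Crest.Agent.R154.Q561 Crest.Agent.R154.Ren263
open Crest.Agent.R154.Mk561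
open Crest.Agent.R154.Flux132 (lev)
open Crest.Agent.R154.Fin804 (lev_add lev_step_le)

local notation "shf" => Crest.Agent.R154.Ren263.shift

variable {d : ℕ} {u : Step d} {R : ℕ}
variable {κ : ℝ} {Q : Measure (Environment d)} [IsProbabilityMeasure Q]

variable (u R κ Q) in
/-- finite moves of a pair of walkers (816's M1, M2, M3). -/
structure Moves : Prop where
  m1 : ∀ r : ℕ, ∃ c : ℝ≥0∞, 0 < c ∧ ∀ s : SP u, (0 < kf d κ ∨ s.1.1 ≠ s.1.2) →
    ∃ (W V : MPath d) (n m : ℕ) (t : SP u), Hit u (R+1) W n ∧ Hit u (R+1) V m ∧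
      Nt u R 0 (R+1) W ∧ Nt u R 0 (R+1) V ∧ NoC R 0 (R+1) ((s, (W, V)) : Om u) ∧
      t.1 = (pos s.1.1 W n, pos s.1.2 V m) ∧ (∃ c, (r:ℤ) < |t.1.1 c - t.1.2 c|) ∧
      c ≤ PSm κ Q s.1.1 s.1.2 (Cy W n ×ˢ Cy V m)
  m2 : ∀ r : ℕ, ∃ c : ℝ≥0∞, 0 < c ∧ ∀ s : SP u,
    ∃ (W V : MPath d) (n m : ℕ) (t : SP u), Hit u (R+1) W n ∧ Hit u (R+1) V m ∧
      Nt u R 0 (R+1) W ∧ Nt u R 0 (R+1) V ∧
      t.1 = (pos s.1.1 W n, pos s.1.2 V m) ∧ (∃ c, (r:ℤ) < |t.1.1 c - t.1.2 c|) ∧
      c ≤ PSm κ Q s.1.1 s.1.2 (Cy W n ×ˢ Cy V m)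
  m3 : kf d κ = 0 → ∃ c : ℝ≥0∞, 0 < c ∧ ∀ s : SP u, s.1.1 = s.1.2 →
    ∃ (W V : MPath d) (n m : ℕ) (t : SP u), Hit u 1 W n ∧ Hit u 1 V m ∧
      Nt u 0 0 1 W ∧ Nt u 0 0 1 V ∧ ct 0 s (W, V) 0 0 ∧
      t.1 = (pos s.1.1 W n, pos s.1.2 V m) ∧ t.1.1 ≠ t.1.2 ∧
      c ≤ PSm κ Q s.1.1 s.1.2 (Cy W n ×ˢ Cy V m)
  frc : R = 0 ∨ 0 < kf d κ

lemma exists_real {c : ℝ≥0∞} (hc : 0 < c) :
    ∃ c' : ℝ, 0 < c' ∧ ∀ {μ : Measure (PP d)} [IsProbabilityMeasure μ] {A : Set (PP d)},
      c ≤ μ A → c' ≤ μ.real A := by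
  refine ⟨(min c 1).toReal, ENNReal.toReal_pos (by simp [hc.ne']) (by simp), ?_⟩
  intro μ _ A h
  exact ENNReal.toReal_mono (measure_ne_top _ _) ((min_le_left _ _).trans h)

/-- the event that the pair starts with two given words -/
def WB (s : SP u) (W V : MPath d) (n m : ℕ) : Set (Om u) :=
  {ω | ω.1 = s ∧ ω.2 ∈ Cy W n ×ˢ Cy V m}

lemma meas_WB (s : SP u) (W V : MPath d) (n m : ℕ) : MeasurableSet (WB s W V n m) :=
  (measurable_fst (measurableSet_singleton s)).inter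
    (measurable_snd ((measurableSet_Cy _ _).prod (measurableSet_Cy _ _)))

lemma fj_WB {s : SP u} {j : ℕ} {W V : MPath d} {n m : ℕ} (hW : Hit u j W n) (hV : Hit u j V m) :
    MeasurableSet[Fj u j] (WB s W V n m) := by
  refine ⟨meas_WB s W V n m, fun r p q h1 h2 hp => ?_⟩
  obtain ⟨e1, e2, e3⟩ := hp
  have g1 : Hit u j p.1 n := ((eqv_iff_of_hit hW).2 e2).hit hW
  have g2 : Hit u j p.2 m := ((eqv_iff_of_hit hV).2 e3).hit hV
  refine ⟨e1, fun i hi => ?_, fun i hi => ?_⟩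
  · rw [← h1.agree g1 i hi]; exact e2 i hi
  · rw [← h2.agree g2 i hi]; exact e3 i hi

lemma P_WB (s : SP u) (W V : MPath d) (n m : ℕ) :
    ((sys u R κ Q).P s).real (WB s W V n m)
      = (PSm κ Q s.1.1 s.1.2).real (Cy W n ×ˢ Cy V m) := by
  simp only [Measure.real]
  rw [P_apply s (meas_WB s W V n m)]
  congr 2
  ext p
  simp [WB]

/-- **using a move**: follow the two words, then restart. -/
lemma move_le (hR : IsFiniteRangeDependent Q R) {s t : SP u} {a n' L : ℕ} (hL : a ≤ L)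
    (hLn : L ≤ n') {W V : MPath d} {n m : ℕ} (hW : Hit u a W n) (hV : Hit u a V m)
    (ht : t.1 = (pos s.1.1 W n, pos s.1.2 V m)) :
    ((sys u R κ Q).P s).real (WB s W V n m ∩ ((sys u R κ Q).N a n' ∩ (sys u R κ Q).nocs a L))
      = (PSm κ Q s.1.1 s.1.2).real (Cy W n ×ˢ Cy V m) * (sys u R κ Q).φ (n'-a) (L-a) t := by
  have htip : ∀ ω ∈ WB s W V n m, (sys u R κ Q).st a ω = t := by
    rintro ω ⟨e1, e2, e3⟩
    apply Subtype.ext
    change (tip a ω.1 ω.2).1 = t.1
    have g1 : Hit u a ω.2.1 n := ((eqv_iff_of_hit hW).2 e2).hit hW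
    have g2 : Hit u a ω.2.2 m := ((eqv_iff_of_hit hV).2 e3).hit hV
    rw [tip_val ω.1 g1 g2, ht, e1, pos_congr s.1.1 e2 le_rfl, pos_congr s.1.2 e3 le_rfl]
  have hal : WB s W V n m ⊆ (sys u R κ Q).al a := by
    rintro ω ⟨e1, e2, e3⟩
    exact ⟨⟨n, ((eqv_iff_of_hit hW).2 e2).hit hW⟩, ⟨m, ((eqv_iff_of_hit hV).2 e3).hit hV⟩⟩
  rw [FP_field hR s a L n' hL hLn _ (fj_WB hW hV) hal, ← P_WB (R := R) s W V n m]
  have : ∫ ω in WB s W V n m, (sys u R κ Q).φ (n'-a) (L-a) ((sys u R κ Q).st a ω)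
        ∂((sys u R κ Q).P s)
      = ∫ _ in WB s W V n m, (sys u R κ Q).φ (n'-a) (L-a) t ∂((sys u R κ Q).P s) :=
    setIntegral_congr_fun (meas_WB s W V n m) fun ω hω => by
      rw [htip ω hω]
  rw [this, setIntegral_const, smul_eq_mul]

lemma ue1_field (hR : IsFiniteRangeDependent Q R) (hM : Moves u R κ Q) (r : ℕ) :
    ∃ c > (0:ℝ), ∀ s ∈ (sys u R κ Q).Dist, ∃ s' ∈ Far u r, ∀ m,
      c * (sys u R κ Q).b m s' ≤ (sys u R κ Q).b (m + (R+1)) s := by
  obtain ⟨c, hc, H⟩ := hM.m1 r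
  obtain ⟨c', hc', H'⟩ := exists_real (d := d) hc
  refine ⟨c', hc', fun s hs => ?_⟩
  obtain ⟨W, V, n, m, t, hW, hV, hNW, hNV, hNC, ht, hfar, hle⟩ := H s hs
  refine ⟨t, hfar, fun k => ?_⟩
  have h1 := move_le (κ := κ) (Q := Q) hR (s := s) (t := t) (a := R+1) (n' := k + (R+1))
    (L := k + (R+1)) (by omega) le_rfl hW hV ht
  rw [show k + (R+1) - (R+1) = k by omega] at h1
  have h2 : WB s W V n m ∩ ((sys u R κ Q).N (R+1) (k+(R+1)) ∩
      (sys u R κ Q).nocs (R+1) (k+(R+1))) ⊆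
      (sys u R κ Q).N 0 (k+(R+1)) ∩ (sys u R κ Q).nocs 0 (k+(R+1)) := by
    rintro ω ⟨⟨e1, e2, e3⟩, e4, e5⟩
    have q1 := (eqv_iff_of_hit hW).2 e2
    have q2 := (eqv_iff_of_hit hV).2 e3
    refine ⟨(sys u R κ Q).N_trans 0 (R+1) _ (by omega) (by omega) ω
      ⟨q1.nt (Nat.zero_le _) hNW, q2.nt (Nat.zero_le _) hNV⟩ e4, ?_⟩
    rw [nocs_eq (by omega)] at e5 ⊢
    intro i i' f1 f2 f3
    obtain ⟨g1, g2⟩ := e5 i i' f1 f2 f3
    have := dt_noC (Nat.zero_le (R+1)) s (W, V) ω.2 q1 q2 hNC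
    rw [← e1] at this
    exact this i i' g1 g2 f3
  have h3 := measureReal_mono (μ := (sys u R κ Q).P s) h2
  rw [h1] at h3
  refine le_trans ?_ h3
  exact mul_le_mul_of_nonneg_right (H' hle) measureReal_nonneg

lemma phi_anti (s : SP u) {n n' : ℕ} (h : n ≤ n') :
    (sys u R κ Q).φ n' 0 s ≤ (sys u R κ Q).φ n 0 s :=
  measureReal_mono fun ω hω => ⟨⟨hω.1.1.left h, hω.1.2.left h⟩, hω.2⟩

variable (hstat : ∀ z : Site d, MeasurePreserving (shiftEnv z) Q Q)
include hstat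

/-- pairs at a large distance are natural for ever with probability `≥ p²/2`. -/
lemma lower_far (hR : IsFiniteRangeDependent Q R) (hp : 0 < pp u R κ Q) :
    ∃ r, ∀ t ∈ Far u r, ∀ n, pp u R κ Q ^ 2 / 2 ≤ (sys u R κ Q).φ n 0 t := by
  set p := pp u R κ Q with hpdef
  have hε : 0 < p ^ 2 / 4 := by positivity
  obtain ⟨m, hm⟩ := ((tendsto_order.1 (hh_lim (u := u) (R := R) (κ := κ) (Q := Q))).2
    (p + p^2/8) (by linarith [show 0 < p^2/8 by positivity])).exists
  obtain ⟨r, hr⟩ := far_field hstat hR (u := u) (κ := κ) m (p^2/4) hε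
  refine ⟨r, fun t ht n => ?_⟩
  have h1 := hr t ht
  have h2 := pp_le_hh (u := u) (R := R) (κ := κ) (Q := Q) m
  have h3 : (sys u R κ Q).b m t ≤ (sys u R κ Q).φ m 0 t :=
    measureReal_mono fun ω hω => ⟨hω.1, fun l hl hl0 => absurd hl (by omega)⟩
  have h4 : p^2 ≤ hh u R κ Q m ^ 2 := by
    have : 0 ≤ p := hp.le
    nlinarith [h2]
  rcases le_total n m with hnm | hnm
  · have := phi_anti (κ := κ) (Q := Q) (R := R) t hnm
    linarith
  · have := tail_field hstat (u := u) (R := R) (κ := κ) t m n hnm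
    linarith

lemma lower_field (hR : IsFiniteRangeDependent Q R) (hM : Moves u R κ Q)
    (hp : 0 < pp u R κ Q) :
    ∃ c₁ > (0:ℝ), ∀ s n, c₁ ≤ (sys u R κ Q).φ n 0 s := by
  obtain ⟨r, hr⟩ := lower_far hstat hR hp (u := u) (κ := κ)
  obtain ⟨c, hc, H⟩ := hM.m2 r
  obtain ⟨c', hc', H'⟩ := exists_real (d := d) hc
  refine ⟨c' * (pp u R κ Q ^ 2 / 2), by positivity, fun s n => ?_⟩
  obtain ⟨W, V, k, m, t, hW, hV, hNW, hNV, ht, hfar, hle⟩ := H s
  have h1 := move_le (κ := κ) (Q := Q) hR (s := s) (t := t) (a := R+1) (n' := n + (R+1))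
    (L := R+1) le_rfl (by omega) hW hV ht
  rw [show n + (R+1) - (R+1) = n by omega, Nat.sub_self] at h1
  have h2 : WB s W V k m ∩ ((sys u R κ Q).N (R+1) (n+(R+1)) ∩
      (sys u R κ Q).nocs (R+1) (R+1)) ⊆
      (sys u R κ Q).N 0 n ∩ (sys u R κ Q).nocs 0 0 := by
    rintro ω ⟨⟨e1, e2, e3⟩, e4, _⟩
    have q1 := (eqv_iff_of_hit hW).2 e2
    have q2 := (eqv_iff_of_hit hV).2 e3
    have h5 := (sys u R κ Q).N_trans 0 (R+1) _ (by omega) (by omega) ω
      ⟨q1.nt (Nat.zero_le _) hNW, q2.nt (Nat.zero_le _) hNV⟩ e4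
    exact ⟨⟨h5.1.left (by omega), h5.2.left (by omega)⟩, fun l hl hl0 => absurd hl (by omega)⟩
  have h3 := measureReal_mono (μ := (sys u R κ Q).P s) h2
  rw [h1] at h3
  refine le_trans ?_ h3
  exact mul_le_mul (H' hle) (hr t hfar n) (by positivity) measureReal_nonneg

omit hstat in
/-- forced marks have probability `kf` -/
lemma unforced_ae (hk : kf d κ = 0) (x : Site d) : mkAnn κ Q x {M | (M 0).2 = true} = 0 := by
  have hm : MeasurableSet {M : MPath d | (M 0).2 = true} :=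
    set_of_mp ((measurable_of_countable fun m : Mark d => m.2 = true).comp
      (measurable_pi_apply 0))
  have hsub : {M : MPath d | (M 0).2 = true} = ⋃ e : Step d, Cy (fun _ => (e, true)) 1 := by
    ext M
    simp only [Set.mem_ofPred_eq, Set.mem_iUnion]
    constructor
    · intro h
      refine ⟨(M 0).1, fun i hi => ?_⟩
      have : i = 0 := by omega
      subst this
      exact Prod.ext rfl h
    · rintro ⟨e, he⟩
      rw [he 0 (by omega)]
  rw [hsub]
  refine measure_iUnion_null fun e => ?_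
  rw [mkAnn_apply κ Q x (measurableSet_Cy _ _)]
  simp only [mk_cyl]
  have : ∀ ω : Environment d, wgt κ ω x (fun _ => (e, true)) 1 = 0 := by
    intro ω
    rw [wgt_forced κ ω x (fun i _ => rfl), hk]; simp
  simp [this]

omit hstat in
lemma eqz_field (hM : Moves u R κ Q) (s : SP u) (hs : s ∉ (sys u R κ Q).Dist) (n k : ℕ)
    (hk : R + 1 ≤ k) (_hkn : k ≤ n) : (sys u R κ Q).φ n k s = 0 := by
  have hs' : ¬ (0 < kf d κ ∨ s.1.1 ≠ s.1.2) := hs
  push Not at hs'
  obtain ⟨h1, h2⟩ := hs'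
  have hkf : kf d κ = 0 := le_antisymm h1 (kf_nonneg κ)
  have hR0 : R = 0 := by
    rcases hM.frc with h | h
    · exact h
    · exact absurd h (not_lt.2 h1)
  subst hR0
  rw [phi_eq]
  simp only [Measure.real]
  rw [P_apply s (meas_EN _ _)]
  have h3 : PSm κ Q s.1.1 s.1.2 {p | ((s, p) : Om u) ∈ EN u 0 n k} = 0 := by
    have hm : MeasurableSet {M : MPath d | (M 0).2 = true} :=
      set_of_mp ((measurable_of_countable fun m : Mark d => m.2 = true).comp
        (measurable_pi_apply 0))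
    have hsub : {p : PP d | ((s, p) : Om u) ∈ EN u 0 n k} ⊆
        {p | p.1 ∈ {M : MPath d | (M 0).2 = true}} ∪ {p | p.2 ∈ {M : MPath d | (M 0).2 = true}} := by
      intro p hp
      by_contra hcon
      simp only [Set.mem_union, Set.mem_ofPred_eq, not_or, Bool.not_eq_true] at hcon
      have hb : ∀ M : MPath d, bf u k M 0 := by
        intro M i hi
        rw [Nat.le_zero.1 hi, zt_zero]
        exact_mod_cast (by omega : 0 < k)
      refine not_bf_zero _ _ (hp.2 0 0 (hb _) (hb _) ⟨hcon.1, hcon.2, fun c => ?_⟩).1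
      rw [pos_zero, pos_zero, h2]; simp
    refine measure_mono_null hsub ((measure_union_null_iff).2 ⟨?_, ?_⟩)
    · rw [PSm_fst κ Q _ _ hm]; exact unforced_ae hkf _
    · rw [PSm_snd κ Q _ _ hm]; exact unforced_ae hkf _
  rw [h3]; simp

omit hstat in
lemma ue3_field (hR : IsFiniteRangeDependent Q R) (hM : Moves u R κ Q) :
    ∃ cₑ > (0:ℝ), ∀ s l, ∀ B, MeasurableSet[(sys u R κ Q).F l] B → B ⊆ (sys u R κ Q).al l →
      (∀ ω ∈ B, (sys u R κ Q).st l ω ∉ (sys u R κ Q).Dist) →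
      cₑ * ((sys u R κ Q).P s).real B ≤
        ((sys u R κ Q).P s).real (B ∩ ((sys u R κ Q).N l (l+(R+1)) ∩ (sys u R κ Q).cs (l+(R+1)) ∩
          (sys u R κ Q).st (l+(R+1)) ⁻¹' (sys u R κ Q).Dist)) := by
  rcases eq_or_lt_of_le (kf_nonneg (d := d) κ) with hkf | hkf
  · -- kf = 0
    have hR0 : R = 0 := by
      rcases hM.frc with h | h
      · exact h
      · rw [← hkf] at h; exact absurd h (lt_irrefl _)
    subst hR0
    obtain ⟨c, hc, H⟩ := hM.m3 hkf.symm
    obtain ⟨c', hc', H'⟩ := exists_real (d := d) hc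
    refine ⟨c', hc', fun s l B hB hBa hBD => ?_⟩
    set E : Set (Om u) := {ω | ((Nt u 0 0 1 ω.2.1 ∧ Nt u 0 0 1 ω.2.2) ∧ Cs 0 1 ω) ∧
      tip 1 ω.1 ω.2 ∈ (sys u 0 κ Q).Dist} with hE
    have hEm : MeasurableSet[Fj u 1] E := by
      refine ⟨set_of_mp (Measurable.and (Measurable.and (Measurable.and ((mp_nt 0 0 1).comp meas_p1)
        ((mp_nt 0 0 1).comp meas_p2)) (mp_cs 0 1)) (meas_tip_comp 1 fun t =>
          t ∈ (sys u 0 κ Q).Dist)), fun t p q h1 h2 hp => ?_⟩
      refine ⟨⟨dt_nt (Nat.zero_le 1) p q h1 h2 hp.1.1, dt_cs 0 1 t p q h1 h2 hp.1.2⟩, ?_⟩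
      have := hp.2
      simp only at this ⊢
      rw [← tip_eqv t h1 h2]; exact this
    have key := P_restart_real (κ := κ) (Q := Q) hR s (j := l) (k := 1) (B := B)
      (G := (sys u 0 κ Q).N l (l+(0+1)) ∩ (sys u 0 κ Q).cs (l+(0+1)) ∩
          (sys u 0 κ Q).st (l+(0+1)) ⁻¹' (sys u 0 κ Q).Dist) (E := E) hB (fun ω hω => hBa hω) hEm
      (fun t p hp => hp.1.1) ?_ ?_
    · rw [key]
      have hlow : ∀ ω ∈ B, c' ≤ ((sys u 0 κ Q).P (tip l ω.1 ω.2)).real E := by
        intro ω hω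
        have h1 := hBD ω hω
        set t := tip l ω.1 ω.2 with ht
        have h2 : ¬ (0 < kf d κ ∨ t.1.1 ≠ t.1.2) := h1
        push Not at h2
        obtain ⟨W, V, n, m, t', hW, hV, hNW, hNV, hct, ht', hne, hle⟩ := H t h2.2
        refine (H' hle).trans ?_
        simp only [Measure.real]
        rw [P_apply t hEm.1]
        refine ENNReal.toReal_mono (measure_ne_top _ _) (measure_mono ?_)
        rintro p ⟨e2, e3⟩
        have q1 := (eqv_iff_of_hit hW).2 e2
        have q2 := (eqv_iff_of_hit hV).2 e3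
        have hb : ∀ M : MPath d, bf u 1 M 0 := by
          intro M i hi
          rw [Nat.le_zero.1 hi, zt_zero]
          norm_num
        refine ⟨⟨⟨q1.nt (Nat.zero_le _) hNW, q2.nt (Nat.zero_le _) hNV⟩,
          ⟨0, 0, hb _, hb _, ct_eqv (p := (W, V)) (q := p) q1 q2 (hb _) (hb _) hct,
            fun hcon => not_bf_zero _ _ hcon.1⟩⟩, ?_⟩
        have h5 : tip 1 t p = t' := by
          apply Subtype.ext
          rw [← tip_eqv (p := (W, V)) (q := p) t q1 q2, tip_val (p := (W, V)) t hW hV, ht']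
        change tip 1 t p ∈ (sys u 0 κ Q).Dist
        rw [h5]
        exact Or.inr hne
      have h6 : ∫ _ in B, c' ∂((sys u 0 κ Q).P s)
          ≤ ∫ ω in B, ((sys u 0 κ Q).P (tip l ω.1 ω.2)).real E ∂((sys u 0 κ Q).P s) := by
        refine setIntegral_mono_on (integrable_const _) ?_ hB.1 hlow
        refine Integrable.of_bound
          (meas_tip_comp l fun r => ((sys u 0 κ Q).P r).real E).aestronglyMeasurable 1
          (Filter.Eventually.of_forall fun ω => ?_)
        rw [Real.norm_eq_abs, abs_of_nonneg measureReal_nonneg]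
        exact measureReal_le_one
      rw [setIntegral_const, smul_eq_mul, mul_comm] at h6
      exact h6
    · exact set_of_mp (Measurable.and (Measurable.and (Measurable.and
        ((mp_nt 0 l (l+(0+1))).comp meas_p1) ((mp_nt 0 l (l+(0+1))).comp meas_p2))
        (mp_cs 0 (l+(0+1)))) (meas_tip_comp (l+(0+1)) fun t => t ∈ (sys u 0 κ Q).Dist))
    · intro ω hω
      have h1 := shift_iff (R := 0) (j := l) (L := l+1) (n := l+1) (by omega) le_rfl ω.1 (hBa hω)
      have e0 := noC_iff (R := 0) (j := l) (L := l+1) (by omega) ω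
      have e1 := noC_iff (R := 0) (j := 0) (L := 1) (by omega)
        ((tip l ω.1 ω.2, th u l ω.2) : Om u)
      have f0 : Cs 0 (l+1) ω ↔ ¬ NoC 0 l (l+1) ω := by
        rw [← e0]
        constructor
        · intro h h'; exact h' (l+1) (by omega) le_rfl h
        · intro h; by_contra hcon
          exact h fun l' h1 h2 => by
            have : l' = l+1 := by omega
            subst this; exact hcon
      have f1 : Cs 0 1 ((tip l ω.1 ω.2, th u l ω.2) : Om u)
          ↔ ¬ NoC 0 0 1 ((tip l ω.1 ω.2, th u l ω.2) : Om u) := by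
        rw [← e1]
        constructor
        · intro h h'; exact h' 1 (by omega) le_rfl h
        · intro h; by_contra hcon
          exact h fun l' h1 h2 => by
            have : l' = 1 := by omega
            subst this; exact hcon
      rw [show l + 1 - l = 1 by omega] at h1
      obtain ⟨⟨a, ha⟩, ⟨b, hb⟩⟩ := hBa hω
      have n1 := nt_shift_iff (R := 0) (le_refl l) (show l ≤ l+1 by omega) ha
      have n2 := nt_shift_iff (R := 0) (le_refl l) (show l ≤ l+1 by omega) hb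
      rw [Nat.sub_self, show l + 1 - l = 1 by omega] at n1 n2
      have hN : (Nt u 0 l (l+1) ω.2.1 ∧ Nt u 0 l (l+1) ω.2.2) ↔
          (Nt u 0 0 1 (th u l ω.2).1 ∧ Nt u 0 0 1 (th u l ω.2).2) := by
        rw [th_eq ha hb, n1, n2]
      constructor
      · rintro ⟨⟨g1, g2⟩, g3⟩
        have g1' : Nt u 0 l (l+1) ω.2.1 ∧ Nt u 0 l (l+1) ω.2.2 := g1
        have g2' : Cs 0 (l+1) ω := g2
        refine ⟨⟨hN.1 g1', ?_⟩, ?_⟩
        · rw [f1]
          intro hcon
          exact (f0.1 g2') (h1.2 ⟨hN.1 g1', hcon⟩).2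
        · have h4 : Al u (l+1) ω.2 := ⟨g1'.1.alv, g1'.2.alv⟩
          have h5 := tip_shift (j := l) (n := l+1) (by omega) ω.1 h4
          rw [show l + 1 - l = 1 by omega] at h5
          change tip 1 (tip l ω.1 ω.2) (th u l ω.2) ∈ (sys u 0 κ Q).Dist
          rw [h5]; exact g3
      · rintro ⟨⟨g1, g2⟩, g3⟩
        have g1' := hN.2 g1
        refine ⟨⟨g1', ?_⟩, ?_⟩
        · change Cs 0 (l+1) ω
          rw [f0]
          intro hcon
          exact (f1.1 g2) (h1.1 ⟨g1', hcon⟩).2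
        · have h4 : Al u (l+1) ω.2 := ⟨g1'.1.alv, g1'.2.alv⟩
          have h5 := tip_shift (j := l) (n := l+1) (by omega) ω.1 h4
          rw [show l + 1 - l = 1 by omega] at h5
          change tip (l+1) ω.1 ω.2 ∈ (sys u 0 κ Q).Dist
          rw [← h5]; exact g3
  · refine ⟨1, one_pos, fun s l B hB hBa hBD => ?_⟩
    have : B = ∅ := by
      rw [Set.eq_empty_iff_forall_notMem]
      intro ω hω
      exact hBD ω hω (Or.inl hkf)
    rw [this]; simp

/-- **(KB)**, the output of B4 -/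
def KB (u : Step d) (R : ℕ) (κ : ℝ) (Q : Measure (Environment d)) [IsProbabilityMeasure Q] : Prop :=
  ∀ ε > (0:ℝ), ∃ m₀ : ℕ, ∀ m ≥ m₀, ∀ s ∈ (sys u R κ Q).Dist,
    (sys u R κ Q).b m s - (sys u R κ Q).b (2 * m) s ≤ ε

/-- **the hypotheses of the abstract theorem hold for the pair of marked walkers.** -/
theorem hyp (hR : IsFiniteRangeDependent Q R) (hM : Moves u R κ Q) (hp : 0 < pp u R κ Q)
    (hKB : KB u R κ Q) :
    ∃ c₁ cₑ : ℝ, (sys u R κ Q).Hyp (R+1) c₁ cₑ (fun m => 2 * (hh u R κ Q m - pp u R κ Q))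
      (hh u R κ Q) (pp u R κ Q) (Far u) (chi R κ Q) := by
  obtain ⟨c₁, hc₁, hlow⟩ := lower_field hstat hR hM hp
  obtain ⟨cₑ, hcₑ, hue3⟩ := ue3_field hR hM
  refine ⟨c₁, cₑ, ?_⟩
  exact
    { a1 := by omega
      c₁pos := hc₁
      cₑpos := hcₑ
      FP := FP_field hR
      lower := hlow
      tail := tail_field hstat
      β_lim := by
        have := ((hh_lim (u := u) (R := R) (κ := κ) (Q := Q)).sub_const (pp u R κ Q)).const_mul 2
        simpa using this
      KB := hKB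
      eqz := fun s hs n k hk hkn => eqz_field hM s hs n k hk hkn
      ppos := hp
      h_lim := hh_lim
      h_ge := pp_le_hh
      ub := fun s _ m => ub_field hstat hR s m
      far_dist := by
        rintro r s ⟨c, hc⟩
        refine Or.inr fun h => ?_
        rw [h] at hc
        simp only [sub_self, abs_zero] at hc
        exact absurd hc (not_lt.2 (Int.natCast_nonneg r))
      far := far_field hstat hR
      ue1 := ue1_field hR hM
      ue3 := hue3
      χ0 := chi_nonneg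
      χ1 := chi_le_one
      χFP := fun s j n m hjn B hB hBa _ => chiFP_field hR s j n m hjn B hB hBa }



end Crest.Agent.R154.B6I
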