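import Crest.Agent.R154.Strong_541
import Crest.Agent.R154.B9Abs_409
import Crest.Agent.R154.Loc_561

-- ▼ part R154/B9Quen_409
section

/-! R154 B9 (S1, S2): quenched estimates for a nearest neighbour walk whose probability of never
returning to a level is bounded below on a set of sites (helper409).
Only the Markov property at fixed times is used. -/

set_option autoImplicit false

namespace Crest.Agent.R154.B9409

open MeasureTheory ProbabilityTheory Crest.ProbabilityR.RandomEnvironment Crest.Agent.R154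
open scoped ENNReal

variable {d : ℕ}

/-- never below the starting height -/
def Nt (ht : Site d →+ ℤ) : Set (Path d) := {X | ∀ n, ht (X 0) ≤ ht (X n)}


lemma measurableSet_Nt (ht : Site d →+ ℤ) : MeasurableSet (Nt ht) := by
  unfold Nt
  rw [Set.ofPred_forall]
  refine MeasurableSet.iInter fun n => measurableSet_of_agree n _ fun X Y h => ?_
  simp only [Set.mem_ofPred_eq, h 0 (Nat.zero_le _), h n le_rfl]



/-- the path is in `B` at the times `0, …, a - 1` -/
def StayIn (B : Set (Site d)) (a : ℕ) : Set (Path d) := {X | ∀ i, i < a → X i ∈ B}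

lemma agree_StayIn (B : Set (Site d)) {a n : ℕ} (h : a ≤ n) (X Y : Path d) (hXY : Agree n X Y) :
    X ∈ StayIn B a ↔ Y ∈ StayIn B a := by
  simp only [StayIn, Set.mem_ofPred_eq]
  refine forall_congr' fun i => forall_congr' fun hi => ?_
  rw [hXY i (by omega)]

lemma measurableSet_StayIn (B : Set (Site d)) (a : ℕ) : MeasurableSet (StayIn B a) :=
  measurableSet_of_agree a _ fun X Y h => agree_StayIn B le_rfl X Y h



/-- iteration of the exit probability -/
lemma stay_pow (ω : Environment d) {B : Set (Site d)} {a : ℕ} {r : ℝ≥0∞}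
    (h : ∀ x, quenchedLaw ω x (StayIn B a) ≤ r) (m : ℕ) (x : Site d) :
    quenchedLaw ω x (StayIn B (m * a)) ≤ r ^ m := by
  induction m with
  | zero => simpa using prob_le_one
  | succ m ih =>
    have hA := fun X Y h => agree_StayIn (d := d) B (le_refl (m * a)) X Y h
    have hsub : StayIn B ((m + 1) * a) ⊆ StayIn B (m * a) ∩ shift (m * a) ⁻¹' StayIn B a := by
      intro X hX
      have e : (m + 1) * a = m * a + a := by ring
      rw [e] at hX
      exact ⟨fun i hi => hX i (by omega), fun i hi => hX (m * a + i) (by omega)⟩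
    calc quenchedLaw ω x (StayIn B ((m + 1) * a))
        ≤ quenchedLaw ω x (StayIn B (m * a) ∩ shift (m * a) ⁻¹' StayIn B a) :=
          measure_mono hsub
      _ = ∫⁻ X in StayIn B (m * a), quenchedLaw ω (X (m * a)) (StayIn B a) ∂quenchedLaw ω x :=
          markov_event ω x (m * a) hA (measurableSet_StayIn B a)
      _ ≤ ∫⁻ _ in StayIn B (m * a), r ∂quenchedLaw ω x :=
          setLIntegral_mono' (measurableSet_StayIn B _) fun X _ => h _
      _ = r * quenchedLaw ω x (StayIn B (m * a)) := setLIntegral_const _ _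
      _ ≤ r * r ^ m := by gcongr
      _ = r ^ (m + 1) := by rw [pow_succ']

/-- decomposition along a first time: if `A n` are disjoint events decided at time `n`, and the
future probability is at most `r` -/
lemma sum_first_le (ω : Environment d) (x : Site d) {A : ℕ → Set (Path d)} {B : Set (Path d)}
    (hA : ∀ n, ∀ X Y : Path d, Agree n X Y → (X ∈ A n ↔ Y ∈ A n))
    (hdisj : Pairwise (Function.onFun Disjoint A)) (hB : MeasurableSet B) {r : ℝ≥0∞}
    (h : ∀ y, quenchedLaw ω y B ≤ r) :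
    quenchedLaw ω x (⋃ n, A n ∩ shift n ⁻¹' B) ≤ r * quenchedLaw ω x (⋃ n, A n) := by
  have hAm : ∀ n, MeasurableSet (A n) := fun n => measurableSet_of_agree n _ (hA n)
  calc quenchedLaw ω x (⋃ n, A n ∩ shift n ⁻¹' B)
      ≤ ∑' n, quenchedLaw ω x (A n ∩ shift n ⁻¹' B) := measure_iUnion_le _
    _ ≤ ∑' n, r * quenchedLaw ω x (A n) := by
        refine ENNReal.tsum_le_tsum fun n => ?_
        rw [markov_event ω x n (hA n) hB, ← setLIntegral_const]
        exact setLIntegral_mono' (hAm n) fun X _ => h _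
    _ = r * quenchedLaw ω x (⋃ n, A n) := by
        rw [ENNReal.tsum_mul_left, measure_iUnion hdisj hAm]

/-- height jumps down by at most one -/
def NN (ht : Site d →+ ℤ) : Set (Path d) := {X | ∀ n, ht (X n) ≤ ht (X (n + 1)) + 1}

lemma measurableSet_NN (ht : Site d →+ ℤ) : MeasurableSet (NN ht) := by
  unfold NN
  rw [Set.ofPred_forall]
  refine MeasurableSet.iInter fun n => measurableSet_of_agree (n + 1) _ fun X Y h => ?_
  simp only [Set.mem_ofPred_eq, h n (Nat.le_succ n), h (n + 1) le_rfl]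

/-- descend by `N` levels inside `S` -/
def Desc (ht : Site d →+ ℤ) (S : Set (Site d)) (N : ℕ) : Set (Path d) :=
  NN ht ∩ {X | ∃ n, ht (X n) + N ≤ ht (X 0) ∧ ∀ i, i < n → X i ∈ S}

lemma measurableSet_Desc (ht : Site d →+ ℤ) (S : Set (Site d)) (N : ℕ) :
    MeasurableSet (Desc ht S N) := by
  refine (measurableSet_NN ht).inter ?_
  rw [Set.ofPred_exists]
  refine MeasurableSet.iUnion fun n => measurableSet_of_agree n _ fun X Y h => ?_
  simp only [Set.mem_ofPred_eq, h 0 (Nat.zero_le _), h n le_rfl]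
  refine and_congr Iff.rfl (forall_congr' fun i => forall_congr' fun hi => ?_)
  rw [h i hi.le]


/-- back below the start after having reached height `K`, before having reached height `L` -/
def Back (ht : Site d →+ ℤ) (K L : ℕ) : Set (Path d) :=
  {X | ∃ m, ht (X m) < ht (X 0) ∧ (∀ i, i < m → ht (X 0) ≤ ht (X i)) ∧
    (∃ n, n < m ∧ ht (X 0) + K ≤ ht (X n)) ∧ ∀ i, i ≤ m → ht (X i) < ht (X 0) + L}

lemma measurableSet_Back (ht : Site d →+ ℤ) (K L : ℕ) : MeasurableSet (Back ht K L) := by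
  unfold Back
  rw [Set.ofPred_exists]
  refine MeasurableSet.iUnion fun m => measurableSet_of_agree m _ fun X Y h => ?_
  simp only [Set.mem_ofPred_eq, h 0 (Nat.zero_le _), h m le_rfl]
  refine and_congr Iff.rfl (and_congr ?_ (and_congr ?_ ?_))
  · refine forall_congr' fun i => forall_congr' fun hi => ?_
    rw [h i hi.le]
  · refine exists_congr fun n => and_congr_right fun hn => ?_
    rw [h n hn.le]
  · refine forall_congr' fun i => forall_congr' fun hi => ?_
    rw [h i hi]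

/-- the box of radius `r` -/
def box (d : ℕ) (r : ℕ) : Set (Site d) := {x | ∀ i, |x i| ≤ (r : ℤ)}

/-- the slab `0 ≤ ht < L` inside the box -/
def slab (ht : Site d →+ ℤ) (r L : ℕ) : Set (Site d) := {x | x ∈ box d r ∧ 0 ≤ ht x ∧ ht x < L}

lemma ae_box (ω : Environment d) : ∀ᵐ X ∂quenchedLaw ω 0, ∀ n, X n ∈ box d n := by
  filter_upwards [quenched_zero_eq ω 0, quenched_nn ω 0] with X h0 hX n
  induction n with
  | zero => intro i; simp [h0]
  | succ n ih =>
    obtain ⟨e, he⟩ := hX n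
    intro i
    rw [he, Pi.add_apply]
    have h1 := ih i
    have h2 : |stepVec e i| ≤ 1 := by
      simp only [stepVec, Pi.single_apply]
      split_ifs <;> simp
    have h3 := abs_add_le (X n i) (stepVec e i)
    push_cast
    linarith

lemma ae_NN {ht : Site d →+ ℤ} (h1 : ∀ e : Step d, |ht (stepVec e)| ≤ 1) (ω : Environment d)
    (x : Site d) : ∀ᵐ X ∂quenchedLaw ω x, X ∈ NN ht := by
  filter_upwards [quenched_nn ω x] with X hX n
  obtain ⟨e, he⟩ := hX n
  rw [he, map_add]
  have := (abs_le.1 (h1 e)).1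
  linarith



end Crest.Agent.R154.B9409
end

-- ▼ part R154/B9Ann_409

/-! R154 B9 (S3): annealed polynomial decay of backtracking and of the time in a slab, from the
polynomial tail of the quenched escape probability (helper409). -/

set_option autoImplicit false

namespace Crest.Agent.R154.B9409

open MeasureTheory ProbabilityTheory Crest.ProbabilityR.RandomEnvironment Crest.Agent.R154
open scoped ENNReal

variable {d : ℕ}

/-- **(QT)**: all polynomial moments of the inverse quenched escape probability, tail form -/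
def QT (Q : Measure (Environment d)) (ht : Site d →+ ℤ) : Prop :=
  ∀ A : ℕ, ∃ C : ℝ, ∀ k : ℕ, 1 ≤ k →
    Q {ω | quenchedLaw ω 0 (Nt ht) < ENNReal.ofReal (1 / (k : ℝ))} ≤ ENNReal.ofReal (C / (k : ℝ) ^ A)

/-- some site of the box has small quenched escape probability -/
def Bad (ht : Site d →+ ℤ) (r k : ℕ) : Set (Environment d) :=
  {ω | ∃ y ∈ box d r, quenchedLaw ω y (Nt ht) < ENNReal.ofReal (1 / (k : ℝ))}

/-- the box as a finset -/
noncomputable def boxF (d r : ℕ) : Finset (Site d) := Fintype.piFinset fun _ => Finset.Icc (-(r : ℤ)) r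

lemma mem_boxF {r : ℕ} {y : Site d} : y ∈ boxF d r ↔ y ∈ box d r := by
  simp only [boxF, Fintype.mem_piFinset, Finset.mem_Icc, box, Set.mem_ofPred_eq, abs_le]

lemma card_boxF (d r : ℕ) : (boxF d r).card = (2 * r + 1) ^ d := by
  rw [boxF, Fintype.card_piFinset]
  simp only [Int.card_Icc, Finset.prod_const, Finset.card_univ, Fintype.card_fin]
  congr 1
  omega

lemma tr_Nt (ht : Site d →+ ℤ) (z : Site d) : Q561.tr z ⁻¹' Nt ht = Nt ht := by
  ext X
  simp [Q561.tr, Nt]

lemma quenched_Nt_shift (ht : Site d →+ ℤ) (ω : Environment d) (x : Site d) :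
    quenchedLaw ω x (Nt ht) = quenchedLaw (shiftEnv x ω) 0 (Nt ht) := by
  rw [Q561.quenched_eq_zero_shift ω x (measurableSet_Nt ht), tr_Nt]

lemma measurableSet_qlt (ht : Site d →+ ℤ) (x : Site d) (t : ℝ≥0∞) :
    MeasurableSet {ω : Environment d | quenchedLaw ω x (Nt ht) < t} :=
  measurableSet_lt (measurable_quenched_apply x (measurableSet_Nt ht)) measurable_const

lemma qlt_shift {Q : Measure (Environment d)}
    (hQ : ∀ z : Site d, MeasurePreserving (shiftEnv z) Q Q) (ht : Site d →+ ℤ) (t : ℝ≥0∞)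
    (y : Site d) :
    Q {ω | quenchedLaw ω y (Nt ht) < t} = Q {ω | quenchedLaw ω 0 (Nt ht) < t} := by
  have h1 := (hQ y).measure_preimage (measurableSet_qlt ht 0 t).nullMeasurableSet
  rw [← h1]
  refine congrArg Q ?_
  ext ω
  simp only [Set.mem_ofPred_eq, Set.mem_preimage, quenched_Nt_shift ht ω y]

lemma bad_le {Q : Measure (Environment d)}
    (hQ : ∀ z : Site d, MeasurePreserving (shiftEnv z) Q Q) (ht : Site d →+ ℤ) (r k : ℕ) :
    Q (Bad ht r k) ≤ ((2 * r + 1 : ℕ) : ℝ≥0∞) ^ d *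
      Q {ω | quenchedLaw ω 0 (Nt ht) < ENNReal.ofReal (1 / (k : ℝ))} := by
  set t : ℝ≥0∞ := ENNReal.ofReal (1 / (k : ℝ)) with ht'
  have h1 : Bad ht r k ⊆ ⋃ y ∈ boxF d r, {ω | quenchedLaw ω y (Nt ht) < t} := by
    rintro ω ⟨y, hy, h⟩
    simp only [Set.mem_iUnion]
    exact ⟨y, mem_boxF.2 hy, h⟩
  refine (measure_mono h1).trans ((measure_biUnion_finset_le _ _).trans ?_)
  have h2 : ∑ y ∈ boxF d r, Q {ω | quenchedLaw ω y (Nt ht) < t}
      = ∑ _y ∈ boxF d r, Q {ω | quenchedLaw ω 0 (Nt ht) < t} :=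
    Finset.sum_congr rfl fun y _ => qlt_shift hQ ht t y
  rw [h2, Finset.sum_const, card_boxF, nsmul_eq_mul]
  push_cast
  exact le_rfl



/-- from quenched bounds on good environments to annealed bounds -/
lemma annealed_le_of_good {Q : Measure (Environment d)} [IsProbabilityMeasure Q] {E : Set (Path d)}
    (hE : MeasurableSet E) {B : Set (Environment d)} (hB : MeasurableSet B) {b : ℝ≥0∞}
    (h : ∀ᵐ ω ∂Q, ω ∉ B → quenchedLaw ω 0 E ≤ b) : annealed Q 0 E ≤ Q B + b := by
  rw [annealed_apply Q 0 hE]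
  unfold annealedProb
  calc ∫⁻ ω, quenchedLaw ω 0 E ∂Q ≤ ∫⁻ ω, (B.indicator 1 ω + b) ∂Q := by
        refine lintegral_mono_ae ?_
        filter_upwards [h] with ω hω
        by_cases hB : ω ∈ B
        · rw [Set.indicator_of_mem hB]
          exact prob_le_one.trans (le_add_right le_rfl)
        · rw [Set.indicator_of_notMem hB, zero_add]
          exact hω hB
    _ = Q B + b := by
        rw [lintegral_add_right _ measurable_const, lintegral_indicator_one hB, lintegral_const,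
          measure_univ, mul_one]

/-! ### the choice of the parameters -/

/-- length of one stretch -/
noncomputable def aa (κ : ℝ) (n : ℕ) : ℕ := ⌈4 * (n : ℝ) * (Nat.sqrt n : ℝ) / κ⌉₊

/-- total time -/
noncomputable def nn (κ : ℝ) (n : ℕ) : ℕ := Nat.sqrt n * aa κ n

lemma sqrt_facts {n : ℕ} (hn : 1 ≤ n) : 1 ≤ Nat.sqrt n ∧ (Nat.sqrt n) ^ 2 ≤ n ∧
    n ≤ 4 * (Nat.sqrt n) ^ 2 := by
  have h1 : 1 ≤ Nat.sqrt n := Nat.sqrt_pos.2 hn
  have h2 : (Nat.sqrt n) ^ 2 ≤ n := Nat.sqrt_le' n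
  have h3 : n < (Nat.sqrt n + 1) ^ 2 := Nat.lt_succ_sqrt' n
  refine ⟨h1, h2, ?_⟩
  nlinarith



/-- exponential decay in `√n` beats every power -/
lemma exp_le_pow {κ : ℝ} (hκ : 0 < κ) (A : ℕ) :
    ∃ C : ℝ, 0 ≤ C ∧ ∀ n : ℕ, 1 ≤ n →
      Real.exp (-(κ * (Nat.sqrt n : ℝ))) ≤ C / (n : ℝ) ^ A := by
  refine ⟨((2 * A).factorial : ℝ) * 4 ^ A / κ ^ (2 * A), by positivity, fun n hn => ?_⟩
  obtain ⟨h1, _, h3⟩ := sqrt_facts hn
  have h1' : (0 : ℝ) < (Nat.sqrt n : ℝ) := by exact_mod_cast h1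
  have h3' : (n : ℝ) ≤ 4 * (Nat.sqrt n : ℝ) ^ 2 := by exact_mod_cast h3
  have hn' : (0 : ℝ) < n := by exact_mod_cast hn
  have h4 := Real.pow_div_factorial_le_exp (κ * (Nat.sqrt n : ℝ)) (by positivity) (2 * A)
  rw [Real.exp_neg]
  have h5 : 0 < (κ * (Nat.sqrt n : ℝ)) ^ (2 * A) / ((2 * A).factorial : ℝ) := by positivity
  refine (inv_anti₀ h5 h4).trans ?_
  rw [inv_div, div_div, div_le_div_iff₀ (by positivity) (by positivity)]
  rw [mul_pow]
  have h6 : (n : ℝ) ^ A ≤ 4 ^ A * (Nat.sqrt n : ℝ) ^ (2 * A) := by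
    calc (n : ℝ) ^ A ≤ (4 * (Nat.sqrt n : ℝ) ^ 2) ^ A := by gcongr
      _ = 4 ^ A * (Nat.sqrt n : ℝ) ^ (2 * A) := by rw [mul_pow, ← pow_mul]
  have h7 : 0 ≤ ((2 * A).factorial : ℝ) * κ ^ (2 * A) := by positivity
  calc ((2 * A).factorial : ℝ) * (κ ^ (2 * A) * (n : ℝ) ^ A)
      = (((2 * A).factorial : ℝ) * κ ^ (2 * A)) * (n : ℝ) ^ A := by ring
    _ ≤ (((2 * A).factorial : ℝ) * κ ^ (2 * A)) * (4 ^ A * (Nat.sqrt n : ℝ) ^ (2 * A)) := by
        gcongr
    _ = _ := by ring

/-- the path stays in the slab `[0, L)` for `a` steps -/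
def SlabP (ht : Site d →+ ℤ) (L a : ℕ) : Set (Path d) :=
  {X | ∀ i, i < a → 0 ≤ ht (X i) - ht (X 0) ∧ ht (X i) - ht (X 0) < L}

lemma measurableSet_SlabP (ht : Site d →+ ℤ) (L a : ℕ) : MeasurableSet (SlabP ht L a) := by
  refine measurableSet_of_agree a _ fun X Y h => ?_
  simp only [SlabP, Set.mem_ofPred_eq, h 0 (Nat.zero_le _)]
  refine forall_congr' fun i => forall_congr' fun hi => ?_
  rw [h i (le_of_lt hi)]

lemma slabP_le (ht : Site d →+ ℤ) (ω : Environment d) (L a : ℕ) :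
    quenchedLaw ω 0 (SlabP ht L a) ≤ quenchedLaw ω 0 (StayIn (slab ht a L) a) := by
  refine measure_mono_ae ?_
  filter_upwards [ae_box ω, quenched_zero_eq ω 0] with X hX h0 h
  intro i hi
  have h1 := h i hi
  rw [h0, map_zero, sub_zero] at h1
  exact ⟨fun k => (hX i k).trans (by exact_mod_cast hi.le), h1⟩



lemma PolyDecay.add {f g : ℕ → ℝ≥0∞} (hf : PolyDecay f) (hg : PolyDecay g) :
    PolyDecay fun n => f n + g n := by
  intro A
  obtain ⟨C, hC0, hC⟩ := hf A
  obtain ⟨D, hD0, hD⟩ := hg A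
  refine ⟨C + D, by positivity, fun n hn => ?_⟩
  calc f n + g n ≤ ENNReal.ofReal (C / (n : ℝ) ^ A) + ENNReal.ofReal (D / (n : ℝ) ^ A) :=
        add_le_add (hC n hn) (hD n hn)
    _ = _ := by rw [← ENNReal.ofReal_add (by positivity) (by positivity), add_div]

lemma PolyDecay.mono {f g : ℕ → ℝ≥0∞} (hf : PolyDecay f) (h : ∀ n, 1 ≤ n → g n ≤ f n) :
    PolyDecay g := by
  intro A
  obtain ⟨C, hC0, hC⟩ := hf A
  exact ⟨C, hC0, fun n hn => (h n hn).trans (hC n hn)⟩

lemma polyDecay_exp {κ : ℝ} (hκ : 0 < κ) :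
    PolyDecay fun n => ENNReal.ofReal (Real.exp (-(κ * (Nat.sqrt n : ℝ)))) := by
  intro A
  obtain ⟨C, hC0, hC⟩ := exp_le_pow hκ A
  exact ⟨C, hC0, fun n hn => ENNReal.ofReal_le_ofReal (hC n hn)⟩

lemma half_pow_eq (m : ℕ) :
    (2⁻¹ : ℝ≥0∞) ^ m = ENNReal.ofReal (Real.exp (-(Real.log 2 * (m : ℝ)))) := by
  have h1 : (2⁻¹ : ℝ≥0∞) = ENNReal.ofReal (2⁻¹ : ℝ) := by
    rw [ENNReal.ofReal_inv_of_pos two_pos, ENNReal.ofReal_ofNat]
  rw [h1, ← ENNReal.ofReal_pow (by positivity)]
  congr 1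
  rw [show -(Real.log 2 * (m : ℝ)) = (m : ℝ) * (-Real.log 2) by ring, Real.exp_nat_mul,
    Real.exp_neg, Real.exp_log two_pos]



end Crest.Agent.R154.B9409
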