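import Crest.Agent.R154.Ren_263

-- ▼ part R154/Ren2_263
section

/-!
Row 154, block B1 (abstract part 2): the mean height of a regeneration block is finite.
-/

set_option autoImplicit false
set_option linter.unusedSectionVars false
set_option linter.deprecated false
open MeasureTheory Filter Set
open scoped ENNReal Topology symmDiff

namespace Crest.Agent.R154.Ren263

variable {S : Type*}

/-- paths in `Stay` whose regeneration times `≥ 1` all have height at least `t` -/
def Big (h : S → ℝ) (t : ℝ) : Set (ℕ → S) :=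
  {s | s ∈ Stay h ∧ ∀ n, 1 ≤ n → Reg h s n → t ≤ hgt h s n}

lemma big_subset (h : S → ℝ) (t : ℝ) : Big h t ⊆ Stay h := fun _ hs => hs.1

lemma reg_shift {h : S → ℝ} {s : ℕ → S} {n m : ℕ} (hnm : n ≤ m) (hm : Reg h s m) :
    Reg h (shift n s) (m - n) := by
  obtain ⟨j, rfl⟩ := Nat.exists_eq_add_of_le hnm
  rw [Nat.add_sub_cancel_left]
  refine ⟨fun k hk => ?_, ?_⟩
  · rw [hgt_shift, hgt_shift]
    have := hm.1 (n + k) (by omega)
    linarith
  · rw [shift_shift]; exact hm.2

section measurable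

variable [Countable S] [MeasurableSpace S] [MeasurableSingletonClass S]

lemma measurableSet_Big (h : S → ℝ) (t : ℝ) : MeasurableSet (Big h t) := by
  have : Big h t = Stay h ∩ ⋂ n : ℕ, ⋂ _ : 1 ≤ n, ({s | Reg h s n}ᶜ ∪ {s | t ≤ hgt h s n}) := by
    ext s
    simp only [Big, mem_setOf_eq, mem_inter_iff, mem_iInter, mem_union, mem_compl_iff]
    refine and_congr Iff.rfl (forall_congr' fun n => forall_congr' fun _ => ?_)
    tauto
  rw [this]
  exact (measurableSet_Stay h).inter <| MeasurableSet.iInter fun n => MeasurableSet.iInter fun _ =>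
    (measurableSet_Reg h n).compl.union (measurableSet_le measurable_const (measurable_hgt h n))

lemma fp_lt {h : S → ℝ} {c : ℝ} (hc0 : 0 < c) {k n : ℕ} {s : ℕ → S}
    (hc : ∀ i, h (s i) ≤ c) (hs : s ∈ FP h (k * c) n) : hgt h s n < (k + 1) * c := by
  rcases Nat.eq_zero_or_pos n with rfl | hn
  · rw [hgt_zero]; positivity
  · obtain ⟨m, rfl⟩ := Nat.exists_eq_succ_of_ne_zero hn.ne'
    have h1 := hs.2 m (Nat.lt_succ_self m)
    rw [Nat.succ_eq_add_one, hgt_succ]
    have := hc m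
    linarith

lemma measurableSet_le_letters (h : S → ℝ) (c : ℝ) :
    MeasurableSet {s : ℕ → S | ∀ i, h (s i) ≤ c} := by
  have : {s : ℕ → S | ∀ i, h (s i) ≤ c} = ⋂ i : ℕ, {s | h (s i) ≤ c} := by ext s; simp
  rw [this]
  exact MeasurableSet.iInter fun i =>
    measurableSet_le ((measurable_of_countable h).comp (measurable_pi_apply i)) measurable_const

theorem Renewal.sum_big_ae {h : S → ℝ} {P : Measure (ℕ → S)} [IsProbabilityMeasure P]
    (R : Renewal h P) (hp : P (Stay h) ≠ 0)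
    (hT : ∀ᵐ s ∂P, s ∈ Stay h → ∀ M : ℝ, ∃ n, M ≤ hgt h s n)
    {c : ℝ} (hc : ∀ᵐ s ∂P, ∀ i, h (s i) ≤ c) (hc0 : 0 < c) (K : ℕ) :
    ∑ k ∈ Finset.range K, P (Big h ((K - k : ℝ) * c)) ≤ 1 := by
  -- the events
  set E : ℕ → Set (ℕ → S) := fun k =>
    {s | s ∈ Stay h ∧ ∃ n, s ∈ FP h (k * c) n ∧ shift n s ∈ Big h ((K - k : ℝ) * c)} with hE
  set C : ℕ → ℕ → Set (ℕ → S) := fun k n =>
    {s | (∀ j ≤ n, 0 ≤ hgt h s j) ∧ s ∈ FP h (k * c) n} with hC
  have hCdet : ∀ k n, Det n (C k n) := by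
    intro k n
    have key : ∀ s s' : ℕ → S, (∀ i < n, s i = s' i) → s ∈ C k n → s' ∈ C k n := by
      rintro s s' H ⟨h1, h2⟩
      exact ⟨fun j hj => by rw [← hgt_congr h H hj]; exact h1 j hj, (det_FP h _ n s s' H).1 h2⟩
    exact fun s s' H => ⟨key s s' H, key s' s fun i hi => (H i hi).symm⟩
  have hEeq : ∀ k, E k = ⋃ n, (C k n ∩ shift n ⁻¹' Big h ((K - k : ℝ) * c)) := by
    intro k
    ext s
    simp only [hE, hC, mem_setOf_eq, mem_iUnion, mem_inter_iff, mem_preimage]
    constructor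
    · rintro ⟨h1, n, h2, h3⟩
      exact ⟨n, ⟨fun j _ => h1 j, h2⟩, h3⟩
    · rintro ⟨n, ⟨h1, h2⟩, h3⟩
      refine ⟨fun j => ?_, n, h2, h3⟩
      rcases le_total j n with hj | hj
      · exact h1 j hj
      · exact (h1 n le_rfl).trans (mem_shift_Stay.1 h3.1 j hj)
  have hEmeas : ∀ k, MeasurableSet (E k) := by
    intro k
    rw [hEeq]
    exact MeasurableSet.iUnion fun n => (hCdet k n).measurableSet.inter
      (measurable_shift n (measurableSet_Big h _))
  have hCdisj : ∀ k, Pairwise (Function.onFun Disjoint (C k)) := by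
    intro k n m hnm
    rw [Function.onFun, Set.disjoint_left]
    intro s hs hs'
    exact hnm (FP_unique hs.2 hs'.2)
  have hPE : ∀ k, P (E k) = P (⋃ n, C k n) * P (Big h ((K - k : ℝ) * c)) := by
    intro k
    rw [hEeq, measure_iUnion, measure_iUnion (hCdisj k) fun n => (hCdet k n).measurableSet,
      ← ENNReal.tsum_mul_right]
    · congr 1
      funext n
      exact R.ren n _ _ (hCdet k n) (fun s hs => record_of_FP hs.2) (measurableSet_Big h _)
        (big_subset h _)
    · intro n m hnm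
      exact (hCdisj k hnm).mono inter_subset_left inter_subset_left
    · exact fun n => (hCdet k n).measurableSet.inter (measurable_shift n (measurableSet_Big h _))
  have hPC : ∀ k, P (Stay h) ≤ P (⋃ n, C k n) := by
    intro k
    refine measure_mono_ae ?_
    filter_upwards [hT] with s hs hst
    obtain ⟨n, hn⟩ := exists_FP (hs hst (k * c))
    exact mem_iUnion.2 ⟨n, fun j _ => hst j, hn⟩
  set Gd : Set (ℕ → S) := {s | ∀ i, h (s i) ≤ c} with hGd
  have hGdm : MeasurableSet Gd := measurableSet_le_letters h c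
  have hEdisj : ∀ k j, k < j → j < K → Disjoint (E k ∩ Gd) (E j ∩ Gd) := by
    intro k j hkj hjK
    rw [Set.disjoint_left]
    rintro s ⟨⟨_, n, hn, hbn⟩, hg⟩ ⟨⟨_, m, hm, hbm⟩, _⟩
    have e1 : hgt h s n < (k + 1) * c := fp_lt hc0 hg hn
    have e2 : hgt h s m < (j + 1) * c := fp_lt hc0 hg hm
    have hkj' : (k : ℝ) + 1 ≤ j := by exact_mod_cast hkj
    have hjK' : (j : ℝ) + 1 ≤ K := by exact_mod_cast hjK
    have e3 : (j : ℝ) * c ≤ hgt h s m := hm.1
    have e4 : (k : ℝ) * c ≤ hgt h s n := hn.1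
    have hnm : n < m := by
      by_contra hcon
      rcases (not_lt.1 hcon).eq_or_lt with he | hl
      · subst he; nlinarith
      · have := record_of_FP hn m hl
        nlinarith
    have hreg : Reg h s m := ⟨record_of_FP hm, hbm.1⟩
    have e5 := hbn.2 (m - n) (by omega) (reg_shift hnm.le hreg)
    rw [hgt_shift, Nat.add_sub_cancel' hnm.le] at e5
    nlinarith
  have hEG : ∀ k, P (E k) = P (E k ∩ Gd) := by
    intro k
    refine measure_congr ?_
    filter_upwards [hc] with s hs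
    exact propext ⟨fun H => ⟨H, hs⟩, fun H => H.1⟩
  have hsum : ∑ k ∈ Finset.range K, P (E k) ≤ P (Stay h) := by
    rw [Finset.sum_congr rfl fun k _ => hEG k]
    rw [← measure_biUnion_finset]
    · refine measure_mono ?_
      intro s hs
      simp only [mem_iUnion] at hs
      obtain ⟨k, _, hk⟩ := hs
      exact hk.1.1
    · intro k hk j hj hkj
      simp only [Finset.coe_range, mem_Iio] at hk hj
      rcases lt_or_gt_of_ne hkj with H | H
      · exact hEdisj k j H hj
      · exact (hEdisj j k H hk).symm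
    · exact fun k _ => (hEmeas k).inter hGdm
  have h1 : (∑ k ∈ Finset.range K, P (Big h ((K - k : ℝ) * c))) * P (Stay h) ≤ 1 * P (Stay h) := by
    rw [one_mul, Finset.sum_mul]
    refine le_trans (Finset.sum_le_sum fun k _ => ?_) hsum
    rw [hPE, mul_comm]
    exact mul_le_mul' (hPC k) le_rfl
  exact (ENNReal.mul_le_mul_iff_left hp (measure_ne_top _ _)).1 h1

/-- tail sum of the first regeneration height -/
theorem Renewal.tsum_big_ae {h : S → ℝ} {P : Measure (ℕ → S)} [IsProbabilityMeasure P]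
    (R : Renewal h P) (hp : P (Stay h) ≠ 0)
    (hT : ∀ᵐ s ∂P, s ∈ Stay h → ∀ M : ℝ, ∃ n, M ≤ hgt h s n)
    {c : ℝ} (hc : ∀ᵐ s ∂P, ∀ i, h (s i) ≤ c) (hc0 : 0 < c) :
    ∑' k : ℕ, P (Big h ((k + 1 : ℝ) * c)) ≤ 1 := by
  rw [ENNReal.tsum_eq_iSup_nat]
  refine iSup_le fun K => ?_
  rw [← Finset.sum_range_reflect]
  refine le_trans (le_of_eq (Finset.sum_congr rfl fun k hk => ?_)) (R.sum_big_ae hp hT hc hc0 K)
  have hk' := Finset.mem_range.1 hk
  have : ((K - 1 - k : ℕ) : ℝ) + 1 = (K : ℝ) - k := by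
    have h1 : (K - 1 - k : ℕ) + 1 + k = K := by omega
    have h2 : ((K - 1 - k : ℕ) : ℝ) + 1 + k = K := by exact_mod_cast h1
    linarith
  rw [this]

/-- the law of the first block height: `P (Big t) = P(Stay) * Σ_n P(Good n, height ≥ t)` -/
theorem Renewal.big_eq {h : S → ℝ} {P : Measure (ℕ → S)} [IsProbabilityMeasure P]
    (R : Renewal h P) (hp : P (Stay h) ≠ 0)
    (hT : ∀ᵐ s ∂P, s ∈ Stay h → ∀ M : ℝ, ∃ n, M ≤ hgt h s n) (t : ℝ) :
    P (Big h t) = (∑' n, P (Good h n ∩ {s | t ≤ hgt h s n})) * P (Stay h) := by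
  have hdet : ∀ n, Det n (Good h n ∩ {s : ℕ → S | t ≤ hgt h s n}) := by
    intro n
    refine (det_Good h n).inter ?_
    intro s s' H
    simp only [mem_setOf_eq]
    rw [hgt_congr h H le_rfl]
  have h1 : P (Big h t) =
      P (⋃ n, ((Good h n ∩ {s | t ≤ hgt h s n}) ∩ shift n ⁻¹' Stay h)) := by
    refine measure_congr ?_
    filter_upwards [R.ae_tendsto hp, hT] with s hs1 hs2
    refine propext ⟨fun hs => ?_, fun hs => ?_⟩
    · classical
      obtain ⟨n, hn1, hn2⟩ := (hs1 (hs2 hs.1)).1 1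
      have hex : ∃ n, 1 ≤ n ∧ Reg h s n := ⟨n, hn1, hn2⟩
      have hg := good_iff.2 ⟨hs.1, (Nat.find_spec hex).1,
        (Nat.find_spec hex).2, fun m hm1 hm2 hm3 => Nat.find_min hex hm2 ⟨hm1, hm3⟩⟩
      exact mem_iUnion.2 ⟨Nat.find hex, ⟨hg.1, hs.2 _ (Nat.find_spec hex).1
        (Nat.find_spec hex).2⟩, hg.2⟩
    · obtain ⟨n, ⟨hn1, hn2⟩, hn3⟩ := mem_iUnion.1 hs
      have hg := good_iff.1 ⟨hn1, hn3⟩
      refine ⟨hg.1, fun m hm hr => ?_⟩
      have hnm : n ≤ m := by
        by_contra hcon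
        exact hg.2.2.2 m hm (not_le.1 hcon) hr
      exact le_trans hn2 (mem_shift_Stay.1 hn3 m hnm)
  rw [h1, measure_iUnion, ← ENNReal.tsum_mul_right]
  · congr 1
    funext n
    exact R.block (hdet n) inter_subset_left (measurableSet_Stay h) subset_rfl
  · intro n m hnm
    rw [Function.onFun, Set.disjoint_left]
    rintro s ⟨⟨hs1, _⟩, hs2⟩ ⟨⟨hs1', _⟩, hs2'⟩
    exact hnm (good_unique ⟨hs1, hs2⟩ ⟨hs1', hs2'⟩)
  · exact fun n => (hdet n).measurableSet.inter (measurable_shift n (measurableSet_Stay h))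

/-- finite mean of the block height: `E Y ≤ c (1 + 1/p)` -/
theorem Renewal.mean_le_ae {h : S → ℝ} {P : Measure (ℕ → S)} [IsProbabilityMeasure P]
    (R : Renewal h P) (hp : P (Stay h) ≠ 0)
    (hT : ∀ᵐ s ∂P, s ∈ Stay h → ∀ M : ℝ, ∃ n, M ≤ hgt h s n)
    {c : ℝ} (hc : ∀ᵐ s ∂P, ∀ i, h (s i) ≤ c) (hc0 : 0 < c) :
    ∑' n, ∫⁻ s in Good h n, ENNReal.ofReal (hgt h s n) ∂P ≤
      ENNReal.ofReal c * (1 + (P (Stay h))⁻¹) := by
  -- pointwise bound of the height by a sum of indicators
  have hpt : ∀ (n : ℕ) (s : ℕ → S), ENNReal.ofReal (hgt h s n) ≤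
      ENNReal.ofReal c * (1 + ∑' k : ℕ,
        ({s : ℕ → S | ((k + 1 : ℝ) * c) ≤ hgt h s n}.indicator (fun _ => (1 : ℝ≥0∞)) s)) := by
    intro n s
    set y := hgt h s n with hy
    rcases le_or_gt y 0 with hy0 | hy0
    · rw [ENNReal.ofReal_of_nonpos hy0]; exact zero_le
    set N := ⌊y / c⌋₊ with hN
    have h1 : y / c < N + 1 := Nat.lt_floor_add_one _
    have h2 : (N : ℝ≥0∞) ≤ ∑' k : ℕ,
        ({s : ℕ → S | ((k + 1 : ℝ) * c) ≤ hgt h s n}.indicator (fun _ => (1 : ℝ≥0∞)) s) := by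
      refine le_trans ?_ (ENNReal.sum_le_tsum (Finset.range N))
      have : ∀ k ∈ Finset.range N,
          ({s : ℕ → S | ((k + 1 : ℝ) * c) ≤ hgt h s n}.indicator (fun _ => (1 : ℝ≥0∞)) s) = 1 := by
        intro k hk
        rw [indicator_of_mem]
        simp only [mem_setOf_eq]
        have hk' : ((k : ℝ) + 1) ≤ N := by exact_mod_cast Finset.mem_range.1 hk
        have hNy : (N : ℝ) ≤ y / c := Nat.floor_le (by positivity)
        have : ((k : ℝ) + 1) ≤ y / c := hk'.trans hNy
        rwa [le_div_iff₀ hc0] at this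
      rw [Finset.sum_congr rfl this]
      simp
    calc ENNReal.ofReal y ≤ ENNReal.ofReal (c * (1 + N)) := by
          refine ENNReal.ofReal_le_ofReal ?_
          rw [div_lt_iff₀ hc0] at h1
          nlinarith
      _ = ENNReal.ofReal c * (1 + (N : ℝ≥0∞)) := by
          rw [ENNReal.ofReal_mul hc0.le, ENNReal.ofReal_add zero_le_one (by positivity),
            ENNReal.ofReal_one, ENNReal.ofReal_natCast]
      _ ≤ _ := by gcongr
  have hmeas : ∀ (n k : ℕ), MeasurableSet {s : ℕ → S | ((k + 1 : ℝ) * c) ≤ hgt h s n} :=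
    fun n k => measurableSet_le measurable_const (measurable_hgt h n)
  have hI : ∀ n, ∫⁻ s in Good h n, ENNReal.ofReal (hgt h s n) ∂P ≤
      ENNReal.ofReal c * (P (Good h n) + ∑' k : ℕ,
        P (Good h n ∩ {s : ℕ → S | ((k + 1 : ℝ) * c) ≤ hgt h s n})) := by
    intro n
    calc ∫⁻ s in Good h n, ENNReal.ofReal (hgt h s n) ∂P
        ≤ ∫⁻ s in Good h n, ENNReal.ofReal c * (1 + ∑' k : ℕ,
        ({s : ℕ → S | ((k + 1 : ℝ) * c) ≤ hgt h s n}.indicator (fun _ => (1 : ℝ≥0∞)) s)) ∂P :=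
          lintegral_mono fun s => hpt n s
      _ = ENNReal.ofReal c * (P (Good h n) + ∑' k : ℕ,
        P (Good h n ∩ {s : ℕ → S | ((k + 1 : ℝ) * c) ≤ hgt h s n})) := by
          rw [lintegral_const_mul' _ _ ENNReal.ofReal_ne_top, lintegral_add_left measurable_const,
            lintegral_tsum]
          · congr 2
            · simp
            · congr 1
              funext k
              rw [lintegral_indicator (hmeas n k), lintegral_const, Measure.restrict_restrict (hmeas n k)]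
              rw [one_mul, Measure.restrict_apply_univ, inter_comm]
          · intro k
            exact (measurable_const.indicator (hmeas n k)).aemeasurable
  have hbig : ∀ k : ℕ, ∑' n, P (Good h n ∩ {s : ℕ → S | ((k + 1 : ℝ) * c) ≤ hgt h s n}) =
      P (Big h ((k + 1 : ℝ) * c)) * (P (Stay h))⁻¹ := by
    intro k
    rw [R.big_eq hp hT, mul_assoc, ENNReal.mul_inv_cancel hp (measure_ne_top _ _), mul_one]
  calc ∑' n, ∫⁻ s in Good h n, ENNReal.ofReal (hgt h s n) ∂P
      ≤ ∑' n, ENNReal.ofReal c * (P (Good h n) + ∑' k : ℕ,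
        P (Good h n ∩ {s : ℕ → S | ((k + 1 : ℝ) * c) ≤ hgt h s n})) := ENNReal.tsum_le_tsum hI
    _ = ENNReal.ofReal c * (∑' n, P (Good h n) + ∑' n, ∑' k : ℕ,
        P (Good h n ∩ {s : ℕ → S | ((k + 1 : ℝ) * c) ≤ hgt h s n})) := by
        rw [ENNReal.tsum_mul_left, ENNReal.tsum_add]
    _ = ENNReal.ofReal c * (1 + ∑' k : ℕ, P (Big h ((k + 1 : ℝ) * c)) * (P (Stay h))⁻¹) := by
        rw [R.tsum_good hp hT, ENNReal.tsum_comm]
        congr 2
        congr 1
        funext k
        exact hbig k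
    _ ≤ ENNReal.ofReal c * (1 + 1 * (P (Stay h))⁻¹) := by
        rw [ENNReal.tsum_mul_right]
        gcongr
        exact R.tsum_big_ae hp hT hc hc0
    _ = _ := by rw [one_mul]

theorem Renewal.sum_big {h : S → ℝ} {P : Measure (ℕ → S)} [IsProbabilityMeasure P]
    (R : Renewal h P) (hp : P (Stay h) ≠ 0)
    (hT : ∀ᵐ s ∂P, s ∈ Stay h → ∀ M : ℝ, ∃ n, M ≤ hgt h s n)
    {c : ℝ} (hc : ∀ a, h a ≤ c) (hc0 : 0 < c) (K : ℕ) :
    ∑ k ∈ Finset.range K, P (Big h ((K - k : ℝ) * c)) ≤ 1 :=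
  R.sum_big_ae hp hT (Eventually.of_forall fun s i => hc (s i)) hc0 K

theorem Renewal.tsum_big {h : S → ℝ} {P : Measure (ℕ → S)} [IsProbabilityMeasure P]
    (R : Renewal h P) (hp : P (Stay h) ≠ 0)
    (hT : ∀ᵐ s ∂P, s ∈ Stay h → ∀ M : ℝ, ∃ n, M ≤ hgt h s n)
    {c : ℝ} (hc : ∀ a, h a ≤ c) (hc0 : 0 < c) :
    ∑' k : ℕ, P (Big h ((k + 1 : ℝ) * c)) ≤ 1 :=
  R.tsum_big_ae hp hT (Eventually.of_forall fun s i => hc (s i)) hc0

theorem Renewal.mean_le {h : S → ℝ} {P : Measure (ℕ → S)} [IsProbabilityMeasure P]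
    (R : Renewal h P) (hp : P (Stay h) ≠ 0)
    (hT : ∀ᵐ s ∂P, s ∈ Stay h → ∀ M : ℝ, ∃ n, M ≤ hgt h s n)
    {c : ℝ} (hc : ∀ a, h a ≤ c) (hc0 : 0 < c) :
    ∑' n, ∫⁻ s in Good h n, ENNReal.ofReal (hgt h s n) ∂P ≤
      ENNReal.ofReal c * (1 + (P (Stay h))⁻¹) :=
  R.mean_le_ae hp hT (Eventually.of_forall fun s i => hc (s i)) hc0

end measurable

end Crest.Agent.R154.Ren263
end

-- ▼ part R154/Ren3_263

/-!
Row 154, block B1 (abstract part 3): representation of the conditioned law as the law of the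
concatenation of iid words.
-/

set_option autoImplicit false
set_option linter.unusedSectionVars false
set_option linter.deprecated false
open MeasureTheory Filter Set ProbabilityTheory
open scoped ENNReal Topology

namespace Crest.Agent.R154.Ren263

/-- words over the alphabet `S` -/
def Word (S : Type*) : Type _ := List S

namespace Word

variable {S : Type*}

instance : MeasurableSpace (Word S) := ⊤

instance : DiscreteMeasurableSpace (Word S) := ⟨fun _ => trivial⟩

instance [Countable S] : Countable (Word S) := inferInstanceAs (Countable (List S))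

/-- length of a word -/
def len (u : Word S) : ℕ := List.length u

/-- total height of a word -/
def ht (h : S → ℝ) (u : Word S) : ℝ := (List.map h u).sum

/-- the `k`-th letter -/
def letter [Inhabited S] (u : Word S) (k : ℕ) : S := List.getD u k default

end Word

variable {S : Type*}

/-- the first `n` letters as a word -/
def pre (n : ℕ) (s : ℕ → S) : Word S := (List.range n).map s

@[simp] lemma len_pre (n : ℕ) (s : ℕ → S) : (pre n s).len = n := by
  simp [pre, Word.len]

lemma letter_pre [Inhabited S] {n k : ℕ} (hk : k < n) (s : ℕ → S) : (pre n s).letter k = s k := by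
  have h1 : k < ((List.range n).map s).length := by simpa using hk
  unfold pre Word.letter
  rw [List.getD_eq_getElem _ _ h1]
  simp

lemma ht_pre (h : S → ℝ) (n : ℕ) (s : ℕ → S) : (pre n s).ht h = hgt h s n := by
  unfold pre Word.ht hgt
  rw [List.map_map, ← List.sum_toFinset _ (List.nodup_range)]
  congr 1
  ext x; simp

lemma pre_congr {n : ℕ} {s s' : ℕ → S} (H : ∀ i < n, s i = s' i) : pre n s = pre n s' := by
  unfold pre
  exact List.map_congr_left fun i hi => H i (List.mem_range.1 hi)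

lemma det_pre (n : ℕ) (T : Set (Word S)) : Det n {s | pre n s ∈ T} := by
  intro s s' H
  simp only [mem_setOf_eq]
  rw [pre_congr H]

/-- first regeneration time `≥ 1` -/
noncomputable def tau (h : S → ℝ) (s : ℕ → S) : ℕ := sInf {n | 1 ≤ n ∧ Reg h s n}

/-- first block -/
noncomputable def blk0 (h : S → ℝ) (s : ℕ → S) : Word S := pre (tau h s) s

/-- the path after the first block -/
noncomputable def rest (h : S → ℝ) (s : ℕ → S) : ℕ → S := shift (tau h s) s

/-- all blocks -/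
noncomputable def blks (h : S → ℝ) (s : ℕ → S) (k : ℕ) : Word S := blk0 h ((rest h)^[k] s)

lemma blks_zero (h : S → ℝ) (s : ℕ → S) : blks h s 0 = blk0 h s := rfl

lemma blks_succ (h : S → ℝ) (s : ℕ → S) (k : ℕ) : blks h s (k + 1) = blks h (rest h s) k := rfl

/-- paths which stay above the start and have infinitely many regeneration times -/
def RegInf (h : S → ℝ) : Set (ℕ → S) := {s | s ∈ Stay h ∧ ∀ j, ∃ n, j ≤ n ∧ Reg h s n}

lemma tau_spec {h : S → ℝ} {s : ℕ → S} (hs : s ∈ RegInf h) :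
    1 ≤ tau h s ∧ Reg h s (tau h s) := by
  obtain ⟨n, hn⟩ := hs.2 1
  exact Nat.sInf_mem (s := {n | 1 ≤ n ∧ Reg h s n}) ⟨n, hn⟩

lemma tau_min {h : S → ℝ} {s : ℕ → S} {m : ℕ} (h1 : 1 ≤ m) (hm : m < tau h s) : ¬ Reg h s m :=
  fun hr => Nat.notMem_of_lt_sInf hm ⟨h1, hr⟩

lemma good_tau {h : S → ℝ} {s : ℕ → S} (hs : s ∈ RegInf h) :
    s ∈ Good h (tau h s) ∧ shift (tau h s) s ∈ Stay h :=
  good_iff.2 ⟨hs.1, (tau_spec hs).1, (tau_spec hs).2, fun _ h1 h2 => tau_min h1 h2⟩

lemma tau_eq {h : S → ℝ} {s : ℕ → S} {n : ℕ} (hs : s ∈ Good h n ∧ shift n s ∈ Stay h) :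
    tau h s = n := by
  have h1 := good_iff.1 hs
  refine le_antisymm (Nat.sInf_le ⟨h1.2.1, h1.2.2.1⟩) ?_
  have h2 : tau h s ∈ {n | 1 ≤ n ∧ Reg h s n} :=
    Nat.sInf_mem (s := {n | 1 ≤ n ∧ Reg h s n}) ⟨n, h1.2.1, h1.2.2.1⟩
  by_contra hcon
  exact h1.2.2.2 _ h2.1 (not_le.1 hcon) h2.2

lemma rest_mem {h : S → ℝ} {s : ℕ → S} (hs : s ∈ RegInf h) : rest h s ∈ RegInf h := by
  refine ⟨(tau_spec hs).2.2, fun j => ?_⟩
  obtain ⟨n, hn, hr⟩ := hs.2 (tau h s + j)
  exact ⟨n - tau h s, by omega, reg_shift (by omega) hr⟩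

/-- letter `k` of the concatenation, with fuel `f` -/
def catF [Inhabited S] : ℕ → ℕ → (ℕ → Word S) → S
  | 0, _, _ => default
  | f + 1, k, w => if k < (w 0).len then (w 0).letter k
      else catF f (k - (w 0).len) (fun i => w (i + 1))

/-- concatenation of a sequence of (nonempty) words -/
def cat [Inhabited S] (w : ℕ → Word S) : ℕ → S := fun k => catF (k + 1) k w

lemma catF_blks [Inhabited S] {h : S → ℝ} : ∀ (f k : ℕ) (s : ℕ → S), k < f → s ∈ RegInf h →
    catF f k (blks h s) = s k := by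
  intro f
  induction f with
  | zero => intro k s hk; exact absurd hk (Nat.not_lt_zero _)
  | succ f ih =>
    intro k s hk hs
    have h1 := tau_spec hs
    have hl : (blks h s 0).len = tau h s := by rw [blks_zero, blk0, len_pre]
    simp only [catF]
    split_ifs with hlt
    · rw [hl] at hlt
      rw [blks_zero, blk0, letter_pre hlt]
    · rw [hl] at hlt ⊢
      have : (fun i => blks h s (i + 1)) = blks h (rest h s) := rfl
      rw [this, ih _ _ (by omega) (rest_mem hs)]
      simp only [rest, shift]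
      congr 1
      omega

lemma cat_blks [Inhabited S] {h : S → ℝ} {s : ℕ → S} (hs : s ∈ RegInf h) :
    cat (blks h s) = s := by
  funext k
  exact catF_blks (k + 1) k s (Nat.lt_succ_self k) hs

/-- fuel does not matter for nonempty words -/
lemma catF_fuel [Inhabited S] : ∀ (f g k : ℕ) (w : ℕ → Word S), (∀ i, 1 ≤ (w i).len) → k < f →
    k < g → catF f k w = catF g k w := by
  intro f
  induction f with
  | zero => intro g k w _ hk; exact absurd hk (Nat.not_lt_zero _)
  | succ f ih =>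
    intro g k w hw hk hg
    obtain ⟨g, rfl⟩ := Nat.exists_eq_succ_of_ne_zero (Nat.ne_zero_of_lt hg)
    simp only [catF]
    split_ifs with hlt
    · rfl
    · have := hw 0
      exact ih g _ _ (fun i => hw (i + 1)) (by omega) (by omega)

lemma cat_lt [Inhabited S] {w : ℕ → Word S} {k : ℕ} (hk : k < (w 0).len) :
    cat w k = (w 0).letter k := by
  simp only [cat, catF, if_pos hk]

lemma cat_add [Inhabited S] {w : ℕ → Word S} (hw : ∀ i, 1 ≤ (w i).len) (k : ℕ) :
    cat w ((w 0).len + k) = cat (fun i => w (i + 1)) k := by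
  have h0 := hw 0
  have h1 : ¬ ((w 0).len + k < (w 0).len) := by omega
  simp only [cat]
  rw [catF, if_neg h1, Nat.add_sub_cancel_left]
  exact catF_fuel _ _ _ _ (fun i => hw (i + 1)) (by omega) (by omega)

lemma shift_cat [Inhabited S] {w : ℕ → Word S} (hw : ∀ i, 1 ≤ (w i).len) :
    shift (w 0).len (cat w) = cat (fun i => w (i + 1)) := by
  funext k
  exact cat_add hw k

section measurable

variable [Countable S] [MeasurableSpace S] [MeasurableSingletonClass S]

lemma measurable_pre (n : ℕ) : Measurable (pre n : (ℕ → S) → Word S) := by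
  refine measurable_to_countable' fun u => ?_
  exact (det_pre n {u}).measurableSet

lemma measurable_tau (h : S → ℝ) : Measurable (tau h) := by
  classical
  have hle : ∀ n, 1 ≤ n → MeasurableSet {s : ℕ → S | 1 ≤ tau h s ∧ tau h s ≤ n} := by
    intro n hn
    have : {s : ℕ → S | 1 ≤ tau h s ∧ tau h s ≤ n} = ⋃ m ∈ Finset.Icc 1 n, {s | Reg h s m} := by
      ext s
      simp only [mem_setOf_eq, mem_iUnion, Finset.mem_Icc, exists_prop]
      constructor
      · rintro ⟨h1, h2⟩
        have h3 : tau h s ∈ {n | 1 ≤ n ∧ Reg h s n} :=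
          Nat.sInf_mem (Nat.nonempty_of_pos_sInf h1)
        exact ⟨tau h s, ⟨h1, h2⟩, h3.2⟩
      · rintro ⟨m, ⟨h1, h2⟩, h3⟩
        have h4 : tau h s ∈ {n | 1 ≤ n ∧ Reg h s n} := Nat.sInf_mem ⟨m, h1, h3⟩
        exact ⟨h4.1, (Nat.sInf_le (s := {n | 1 ≤ n ∧ Reg h s n}) ⟨h1, h3⟩).trans h2⟩
    rw [this]
    exact MeasurableSet.biUnion (Finset.countable_toSet _) fun m _ => measurableSet_Reg h m
  have hpos : MeasurableSet {s : ℕ → S | 1 ≤ tau h s} := by
    have : {s : ℕ → S | 1 ≤ tau h s} = ⋃ n : ℕ, {s | 1 ≤ tau h s ∧ tau h s ≤ n + 1} := by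
      ext s
      simp only [mem_setOf_eq, mem_iUnion]
      exact ⟨fun H => ⟨tau h s, H, Nat.le_succ _⟩, fun ⟨_, H, _⟩ => H⟩
    rw [this]
    exact MeasurableSet.iUnion fun n => hle (n + 1) (Nat.succ_le_succ (Nat.zero_le _))
  refine measurable_to_countable' fun n => ?_
  rcases Nat.eq_zero_or_pos n with rfl | hn
  · have : tau h ⁻¹' {0} = {s : ℕ → S | 1 ≤ tau h s}ᶜ := by
      ext s
      simp only [mem_preimage, mem_singleton_iff, mem_compl_iff, mem_setOf_eq]
      omega
    rw [this]; exact hpos.compl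
  · have : tau h ⁻¹' {n} = {s : ℕ → S | 1 ≤ tau h s ∧ tau h s ≤ n} \
        {s : ℕ → S | 2 ≤ n ∧ 1 ≤ tau h s ∧ tau h s ≤ n - 1} := by
      ext s
      simp only [mem_preimage, mem_singleton_iff, mem_diff, mem_setOf_eq]
      omega
    rw [this]
    refine (hle n hn).diff ?_
    by_cases h2 : 2 ≤ n
    · have := hle (n - 1) (by omega)
      simpa [h2] using this
    · simp [h2]

lemma measurable_rest (h : S → ℝ) : Measurable (rest h) := by
  have h1 : Measurable fun p : ℕ × (ℕ → S) => shift p.1 p.2 :=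
    measurable_from_prod_countable_right fun n => measurable_shift n
  exact h1.comp ((measurable_tau h).prodMk measurable_id)

lemma measurable_blk0 (h : S → ℝ) : Measurable (blk0 h) := by
  have h1 : Measurable fun p : ℕ × (ℕ → S) => pre p.1 p.2 :=
    measurable_from_prod_countable_right fun n => measurable_pre n
  exact h1.comp ((measurable_tau h).prodMk measurable_id)

lemma measurable_blks (h : S → ℝ) : Measurable (blks h) :=
  measurable_pi_lambda _ fun k => (measurable_blk0 h).comp ((measurable_rest h).iterate k)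



/-- law of one regeneration block -/
noncomputable def wordLaw (h : S → ℝ) (P : Measure (ℕ → S)) : Measure (Word S) :=
  Measure.sum fun n => (P.restrict (Good h n)).map (pre n)

lemma wordLaw_apply (h : S → ℝ) (P : Measure (ℕ → S)) (T : Set (Word S)) :
    wordLaw h P T = ∑' n, P (Good h n ∩ {s | pre n s ∈ T}) := by
  unfold wordLaw
  rw [Measure.sum_apply _ (MeasurableSet.of_discrete)]
  congr 1
  funext n
  rw [Measure.map_apply (measurable_pre n) MeasurableSet.of_discrete,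
    Measure.restrict_apply (measurable_pre n MeasurableSet.of_discrete), inter_comm]
  rfl

theorem Renewal.isProb {h : S → ℝ} {P : Measure (ℕ → S)} [IsProbabilityMeasure P]
    (R : Renewal h P) (hp : P (Stay h) ≠ 0)
    (hT : ∀ᵐ s ∂P, s ∈ Stay h → ∀ M : ℝ, ∃ n, M ≤ hgt h s n) :
    IsProbabilityMeasure (wordLaw h P) := by
  refine ⟨?_⟩
  rw [wordLaw_apply]
  simp only [mem_univ, setOf_true, inter_univ]
  exact R.tsum_good hp hT

theorem Renewal.ae_regInf {h : S → ℝ} {P : Measure (ℕ → S)} [IsProbabilityMeasure P]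
    (R : Renewal h P) (hp : P (Stay h) ≠ 0)
    (hT : ∀ᵐ s ∂P, s ∈ Stay h → ∀ M : ℝ, ∃ n, M ≤ hgt h s n) :
    ∀ᵐ s ∂P, s ∈ Stay h → s ∈ RegInf h := by
  filter_upwards [R.ae_tendsto hp, hT] with s h1 h2 h3
  exact ⟨h3, (h1 (h2 h3)).1⟩

/-- one step: first block and the rest -/
theorem Renewal.one_step {h : S → ℝ} {P : Measure (ℕ → S)} [IsProbabilityMeasure P]
    (R : Renewal h P) (hp : P (Stay h) ≠ 0)
    (hT : ∀ᵐ s ∂P, s ∈ Stay h → ∀ M : ℝ, ∃ n, M ≤ hgt h s n)
    (T : Set (Word S)) {B : Set (ℕ → S)} (hB : MeasurableSet B) :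
    P (Stay h ∩ {s | blk0 h s ∈ T ∧ rest h s ∈ B}) = wordLaw h P T * P (Stay h ∩ B) := by
  have h1 : P (Stay h ∩ {s | blk0 h s ∈ T ∧ rest h s ∈ B}) =
      P (⋃ n, ((Good h n ∩ {s | pre n s ∈ T}) ∩ shift n ⁻¹' (Stay h ∩ B))) := by
    refine measure_congr ?_
    filter_upwards [R.ae_regInf hp hT] with s hs
    refine propext ⟨fun H => ?_, fun H => ?_⟩
    · have hg := good_tau (hs H.1)
      exact mem_iUnion.2 ⟨tau h s, ⟨hg.1, H.2.1⟩, hg.2, H.2.2⟩
    · obtain ⟨n, ⟨hn1, hn2⟩, hn3, hn4⟩ := mem_iUnion.1 H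
      have he := tau_eq ⟨hn1, hn3⟩
      refine ⟨(good_iff.1 ⟨hn1, hn3⟩).1, ?_, ?_⟩
      · show pre (tau h s) s ∈ T
        rw [he]; exact hn2
      · show shift (tau h s) s ∈ B
        rw [he]; exact hn4
  rw [h1, measure_iUnion, wordLaw_apply, ← ENNReal.tsum_mul_right]
  · congr 1
    funext n
    exact R.block ((det_Good h n).inter (det_pre n T)) inter_subset_left
      ((measurableSet_Stay h).inter hB) inter_subset_left
  · intro n m hnm
    rw [Function.onFun, Set.disjoint_left]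
    rintro s ⟨⟨hs1, _⟩, hs2, _⟩ ⟨⟨hs1', _⟩, hs2', _⟩
    exact hnm (good_unique ⟨hs1, hs2⟩ ⟨hs1', hs2'⟩)
  · exact fun n => ((det_Good h n).inter (det_pre n T)).measurableSet.inter
      (measurable_shift n ((measurableSet_Stay h).inter hB))

/-- the first `n` blocks and the rest -/
theorem Renewal.n_step {h : S → ℝ} {P : Measure (ℕ → S)} [IsProbabilityMeasure P]
    (R : Renewal h P) (hp : P (Stay h) ≠ 0)
    (hT : ∀ᵐ s ∂P, s ∈ Stay h → ∀ M : ℝ, ∃ n, M ≤ hgt h s n) (n : ℕ) :
    ∀ (t : ℕ → Set (Word S)) (B : Set (ℕ → S)), MeasurableSet B →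
    P (Stay h ∩ {s | (∀ i < n, blks h s i ∈ t i) ∧ (rest h)^[n] s ∈ B}) =
      (∏ i ∈ Finset.range n, wordLaw h P (t i)) * P (Stay h ∩ B) := by
  induction n with
  | zero =>
    intro t B _
    simp
  | succ n ih =>
    intro t B hB
    have hB' : MeasurableSet {s : ℕ → S | (∀ i < n, blks h s i ∈ t (i + 1)) ∧ (rest h)^[n] s ∈ B} := by
      have e1 : MeasurableSet {s : ℕ → S | ∀ i < n, blks h s i ∈ t (i + 1)} := by
        have : {s : ℕ → S | ∀ i < n, blks h s i ∈ t (i + 1)} =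
            ⋂ i : ℕ, ⋂ _ : i < n, {s | blks h s i ∈ t (i + 1)} := by ext s; simp
        rw [this]
        exact MeasurableSet.iInter fun i => MeasurableSet.iInter fun _ =>
          ((measurable_pi_apply i).comp (measurable_blks h)) MeasurableSet.of_discrete
      exact e1.inter ((measurable_rest h).iterate n hB)
    have h1 : {s : ℕ → S | (∀ i < n + 1, blks h s i ∈ t i) ∧ (rest h)^[n + 1] s ∈ B} =
        {s | blk0 h s ∈ t 0 ∧ rest h s ∈
          {s : ℕ → S | (∀ i < n, blks h s i ∈ t (i + 1)) ∧ (rest h)^[n] s ∈ B}} := by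
      ext s
      simp only [mem_setOf_eq, Function.iterate_succ, Function.comp]
      constructor
      · rintro ⟨H1, H2⟩
        exact ⟨H1 0 (Nat.succ_pos _), fun i hi => H1 (i + 1) (Nat.succ_lt_succ hi), H2⟩
      · rintro ⟨H0, H1, H2⟩
        refine ⟨fun i hi => ?_, H2⟩
        rcases i with _ | i
        · exact H0
        · exact H1 i (Nat.lt_of_succ_lt_succ hi)
    rw [h1, R.one_step hp hT (t 0) hB', ih (fun i => t (i + 1)) B hB, Finset.prod_range_succ', ← mul_assoc,
      mul_comm (wordLaw h P (t 0))]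

/-- under `P( . | Stay)` the blocks are iid with law `wordLaw` -/
theorem Renewal.map_blks {h : S → ℝ} {P : Measure (ℕ → S)} [IsProbabilityMeasure P]
    (R : Renewal h P) (hp : P (Stay h) ≠ 0)
    (hT : ∀ᵐ s ∂P, s ∈ Stay h → ∀ M : ℝ, ∃ n, M ≤ hgt h s n) :
    (cond P (Stay h)).map (blks h) = Measure.infinitePi fun _ : ℕ => wordLaw h P := by
  classical
  have := R.isProb hp hT
  refine Measure.eq_infinitePi _ fun s t _ => ?_
  obtain ⟨N, hN⟩ : ∃ N, s ⊆ Finset.range N := ⟨s.sup id + 1, fun i hi =>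
    Finset.mem_range.2 (Nat.lt_succ_of_le (Finset.le_sup (f := id) hi))⟩
  set t' : ℕ → Set (Word S) := fun i => if i ∈ s then t i else univ with ht'
  have hset : blks h ⁻¹' (Set.pi s t) = {σ : ℕ → S | (∀ i < N, blks h σ i ∈ t' i) ∧ (rest h)^[N] σ ∈ (univ : Set (ℕ → S))} := by
    ext σ
    simp only [mem_preimage, Set.mem_pi, mem_setOf_eq, mem_univ, and_true, Finset.mem_coe, ht']
    constructor
    · intro H i _
      split_ifs with his
      · exact H i his
      · exact mem_univ _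
    · intro H i hi
      have := H i (Finset.mem_range.1 (hN hi))
      rwa [if_pos hi] at this
  have hms : MeasurableSet (Set.pi (s : Set ℕ) t) :=
    MeasurableSet.pi s.countable_toSet fun i _ => MeasurableSet.of_discrete
  rw [Measure.map_apply (measurable_blks h) hms, cond_apply (measurableSet_Stay h), hset,
    R.n_step hp hT N t' univ MeasurableSet.univ, inter_univ]
  have hprod : ∏ i ∈ Finset.range N, wordLaw h P (t' i) = ∏ i ∈ s, wordLaw h P (t i) := by
    rw [← Finset.prod_subset hN]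
    · refine Finset.prod_congr rfl fun i hi => ?_
      simp only [ht', if_pos hi]
    · intro i _ hi
      simp only [ht', if_neg hi]
      exact measure_univ
  rw [hprod, mul_comm, mul_assoc, ENNReal.mul_inv_cancel hp (measure_ne_top _ _), mul_one]


/-- mean height of a block -/
theorem Renewal.lintegral_ht_le_ae {h : S → ℝ} {P : Measure (ℕ → S)} [IsProbabilityMeasure P]
    (R : Renewal h P) (hp : P (Stay h) ≠ 0)
    (hT : ∀ᵐ s ∂P, s ∈ Stay h → ∀ M : ℝ, ∃ n, M ≤ hgt h s n)
    {c : ℝ} (hc : ∀ᵐ s ∂P, ∀ i, h (s i) ≤ c) (hc0 : 0 < c) :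
    ∫⁻ u, ENNReal.ofReal (Word.ht h u) ∂(wordLaw h P) ≤
      ENNReal.ofReal c * (1 + (P (Stay h))⁻¹) := by
  unfold wordLaw
  rw [lintegral_sum_measure]
  refine le_trans (le_of_eq ?_) (R.mean_le_ae hp hT hc hc0)
  congr 1
  funext n
  rw [lintegral_map (measurable_of_countable _) (measurable_pre n)]
  simp only [ht_pre]

theorem Renewal.lintegral_ht_le {h : S → ℝ} {P : Measure (ℕ → S)} [IsProbabilityMeasure P]
    (R : Renewal h P) (hp : P (Stay h) ≠ 0)
    (hT : ∀ᵐ s ∂P, s ∈ Stay h → ∀ M : ℝ, ∃ n, M ≤ hgt h s n)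
    {c : ℝ} (hc : ∀ a, h a ≤ c) (hc0 : 0 < c) :
    ∫⁻ u, ENNReal.ofReal (Word.ht h u) ∂(wordLaw h P) ≤
      ENNReal.ofReal c * (1 + (P (Stay h))⁻¹) :=
  R.lintegral_ht_le_ae hp hT (Eventually.of_forall fun s i => hc (s i)) hc0

/-- structure of a good word -/
def GoodWord (h : S → ℝ) (u : Word S) : Prop :=
  1 ≤ u.len ∧ 0 < Word.ht h u ∧ ∀ k < u.len, 0 ≤ Word.ht h (List.take k u) ∧
    Word.ht h (List.take k u) < Word.ht h u

lemma ae_goodWord (h : S → ℝ) (P : Measure (ℕ → S)) : ∀ᵐ u ∂(wordLaw h P), GoodWord h u := by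
  rw [ae_iff, wordLaw_apply, ENNReal.tsum_eq_zero]
  intro n
  have : Good h n ∩ {s | pre n s ∈ {a | ¬ GoodWord h a}} = ∅ := by
    rw [eq_empty_iff_forall_notMem]
    rintro s ⟨⟨h1, h2, h3, _⟩, hs⟩
    refine hs ⟨by rw [len_pre]; exact h1, ?_, fun k hk => ?_⟩
    · rw [ht_pre]
      have := h2 0 h1
      rwa [hgt_zero] at this
    · rw [len_pre] at hk
      have hpre : (List.take k (pre n s) : List S) = pre k s := by
        unfold pre
        rw [← List.map_take, List.take_range, Nat.min_eq_left hk.le]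
      rw [hpre]
      have e1 := ht_pre h k s
      have e2 := ht_pre h n s
      rw [e1, e2]
      exact ⟨h3 k hk.le, h2 k hk⟩
  rw [this, measure_empty]

end measurable

end Crest.Agent.R154.Ren263
private theorem rz_f20186ba3f : type_of% @_root_.Crest.Agent.R154.Ren263.catF.eq_def := @_root_.Crest.Agent.R154.Ren263.catF.eq_def -- L115
private theorem rz_ce88b8ff11 : type_of% @_root_.Crest.Agent.R154.Ren263.catF.eq_1 := @_root_.Crest.Agent.R154.Ren263.catF.eq_1 -- L115
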