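import Mathlib
import Crest.Agent.R154.Ren_263
import Crest.Agent.R154.Ren3_263
import Crest.Agent.R154.B9Abs_409

-- ▼ part R154/B2e_419
section

/-! Row 154, B2e (helper419): a shift-invariant property which holds almost surely on `Stay` holds
almost surely on the event that the height is unbounded above. -/

set_option autoImplicit false

namespace Crest.Agent.R154.B2e

open MeasureTheory Filter Set Crest.Agent.R154.Ren263
open scoped ENNReal Topology

variable {S : Type*} [Countable S] [MeasurableSpace S] [MeasurableSingletonClass S]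

/-- **transfer.** `p` is inherited from any shift of the sequence and holds a.s. on `Stay`; then it
holds a.s. whenever the height is unbounded above. -/
theorem transfer {h : S → ℝ} {P : Measure (ℕ → S)} [IsProbabilityMeasure P]
    (R : Renewal h P) (hp : P (Stay h) ≠ 0) {p : (ℕ → S) → Prop}
    (hshift : ∀ n s, p (shift n s) → p s) (hae : ∀ᵐ s ∂P, s ∈ Stay h → p s) :
    ∀ᵐ s ∂P, (∀ M : ℝ, ∃ n, M ≤ hgt h s n) → p s := by
  set Bad : Set (ℕ → S) := {s | ¬ (s ∈ Stay h → p s)} with hBad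
  have hBad0 : P Bad = 0 := hae
  set N : Set (ℕ → S) := toMeasurable P Bad ∩ Stay h with hN
  have hNm : MeasurableSet N := (measurableSet_toMeasurable _ _).inter (measurableSet_Stay h)
  have hN0 : P N = 0 := measure_mono_null inter_subset_left (by rw [measure_toMeasurable]; exact hBad0)
  have hNS : N ⊆ Stay h := inter_subset_right
  have h1 : ∀ n, P ({s | Record h s n} ∩ shift n ⁻¹' N) = 0 := by
    intro n
    rw [R.ren n _ N (det_Record h n) (fun s hs => hs) hNm hNS, hN0, mul_zero]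
  have h2 : ∀ᵐ s ∂P, ∀ n, ¬ (Record h s n ∧ shift n s ∈ N) := by
    rw [ae_all_iff]
    intro n
    exact measure_eq_zero_iff_ae_notMem.1 (h1 n)
  filter_upwards [h2, R.ae_tendsto hp] with s hs1 hs2 hM
  obtain ⟨n, -, hn⟩ := (hs2 hM).1 0
  refine hshift n s ?_
  by_contra hcon
  refine hs1 n ⟨hn.1, ?_, hn.2⟩
  exact subset_toMeasurable _ _ (fun hh => hcon (hh hn.2))

end Crest.Agent.R154.B2e
end

-- ▼ part R154/B9LLN_409
section

/-! R154 B9 (S7, deterministic part): law of large numbers for a nearest neighbour path from the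
law of large numbers along an increasing sequence of times. -/

set_option autoImplicit false

open Filter Topology

namespace Crest.Agent.R154.B9409

theorem abs_sub_le_of_step {y : ℕ → ℤ} (hy : ∀ n, |y (n + 1) - y n| ≤ 1) {m n : ℕ} (h : m ≤ n) :
    |y n - y m| ≤ (n : ℤ) - m := by
  induction n, h using Nat.le_induction with
  | base => simp
  | succ n hmn ih =>
    have h1 : y (n + 1) - y m = (y (n + 1) - y n) + (y n - y m) := by ring
    rw [h1]
    have := abs_add_le (y (n + 1) - y n) (y n - y m)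
    have := hy n
    push_cast
    linarith

/-- interpolation: `y (τ k) / k → w`, `τ k / k → a > 0`, unit steps imply `y n / n → w / a` -/
theorem tendsto_div_of_times {y : ℕ → ℤ} (hy : ∀ n, |y (n + 1) - y n| ≤ 1)
    {τ : ℕ → ℕ} (hτ : StrictMono τ) {a w : ℝ} (ha : 0 < a)
    (h1 : Tendsto (fun k : ℕ => (τ k : ℝ) / k) atTop (𝓝 a))
    (h2 : Tendsto (fun k : ℕ => (y (τ k) : ℝ) / k) atTop (𝓝 w)) :
    Tendsto (fun n : ℕ => (y n : ℝ) / n) atTop (𝓝 (w / a)) := by
  classical
  set K : ℕ → ℕ := fun n => Nat.findGreatest (fun k => τ k ≤ n) n with hK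
  have hle : ∀ k, k ≤ τ k := fun k => hτ.le_apply
  have hKinf : Tendsto K atTop atTop := by
    refine tendsto_atTop.2 fun b => ?_
    filter_upwards [eventually_ge_atTop (τ b)] with n hn
    exact Nat.le_findGreatest ((hle b).trans hn) hn
  have hlow : ∀ᶠ n in atTop, τ (K n) ≤ n := by
    filter_upwards [eventually_ge_atTop (τ 0)] with n hn
    exact Nat.findGreatest_spec (P := fun k => τ k ≤ n) (Nat.zero_le n) hn
  have hup : ∀ᶠ n in atTop, n < τ (K n + 1) := by
    refine Eventually.of_forall fun n => ?_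
    by_contra hcon
    push Not at hcon
    have h3 : K n + 1 ≤ n := (hle _).trans hcon
    have h4 : K n + 1 ≤ K n := Nat.le_findGreatest (P := fun k => τ k ≤ n) h3 hcon
    exact absurd h4 (by simp)
  have hKpos : ∀ᶠ n in atTop, 1 ≤ K n := hKinf.eventually_ge_atTop 1
  -- τ (k+1) / k → a
  have h1' : Tendsto (fun k : ℕ => (τ (k + 1) : ℝ) / k) atTop (𝓝 a) := by
    have hs : Tendsto (fun k : ℕ => (τ (k + 1) : ℝ) / ((k + 1 : ℕ) : ℝ)) atTop (𝓝 a) :=
      h1.comp (tendsto_add_atTop_nat 1)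
    have hr : Tendsto (fun k : ℕ => ((k + 1 : ℕ) : ℝ) / k) atTop (𝓝 1) := by
      have : Tendsto (fun k : ℕ => 1 + 1 / (k : ℝ)) atTop (𝓝 (1 + 0)) :=
        tendsto_const_nhds.add tendsto_one_div_atTop_nhds_zero_nat
      rw [add_zero] at this
      refine this.congr' ?_
      filter_upwards [eventually_ge_atTop 1] with k hk
      have hk' : (k : ℝ) ≠ 0 := by
        have : (1 : ℝ) ≤ k := by exact_mod_cast hk
        linarith
      push_cast
      field_simp
    have hm := hs.mul hr
    rw [mul_one] at hm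
    refine hm.congr' ?_
    filter_upwards [eventually_ge_atTop 1] with k hk
    have hk' : (k : ℝ) ≠ 0 := by
      have : (1 : ℝ) ≤ k := by exact_mod_cast hk
      linarith
    have hk2 : ((k + 1 : ℕ) : ℝ) ≠ 0 := by positivity
    field_simp
  have hgap : Tendsto (fun k : ℕ => ((τ (k + 1) : ℝ) - τ k) / k) atTop (𝓝 0) := by
    have := h1'.sub h1
    rw [sub_self] at this
    refine this.congr fun k => ?_
    rw [sub_div]
  -- n / K n → a
  have hn : Tendsto (fun n : ℕ => (n : ℝ) / K n) atTop (𝓝 a) := by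
    refine tendsto_of_tendsto_of_tendsto_of_le_of_le' (h1.comp hKinf) (h1'.comp hKinf) ?_ ?_
    · filter_upwards [hlow] with n hn
      exact div_le_div_of_nonneg_right (by exact_mod_cast hn) (by positivity)
    · filter_upwards [hup] with n hn
      exact div_le_div_of_nonneg_right (by exact_mod_cast hn.le) (by positivity)
  have hdiff : Tendsto (fun n : ℕ => ((y n : ℝ) - y (τ (K n))) / K n) atTop (𝓝 0) := by
    refine squeeze_zero_norm' ?_ (hgap.comp hKinf)
    filter_upwards [hlow, hup] with n hl hu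
    rw [Real.norm_eq_abs, abs_div, Nat.abs_cast]
    refine div_le_div_of_nonneg_right ?_ (by positivity)
    have h3 := abs_sub_le_of_step hy hl
    have h4 : |((y n : ℝ) - y (τ (K n)))| ≤ (n : ℝ) - τ (K n) := by exact_mod_cast h3
    refine h4.trans ?_
    have : (n : ℝ) ≤ τ (K n + 1) := by exact_mod_cast hu.le
    simpa using this
  have hyK : Tendsto (fun n : ℕ => (y n : ℝ) / K n) atTop (𝓝 w) := by
    have := (h2.comp hKinf).add hdiff
    rw [add_zero] at this
    refine this.congr fun n => ?_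
    simp only [Function.comp_apply]
    rw [← add_div]; congr 1; ring
  have hfin := hyK.div hn ha.ne'
  refine hfin.congr' ?_
  filter_upwards [hKpos, eventually_ge_atTop 1] with n hk hn1
  have hk' : (K n : ℝ) ≠ 0 := by
    have : (1 : ℝ) ≤ K n := by exact_mod_cast hk
    linarith
  have hn' : (n : ℝ) ≠ 0 := by
    have : (1 : ℝ) ≤ n := by exact_mod_cast hn1
    linarith
  simp only [Pi.div_apply]
  field_simp

end Crest.Agent.R154.B9409
end

-- ▼ part R154/B9SLLN_409

/-! R154 B9 (S7): law of large numbers from iid regeneration blocks (helper409). -/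

set_option autoImplicit false
set_option linter.unusedSectionVars false

open MeasureTheory Filter Set ProbabilityTheory
open scoped ENNReal Topology

namespace Crest.Agent.R154.B9409

open Crest.Agent.R154.Ren263

variable {S : Type*}

/-- the time of the `k`-th regeneration -/
noncomputable def TT (h : S → ℝ) (s : ℕ → S) (k : ℕ) : ℕ :=
  ∑ i ∈ Finset.range k, (blks h s i).len

lemma blks_eq (h : S → ℝ) (s : ℕ → S) (k : ℕ) : blks h s k = blk0 h ((rest h)^[k] s) := rfl

lemma rest_iter_mem {h : S → ℝ} {s : ℕ → S} (hs : s ∈ RegInf h) (k : ℕ) :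
    (rest h)^[k] s ∈ RegInf h := by
  induction k with
  | zero => exact hs
  | succ k ih => rw [Function.iterate_succ_apply']; exact rest_mem ih

lemma rest_iter {h : S → ℝ} (s : ℕ → S) (k : ℕ) :
    (rest h)^[k] s = shift (TT h s k) s := by
  induction k with
  | zero => simp [TT]
  | succ k ih =>
    rw [Function.iterate_succ_apply', rest, TT, Finset.sum_range_succ, ← TT, blks_eq, blk0, len_pre]
    conv_lhs => rw [ih]
    rw [shift_shift, ih]

lemma TT_strictMono {h : S → ℝ} {s : ℕ → S} (hs : s ∈ RegInf h) : StrictMono (TT h s) := by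
  refine strictMono_nat_of_lt_succ fun k => ?_
  rw [TT, TT, Finset.sum_range_succ, blks_eq, blk0, len_pre]
  have := (tau_spec (rest_iter_mem hs k)).1
  omega

lemma H_TT {h : S → ℝ} (g : S → ℤ) (s : ℕ → S) (k : ℕ) :
    (H g s (TT h s k) : ℝ) = ∑ i ∈ Finset.range k, Word.ht (hr g) (blks h s i) := by
  induction k with
  | zero => simp [TT]
  | succ k ih =>
    rw [Finset.sum_range_succ, ← ih, blks_eq, blk0, ht_pre, hgt_eq, rest_iter, H_shift]
    rw [TT, Finset.sum_range_succ, ← TT, blks_eq, blk0, len_pre, rest_iter]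
    push_cast
    ring

section meas

variable [Countable S] [MeasurableSpace S] [MeasurableSingletonClass S]

/-- SLLN for functions of the blocks -/
lemma slln_blocks {h : S → ℝ} {P : Measure (ℕ → S)} [IsProbabilityMeasure P]
    (R : Renewal h P) (hp : P (Stay h) ≠ 0)
    (hT : ∀ᵐ s ∂P, s ∈ Stay h → ∀ M : ℝ, ∃ n, M ≤ hgt h s n) {f : Word S → ℝ}
    (hf : Integrable f (wordLaw h P)) :
    ∀ᵐ s ∂P, s ∈ Stay h → Tendsto (fun k : ℕ => (∑ i ∈ Finset.range k, f (blks h s i)) / k) atTop
      (𝓝 (∫ u, f u ∂(wordLaw h P))) := by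
  have hprob := R.isProb hp hT
  set μ : Measure (ℕ → Word S) := Measure.infinitePi fun _ : ℕ => wordLaw h P with hμ
  have hmp : ∀ k : ℕ, MeasurePreserving (fun w : ℕ → Word S => w k) μ (wordLaw h P) :=
    fun k => measurePreserving_eval_infinitePi (fun _ : ℕ => wordLaw h P) k
  have hfm : Measurable f := measurable_from_top
  have hlaw : ∀ᵐ w ∂μ, Tendsto (fun k : ℕ => (∑ i ∈ Finset.range k, f (w i)) / k) atTop
      (𝓝 (∫ u, f u ∂(wordLaw h P))) := by
    have hint : Integrable (fun w : ℕ → Word S => f (w 0)) μ := (hmp 0).integrable_comp_of_integrable hf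
    have hindep : Pairwise (Function.onFun (fun X Y => IndepFun X Y μ)
        fun (k : ℕ) (w : ℕ → Word S) => f (w k)) := by
      have h1 : iIndepFun (fun (k : ℕ) (w : ℕ → Word S) => f (w k)) μ :=
        iIndepFun_infinitePi (X := fun _ => f) (fun _ => hfm)
      exact fun i j hij => h1.indepFun hij
    have hid : ∀ k : ℕ, IdentDistrib (fun w : ℕ → Word S => f (w k)) (fun w => f (w 0)) μ μ := by
      intro k
      refine ⟨(hfm.comp (measurable_pi_apply k)).aemeasurable,
        (hfm.comp (measurable_pi_apply 0)).aemeasurable, ?_⟩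
      rw [← Function.comp_def f, ← Function.comp_def f, ← Measure.map_map hfm (measurable_pi_apply k),
        ← Measure.map_map hfm (measurable_pi_apply 0), (hmp k).map_eq, (hmp 0).map_eq]
    have h2 := strong_law_ae_real (fun (k : ℕ) (w : ℕ → Word S) => f (w k)) hint hindep hid
    have h3 : ∫ w, f (w 0) ∂μ = ∫ u, f u ∂(wordLaw h P) := by
      rw [← (hmp 0).map_eq, integral_map (measurable_pi_apply 0).aemeasurable]
      exact hfm.aestronglyMeasurable
    rw [h3] at h2
    exact h2
  rw [hμ, ← R.map_blks hp hT] at hlaw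
  have h4 := ae_of_ae_map (measurable_blks h).aemeasurable hlaw
  unfold ProbabilityTheory.cond at h4
  have hc : (P (Stay h))⁻¹ ≠ 0 := ENNReal.inv_ne_zero.2 (measure_ne_top _ _)
  rw [Measure.ae_ennreal_smul_measure_iff hc] at h4
  rwa [ae_restrict_iff' (measurableSet_Stay h)] at h4

lemma integrable_len {h : S → ℝ} {P : Measure (ℕ → S)}
    (hmean : ∑' n : ℕ, (n : ℝ≥0∞) * P (Good h n) ≠ ⊤) :
    Integrable (fun u : Word S => (u.len : ℝ)) (wordLaw h P) := by
  refine ⟨measurable_from_top.aestronglyMeasurable, ?_⟩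
  rw [hasFiniteIntegral_iff_ofReal (Eventually.of_forall fun u => Nat.cast_nonneg _)]
  unfold wordLaw
  rw [lintegral_sum_measure]
  have : ∀ n : ℕ, ∫⁻ u, ENNReal.ofReal ((u.len : ℕ) : ℝ) ∂((P.restrict (Good h n)).map (pre n))
      = (n : ℝ≥0∞) * P (Good h n) := by
    intro n
    rw [lintegral_map measurable_from_top (measurable_pre n)]
    simp only [len_pre, ENNReal.ofReal_natCast, lintegral_const, Measure.restrict_apply_univ]
  simp only [this]
  exact lt_top_iff_ne_top.2 hmean

lemma ae_ht_le {h : S → ℝ} {P : Measure (ℕ → S)} {g : S → ℤ}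
    (hg : ∀ᵐ s ∂P, ∀ n, |g (s n)| ≤ 1) :
    ∀ᵐ u ∂(wordLaw h P), |Word.ht (hr g) u| ≤ (u.len : ℝ) := by
  rw [ae_iff, wordLaw_apply, ENNReal.tsum_eq_zero]
  intro n
  refine measure_mono_null ?_ hg
  rintro s ⟨_, h2⟩ h3
  refine h2 ?_
  show |Word.ht (hr g) (pre n s)| ≤ ((pre n s).len : ℝ)
  rw [ht_pre, len_pre, hgt_eq]
  have h4 : ∀ n, |H g s n| ≤ (n : ℤ) := by
    intro n
    induction n with
    | zero => simp
    | succ n ih =>
      rw [H_succ]
      have h5 := abs_add_le (H g s n) (g (s n))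
      have h6 := h3 n
      push_cast
      linarith
  have h5 := h4 n
  exact_mod_cast h5

lemma integrable_ht {h : S → ℝ} {P : Measure (ℕ → S)} {g : S → ℤ}
    (hmean : ∑' n : ℕ, (n : ℝ≥0∞) * P (Good h n) ≠ ⊤)
    (hg : ∀ᵐ s ∂P, ∀ n, |g (s n)| ≤ 1) :
    Integrable (Word.ht (hr g)) (wordLaw h P) := by
  refine (integrable_len hmean).mono' measurable_from_top.aestronglyMeasurable ?_
  filter_upwards [ae_ht_le (h := h) hg] with u hu
  exact hu

/-- mean length of a block -/
noncomputable def mlen (h : S → ℝ) (P : Measure (ℕ → S)) : ℝ :=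
  ∫ u, (u.len : ℝ) ∂(wordLaw h P)

/-- mean displacement of a block -/
noncomputable def mdis (h : S → ℝ) (P : Measure (ℕ → S)) (g : S → ℤ) : ℝ :=
  ∫ u, Word.ht (hr g) u ∂(wordLaw h P)

lemma mlen_pos {h : S → ℝ} {P : Measure (ℕ → S)} [IsProbabilityMeasure P]
    (R : Renewal h P) (hp : P (Stay h) ≠ 0)
    (hT : ∀ᵐ s ∂P, s ∈ Stay h → ∀ M : ℝ, ∃ n, M ≤ hgt h s n)
    (hmean : ∑' n : ℕ, (n : ℝ≥0∞) * P (Good h n) ≠ ⊤) : 1 ≤ mlen h P := by
  have hprob := R.isProb hp hT
  have h1 : ∫ _u, (1 : ℝ) ∂(wordLaw h P) ≤ mlen h P := by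
    refine integral_mono_ae (integrable_const 1) (integrable_len hmean) ?_
    filter_upwards [ae_goodWord h P] with u hu
    exact_mod_cast hu.1
  simpa using h1

lemma mdis_pos {hz : S → ℤ} {P : Measure (ℕ → S)} [IsProbabilityMeasure P]
    (R : Renewal (hr hz) P) (hp : P (Stay (hr hz)) ≠ 0)
    (hT : ∀ᵐ s ∂P, s ∈ Stay (hr hz) → ∀ M : ℝ, ∃ n, M ≤ hgt (hr hz) s n)
    (hmean : ∑' n : ℕ, (n : ℝ≥0∞) * P (Good (hr hz) n) ≠ ⊤)
    (hg : ∀ᵐ s ∂P, ∀ n, |hz (s n)| ≤ 1) : 0 < mdis (hr hz) P hz := by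
  have hprob := R.isProb hp hT
  unfold mdis
  rw [integral_pos_iff_support_of_nonneg_ae]
  · have h1 : (wordLaw (hr hz) P) (Function.support (Word.ht (hr hz))) = 1 := by
      rw [← mem_ae_iff_prob_eq_one MeasurableSet.of_discrete]
      change ∀ᵐ u ∂(wordLaw (hr hz) P), u ∈ Function.support (Word.ht (hr hz))
      filter_upwards [ae_goodWord (hr hz) P] with u hu
      exact hu.2.1.ne'
    rw [h1]; exact one_pos
  · filter_upwards [ae_goodWord (hr hz) P] with u hu
    exact hu.2.1.le
  · exact integrable_ht hmean hg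

/-- the law of large numbers on `Stay` -/
theorem lln_stay {h : S → ℝ} {P : Measure (ℕ → S)} [IsProbabilityMeasure P]
    (R : Renewal h P) (hp : P (Stay h) ≠ 0)
    (hT : ∀ᵐ s ∂P, s ∈ Stay h → ∀ M : ℝ, ∃ n, M ≤ hgt h s n)
    (hmean : ∑' n : ℕ, (n : ℝ≥0∞) * P (Good h n) ≠ ⊤) {g : S → ℤ}
    (hg : ∀ᵐ s ∂P, ∀ n, |g (s n)| ≤ 1) :
    ∀ᵐ s ∂P, s ∈ Stay h →
      Tendsto (fun n : ℕ => (H g s n : ℝ) / n) atTop (𝓝 (mdis h P g / mlen h P)) := by
  have h1 := slln_blocks R hp hT (integrable_len hmean)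
  have h2 := slln_blocks R hp hT (integrable_ht hmean hg)
  filter_upwards [h1, h2, R.ae_regInf hp hT, hg] with s h3 h4 h5 h6 hs
  have hm := mlen_pos R hp hT hmean
  refine tendsto_div_of_times (y := H g s) (fun n => ?_) (TT_strictMono (h5 hs))
    (lt_of_lt_of_le one_pos hm) ?_ ?_
  · rw [H_succ, add_sub_cancel_left]; exact h6 n
  · have := h3 hs
    refine this.congr fun k => ?_
    rw [TT]; push_cast; rfl
  · have := h4 hs
    refine this.congr fun k => ?_
    rw [H_TT]

/-- **S7**, letters -/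
theorem lln_letters {h : S → ℝ} {P : Measure (ℕ → S)} [IsProbabilityMeasure P]
    (R : Renewal h P) (hp : P (Stay h) ≠ 0)
    (hT : ∀ᵐ s ∂P, s ∈ Stay h → ∀ M : ℝ, ∃ n, M ≤ hgt h s n)
    (hmean : ∑' n : ℕ, (n : ℝ≥0∞) * P (Good h n) ≠ ⊤) {g : S → ℤ}
    (hg : ∀ᵐ s ∂P, ∀ n, |g (s n)| ≤ 1) :
    ∀ᵐ s ∂P, (∀ M : ℝ, ∃ n, M ≤ hgt h s n) →
      Tendsto (fun n : ℕ => (H g s n : ℝ) / n) atTop (𝓝 (mdis h P g / mlen h P)) := by
  refine B2e.transfer R hp (p := fun s =>
    Tendsto (fun n : ℕ => (H g s n : ℝ) / n) atTop (𝓝 (mdis h P g / mlen h P))) ?_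
    (lln_stay R hp hT hmean hg)
  intro m s hs
  have hs' : Tendsto (fun n : ℕ => ((H g s (m + n) : ℝ) - H g s m) / n) atTop
      (𝓝 (mdis h P g / mlen h P)) := by
    refine hs.congr fun n => ?_
    rw [H_shift]; push_cast; rfl
  have h0 : Tendsto (fun n : ℕ => (H g s m : ℝ) / n) atTop (𝓝 0) :=
    tendsto_const_div_atTop_nhds_zero_nat _
  have h1 : Tendsto (fun n : ℕ => (H g s (m + n) : ℝ) / n) atTop
      (𝓝 (mdis h P g / mlen h P)) := by
    have := hs'.add h0
    rw [add_zero] at this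
    refine this.congr fun n => ?_
    rw [← add_div, sub_add_cancel]
  have h2 : Tendsto (fun n : ℕ => (n : ℝ) / ((m + n : ℕ) : ℝ)) atTop (𝓝 1) := by
    have h3 : Tendsto (fun n : ℕ => (m : ℝ) / n) atTop (𝓝 0) :=
      tendsto_const_div_atTop_nhds_zero_nat _
    have h4 : Tendsto (fun n : ℕ => 1 / ((m : ℝ) / n + 1)) atTop (𝓝 (1 / (0 + 1))) :=
      tendsto_const_nhds.div (h3.add_const 1) (by norm_num)
    rw [zero_add, div_one] at h4
    refine h4.congr' ?_
    filter_upwards [eventually_ge_atTop 1] with n hn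
    have hn' : (n : ℝ) ≠ 0 := by
      have : (1 : ℝ) ≤ n := by exact_mod_cast hn
      linarith
    push_cast
    field_simp
  have h5 : Tendsto (fun n : ℕ => (H g s (m + n) : ℝ) / ((m + n : ℕ) : ℝ)) atTop
      (𝓝 (mdis h P g / mlen h P)) := by
    have := h1.mul h2
    rw [mul_one] at this
    refine this.congr' ?_
    filter_upwards [eventually_ge_atTop 1] with n hn
    have hn' : (n : ℝ) ≠ 0 := by
      have : (1 : ℝ) ≤ n := by exact_mod_cast hn
      linarith
    rw [div_mul_div_comm, mul_comm (n : ℝ), mul_div_mul_right _ _ hn']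
  refine (tendsto_add_atTop_iff_nat m).1 ?_
  refine h5.congr fun n => ?_
  rw [add_comm m n]

end meas

end Crest.Agent.R154.B9409
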