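import Crest.Agent.R154.MkC_561

/-! R154, marked walk, part 4: forced marks (coins), escape event, iid instance. -/

set_option autoImplicit false

open MeasureTheory ProbabilityTheory Filter
open scoped ENNReal Topology

namespace Crest.Agent.R154.Mk561

open Crest.ProbabilityR.RandomEnvironment Crest.Agent.R154.Q561 Crest.Agent.R154.Ren263

variable {d : ℕ}

/-! ### forced marks -/

theorem wgt_forced (κ : ℝ) (ω : Environment d) (x : Site d) {F : MPath d} {G : ℕ}
    (hF : ∀ i < G, (F i).2 = true) : wgt κ ω x F G = ENNReal.ofReal (kf d κ) ^ G := by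
  have h : ∀ i ∈ Finset.range G, mw κ (ω (pos x F i)) (F i) = ENNReal.ofReal (kf d κ) := by
    intro i hi
    have h1 := hF i (Finset.mem_range.1 hi)
    have h2 : F i = ((F i).1, true) := Prod.ext rfl h1
    rw [h2, mw_forced]
  unfold wgt
  rw [Finset.prod_congr rfl h, Finset.prod_const, Finset.card_range]







/-! ### escape event in terms of heights -/

theorem mpath_mem_escape (ℓ : Fin d → ℝ) (x : Site d) (M : MPath d) :
    mpath x M ∈ escapeEvent ℓ ↔ Tendsto (hgt (mht ℓ) M) atTop atTop := by
  have e : (fun n => ∑ i, ((mpath x M n) i : ℝ) * ℓ i) = fun n => sht ℓ x + hgt (mht ℓ) M n := by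
    funext n
    exact sht_pos ℓ x M n
  change Tendsto (fun n => ∑ i, ((mpath x M n) i : ℝ) * ℓ i) atTop atTop ↔ _
  rw [e]
  constructor
  · intro h
    have h2 := tendsto_atTop_add_const_left atTop (-(sht ℓ x)) h
    refine h2.congr fun n => ?_
    ring
  · intro h
    exact tendsto_atTop_add_const_left atTop (sht ℓ x) h

theorem measurableSet_escapeEvent (ℓ : Fin d → ℝ) : MeasurableSet (escapeEvent ℓ) := by
  unfold escapeEvent
  refine measurableSet_tendsto _ fun n => ?_
  refine Finset.measurable_sum _ fun i _ => ?_
  exact (((measurable_of_countable fun z : Site d => ((z i : ℤ) : ℝ)).comp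
    (measurable_pi_apply n))).mul_const _


/-! ### iid instance, no coins -/

theorem renewal_iid (ν : Measure (Row d)) [IsProbabilityMeasure ν] (κ : ℝ) (ℓ : Fin d → ℝ) :
    Renewal (mht ℓ) (mkAnn κ (iidEnvironmentLaw ν) 0) :=
  haveI : IsProbabilityMeasure (iidEnvironmentLaw ν) := by
    unfold iidEnvironmentLaw; infer_instance
  renewal_R0 (iid_shift ν) (iid_isFiniteRangeDependent ν 0) κ ℓ

/-- without coins the projection is the annealed law, for every environment law -/
theorem mkAnn_projection_zero (Q : Measure (Environment d)) (x : Site d)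
    {B : Set (Path d)} (hB : MeasurableSet B) :
    mkAnn 0 Q x (mpath x ⁻¹' B) = annealedProb Q x B := by
  refine mkAnn_projection (Eventually.of_forall fun ω z e => ?_) x hB
  rw [kf_zero]; exact (ω z).2.1 e



end Crest.Agent.R154.Mk561
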