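import Crest.Agent.R154.B9Ann_409
import Crest.Agent.R154.B9SLLN_409
import Crest.Agent.R154.MkD_561
import Crest.Agent.R154.B2d_419

-- ▼ part R154/B9FL_409
section

/-! R154 B9, finite level form (helper409): the annealed polynomial decays from a tail bound for the
quenched probability of climbing `h` levels before going below the start (no lateral restriction,
one order `M`, one threshold). -/

set_option autoImplicit false

namespace Crest.Agent.R154.B9409

open MeasureTheory ProbabilityTheory Crest.ProbabilityR.RandomEnvironment Crest.Agent.R154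
open scoped ENNReal

variable {d : ℕ}

/-- climb `h` levels before going below the start -/
def Cl (ht : Site d →+ ℤ) (h : ℕ) : Set (Path d) :=
  {X | ∃ m, ht (X 0) + h ≤ ht (X m) ∧ ∀ i, i ≤ m → ht (X 0) ≤ ht (X i)}

/-- reach the level `b` before returning to the starting level -/
def Up (ht : Site d →+ ℤ) (b : ℤ) : Set (Path d) :=
  {X | ∃ m, b ≤ ht (X m) ∧ ∀ i, 1 ≤ i → i ≤ m → ht (X 0) < ht (X i)}

lemma measurableSet_Cl (ht : Site d →+ ℤ) (h : ℕ) : MeasurableSet (Cl ht h) := by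
  unfold Cl
  rw [Set.ofPred_exists]
  refine MeasurableSet.iUnion fun m => measurableSet_of_agree m _ fun X Y hXY => ?_
  simp only [Set.mem_ofPred_eq, hXY 0 (Nat.zero_le _), hXY m le_rfl]
  refine and_congr Iff.rfl (forall_congr' fun i => forall_congr' fun hi => ?_)
  rw [hXY i hi]

lemma measurableSet_Up (ht : Site d →+ ℤ) (b : ℤ) : MeasurableSet (Up ht b) := by
  unfold Up
  rw [Set.ofPred_exists]
  refine MeasurableSet.iUnion fun m => measurableSet_of_agree m _ fun X Y hXY => ?_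
  simp only [Set.mem_ofPred_eq, hXY 0 (Nat.zero_le _), hXY m le_rfl]
  refine and_congr Iff.rfl (forall_congr' fun i => forall_congr' fun _ => forall_congr' fun hi => ?_)
  rw [hXY i hi]

lemma Cl_anti (ht : Site d →+ ℤ) {h h' : ℕ} (hh : h ≤ h') : Cl ht h' ⊆ Cl ht h := by
  rintro X ⟨m, h1, h2⟩
  exact ⟨m, by have : (h : ℤ) ≤ h' := by exact_mod_cast hh
               linarith, h2⟩

/-- one step up, then a climb -/
lemma up_ge (ht : Site d →+ ℤ) {u : Step d} (hu : ht (stepVec u) = 1) (ω : Environment d)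
    (y : Site d) {h : ℕ} {b : ℤ} (hb : b ≤ ht y + 1 + h) :
    ENNReal.ofReal ((ω y).1 u) * quenchedLaw ω (y + stepVec u) (Cl ht h)
      ≤ quenchedLaw ω y (Up ht b) := by
  classical
  set γ : Path d := fun i => if i = 0 then y else y + stepVec u with hγ
  have hg0 : γ 0 = y := by simp [hγ]
  have hg1 : γ 1 = y + stepVec u := by simp [hγ]
  have hc : quenchedLaw ω y (cyl γ 1) = ENNReal.ofReal ((ω y).1 u) := by
    rw [quenched_cyl, if_pos hg0]
    simp only [wt, Finset.range_one, Finset.prod_singleton, zero_add]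
    rw [hg0, hg1, stepP_add]
  have hm := markov_event ω y 1 (A := cyl γ 1) (B := Cl ht h)
    (fun X Y h => ⟨fun hX => h.symm.trans hX, fun hY => h.trans hY⟩) (measurableSet_Cl ht h)
  have e1 : ∫⁻ X in cyl γ 1, quenchedLaw ω (X 1) (Cl ht h) ∂quenchedLaw ω y
      = ∫⁻ _ in cyl γ 1, quenchedLaw ω (y + stepVec u) (Cl ht h) ∂quenchedLaw ω y := by
    refine setLIntegral_congr_fun (measurableSet_cyl _ _) fun X hX => ?_
    rw [hX 1 le_rfl, hg1]
  rw [e1, setLIntegral_const, hc, mul_comm] at hm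
  rw [← hm]
  refine measure_mono ?_
  rintro X ⟨hX, m, hX1, hX2⟩
  have h0 : X 0 = y := by rw [hX 0 (Nat.zero_le _), hg0]
  have h1 : X 1 = y + stepVec u := by rw [hX 1 le_rfl, hg1]
  simp only [shift, Nat.add_zero] at hX1
  rw [h1, map_add, hu] at hX1
  refine ⟨1 + m, hb.trans hX1, fun i hi1 hi2 => ?_⟩
  have h2 := hX2 (i - 1) (by omega)
  simp only [shift, Nat.add_zero] at h2
  rw [Nat.add_sub_cancel' hi1, h1, map_add, hu] at h2
  rw [h0]; omega

/-- expected number of visits to a level before leaving `B` -/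
lemma visits_le' (ht : Site d →+ ℤ) (ω : Environment d) (x : Site d) {B : Set (Site d)} {b : ℤ}
    (hBb : ∀ y ∈ B, ht y < b) {c : ℝ≥0∞} (hc : ∀ y ∈ B, c ≤ quenchedLaw ω y (Up ht b)) (j : ℤ)
    (a : ℕ) :
    c * ∑ n ∈ Finset.range a, quenchedLaw ω x {X | X ∈ StayIn B (n + 1) ∧ ht (X n) = j} ≤ 1 := by
  classical
  set D : ℕ → Set (Path d) := fun n => {X | X ∈ StayIn B (n + 1) ∧ ht (X n) = j} with hD
  set E : ℕ → Set (Path d) := fun n => D n ∩ shift n ⁻¹' Up ht b with hE
  have hA : ∀ n, ∀ X Y : Path d, Agree n X Y → (X ∈ D n ↔ Y ∈ D n) := by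
    intro n X Y h
    simp only [hD, Set.mem_ofPred_eq, h n le_rfl]
    refine and_congr ?_ Iff.rfl
    simp only [StayIn, Set.mem_ofPred_eq]
    refine forall_congr' fun i => forall_congr' fun hi => ?_
    rw [h i (by omega)]
  have hEm : ∀ n, MeasurableSet (E n) := fun n =>
    (measurableSet_of_agree n _ (hA n)).inter (measurable_shift n (measurableSet_Up ht b))
  have hdisj : ((Finset.range a : Finset ℕ) : Set ℕ).PairwiseDisjoint E := by
    have key : ∀ n m, n < m → Disjoint (E n) (E m) := by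
      intro n m hnm
      rw [Set.disjoint_left]
      rintro X ⟨h1, r, hr1, hr2⟩ ⟨h3, _⟩
      simp only [shift, Nat.add_zero] at hr1 hr2
      obtain ⟨l, rfl⟩ := Nat.exists_eq_add_of_le hnm.le
      rcases le_or_gt l r with hlr | hlr
      · have h4 := hr2 l (by omega) hlr
        rw [h1.2, h3.2] at h4
        exact lt_irrefl _ h4
      · exact absurd hr1 (not_le.2 (hBb _ (h3.1 (n + r) (by omega))))
    intro n _ m _ hnm
    rcases lt_or_gt_of_ne hnm with h | h
    · exact key n m h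
    · exact (key m n h).symm
  have hle : ∀ n, c * quenchedLaw ω x (D n) ≤ quenchedLaw ω x (E n) := by
    intro n
    rw [hE]
    simp only
    rw [markov_event ω x n (hA n) (measurableSet_Up ht b), ← setLIntegral_const]
    refine setLIntegral_mono' (measurableSet_of_agree n _ (hA n)) fun X hX => ?_
    exact hc _ (hX.1 n (Nat.lt_succ_self n))
  rw [Finset.mul_sum]
  calc ∑ n ∈ Finset.range a, c * quenchedLaw ω x (D n)
      ≤ ∑ n ∈ Finset.range a, quenchedLaw ω x (E n) := Finset.sum_le_sum fun n _ => hle n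
    _ = quenchedLaw ω x (⋃ n ∈ Finset.range a, E n) :=
        (measure_biUnion_finset hdisj fun n _ => hEm n).symm
    _ ≤ 1 := prob_le_one

/-- the time spent in a set with few levels -/
lemma stay_le' (ht : Site d →+ ℤ) (ω : Environment d) (x : Site d) {B : Set (Site d)} {b : ℤ}
    (hBb : ∀ y ∈ B, ht y < b) {c : ℝ≥0∞} (hc : ∀ y ∈ B, c ≤ quenchedLaw ω y (Up ht b))
    {J : Finset ℤ} (hJ : ∀ y ∈ B, ht y ∈ J) (a : ℕ) :
    c * (a * quenchedLaw ω x (StayIn B a)) ≤ J.card := by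
  classical
  have h1 : (a : ℝ≥0∞) * quenchedLaw ω x (StayIn B a)
      ≤ ∑ n ∈ Finset.range a, ∑ j ∈ J,
        quenchedLaw ω x {X | X ∈ StayIn B (n + 1) ∧ ht (X n) = j} := by
    have h2 : ∀ n ∈ Finset.range a, quenchedLaw ω x (StayIn B a)
        ≤ ∑ j ∈ J, quenchedLaw ω x {X | X ∈ StayIn B (n + 1) ∧ ht (X n) = j} := by
      intro n hn
      refine le_trans (measure_mono ?_) (measure_biUnion_finset_le J _)
      intro X hX
      have hn' := Finset.mem_range.1 hn
      have h3 := hX n hn'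
      simp only [Set.mem_iUnion, Set.mem_ofPred_eq]
      exact ⟨ht (X n), hJ _ h3, fun i hi => hX i (by omega), rfl⟩
    calc (a : ℝ≥0∞) * quenchedLaw ω x (StayIn B a)
        = ∑ _n ∈ Finset.range a, quenchedLaw ω x (StayIn B a) := by
          rw [Finset.sum_const, Finset.card_range, nsmul_eq_mul]
      _ ≤ _ := Finset.sum_le_sum h2
  calc c * (a * quenchedLaw ω x (StayIn B a))
      ≤ c * ∑ n ∈ Finset.range a, ∑ j ∈ J,
          quenchedLaw ω x {X | X ∈ StayIn B (n + 1) ∧ ht (X n) = j} := by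
        gcongr
    _ = ∑ j ∈ J, c * ∑ n ∈ Finset.range a,
          quenchedLaw ω x {X | X ∈ StayIn B (n + 1) ∧ ht (X n) = j} := by
        rw [Finset.sum_comm, Finset.mul_sum]
    _ ≤ ∑ _j ∈ J, 1 := Finset.sum_le_sum fun j _ => visits_le' ht ω x hBb hc j a
    _ = J.card := by simp

/-- the walk leaves a set with few levels quickly -/
lemma leave_le {ht : Site d →+ ℤ} (ω : Environment d) {B : Set (Site d)} {b : ℤ}
    (hBb : ∀ y ∈ B, ht y < b) {c : ℝ≥0∞} (hc : ∀ y ∈ B, c ≤ quenchedLaw ω y (Up ht b))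
    {J : Finset ℤ} (hJ : ∀ y ∈ B, ht y ∈ J) {a m : ℕ}
    (ha : 2 * (J.card : ℝ≥0∞) ≤ c * a) (hc0 : c ≠ 0) (hct : c ≠ ⊤) (ha0 : a ≠ 0) :
    quenchedLaw ω 0 (StayIn B (m * a)) ≤ 2⁻¹ ^ m := by
  refine stay_pow ω (fun x => ?_) m 0
  have h := stay_le' ht ω x hBb hc hJ a
  rw [← mul_assoc] at h
  have hca0 : c * (a : ℝ≥0∞) ≠ 0 := mul_ne_zero hc0 (by exact_mod_cast ha0)
  have hcat : c * (a : ℝ≥0∞) ≠ ⊤ := ENNReal.mul_ne_top hct (ENNReal.natCast_ne_top a)
  have h2 : 2 * (c * (a : ℝ≥0∞) * quenchedLaw ω x (StayIn B a)) ≤ c * a :=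
    (mul_le_mul_right h 2).trans ha
  have h3 : c * (a : ℝ≥0∞) * (2 * quenchedLaw ω x (StayIn B a)) ≤ c * a * 1 := by
    rw [mul_one]
    calc c * (a : ℝ≥0∞) * (2 * quenchedLaw ω x (StayIn B a))
        = 2 * (c * (a : ℝ≥0∞) * quenchedLaw ω x (StayIn B a)) := by ring
      _ ≤ _ := h2
  have h4 := (ENNReal.mul_le_mul_iff_right hca0 hcat).1 h3
  rw [mul_comm] at h4
  calc quenchedLaw ω x (StayIn B a) ≤ 1 / 2 :=
        (ENNReal.le_div_iff_mul_le (Or.inl two_ne_zero) (Or.inl ENNReal.ofNat_ne_top)).2 h4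
    _ = 2⁻¹ := one_div _

/-- descend by `N` levels inside `S`, finite level form -/
lemma desc_le' (ht : Site d →+ ℤ) (ω : Environment d) {S : Set (Site d)} {b : ℤ}
    (hSb : ∀ y ∈ S, ht y < b) {c : ℝ≥0∞}
    (hc : ∀ y ∈ S, c ≤ quenchedLaw ω y (Up ht b)) (N : ℕ) (y : Site d) :
    quenchedLaw ω y (Desc ht S N) ≤ (1 - c) ^ N := by
  classical
  induction N generalizing y with
  | zero => simpa using prob_le_one
  | succ N ih =>
    set A : ℕ → Set (Path d) := fun n =>
      {X | X 0 ∈ S ∧ ht (X n) < ht (X 0) ∧ ∀ i, i < n → ht (X 0) ≤ ht (X i) ∧ X i ∈ S} with hAdef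
    have hA : ∀ n, ∀ X Y : Path d, Agree n X Y → (X ∈ A n ↔ Y ∈ A n) := by
      intro n X Y h
      simp only [hAdef, Set.mem_ofPred_eq, h 0 (Nat.zero_le _), h n le_rfl]
      refine and_congr Iff.rfl (and_congr Iff.rfl (forall_congr' fun i => forall_congr' fun hi => ?_))
      rw [h i hi.le]
    have hdisj : Pairwise (Function.onFun Disjoint A) := by
      have key : ∀ n m, n < m → Disjoint (A n) (A m) := by
        intro n m hnm
        rw [Set.disjoint_left]
        rintro X ⟨_, h1, _⟩ ⟨_, _, h2⟩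
        exact absurd (h2 n hnm).1 (not_le.2 h1)
      intro n m hnm
      rcases lt_or_gt_of_ne hnm with h | h
      · exact key n m h
      · exact (key m n h).symm
    have hsub : Desc ht S (N + 1) ⊆ ⋃ n, A n ∩ shift n ⁻¹' Desc ht S N := by
      rintro X ⟨hNN, m, hm1, hm2⟩
      have hm1' : ht (X m) + N + 1 ≤ ht (X 0) := by push_cast at hm1; linarith
      have hex : ∃ n, ht (X n) < ht (X 0) := ⟨m, by omega⟩
      set n := Nat.find hex with hn
      have hn1 : ht (X n) < ht (X 0) := Nat.find_spec hex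
      have hn2 : ∀ i, i < n → ht (X 0) ≤ ht (X i) := fun i hi => not_lt.1 (Nat.find_min hex hi)
      have hnm : n ≤ m := Nat.find_min' hex (by omega)
      have hn0 : n ≠ 0 := by
        intro h0; rw [h0] at hn1; exact lt_irrefl _ hn1
      have hm0 : 0 < m := lt_of_lt_of_le (Nat.pos_of_ne_zero hn0) hnm
      have hdown : ht (X 0) ≤ ht (X n) + 1 := by
        have h1 := hn2 (n - 1) (by omega)
        have h2 := hNN (n - 1)
        rw [Nat.sub_add_cancel (Nat.pos_of_ne_zero hn0)] at h2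
        exact h1.trans h2
      simp only [Set.mem_iUnion]
      refine ⟨n, ⟨hm2 0 hm0, hn1, fun i hi => ⟨hn2 i hi, hm2 i (by omega)⟩⟩, fun i => ?_, m - n,
        ?_, fun i hi => ?_⟩
      · have := hNN (n + i)
        simpa [shift, add_assoc] using this
      · simp only [shift, Nat.add_zero]
        rw [Nat.add_sub_cancel' hnm]
        linarith
      · simp only [shift]
        exact hm2 (n + i) (by omega)
    have hle := sum_first_le ω y hA hdisj (measurableSet_Desc ht S N) ih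
    have hU : quenchedLaw ω y (⋃ n, A n) ≤ 1 - c := by
      by_cases hy : y ∈ S
      · have h1 : (⋃ n, A n) ⊆ (Up ht b)ᶜ := by
          intro X hX
          simp only [Set.mem_iUnion] at hX
          obtain ⟨n, _, h2, h3⟩ := hX
          rintro ⟨m, hm1, hm2⟩
          have hn0 : n ≠ 0 := by
            rintro rfl; exact lt_irrefl _ h2
          rcases lt_or_ge m n with hmn | hmn
          · exact absurd hm1 (not_le.2 (hSb _ (h3 m hmn).2))
          · have := hm2 n (Nat.pos_of_ne_zero hn0) hmn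
            exact lt_irrefl _ (h2.trans this)
        refine (measure_mono h1).trans ?_
        rw [prob_compl_eq_one_sub (measurableSet_Up ht b)]
        exact tsub_le_tsub_left (hc y hy) 1
      · have h1 : quenchedLaw ω y (⋃ n, A n) = 0 := by
          have h2 : ∀ᵐ X ∂quenchedLaw ω y, X ∉ ⋃ n, A n := by
            filter_upwards [quenched_zero_eq ω y] with X hX
            simp only [Set.mem_iUnion, not_exists]
            rintro n ⟨h3, _⟩
            rw [hX] at h3
            exact hy h3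
          exact measure_eq_zero_iff_ae_notMem.2 h2
        rw [h1]; exact zero_le
    calc quenchedLaw ω y (Desc ht S (N + 1))
        ≤ quenchedLaw ω y (⋃ n, A n ∩ shift n ⁻¹' Desc ht S N) := measure_mono hsub
      _ ≤ (1 - c) ^ N * quenchedLaw ω y (⋃ n, A n) := hle
      _ ≤ (1 - c) ^ N * (1 - c) := by gcongr
      _ = (1 - c) ^ (N + 1) := by rw [pow_succ]

/-- backtracking from level `K` inside the slab `[0, L)` -/
lemma back_le' {ht : Site d →+ ℤ} (h1 : ∀ e : Step d, |ht (stepVec e)| ≤ 1) (ω : Environment d)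
    {c : ℝ≥0∞} {n0 L : ℕ} (hc : ∀ y ∈ slab ht n0 L, c ≤ quenchedLaw ω y (Up ht L)) (K : ℕ) :
    quenchedLaw ω 0 (Back ht K L)
      ≤ quenchedLaw ω 0 (StayIn (slab ht n0 L) n0) + (1 - c) ^ K := by
  classical
  set S : Set (Site d) := slab ht n0 L with hS
  set A : ℕ → Set (Path d) := fun n =>
    {X | (K : ℤ) ≤ ht (X n) ∧ ∀ i, i < n → ht (X i) < K} with hAdef
  have hA : ∀ n, ∀ X Y : Path d, Agree n X Y → (X ∈ A n ↔ Y ∈ A n) := by
    intro n X Y h
    simp only [hAdef, Set.mem_ofPred_eq, h n le_rfl]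
    refine and_congr Iff.rfl (forall_congr' fun i => forall_congr' fun hi => ?_)
    rw [h i hi.le]
  have hdisj : Pairwise (Function.onFun Disjoint A) := by
    have key : ∀ n m, n < m → Disjoint (A n) (A m) := by
      intro n m hnm
      rw [Set.disjoint_left]
      rintro X ⟨h1, _⟩ ⟨_, h2⟩
      exact absurd (h2 n hnm) (not_lt.2 h1)
    intro n m hnm
    rcases lt_or_gt_of_ne hnm with h | h
    · exact key n m h
    · exact (key m n h).symm
  have hle := sum_first_le ω 0 hA hdisj (measurableSet_Desc ht S K)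
    (desc_le' ht ω (fun y hy => hy.2.2) hc K)
  have hmain : ∀ᵐ X ∂quenchedLaw ω 0, X ∈ Back ht K L →
      X ∈ StayIn S n0 ∪ ⋃ n, A n ∩ shift n ⁻¹' Desc ht S K := by
    filter_upwards [quenched_zero_eq ω 0, ae_box ω, ae_NN h1 ω 0] with X h0 hbox hNN hX
    obtain ⟨m, hm1, hm2, ⟨n', hn1, hn2⟩, hm3⟩ := hX
    rw [h0, map_zero] at hm1 hn2
    simp only [h0, map_zero] at hm2 hm3
    have hin : ∀ i, i < m → i ≤ n0 → X i ∈ S := by
      intro i hi hi0
      refine ⟨fun k => (hbox i k).trans (by exact_mod_cast hi0), hm2 i hi, ?_⟩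
      have := hm3 i hi.le
      simpa using this
    rcases le_or_gt n0 m with hcase | hcase
    · left
      intro i hi
      exact hin i (by omega) hi.le
    · right
      have hex : ∃ n, (K : ℤ) ≤ ht (X n) := ⟨n', by simpa using hn2⟩
      set n := Nat.find hex with hn
      have hn3 : (K : ℤ) ≤ ht (X n) := Nat.find_spec hex
      have hn4 : ∀ i, i < n → ht (X i) < K := fun i hi => not_le.1 (Nat.find_min hex hi)
      have hnn : n ≤ n' := Nat.find_min' hex (by simpa using hn2)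
      simp only [Set.mem_iUnion]
      refine ⟨n, ⟨hn3, hn4⟩, fun i => ?_, m - n, ?_, fun i hi => ?_⟩
      · have := hNN (n + i)
        simpa [shift, add_assoc] using this
      · simp only [shift, Nat.add_zero]
        rw [Nat.add_sub_cancel' (by omega : n ≤ m)]
        linarith
      · simp only [shift]
        exact hin (n + i) (by omega) (by omega)
  calc quenchedLaw ω 0 (Back ht K L)
      ≤ quenchedLaw ω 0 (StayIn S n0 ∪ ⋃ n, A n ∩ shift n ⁻¹' Desc ht S K) :=
        measure_mono_ae hmain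
    _ ≤ _ := measure_union_le _ _
    _ ≤ quenchedLaw ω 0 (StayIn S n0) + (1 - c) ^ K := by
        gcongr
        refine hle.trans ?_
        calc (1 - c) ^ K * quenchedLaw ω 0 (⋃ n, A n) ≤ (1 - c) ^ K * 1 := by
              gcongr; exact prob_le_one
          _ = (1 - c) ^ K := mul_one _

/-- go down `h` levels before going above the start -/
def Down (ht : Site d →+ ℤ) (h : ℕ) : Set (Path d) :=
  {X | ∃ m, ht (X m) + h ≤ ht (X 0) ∧ ∀ i, i ≤ m → ht (X i) ≤ ht (X 0)}

lemma measurableSet_Down (ht : Site d →+ ℤ) (h : ℕ) : MeasurableSet (Down ht h) := by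
  unfold Down
  rw [Set.ofPred_exists]
  refine MeasurableSet.iUnion fun m => measurableSet_of_agree m _ fun X Y hXY => ?_
  simp only [Set.mem_ofPred_eq, hXY 0 (Nat.zero_le _), hXY m le_rfl]
  refine and_congr Iff.rfl (forall_congr' fun i => forall_congr' fun hi => ?_)
  rw [hXY i hi]

/-- the slab `-L < ht ≤ 0` inside the box -/
def slabD (ht : Site d →+ ℤ) (r L : ℕ) : Set (Site d) :=
  {x | x ∈ box d r ∧ -(L : ℤ) < ht x ∧ ht x ≤ 0}

lemma down_le {ht : Site d →+ ℤ} (h1 : ∀ e : Step d, |ht (stepVec e)| ≤ 1) (ω : Environment d)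
    {c : ℝ≥0∞} {n0 L : ℕ} (hc : ∀ y ∈ slabD ht n0 L, c ≤ quenchedLaw ω y (Up ht 1)) :
    quenchedLaw ω 0 (Down ht L)
      ≤ quenchedLaw ω 0 (StayIn (slabD ht n0 L) n0) + (1 - c) ^ L := by
  classical
  have hmain : ∀ᵐ X ∂quenchedLaw ω 0, X ∈ Down ht L →
      X ∈ StayIn (slabD ht n0 L) n0 ∪ Desc ht (slabD ht n0 L) L := by
    filter_upwards [quenched_zero_eq ω 0, ae_box ω, ae_NN h1 ω 0] with X h0 hbox hNN hX
    obtain ⟨m', hm1', hm2'⟩ := hX
    rw [h0, map_zero] at hm1'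
    simp only [h0, map_zero] at hm2'
    have hex : ∃ m, ht (X m) + L ≤ 0 := ⟨m', hm1'⟩
    set m := Nat.find hex with hm
    have hm1 : ht (X m) + L ≤ 0 := Nat.find_spec hex
    have hm3 : ∀ i, i < m → 0 < ht (X i) + L := fun i hi => not_le.1 (Nat.find_min hex hi)
    have hmm : m ≤ m' := Nat.find_min' hex hm1'
    have hin : ∀ i, i < m → i ≤ n0 → X i ∈ slabD ht n0 L := by
      intro i hi hi0
      refine ⟨fun k => (hbox i k).trans (by exact_mod_cast hi0), ?_, hm2' i (by omega)⟩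
      have := hm3 i hi
      omega
    rcases le_or_gt n0 m with hcase | hcase
    · left
      intro i hi
      exact hin i (by omega) hi.le
    · right
      refine ⟨hNN, m, ?_, fun i hi => hin i hi (by omega)⟩
      rw [h0, map_zero]; exact hm1
  calc quenchedLaw ω 0 (Down ht L)
      ≤ quenchedLaw ω 0 (StayIn (slabD ht n0 L) n0 ∪ Desc ht (slabD ht n0 L) L) :=
        measure_mono_ae hmain
    _ ≤ _ := measure_union_le _ _
    _ ≤ _ := by
        gcongr
        exact desc_le' ht ω (fun y hy => by have := hy.2.2; omega) hc L 0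

/-! ### annealed form -/

/-- **(FL)**: the probability of climbing `h` levels before going below the start is at least
`1/√h` except for a set of environments of probability `≤ C h^{-M}`. -/
def FL (Q : Measure (Environment d)) (ht : Site d →+ ℤ) (M : ℕ) : Prop :=
  ∃ C : ℝ, ∀ h : ℕ, 1 ≤ h →
    Q {ω | quenchedLaw ω 0 (Cl ht h) < ENNReal.ofReal (1 / (Nat.sqrt h : ℝ))}
      ≤ ENNReal.ofReal (C / (h : ℝ) ^ M)

lemma tr_Cl (ht : Site d →+ ℤ) (h : ℕ) (z : Site d) : Q561.tr z ⁻¹' Cl ht h = Cl ht h := by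
  ext X
  simp only [Q561.tr, Cl, Set.mem_preimage, Set.mem_ofPred_eq, map_add]
  refine exists_congr fun m => and_congr ⟨fun h => by linarith, fun h => by linarith⟩ ?_
  exact forall_congr' fun i => forall_congr' fun _ => ⟨fun h => by linarith, fun h => by linarith⟩

lemma quenched_Cl_shift (ht : Site d →+ ℤ) (h : ℕ) (ω : Environment d) (x : Site d) :
    quenchedLaw ω x (Cl ht h) = quenchedLaw (shiftEnv x ω) 0 (Cl ht h) := by
  rw [Q561.quenched_eq_zero_shift ω x (measurableSet_Cl ht h), tr_Cl]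

lemma measurableSet_cl_lt (ht : Site d →+ ℤ) (h : ℕ) (x : Site d) (t : ℝ≥0∞) :
    MeasurableSet {ω : Environment d | quenchedLaw ω x (Cl ht h) < t} :=
  measurableSet_lt (measurable_quenched_apply x (measurableSet_Cl ht h)) measurable_const

lemma cl_lt_shift {Q : Measure (Environment d)}
    (hQ : ∀ z : Site d, MeasurePreserving (shiftEnv z) Q Q) (ht : Site d →+ ℤ) (h : ℕ) (t : ℝ≥0∞)
    (y : Site d) :
    Q {ω | quenchedLaw ω y (Cl ht h) < t} = Q {ω | quenchedLaw ω 0 (Cl ht h) < t} := by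
  have h1 := (hQ y).measure_preimage (measurableSet_cl_lt ht h 0 t).nullMeasurableSet
  rw [← h1]
  refine congrArg Q ?_
  ext ω
  simp only [Set.mem_ofPred_eq, Set.mem_preimage, quenched_Cl_shift ht h ω y]

/-- some site of the box has a small probability of climbing `h` levels -/
def BadF (ht : Site d →+ ℤ) (r h : ℕ) : Set (Environment d) :=
  {ω | ∃ y ∈ box d r, quenchedLaw ω y (Cl ht h) < ENNReal.ofReal (1 / (Nat.sqrt h : ℝ))}

lemma measurableSet_BadF (ht : Site d →+ ℤ) (r h : ℕ) : MeasurableSet (BadF ht r h) := by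
  have : BadF ht r h = ⋃ y ∈ boxF d r,
      {ω | quenchedLaw ω y (Cl ht h) < ENNReal.ofReal (1 / (Nat.sqrt h : ℝ))} := by
    ext ω
    simp only [BadF, Set.mem_ofPred_eq, Set.mem_iUnion, exists_prop, mem_boxF]
  rw [this]
  exact Finset.measurableSet_biUnion _ fun y _ => measurableSet_cl_lt ht h y _

lemma badF_le {Q : Measure (Environment d)}
    (hQ : ∀ z : Site d, MeasurePreserving (shiftEnv z) Q Q) (ht : Site d →+ ℤ) (r h : ℕ) :
    Q (BadF ht r h) ≤ ((2 * r + 1 : ℕ) : ℝ≥0∞) ^ d *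
      Q {ω | quenchedLaw ω 0 (Cl ht h) < ENNReal.ofReal (1 / (Nat.sqrt h : ℝ))} := by
  set t : ℝ≥0∞ := ENNReal.ofReal (1 / (Nat.sqrt h : ℝ)) with ht'
  have h1 : BadF ht r h ⊆ ⋃ y ∈ boxF d r, {ω | quenchedLaw ω y (Cl ht h) < t} := by
    rintro ω ⟨y, hy, hyy⟩
    simp only [Set.mem_iUnion]
    exact ⟨y, mem_boxF.2 hy, hyy⟩
  refine (measure_mono h1).trans ((measure_biUnion_finset_le _ _).trans ?_)
  have h2 : ∑ y ∈ boxF d r, Q {ω | quenchedLaw ω y (Cl ht h) < t}
      = ∑ _y ∈ boxF d r, Q {ω | quenchedLaw ω 0 (Cl ht h) < t} :=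
    Finset.sum_congr rfl fun y _ => cl_lt_shift hQ ht h t y
  rw [h2, Finset.sum_const, card_boxF, nsmul_eq_mul]
  push_cast
  exact le_rfl

/-- good environments: from every site of the box the walk goes up by `h + 1` levels before
returning, with probability at least `κ / √h`. -/
lemma up_of_good {ht : Site d →+ ℤ} {u : Step d} (hu : ht (stepVec u) = 1) {κ : ℝ} (hκ : 0 < κ)
    {ω : Environment d} (hell : ∀ (x : Site d) (e : Step d), κ ≤ (ω x).1 e) {r h : ℕ}
    (hω : ω ∉ BadF ht (r + 1) h) (y : Site d) (hy : y ∈ box d r) {b : ℤ} (hb : b ≤ ht y + 1 + h) :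
    ENNReal.ofReal (κ / (Nat.sqrt h : ℝ)) ≤ quenchedLaw ω y (Up ht b) := by
  refine le_trans ?_ (up_ge ht hu ω y hb)
  have h1 : y + stepVec u ∈ box d (r + 1) := by
    intro i
    rw [Pi.add_apply]
    have h2 : |stepVec u i| ≤ 1 := by
      simp only [stepVec, Pi.single_apply]
      split_ifs <;> simp
    have h3 := abs_add_le (y i) (stepVec u i)
    have h4 := hy i
    push_cast
    linarith
  have h2 : ENNReal.ofReal (1 / (Nat.sqrt h : ℝ)) ≤ quenchedLaw ω (y + stepVec u) (Cl ht h) := by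
    by_contra hcon
    exact hω ⟨_, h1, not_le.1 hcon⟩
  have h3 : ENNReal.ofReal (κ / (Nat.sqrt h : ℝ))
      = ENNReal.ofReal κ * ENNReal.ofReal (1 / (Nat.sqrt h : ℝ)) := by
    rw [← ENNReal.ofReal_mul hκ.le]; congr 1; ring
  rw [h3]
  exact mul_le_mul' (ENNReal.ofReal_le_ofReal (hell y u)) h2

/-- length of one stretch for `L` levels -/
noncomputable def aL (κ : ℝ) (L : ℕ) : ℕ := ⌈2 * (L : ℝ) * (Nat.sqrt L : ℝ) / κ⌉₊

/-- total time for `L` levels -/
noncomputable def nL (κ : ℝ) (L : ℕ) : ℕ := Nat.sqrt L * aL κ L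

lemma nL_le {κ : ℝ} (hκ : 0 < κ) {n : ℕ} (hn : 1 ≤ n) :
    (nL κ n : ℝ) ≤ (2 / κ + 1) * (n : ℝ) ^ 2 := by
  obtain ⟨h1, h2, _⟩ := sqrt_facts hn
  have h1' : (1 : ℝ) ≤ (Nat.sqrt n : ℝ) := by exact_mod_cast h1
  have h2' : ((Nat.sqrt n : ℝ)) ^ 2 ≤ n := by exact_mod_cast h2
  have hn' : (1 : ℝ) ≤ n := by exact_mod_cast hn
  have h3 : (aL κ n : ℝ) ≤ 2 * (n : ℝ) * (Nat.sqrt n : ℝ) / κ + 1 :=
    (Nat.ceil_lt_add_one (by positivity)).le
  unfold nL
  push_cast
  calc (Nat.sqrt n : ℝ) * (aL κ n : ℝ)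
      ≤ (Nat.sqrt n : ℝ) * (2 * (n : ℝ) * (Nat.sqrt n : ℝ) / κ + 1) := by gcongr
    _ = 2 / κ * n * (Nat.sqrt n : ℝ) ^ 2 + (Nat.sqrt n : ℝ) := by ring
    _ ≤ 2 / κ * n * n + (n : ℝ) ^ 2 := by
        gcongr
        calc (Nat.sqrt n : ℝ) ≤ (Nat.sqrt n : ℝ) ^ 2 := by nlinarith
          _ ≤ n := h2'
          _ ≤ (n : ℝ) ^ 2 := by nlinarith
    _ = (2 / κ + 1) * (n : ℝ) ^ 2 := by ring

/-- quenched bounds on good environments, any set with `L` levels -/
lemma leave_good {ht : Site d →+ ℤ} {κ : ℝ} (hκ : 0 < κ) {ω : Environment d} {L : ℕ} (hL : 1 ≤ L)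
    {B : Set (Site d)} {b : ℤ} (hBb : ∀ y ∈ B, ht y < b)
    (hc : ∀ y ∈ B, ENNReal.ofReal (κ / (Nat.sqrt L : ℝ)) ≤ quenchedLaw ω y (Up ht b))
    {J : Finset ℤ} (hJ : ∀ y ∈ B, ht y ∈ J) (hcard : J.card = L) :
    quenchedLaw ω 0 (StayIn B (nL κ L)) ≤ 2⁻¹ ^ Nat.sqrt L := by
  obtain ⟨hs1, _, _⟩ := sqrt_facts hL
  have hs1' : (0 : ℝ) < (Nat.sqrt L : ℝ) := by exact_mod_cast hs1
  have hn' : (0 : ℝ) < L := by exact_mod_cast hL
  have hapos : 0 < 2 * (L : ℝ) * (Nat.sqrt L : ℝ) / κ := by positivity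
  refine leave_le ω hBb hc hJ ?_ ?_ ENNReal.ofReal_ne_top (Nat.ceil_pos.2 hapos).ne'
  · have e1 : (2 * (J.card : ℝ≥0∞)) = ENNReal.ofReal (2 * L) := by
      rw [hcard, show (2 * (L : ℝ)) = ((2 * L : ℕ) : ℝ) by push_cast; ring, ENNReal.ofReal_natCast]
      push_cast; ring
    have e2 : (aL κ L : ℝ≥0∞) = ENNReal.ofReal (aL κ L : ℝ) := (ENNReal.ofReal_natCast _).symm
    rw [e1, e2, ← ENNReal.ofReal_mul (by positivity)]
    refine ENNReal.ofReal_le_ofReal ?_
    have h2 : 2 * (L : ℝ) * (Nat.sqrt L : ℝ) / κ ≤ (aL κ L : ℝ) := Nat.le_ceil _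
    calc 2 * (L : ℝ) = κ / (Nat.sqrt L : ℝ) * (2 * (L : ℝ) * (Nat.sqrt L : ℝ) / κ) := by
          field_simp
      _ ≤ κ / (Nat.sqrt L : ℝ) * (aL κ L : ℝ) := by gcongr
  · simp only [Ne, ENNReal.ofReal_eq_zero, not_le]; positivity

lemma DecayAt.add {A : ℕ} {f g : ℕ → ℝ≥0∞} (hf : DecayAt A f) (hg : DecayAt A g) :
    DecayAt A fun n => f n + g n := by
  obtain ⟨C, hC0, hC⟩ := hf
  obtain ⟨D, hD0, hD⟩ := hg
  refine ⟨C + D, by positivity, fun n hn => ?_⟩
  calc f n + g n ≤ ENNReal.ofReal (C / (n : ℝ) ^ A) + ENNReal.ofReal (D / (n : ℝ) ^ A) :=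
        add_le_add (hC n hn) (hD n hn)
    _ = _ := by rw [← ENNReal.ofReal_add (by positivity) (by positivity), add_div]

lemma DecayAt.mono {A : ℕ} {f g : ℕ → ℝ≥0∞} (hf : DecayAt A f) (h : ∀ n, 1 ≤ n → g n ≤ f n) :
    DecayAt A g := by
  obtain ⟨C, hC0, hC⟩ := hf
  exact ⟨C, hC0, fun n hn => (h n hn).trans (hC n hn)⟩

lemma DecayAt.comp_two {A : ℕ} {f : ℕ → ℝ≥0∞} (hf : DecayAt A f) :
    DecayAt A fun n => f (2 * n) := by
  obtain ⟨C, hC0, hC⟩ := hf
  refine ⟨C, hC0, fun n hn => (hC (2 * n) (by omega)).trans (ENNReal.ofReal_le_ofReal ?_)⟩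
  have hn1 : (1 : ℝ) ≤ n := by exact_mod_cast hn
  refine div_le_div_of_nonneg_left hC0 (by positivity) ?_
  push_cast
  gcongr
  linarith

/-- the bad environments have polynomially small probability -/
lemma badF_decay {Q : Measure (Environment d)}
    (hQ : ∀ z : Site d, MeasurePreserving (shiftEnv z) Q Q) {ht : Site d →+ ℤ} {κ : ℝ} (hκ : 0 < κ)
    {A : ℕ} (hfl : FL Q ht (2 * d + A)) : DecayAt A fun L => Q (BadF ht (nL κ L + 1) L) := by
  obtain ⟨C, hC⟩ := hfl
  set c1 : ℝ := 2 * (2 / κ + 1) + 3 with hc1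
  refine ⟨c1 ^ d * |C|, by positivity, fun n hn => ?_⟩
  have hn1 : (1 : ℝ) ≤ n := by exact_mod_cast hn
  have hn' : (0 : ℝ) < n := by linarith
  have h1 : ((2 * (nL κ n + 1) + 1 : ℕ) : ℝ) ≤ c1 * (n : ℝ) ^ 2 := by
    have h2 := nL_le hκ hn
    push_cast
    have h3 : (1 : ℝ) ≤ (n : ℝ) ^ 2 := one_le_pow₀ hn1
    calc 2 * ((nL κ n : ℝ) + 1) + 1 = 2 * (nL κ n : ℝ) + 3 := by ring
      _ ≤ 2 * ((2 / κ + 1) * (n : ℝ) ^ 2) + 3 * (n : ℝ) ^ 2 := by linarith
      _ = c1 * (n : ℝ) ^ 2 := by rw [hc1]; ring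
  have h4 : ((2 * (nL κ n + 1) + 1 : ℕ) : ℝ≥0∞) ^ d ≤ ENNReal.ofReal ((c1 * (n : ℝ) ^ 2) ^ d) := by
    rw [← ENNReal.ofReal_natCast, ENNReal.ofReal_pow (by positivity)]
    gcongr
  have h5 : Q {ω | quenchedLaw ω 0 (Cl ht n) < ENNReal.ofReal (1 / (Nat.sqrt n : ℝ))}
      ≤ ENNReal.ofReal (|C| / (n : ℝ) ^ (2 * d + A)) := by
    refine (hC _ hn).trans (ENNReal.ofReal_le_ofReal ?_)
    gcongr
    exact le_abs_self C
  calc Q (BadF ht (nL κ n + 1) n) ≤ _ := badF_le hQ ht _ _
    _ ≤ ENNReal.ofReal ((c1 * (n : ℝ) ^ 2) ^ d) * ENNReal.ofReal (|C| / (n : ℝ) ^ (2 * d + A)) :=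
        mul_le_mul' h4 h5
    _ = ENNReal.ofReal (c1 ^ d * |C| / (n : ℝ) ^ A) := by
        rw [← ENNReal.ofReal_mul (by positivity)]
        congr 1
        rw [mul_pow, ← pow_mul]
        field_simp
        ring

/-- `(1 - κ/√L)^K` for `L ≤ 2 K` -/
lemma one_sub_pow_le' {κ : ℝ} (hκ : 0 < κ) {L K : ℕ} (hL : 1 ≤ L) (hLK : L ≤ 2 * K) :
    (1 - ENNReal.ofReal (κ / (Nat.sqrt L : ℝ))) ^ K
      ≤ ENNReal.ofReal (Real.exp (-(κ / 2 * (Nat.sqrt L : ℝ)))) := by
  obtain ⟨hs1, hs2, _⟩ := sqrt_facts hL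
  have hs1' : (0 : ℝ) < (Nat.sqrt L : ℝ) := by exact_mod_cast hs1
  have hs2' : ((Nat.sqrt L : ℝ)) ^ 2 ≤ L := by exact_mod_cast hs2
  have hLK' : (L : ℝ) ≤ 2 * K := by exact_mod_cast hLK
  set x : ℝ := κ / (Nat.sqrt L : ℝ) with hx
  have hx0 : 0 ≤ x := by positivity
  have h1 : 1 - ENNReal.ofReal x ≤ ENNReal.ofReal (Real.exp (-x)) := by
    rw [← ENNReal.ofReal_one, ← ENNReal.ofReal_sub _ hx0]
    exact ENNReal.ofReal_le_ofReal (Real.one_sub_le_exp_neg x)
  calc (1 - ENNReal.ofReal x) ^ K ≤ (ENNReal.ofReal (Real.exp (-x))) ^ K := by gcongr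
    _ = ENNReal.ofReal (Real.exp (-(x * K))) := by
        rw [← ENNReal.ofReal_pow (Real.exp_pos _).le, ← Real.exp_nat_mul]
        congr 2; ring
    _ ≤ _ := by
        refine ENNReal.ofReal_le_ofReal (Real.exp_le_exp.2 (neg_le_neg ?_))
        have h2 : x * K = κ * K / (Nat.sqrt L : ℝ) := by rw [hx]; ring
        rw [h2, le_div_iff₀ hs1']
        calc κ / 2 * (Nat.sqrt L : ℝ) * (Nat.sqrt L : ℝ) = κ / 2 * (Nat.sqrt L : ℝ) ^ 2 := by ring
          _ ≤ κ / 2 * (2 * K) := by gcongr; linarith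
          _ = κ * K := by ring

/-- **annealed polynomial decays from (FL)** -/
theorem decay_of_FL {Q : Measure (Environment d)} [IsProbabilityMeasure Q]
    (hQ : ∀ z : Site d, MeasurePreserving (shiftEnv z) Q Q) {ht : Site d →+ ℤ} {u : Step d}
    (hu : ht (stepVec u) = 1) (h1 : ∀ e : Step d, |ht (stepVec e)| ≤ 1) {κ : ℝ} (hκ : 0 < κ)
    (hell : ∀ᵐ ω ∂Q, ∀ (x : Site d) (e : Step d), κ ≤ (ω x).1 e) {A : ℕ}
    (hfl : FL Q ht (2 * d + A)) :
    DecayAt A (fun n => annealed Q 0 (Back ht n (2 * n))) ∧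
    DecayAt A (fun n => annealed Q 0 (SlabP ht (2 * n) (nL κ (2 * n)))) ∧
    DecayAt A (fun n => annealed Q 0 (Down ht n)) := by
  have hbad := badF_decay hQ hκ hfl
  have hhalf := (polyDecay_exp (Real.log_pos one_lt_two)).at A
  have hexp := (polyDecay_exp (half_pos hκ)).at A
  have hslab : ∀ (ω : Environment d), (∀ (x : Site d) (e : Step d), κ ≤ (ω x).1 e) → ∀ L : ℕ,
      1 ≤ L → ω ∉ BadF ht (nL κ L + 1) L →
      quenchedLaw ω 0 (StayIn (slab ht (nL κ L) L) (nL κ L)) ≤ 2⁻¹ ^ Nat.sqrt L := by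
    intro ω hω L hL hB
    refine leave_good hκ hL (b := (L : ℤ)) (fun y hy => hy.2.2)
      (fun y hy => up_of_good hu hκ hω hB y hy.1 ?_) (J := Finset.Ico 0 (L : ℤ))
      (fun y hy => Finset.mem_Ico.2 hy.2) (by simp)
    have := hy.2.1
    omega
  refine ⟨?_, ?_, ?_⟩
  · refine (hbad.add (hhalf.add hexp)).comp_two.mono fun n hn => ?_
    refine annealed_le_of_good (measurableSet_Back ht _ _) (measurableSet_BadF ht _ _) ?_
    filter_upwards [hell] with ω hω hB
    refine (back_le' h1 ω (n0 := nL κ (2 * n)) (L := 2 * n)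
      (c := ENNReal.ofReal (κ / (Nat.sqrt (2 * n) : ℝ)))
      (fun y hy => up_of_good hu hκ hω hB y hy.1 ?_) n).trans ?_
    · have := hy.2.1
      push_cast; omega
    · exact add_le_add ((hslab ω hω (2 * n) (by omega) hB).trans (half_pow_eq _).le)
        (one_sub_pow_le' hκ (by omega) le_rfl)
  · refine (hbad.add hhalf).comp_two.mono fun n hn => ?_
    refine annealed_le_of_good (measurableSet_SlabP ht _ _) (measurableSet_BadF ht _ _) ?_
    filter_upwards [hell] with ω hω hB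
    exact (slabP_le ht ω _ _).trans ((hslab ω hω (2 * n) (by omega) hB).trans (half_pow_eq _).le)
  · refine (hbad.add (hhalf.add hexp)).mono fun n hn => ?_
    refine annealed_le_of_good (measurableSet_Down ht _) (measurableSet_BadF ht _ _) ?_
    filter_upwards [hell] with ω hω hB
    have hc : ∀ y ∈ slabD ht (nL κ n) n,
        ENNReal.ofReal (κ / (Nat.sqrt n : ℝ)) ≤ quenchedLaw ω y (Up ht 1) := by
      intro y hy
      refine up_of_good hu hκ hω hB y hy.1 ?_
      have := hy.2.1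
      omega
    refine (down_le h1 ω hc).trans ?_
    refine add_le_add ?_ (one_sub_pow_le' hκ hn (by omega))
    refine le_trans (leave_good hκ hn (b := 1) (fun y hy => by have := hy.2.2; omega) hc
      (J := Finset.Ico (-(n : ℤ) + 1) 1) (fun y hy => Finset.mem_Ico.2 ?_) ?_) (half_pow_eq _).le
    · have h2 := hy.2.1
      have h3 := hy.2.2
      omega
    · simp

end Crest.Agent.R154.B9409
end

-- ▼ part R154/B9Fin_409

/-! R154 B9 (S7, S8): from the polynomial tail (QT) of the quenched escape probability to the law of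
large numbers with non-zero speed; reduction of S0220 to (QT) for coordinate directions and the
half-space property (HalfSpace) of 419 (helper409). -/

set_option autoImplicit false
set_option linter.unusedSectionVars false

namespace Crest.Agent.R154.B9409

open MeasureTheory ProbabilityTheory Filter Crest.ProbabilityR.RandomEnvironment Crest.Agent.R154
open Crest.Agent.R154.Ren263 Crest.Agent.R154.Mk561 Crest.Agent.R154.B2d
open scoped ENNReal Topology

variable {d : ℕ}

/-- height in the direction of the step `u` -/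
def htu (u : Step d) : Site d →+ ℤ where
  toFun x := if u.2 then x u.1 else -x u.1
  map_zero' := by simp
  map_add' x y := by split_ifs <;> simp [add_comm]

lemma htu_apply (u : Step d) (x : Site d) : htu u x = if u.2 then x u.1 else -x u.1 := rfl

lemma htu_self (u : Step d) : htu u (stepVec u) = 1 := by
  rw [htu_apply]
  unfold stepVec
  rw [Pi.single_eq_same]
  split_ifs <;> simp

lemma htu_le (u e : Step d) : |htu u (stepVec e)| ≤ 1 := by
  have h2 : |stepVec e u.1| ≤ 1 := by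
    simp only [stepVec, Pi.single_apply]
    split_ifs <;> simp
  rw [htu_apply]
  split_ifs
  · exact h2
  · rw [abs_neg]; exact h2

lemma sht_dirVec (u : Step d) (x : Site d) : sht (dirVec u) x = (htu u x : ℝ) := by
  unfold sht
  rw [sum_mul_dirVec (fun i => (x i : ℝ)) u, htu_apply]
  split_ifs <;> simp

/-- integer height of a mark -/
def hzu (u : Step d) (m : Mark d) : ℤ := htu u (stp m)

lemma hr_hzu (u : Step d) : hr (hzu u) = mht (dirVec u) := by
  funext m
  simp only [hr, hzu, mht, sht_dirVec]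

lemma H_add (f : Site d →+ ℤ) (M : MPath d) (n : ℕ) :
    H (fun m => f (stp m)) M n = f (pos 0 M n) := by
  simp [H, pos, map_sum]

lemma H_hzu (u : Step d) (M : MPath d) (n : ℕ) : H (hzu u) M n = htu u (mpath 0 M n) :=
  H_add (htu u) M n

lemma mpath_zero_zero (M : MPath d) : mpath 0 M 0 = 0 := pos_zero 0 M

lemma back_preimage (u : Step d) (K L : ℕ) :
    BackS (hzu u) K L = mpath 0 ⁻¹' Back (htu u) K L := by
  ext M
  simp only [BackS, Back, Set.mem_preimage, Set.mem_ofPred_eq, H_hzu, mpath_zero_zero, map_zero,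
    zero_add]

lemma slab_preimage (u : Step d) (L a : ℕ) :
    SlabS (hzu u) L a = mpath 0 ⁻¹' SlabP (htu u) L a := by
  ext M
  simp only [SlabS, SlabP, Set.mem_preimage, Set.mem_ofPred_eq, H_hzu, mpath_zero_zero, map_zero,
    sub_zero]

lemma stay_preimage (u : Step d) :
    Stay (hr (hzu u)) = (mpath 0 ⁻¹' Nt (htu u) : Set (MPath d)) := by
  ext M
  rw [mem_Stay_iff]
  simp only [Nt, Set.mem_preimage, Set.mem_ofPred_eq, H_hzu, mpath_zero_zero, map_zero]

section

variable {Q : Measure (Environment d)} [IsProbabilityMeasure Q]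


lemma measurableSet_velocityEvent (v : Fin d → ℝ) :
    MeasurableSet (velocityEvent v : Set (ℕ → Site d)) := by
  unfold velocityEvent
  refine measurableSet_tendsto _ fun n => ?_
  refine measurable_pi_lambda _ fun i => ?_
  have h1 : Measurable fun X : ℕ → Site d => X n i :=
    (measurable_pi_apply i).comp (measurable_pi_apply n)
  exact ((measurable_of_countable (fun z : ℤ => (z : ℝ))).comp h1).div_const _

/-- **S7 for a coordinate direction**: escape with probability one, positive probability of never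
going below the start and annealed decay of order 4 give a non-zero speed. -/
theorem velocity_of_decay {u : Step d}
    (hren : Renewal (mht (dirVec u)) (mkAnn 0 Q 0))
    (hesc : annealedProb Q 0 (escapeEvent (dirVec u)) = 1)
    (hp0 : annealedProb Q 0 (Nt (htu u)) ≠ 0)
    (D1 : DecayAt 4 fun n => annealed Q 0 (Back (htu u) n (2 * n))) {n0 : ℕ → ℕ} {C0 : ℕ}
    (hC0 : 1 ≤ C0) (hn0 : ∀ n, 1 ≤ n → n0 n ≤ C0 * n ^ 2)
    (D2 : DecayAt 4 fun n => annealed Q 0 (SlabP (htu u) (2 * n) (n0 n))) :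
    ∃ v : Fin d → ℝ, 0 < ∑ i, v i * dirVec u i ∧ annealedProb Q 0 (velocityEvent v) = 1 := by
  set P : Measure (MPath d) := mkAnn 0 Q 0 with hP
  have hR : Renewal (hr (hzu u)) P := by rw [hr_hzu]; exact hren
  have hp : P (Stay (hr (hzu u))) ≠ 0 := by
    rw [stay_preimage, hP, mkAnn_projection_zero Q 0 (measurableSet_Nt _)]
    exact hp0
  have hle : ∀ (m : Mark d), |hzu u m| ≤ 1 := fun m => htu_le u m.1
  have hNN : ∀ᵐ s ∂P, ∀ n, hzu u (s n) ≤ 1 :=
    Eventually.of_forall fun s n => (le_abs_self _).trans (hle (s n))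
  have hesc' : ∀ᵐ s ∂P, Tendsto (hgt (hr (hzu u)) s) atTop atTop := by
    have h1 : P (mpath 0 ⁻¹' escapeEvent (dirVec u)) = 1 := by
      rw [hP, mkAnn_projection_zero Q 0 (B2d.measurableSet_escapeEvent _)]; exact hesc
    have h2 := (mem_ae_iff_prob_eq_one
      ((measurable_mpath 0) (B2d.measurableSet_escapeEvent (dirVec u)))).2 h1
    filter_upwards [h2] with s hs
    rw [hr_hzu]
    exact (mpath_mem_escape (dirVec u) 0 s).1 hs
  have hunbR : ∀ᵐ s ∂P, ∀ M : ℝ, ∃ n, M ≤ hgt (hr (hzu u)) s n := by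
    filter_upwards [hesc'] with s hs M
    exact (hs.eventually_ge_atTop M).exists
  have hunb : ∀ᵐ s ∂P, ∀ j : ℕ, ∃ t, (j : ℤ) ≤ H (hzu u) s t := by
    filter_upwards [hunbR] with s hs j
    obtain ⟨n, hn⟩ := hs (j : ℝ)
    rw [hgt_eq] at hn
    exact ⟨n, by exact_mod_cast hn⟩
  have E1 : DecayAt 4 fun n => P (BackS (hzu u) n (2 * n)) := by
    refine D1.mono fun n _ => ?_
    rw [back_preimage, hP, mkAnn_projection_zero Q 0 (measurableSet_Back _ _ _),
      annealed_apply Q 0 (measurableSet_Back _ _ _)]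
  have E2 : DecayAt 4 fun n => P (SlabS (hzu u) (2 * n) (n0 n)) := by
    refine D2.mono fun n _ => ?_
    rw [slab_preimage, hP, mkAnn_projection_zero Q 0 (measurableSet_SlabP _ _ _),
      annealed_apply Q 0 (measurableSet_SlabP _ _ _)]
  have hmean := mean_time_at hR hp hNN hunb E1 hC0 hn0 E2
  have hT : ∀ᵐ s ∂P, s ∈ Stay (hr (hzu u)) → ∀ M : ℝ, ∃ n, M ≤ hgt (hr (hzu u)) s n := by
    filter_upwards [hunbR] with s hs _
    exact hs
  set g : Fin d → Mark d → ℤ := fun i m => Pi.evalAddMonoidHom (fun _ => ℤ) i (stp m) with hg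
  have hg1 : ∀ i m, |g i m| ≤ 1 := by
    intro i m
    simp only [hg, Pi.evalAddMonoidHom_apply, stp, stepVec, Pi.single_apply]
    split_ifs <;> simp
  have hgH : ∀ (i : Fin d) (M : MPath d) (n : ℕ), H (g i) M n = mpath 0 M n i := by
    intro i M n
    rw [hg, H_add]; rfl
  set v : Fin d → ℝ := fun i => mdis (hr (hzu u)) P (g i) / mlen (hr (hzu u)) P with hv
  have hlln : ∀ᵐ s ∂P, ∀ i, Tendsto (fun n : ℕ => (H (g i) s n : ℝ) / n) atTop (𝓝 (v i)) := by
    rw [ae_all_iff]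
    intro i
    filter_upwards [lln_letters hR hp hT hmean (g := g i)
      (Eventually.of_forall fun s n => hg1 i (s n)), hunbR] with s h1 h2
    exact h1 h2
  have hllnu : ∀ᵐ s ∂P, Tendsto (fun n : ℕ => (H (hzu u) s n : ℝ) / n) atTop
      (𝓝 (mdis (hr (hzu u)) P (hzu u) / mlen (hr (hzu u)) P)) := by
    filter_upwards [lln_letters hR hp hT hmean (g := hzu u)
      (Eventually.of_forall fun s n => hle (s n)), hunbR] with s h1 h2
    exact h1 h2
  have hml := mlen_pos hR hp hT hmean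
  have hmd := mdis_pos hR hp hT hmean (Eventually.of_forall fun s n => hle (s n))
  refine ⟨v, ?_, ?_⟩
  · obtain ⟨s, h1, h2⟩ := (hlln.and hllnu).exists
    have h3 : Tendsto (fun n : ℕ => (H (hzu u) s n : ℝ) / n) atTop
        (𝓝 (∑ i, v i * dirVec u i)) := by
      rw [sum_mul_dirVec]
      have h4 := h1 u.1
      by_cases hu2 : u.2
      · rw [if_pos hu2]
        refine h4.congr fun n => ?_
        rw [hgH, H_hzu, htu_apply, if_pos hu2]
      · rw [if_neg hu2]
        refine h4.neg.congr fun n => ?_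
        rw [hgH, H_hzu, htu_apply, if_neg hu2]
        push_cast; ring
    rw [tendsto_nhds_unique h3 h2]
    exact div_pos hmd (lt_of_lt_of_le one_pos hml)
  · rw [← mkAnn_projection_zero Q 0 (measurableSet_velocityEvent v), ← hP]
    refine (mem_ae_iff_prob_eq_one ((measurable_mpath 0) (measurableSet_velocityEvent v))).1 ?_
    filter_upwards [hlln] with s hs
    change Tendsto (fun n : ℕ => fun i => ((mpath 0 s n i : ℤ) : ℝ) / n) atTop (𝓝 v)
    rw [tendsto_pi_nhds]
    intro i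
    refine (hs i).congr fun n => ?_
    rw [hgH]


/-- (UE) + (FL) of order `2d + 4` + escape with probability one + `P(D = ∞) > 0` give a non-zero
speed. -/
theorem velocity_of_FL
    (hQ : ∀ z : Site d, MeasurePreserving (shiftEnv z) Q Q) {κ : ℝ} (hκ : 0 < κ)
    (hell : ∀ᵐ ω ∂Q, ∀ (x : Site d) (e : Step d), κ ≤ (ω x).1 e) {u : Step d}
    (hren : Renewal (mht (dirVec u)) (mkAnn 0 Q 0))
    (hesc : annealedProb Q 0 (escapeEvent (dirVec u)) = 1)
    (hp0 : annealedProb Q 0 (Nt (htu u)) ≠ 0) (hfl : FL Q (htu u) (2 * d + 4)) :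
    ∃ v : Fin d → ℝ, 0 < ∑ i, v i * dirVec u i ∧ annealedProb Q 0 (velocityEvent v) = 1 := by
  obtain ⟨D1, D2, _⟩ := decay_of_FL hQ (htu_self u) (htu_le u) hκ hell hfl
  have hC0 : 1 ≤ 4 * ⌈2 / κ + 1⌉₊ := by
    have : 0 < ⌈2 / κ + 1⌉₊ := Nat.ceil_pos.2 (by positivity)
    omega
  refine velocity_of_decay hren hesc hp0 D1 hC0 (n0 := fun n => nL κ (2 * n)) (fun n hn => ?_) D2
  have h1 := nL_le hκ (n := 2 * n) (by omega)
  have h2 : (2 / κ + 1 : ℝ) ≤ (⌈2 / κ + 1⌉₊ : ℝ) := Nat.le_ceil _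
  have h3 : (nL κ (2 * n) : ℝ) ≤ ((4 * ⌈2 / κ + 1⌉₊ * n ^ 2 : ℕ) : ℝ) := by
    push_cast at h1 ⊢
    calc (nL κ (2 * n) : ℝ) ≤ (2 / κ + 1) * (2 * (n : ℝ)) ^ 2 := h1
      _ ≤ (⌈2 / κ + 1⌉₊ : ℝ) * (2 * (n : ℝ)) ^ 2 := by gcongr
      _ = _ := by ring
  exact_mod_cast h3


end

/-- the velocity lies in the half space of the escape direction -/
lemma velocity_dot_pos {P : Measure (ℕ → Site d)} [IsProbabilityMeasure P] {l v : Fin d → ℝ}
    (hH : HalfSpace P l) (h1 : P (escapeEvent l) = 1) (hv0 : v ≠ 0)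
    (hv : ∀ᵐ X ∂P, X ∈ velocityEvent v) : 0 < ∑ i, v i * l i := by
  obtain ⟨w, hw, hae⟩ := escape_all hH h1
  by_contra hcon
  push Not at hcon
  obtain ⟨X, hX1, hX2⟩ := (hae.and hv).exists
  -- `l' = l - ε v`
  have hvv : 0 < ∑ i, v i * v i := by
    obtain ⟨i, hi⟩ : ∃ i, v i ≠ 0 := by
      by_contra h
      push Not at h
      exact hv0 (funext h)
    exact Finset.sum_pos' (fun i _ => mul_self_nonneg _)
      ⟨i, Finset.mem_univ i, mul_self_pos.2 hi⟩
  obtain ⟨ε, hε, hεw⟩ : ∃ ε : ℝ, 0 < ε ∧ 0 < ∑ i, w i * l i - ε * ∑ i, w i * v i := by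
    set a := ∑ i, w i * l i with ha
    set b := ∑ i, w i * v i with hb
    refine ⟨a / (2 * (|b| + 1)), by positivity, ?_⟩
    have h2 : a / (2 * (|b| + 1)) * b ≤ a / 2 := by
      rw [div_mul_eq_mul_div, div_le_div_iff₀ (by positivity) two_pos]
      have h3 : b ≤ |b| := le_abs_self b
      nlinarith [abs_nonneg b]
    linarith
  have h5 : X ∈ escapeEvent (fun i => l i - ε * v i) := by
    refine hX1 _ ?_
    have : ∑ i, w i * (l i - ε * v i) = ∑ i, w i * l i - ε * ∑ i, w i * v i := by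
      rw [Finset.mul_sum, ← Finset.sum_sub_distrib]
      exact Finset.sum_congr rfl fun i _ => by ring
    rw [this]; exact hεw
  have h6 : Tendsto (fun n : ℕ => ∑ i, (X n i : ℝ) * (l i - ε * v i)) atTop atTop := h5
  have h7 : Tendsto (fun n : ℕ => ∑ i, ((X n i : ℝ) / n) * (l i - ε * v i)) atTop
      (𝓝 (∑ i, v i * (l i - ε * v i))) := by
    refine tendsto_finsetSum _ fun i _ => ?_
    exact ((tendsto_pi_nhds.1 hX2) i).mul_const _
  have h8 : ∑ i, v i * (l i - ε * v i) < 0 := by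
    have : ∑ i, v i * (l i - ε * v i) = ∑ i, v i * l i - ε * ∑ i, v i * v i := by
      rw [Finset.mul_sum, ← Finset.sum_sub_distrib]
      exact Finset.sum_congr rfl fun i _ => by ring
    rw [this]
    have := mul_pos hε hvv
    linarith
  have h9 := h7.eventually_lt_const h8
  have h10 := h6.eventually_ge_atTop 0
  obtain ⟨n, hn1, hn2, hn3⟩ := (h9.and (h10.and (eventually_ge_atTop 1))).exists
  have hn' : (0 : ℝ) < n := by exact_mod_cast hn3
  have h11 : ∑ i, ((X n i : ℝ) / n) * (l i - ε * v i)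
      = (∑ i, (X n i : ℝ) * (l i - ε * v i)) / n := by
    rw [Finset.sum_div]
    exact Finset.sum_congr rfl fun i _ => by ring
  rw [h11] at hn1
  exact absurd (div_nonneg hn2 hn'.le) (not_le.2 hn1)

/-- uniform ellipticity of the product law -/
lemma ue_iid (ν : Measure (Row d)) [IsProbabilityMeasure ν]
    {κ : ℝ} (hν : ∀ᵐ p ∂ν, ∀ e : Step d, κ ≤ p.1 e) :
    ∀ᵐ ω ∂(iidEnvironmentLaw ν), ∀ (x : Site d) (e : Step d), κ ≤ (ω x).1 e := by
  rw [ae_all_iff]
  intro x
  have hmp := measurePreserving_eval_infinitePi (fun _ : Site d => ν) x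
  have h1 : ∀ᵐ p ∂((iidEnvironmentLaw ν).map (fun ω : Environment d => ω x)),
      ∀ e : Step d, κ ≤ p.1 e := by
    have : (iidEnvironmentLaw ν).map (fun ω : Environment d => ω x) = ν := hmp.map_eq
    rw [this]; exact hν
  exact ae_of_ae_map (measurable_pi_apply x).aemeasurable h1

/-- reduction of S0220 to coordinate directions -/
theorem S0220_of_velocity (ν : Measure (Row d)) [IsProbabilityMeasure ν]
    (ℓ : Fin d → ℝ) (htrans : annealedProb (iidEnvironmentLaw ν) 0 (escapeEvent ℓ) = 1)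
    (hH : HalfSpace (annealed (iidEnvironmentLaw ν) 0) ℓ)
    (hvel : ∀ u : Step d, annealedProb (iidEnvironmentLaw ν) 0 (escapeEvent (dirVec u)) = 1 →
      ∃ v : Fin d → ℝ, 0 < ∑ i, v i * dirVec u i ∧
        annealedProb (iidEnvironmentLaw ν) 0 (velocityEvent v) = 1) :
    ∃ v : Fin d → ℝ, 0 < ∑ i, v i * ℓ i ∧
      annealedProb (iidEnvironmentLaw ν) 0 (velocityEvent v) = 1 := by
  set Q := iidEnvironmentLaw ν with hQdef
  have h1 : annealed Q 0 (escapeEvent ℓ) = 1 := by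
    rw [annealed_apply Q 0 (B2d.measurableSet_escapeEvent ℓ)]; exact htrans
  obtain ⟨u, hu⟩ := exists_step_one hH h1
  rw [annealed_apply Q 0 (B2d.measurableSet_escapeEvent _)] at hu
  obtain ⟨v, hv1, hv2⟩ := hvel u hu
  refine ⟨v, ?_, hv2⟩
  have hv0 : v ≠ 0 := by
    rintro rfl
    simp at hv1
  refine velocity_dot_pos hH h1 hv0 ?_
  rw [← annealed_apply Q 0 (measurableSet_velocityEvent v)] at hv2
  exact (mem_ae_iff_prob_eq_one (measurableSet_velocityEvent v)).2 hv2


/-- **S0220 from the half-space property (B2) and (FL) for coordinate directions (B8)** -/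
theorem S0220_of_FL (ν : Measure (Row d)) [IsProbabilityMeasure ν]
    (κ : ℝ) (hκ : 0 < κ) (hν : ∀ᵐ p ∂ν, ∀ e : Step d, κ ≤ p.1 e)
    (ℓ : Fin d → ℝ) (htrans : annealedProb (iidEnvironmentLaw ν) 0 (escapeEvent ℓ) = 1)
    (hH : HalfSpace (annealed (iidEnvironmentLaw ν) 0) ℓ)
    (hfl : ∀ u : Step d, annealedProb (iidEnvironmentLaw ν) 0 (escapeEvent (dirVec u)) = 1 →
      annealedProb (iidEnvironmentLaw ν) 0 (Nt (htu u)) ≠ 0 ∧
        FL (iidEnvironmentLaw ν) (htu u) (2 * d + 4)) :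
    ∃ v : Fin d → ℝ, 0 < ∑ i, v i * ℓ i ∧
      annealedProb (iidEnvironmentLaw ν) 0 (velocityEvent v) = 1 :=
  S0220_of_velocity ν ℓ htrans hH fun u hu =>
    velocity_of_FL (fun z => Q561.iid_shift ν z) hκ (ue_iid ν hν)
      (renewal_iid ν 0 (dirVec u)) hu (hfl u hu).1 (hfl u hu).2

end Crest.Agent.R154.B9409
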