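import Mathlib

/-! Row 154, B8, step (R) of the composition: windows of ratio `R` lose only `ε log R`.
Abstract kernel system (Mathlib only). -/

set_option autoImplicit false
set_option linter.unusedSectionVars false
set_option linter.deprecated false

namespace Crest.Agent.R154.RatioR872

open MeasureTheory ProbabilityTheory Set Filter
open scoped ENNReal

/-- quenched natural climbs as random kernels: `G a b ω x y` = quenched mass, from the site `x` of
level `a`, of the natural climb `N(a,b)` with exit site `y` of level `b`; `F a` = rows below level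
`a`, `H a` = rows read by natural climbs from level `a`. -/
structure KerSys (S : Type*) {Ω : Type*} {m0 : MeasurableSpace Ω} (P : Measure Ω) where
  F : Filtration ℕ m0
  H : ℕ → MeasurableSpace Ω
  H_le : ∀ a, H a ≤ m0
  indep : ∀ a, Indep (F a) (H a) P
  L : ℕ → Set S
  G : ℕ → ℕ → Ω → S → S → ℝ≥0∞
  measF : ∀ a b x y, a ≤ b → Measurable[F b] (fun ω => G a b ω x y)
  measH : ∀ a b x y, a ≤ b → Measurable[H a] (fun ω => G a b ω x y)
  supp : ∀ a b ω x y, y ∉ L b → G a b ω x y = 0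
  mass : ∀ a b ω x, a ≤ b → ∑' y, G a b ω x y ≤ 1
  anti : ∀ a b c ω x, a ≤ b → b ≤ c → ∑' z, G a c ω x z ≤ ∑' y, G a b ω x y
  comp : ∀ a b c, a ≤ b → b ≤ c → ∀ᵐ ω ∂P, ∀ x z, ∑' y, G a b ω x y * G b c ω y z ≤ G a c ω x z
  h : ℕ → ℝ≥0∞
  h_eq : ∀ a b x, a ≤ b → x ∈ L a → ∫⁻ ω, ∑' y, G a b ω x y ∂P = h (b - a)
  K : ℕ → ℕ → S → S → ℝ≥0∞
  second : ∀ a b x x', a ≤ b → x ∈ L a → x' ∈ L a →
    ∫⁻ ω, (∑' y, G a b ω x y) * (∑' y, G a b ω x' y) ∂P ≤ h (b - a) ^ 2 + K a b x x'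

namespace KerSys

variable {S : Type*} [Countable S] {Ω : Type*} {m0 : MeasurableSpace Ω} {P : Measure Ω}
variable (A : KerSys S P)

lemma indep_mul {a : ℕ} {f g : Ω → ℝ≥0∞} (hf : Measurable[A.F a] f) (hg : Measurable[A.H a] g) :
    ∫⁻ ω, f ω * g ω ∂P = (∫⁻ ω, f ω ∂P) * ∫⁻ ω, g ω ∂P :=
  lintegral_mul_eq_lintegral_mul_lintegral_of_independent_measurableSpace
    (A.F.le a) (A.H_le a) (A.indep a) hf hg

/-- push a random weight through a natural climb -/
noncomputable def push (a b : ℕ) (w : Ω → S → ℝ≥0∞) (ω : Ω) (y : S) : ℝ≥0∞ :=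
  ∑' x, w ω x * A.G a b ω x y

/-- total mass -/
noncomputable def tot (w : Ω → S → ℝ≥0∞) (ω : Ω) : ℝ≥0∞ := ∑' x, w ω x

/-- mass of the natural climb from one site -/
noncomputable def N (a b : ℕ) (ω : Ω) (x : S) : ℝ≥0∞ := ∑' y, A.G a b ω x y

lemma tot_push (a b : ℕ) (w : Ω → S → ℝ≥0∞) (ω : Ω) :
    tot (A.push a b w) ω = ∑' x, w ω x * A.N a b ω x := by
  unfold tot push N
  rw [ENNReal.tsum_comm]
  refine tsum_congr fun x => ?_
  rw [ENNReal.tsum_mul_left]

lemma N_le_one {a b : ℕ} (h : a ≤ b) (ω : Ω) (x : S) : A.N a b ω x ≤ 1 := A.mass a b ω x h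

lemma meas_N_H {a b : ℕ} (h : a ≤ b) (x : S) : Measurable[A.H a] (fun ω => A.N a b ω x) := by
  unfold N
  exact Measurable.ennreal_tsum fun y => A.measH a b x y h


lemma tot_push_le {a b : ℕ} (h : a ≤ b) (w : Ω → S → ℝ≥0∞) (ω : Ω) :
    tot (A.push a b w) ω ≤ tot w ω := by
  rw [tot_push]
  refine ENNReal.tsum_le_tsum fun x => ?_
  calc w ω x * A.N a b ω x ≤ w ω x * 1 := by gcongr; exact A.N_le_one h ω x
    _ = w ω x := mul_one _

/-- a random weight at level `a` -/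
structure Wt (a : ℕ) (w : Ω → S → ℝ≥0∞) : Prop where
  meas : ∀ x, Measurable[A.F a] (fun ω => w ω x)
  supp : ∀ ω x, x ∉ A.L a → w ω x = 0

variable {A}

lemma Wt.meas_tot {a : ℕ} {w : Ω → S → ℝ≥0∞} (hw : A.Wt a w) :
    Measurable[A.F a] (fun ω => tot w ω) := by
  unfold tot
  exact Measurable.ennreal_tsum fun x => hw.meas x

lemma Wt.push {a b : ℕ} (hab : a ≤ b) {w : Ω → S → ℝ≥0∞} (hw : A.Wt a w) :
    A.Wt b (A.push a b w) where
  meas y := by
    unfold KerSys.push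
    refine Measurable.ennreal_tsum fun x => ?_
    exact ((hw.meas x).mono (A.F.mono hab) le_rfl).mul (A.measF a b x y hab)
  supp ω y hy := by
    unfold KerSys.push
    simp [A.supp a b ω _ y hy]

/-- first moment -/
lemma first_moment {a b : ℕ} (hab : a ≤ b) {w : Ω → S → ℝ≥0∞} (hw : A.Wt a w)
    {φ : Ω → ℝ≥0∞} (hφ : Measurable[A.F a] φ) :
    ∫⁻ ω, φ ω * tot (A.push a b w) ω ∂P = A.h (b - a) * ∫⁻ ω, φ ω * tot w ω ∂P := by
  have hφ0 : Measurable φ := hφ.mono (A.F.le a) le_rfl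
  have h1 : ∀ ω, φ ω * tot (A.push a b w) ω = ∑' x, (φ ω * w ω x) * A.N a b ω x := by
    intro ω
    rw [tot_push, ← ENNReal.tsum_mul_left]
    exact tsum_congr fun x => by ring
  have h2 : ∀ ω, φ ω * tot w ω = ∑' x, φ ω * w ω x := by
    intro ω
    rw [tot, ← ENNReal.tsum_mul_left]
  simp_rw [h1, h2]
  rw [lintegral_tsum, lintegral_tsum, ← ENNReal.tsum_mul_left]
  · refine tsum_congr fun x => ?_
    have hm1 : Measurable[A.F a] fun ω => φ ω * w ω x := hφ.mul (hw.meas x)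
    rw [A.indep_mul hm1 (A.meas_N_H hab x)]
    by_cases hx : x ∈ A.L a
    · rw [mul_comm]
      congr 1
      exact A.h_eq a b x hab hx
    · simp [hw.supp _ x hx]
  · intro x
    exact (hφ0.mul ((hw.meas x).mono (A.F.le a) le_rfl)).aemeasurable
  · intro x
    exact ((hφ0.mul ((hw.meas x).mono (A.F.le a) le_rfl)).mul
      ((A.meas_N_H hab x).mono (A.H_le a) le_rfl)).aemeasurable

/-- the pair energy of a random weight -/
noncomputable def energy (A : KerSys S P) (a b : ℕ) (w : Ω → S → ℝ≥0∞) (ω : Ω) : ℝ≥0∞ :=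
  ∑' x, ∑' x', w ω x * w ω x' * A.K a b x x'

/-- second moment -/
lemma second_moment {a b : ℕ} (hab : a ≤ b) {w : Ω → S → ℝ≥0∞} (hw : A.Wt a w)
    {φ : Ω → ℝ≥0∞} (hφ : Measurable[A.F a] φ) :
    ∫⁻ ω, φ ω * tot (A.push a b w) ω ^ 2 ∂P
      ≤ A.h (b - a) ^ 2 * ∫⁻ ω, φ ω * tot w ω ^ 2 ∂P + ∫⁻ ω, φ ω * A.energy a b w ω ∂P := by
  have hφ0 : Measurable φ := hφ.mono (A.F.le a) le_rfl
  have hw0 : ∀ x, Measurable fun ω => w ω x := fun x => (hw.meas x).mono (A.F.le a) le_rfl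
  have hN0 : ∀ x, Measurable fun ω => A.N a b ω x :=
    fun x => (A.meas_N_H hab x).mono (A.H_le a) le_rfl
  have h1 : ∀ ω, φ ω * tot (A.push a b w) ω ^ 2
      = ∑' x, ∑' x', (φ ω * w ω x * w ω x') * (A.N a b ω x * A.N a b ω x') := by
    intro ω
    rw [tot_push, sq, ← ENNReal.tsum_mul_right, ← ENNReal.tsum_mul_left]
    refine tsum_congr fun x => ?_
    rw [← ENNReal.tsum_mul_left, ← ENNReal.tsum_mul_left]
    exact tsum_congr fun x' => by ring
  have h2 : ∀ ω, φ ω * tot w ω ^ 2 = ∑' x, ∑' x', (φ ω * w ω x * w ω x') := by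
    intro ω
    rw [tot, sq, ← ENNReal.tsum_mul_right, ← ENNReal.tsum_mul_left]
    refine tsum_congr fun x => ?_
    rw [← ENNReal.tsum_mul_left, ← ENNReal.tsum_mul_left]
    exact tsum_congr fun x' => by ring
  have h3 : ∀ ω, φ ω * A.energy a b w ω
      = ∑' x, ∑' x', (φ ω * w ω x * w ω x') * A.K a b x x' := by
    intro ω
    rw [energy, ← ENNReal.tsum_mul_left]
    refine tsum_congr fun x => ?_
    rw [← ENNReal.tsum_mul_left]
    exact tsum_congr fun x' => by ring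
  have hm2 : ∀ x x', Measurable fun ω => φ ω * w ω x * w ω x' :=
    fun x x' => (hφ0.mul (hw0 x)).mul (hw0 x')
  have hm3 : ∀ x x', Measurable fun ω =>
      (φ ω * w ω x * w ω x') * (A.N a b ω x * A.N a b ω x') :=
    fun x x' => (hm2 x x').mul ((hN0 x).mul (hN0 x'))
  have hm4 : ∀ x x', Measurable fun ω => (φ ω * w ω x * w ω x') * A.K a b x x' :=
    fun x x' => (hm2 x x').mul_const _
  have hF2 : ∀ x x', Measurable[A.F a] fun ω => φ ω * w ω x * w ω x' :=
    fun x x' => (hφ.mul (hw.meas x)).mul (hw.meas x')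
  have hH2 : ∀ x x', Measurable[A.H a] fun ω => A.N a b ω x * A.N a b ω x' :=
    fun x x' => (A.meas_N_H hab x).mul (A.meas_N_H hab x')
  simp_rw [h1, h2, h3]
  rw [lintegral_tsum (fun x => (Measurable.tsum fun x' => hm3 x x').aemeasurable),
    lintegral_tsum (fun x => (Measurable.tsum fun x' => hm2 x x').aemeasurable),
    lintegral_tsum (fun x => (Measurable.tsum fun x' => hm4 x x').aemeasurable),
    ← ENNReal.tsum_mul_left, ← ENNReal.tsum_add]
  refine ENNReal.tsum_le_tsum fun x => ?_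
  rw [lintegral_tsum (fun x' => (hm3 x x').aemeasurable),
    lintegral_tsum (fun x' => (hm2 x x').aemeasurable),
    lintegral_tsum (fun x' => (hm4 x x').aemeasurable),
    ← ENNReal.tsum_mul_left, ← ENNReal.tsum_add]
  refine ENNReal.tsum_le_tsum fun x' => ?_
  rw [A.indep_mul (hF2 x x') (hH2 x x'), lintegral_mul_const _ (hm2 x x')]
  by_cases hx : x ∈ A.L a
  · by_cases hx' : x' ∈ A.L a
    · calc (∫⁻ ω, φ ω * w ω x * w ω x' ∂P) * ∫⁻ ω, A.N a b ω x * A.N a b ω x' ∂P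
          ≤ (∫⁻ ω, φ ω * w ω x * w ω x' ∂P) * (A.h (b - a) ^ 2 + A.K a b x x') := by
            gcongr
            exact A.second a b x x' hab hx hx'
        _ = _ := by ring
    · simp [hw.supp _ x' hx']
  · simp [hw.supp _ x hx]

/-- mixed moment -/
lemma energy_push {a b c : ℕ} (hab : a ≤ b) {w : Ω → S → ℝ≥0∞} (hw : A.Wt a w)
    {φ : Ω → ℝ≥0∞} (hφ : Measurable[A.F a] φ) {ε : ℝ≥0∞}
    (hε : ∀ x ∈ A.L a, ∀ x' ∈ A.L a,
      ∑' z, ∑' z', (∫⁻ ω, A.G a b ω x z * A.G a b ω x' z' ∂P) * A.K b c z z' ≤ ε) :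
    ∫⁻ ω, φ ω * A.energy b c (A.push a b w) ω ∂P ≤ ε * ∫⁻ ω, φ ω * tot w ω ^ 2 ∂P := by
  have hφ0 : Measurable φ := hφ.mono (A.F.le a) le_rfl
  have hw0 : ∀ x, Measurable fun ω => w ω x := fun x => (hw.meas x).mono (A.F.le a) le_rfl
  have hG0 : ∀ x z, Measurable fun ω => A.G a b ω x z :=
    fun x z => (A.measH a b x z hab).mono (A.H_le a) le_rfl
  have h1 : ∀ ω, φ ω * A.energy b c (A.push a b w) ω
      = ∑' x, ∑' x', ∑' z, ∑' z', ((φ ω * w ω x * w ω x') * (A.G a b ω x z * A.G a b ω x' z'))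
        * A.K b c z z' := by
    intro ω
    have e1 : ∀ z z', A.push a b w ω z * A.push a b w ω z' * A.K b c z z'
        = ∑' x, ∑' x', (w ω x * w ω x') * (A.G a b ω x z * A.G a b ω x' z') * A.K b c z z' := by
      intro z z'
      unfold push
      rw [← ENNReal.tsum_mul_right, ← ENNReal.tsum_mul_right]
      refine tsum_congr fun x => ?_
      rw [← ENNReal.tsum_mul_left, ← ENNReal.tsum_mul_right]
      exact tsum_congr fun x' => by ring
    rw [energy]
    simp_rw [e1]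
    have e2 : ∑' z, ∑' z', ∑' x, ∑' x', (w ω x * w ω x') * (A.G a b ω x z * A.G a b ω x' z')
          * A.K b c z z'
        = ∑' x, ∑' x', ∑' z, ∑' z', (w ω x * w ω x') * (A.G a b ω x z * A.G a b ω x' z')
          * A.K b c z z' := by
      calc _ = ∑' z, ∑' x, ∑' z', ∑' x', (w ω x * w ω x') * (A.G a b ω x z * A.G a b ω x' z')
          * A.K b c z z' := tsum_congr fun z => ENNReal.tsum_comm
        _ = ∑' x, ∑' z, ∑' z', ∑' x', (w ω x * w ω x') * (A.G a b ω x z * A.G a b ω x' z')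
          * A.K b c z z' := ENNReal.tsum_comm
        _ = ∑' x, ∑' z, ∑' x', ∑' z', (w ω x * w ω x') * (A.G a b ω x z * A.G a b ω x' z')
          * A.K b c z z' := tsum_congr fun x => tsum_congr fun z => ENNReal.tsum_comm
        _ = _ := tsum_congr fun x => ENNReal.tsum_comm
    rw [e2, ← ENNReal.tsum_mul_left]
    refine tsum_congr fun x => ?_
    rw [← ENNReal.tsum_mul_left]
    refine tsum_congr fun x' => ?_
    rw [← ENNReal.tsum_mul_left]
    refine tsum_congr fun z => ?_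
    rw [← ENNReal.tsum_mul_left]
    exact tsum_congr fun z' => by ring
  have h2 : ∀ ω, φ ω * tot w ω ^ 2 = ∑' x, ∑' x', (φ ω * w ω x * w ω x') := by
    intro ω
    rw [tot, sq, ← ENNReal.tsum_mul_right, ← ENNReal.tsum_mul_left]
    refine tsum_congr fun x => ?_
    rw [← ENNReal.tsum_mul_left, ← ENNReal.tsum_mul_left]
    exact tsum_congr fun x' => by ring
  have hm2 : ∀ x x', Measurable fun ω => φ ω * w ω x * w ω x' :=
    fun x x' => (hφ0.mul (hw0 x)).mul (hw0 x')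
  have hm4 : ∀ x x' z z', Measurable fun ω => ((φ ω * w ω x * w ω x') *
      (A.G a b ω x z * A.G a b ω x' z')) * A.K b c z z' :=
    fun x x' z z' => ((hm2 x x').mul ((hG0 x z).mul (hG0 x' z'))).mul_const _
  simp_rw [h1, h2]
  rw [lintegral_tsum (fun x => (Measurable.tsum fun x' => Measurable.tsum fun z =>
      Measurable.tsum fun z' => hm4 x x' z z').aemeasurable),
    lintegral_tsum (fun x => (Measurable.tsum fun x' => hm2 x x').aemeasurable),
    ← ENNReal.tsum_mul_left]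
  refine ENNReal.tsum_le_tsum fun x => ?_
  rw [lintegral_tsum (fun x' => (Measurable.tsum fun z =>
      Measurable.tsum fun z' => hm4 x x' z z').aemeasurable),
    lintegral_tsum (fun x' => (hm2 x x').aemeasurable), ← ENNReal.tsum_mul_left]
  refine ENNReal.tsum_le_tsum fun x' => ?_
  by_cases hx : x ∈ A.L a
  · by_cases hx' : x' ∈ A.L a
    · rw [lintegral_tsum (fun z => (Measurable.tsum fun z' => hm4 x x' z z').aemeasurable)]
      have h5 : ∀ z, ∫⁻ ω, ∑' z', ((φ ω * w ω x * w ω x') *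
          (A.G a b ω x z * A.G a b ω x' z')) * A.K b c z z' ∂P
          = ∑' z', (∫⁻ ω, φ ω * w ω x * w ω x' ∂P) *
            ((∫⁻ ω, A.G a b ω x z * A.G a b ω x' z' ∂P) * A.K b c z z') := by
        intro z
        rw [lintegral_tsum (fun z' => (hm4 x x' z z').aemeasurable)]
        refine tsum_congr fun z' => ?_
        have hk1 : Measurable fun ω => (φ ω * w ω x * w ω x') *
            (A.G a b ω x z * A.G a b ω x' z') := (hm2 x x').mul ((hG0 x z).mul (hG0 x' z'))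
        have hk2 : Measurable[A.F a] fun ω => φ ω * w ω x * w ω x' :=
          (hφ.mul (hw.meas x)).mul (hw.meas x')
        have hk3 : Measurable[A.H a] fun ω => A.G a b ω x z * A.G a b ω x' z' :=
          (A.measH a b x z hab).mul (A.measH a b x' z' hab)
        rw [lintegral_mul_const _ hk1, A.indep_mul hk2 hk3, mul_assoc]
      simp_rw [h5, ENNReal.tsum_mul_left]
      rw [mul_comm]
      gcongr
      exact hε x hx x' hx'
    · simp [hw.supp _ x' hx']
  · simp [hw.supp _ x hx]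

lemma two_mul_add_sq_le {a b : ℝ≥0∞} (ha : a ≠ ∞) (hb : b ≠ ∞) :
    2 * (a * b) + (b - a) ^ 2 ≤ a ^ 2 + b ^ 2 := by
  lift a to NNReal using ha
  lift b to NNReal using hb
  norm_cast
  rcases le_total b a with h | h
  · rw [tsub_eq_zero_of_le h]
    rw [← NNReal.coe_le_coe]
    push_cast
    nlinarith [sq_nonneg ((a:ℝ) - b)]
  · obtain ⟨t, rfl⟩ := exists_add_of_le h
    rw [add_tsub_cancel_left]
    rw [← NNReal.coe_le_coe]
    push_cast
    nlinarith [sq_nonneg ((a:ℝ)), sq_nonneg (t:ℝ)]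

/-- variance bound (lower deviations) for the second climb -/
lemma variance [IsProbabilityMeasure P] {a b c : ℕ} (hab : a ≤ b) (hbc : b ≤ c) {w : Ω → S → ℝ≥0∞} (hw : A.Wt a w)
    (hw1 : ∀ ω, tot w ω ≤ 1)
    {φ : Ω → ℝ≥0∞} (hφ : Measurable[A.F a] φ) (hφ1 : ∀ ω, φ ω ≤ 1) {ε : ℝ≥0∞}
    (hε : ∀ x ∈ A.L a, ∀ x' ∈ A.L a,
      ∑' z, ∑' z', (∫⁻ ω, A.G a b ω x z * A.G a b ω x' z' ∂P) * A.K b c z z' ≤ ε)
    (hh : A.h (c - b) ≤ 1) :
    ∫⁻ ω, φ ω * (A.h (c - b) * tot (A.push a b w) ω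
        - tot (A.push b c (A.push a b w)) ω) ^ 2 ∂P ≤ ε * ∫⁻ ω, φ ω ∂P := by
  set ρ := A.push a b w with hρ
  have hρW : A.Wt b ρ := hw.push hab
  set s : Ω → ℝ≥0∞ := tot ρ with hs
  set m : Ω → ℝ≥0∞ := tot (A.push b c ρ) with hm
  set η := A.h (c - b) with hη
  have hsm : Measurable[A.F b] s := hρW.meas_tot
  have hmm : Measurable[A.F c] m := (hρW.push hbc).meas_tot
  have hs1 : ∀ ω, s ω ≤ 1 := fun ω => (A.tot_push_le hab w ω).trans (hw1 ω)
  have hm1 : ∀ ω, m ω ≤ 1 := fun ω => (A.tot_push_le hbc ρ ω).trans (hs1 ω)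
  have hφb : Measurable[A.F b] φ := hφ.mono (A.F.mono hab) le_rfl
  have hφ0 : Measurable φ := hφ.mono (A.F.le a) le_rfl
  have hs0 : Measurable s := hsm.mono (A.F.le b) le_rfl
  have hm0' : Measurable m := hmm.mono (A.F.le c) le_rfl
  have hA1 : Measurable fun ω => φ ω * s ω * m ω := (hφ0.mul hs0).mul hm0'
  have hA2 : Measurable fun ω => 2 * η * (φ ω * s ω * m ω) := hA1.const_mul _
  have hA3 : Measurable fun ω => φ ω * m ω ^ 2 := hφ0.mul (hm0'.pow_const 2)
  have hA4 : Measurable fun ω => φ ω * s ω ^ 2 := hφ0.mul (hs0.pow_const 2)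
  have e1 : ∫⁻ ω, (φ ω * s ω) * m ω ∂P = η * ∫⁻ ω, (φ ω * s ω) * s ω ∂P :=
    first_moment hbc hρW (hφb.mul hsm)
  have e2 := second_moment hbc hρW hφb
  have e3 : ∫⁻ ω, φ ω * A.energy b c ρ ω ∂P ≤ ε * ∫⁻ ω, φ ω * tot w ω ^ 2 ∂P :=
    energy_push hab hw hφ hε
  have e4 : ∫⁻ ω, φ ω * tot w ω ^ 2 ∂P ≤ ∫⁻ ω, φ ω ∂P := by
    refine lintegral_mono fun ω => ?_
    calc φ ω * tot w ω ^ 2 ≤ φ ω * 1 ^ 2 := by gcongr; exact hw1 ω
      _ = φ ω := by simp
  have hfin : ∫⁻ ω, φ ω * s ω ^ 2 ∂P ≠ ∞ := by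
    refine ne_top_of_le_ne_top ENNReal.one_ne_top ?_
    calc ∫⁻ ω, φ ω * s ω ^ 2 ∂P ≤ ∫⁻ _, 1 ∂P := by
          refine lintegral_mono fun ω => ?_
          calc φ ω * s ω ^ 2 ≤ 1 * 1 ^ 2 := by gcongr; exact hφ1 ω; exact hs1 ω
            _ = 1 := by simp
      _ = 1 := by simp
  have hηt : η ≠ ∞ := ne_top_of_le_ne_top ENNReal.one_ne_top hh
  have key : 2 * (η ^ 2 * ∫⁻ ω, φ ω * s ω ^ 2 ∂P) + ∫⁻ ω, φ ω * (η * s ω - m ω) ^ 2 ∂P
      ≤ 2 * (η ^ 2 * ∫⁻ ω, φ ω * s ω ^ 2 ∂P) + ε * ∫⁻ ω, φ ω ∂P := by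
    calc 2 * (η ^ 2 * ∫⁻ ω, φ ω * s ω ^ 2 ∂P) + ∫⁻ ω, φ ω * (η * s ω - m ω) ^ 2 ∂P
        = ∫⁻ ω, (2 * η * ((φ ω * s ω) * m ω) + φ ω * (η * s ω - m ω) ^ 2) ∂P := by
          rw [lintegral_add_left hA2, lintegral_const_mul _ hA1, e1]
          congr 1
          have : ∀ ω, φ ω * s ω * s ω = φ ω * s ω ^ 2 := fun ω => by ring
          simp_rw [this]
          ring
      _ ≤ ∫⁻ ω, (φ ω * m ω ^ 2 + η ^ 2 * (φ ω * s ω ^ 2)) ∂P := by
          refine lintegral_mono fun ω => ?_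
          have h1 := two_mul_add_sq_le (a := m ω) (b := η * s ω)
            (ne_top_of_le_ne_top ENNReal.one_ne_top (hm1 ω))
            (ENNReal.mul_ne_top hηt (ne_top_of_le_ne_top ENNReal.one_ne_top (hs1 ω)))
          calc 2 * η * ((φ ω * s ω) * m ω) + φ ω * (η * s ω - m ω) ^ 2
              = φ ω * (2 * (m ω * (η * s ω)) + (η * s ω - m ω) ^ 2) := by ring
            _ ≤ φ ω * (m ω ^ 2 + (η * s ω) ^ 2) := by gcongr
            _ = _ := by ring
      _ = ∫⁻ ω, φ ω * m ω ^ 2 ∂P + η ^ 2 * ∫⁻ ω, φ ω * s ω ^ 2 ∂P := by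
          rw [lintegral_add_left hA3, lintegral_const_mul _ hA4]
      _ ≤ (η ^ 2 * ∫⁻ ω, φ ω * s ω ^ 2 ∂P + ε * ∫⁻ ω, φ ω ∂P)
          + η ^ 2 * ∫⁻ ω, φ ω * s ω ^ 2 ∂P := by
          gcongr
          refine e2.trans ?_
          gcongr
          exact e3.trans (by gcongr)
      _ = _ := by ring
  refine (ENNReal.add_le_add_iff_left ?_).1 key
  exact ENNReal.mul_ne_top (by simp) (ENNReal.mul_ne_top (ENNReal.pow_ne_top hηt) hfin)

/-- **one climb**: from a random weight of total mass one (on `φ ≠ 0`) at level `a`, with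
conditional probability at least `p/2` the natural climb to level `b` has quenched mass `≥ p/2`. -/
lemma good_prob [IsProbabilityMeasure P] {a b : ℕ} (hab : a ≤ b) {w : Ω → S → ℝ≥0∞}
    (hw : A.Wt a w) (hw1 : ∀ᵐ ω ∂P, tot w ω = 1) {p : ℝ≥0∞} (hp : p ≤ A.h (b - a))
    (hs1 : ∀ ω, tot w ω ≤ 1)
    {B : Set Ω} (hB : MeasurableSet[A.F a] B) :
    p / 2 * P B ≤ P (B ∩ {ω | p / 2 ≤ tot (A.push a b w) ω}) := by
  have hB0 : MeasurableSet B := A.F.le a _ hB
  have hφ : Measurable[A.F a] (B.indicator (1 : Ω → ℝ≥0∞)) :=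
    (@measurable_one _ _ _ (A.F a) _).indicator hB
  have e := first_moment hab hw hφ
  have hsm : Measurable (tot (A.push a b w)) := ((hw.push hab).meas_tot).mono (A.F.le b) le_rfl
  have hE : MeasurableSet {ω | p / 2 ≤ tot (A.push a b w) ω} := measurableSet_le measurable_const hsm
  have hp1 : p ≤ 1 := by
    by_contra hcon
    rw [not_le] at hcon
    have h1 : A.h (b - a) * ∫⁻ ω, 1 * tot w ω ∂P = ∫⁻ ω, 1 * tot (A.push a b w) ω ∂P :=
      (first_moment hab hw (φ := fun _ => 1) (@measurable_const _ _ _ (A.F a) _)).symm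
    have h2 : ∫⁻ ω, 1 * tot w ω ∂P = 1 := by
      rw [lintegral_congr_ae (g := fun _ => 1)]
      · simp
      · filter_upwards [hw1] with ω hω
        rw [hω, one_mul]
    have h3 : ∫⁻ ω, 1 * tot (A.push a b w) ω ∂P ≤ 1 := by
      calc _ ≤ ∫⁻ _, (1:ℝ≥0∞) ∂P := lintegral_mono fun ω => by
            rw [one_mul]; exact (A.tot_push_le hab w ω).trans (hs1 ω)
        _ = 1 := by simp
    rw [h2, mul_one] at h1
    exact absurd (hcon.trans_le hp) (by rw [h1]; exact not_lt.2 h3)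
  have l1 : p * P B ≤ ∫⁻ ω, B.indicator 1 ω * tot (A.push a b w) ω ∂P := by
    rw [e]
    have : ∫⁻ ω, B.indicator 1 ω * tot w ω ∂P = P B := by
      rw [← lintegral_indicator_one hB0]
      refine lintegral_congr_ae ?_
      filter_upwards [hw1] with ω hω
      rw [hω, mul_one]
    rw [this]
    gcongr
  have l2 : ∫⁻ ω, B.indicator 1 ω * tot (A.push a b w) ω ∂P
      ≤ P (B ∩ {ω | p / 2 ≤ tot (A.push a b w) ω}) + p / 2 * P B := by
    calc ∫⁻ ω, B.indicator 1 ω * tot (A.push a b w) ω ∂P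
        ≤ ∫⁻ ω, ((B ∩ {ω | p / 2 ≤ tot (A.push a b w) ω}).indicator 1 ω
            + p / 2 * B.indicator 1 ω) ∂P := by
          refine lintegral_mono fun ω => ?_
          by_cases h1 : ω ∈ B
          · by_cases h2 : p / 2 ≤ tot (A.push a b w) ω
            · have h3 : ω ∈ B ∩ {ω | p / 2 ≤ tot (A.push a b w) ω} := ⟨h1, h2⟩
              rw [indicator_of_mem h1, indicator_of_mem h3]
              simp only [Pi.one_apply, one_mul, mul_one]
              exact ((A.tot_push_le hab w ω).trans (hs1 ω)).trans le_self_add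
            · rw [indicator_of_mem h1]
              simp only [Pi.one_apply, one_mul, mul_one]
              exact (not_le.1 h2).le.trans le_add_self
          · rw [indicator_of_notMem h1]
            simp
      _ = _ := by
          rw [lintegral_add_left (measurable_one.indicator (hB0.inter hE)),
            lintegral_indicator_one (hB0.inter hE),
            lintegral_const_mul _ (measurable_one.indicator hB0), lintegral_indicator_one hB0]
  have l3 := l1.trans l2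
  have hpt : p / 2 * P B ≠ ∞ := ENNReal.mul_ne_top
    (ENNReal.div_ne_top (ne_top_of_le_ne_top ENNReal.one_ne_top hp1) (by simp)) (measure_ne_top _ _)
  have h4 : p * P B = p / 2 * P B + p / 2 * P B := by
    rw [← add_mul, ENNReal.add_halves]
  rw [h4] at l3
  exact (ENNReal.add_le_add_iff_right hpt).1 l3

/-- **second climb**: off probability `16 ε / p^4` the mass `s ≥ p/2` continues to level `c`. -/
lemma bad_second [IsProbabilityMeasure P] {a b c : ℕ} (hab : a ≤ b) (hbc : b ≤ c)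
    {w : Ω → S → ℝ≥0∞} (hw : A.Wt a w)
    (hw1 : ∀ ω, tot w ω ≤ 1) {ε : ℝ≥0∞}
    (hε : ∀ x ∈ A.L a, ∀ x' ∈ A.L a,
      ∑' z, ∑' z', (∫⁻ ω, A.G a b ω x z * A.G a b ω x' z' ∂P) * A.K b c z z' ≤ ε)
    (hh : A.h (c - b) ≤ 1) {p : ℝ≥0∞} (hp : p ≤ A.h (c - b)) (hp0 : p ≠ 0)
    {B : Set Ω} (hB : MeasurableSet[A.F a] B) :
    P (B ∩ {ω | p / 2 ≤ tot (A.push a b w) ω ∧ tot (A.push b c (A.push a b w)) ω < p ^ 2 / 4})
      ≤ 16 * ε / p ^ 4 * P B := by
  have hB0 : MeasurableSet B := A.F.le a _ hB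
  have hp1 : p ≤ 1 := hp.trans hh
  have hpt : p ≠ ∞ := ne_top_of_le_ne_top ENNReal.one_ne_top hp1
  have hφ : Measurable[A.F a] (B.indicator (1 : Ω → ℝ≥0∞)) :=
    (@measurable_one _ _ _ (A.F a) _).indicator hB
  have hv := variance hab hbc hw hw1 hφ (fun ω => by
    by_cases h : ω ∈ B <;> simp [h]) hε hh
  set s : Ω → ℝ≥0∞ := tot (A.push a b w) with hs
  set m : Ω → ℝ≥0∞ := tot (A.push b c (A.push a b w)) with hm
  have hsm : Measurable s := ((hw.push hab).meas_tot).mono (A.F.le b) le_rfl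
  have hmm : Measurable m := (((hw.push hab).push hbc).meas_tot).mono (A.F.le c) le_rfl
  set E : Set Ω := {ω | p / 2 ≤ s ω ∧ m ω < p ^ 2 / 4} with hE
  have hEm : MeasurableSet E :=
    (measurableSet_le measurable_const hsm).inter (measurableSet_lt hmm measurable_const)
  rw [lintegral_indicator_one hB0] at hv
  have l1 : (p ^ 2 / 4) ^ 2 * P (B ∩ E) ≤ ε * P B := by
    refine le_trans ?_ hv
    rw [← lintegral_indicator_one (hB0.inter hEm),
      ← lintegral_const_mul _ (measurable_one.indicator (hB0.inter hEm))]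
    refine lintegral_mono fun ω => ?_
    by_cases h1 : ω ∈ B ∩ E
    · rw [indicator_of_mem h1, indicator_of_mem h1.1]
      simp only [Pi.one_apply, one_mul, mul_one]
      have h2 : p / 2 ≤ s ω := h1.2.1
      have h3 : m ω < p ^ 2 / 4 := h1.2.2
      have h4 : p ^ 2 / 4 + m ω ≤ A.h (c - b) * s ω := by
        calc p ^ 2 / 4 + m ω ≤ p ^ 2 / 4 + p ^ 2 / 4 := by gcongr
          _ = p * (p / 2) := by
            lift p to NNReal using hpt
            have h4' : (4 : ℝ≥0∞) = ((4 : NNReal) : ℝ≥0∞) := by norm_cast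
            have h2' : (2 : ℝ≥0∞) = ((2 : NNReal) : ℝ≥0∞) := by norm_cast
            rw [h4', h2', ← ENNReal.coe_pow, ← ENNReal.coe_div (by norm_num),
              ← ENNReal.coe_div (by norm_num), ← ENNReal.coe_add, ← ENNReal.coe_mul]
            congr 1
            rw [← NNReal.coe_inj]
            push_cast
            ring
          _ ≤ A.h (c - b) * s ω := by gcongr
      have h5 : p ^ 2 / 4 ≤ A.h (c - b) * s ω - m ω :=
        ENNReal.le_sub_of_add_le_right (ne_top_of_lt h3) h4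
      gcongr
    · rw [indicator_of_notMem h1]
      simp
  have hp4 : p ^ 4 ≠ 0 := pow_ne_zero _ hp0
  have hp4t : p ^ 4 ≠ ∞ := ENNReal.pow_ne_top hpt
  have h16 : 16 * (p ^ 2 / 4) ^ 2 = p ^ 4 := by
    lift p to NNReal using hpt
    have h4' : (4 : ℝ≥0∞) = ((4 : NNReal) : ℝ≥0∞) := by norm_cast
    have h16' : (16 : ℝ≥0∞) = ((16 : NNReal) : ℝ≥0∞) := by norm_cast
    rw [h4', h16', ← ENNReal.coe_pow, ← ENNReal.coe_div (by norm_num), ← ENNReal.coe_pow,
      ← ENNReal.coe_mul, ← ENNReal.coe_pow]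
    congr 1
    rw [← NNReal.coe_inj]
    push_cast
    ring
  calc P (B ∩ E) = (p ^ 4)⁻¹ * (p ^ 4 * P (B ∩ E)) := by
        rw [← mul_assoc, ENNReal.inv_mul_cancel hp4 hp4t, one_mul]
    _ = (p ^ 4)⁻¹ * (16 * ((p ^ 2 / 4) ^ 2 * P (B ∩ E))) := by
        rw [← h16]; ring
    _ ≤ (p ^ 4)⁻¹ * (16 * (ε * P B)) := by gcongr
    _ = 16 * ε / p ^ 4 * P B := by
        rw [ENNReal.div_eq_inv_mul]; ring

end KerSys

end Crest.Agent.R154.RatioR872
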