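import Mathlib
import Crest.Agent.R154.RatioB_872

-- ▼ part R154/Window_299
section

/-!
# The window lemma (W) of B8, large heights: attempts from every layer, in weighted form

`τ k z` = lifetime (number of layers) of the cluster of good tiles started from the point `z` at
layer `k`; `w k z` = the quenched hitting law of layer `k`.  No enlargement of the probability
space: `h m` is the weight (conditional probability given the environment) of a restart at `m`.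
-/

set_option linter.deprecated false
set_option linter.unusedVariables false

open MeasureTheory ENNReal

namespace Crest.Agent.R154.Window299

variable {Ω Z : Type*}

/-- mass of the points of layer `k` whose cluster has lifetime exactly `t` -/
noncomputable def aw (w : ℕ → Z → Ω → ℝ≥0∞) (τ : ℕ → Z → Ω → ℕ∞) (k t : ℕ) (ω : Ω) : ℝ≥0∞ :=
  ∑' z, w k z ω * {ω | τ k z ω = t}.indicator (fun _ => (1 : ℝ≥0∞)) ω

/-- mass of the points of layer `k` whose cluster has lifetime `> t` -/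
noncomputable def tw (w : ℕ → Z → Ω → ℝ≥0∞) (τ : ℕ → Z → Ω → ℕ∞) (k t : ℕ) (ω : Ω) : ℝ≥0∞ :=
  ∑' z, w k z ω * {ω | (t : ℕ∞) < τ k z ω}.indicator (fun _ => (1 : ℝ≥0∞)) ω

/-- weight of a restart at layer `m` -/
noncomputable def hw (w : ℕ → Z → Ω → ℝ≥0∞) (τ : ℕ → Z → Ω → ℕ∞) : ℕ → Ω → ℝ≥0∞
  | 0, _ => 1
  | m + 1, ω => ∑ i : Fin (m + 1), hw w τ i ω * aw w τ i (m + 1 - i) ω

theorem hw_succ (w : ℕ → Z → Ω → ℝ≥0∞) (τ : ℕ → Z → Ω → ℕ∞) (m : ℕ) (ω : Ω) :
    hw w τ (m + 1) ω = ∑ i ∈ Finset.range (m + 1), hw w τ i ω * aw w τ i (m + 1 - i) ω := by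
  rw [hw, Finset.sum_range]

theorem tw_split (w : ℕ → Z → Ω → ℝ≥0∞) (τ : ℕ → Z → Ω → ℕ∞) (k t : ℕ) (ω : Ω) :
    tw w τ k t ω = aw w τ k (t + 1) ω + tw w τ k (t + 1) ω := by
  unfold tw aw
  rw [← ENNReal.tsum_add]
  refine tsum_congr fun z => ?_
  rw [← mul_add]
  congr 1
  simp only [Set.indicator, Set.mem_setOf_eq]
  rcases lt_trichotomy (τ k z ω) ((t + 1 : ℕ) : ℕ∞) with h | h | h
  · have h1 : ¬ ((t : ℕ∞) < τ k z ω) := by
      intro hc
      have := Order.add_one_le_of_lt hc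
      exact absurd h (not_lt.2 (by exact_mod_cast this))
    rw [if_neg h1, if_neg h.ne, if_neg (not_lt.2 h.le)]
    simp
  · have h1 : (t : ℕ∞) < τ k z ω := by
      rw [h]; exact_mod_cast Nat.lt_succ_self t
    rw [if_pos h1, if_pos h, if_neg (by rw [h]; exact lt_irrefl _)]
    simp
  · have h1 : (t : ℕ∞) < τ k z ω := lt_trans (by exact_mod_cast Nat.lt_succ_self t) h
    rw [if_pos h1, if_neg h.ne', if_pos h]
    simp

theorem tw_split_many (w : ℕ → Z → Ω → ℝ≥0∞) (τ : ℕ → Z → Ω → ℕ∞) (k : ℕ) (ω : Ω) (t : ℕ) :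
    ∀ n : ℕ, tw w τ k t ω = ∑ j ∈ Finset.range n, aw w τ k (t + 1 + j) ω + tw w τ k (t + n) ω
  | 0 => by simp
  | n + 1 => by
      rw [tw_split_many w τ k ω t n, tw_split, Finset.sum_range_succ]
      have e : t + n + 1 = t + 1 + n := by omega
      have e2 : t + (n + 1) = t + 1 + n := by omega
      rw [e, e2, ← add_assoc]

theorem tw_zero (w : ℕ → Z → Ω → ℝ≥0∞) (τ : ℕ → Z → Ω → ℕ∞) (k : ℕ) (ω : Ω)
    (hτ : ∀ k z, 1 ≤ τ k z ω) : tw w τ k 0 ω = ∑' z, w k z ω := by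
  rw [tw]
  refine tsum_congr fun z => ?_
  have : ω ∈ {ω | ((0 : ℕ) : ℕ∞) < τ k z ω} := lt_of_lt_of_le (by simp) (hτ k z)
  rw [Set.indicator_of_mem this, mul_one]

/-- exact renewal identity: the attempt alive at layer `n` is unique -/
theorem renewal (w : ℕ → Z → Ω → ℝ≥0∞) (τ : ℕ → Z → Ω → ℕ∞) (ω : Ω) (hτ : ∀ k z, 1 ≤ τ k z ω) :
    ∀ n : ℕ, (∀ k ≤ n, ∑' z, w k z ω = 1) →
      ∑ j ∈ Finset.range (n + 1), hw w τ j ω * tw w τ j (n - j) ω = 1
  | 0, hw1 => by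
      simp only [Finset.range_one, Finset.sum_singleton, zero_add, Nat.sub_self]
      rw [hw, one_mul, tw_zero w τ 0 ω hτ, hw1 0 le_rfl]
  | n + 1, hw1 => by
      have ih := renewal w τ ω hτ n (fun k hk => hw1 k (by omega))
      rw [Finset.sum_range_succ]
      have h0 : tw w τ (n + 1) (n + 1 - (n + 1)) ω = 1 := by
        rw [Nat.sub_self, tw_zero w τ (n + 1) ω hτ, hw1 (n + 1) le_rfl]
      rw [h0, mul_one, hw_succ, ← Finset.sum_add_distrib, ← ih]
      refine Finset.sum_congr rfl fun j hj => ?_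
      have hj' : j ≤ n := Nat.lt_succ_iff.1 (Finset.mem_range.1 hj)
      rw [← mul_add, tw_split w τ j (n - j)]
      have e : n - j + 1 = n + 1 - j := by omega
      rw [e, add_comm]

theorem hw_le_one (w : ℕ → Z → Ω → ℝ≥0∞) (τ : ℕ → Z → Ω → ℕ∞) (ω : Ω)
    (hτ : ∀ k z, 1 ≤ τ k z ω) (n : ℕ) (hw1 : ∀ k ≤ n, ∑' z, w k z ω = 1) : hw w τ n ω ≤ 1 := by
  have h := renewal w τ ω hτ n hw1
  rw [Finset.sum_range_succ, Nat.sub_self] at h
  have h0 : tw w τ n 0 ω = 1 := by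
    rw [tw_zero w τ n ω hτ, hw1 n le_rfl]
  rw [h0, mul_one] at h
  rw [← h]
  exact le_add_self

/-- **pointwise part of the attempts**: if from every layer `j ≤ K0` the surviving mass is at most
`1/(2(K0+1))`, the restart weights of the layers in `(K0, K]` sum to at least `1/2`. -/
theorem half_le_sum (w : ℕ → Z → Ω → ℝ≥0∞) (τ : ℕ → Z → Ω → ℕ∞) (ω : Ω)
    (hτ : ∀ k z, 1 ≤ τ k z ω) (K0 K : ℕ) (hK : K0 ≤ K) (hw1 : ∀ k ≤ K0, ∑' z, w k z ω = 1)
    (hs : ∀ k ≤ K0, tw w τ k (K - k) ω ≤ (2 * ((K0 : ℝ≥0∞) + 1))⁻¹) :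
    2⁻¹ ≤ ∑ m ∈ Finset.range (K - K0), hw w τ (K0 + 1 + m) ω := by
  have h := renewal w τ ω hτ K0 hw1
  have h1 : ∀ j ∈ Finset.range (K0 + 1), hw w τ j ω * tw w τ j (K0 - j) ω =
      ∑ m ∈ Finset.range (K - K0), hw w τ j ω * aw w τ j (K0 + 1 + m - j) ω +
        hw w τ j ω * tw w τ j (K - j) ω := by
    intro j hj
    have hj' : j ≤ K0 := Nat.lt_succ_iff.1 (Finset.mem_range.1 hj)
    rw [tw_split_many w τ j ω (K0 - j) (K - K0), mul_add, Finset.mul_sum]
    have e : K0 - j + (K - K0) = K - j := by omega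
    rw [e]
    congr 1
    refine Finset.sum_congr rfl fun m _ => ?_
    have e2 : K0 - j + 1 + m = K0 + 1 + m - j := by omega
    rw [e2]
  rw [Finset.sum_congr rfl h1, Finset.sum_add_distrib, Finset.sum_comm] at h
  have h2 : ∑ m ∈ Finset.range (K - K0), ∑ j ∈ Finset.range (K0 + 1),
      hw w τ j ω * aw w τ j (K0 + 1 + m - j) ω ≤
      ∑ m ∈ Finset.range (K - K0), hw w τ (K0 + 1 + m) ω := by
    refine Finset.sum_le_sum fun m _ => ?_
    have e : K0 + 1 + m = (K0 + m) + 1 := by ring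
    rw [e, hw_succ]
    refine Finset.sum_le_sum_of_subset ?_
    intro j hj
    simp only [Finset.mem_range] at hj ⊢
    omega
  have h3 : ∑ j ∈ Finset.range (K0 + 1), hw w τ j ω * tw w τ j (K - j) ω ≤ 2⁻¹ := by
    calc ∑ j ∈ Finset.range (K0 + 1), hw w τ j ω * tw w τ j (K - j) ω
        ≤ ∑ j ∈ Finset.range (K0 + 1), (2 * ((K0 : ℝ≥0∞) + 1))⁻¹ := by
          refine Finset.sum_le_sum fun j hj => ?_
          have hj' : j ≤ K0 := Nat.lt_succ_iff.1 (Finset.mem_range.1 hj)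
          calc hw w τ j ω * tw w τ j (K - j) ω ≤ 1 * (2 * ((K0 : ℝ≥0∞) + 1))⁻¹ := by
                gcongr
                · exact hw_le_one w τ ω hτ j (fun k hk => hw1 k (by omega))
                · exact hs j hj'
            _ = _ := one_mul _
      _ = 2⁻¹ := by
          rw [Finset.sum_const, Finset.card_range, nsmul_eq_mul]
          push_cast
          rw [ENNReal.mul_inv (Or.inl (by norm_num)) (Or.inl (by norm_num)), mul_left_comm,
            ENNReal.mul_inv_cancel (by simp) (by simp), mul_one]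
  by_contra hc
  push Not at hc
  have h4 : (1 : ℝ≥0∞) < 2⁻¹ + 2⁻¹ := by
    rw [← h]
    exact ENNReal.add_lt_add_of_lt_of_le (ne_top_of_le_ne_top (by simp) h3) (h2.trans_lt hc) h3
  rw [ENNReal.inv_two_add_inv_two] at h4
  exact lt_irrefl _ h4

/-! ### the probability part -/

variable {m0 : MeasurableSpace Ω}

/-- conditional bound for events ⇒ conditional bound for functions -/
theorem lintegral_indicator_le (P : Measure Ω) {m : MeasurableSpace Ω} (hm : m ≤ m0)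
    {D : Set Ω} (hD : MeasurableSet[m0] D) (c : ℝ≥0∞)
    (h : ∀ B, MeasurableSet[m] B → P (B ∩ D) ≤ c * P B) {f : Ω → ℝ≥0∞} (hf : Measurable[m] f)
    {B : Set Ω} (hB : MeasurableSet[m] B) :
    ∫⁻ ω in B, f ω * D.indicator (fun _ => (1 : ℝ≥0∞)) ω ∂P ≤ c * ∫⁻ ω in B, f ω ∂P := by
  have hle : ((P.restrict D).trim hm) ≤ c • (P.trim hm) := by
    refine Measure.le_iff.2 fun s hs => ?_
    rw [trim_measurableSet_eq hm hs, Measure.restrict_apply (hm s hs), Measure.smul_apply,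
      trim_measurableSet_eq hm hs, smul_eq_mul]
    exact h s hs
  have hfB : Measurable[m] (B.indicator f) := hf.indicator hB
  calc ∫⁻ ω in B, f ω * D.indicator (fun _ => (1 : ℝ≥0∞)) ω ∂P
      = ∫⁻ ω, B.indicator f ω ∂(P.restrict D) := by
        rw [← lintegral_indicator (hm B hB)]
        rw [← lintegral_indicator hD (B.indicator f)]
        refine lintegral_congr fun ω => ?_
        by_cases h1 : ω ∈ B <;> by_cases h2 : ω ∈ D <;> simp [h1, h2]
    _ = ∫⁻ ω, B.indicator f ω ∂((P.restrict D).trim hm) := (lintegral_trim hm hfB).symm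
    _ ≤ ∫⁻ ω, B.indicator f ω ∂(c • (P.trim hm)) := lintegral_mono' hle le_rfl
    _ = c * ∫⁻ ω, B.indicator f ω ∂P := by
        rw [lintegral_smul_measure, lintegral_trim hm hfB, smul_eq_mul]
    _ = c * ∫⁻ ω in B, f ω ∂P := by rw [lintegral_indicator (hm B hB)]

section
variable [Countable Z] (P : Measure Ω) (F : Filtration ℕ m0) (w : ℕ → Z → Ω → ℝ≥0∞)
  (τ : ℕ → Z → Ω → ℕ∞)

theorem measurable_aw (hw : ∀ k z, Measurable[F k] (w k z))
    (hτ : ∀ k z (t : ℕ), MeasurableSet[F (k + t)] {ω | τ k z ω = t}) (k t : ℕ) :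
    Measurable[F (k + t)] (aw w τ k t) := by
  unfold aw
  refine Measurable.ennreal_tsum fun z => ?_
  exact ((hw k z).mono (F.mono (Nat.le_add_right k t)) le_rfl).mul
    (measurable_const.indicator (hτ k z t))

theorem measurable_hw (hw' : ∀ k z, Measurable[F k] (w k z))
    (hτ : ∀ k z (t : ℕ), MeasurableSet[F (k + t)] {ω | τ k z ω = t}) :
    ∀ m : ℕ, Measurable[F m] (hw w τ m) := by
  intro m
  induction m using Nat.strong_induction_on with
  | _ m ih =>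
    rcases m with _ | m
    · have : hw w τ 0 = fun _ => 1 := by funext ω; rw [hw]
      rw [this]
      exact measurable_const
    · have : hw w τ (m + 1) = fun ω => ∑ i ∈ Finset.range (m + 1),
          hw w τ i ω * aw w τ i (m + 1 - i) ω := by
        funext ω; exact hw_succ w τ m ω
      rw [this]
      refine Finset.measurable_fun_sum _ fun i hi => ?_
      have hi' := Finset.mem_range.1 hi
      have h1 := measurable_aw F w τ hw' hτ i (m + 1 - i)
      rw [show i + (m + 1 - i) = m + 1 by omega] at h1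
      exact ((ih i hi').mono (F.mono (by omega)) le_rfl).mul h1

theorem lintegral_hw_le (hwm : ∀ k z, Measurable[F k] (w k z))
    (hτm : ∀ k z (t : ℕ), MeasurableSet[F (k + t)] {ω | τ k z ω = t})
    (hw1 : ∀ k ω, ∑' z, w k z ω ≤ 1) (θ : ℝ≥0∞)
    (hθ : ∀ k z (t : ℕ), 1 ≤ t → ∀ B, MeasurableSet[F k] B →
      P (B ∩ {ω | τ k z ω = t}) ≤ θ ^ t * P B)
    {B : Set Ω} (hB : MeasurableSet[F 0] B) :
    ∀ m : ℕ, ∫⁻ ω in B, hw w τ m ω ∂P ≤ (2 * θ) ^ m * P B := by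
  intro m
  induction m using Nat.strong_induction_on with
  | _ m ih =>
    rcases m with _ | m
    · simp [hw]
    · simp_rw [hw_succ]
      have hBk : ∀ k, MeasurableSet[F k] B := fun k => F.mono (Nat.zero_le k) _ hB
      rw [lintegral_finsetSum]
      swap
      · intro i hi
        have hi' := Finset.mem_range.1 hi
        exact ((measurable_hw F w τ hwm hτm i).mono (F.le i) le_rfl).mul
          ((measurable_aw F w τ hwm hτm i (m + 1 - i)).mono (F.le _) le_rfl)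
      have key : ∀ i ∈ Finset.range (m + 1),
          ∫⁻ ω in B, hw w τ i ω * aw w τ i (m + 1 - i) ω ∂P ≤
            θ ^ (m + 1 - i) * ((2 * θ) ^ i * P B) := by
        intro i hi
        have hi' := Finset.mem_range.1 hi
        calc ∫⁻ ω in B, hw w τ i ω * aw w τ i (m + 1 - i) ω ∂P
            = ∫⁻ ω in B, ∑' z, (hw w τ i ω * w i z ω) *
                {ω | τ i z ω = ((m + 1 - i : ℕ) : ℕ∞)}.indicator
                  (fun _ => (1 : ℝ≥0∞)) ω ∂P := by
              refine lintegral_congr fun ω => ?_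
              rw [aw, ← ENNReal.tsum_mul_left]
              refine tsum_congr fun z => ?_
              rw [mul_assoc]
          _ = ∑' z, ∫⁻ ω in B, (hw w τ i ω * w i z ω) *
                {ω | τ i z ω = ((m + 1 - i : ℕ) : ℕ∞)}.indicator
                  (fun _ => (1 : ℝ≥0∞)) ω ∂P := by
              rw [lintegral_tsum]
              intro z
              refine Measurable.aemeasurable ?_
              refine (((measurable_hw F w τ hwm hτm i).mono (F.le i) le_rfl).mul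
                ((hwm i z).mono (F.le i) le_rfl)).mul ?_
              exact measurable_const.indicator (F.le _ _ (hτm i z (m + 1 - i)))
          _ ≤ ∑' z, θ ^ (m + 1 - i) * ∫⁻ ω in B, (hw w τ i ω * w i z ω) ∂P := by
              refine ENNReal.tsum_le_tsum fun z => ?_
              exact lintegral_indicator_le P (F.le i) (F.le _ _ (hτm i z (m + 1 - i)))
                (θ ^ (m + 1 - i)) (hθ i z (m + 1 - i) (by omega))
                ((measurable_hw F w τ hwm hτm i).mul (hwm i z)) (hBk i)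
          _ = θ ^ (m + 1 - i) * ∫⁻ ω in B, ∑' z, (hw w τ i ω * w i z ω) ∂P := by
              rw [ENNReal.tsum_mul_left, lintegral_tsum]
              intro z
              exact (((measurable_hw F w τ hwm hτm i).mono (F.le i) le_rfl).mul
                ((hwm i z).mono (F.le i) le_rfl)).aemeasurable
          _ ≤ θ ^ (m + 1 - i) * ∫⁻ ω in B, hw w τ i ω ∂P := by
              gcongr with ω
              rw [ENNReal.tsum_mul_left]
              calc hw w τ i ω * ∑' z, w i z ω ≤ hw w τ i ω * 1 := by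
                    gcongr; exact hw1 i ω
                _ = hw w τ i ω := mul_one _
          _ ≤ θ ^ (m + 1 - i) * ((2 * θ) ^ i * P B) := by
              gcongr
              exact ih i hi'
      refine (Finset.sum_le_sum key).trans ?_
      have e : ∀ i ∈ Finset.range (m + 1), θ ^ (m + 1 - i) * ((2 * θ) ^ i * P B) =
          2 ^ i * (θ ^ (m + 1) * P B) := by
        intro i hi
        have hi' := Finset.mem_range.1 hi
        have : θ ^ (m + 1) = θ ^ (m + 1 - i) * θ ^ i := by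
          rw [← pow_add]; congr 1; omega
        rw [this, mul_pow]
        ring
      rw [Finset.sum_congr rfl e, ← Finset.sum_mul]
      have h2 : ∑ i ∈ Finset.range (m + 1), (2 : ℝ≥0∞) ^ i ≤ 2 ^ (m + 1) := by
        have h3 : ∀ n : ℕ, ∑ i ∈ Finset.range n, (2 : ℝ≥0∞) ^ i + 1 = 2 ^ n := by
          intro n
          induction n with
          | zero => simp
          | succ n ihn =>
            rw [Finset.sum_range_succ, add_right_comm, ihn, pow_succ]
            ring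
        rw [← h3 (m + 1)]
        exact le_self_add
      calc (∑ i ∈ Finset.range (m + 1), (2 : ℝ≥0∞) ^ i) * (θ ^ (m + 1) * P B)
          ≤ 2 ^ (m + 1) * (θ ^ (m + 1) * P B) := by gcongr
        _ = (2 * θ) ^ (m + 1) * P B := by rw [mul_pow]; ring

/-- **(Att)**: all attempts started at the layers `≤ K0` die before `K`. -/
theorem attempts (hwm : ∀ k z, Measurable[F k] (w k z))
    (hτm : ∀ k z (t : ℕ), MeasurableSet[F (k + t)] {ω | τ k z ω = t})
    (hτ1 : ∀ k z ω, 1 ≤ τ k z ω)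
    (hw1 : ∀ k ω, ∑' z, w k z ω ≤ 1) (θ : ℝ≥0∞) (hθ4 : 4 * θ ≤ 1)
    (hθ : ∀ k z (t : ℕ), 1 ≤ t → ∀ B, MeasurableSet[F k] B →
      P (B ∩ {ω | τ k z ω = t}) ≤ θ ^ t * P B)
    (K0 K : ℕ) (hK : K0 ≤ K) {B : Set Ω} (hB : MeasurableSet[F 0] B) :
    P (B ∩ {ω | ∀ k ≤ K0, ∑' z, w k z ω = 1 ∧
      tw w τ k (K - k) ω ≤ (2 * ((K0 : ℝ≥0∞) + 1))⁻¹}) ≤ 4 * (2 * θ) ^ (K0 + 1) * P B := by
  set X : Ω → ℝ≥0∞ := fun ω => ∑ m ∈ Finset.range (K - K0), hw w τ (K0 + 1 + m) ω with hX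
  have hXm : Measurable X := by
    refine Finset.measurable_fun_sum _ fun m _ => ?_
    exact (measurable_hw F w τ hwm hτm (K0 + 1 + m)).mono (F.le _) le_rfl
  have hBm : MeasurableSet B := F.le 0 _ hB
  have h1 : P (B ∩ {ω | ∀ k ≤ K0, ∑' z, w k z ω = 1 ∧
      tw w τ k (K - k) ω ≤ (2 * ((K0 : ℝ≥0∞) + 1))⁻¹}) ≤ (P.restrict B) {ω | 2⁻¹ ≤ X ω} := by
    rw [Measure.restrict_apply' hBm, Set.inter_comm]
    refine measure_mono ?_
    rintro ω ⟨hω, hωB⟩
    exact ⟨half_le_sum w τ ω (fun k z => hτ1 k z ω) K0 K hK (fun k hk => (hω k hk).1)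
      (fun k hk => (hω k hk).2), hωB⟩
  have h2 : (P.restrict B) {ω | 2⁻¹ ≤ X ω} ≤ 2 * ∫⁻ ω in B, X ω ∂P := by
    have := mul_meas_ge_le_lintegral (μ := P.restrict B) hXm (2⁻¹ : ℝ≥0∞)
    calc (P.restrict B) {ω | 2⁻¹ ≤ X ω} = 2 * (2⁻¹ * (P.restrict B) {ω | 2⁻¹ ≤ X ω}) := by
          rw [← mul_assoc, ENNReal.mul_inv_cancel (by norm_num) (by norm_num), one_mul]
      _ ≤ 2 * ∫⁻ ω in B, X ω ∂P := by gcongr
  have h3 : ∫⁻ ω in B, X ω ∂P ≤ 2 * (2 * θ) ^ (K0 + 1) * P B := by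
    rw [hX, lintegral_finsetSum _ (fun m _ =>
      (measurable_hw F w τ hwm hτm (K0 + 1 + m)).mono (F.le _) le_rfl)]
    have h2θ : 2 * θ ≤ 2⁻¹ := by
      calc 2 * θ = 2⁻¹ * (4 * θ) := by
            rw [← mul_assoc]
            congr 1
            rw [show (4 : ℝ≥0∞) = 2 * 2 by norm_num, ← mul_assoc,
              ENNReal.inv_mul_cancel (by norm_num) (by norm_num), one_mul]
        _ ≤ 2⁻¹ * 1 := by gcongr
        _ = 2⁻¹ := mul_one _
    calc ∑ m ∈ Finset.range (K - K0), ∫⁻ ω in B, hw w τ (K0 + 1 + m) ω ∂P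
        ≤ ∑ m ∈ Finset.range (K - K0), (2 * θ) ^ (K0 + 1) * P B * 2⁻¹ ^ m := by
          refine Finset.sum_le_sum fun m _ => ?_
          refine (lintegral_hw_le P F w τ hwm hτm hw1 θ hθ hB (K0 + 1 + m)).trans ?_
          rw [pow_add]
          calc (2 * θ) ^ (K0 + 1) * (2 * θ) ^ m * P B
              ≤ (2 * θ) ^ (K0 + 1) * 2⁻¹ ^ m * P B := by gcongr
            _ = _ := by ring
      _ = (2 * θ) ^ (K0 + 1) * P B * ∑ m ∈ Finset.range (K - K0), 2⁻¹ ^ m := by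
          rw [Finset.mul_sum]
      _ ≤ (2 * θ) ^ (K0 + 1) * P B * 2 := by
          gcongr
          refine (ENNReal.sum_le_tsum _).trans ?_
          rw [ENNReal.tsum_geometric, ENNReal.one_sub_inv_two, inv_inv]
      _ = _ := by ring
  calc _ ≤ _ := h1
    _ ≤ _ := h2
    _ ≤ 2 * (2 * (2 * θ) ^ (K0 + 1) * P B) := by gcongr
    _ = _ := by ring


end

end Crest.Agent.R154.Window299
private theorem rz_e713d68028 : type_of% @_root_.Crest.Agent.R154.Window299.hw.eq_1 := @_root_.Crest.Agent.R154.Window299.hw.eq_1 -- L29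
end

-- ▼ part R154/WindowK_299

/-!
# The window lemma (W), large heights, for 872's kernel systems

`TileSys A N c1 c θ`: from every site of every level a family of tiles of height `N`: the lifetime
`τ` of the cluster of good tiles is `t` with conditional probability `≤ θ ^ t`, and as long as the
cluster is alive after `s ≥ 1` layers the quenched mass of the climb of `s` layers is
`≥ c1 * c ^ s` (`c1` = extra cost of the first step of an attempt).
-/

set_option autoImplicit false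
set_option linter.deprecated false
set_option linter.unusedVariables false

open MeasureTheory ENNReal Crest.Agent.R154.RatioR872 Crest.Agent.R154.Window299

namespace Crest.Agent.R154.WindowK299

variable {S : Type*} {Ω : Type*} {m0 : MeasurableSpace Ω} {P : Measure Ω}

/-- tiles of height `N`, quenched cost `c` per layer (`c1` once), rate `θ`. -/
structure TileSys (A : KerSys S P) (N : ℕ) (c1 c θ : ℝ≥0∞) : Prop where
  fam : ∀ (L : ℕ) (x : S), x ∈ A.L L → ∃ τ : Ω → ℕ∞,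
    (∀ t : ℕ, MeasurableSet[A.F (L + t * N)] {ω | τ ω = t}) ∧ (∀ ω, 1 ≤ τ ω) ∧
    (∀ t : ℕ, 1 ≤ t → ∀ B, MeasurableSet[A.F L] B → P (B ∩ {ω | τ ω = t}) ≤ θ ^ t * P B) ∧
    (∀ᵐ ω ∂P, ∀ s : ℕ, 1 ≤ s → (s : ℕ∞) < τ ω → c1 * c ^ s ≤ A.N L (L + s * N) ω x)

variable [Countable S] {A : KerSys S P}

/-- composition of masses: exit law of level `a`, then climb to `c`. -/
theorem Sh_mul_le {μ : S → ℝ≥0∞} (hμ : A.Start μ) {a c : ℕ} (hac : a ≤ c) :
    ∀ᵐ ω ∂P, A.Sh μ a ω * ∑' x, A.exitW μ a ω x * A.N a c ω x ≤ A.Sh μ c ω := by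
  filter_upwards [A.comp 0 a c (Nat.zero_le _) hac] with ω h1
  calc A.Sh μ a ω * ∑' x, A.exitW μ a ω x * A.N a c ω x
      = ∑' x, ∑' z, A.push 0 a (fun _ => μ) ω x * A.G a c ω x z := by
        rw [← ENNReal.tsum_mul_left]
        refine tsum_congr fun x => ?_
        rw [← mul_assoc, KerSys.mul_exitW hμ, KerSys.N, ENNReal.tsum_mul_left]
    _ = ∑' x, ∑' z, ∑' x0, μ x0 * (A.G 0 a ω x0 x * A.G a c ω x z) := by
        refine tsum_congr fun x => tsum_congr fun z => ?_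
        unfold KerSys.push
        rw [← ENNReal.tsum_mul_right]
        exact tsum_congr fun x0 => by ring
    _ = ∑' z, ∑' x0, μ x0 * ∑' x, (A.G 0 a ω x0 x * A.G a c ω x z) := by
        rw [ENNReal.tsum_comm]
        refine tsum_congr fun z => ?_
        rw [ENNReal.tsum_comm]
        exact tsum_congr fun x0 => ENNReal.tsum_mul_left
    _ ≤ ∑' z, ∑' x0, μ x0 * A.G 0 c ω x0 z := by
        refine ENNReal.tsum_le_tsum fun z => ENNReal.tsum_le_tsum fun x0 => ?_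
        gcongr
        exact h1 x0 z
    _ = A.Sh μ c ω := rfl

/-- **(W) at fixed parameters** for a kernel system. -/
theorem windowK {N : ℕ} {c1 c θ : ℝ≥0∞} (hT : TileSys A N c1 c θ) (hc10 : c1 ≠ 0)
    (hc11 : c1 ≠ ∞) (hc0 : c ≠ 0) (hc1 : c ≤ 1)
    (hθ4 : 4 * θ ≤ 1) {μ : S → ℝ≥0∞} (hμ : A.Start μ) (H0 K0 K : ℕ) (hK' : K0 < K)
    {B : Set Ω} (hB : MeasurableSet[A.F H0] B) :
    P (B ∩ {ω | A.Sh μ (H0 + K0 * N) ω ≠ 0 ∧ A.Sh μ (H0 + K * N) ω ≤
      c1 * c ^ K * (2 * ((K0 : ℝ≥0∞) + 1))⁻¹ * A.Sh μ (H0 + K0 * N) ω}) ≤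
      4 * (2 * θ) ^ (K0 + 1) * P B := by
  classical
  have hK : K0 ≤ K := hK'.le
  -- the data
  let F : Filtration ℕ m0 :=
    { seq := fun k => A.F (H0 + k * N)
      mono' := fun i j hij => A.F.mono (Nat.add_le_add_left (Nat.mul_le_mul_right N hij) H0)
      le' := fun k => A.F.le _ }
  let w : ℕ → S → Ω → ℝ≥0∞ := fun k z ω => A.exitW μ (H0 + k * N) ω z
  let τ : ℕ → S → Ω → ℕ∞ := fun k z =>
    if h : z ∈ A.L (H0 + k * N) then Classical.choose (hT.fam (H0 + k * N) z h) else fun _ => ⊤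
  have hτpos : ∀ k z (h : z ∈ A.L (H0 + k * N)),
      τ k z = Classical.choose (hT.fam (H0 + k * N) z h) := fun k z h => dif_pos h
  have hτneg : ∀ k z (h : z ∉ A.L (H0 + k * N)), τ k z = fun _ => ⊤ := fun k z h => dif_neg h
  have hwm : ∀ k z, Measurable[F k] (w k z) := fun k z => (KerSys.wt_exitW hμ _).meas z
  have hτm : ∀ k z (t : ℕ), MeasurableSet[F (k + t)] {ω | τ k z ω = t} := by
    intro k z t
    by_cases h : z ∈ A.L (H0 + k * N)
    · rw [hτpos k z h]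
      have := (Classical.choose_spec (hT.fam (H0 + k * N) z h)).1 t
      have e : H0 + k * N + t * N = H0 + (k + t) * N := by ring
      rw [e] at this
      exact this
    · rw [hτneg k z h]
      simp
  have hτ1 : ∀ k z ω, 1 ≤ τ k z ω := by
    intro k z ω
    by_cases h : z ∈ A.L (H0 + k * N)
    · rw [hτpos k z h]
      exact (Classical.choose_spec (hT.fam (H0 + k * N) z h)).2.1 ω
    · rw [hτneg k z h]; exact le_top
  have hw1 : ∀ k ω, ∑' z, w k z ω ≤ 1 := fun k ω => KerSys.tot_exitW_le μ _ ω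
  have hθ : ∀ k z (t : ℕ), 1 ≤ t → ∀ B, MeasurableSet[F k] B →
      P (B ∩ {ω | τ k z ω = t}) ≤ θ ^ t * P B := by
    intro k z t ht B hB
    by_cases h : z ∈ A.L (H0 + k * N)
    · rw [hτpos k z h]
      exact (Classical.choose_spec (hT.fam (H0 + k * N) z h)).2.2.1 t ht B hB
    · rw [hτneg k z h]
      simp
  have hatt := attempts P F w τ hwm hτm hτ1 hw1 θ hθ4 hθ K0 K hK
    (B := B) (by
      have e : H0 + 0 * N = H0 := by ring
      show MeasurableSet[A.F (H0 + 0 * N)] B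
      rw [e]; exact hB)
  refine le_trans (measure_mono_ae ?_) hatt
  have hcomp : ∀ᵐ ω ∂P, ∀ k ∈ Finset.range (K0 + 1), A.Sh μ (H0 + k * N) ω *
      ∑' x, A.exitW μ (H0 + k * N) ω x * A.N (H0 + k * N) (H0 + K * N) ω x ≤
        A.Sh μ (H0 + K * N) ω := by
    rw [Filter.eventually_all_finset]
    intro k hk
    have hk' : k ≤ K0 := Nat.lt_succ_iff.1 (Finset.mem_range.1 hk)
    exact Sh_mul_le hμ (Nat.add_le_add_left (Nat.mul_le_mul_right N (hk'.trans hK)) H0)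
  have hcost : ∀ᵐ ω ∂P, ∀ k ∈ Finset.range (K0 + 1), ∀ z, z ∈ A.L (H0 + k * N) →
      ∀ s : ℕ, 1 ≤ s → (s : ℕ∞) < τ k z ω →
        c1 * c ^ s ≤ A.N (H0 + k * N) (H0 + k * N + s * N) ω z := by
    rw [Filter.eventually_all_finset]
    intro k _
    rw [ae_all_iff]
    intro z
    by_cases h : z ∈ A.L (H0 + k * N)
    · filter_upwards [(Classical.choose_spec (hT.fam (H0 + k * N) z h)).2.2.2] with ω hω _
      rw [hτpos k z h]
      exact hω
    · exact Filter.Eventually.of_forall fun ω h' => absurd h' h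
  filter_upwards [hcomp, hcost] with ω h1 h2
  rintro ⟨hωB, hω0, hω⟩
  refine ⟨hωB, fun k hk => ?_⟩
  have hkm : H0 + k * N ≤ H0 + K0 * N := Nat.add_le_add_left (Nat.mul_le_mul_right N hk) H0
  have hSk : A.Sh μ (H0 + K0 * N) ω ≤ A.Sh μ (H0 + k * N) ω := KerSys.Sh_anti hkm ω
  have hk0 : A.Sh μ (H0 + k * N) ω ≠ 0 := fun h => hω0 (le_antisymm (hSk.trans h.le) zero_le)
  refine ⟨KerSys.tot_exitW_eq hμ _ ω hk0, ?_⟩
  have hkr : k ∈ Finset.range (K0 + 1) := Finset.mem_range.2 (Nat.lt_succ_of_le hk)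
  -- surviving mass
  have h3 : c1 * c ^ K * tw w τ k (K - k) ω ≤
      ∑' x, A.exitW μ (H0 + k * N) ω x * A.N (H0 + k * N) (H0 + K * N) ω x := by
    rw [tw, ← ENNReal.tsum_mul_left]
    refine ENNReal.tsum_le_tsum fun z => ?_
    by_cases hz : z ∈ A.L (H0 + k * N)
    · by_cases hs : ((K - k : ℕ) : ℕ∞) < τ k z ω
      · have h4 := h2 k hkr z hz (K - k) (by omega) hs
        have e : H0 + k * N + (K - k) * N = H0 + K * N := by
          rw [add_assoc, ← add_mul, Nat.add_sub_cancel' (hk.trans hK)]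
        rw [e] at h4
        have hmem : ω ∈ {ω | ((K - k : ℕ) : ℕ∞) < τ k z ω} := hs
        rw [Set.indicator_of_mem hmem, mul_one, mul_comm]
        refine mul_le_mul_right (le_trans ?_ h4) _
        exact mul_le_mul_right (pow_le_pow_right_of_le_one' hc1 (Nat.sub_le K k)) _
      · have hmem : ω ∉ {ω | ((K - k : ℕ) : ℕ∞) < τ k z ω} := hs
        rw [Set.indicator_of_notMem hmem]
        simp
    · have : w k z ω = 0 := (KerSys.wt_exitW hμ _).supp ω z hz
      rw [this]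
      simp
  have h5 : A.Sh μ (H0 + K0 * N) ω * (c1 * c ^ K) * tw w τ k (K - k) ω ≤
      A.Sh μ (H0 + K0 * N) ω * (c1 * c ^ K) * (2 * ((K0 : ℝ≥0∞) + 1))⁻¹ := by
    calc A.Sh μ (H0 + K0 * N) ω * (c1 * c ^ K) * tw w τ k (K - k) ω
        = A.Sh μ (H0 + K0 * N) ω * (c1 * c ^ K * tw w τ k (K - k) ω) := by rw [mul_assoc]
      _ ≤ A.Sh μ (H0 + k * N) ω *
          ∑' x, A.exitW μ (H0 + k * N) ω x * A.N (H0 + k * N) (H0 + K * N) ω x := by
          gcongr
      _ ≤ A.Sh μ (H0 + K * N) ω := h1 k hkr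
      _ ≤ c1 * c ^ K * (2 * ((K0 : ℝ≥0∞) + 1))⁻¹ * A.Sh μ (H0 + K0 * N) ω := hω
      _ = _ := by ring
  have hct : c1 * c ^ K ≠ ∞ := ENNReal.mul_ne_top hc11
    (ENNReal.pow_ne_top (ne_top_of_le_ne_top ENNReal.one_ne_top hc1))
  have hSt : A.Sh μ (H0 + K0 * N) ω ≠ ∞ :=
    ne_top_of_le_ne_top ENNReal.one_ne_top (KerSys.Sh_le_one hμ _ ω)
  exact (ENNReal.mul_le_mul_iff_right (mul_ne_zero hω0 (mul_ne_zero hc10 (pow_ne_zero _ hc0)))
    (ENNReal.mul_ne_top hSt hct)).1 h5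

/-! ### one window, one tile system -/

theorem rate_le {E y ρ : ℝ} (hρ : 2 ≤ ρ) (K0 : ℕ) (hK0R : 9 * y ≤ (K0 : ℝ) + 1)
    (hE : E + 2 ≤ 9 * y * (ρ - 1)) :
    4 * (2 * ENNReal.ofReal (Real.exp (-ρ))) ^ (K0 + 1) ≤ ENNReal.ofReal (Real.exp (-E)) := by
  have h1 : 2 * ENNReal.ofReal (Real.exp (-ρ)) ≤ ENNReal.ofReal (Real.exp (-(ρ - 1))) := by
    rw [show (2 : ℝ≥0∞) = ENNReal.ofReal 2 by simp, ← ENNReal.ofReal_mul (by norm_num)]
    refine ENNReal.ofReal_le_ofReal ?_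
    have h2 : (2 : ℝ) ≤ Real.exp 1 := by
      have := Real.add_one_le_exp 1; linarith
    calc 2 * Real.exp (-ρ) ≤ Real.exp 1 * Real.exp (-ρ) := by gcongr
      _ = Real.exp (-(ρ - 1)) := by rw [← Real.exp_add]; congr 1; ring
  have h8 : E + 2 ≤ (ρ - 1) * (K0 + 1) := by
    have h7 : 9 * y * (ρ - 1) ≤ ((K0 : ℝ) + 1) * (ρ - 1) :=
      mul_le_mul_of_nonneg_right hK0R (by linarith)
    linarith
  have h3 : (4 : ℝ) ≤ Real.exp 2 := by
    have h5 : (2 : ℝ) ≤ Real.exp 1 := by have := Real.add_one_le_exp 1; linarith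
    calc (4 : ℝ) = 2 * 2 := by norm_num
      _ ≤ Real.exp 1 * Real.exp 1 := by gcongr
      _ = Real.exp 2 := by rw [← Real.exp_add]; norm_num
  have h10 : 4 * Real.exp (-((ρ - 1) * (K0 + 1))) ≤ Real.exp (-E) := by
    calc 4 * Real.exp (-((ρ - 1) * (K0 + 1)))
        ≤ Real.exp 2 * Real.exp (-(E + 2)) :=
          mul_le_mul h3 (Real.exp_le_exp.2 (neg_le_neg h8)) (Real.exp_pos _).le
            (Real.exp_pos _).le
      _ = Real.exp (-E) := by rw [← Real.exp_add]; congr 1; ring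
  calc 4 * (2 * ENNReal.ofReal (Real.exp (-ρ))) ^ (K0 + 1)
      ≤ 4 * ENNReal.ofReal (Real.exp (-(ρ - 1))) ^ (K0 + 1) := by gcongr
    _ = ENNReal.ofReal (4 * Real.exp (-((ρ - 1) * (K0 + 1)))) := by
        rw [← ENNReal.ofReal_pow (Real.exp_pos _).le, ← Real.exp_nat_mul,
          ENNReal.ofReal_mul (by norm_num)]
        congr 1
        · simp
        · congr 2; push_cast; ring
    _ ≤ ENNReal.ofReal (Real.exp (-E)) := ENNReal.ofReal_le_ofReal h10

theorem cost_le {v y mn m1 : ℝ} (hmn1 : 1 ≤ mn) (hy1 : 1 ≤ y) (hm1 : m1 ≤ v / 2)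
    (hyC : 400 * y * mn ≤ v) (K0 K : ℕ) (hKR : (K : ℝ) ≤ 100 * y) (hK0R' : (K0 : ℝ) ≤ 9 * y) :
    ENNReal.ofReal (Real.exp (-v)) ≤ ENNReal.ofReal (Real.exp (-m1)) *
      ENNReal.ofReal (Real.exp (-mn)) ^ K * (2 * ((K0 : ℝ≥0∞) + 1))⁻¹ := by
  have hb : (2 * ((K0 : ℝ) + 1)) ≤ Real.exp (20 * y) := by
    have h3 : 2 * ((K0 : ℝ) + 1) ≤ 20 * y := by linarith
    have h4 := Real.add_one_le_exp (20 * y)
    linarith
  have hcK : ENNReal.ofReal (Real.exp (-mn)) ^ K =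
      ENNReal.ofReal (Real.exp (-(mn * K))) := by
    rw [← ENNReal.ofReal_pow (Real.exp_pos _).le, ← Real.exp_nat_mul]
    congr 2; ring
  have h5 : (2 * ((K0 : ℝ≥0∞) + 1))⁻¹ = ENNReal.ofReal ((2 * ((K0 : ℝ) + 1))⁻¹) := by
    rw [ENNReal.ofReal_inv_of_pos (by positivity)]
    congr 1
    rw [ENNReal.ofReal_mul (by norm_num), ENNReal.ofReal_add (by positivity) (by norm_num)]
    simp
  rw [hcK, h5, ← ENNReal.ofReal_mul (Real.exp_pos _).le, ← ENNReal.ofReal_mul (by positivity)]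
  refine ENNReal.ofReal_le_ofReal ?_
  have h6 : Real.exp (-(20 * y)) ≤ (2 * ((K0 : ℝ) + 1))⁻¹ := by
    rw [Real.exp_neg]
    exact inv_anti₀ (by positivity) hb
  have h7 : mn * K ≤ mn * (100 * y) := by gcongr
  have h8 : y ≤ y * mn := by nlinarith
  calc Real.exp (-v) ≤ Real.exp (-m1 + -(mn * K) + -(20 * y)) := by
        apply Real.exp_le_exp.2
        linarith
    _ = Real.exp (-m1) * Real.exp (-(mn * K)) * Real.exp (-(20 * y)) := by
        rw [Real.exp_add, Real.exp_add]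
    _ ≤ _ := by gcongr

/-- **(W) for one window `i`, one strength `v`, one tile system** of height `N ≤ 10^i`, cost `m`
per layer (`m1` once), rate `ρ`: only arithmetic is left. -/
theorem window_param {N : ℕ} (hNpos : 0 < N) {m m1 ρ : ℝ} (hm : 1 ≤ m) (hρ : 2 ≤ ρ)
    (hTS : TileSys A N (ENNReal.ofReal (Real.exp (-m1))) (ENNReal.ofReal (Real.exp (-m)))
      (ENNReal.ofReal (Real.exp (-ρ))))
    {i : ℕ} (hNx : N ≤ 10 ^ i) {v E : ℝ} (hC : 400 * 10 ^ i * m ≤ v * N) (hm1 : m1 ≤ v / 2)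
    (hE : (E + 2) * N ≤ 9 * 10 ^ i * (ρ - 1)) {μ : S → ℝ≥0∞} (hμ : A.Start μ)
    {B : Set Ω} (hB : MeasurableSet[A.F (10 ^ i)] B) :
    P (B ∩ {ω | A.Sh μ (10 ^ (i + 1)) ω ≠ 0 ∧ A.Sh μ (10 ^ (i + 2)) ω ≤
        ENNReal.ofReal (Real.exp (-v)) * A.Sh μ (10 ^ (i + 1)) ω}) ≤
        ENNReal.ofReal (Real.exp (-E)) * P B := by
  classical
  have hNRpos : (0 : ℝ) < N := by exact_mod_cast hNpos
  have hNxR : (N : ℝ) ≤ 10 ^ i := by exact_mod_cast hNx
  set K0 : ℕ := 9 * 10 ^ i / N with hK0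
  set K : ℕ := 99 * 10 ^ i / N + 1 with hK
  have hK0N : K0 * N ≤ 9 * 10 ^ i := Nat.div_mul_le_self _ _
  have hK0N' : 9 * 10 ^ i < (K0 + 1) * N := by
    rw [hK0, mul_comm (9 * 10 ^ i / N + 1) N]; exact Nat.lt_mul_div_succ _ hNpos
  have hKN : 99 * 10 ^ i < K * N := by
    rw [hK, mul_comm (99 * 10 ^ i / N + 1) N]; exact Nat.lt_mul_div_succ _ hNpos
  have hKN' : (K - 1) * N ≤ 99 * 10 ^ i := by
    rw [hK, Nat.add_sub_cancel]; exact Nat.div_mul_le_self _ _
  have hK0K : K0 < K := by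
    rw [hK0, hK]
    exact Nat.lt_succ_of_le (Nat.div_le_div_right (Nat.mul_le_mul_right _ (by norm_num)))
  set y : ℝ := 10 ^ i / N with hy
  have hy1 : 1 ≤ y := by rw [hy, one_le_div hNRpos]; exact hNxR
  have hKR : (K : ℝ) ≤ 100 * y := by
    have h1 : ((K - 1 : ℕ) : ℝ) * N ≤ 99 * 10 ^ i := by exact_mod_cast hKN'
    have h2 : ((K - 1 : ℕ) : ℝ) = K - 1 := by
      rw [Nat.cast_sub (by rw [hK]; exact Nat.le_add_left 1 _)]; simp
    rw [h2] at h1
    have h3 : (K : ℝ) - 1 ≤ 99 * y := by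
      rw [hy, ← mul_div_assoc, le_div_iff₀ hNRpos]; exact h1
    linarith
  have hK0R : 9 * y ≤ (K0 : ℝ) + 1 := by
    have h1 : (9 * 10 ^ i : ℝ) < ((K0 : ℝ) + 1) * N := by exact_mod_cast hK0N'
    rw [hy, ← mul_div_assoc, div_le_iff₀ hNRpos]; exact h1.le
  have hK0R' : (K0 : ℝ) ≤ 9 * y := by
    have h1 : (K0 : ℝ) * N ≤ 9 * 10 ^ i := by exact_mod_cast hK0N
    rw [hy, ← mul_div_assoc, le_div_iff₀ hNRpos]; exact h1
  have hyC : 400 * y * m ≤ v := by
    have : 400 * y * m = (400 * 10 ^ i * m) / N := by rw [hy]; ring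
    rw [this, div_le_iff₀ hNRpos]; exact hC
  have hyE : E + 2 ≤ 9 * y * (ρ - 1) := by
    have : 9 * y * (ρ - 1) = (9 * 10 ^ i * (ρ - 1)) / N := by rw [hy]; ring
    rw [this, le_div_iff₀ hNRpos]; exact hE
  -- the main estimate
  have hmain := windowK (A := A) hTS (by simp [Real.exp_pos]) ENNReal.ofReal_ne_top
    (by simp [Real.exp_pos]) (by
      rw [ENNReal.ofReal_le_one]; exact Real.exp_le_one_iff.2 (by linarith))
    (by
      have h1 : Real.exp (-ρ) ≤ 1 / 4 := by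
        have h3 : Real.exp (-ρ) ≤ Real.exp (-2) := Real.exp_le_exp.2 (by linarith)
        have h4 : Real.exp (-2) ≤ 1 / 4 := by
          rw [Real.exp_neg, one_div]
          apply inv_anti₀ (by norm_num)
          have h5 : (2 : ℝ) ≤ Real.exp 1 := by have := Real.add_one_le_exp 1; linarith
          calc (4 : ℝ) = 2 * 2 := by norm_num
            _ ≤ Real.exp 1 * Real.exp 1 := by gcongr
            _ = Real.exp 2 := by rw [← Real.exp_add]; norm_num
        exact h3.trans h4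
      calc 4 * ENNReal.ofReal (Real.exp (-ρ))
          ≤ 4 * ENNReal.ofReal (1 / 4) := by gcongr
        _ = 1 := by
            rw [show (4 : ℝ≥0∞) = ENNReal.ofReal 4 by simp, ← ENNReal.ofReal_mul (by norm_num)]
            norm_num) hμ (10 ^ i) K0 K hK0K hB
  refine le_trans (measure_mono (Set.inter_subset_inter_right B ?_)) (hmain.trans ?_)
  · -- inclusion of the events
    rintro ω ⟨h1, h2⟩
    have e1 : 10 ^ i + K0 * N ≤ 10 ^ (i + 1) := by
      calc 10 ^ i + K0 * N ≤ 10 ^ i + 9 * 10 ^ i := by gcongr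
        _ = 10 ^ (i + 1) := by ring
    have e2 : 10 ^ (i + 2) ≤ 10 ^ i + K * N := by
      calc 10 ^ (i + 2) = 10 ^ i + 99 * 10 ^ i := by ring
        _ ≤ 10 ^ i + K * N := by gcongr
    have a1 := KerSys.Sh_anti (A := A) (μ := μ) e1 ω
    have a2 := KerSys.Sh_anti (A := A) (μ := μ) e2 ω
    refine ⟨fun h => h1 (le_antisymm (a1.trans h.le) zero_le), ?_⟩
    refine a2.trans (h2.trans ?_)
    refine mul_le_mul' ?_ a1
    exact cost_le hm hy1 hm1 hyC K0 K hKR hK0R'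
  · -- the rate
    gcongr
    exact rate_le hρ K0 hK0R hyE

/-! ### choice of the scale -/

/-- exponent of the coarsest dyadic scale of the window `i` -/
def lg (i : ℕ) : ℕ := Nat.log 2 (10 ^ i)




theorem log_event {μ : S → ℝ≥0∞} (hμ : A.Start μ) (hpos : ∀ h, ∀ᵐ ω ∂P, A.Sh μ h ω ≠ 0)
    (a : ℕ → Ω → ℝ) (ha : ∀ i, ∀ᵐ ω ∂P, a i ω = - Real.log (A.Sh μ (10 ^ i) ω).toReal)
    (i : ℕ) (v : ℝ) (B : Set Ω) :
    P (B ∩ {ω | v ≤ a (i + 2) ω - a (i + 1) ω}) ≤
    P (B ∩ {ω | A.Sh μ (10 ^ (i + 1)) ω ≠ 0 ∧ A.Sh μ (10 ^ (i + 2)) ω ≤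
        ENNReal.ofReal (Real.exp (-v)) * A.Sh μ (10 ^ (i + 1)) ω}) := by
  refine measure_mono_ae ?_
  filter_upwards [hpos (10 ^ (i + 1)), hpos (10 ^ (i + 2)), ha (i + 1), ha (i + 2)]
    with ω p1 p2 e1 e2
  rintro ⟨hωB, hω⟩
  refine ⟨hωB, p1, ?_⟩
  have hω' : v ≤ a (i + 2) ω - a (i + 1) ω := hω
  rw [e1, e2] at hω'
  have t1 : A.Sh μ (10 ^ (i + 1)) ω ≠ ∞ :=
    ne_top_of_le_ne_top ENNReal.one_ne_top (KerSys.Sh_le_one hμ _ ω)
  have t2 : A.Sh μ (10 ^ (i + 2)) ω ≠ ∞ :=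
    ne_top_of_le_ne_top ENNReal.one_ne_top (KerSys.Sh_le_one hμ _ ω)
  have q1 : 0 < (A.Sh μ (10 ^ (i + 1)) ω).toReal := ENNReal.toReal_pos p1 t1
  have q2 : 0 < (A.Sh μ (10 ^ (i + 2)) ω).toReal := ENNReal.toReal_pos p2 t2
  have h3 : Real.log (A.Sh μ (10 ^ (i + 2)) ω).toReal ≤
      -v + Real.log (A.Sh μ (10 ^ (i + 1)) ω).toReal := by linarith
  have h4 : (A.Sh μ (10 ^ (i + 2)) ω).toReal ≤
      Real.exp (-v) * (A.Sh μ (10 ^ (i + 1)) ω).toReal := by
    calc (A.Sh μ (10 ^ (i + 2)) ω).toReal = Real.exp (Real.log (A.Sh μ (10 ^ (i + 2)) ω).toReal) :=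
          (Real.exp_log q2).symm
      _ ≤ Real.exp (-v + Real.log (A.Sh μ (10 ^ (i + 1)) ω).toReal) :=
          Real.exp_le_exp.2 h3
      _ = _ := by rw [Real.exp_add, Real.exp_log q1]
  calc A.Sh μ (10 ^ (i + 2)) ω = ENNReal.ofReal (A.Sh μ (10 ^ (i + 2)) ω).toReal :=
        (ENNReal.ofReal_toReal t2).symm
    _ ≤ ENNReal.ofReal (Real.exp (-v) * (A.Sh μ (10 ^ (i + 1)) ω).toReal) :=
        ENNReal.ofReal_le_ofReal h4
    _ = _ := by
        rw [ENNReal.ofReal_mul (Real.exp_pos _).le, ENNReal.ofReal_toReal t1]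


omit [Countable S] in
/-- monotonicity of the tile systems in the parameters. -/
theorem TileSys.mono {N : ℕ} {c1 c1' c c' θ θ' : ℝ≥0∞} (h : TileSys A N c1 c θ) (hc1 : c1' ≤ c1)
    (hc : c' ≤ c) (hθ : θ ≤ θ') : TileSys A N c1' c' θ' where
  fam L x hx := by
    obtain ⟨τ, h1, h2, h3, h4⟩ := h.fam L x hx
    refine ⟨τ, h1, h2, fun t ht B hB => (h3 t ht B hB).trans (by gcongr), ?_⟩
    filter_upwards [h4] with ω hω s hs1 hs
    exact (mul_le_mul' hc1 (pow_le_pow_left' hc s)).trans (hω s hs1 hs)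

/-- **(W) when the cost per layer is a constant** (regular lateral laws): no extra cost.  The cost
may depend on `Λ`. -/
theorem window_const
    (hT : ∀ Λ : ℝ, ∃ (m m1 : ℝ) (n0 : ℕ), 1 ≤ m ∧ ∀ n, n0 ≤ n →
      TileSys A (2 ^ n) (ENNReal.ofReal (Real.exp (-m1))) (ENNReal.ofReal (Real.exp (-m)))
        (ENNReal.ofReal (Real.exp (-(Λ * m))))) :
    ∀ lam : ℝ, 0 < lam → ∃ u0 c : ℝ, 0 < c ∧ 1 ≤ u0 ∧ ∀ μ : S → ℝ≥0∞, A.Start μ →
      (∀ h, ∀ᵐ ω ∂P, A.Sh μ h ω ≠ 0) → ∀ a : ℕ → Ω → ℝ,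
      (∀ i, ∀ᵐ ω ∂P, a i ω = - Real.log (A.Sh μ (10 ^ i) ω).toReal) →
      ∀ (i : ℕ) (u : ℝ), u0 ≤ u → u ≤ c * 10 ^ i →
      ∀ B, MeasurableSet[A.F (10 ^ i)] B →
      P (B ∩ {ω | u ≤ a (i + 2) ω - a (i + 1) ω}) ≤
        ENNReal.ofReal (Real.exp (-(lam * u))) * P B := by
  classical
  intro lam hlam
  set Λ : ℝ := 2 + 100 * (lam + 2) with hΛ
  obtain ⟨m, m1, n0, hm, hn0⟩ := hT Λ
  refine ⟨max (max (800 * m) 1) (2 * m1), 1 / 2 ^ n0, by positivity,
    (le_max_right _ _).trans (le_max_left _ _), ?_⟩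
  intro μ hμ hpos a ha i u hu huc B hB
  refine (log_event hμ hpos a ha i _ B).trans ?_
  have hu1 : 1 ≤ u := ((le_max_right _ _).trans (le_max_left _ _)).trans hu
  have huM : 800 * m ≤ u := ((le_max_left _ _).trans (le_max_left _ _)).trans hu
  have hum1 : 2 * m1 ≤ u := (le_max_right _ _).trans hu
  have hLlt : (10 : ℝ) ^ i < 2 ^ (lg i + 1) := by
    have : 10 ^ i < 2 ^ (lg i + 1) := Nat.lt_pow_succ_log_self (by norm_num) _
    exact_mod_cast this
  have hCL : 400 * 10 ^ i * m ≤ u * 2 ^ lg i := by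
    have h2 : (10 : ℝ) ^ i ≤ 2 * 2 ^ lg i := by
      rw [pow_succ] at hLlt; linarith
    have h3 : (0 : ℝ) < 2 ^ lg i := by positivity
    calc 400 * 10 ^ i * m ≤ 400 * (2 * 2 ^ lg i) * m := by gcongr
      _ = (800 * m) * 2 ^ lg i := by ring
      _ ≤ u * 2 ^ lg i := by gcongr
  have hex : ∃ n : ℕ, 400 * 10 ^ i * m ≤ u * 2 ^ n := ⟨_, hCL⟩
  set ns := Nat.find hex with hns
  have hC : 400 * 10 ^ i * m ≤ u * 2 ^ ns := Nat.find_spec hex
  have hnsL : ns ≤ lg i := Nat.find_min' hex hCL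
  have hns0 : n0 < ns := by
    by_contra hcon
    push Not at hcon
    have h1 : (2 : ℝ) ^ ns ≤ 2 ^ n0 := pow_le_pow_right₀ (by norm_num) hcon
    have h2 : u * 2 ^ ns ≤ (1 / 2 ^ n0 * 10 ^ i) * 2 ^ n0 := by
      calc u * 2 ^ ns ≤ u * 2 ^ n0 := by gcongr
        _ ≤ (1 / 2 ^ n0 * 10 ^ i) * 2 ^ n0 := by gcongr
    have h3 : (1 / 2 ^ n0 * 10 ^ i) * 2 ^ n0 = (10 : ℝ) ^ i := by
      field_simp
    rw [h3] at h2
    have hx0 : (0 : ℝ) < 10 ^ i := by positivity
    nlinarith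
  obtain ⟨n, hn⟩ : ∃ n, ns = n + 1 := ⟨ns - 1, by omega⟩
  have hnC : u * 2 ^ n < 400 * 10 ^ i * m := by
    have := Nat.find_min hex (m := n) (by omega)
    push Not at this
    exact this
  have hTS := hn0 ns hns0.le
  rw [hn] at hC hnsL hTS
  have hΛm : 1 + 100 * (lam + 2) * m ≤ Λ * m - 1 := by rw [hΛ]; nlinarith
  have hlam2 : 0 < lam + 2 := by linarith
  refine window_param (A := A) (N := 2 ^ (n + 1)) (by positivity) hm (by nlinarith) hTS
    ?_ (by push_cast; exact hC) (by linarith) ?_ hμ hB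
  · calc 2 ^ (n + 1) ≤ 2 ^ lg i := Nat.pow_le_pow_right (by norm_num) hnsL
      _ ≤ 10 ^ i := Nat.pow_log_le_self 2 (by positivity)
  · push_cast
    have h1 : (lam * u + 2) ≤ (lam + 2) * u := by nlinarith
    calc (lam * u + 2) * 2 ^ (n + 1) ≤ (lam + 2) * u * 2 ^ (n + 1) := by gcongr
      _ = (lam + 2) * 2 * (u * 2 ^ n) := by rw [pow_succ]; ring
      _ ≤ (lam + 2) * 2 * (400 * 10 ^ i * m) := by gcongr
      _ ≤ 9 * 10 ^ i * (100 * (lam + 2) * m) := by
          have : 0 < (lam + 2) * (10 ^ i * m) := by positivity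
          nlinarith
      _ ≤ 9 * 10 ^ i * (Λ * m - 1) := by
          have : 100 * (lam + 2) * m ≤ Λ * m - 1 := by linarith
          gcongr

end Crest.Agent.R154.WindowK299
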