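import Mathlib
import Crest.Agent.R154.RatioA_872
import Crest.Agent.R154.WindowK_299

-- ▼ part R154/Contour_748
section

set_option autoImplicit false

/-!
Row 154, block B8 (W): the contour of a finite cluster in 1+1 dimensional oriented percolation by a
deterministic walker (no planar topology), helper748.

`chg N bad k x` = cell `x` of layer `k` is charged from the sources `(0,x)`, `0 ≤ x < n`; children of
a good charged cell `x` are `x` and `x+1`.  Walker at `(x,k)`: charged & bad -> `L` (emit `(k,x)`), charged & good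
-> `U`, not charged -> `D`.
-/

namespace Crest.Agent.R154.Contour748

inductive St
  | L | U | D
  deriving DecidableEq

instance : Fintype St := ⟨{St.L, St.U, St.D}, by intro x; cases x <;> simp⟩

lemma card_St : Fintype.card St = 3 := rfl

/-- charged (wet) cells, sources `[0,n)`. -/
def chg (N : ℕ) (bad : ℕ → ℤ → Prop) : ℕ → ℤ → Prop
  | 0, x => 0 ≤ x ∧ x < N
  | (k+1), x => (chg N bad k x ∧ ¬ bad k x) ∨ (chg N bad k (x-1) ∧ ¬ bad k (x-1))

inductive Path (N : ℕ) (bad : ℕ → ℤ → Prop) : ℤ → ℕ → List St → ℤ → ℕ → Prop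
  | nil (x : ℤ) (k : ℕ) : Path N bad x k [] x k
  | L {x : ℤ} {k : ℕ} {w : List St} {y : ℤ} {l : ℕ} (hc : chg N bad k x) (hb : bad k x)
      (h : Path N bad (x-1) k w y l) : Path N bad x k (St.L :: w) y l
  | U {x : ℤ} {k : ℕ} {w : List St} {y : ℤ} {l : ℕ} (hc : chg N bad k x) (hb : ¬ bad k x)
      (h : Path N bad (x+1) (k+1) w y l) : Path N bad x k (St.U :: w) y l
  | D {x : ℤ} {k : ℕ} {w : List St} {y : ℤ} {l : ℕ} (hc : ¬ chg N bad (k+1) x)
      (h : Path N bad x k w y l) : Path N bad x (k+1) (St.D :: w) y l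

variable {N : ℕ} {bad : ℕ → ℤ → Prop}

lemma Path.append {x : ℤ} {k : ℕ} {w : List St} {y : ℤ} {l : ℕ} {w' : List St} {z : ℤ} {m : ℕ}
    (h : Path N bad x k w y l) (h' : Path N bad y l w' z m) : Path N bad x k (w ++ w') z m := by
  induction h with
  | nil => exact h'
  | L hc hb _ ih => exact Path.L hc hb (ih h')
  | U hc hb _ ih => exact Path.U hc hb (ih h')
  | D hc _ ih => exact Path.D hc (ih h')

def Reach (N : ℕ) (bad : ℕ → ℤ → Prop) (x : ℤ) (k : ℕ) (y : ℤ) (l : ℕ) : Prop :=
  ∃ w, Path N bad x k w y l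

lemma Reach.trans {x : ℤ} {k : ℕ} {y : ℤ} {l : ℕ} {z : ℤ} {m : ℕ}
    (h : Reach N bad x k y l) (h' : Reach N bad y l z m) : Reach N bad x k z m := by
  obtain ⟨w, hw⟩ := h
  obtain ⟨w', hw'⟩ := h'
  exact ⟨_, hw.append hw'⟩

lemma Reach.refl (x : ℤ) (k : ℕ) : Reach N bad x k x k := ⟨[], Path.nil x k⟩

lemma Reach.L {x : ℤ} {k : ℕ} (hc : chg N bad k x) (hb : bad k x) : Reach N bad x k (x-1) k :=
  ⟨_, Path.L hc hb (Path.nil _ _)⟩

lemma Reach.U {x : ℤ} {k : ℕ} (hc : chg N bad k x) (hb : ¬ bad k x) :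
    Reach N bad x k (x+1) (k+1) :=
  ⟨_, Path.U hc hb (Path.nil _ _)⟩

lemma Reach.D {x : ℤ} {k : ℕ} (hc : ¬ chg N bad (k+1) x) : Reach N bad x (k+1) x k :=
  ⟨_, Path.D hc (Path.nil _ _)⟩

/-- greatest charged point below. -/
lemma exists_prev (P : ℤ → Prop) {x y : ℤ} (hyx : y ≤ x) (hy : P y) :
    ∃ m, y ≤ m ∧ m ≤ x ∧ P m ∧ ∀ z, m < z → z ≤ x → ¬ P z := by
  obtain ⟨m, hm, hmax⟩ := Int.exists_greatest_of_bdd (P := fun z => P z ∧ z ≤ x)
    ⟨x, fun z hz => hz.2⟩ ⟨y, hy, hyx⟩
  refine ⟨m, hmax y ⟨hy, hyx⟩, hm.2, hm.1, fun z hz hzx hPz => ?_⟩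
  have := hmax z ⟨hPz, hzx⟩
  omega

def GapAt (N : ℕ) (bad : ℕ → ℤ → Prop) (k : ℕ) : Prop :=
  ∀ a b : ℤ, a ≤ b → (∀ x, a ≤ x → x ≤ b → ¬ chg N bad k x) → chg N bad k (a-1) →
    chg N bad k (b+1) → Reach N bad b k (a-1) k

lemma scan {k : ℕ} (hg : GapAt N bad k) : ∀ (n : ℕ) (x y : ℤ), y ≤ x → x - y ≤ n →
    (∀ z, y < z → z ≤ x → chg N bad k z → bad k z) → chg N bad k y →
    (chg N bad k x ∨ chg N bad k (x+1)) → Reach N bad x k y k := by
  intro n
  induction n with
  | zero =>
    intro x y hyx hn _ _ _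
    have : x = y := by push_cast at hn; omega
    subst this
    exact Reach.refl _ _
  | succ n ih =>
    intro x y hyx hn hall hy hx
    rcases eq_or_lt_of_le hyx with rfl | hlt
    · exact Reach.refl _ _
    by_cases hcx : chg N bad k x
    · have hb := hall x hlt le_rfl hcx
      have hn' : x - 1 - y ≤ (n : ℤ) := by push_cast at hn; omega
      refine (Reach.L hcx hb).trans (ih (x-1) y (by omega) hn'
        (fun z hz hzx => hall z hz (by omega)) hy (Or.inr ?_))
      simpa using hcx
    · have hx1 : chg N bad k (x+1) := by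
        rcases hx with h | h
        · exact absurd h hcx
        · exact h
      obtain ⟨m, hym, hmx, hcm, hmax⟩ := exists_prev (fun z => chg N bad k z) hyx hy
      have hmlt : m < x := by
        rcases eq_or_lt_of_le hmx with rfl | h
        · exact absurd hcm hcx
        · exact h
      have h1 : Reach N bad x k m k := by
        have := hg (m+1) x (by omega) (fun z hz hzx => hmax z (by omega) hzx)
          (by simpa using hcm) hx1
        simpa using this
      have hn' : m - y ≤ (n : ℤ) := by push_cast at hn; omega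
      exact h1.trans (ih m y hym hn' (fun z hz hzm => hall z hz (by omega)) hy (Or.inl hcm))

lemma scan' {k : ℕ} (hg : GapAt N bad k) {x y : ℤ} (hyx : y ≤ x)
    (hall : ∀ z, y < z → z ≤ x → chg N bad k z → bad k z) (hy : chg N bad k y)
    (hx : chg N bad k x ∨ chg N bad k (x+1)) : Reach N bad x k y k :=
  scan hg (x - y).toNat x y hyx (by omega) hall hy hx

lemma chg_succ_self {k : ℕ} {x : ℤ} (hc : chg N bad k x) (hb : ¬ bad k x) : chg N bad (k+1) x :=
  Or.inl ⟨hc, hb⟩

lemma chg_succ_right {k : ℕ} {x : ℤ} (hc : chg N bad k x) (hb : ¬ bad k x) :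
    chg N bad (k+1) (x+1) := by
  refine Or.inr ?_
  simpa using ⟨hc, hb⟩

lemma gap (k : ℕ) : GapAt N bad k := by
  induction k with
  | zero =>
    intro a b hab hno ha hb
    exfalso
    refine hno a le_rfl hab ?_
    simp only [chg] at ha hb ⊢
    omega
  | succ k ih =>
    intro a b hab hno ha hb
    -- b+1 is good at layer k
    have hb1 : chg N bad k (b+1) := by
      rcases hb with h | h
      · exact h.1
      · exfalso
        simp only [add_sub_cancel_right] at h
        exact hno b hab le_rfl (chg_succ_self h.1 h.2)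
    have ha2 : chg N bad k (a-2) ∧ ¬ bad k (a-2) := by
      rcases ha with h | h
      · exfalso
        have := chg_succ_right h.1 h.2
        simp only [sub_add_cancel] at this
        exact hno a le_rfl hab this
      · have e : a - 1 - 1 = a - 2 := by ring
        rwa [e] at h
    have h1 : Reach N bad b (k+1) b k := Reach.D (hno b hab le_rfl)
    have h2 : Reach N bad b k (a-2) k := by
      refine scan' ih (by omega) (fun z hz hzb hcz => ?_) ha2.1 (Or.inr hb1)
      by_contra hgood
      by_cases hza : a ≤ z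
      · exact hno z hza hzb (chg_succ_self hcz hgood)
      · have hz' : z = a - 1 := by omega
        subst hz'
        have := chg_succ_right hcz hgood
        simp only [sub_add_cancel] at this
        exact hno a le_rfl hab this
    have h3 : Reach N bad (a-2) k (a-1) (k+1) := by
      have := Reach.U ha2.1 ha2.2
      have e : a - 2 + 1 = a - 1 := by ring
      rwa [e] at this
    exact (h1.trans h2).trans h3

lemma chg_nonneg : ∀ (k : ℕ) (x : ℤ), chg N bad k x → 0 ≤ x ∧ x < N + k := by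
  intro k
  induction k with
  | zero => intro x hx; simp only [chg] at hx; push_cast; omega
  | succ k ih =>
    intro x hx
    rcases hx with h | h
    · have := ih x h.1; push_cast; omega
    · have := ih (x-1) h.1; push_cast; omega

lemma right_edge : ∀ k : ℕ, (∃ x, chg N bad k x) →
    ∃ x, Reach N bad (N-1) 0 x k ∧ chg N bad k x ∧ ∀ y, x < y → ¬ chg N bad k y := by
  intro k
  induction k with
  | zero =>
    rintro ⟨x, hx⟩
    simp only [chg] at hx
    refine ⟨N-1, Reach.refl _ _, by simp only [chg]; omega, fun y hy => ?_⟩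
    simp only [chg]; omega
  | succ k ih =>
    rintro ⟨x, hx⟩
    have hex : ∃ g, chg N bad k g ∧ ¬ bad k g := by
      rcases hx with h | h
      · exact ⟨_, h⟩
      · exact ⟨_, h⟩
    obtain ⟨g0, hg0⟩ := hex
    obtain ⟨r, hr, hcr, hrmax⟩ := ih ⟨g0, hg0.1⟩
    have hg0r : g0 ≤ r := by
      by_contra h
      exact hrmax g0 (by omega) hg0.1
    obtain ⟨g, _, hgr, hg, hgmax⟩ := exists_prev (fun z => chg N bad k z ∧ ¬ bad k z) hg0r hg0
    have h1 : Reach N bad r k g k := by
      refine scan' (gap k) hgr (fun z hz hzr hcz => ?_) hg.1 (Or.inl hcr)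
      by_contra hgood
      exact hgmax z hz hzr ⟨hcz, hgood⟩
    refine ⟨g+1, (hr.trans h1).trans (Reach.U hg.1 hg.2), chg_succ_right hg.1 hg.2,
      fun y hy hcy => ?_⟩
    rcases hcy with h | h
    · by_cases hyr : y ≤ r
      · exact hgmax y (by omega) hyr h
      · exact hrmax y (by omega) h.1
    · by_cases hyr : y - 1 ≤ r
      · exact hgmax (y-1) (by omega) hyr h
      · exact hrmax (y-1) (by omega) h.1

lemma out : ∀ (k : ℕ) (x : ℤ), (chg N bad k x ∨ chg N bad k (x+1)) →
    (∀ y, y ≤ x → chg N bad k y → bad k y) → Reach N bad x k (-1) 0 := by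
  intro k
  induction k with
  | zero =>
    intro x hx hall
    have key : ∃ m, Reach N bad x 0 m 0 ∧ chg N bad 0 (m+1) ∧
        ∀ y, y ≤ m → ¬ chg N bad 0 y := by
      by_cases hex : ∃ y, y ≤ x ∧ chg N bad 0 y
      · obtain ⟨y0, hy0x, hy0⟩ := hex
        obtain ⟨y, hy, hymin⟩ := Int.exists_least_of_bdd (P := fun z => chg N bad 0 z)
          ⟨0, fun z hz => (chg_nonneg _ _ hz).1⟩ ⟨y0, hy0⟩
        have hyx : y ≤ x := le_trans (hymin y0 hy0) hy0x
        have h1 : Reach N bad x 0 y 0 :=
          scan' (gap 0) hyx (fun z _ hzx hcz => hall z hzx hcz) hy hx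
        refine ⟨y-1, h1.trans (Reach.L hy (hall y hyx hy)), by simpa using hy, fun z hz hcz => ?_⟩
        have := hymin z hcz
        omega
      · push Not at hex
        refine ⟨x, Reach.refl _ _, ?_, hex⟩
        rcases hx with h | h
        · exact absurd h (hex x le_rfl)
        · exact h
    obtain ⟨m, hm, hm1, hmno⟩ := key
    have hm0 : m = -1 := by
      have h2 := hmno 0
      simp only [chg] at hm1 h2
      omega
    rwa [hm0] at hm
  | succ k ih =>
    intro x hx hall
    -- first reach m with m+1 charged, nothing charged in (-∞, m]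
    have key : ∃ m, Reach N bad x (k+1) m (k+1) ∧ chg N bad (k+1) (m+1) ∧
        ∀ y, y ≤ m → ¬ chg N bad (k+1) y := by
      by_cases hex : ∃ y, y ≤ x ∧ chg N bad (k+1) y
      · obtain ⟨y0, hy0x, hy0⟩ := hex
        obtain ⟨y, hy, hymin⟩ := Int.exists_least_of_bdd (P := fun z => chg N bad (k+1) z)
          ⟨0, fun z hz => (chg_nonneg _ _ hz).1⟩ ⟨y0, hy0⟩
        have hyx : y ≤ x := le_trans (hymin y0 hy0) hy0x
        have h1 : Reach N bad x (k+1) y (k+1) :=
          scan' (gap (k+1)) hyx (fun z _ hzx hcz => hall z hzx hcz) hy hx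
        refine ⟨y-1, h1.trans (Reach.L hy (hall y hyx hy)), by simpa using hy, fun z hz hcz => ?_⟩
        have := hymin z hcz
        omega
      · push Not at hex
        refine ⟨x, Reach.refl _ _, ?_, hex⟩
        rcases hx with h | h
        · exact absurd h (hex x le_rfl)
        · exact h
    obtain ⟨m, hm, hm1, hmno⟩ := key
    have h1 : Reach N bad m (k+1) m k := Reach.D (hmno m le_rfl)
    have h2 : chg N bad k (m+1) := by
      rcases hm1 with h | h
      · exact h.1
      · simp only [add_sub_cancel_right] at h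
        exact absurd (chg_succ_self h.1 h.2) (hmno m le_rfl)
    refine (hm.trans h1).trans (ih m (Or.inr h2) fun y hy hcy => ?_)
    by_contra hgood
    exact hmno y hy (chg_succ_self hcy hgood)

lemma Path.disp {x : ℤ} {k : ℕ} {w : List St} {y : ℤ} {l : ℕ} (h : Path N bad x k w y l) :
    y + (w.count St.L : ℤ) = x + (w.count St.U : ℤ) ∧
      (l : ℤ) + (w.count St.D : ℤ) = k + (w.count St.U : ℤ) := by
  induction h with
  | nil => simp
  | L hc hb _ ih => simp; constructor <;> omega
  | U hc hb _ ih => simp; push_cast at ih; constructor <;> omega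
  | D hc _ ih => simp; constructor <;> omega

/-- emitted tiles (layer, cell). -/
def emit : ℤ → ℕ → List St → List (ℕ × ℤ)
  | _, _, [] => []
  | x, k, (St.L :: w) => (k, x) :: emit (x-1) k w
  | x, k, (St.U :: w) => emit (x+1) (k+1) w
  | x, k, (St.D :: w) => emit x (k-1) w

lemma length_emit : ∀ (w : List St) (x : ℤ) (k : ℕ), (emit x k w).length = w.count St.L := by
  intro w
  induction w with
  | nil => intro x k; simp [emit]
  | cons s w ih => intro x k; cases s <;> simp [emit, ih]

lemma Path.emit_bad {x : ℤ} {k : ℕ} {w : List St} {y : ℤ} {l : ℕ} (h : Path N bad x k w y l) :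
    ∀ p ∈ emit x k w, bad p.1 p.2 := by
  induction h with
  | nil => simp [emit]
  | L hc hb _ ih =>
    intro p hp
    simp only [emit, List.mem_cons] at hp
    rcases hp with rfl | hp
    · exact hb
    · exact ih p hp
  | U hc hb _ ih => intro p hp; exact ih p hp
  | D hc _ ih => intro p hp; exact ih p (by simpa [emit] using hp)

lemma Path.emit_chg {x : ℤ} {k : ℕ} {w : List St} {y : ℤ} {l : ℕ} (h : Path N bad x k w y l) :
    ∀ p ∈ emit x k w, chg N bad p.1 p.2 := by
  induction h with
  | nil => simp [emit]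
  | L hc hb _ ih =>
    intro p hp
    simp only [emit, List.mem_cons] at hp
    rcases hp with rfl | hp
    · exact hc
    · exact ih p hp
  | U hc hb _ ih => intro p hp; exact ih p hp
  | D hc _ ih => intro p hp; exact ih p (by simpa [emit] using hp)

lemma dead_of_dead {j : ℕ} (h2 : ∀ x, ¬ chg N bad (j+1) x) (i : ℕ) :
    ∀ x, ¬ chg N bad (j+1+i) x := by
  induction i with
  | zero => exact h2
  | succ i ih =>
    intro x hx
    rcases hx with h | h
    · exact ih _ h.1
    · exact ih _ h.1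

lemma Path.split {x : ℤ} {k : ℕ} {w : List St} {y : ℤ} {l : ℕ} (h : Path N bad x k w y l) :
    ∀ p ∈ emit x k w, ∃ w1 w2, w = w1 ++ w2 ∧ Path N bad x k w1 p.2 p.1 ∧
      Path N bad p.2 p.1 w2 y l := by
  induction h with
  | nil => simp [emit]
  | @L x k w y l hc hb h ih =>
    intro p hp
    simp only [emit, List.mem_cons] at hp
    rcases hp with rfl | hp
    · exact ⟨[], St.L :: w, rfl, Path.nil _ _, Path.L hc hb h⟩
    · obtain ⟨w1, w2, e, h1, h2⟩ := ih p hp
      exact ⟨St.L :: w1, w2, by simp [e], Path.L hc hb h1, h2⟩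
  | @U x k w y l hc hb h ih =>
    intro p hp
    obtain ⟨w1, w2, e, h1, h2⟩ := ih p hp
    exact ⟨St.U :: w1, w2, by simp [e], Path.U hc hb h1, h2⟩
  | @D x k w y l hc h ih =>
    intro p hp
    obtain ⟨w1, w2, e, h1, h2⟩ := ih p (by simpa [emit] using hp)
    exact ⟨St.D :: w1, w2, by simp [e], Path.D hc h1, h2⟩

lemma terminal : ∀ {w : List St} {y : ℤ} {l : ℕ}, Path N bad (-1) 0 w y l → w = [] := by
  intro w y l h
  cases h with
  | nil => rfl
  | L hc _ _ => simp [chg] at hc
  | U hc _ _ => simp [chg] at hc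

lemma Path.uniq {x : ℤ} {k : ℕ} {w : List St} {y : ℤ} {l : ℕ} (h : Path N bad x k w y l)
    (hy : y = -1) (hl : l = 0) : ∀ {w' : List St}, Path N bad x k w' (-1) 0 → w = w' := by
  induction h with
  | nil =>
    subst hy; subst hl
    intro w' h'
    exact (terminal h').symm
  | @L x k w y l hc hb h ih =>
    intro w' h'
    cases h' with
    | nil => simp [chg] at hc
    | L _ _ h' => rw [ih hy hl h']
    | U _ hb' _ => exact absurd hb hb'
    | D hc' _ => exact absurd hc hc'
  | @U x k w y l hc hb h ih =>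
    intro w' h'
    cases h' with
    | nil => simp [chg] at hc
    | L _ hb' _ => exact absurd hb' hb
    | U _ _ h' => rw [ih hy hl h']
    | D hc' _ => exact absurd hc hc'
  | @D x k w y l hc h ih =>
    intro w' h'
    cases h' with
    | L hc' _ _ => exact absurd hc' hc
    | U hc' _ _ => exact absurd hc' hc
    | D _ h' => rw [ih hy hl h']

lemma Path.nodup {x : ℤ} {k : ℕ} {w : List St} {y : ℤ} {l : ℕ} (h : Path N bad x k w y l)
    (hy : y = -1) (hl : l = 0) : (emit x k w).Nodup := by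
  induction h with
  | nil => simp [emit]
  | @L x k w y l hc hb h ih =>
    simp only [emit, List.nodup_cons]
    refine ⟨fun hmem => ?_, ih hy hl⟩
    obtain ⟨w1, w2, e, h1, h2⟩ := h.split _ hmem
    simp only at h1 h2
    subst hy; subst hl
    have hu := h2.uniq rfl rfl (Path.L hc hb h)
    have h3 := congrArg List.length hu
    rw [e] at h3
    simp only [List.length_cons, List.length_append] at h3
    omega
  | @U x k w y l hc hb h ih => exact ih hy hl
  | @D x k w y l hc h ih => simpa [emit] using ih hy hl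

/-- **Output 1.** If the cluster of the source dies exactly after layer `j` there is a word. -/
theorem exists_word {j : ℕ} (h1 : ∃ x, chg N bad j x) (h2 : ∀ x, ¬ chg N bad (j+1) x) :
    ∃ w : List St, N + j ≤ w.count St.L ∧ w.length + 2 * N = 3 * w.count St.L ∧
      (emit (N-1) 0 w).Nodup ∧ (emit (N-1) 0 w).length = w.count St.L ∧
      ∀ p ∈ emit (N-1) 0 w, bad p.1 p.2 ∧ p.1 ≤ j := by
  obtain ⟨r, ⟨w1, hw1⟩, hcr, _⟩ := right_edge j h1
  have hall : ∀ y, y ≤ r → chg N bad j y → bad j y := by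
    intro y _ hcy
    by_contra hgood
    exact h2 y (chg_succ_self hcy hgood)
  obtain ⟨w2, hw2⟩ := out j r (Or.inl hcr) hall
  have hP := hw1.append hw2
  refine ⟨w1 ++ w2, ?_, ?_, hP.nodup rfl rfl, length_emit _ _ _,
    fun p hp => ⟨hP.emit_bad p hp, ?_⟩⟩
  rotate_left 2
  · by_contra hlt
    obtain ⟨i, hi⟩ := Nat.exists_eq_add_of_le (show j + 1 ≤ p.1 by omega)
    have := hP.emit_chg p hp
    rw [hi] at this
    exact dead_of_dead h2 i _ this
  · have d := hP.disp
    have d1 := hw1.disp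
    have hc : (w1.count St.U) ≤ (w1 ++ w2).count St.U := by
      rw [List.count_append]; omega
    push_cast at d d1
    omega
  · have d := hP.disp
    have hlen : ∀ w : List St, w.length = w.count St.L + w.count St.U + w.count St.D := by
      intro w
      induction w with
      | nil => simp
      | cons s w ih => cases s <;> simp [ih] <;> omega
    rw [hlen]
    push_cast at d
    omega

section prob

open MeasureTheory
open scoped ENNReal

variable {Ω : Type*} [MeasurableSpace Ω]

/-- The cluster of the row `[0,N)` dies exactly after layer `j`. -/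
def diesAt (N : ℕ) (bad : ℕ → ℤ → Prop) (j : ℕ) : Prop :=
  (∃ x, chg N bad j x) ∧ ∀ x, ¬ chg N bad (j+1) x

lemma not_diesAt_zero (bad : ℕ → ℤ → Prop) (j : ℕ) : ¬ diesAt 0 bad j := by
  rintro ⟨⟨x, hx⟩, _⟩
  have : ∀ j x, ¬ chg 0 bad j x := by
    intro j
    induction j with
    | zero => intro x hx; simp only [chg] at hx; push_cast at hx; omega
    | succ j ih =>
      intro x hx
      rcases hx with h | h
      · exact ih _ h.1
      · exact ih _ h.1
  exact this j x hx

/-- **Output 2.** -/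
theorem dies_le (μ : Measure Ω) (M q : ℝ≥0∞) (hq : 54 * q ≤ 1) (bad : ℕ → ℤ → Ω → Prop)
    (N j : ℕ)
    (hK : ∀ K : Finset (ℕ × ℤ), (∀ p ∈ K, p.1 ≤ j) →
      μ {ω | ∀ p ∈ K, bad p.1 p.2 ω} ≤ M * q ^ K.card) :
    μ {ω | diesAt N (fun k x => bad k x ω) j} ≤ M * (27 * q) ^ (N + j) := by
  classical
  rcases Nat.eq_zero_or_pos N with rfl | hN
  · have : {ω | diesAt 0 (fun k x => bad k x ω) j} = ∅ := by
      ext ω; simp only [Set.mem_ofPred_eq, Set.mem_empty_iff_false, iff_false]
      exact not_diesAt_zero _ _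
    rw [this]; simp
  -- the event of a given word
  let S : (i : ℕ) → (Fin (3 * (N + j + i) - 2 * N) → St) → Set Ω := fun i f =>
    if (emit (N-1) 0 (List.ofFn f)).Nodup ∧ (emit (N-1) 0 (List.ofFn f)).length = N + j + i ∧
        ∀ p ∈ emit (N-1) 0 (List.ofFn f), p.1 ≤ j then
      {ω | ∀ p ∈ (emit (N-1) 0 (List.ofFn f)).toFinset, bad p.1 p.2 ω} else ∅
  have hS : ∀ i f, μ (S i f) ≤ M * q ^ (N + j + i) := by
    intro i f
    simp only [S]
    split_ifs with h
    · have := hK (emit (N-1) 0 (List.ofFn f)).toFinset (by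
        intro p hp; exact h.2.2 p (List.mem_toFinset.1 hp))
      rwa [List.toFinset_card_of_nodup h.1, h.2.1] at this
    · simp
  have hsub : {ω | diesAt N (fun k x => bad k x ω) j} ⊆ ⋃ i, ⋃ f, S i f := by
    intro ω hω
    obtain ⟨w, h1, h2, h3, h4, h5⟩ := exists_word hω.1 hω.2
    obtain ⟨i, hi⟩ := Nat.exists_eq_add_of_le h1
    have hlen : w.length = 3 * (N + j + i) - 2 * N := by omega
    refine Set.mem_iUnion.2 ⟨i, Set.mem_iUnion.2 ⟨fun t => w.get (t.cast hlen.symm), ?_⟩⟩
    have hof : List.ofFn (fun t : Fin (3 * (N + j + i) - 2 * N) => w.get (t.cast hlen.symm)) = w := by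
      apply List.ext_getElem
      · simp [hlen]
      · intro n h h'
        simp
    simp only [S, hof]
    rw [if_pos ⟨h3, by rw [h4, hi], fun p hp => (h5 p hp).2⟩]
    intro p hp
    exact (h5 p (List.mem_toFinset.1 hp)).1
  have hcard : ∀ i, μ (⋃ f, S i f) ≤ (3:ℝ≥0∞) ^ (3 * (N + j + i) - 2 * N) * (M * q ^ (N + j + i)) := by
    intro i
    refine (measure_iUnion_le _).trans ?_
    rw [tsum_fintype]
    refine (Finset.sum_le_card_nsmul _ _ _ (fun f _ => hS i f)).trans ?_
    rw [nsmul_eq_mul]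
    gcongr
    simp [card_St]
  have h2 : 2 * μ {ω | diesAt N (fun k x => bad k x ω) j} ≤ 2 * (M * (27 * q) ^ (N + j)) := by
    calc 2 * μ {ω | diesAt N (fun k x => bad k x ω) j}
        ≤ 2 * ∑' i, (3:ℝ≥0∞) ^ (3 * (N + j + i) - 2 * N) * (M * q ^ (N + j + i)) := by
          gcongr
          exact (measure_mono hsub).trans ((measure_iUnion_le _).trans (ENNReal.tsum_le_tsum hcard))
      _ = ∑' i, 2 * ((3:ℝ≥0∞) ^ (3 * (N + j + i) - 2 * N) * (M * q ^ (N + j + i))) := by
          rw [ENNReal.tsum_mul_left]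
      _ ≤ ∑' i, (M * (27 * q) ^ (N + j)) * (2⁻¹ : ℝ≥0∞) ^ i := by
          refine ENNReal.tsum_le_tsum fun i => ?_
          have e1 : 2 * (3:ℝ≥0∞) ^ (3 * (N + j + i) - 2 * N) ≤ 27 ^ (N + j + i) := by
            calc 2 * (3:ℝ≥0∞) ^ (3 * (N + j + i) - 2 * N)
                ≤ 3 ^ 2 * (3:ℝ≥0∞) ^ (3 * (N + j + i) - 2 * N) := by
                  gcongr; norm_num
              _ = 3 ^ (2 + (3 * (N + j + i) - 2 * N)) := by rw [pow_add]
              _ ≤ 3 ^ (3 * (N + j + i)) := by
                  apply pow_le_pow_right₀ (by norm_num); omega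
              _ = 27 ^ (N + j + i) := by rw [pow_mul]; norm_num
          have e2 : (27 * q) ^ i ≤ (2⁻¹ : ℝ≥0∞) ^ i := by
            have : 27 * q ≤ 2⁻¹ := by
              rw [← ENNReal.mul_le_mul_iff_right (a := 2) (by norm_num) (by norm_num),
                ENNReal.mul_inv_cancel (by norm_num) (by norm_num)]
              calc 2 * (27 * q) = 54 * q := by rw [← mul_assoc]; norm_num
                _ ≤ 1 := hq
            gcongr
          calc 2 * ((3:ℝ≥0∞) ^ (3 * (N + j + i) - 2 * N) * (M * q ^ (N + j + i)))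
              = (2 * (3:ℝ≥0∞) ^ (3 * (N + j + i) - 2 * N)) * (M * q ^ (N + j + i)) := by ring
            _ ≤ 27 ^ (N + j + i) * (M * q ^ (N + j + i)) := by gcongr
            _ = (M * (27 * q) ^ (N + j)) * (27 * q) ^ i := by
                rw [mul_pow, mul_pow, pow_add (27:ℝ≥0∞), pow_add q]; ring
            _ ≤ _ := by gcongr
      _ = 2 * (M * (27 * q) ^ (N + j)) := by
          rw [ENNReal.tsum_mul_left, ENNReal.tsum_geometric, ENNReal.one_sub_inv_two, inv_inv]
          ring
  exact (ENNReal.mul_le_mul_iff_right (by norm_num) (by norm_num)).1 h2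

end prob

end Crest.Agent.R154.Contour748
private theorem rz_8ad8431915 : type_of% @_root_.Crest.Agent.R154.Contour748.chg.eq_def := @_root_.Crest.Agent.R154.Contour748.chg.eq_def -- L25
private theorem rz_1d033592c0 : type_of% @_root_.Crest.Agent.R154.Contour748.chg.eq_1 := @_root_.Crest.Agent.R154.Contour748.chg.eq_1 -- L25
private theorem rz_719a87c833 : type_of% @_root_.Crest.Agent.R154.Contour748.emit.eq_def := @_root_.Crest.Agent.R154.Contour748.emit.eq_def -- L288
private theorem rz_fabc4eb162 : type_of% @_root_.Crest.Agent.R154.Contour748.emit.eq_1 := @_root_.Crest.Agent.R154.Contour748.emit.eq_1 -- L288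
end

-- ▼ part R154/Attempts_748
section

set_option autoImplicit false
set_option linter.unusedSectionVars false
set_option linter.unusedVariables false

/-!
Row 154, block B8 (W): attempts recursion on top of `Contour748.dies_le` (helper748).
-/

namespace Crest.Agent.R154.Contour748

open MeasureTheory
open scoped ENNReal

variable {Ω : Type*} [m0 : MeasurableSpace Ω]




/-- One-layer conditional K-set bounds give the space-time K-set bound. -/
theorem kset_layers (P : Measure Ω) (G : ℕ → MeasurableSpace Ω) (hGm : ∀ k, G k ≤ m0)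
    (hGmono : Monotone G) (bad : ℕ → ℤ → Set Ω) (q : ℝ≥0∞)
    (hbm : ∀ k x, MeasurableSet[G (k + 1)] (bad k x))
    (hb : ∀ k (K : Finset ℤ) B, MeasurableSet[G k] B →
      P (B ∩ {ω | ∀ x ∈ K, ω ∈ bad k x}) ≤ q ^ K.card * P B) :
    ∀ (n k : ℕ) (K : Finset (ℕ × ℤ)) (B : Set Ω), MeasurableSet[G k] B →
      (∀ p ∈ K, k ≤ p.1 ∧ p.1 < k + n) →
      P (B ∩ {ω | ∀ p ∈ K, ω ∈ bad p.1 p.2}) ≤ q ^ K.card * P B := by
  classical
  intro n
  induction n with
  | zero =>
    intro k K B hB hK
    have : K = ∅ := by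
      apply Finset.eq_empty_of_forall_notMem
      intro p hp
      have := hK p hp
      omega
    subst this
    simp
  | succ n ih =>
    intro k K B hB hK
    set K0 : Finset ℤ := (K.filter (fun p => p.1 = k)).image Prod.snd with hK0
    set K1 : Finset (ℕ × ℤ) := K.filter (fun p => p.1 ≠ k) with hK1
    have hcard : K.card = K1.card + K0.card := by
      have h1 : K0.card = (K.filter (fun p => p.1 = k)).card := by
        rw [hK0]
        refine Finset.card_image_of_injOn ?_
        intro p hp p' hp' e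
        simp only [Finset.coe_filter, Set.mem_ofPred_eq] at hp hp'
        exact Prod.ext (hp.2.trans hp'.2.symm) e
      rw [h1, hK1, add_comm]
      exact (Finset.card_filter_add_card_filter_not _).symm
    set B' : Set Ω := B ∩ {ω | ∀ x ∈ K0, ω ∈ bad k x} with hB'
    have hB'm : MeasurableSet[G (k + 1)] B' := by
      refine MeasurableSet.inter (hGmono (Nat.le_succ k) _ hB) ?_
      have : {ω | ∀ x ∈ K0, ω ∈ bad k x} = ⋂ x ∈ K0, bad k x := by
        ext ω; simp
      rw [this]
      exact Finset.measurableSet_biInter _ fun x _ => hbm k x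
    have h1 : B ∩ {ω | ∀ p ∈ K, ω ∈ bad p.1 p.2} ⊆ B' ∩ {ω | ∀ p ∈ K1, ω ∈ bad p.1 p.2} := by
      rintro ω ⟨hωB, hω⟩
      refine ⟨⟨hωB, ?_⟩, ?_⟩
      · intro x hx
        rw [hK0, Finset.mem_image] at hx
        obtain ⟨p, hp, rfl⟩ := hx
        rw [Finset.mem_filter] at hp
        have := hω p hp.1
        rwa [hp.2] at this
      · intro p hp
        exact hω p (Finset.mem_filter.1 hp).1
    calc P (B ∩ {ω | ∀ p ∈ K, ω ∈ bad p.1 p.2})
        ≤ P (B' ∩ {ω | ∀ p ∈ K1, ω ∈ bad p.1 p.2}) := measure_mono h1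
      _ ≤ q ^ K1.card * P B' := by
          refine ih (k + 1) K1 B' hB'm ?_
          intro p hp
          rw [hK1, Finset.mem_filter] at hp
          have := hK p hp.1
          omega
      _ ≤ q ^ K1.card * (q ^ K0.card * P B) := by gcongr; exact hb k K0 B hB
      _ = q ^ K.card * P B := by rw [hcard, pow_add]; ring










end Crest.Agent.R154.Contour748
end

-- ▼ part R154/Tau_748
section

set_option autoImplicit false
set_option linter.unusedSectionVars false
set_option linter.unusedVariables false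

/-!
Row 154, block B8 (W): abstract tile system (states in the cells, random states decided by the
past) ⟹ lifetime `τ` of the cluster of a source point, with the geometric tail needed by
`Window_299.window`, and a chain of good tiles while it is alive (helper748).
-/

namespace Crest.Agent.R154.Contour748

open MeasureTheory
open scoped ENNReal

/-- An abstract system of tiles.  `F k` = past of layer `k`; `Λ` = states (for example the mass
function of the law sitting in a cell); `cls k x` = admissible states in the cell `x` of layer `k`;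
`good k x lam` = the tile (layer `k`, cell `x`) with input `lam` is good; `outL`, `outR` = its outputs
in the cells `x`, `x+1` of layer `k+1`.  `succ k z`, `sig k z`, `lam0 k z` = the first climb of an
attempt from the point `z` of layer `k`: success, cell and state reached in layer `k+1`. -/
structure TileSys {Ω : Type*} [m0 : MeasurableSpace Ω] (P : Measure Ω) (F : Filtration ℕ m0)
    (Z Λ : Type*) [MeasurableSpace Λ] (q : ℝ≥0∞) where
  cls : ℕ → ℤ → Set Λ
  dflt : ℕ → ℤ → Λ
  dflt_mem : ∀ k x, dflt k x ∈ cls k x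
  good : ℕ → ℤ → Λ → Set Ω
  outL : ℕ → ℤ → Λ → Ω → Λ
  outR : ℕ → ℤ → Λ → Ω → Λ
  outL_mem : ∀ k x lam ω, lam ∈ cls k x → ω ∈ good k x lam → outL k x lam ω ∈ cls (k + 1) x
  outR_mem : ∀ k x lam ω, lam ∈ cls k x → ω ∈ good k x lam → outR k x lam ω ∈ cls (k + 1) (x + 1)
  good_meas : ∀ k x (f : Ω → Λ), Measurable[F k] f → MeasurableSet[F (k + 1)] {ω | ω ∈ good k x (f ω)}
  outL_meas : ∀ k x (f : Ω → Λ), Measurable[F k] f → Measurable[F (k + 1)] fun ω => outL k x (f ω) ω
  outR_meas : ∀ k x (f : Ω → Λ), Measurable[F k] f → Measurable[F (k + 1)] fun ω => outR k x (f ω) ω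
  succ : ℕ → Z → Set Ω
  sig : ℕ → Z → Ω → ℤ
  lam0 : ℕ → Z → Ω → Λ
  succ_meas : ∀ k z, MeasurableSet[F (k + 1)] (succ k z)
  sig_meas : ∀ k z x, MeasurableSet[F (k + 1)] {ω | sig k z ω = x}
  lam0_meas : ∀ k z, Measurable[F (k + 1)] (lam0 k z)
  lam0_mem : ∀ k z ω, ω ∈ succ k z → lam0 k z ω ∈ cls (k + 1) (sig k z ω)
  kset : ∀ k (K : Finset ℤ) (f : ℤ → Ω → Λ), (∀ x, Measurable[F k] (f x)) →
    (∀ x ω, f x ω ∈ cls k x) → ∀ B, MeasurableSet[F k] B →
    P (B ∩ {ω | ∀ x ∈ K, ω ∉ good k x (f x ω)}) ≤ q ^ K.card * P B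
  fail : ∀ k z B, MeasurableSet[F k] B → P (B ∩ (succ k z)ᶜ) ≤ q * P B

namespace TileSys

variable {Ω : Type*} [m0 : MeasurableSpace Ω] {P : Measure Ω} {F : Filtration ℕ m0}
  {Z Λ : Type*} [MeasurableSpace Λ] {q : ℝ≥0∞}

open Classical in
/-- wet cells and their states; layer `k+1+i`. -/
noncomputable def st (T : TileSys P F Z Λ q) (k : ℕ) (z : Z) : ℕ → ℤ → (Set Ω × (Ω → Λ))
  | 0, x => (T.succ k z ∩ {ω | T.sig k z ω = x},
      fun ω => if ω ∈ T.succ k z ∩ {ω | T.sig k z ω = x} then T.lam0 k z ω else T.dflt (k + 1) x)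
  | (i+1), x =>
      let A := (st T k z i x).1 ∩ {ω | ω ∈ T.good (k + 1 + i) x ((st T k z i x).2 ω)}
      let A' := (st T k z i (x-1)).1 ∩
        {ω | ω ∈ T.good (k + 1 + i) (x-1) ((st T k z i (x-1)).2 ω)}
      (A ∪ A', fun ω => if ω ∈ A then T.outL (k + 1 + i) x ((st T k z i x).2 ω) ω
        else if ω ∈ A' then T.outR (k + 1 + i) (x-1) ((st T k z i (x-1)).2 ω) ω
        else T.dflt (k + 1 + (i + 1)) x)

/-- the cell `x` of layer `k+1+i` is wet. -/
noncomputable def wet (T : TileSys P F Z Λ q) (k : ℕ) (z : Z) (i : ℕ) (x : ℤ) : Set Ω :=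
  (T.st k z i x).1

/-- its state. -/
noncomputable def state (T : TileSys P F Z Λ q) (k : ℕ) (z : Z) (i : ℕ) (x : ℤ) : Ω → Λ :=
  (T.st k z i x).2

/-- good tile with the actual state. -/
def gd (T : TileSys P F Z Λ q) (k : ℕ) (z : Z) (i : ℕ) (x : ℤ) : Set Ω :=
  {ω | ω ∈ T.good (k + 1 + i) x (T.state k z i x ω)}

variable (T : TileSys P F Z Λ q) (k : ℕ) (z : Z)

lemma wet_zero (x : ℤ) : T.wet k z 0 x = T.succ k z ∩ {ω | T.sig k z ω = x} := rfl

lemma wet_succ (i : ℕ) (x : ℤ) : T.wet k z (i + 1) x =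
    (T.wet k z i x ∩ T.gd k z i x) ∪ (T.wet k z i (x-1) ∩ T.gd k z i (x-1)) := rfl

open Classical in
lemma state_zero (x : ℤ) : T.state k z 0 x =
    fun ω => if ω ∈ T.wet k z 0 x then T.lam0 k z ω else T.dflt (k + 1) x := by
  funext ω
  by_cases h : ω ∈ T.succ k z ∩ {ω | T.sig k z ω = x}
  · simp only [state, st]
    rw [if_pos h, if_pos (show ω ∈ T.wet k z 0 x from h)]
  · simp only [state, st]
    rw [if_neg h, if_neg (show ω ∉ T.wet k z 0 x from h)]

open Classical in
lemma state_succ (i : ℕ) (x : ℤ) : T.state k z (i + 1) x = fun ω =>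
    if ω ∈ T.wet k z i x ∩ T.gd k z i x then T.outL (k + 1 + i) x (T.state k z i x ω) ω
    else if ω ∈ T.wet k z i (x-1) ∩ T.gd k z i (x-1) then
      T.outR (k + 1 + i) (x-1) (T.state k z i (x-1) ω) ω
    else T.dflt (k + 1 + (i + 1)) x := rfl

lemma meas : ∀ i x, MeasurableSet[F (k + 1 + i)] (T.wet k z i x) ∧
    Measurable[F (k + 1 + i)] (T.state k z i x) := by
  classical
  intro i
  induction i with
  | zero =>
    intro x
    have h1 : MeasurableSet[F (k + 1)] (T.wet k z 0 x) := by
      rw [wet_zero]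
      exact MeasurableSet.inter (T.succ_meas k z) (T.sig_meas k z x)
    refine ⟨h1, ?_⟩
    rw [state_zero]
    exact Measurable.ite (m := F (k+1)) h1 (T.lam0_meas k z) measurable_const
  | succ i ih =>
    have hg : ∀ x, MeasurableSet[F (k + 1 + (i + 1))] (T.wet k z i x ∩ T.gd k z i x) := fun x =>
      MeasurableSet.inter (F.mono (by omega) _ (ih x).1)
        (T.good_meas (k + 1 + i) x _ (ih x).2)
    intro x
    refine ⟨?_, ?_⟩
    · rw [wet_succ]
      exact MeasurableSet.union (hg x) (hg (x-1))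
    · rw [state_succ]
      refine Measurable.ite (m := F (k + 1 + (i + 1))) (hg x)
        (T.outL_meas (k + 1 + i) x _ (ih x).2) ?_
      exact Measurable.ite (m := F (k + 1 + (i + 1))) (hg (x-1))
        (T.outR_meas (k + 1 + i) (x-1) _ (ih (x-1)).2) measurable_const

lemma state_mem : ∀ i x ω, T.state k z i x ω ∈ T.cls (k + 1 + i) x := by
  classical
  intro i
  induction i with
  | zero =>
    intro x ω
    rw [state_zero]
    dsimp only
    split_ifs with h
    · rw [wet_zero] at h
      have := T.lam0_mem k z ω h.1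
      rwa [h.2] at this
    · exact T.dflt_mem _ _
  | succ i ih =>
    intro x ω
    rw [state_succ]
    dsimp only
    split_ifs with h h'
    · exact T.outL_mem _ _ _ _ (ih x ω) h.2
    · have := T.outR_mem _ _ _ _ (ih (x-1) ω) h'.2
      simpa [add_assoc] using this
    · exact T.dflt_mem _ _

/-- bad = wet and the tile with the actual state is not good. -/
def bd (T : TileSys P F Z Λ q) (k : ℕ) (z : Z) (i : ℕ) (x : ℤ) : Set Ω :=
  T.wet k z i x \ T.gd k z i x

lemma wet_iff_chg {ω : Ω} (hω : ω ∈ T.succ k z) : ∀ i x,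
    ω ∈ T.wet k z i x ↔
      chg 1 (fun i x => ω ∈ T.bd k z i (T.sig k z ω + x)) i (x - T.sig k z ω) := by
  intro i
  induction i with
  | zero =>
    intro x
    rw [wet_zero]
    simp only [Set.mem_inter_iff, hω, true_and, Set.mem_ofPred_eq, chg]
    push_cast
    omega
  | succ i ih =>
    intro x
    have e1 : T.sig k z ω + (x - T.sig k z ω) = x := by ring
    have e2 : T.sig k z ω + (x - T.sig k z ω - 1) = x - 1 := by ring
    have e3 : x - T.sig k z ω - 1 = x - 1 - T.sig k z ω := by ring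
    rw [wet_succ]
    simp only [chg, e1, e2]
    rw [e3, ← ih x, ← ih (x-1)]
    simp only [Set.mem_union, Set.mem_inter_iff, bd, Set.mem_sdiff, not_and, not_not]
    tauto

lemma wet_subset_succ : ∀ i x, T.wet k z i x ⊆ T.succ k z := by
  intro i
  induction i with
  | zero => intro x; rw [wet_zero]; exact Set.inter_subset_left
  | succ i ih =>
    intro x
    rw [wet_succ]
    rintro ω (h | h)
    · exact ih _ h.1
    · exact ih _ h.1

/-- alive at layer `k+s` (`s ≥ 1`). -/
def alive (T : TileSys P F Z Λ q) (k : ℕ) (z : Z) (s : ℕ) : Set Ω :=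
  ⋃ x, T.wet k z (s - 1) x

lemma alive_meas (s : ℕ) (hs : 1 ≤ s) : MeasurableSet[F (k + s)] (T.alive k z s) := by
  refine MeasurableSet.iUnion fun x => ?_
  have := (T.meas k z (s - 1) x).1
  have e : k + 1 + (s - 1) = k + s := by omega
  rwa [e] at this



open Classical in
/-- lifetime of the attempt from the point `z` of layer `k` (number of layers used). -/
noncomputable def tau (T : TileSys P F Z Λ q) (k : ℕ) (z : Z) (ω : Ω) : ℕ∞ :=
  if h : ∃ t, 1 ≤ t ∧ ω ∉ T.alive k z t then ((Nat.find h : ℕ) : ℕ∞) else ⊤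

lemma one_le_tau (ω : Ω) : 1 ≤ T.tau k z ω := by
  classical
  unfold tau
  split_ifs with h
  · exact_mod_cast (Nat.find_spec h).1
  · exact le_top

lemma tau_eq_iff (ω : Ω) (t : ℕ) (ht : 1 ≤ t) :
    T.tau k z ω = t ↔ (∀ s, 1 ≤ s → s < t → ω ∈ T.alive k z s) ∧ ω ∉ T.alive k z t := by
  classical
  unfold tau
  split_ifs with h
  · rw [Nat.cast_inj, Nat.find_eq_iff]
    constructor
    · rintro ⟨h1, h2⟩
      refine ⟨fun s hs hst => ?_, h1.2⟩
      by_contra hcon
      exact h2 s hst ⟨hs, hcon⟩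
    · rintro ⟨h1, h2⟩
      exact ⟨⟨ht, h2⟩, fun s hst hs => hs.2 (h1 s hs.1 hst)⟩
  · constructor
    · intro h'; exact absurd h'.symm (by simp)
    · rintro ⟨_, h2⟩; exact absurd ⟨t, ht, h2⟩ h

lemma lt_tau {ω : Ω} {s : ℕ} (hs : 1 ≤ s) (h : (s : ℕ∞) < T.tau k z ω) : ω ∈ T.alive k z s := by
  classical
  by_contra hcon
  unfold tau at h
  have hex : ∃ t, 1 ≤ t ∧ ω ∉ T.alive k z t := ⟨s, hs, hcon⟩
  rw [dif_pos hex] at h
  have := Nat.find_min' hex ⟨hs, hcon⟩
  have h' : s < Nat.find hex := by exact_mod_cast h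
  omega

lemma tau_meas (t : ℕ) : MeasurableSet[F (k + t)] {ω | T.tau k z ω = t} := by
  rcases Nat.eq_zero_or_pos t with rfl | ht
  · have : {ω | T.tau k z ω = ((0 : ℕ) : ℕ∞)} = ∅ := by
      ext ω
      simp only [Set.mem_ofPred_eq, Set.mem_empty_iff_false, iff_false]
      intro h
      have := T.one_le_tau k z ω
      rw [h] at this
      simp at this
    rw [this]
    exact @MeasurableSet.empty _ (F (k + 0))
  · have e : {ω | T.tau k z ω = t} =
        (⋂ s ∈ Finset.Ico 1 t, T.alive k z s) ∩ (T.alive k z t)ᶜ := by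
      ext ω
      rw [Set.mem_ofPred_eq, T.tau_eq_iff k z ω t ht]
      simp only [Set.mem_inter_iff, Set.mem_iInter, Finset.mem_Ico, Set.mem_compl_iff, and_imp]
    rw [e]
    refine MeasurableSet.inter ?_ (T.alive_meas k z t ht).compl
    refine Finset.measurableSet_biInter _ fun s hs => ?_
    have h1 := Finset.mem_Ico.1 hs
    exact F.mono (by omega) _ (T.alive_meas k z s h1.1)

/-- one-layer K-set bound for the bad field of a source. -/
lemma bd_kset (i : ℕ) (K : Finset ℤ) (B : Set Ω) (hB : MeasurableSet[F (k + 1 + i)] B) :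
    P (B ∩ {ω | ∀ x ∈ K, ω ∈ T.bd k z i x}) ≤ q ^ K.card * P B := by
  refine le_trans (measure_mono ?_) (T.kset (k + 1 + i) K (fun x => T.state k z i x)
    (fun x => (T.meas k z i x).2) (fun x ω => T.state_mem k z i x ω) B hB)
  refine Set.inter_subset_inter_right _ ?_
  intro ω hω x hx
  exact (hω x hx).2

/-- absolute-layer version of the bad field. -/
def bdA (T : TileSys P F Z Λ q) (k : ℕ) (z : Z) (l : ℕ) (x : ℤ) : Set Ω :=
  if k + 1 ≤ l then T.bd k z (l - (k + 1)) x else ∅

lemma bd_meas (i : ℕ) (x : ℤ) : MeasurableSet[F (k + 1 + i + 1)] (T.bd k z i x) := by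
  have h := T.meas k z i x
  exact MeasurableSet.diff (F.mono (by omega) _ h.1) (T.good_meas (k + 1 + i) x _ h.2)

lemma tau_le (θ : ℝ≥0∞) (hq : 54 * q ≤ 1) (hθ1 : θ ≤ 1) (hθ : 27 * q ≤ θ ^ 2)
    (t : ℕ) (ht : 1 ≤ t) (B : Set Ω) (hB : MeasurableSet[F k] B) :
    P (B ∩ {ω | T.tau k z ω = t}) ≤ θ ^ t * P B := by
  classical
  have hqθ : q ≤ θ ^ 2 := le_trans (by nth_rewrite 1 [← one_mul q]; gcongr; norm_num) hθ
  rcases Nat.lt_or_ge t 2 with h2 | h2
  · -- t = 1 : the first climb failed
    have ht1 : t = 1 := by omega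
    subst ht1
    have hsub : B ∩ {ω | T.tau k z ω = ((1 : ℕ) : ℕ∞)} ⊆ B ∩ (T.succ k z)ᶜ := by
      rintro ω ⟨hωB, hω⟩
      refine ⟨hωB, fun hs => ?_⟩
      have h := ((T.tau_eq_iff k z ω 1 le_rfl).1 hω).2
      apply h
      simp only [alive, Set.mem_iUnion]
      exact ⟨T.sig k z ω, by rw [Nat.sub_self, wet_zero]; exact ⟨hs, rfl⟩⟩
    calc P (B ∩ {ω | T.tau k z ω = ((1 : ℕ) : ℕ∞)}) ≤ P (B ∩ (T.succ k z)ᶜ) := measure_mono hsub
      _ ≤ q * P B := T.fail k z B hB
      _ ≤ θ ^ 2 * P B := by gcongr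
      _ ≤ θ ^ 1 * P B := mul_le_mul_left (pow_le_pow_right_of_le_one' hθ1 (by norm_num)) _
  · obtain ⟨j, rfl⟩ := Nat.exists_eq_add_of_le h2
    -- decompose on the cell of the source
    set Bz : ℤ → Set Ω := fun y => (B ∩ T.succ k z) ∩ {ω | T.sig k z ω = y} with hBz
    have hBzm : ∀ y, MeasurableSet[F (k + 1)] (Bz y) := fun y =>
      MeasurableSet.inter (MeasurableSet.inter (F.mono (Nat.le_succ k) _ hB) (T.succ_meas k z))
        (T.sig_meas k z y)
    have hdies : ∀ y, P (Bz y ∩ {ω | diesAt 1 (fun i x => ω ∈ T.bd k z i (y + x)) j}) ≤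
        (27 * q) ^ (1 + j) * P (Bz y) := by
      intro y
      have hset : ∀ (i : ℕ) (K : Finset (ℕ × ℤ)),
          (∀ p ∈ K, k + 1 ≤ p.1 ∧ p.1 < k + 1 + (j + 1)) →
          P (Bz y ∩ {ω | ∀ p ∈ K, ω ∈ T.bdA k z p.1 p.2}) ≤ q ^ K.card * P (Bz y) := by
        intro i K hK
        refine kset_layers P (fun l => F l) (fun l => F.le l) (fun a b hab => F.mono hab)
          (T.bdA k z) q ?_ ?_ (j + 1) (k + 1) K (Bz y) (hBzm y) hK
        · intro l x
          unfold bdA
          split_ifs with h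
          · have := T.bd_meas k z (l - (k + 1)) x
            have e : k + 1 + (l - (k + 1)) + 1 = l + 1 := by omega
            rwa [e] at this
          · exact @MeasurableSet.empty _ (F (l + 1))
        · intro l K B hB
          by_cases h : k + 1 ≤ l
          · have e : k + 1 + (l - (k + 1)) = l := by omega
            have := T.bd_kset k z (l - (k + 1)) K B (by rwa [e])
            simpa [bdA, h] using this
          · rcases K.eq_empty_or_nonempty with rfl | ⟨x, hx⟩
            · simp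
            · have : B ∩ {ω | ∀ x ∈ K, ω ∈ T.bdA k z l x} = ∅ := by
                ext ω
                simp only [Set.mem_inter_iff, Set.mem_ofPred_eq, Set.mem_empty_iff_false,
                  iff_false, not_and]
                intro _ hall
                have := hall x hx
                simp [bdA, h] at this
              rw [this]; simp
      have hmb : ∀ i x, MeasurableSet (T.bd k z i x) := fun i x => F.le _ _ (T.bd_meas k z i x)
      have hmeasK : ∀ K : Finset (ℕ × ℤ), MeasurableSet {ω | ∀ p ∈ K, ω ∈ T.bd k z p.1 (y + p.2)} := by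
        intro K
        have e : {ω | ∀ p ∈ K, ω ∈ T.bd k z p.1 (y + p.2)} = ⋂ p ∈ K, T.bd k z p.1 (y + p.2) := by
          ext ω; simp
        rw [e]
        exact Finset.measurableSet_biInter _ fun p _ => hmb _ _
      have key := dies_le (P.restrict (Bz y)) (P (Bz y)) q hq
        (fun i x ω => ω ∈ T.bd k z i (y + x)) 1 j (by
          intro K hK
          let φ : ℕ × ℤ → ℕ × ℤ := fun p => (k + 1 + p.1, y + p.2)
          have hφ : Function.Injective φ := by
            rintro ⟨a, b⟩ ⟨c, d⟩ h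
            simp only [φ, Prod.mk.injEq] at h
            ext <;> simp <;> omega
          have h := hset 0 (K.image φ) (by
            intro p hp
            rw [Finset.mem_image] at hp
            obtain ⟨p', hp', rfl⟩ := hp
            have := hK p' hp'
            simp only [φ]
            omega)
          rw [Finset.card_image_of_injective _ hφ] at h
          have hseteq : {ω | ∀ p ∈ K, ω ∈ T.bd k z p.1 (y + p.2)} =
              {ω | ∀ p ∈ K.image φ, ω ∈ T.bdA k z p.1 p.2} := by
            ext ω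
            simp only [Set.mem_ofPred_eq, Finset.mem_image]
            constructor
            · rintro h p ⟨p', hp', rfl⟩
              simpa [bdA, φ] using h p' hp'
            · intro h p hp
              simpa [bdA, φ] using h (φ p) ⟨p, hp, rfl⟩
          rw [Measure.restrict_apply (hmeasK K), Set.inter_comm, hseteq, mul_comm]
          exact h)
      have hmc : ∀ i x, MeasurableSet {ω | chg 1 (fun i x => ω ∈ T.bd k z i (y + x)) i x} := by
        intro i
        induction i with
        | zero => intro x; simp only [chg]; exact MeasurableSet.const _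
        | succ i ih =>
          intro x
          have e : {ω | chg 1 (fun i x => ω ∈ T.bd k z i (y + x)) (i + 1) x} =
              ({ω | chg 1 (fun i x => ω ∈ T.bd k z i (y + x)) i x} \ T.bd k z i (y + x)) ∪
              ({ω | chg 1 (fun i x => ω ∈ T.bd k z i (y + x)) i (x - 1)} \
                T.bd k z i (y + (x - 1))) := by
            ext ω
            simp only [chg, Set.mem_ofPred_eq, Set.mem_union, Set.mem_sdiff]
          rw [e]
          exact ((ih x).diff (hmb _ _)).union ((ih (x-1)).diff (hmb _ _))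
      have hmd : MeasurableSet {ω | diesAt 1 (fun i x => ω ∈ T.bd k z i (y + x)) j} := by
        have e : {ω | diesAt 1 (fun i x => ω ∈ T.bd k z i (y + x)) j} =
            (⋃ x, {ω | chg 1 (fun i x => ω ∈ T.bd k z i (y + x)) j x}) ∩
            (⋂ x, {ω | chg 1 (fun i x => ω ∈ T.bd k z i (y + x)) (j + 1) x}ᶜ) := by
          ext ω
          simp only [diesAt, Set.mem_ofPred_eq, Set.mem_inter_iff, Set.mem_iUnion, Set.mem_iInter,
            Set.mem_compl_iff]
        rw [e]
        exact (MeasurableSet.iUnion fun x => hmc j x).inter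
          (MeasurableSet.iInter fun x => (hmc (j + 1) x).compl)
      rw [Measure.restrict_apply hmd, Set.inter_comm, mul_comm] at key
      exact key
    have hsub : B ∩ {ω | T.tau k z ω = ((2 + j : ℕ) : ℕ∞)} ⊆
        ⋃ y, (Bz y ∩ {ω | diesAt 1 (fun i x => ω ∈ T.bd k z i (y + x)) j}) := by
      rintro ω ⟨hωB, hω⟩
      have h := (T.tau_eq_iff k z ω (2 + j) (by omega)).1 hω
      have ha : ω ∈ T.alive k z (j + 1) := h.1 (j + 1) (by omega) (by omega)
      simp only [alive, Set.mem_iUnion, Nat.add_sub_cancel] at ha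
      obtain ⟨x, hx⟩ := ha
      have hs : ω ∈ T.succ k z := T.wet_subset_succ k z j x hx
      refine Set.mem_iUnion.2 ⟨T.sig k z ω, ⟨⟨⟨hωB, hs⟩, rfl⟩, ?_, ?_⟩⟩
      · exact ⟨_, (T.wet_iff_chg k z hs j x).1 hx⟩
      · intro x' hx'
        apply h.2
        simp only [alive, Set.mem_iUnion]
        refine ⟨T.sig k z ω + x', ?_⟩
        have e : 2 + j - 1 = j + 1 := by omega
        rw [e, T.wet_iff_chg k z hs (j + 1)]
        simpa using hx'
    calc P (B ∩ {ω | T.tau k z ω = ((2 + j : ℕ) : ℕ∞)})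
        ≤ ∑' y, P (Bz y ∩ {ω | diesAt 1 (fun i x => ω ∈ T.bd k z i (y + x)) j}) :=
          (measure_mono hsub).trans (measure_iUnion_le _)
      _ ≤ ∑' y, (27 * q) ^ (1 + j) * P (Bz y) := ENNReal.tsum_le_tsum hdies
      _ = (27 * q) ^ (1 + j) * P (⋃ y, Bz y) := by
          rw [ENNReal.tsum_mul_left, measure_iUnion]
          · intro y y' hyy'
            rw [Function.onFun, Set.disjoint_left]
            rintro ω ⟨_, h1⟩ ⟨_, h2⟩
            exact hyy' (h1.symm.trans h2)
          · intro y; exact F.le _ _ (hBzm y)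
      _ ≤ (27 * q) ^ (1 + j) * P B := by
          gcongr
          exact Set.iUnion_subset fun y ω hω => hω.1.1
      _ ≤ θ ^ (2 + j) * P B := by
          refine mul_le_mul_left ?_ _
          calc (27 * q) ^ (1 + j) ≤ (θ ^ 2) ^ (1 + j) := by gcongr
            _ = θ ^ (2 * (1 + j)) := by rw [pow_mul]
            _ ≤ θ ^ (2 + j) := pow_le_pow_right_of_le_one' hθ1 (by omega)

/-- chain of good tiles from the point `z` of layer `k`: `Conn s x lam` = the state `lam` is reached
in the cell `x` of layer `k+s`. -/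
inductive Conn (T : TileSys P F Z Λ q) (k : ℕ) (z : Z) (ω : Ω) : ℕ → ℤ → Λ → Prop
  | start (h : ω ∈ T.succ k z) : Conn T k z ω 1 (T.sig k z ω) (T.lam0 k z ω)
  | left {s : ℕ} {x : ℤ} {lam : Λ} (h : Conn T k z ω s x lam) (hg : ω ∈ T.good (k + s) x lam) :
      Conn T k z ω (s + 1) x (T.outL (k + s) x lam ω)
  | right {s : ℕ} {x : ℤ} {lam : Λ} (h : Conn T k z ω s x lam) (hg : ω ∈ T.good (k + s) x lam) :
      Conn T k z ω (s + 1) (x + 1) (T.outR (k + s) x lam ω)

lemma conn_of_wet (ω : Ω) : ∀ i x, ω ∈ T.wet k z i x →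
    Conn T k z ω (i + 1) x (T.state k z i x ω) := by
  classical
  intro i
  induction i with
  | zero =>
    intro x hx
    have hx' := hx
    rw [wet_zero] at hx
    rw [state_zero]
    dsimp only
    rw [if_pos hx']
    have := Conn.start (T := T) (k := k) (z := z) (ω := ω) hx.1
    rwa [hx.2] at this
  | succ i ih =>
    intro x hx
    rw [state_succ]
    dsimp only
    rw [wet_succ] at hx
    by_cases hA : ω ∈ T.wet k z i x ∩ T.gd k z i x
    · rw [if_pos hA]
      have e : k + (i + 1) = k + 1 + i := by omega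
      have := Conn.left (ih x hA.1) (by rw [e]; exact hA.2)
      rwa [e] at this
    · rw [if_neg hA]
      have hA' : ω ∈ T.wet k z i (x-1) ∩ T.gd k z i (x-1) := by
        rcases hx with h | h
        · exact absurd h hA
        · exact h
      rw [if_pos hA']
      have e : k + (i + 1) = k + 1 + i := by omega
      have := Conn.right (ih (x-1) hA'.1) (by rw [e]; exact hA'.2)
      rw [e] at this
      simpa using this

/-- **While the attempt is alive there is a chain of good tiles.** -/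
theorem conn_of_lt_tau {ω : Ω} {s : ℕ} (hs : 1 ≤ s) (h : (s : ℕ∞) < T.tau k z ω) :
    ∃ x lam, Conn T k z ω s x lam := by
  have ha := T.lt_tau k z hs h
  simp only [alive, Set.mem_iUnion] at ha
  obtain ⟨x, hx⟩ := ha
  have := T.conn_of_wet k z ω (s - 1) x hx
  have e : s - 1 + 1 = s := by omega
  rw [e] at this
  exact ⟨x, _, this⟩

/-- invariant form. -/
theorem inv_of_lt_tau {ω : Ω} {s : ℕ} (hs : 1 ≤ s) (h : (s : ℕ∞) < T.tau k z ω)
    (Inv : ℕ → ℤ → Λ → Prop)
    (h0 : ω ∈ T.succ k z → Inv 1 (T.sig k z ω) (T.lam0 k z ω))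
    (hL : ∀ s x lam, Inv s x lam → ω ∈ T.good (k + s) x lam →
      Inv (s + 1) x (T.outL (k + s) x lam ω))
    (hR : ∀ s x lam, Inv s x lam → ω ∈ T.good (k + s) x lam →
      Inv (s + 1) (x + 1) (T.outR (k + s) x lam ω)) :
    ∃ x lam, Inv s x lam := by
  obtain ⟨x, lam, hc⟩ := T.conn_of_lt_tau k z hs h
  refine ⟨x, lam, ?_⟩
  clear h
  induction hc with
  | start h => exact h0 h
  | left _ hg ih => exact hL _ _ _ (ih (by rename_i h1; cases h1 <;> omega)) hg
  | right _ hg ih => exact hR _ _ _ (ih (by rename_i h1; cases h1 <;> omega)) hg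

end TileSys

end Crest.Agent.R154.Contour748
private theorem rz_0aa2d7545b : type_of% @_root_.Crest.Agent.R154.Contour748.TileSys.st.eq_def := @_root_.Crest.Agent.R154.Contour748.TileSys.st.eq_def -- L55
private theorem rz_01524bd1e2 : type_of% @_root_.Crest.Agent.R154.Contour748.TileSys.st.eq_1 := @_root_.Crest.Agent.R154.Contour748.TileSys.st.eq_1 -- L55
end

-- ▼ part R154/TileInd_748
section

set_option autoImplicit false
set_option linter.unusedSectionVars false
set_option linter.unusedVariables false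

/-!
Row 154, block B8 / TILE: confined tiles in separated corridors are independent; the K-set bound for
random states decided by the past from the failure probability of ONE tile with a deterministic
admissible state (helper748).
-/

namespace Crest.Agent.R154.TileInd748

open MeasureTheory ProbabilityTheory
open scoped ENNReal

/-- Random state decided by `m1`, event read through `Y`, `m1` and `Y` independent. -/
theorem rand_state' {Ω Ω' Λ : Type*} {m1 : MeasurableSpace Ω} [m0 : MeasurableSpace Ω]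
    [m' : MeasurableSpace Ω'] [mΛ : MeasurableSpace Λ]
    (P : Measure Ω) [IsProbabilityMeasure P] (h1 : m1 ≤ m0) (Y : Ω → Ω') (hY : Measurable Y)
    (hind : Indep m1 (MeasurableSpace.comap Y m') P) (Bad : Set (Λ × Ω'))
    (hBad : MeasurableSet Bad) (f : Ω → Λ) (hf : Measurable[m1] f)
    (cls : Set Λ) (hfc : ∀ ω, f ω ∈ cls) (c : ℝ≥0∞)
    (hc : ∀ lam ∈ cls, P {ω | (lam, Y ω) ∈ Bad} ≤ c) (B : Set Ω) (hB : MeasurableSet[m1] B) :
    P (B ∩ {ω | (f ω, Y ω) ∈ Bad}) ≤ c * P B := by
  classical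
  have hfm : Measurable f := hf.mono h1 le_rfl
  let ν : Measure Ω := P.restrict B
  have hB0 : MeasurableSet B := h1 _ hB
  have hrect : ∀ (s : Set Λ) (t : Set Ω'), MeasurableSet s → MeasurableSet t →
      ν (f ⁻¹' s ∩ Y ⁻¹' t) = ν (f ⁻¹' s) * P (Y ⁻¹' t) := by
    intro s t hs ht
    have hfs : MeasurableSet[m1] (f ⁻¹' s) := hf hs
    have e1 : ν (f ⁻¹' s ∩ Y ⁻¹' t) = P ((f ⁻¹' s ∩ B) ∩ Y ⁻¹' t) := by
      rw [Measure.restrict_apply ((h1 _ hfs).inter (hY ht))]
      congr 1
      ext ω; simp only [Set.mem_inter_iff]; tauto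
    have e2 : ν (f ⁻¹' s) = P (f ⁻¹' s ∩ B) := by
      rw [Measure.restrict_apply (h1 _ hfs)]
    rw [e1, e2]
    exact (Indep_iff _ _ _).1 hind _ _ (MeasurableSet.inter hfs hB) ⟨t, ht, rfl⟩
  have hjm : Measurable (fun ω => (f ω, Y ω)) := hfm.prodMk hY
  have : IsProbabilityMeasure (P.map Y) := Measure.isProbabilityMeasure_map hY.aemeasurable
  have hprod : Measure.map (fun ω => (f ω, Y ω)) ν = (Measure.map f ν).prod (P.map Y) := by
    symm
    refine Measure.prod_eq ?_
    intro s t hs ht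
    rw [Measure.map_apply hjm (hs.prod ht), Measure.map_apply hfm hs, Measure.map_apply hY ht]
    exact hrect s t hs ht
  have key : P (B ∩ {ω | (f ω, Y ω) ∈ Bad}) = Measure.map (fun ω => (f ω, Y ω)) ν Bad := by
    rw [Measure.map_apply hjm hBad, Measure.restrict_apply (hjm hBad), Set.inter_comm]
    rfl
  rw [key, hprod, Measure.prod_apply hBad]
  have hle : ∀ᵐ lam ∂(Measure.map f ν), P.map Y (Prod.mk lam ⁻¹' Bad) ≤ c := by
    have hset : MeasurableSet {lam | P.map Y (Prod.mk lam ⁻¹' Bad) ≤ c} :=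
      measurable_measure_prodMk_left hBad measurableSet_Iic
    rw [ae_map_iff hfm.aemeasurable hset]
    refine Filter.Eventually.of_forall fun ω => ?_
    rw [Measure.map_apply hY (measurable_prodMk_left hBad)]
    exact hc (f ω) (hfc ω)
  calc ∫⁻ lam, P.map Y (Prod.mk lam ⁻¹' Bad) ∂(Measure.map f ν)
      ≤ ∫⁻ _, c ∂(Measure.map f ν) := lintegral_mono_ae hle
    _ = c * P B := by
        rw [lintegral_const, Measure.map_apply hfm MeasurableSet.univ]
        simp [ν]

/-- Same, event read in a σ-algebra `m2` independent of `m1`. -/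
theorem rand_state {Ω Λ : Type*} {m1 m2 : MeasurableSpace Ω} [m0 : MeasurableSpace Ω]
    [mΛ : MeasurableSpace Λ]
    (P : Measure Ω) [IsProbabilityMeasure P] (h1 : m1 ≤ m0) (h2 : m2 ≤ m0)
    (hind : Indep m1 m2 P) (Bad : Set (Λ × Ω))
    (hBad : MeasurableSet[mΛ.prod m2] Bad) (f : Ω → Λ) (hf : Measurable[m1] f)
    (cls : Set Λ) (hfc : ∀ ω, f ω ∈ cls) (c : ℝ≥0∞)
    (hc : ∀ lam ∈ cls, P {ω | (lam, ω) ∈ Bad} ≤ c) (B : Set Ω) (hB : MeasurableSet[m1] B) :
    P (B ∩ {ω | (f ω, ω) ∈ Bad}) ≤ c * P B := by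
  have hid : MeasurableSpace.comap (id : Ω → Ω) m2 = m2 := MeasurableSpace.comap_id
  exact @rand_state' Ω Ω Λ m1 m0 m2 mΛ P _ h1 id (fun s hs => h2 _ hs) (by rw [hid]; exact hind)
    Bad hBad f hf cls hfc c hc B hB


/-- **K-set bound for random states from the K-set bound for deterministic states.** `m1` = past,
`m2` = rows of the layer, independent. -/
theorem kset_rand {Ω Λ : Type*} {m1 m2 : MeasurableSpace Ω}
    [m0 : MeasurableSpace Ω] [mΛ : MeasurableSpace Λ]
    (P : Measure Ω) [IsProbabilityMeasure P] (h1 : m1 ≤ m0) (h2 : m2 ≤ m0) (hind : Indep m1 m2 P)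
    (Bad : ℤ → Set (Λ × Ω)) (hBad : ∀ x, MeasurableSet[mΛ.prod m2] (Bad x))
    (cls : ℤ → Set Λ) (K : Finset ℤ) (c : ℝ≥0∞)
    (hc : ∀ lam : ℤ → Λ, (∀ x, lam x ∈ cls x) → P {ω | ∀ x ∈ K, (lam x, ω) ∈ Bad x} ≤ c)
    (f : ℤ → Ω → Λ) (hf : ∀ x, Measurable[m1] (f x))
    (hfc : ∀ x ω, f x ω ∈ cls x) (B : Set Ω) (hB : MeasurableSet[m1] B) :
    P (B ∩ {ω | ∀ x ∈ K, (f x ω, ω) ∈ Bad x}) ≤ c * P B := by
  classical
  let Bad' : Set ((ℤ → Λ) × Ω) := ⋂ x ∈ K, {p | (p.1 x, p.2) ∈ Bad x}
  have hBad' : MeasurableSet[MeasurableSpace.pi.prod m2] Bad' := by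
    refine Finset.measurableSet_biInter _ fun x _ => ?_
    have hm : @Measurable ((ℤ → Λ) × Ω) (Λ × Ω) (MeasurableSpace.pi.prod m2) (mΛ.prod m2)
        (fun p => (p.1 x, p.2)) := by
      refine @Measurable.prodMk ((ℤ → Λ) × Ω) (MeasurableSpace.pi.prod m2) Λ Ω mΛ m2 _ _ ?_ ?_
      · exact (measurable_pi_apply x).comp (@measurable_fst (ℤ → Λ) Ω MeasurableSpace.pi m2)
      · exact @measurable_snd (ℤ → Λ) Ω MeasurableSpace.pi m2
    exact hm (hBad x)
  have h := rand_state (Λ := ℤ → Λ) P h1 h2 hind Bad' hBad' (fun ω x => f x ω)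
    (@measurable_pi_lambda Ω ℤ (fun _ => Λ) m1 (fun _ => mΛ) _ hf) {lam | ∀ x, lam x ∈ cls x} (fun ω x => hfc x ω) c
    (fun lam hlam => by
      have := hc lam hlam
      simpa [Bad'] using this) B hB
  simpa [Bad'] using h

end Crest.Agent.R154.TileInd748
end

-- ▼ part R154/TileInst_748

set_option autoImplicit false
set_option linter.unusedSectionVars false
set_option linter.unusedVariables false

/-!
Row 154, block B8 / TILE: the abstract tile system on 872's kernel system of natural climbs: from a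
K-set bound for DETERMINISTIC admissible laws and a bound for the first climb from a point to
299's `fam` (helper748).
-/

namespace Crest.Agent.R154.TileInst748

open MeasureTheory ProbabilityTheory
open Crest.Agent.R154.Contour748 Crest.Agent.R154.RatioR872
open scoped ENNReal

section mass

variable {S : Type*} [Countable S]

open Classical in
/-- mass function pushed by the matrix `g`, restricted to the target `T`. -/
noncomputable def pushM (T : Set S) (lam : S → ℝ≥0∞) (g : S → S → ℝ≥0∞) (z : S) : ℝ≥0∞ :=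
  if z ∈ T then ∑' y, lam y * g y z else 0

noncomputable def massM (T : Set S) (lam : S → ℝ≥0∞) (g : S → S → ℝ≥0∞) : ℝ≥0∞ :=
  ∑' z, pushM T lam g z

noncomputable def enM (T : Set S) (E : S → S → ℝ≥0∞) (lam : S → ℝ≥0∞) (g : S → S → ℝ≥0∞) : ℝ≥0∞ :=
  ∑' z, ∑' z', pushM T lam g z * pushM T lam g z' * E z z'

/-- normalised exit law. -/
noncomputable def outM (T : Set S) (lam : S → ℝ≥0∞) (g : S → S → ℝ≥0∞) (z : S) : ℝ≥0∞ :=
  (massM T lam g)⁻¹ * pushM T lam g z

variable {α : Type*} [MeasurableSpace α] {lam : α → S → ℝ≥0∞} {g : α → S → S → ℝ≥0∞}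

lemma meas_push (T : Set S) (hl : ∀ y, Measurable fun a => lam a y)
    (hg : ∀ y z, Measurable fun a => g a y z) (z : S) :
    Measurable fun a => pushM T (lam a) (g a) z := by
  unfold pushM
  split_ifs
  · exact Measurable.tsum fun y => (hl y).mul (hg y z)
  · exact measurable_const

lemma meas_mass (T : Set S) (hl : ∀ y, Measurable fun a => lam a y)
    (hg : ∀ y z, Measurable fun a => g a y z) :
    Measurable fun a => massM T (lam a) (g a) :=
  Measurable.tsum fun z => meas_push T hl hg z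

lemma meas_en (T : Set S) (E : S → S → ℝ≥0∞) (hl : ∀ y, Measurable fun a => lam a y)
    (hg : ∀ y z, Measurable fun a => g a y z) :
    Measurable fun a => enM T E (lam a) (g a) :=
  Measurable.tsum fun z => Measurable.tsum fun z' =>
    ((meas_push T hl hg z).mul (meas_push T hl hg z')).mul_const _

lemma meas_out (T : Set S) (hl : ∀ y, Measurable fun a => lam a y)
    (hg : ∀ y z, Measurable fun a => g a y z) :
    Measurable fun a => outM T (lam a) (g a) :=
  measurable_pi_lambda _ fun z => (meas_mass T hl hg).inv.mul (meas_push T hl hg z)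

/-- the tile with input `lam` gives mass `≥ γ` and normalised energy `≤ κ` in the target `T`. -/
def okM (T : Set S) (E : S → S → ℝ≥0∞) (κ γ : ℝ≥0∞) (lam : S → ℝ≥0∞) (g : S → S → ℝ≥0∞) : Prop :=
  γ ≤ massM T lam g ∧ enM T E lam g ≤ κ * massM T lam g ^ 2

lemma meas_ok (T : Set S) (E : S → S → ℝ≥0∞) (κ γ : ℝ≥0∞) (hl : ∀ y, Measurable fun a => lam a y)
    (hg : ∀ y z, Measurable fun a => g a y z) :
    MeasurableSet {a | okM T E κ γ (lam a) (g a)} := by
  have h1 := meas_mass T hl hg
  have h2 := meas_en T E hl hg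
  exact (measurableSet_le measurable_const h1).inter
    (measurableSet_le h2 ((h1.pow_const 2).const_mul κ))

lemma massM_le (T : Set S) {lam : S → ℝ≥0∞} {g : S → S → ℝ≥0∞} (hl : ∑' y, lam y ≤ 1)
    (hg : ∀ y, ∑' z, g y z ≤ 1) : massM T lam g ≤ 1 := by
  classical
  unfold massM pushM
  calc ∑' z, (if z ∈ T then ∑' y, lam y * g y z else 0) ≤ ∑' z, ∑' y, lam y * g y z := by
        refine ENNReal.tsum_le_tsum fun z => ?_
        split_ifs
        · exact le_rfl
        · exact zero_le
    _ = ∑' y, lam y * ∑' z, g y z := by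
        rw [ENNReal.tsum_comm]
        exact tsum_congr fun y => ENNReal.tsum_mul_left
    _ ≤ ∑' y, lam y * 1 := ENNReal.tsum_le_tsum fun y => by gcongr; exact hg y
    _ ≤ 1 := by simpa using hl

/-- admissible laws of a cell. -/
def clsM (C : Set S) (E : S → S → ℝ≥0∞) (κ : ℝ≥0∞) : Set (S → ℝ≥0∞) :=
  {lam | ∑' y, lam y = 1 ∧ (∀ y, y ∉ C → lam y = 0) ∧
    ∑' y, ∑' y', lam y * lam y' * E y y' ≤ κ}

lemma out_mem (T : Set S) (E : S → S → ℝ≥0∞) {κ γ : ℝ≥0∞} (hγ : γ ≠ 0) {lam : S → ℝ≥0∞}
    {g : S → S → ℝ≥0∞} (hl : ∑' y, lam y ≤ 1) (hg : ∀ y, ∑' z, g y z ≤ 1)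
    (h : okM T E κ γ lam g) : outM T lam g ∈ clsM T E κ := by
  classical
  have hm0 : massM T lam g ≠ 0 := fun h0 => hγ (by have := h.1; rw [h0] at this; exact le_zero_iff.1 this)
  have hmt : massM T lam g ≠ ∞ := ne_top_of_le_ne_top ENNReal.one_ne_top (massM_le T hl hg)
  refine ⟨?_, ?_, ?_⟩
  · unfold outM
    rw [ENNReal.tsum_mul_left]
    exact ENNReal.inv_mul_cancel hm0 hmt
  · intro y hy
    simp [outM, pushM, hy]
  · have e : ∑' y, ∑' y', outM T lam g y * outM T lam g y' * E y y' =
        (massM T lam g)⁻¹ ^ 2 * enM T E lam g := by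
      unfold outM enM
      rw [← ENNReal.tsum_mul_left]
      refine tsum_congr fun y => ?_
      rw [← ENNReal.tsum_mul_left]
      refine tsum_congr fun y' => ?_
      ring
    rw [e]
    calc (massM T lam g)⁻¹ ^ 2 * enM T E lam g
        ≤ (massM T lam g)⁻¹ ^ 2 * (κ * massM T lam g ^ 2) := by gcongr; exact h.2
      _ = κ * ((massM T lam g)⁻¹ * massM T lam g) ^ 2 := by ring
      _ = κ := by rw [ENNReal.inv_mul_cancel hm0 hmt]; simp

lemma mul_out_le (T : Set S) (E : S → S → ℝ≥0∞) {κ γ : ℝ≥0∞} (hγ : γ ≠ 0) {lam : S → ℝ≥0∞}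
    {g : S → S → ℝ≥0∞} (hl : ∑' y, lam y ≤ 1) (hg : ∀ y, ∑' z, g y z ≤ 1)
    (h : okM T E κ γ lam g) (z : S) : γ * outM T lam g z ≤ ∑' y, lam y * g y z := by
  classical
  have hm0 : massM T lam g ≠ 0 := fun h0 => hγ (by have := h.1; rw [h0] at this; exact le_zero_iff.1 this)
  have hmt : massM T lam g ≠ ∞ := ne_top_of_le_ne_top ENNReal.one_ne_top (massM_le T hl hg)
  unfold outM
  calc γ * ((massM T lam g)⁻¹ * pushM T lam g z)
      ≤ massM T lam g * ((massM T lam g)⁻¹ * pushM T lam g z) := by gcongr; exact h.1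
    _ = (massM T lam g * (massM T lam g)⁻¹) * pushM T lam g z := by ring
    _ = pushM T lam g z := by rw [ENNReal.mul_inv_cancel hm0 hmt, one_mul]
    _ ≤ _ := by
        unfold pushM
        split_ifs
        · exact le_rfl
        · exact zero_le

end mass

section inst

variable {S : Type*} [Countable S] {Ω : Type*} [m0 : MeasurableSpace Ω] {P : Measure Ω}

/-- the filtration of the layers `L + k N`. -/
def FN (A : KerSys S P) (L N : ℕ) : Filtration ℕ m0 where
  seq k := A.F (L + k * N)
  mono' := fun a b hab => A.F.mono (by gcongr)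
  le' k := A.F.le _

open Classical in
/-- the first cell (in a fixed enumeration of `ℤ`) reached well from the point `z`. -/
noncomputable def sel (Good : ℤ → Prop) : ℤ :=
  if h : ∃ n : ℕ, Good (Denumerable.ofNat ℤ n) then Denumerable.ofNat ℤ (Nat.find h) else 0

lemma sel_spec {Good : ℤ → Prop} (h : ∃ x, Good x) : Good (sel Good) := by
  classical
  have h' : ∃ n : ℕ, Good (Denumerable.ofNat ℤ n) := by
    obtain ⟨x, hx⟩ := h
    exact ⟨Encodable.encode x, by rwa [Denumerable.ofNat_encode]⟩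
  unfold sel
  rw [dif_pos h']
  exact Nat.find_spec h'

lemma meas_sel {α : Type*} [MeasurableSpace α] {Good : α → ℤ → Prop}
    (hG : ∀ x, MeasurableSet {a | Good a x}) (x : ℤ) : MeasurableSet {a | sel (Good a) = x} := by
  classical
  have e : {a | sel (Good a) = x} =
      ({a | Good a x} ∩ ⋂ m ∈ Finset.range (Encodable.encode x),
        {a | Good a (Denumerable.ofNat ℤ m)}ᶜ) ∪
      ((⋂ n : ℕ, {a | Good a (Denumerable.ofNat ℤ n)}ᶜ) ∩ {_a | x = 0}) := by
    ext a
    simp only [Set.mem_ofPred_eq, Set.mem_union, Set.mem_inter_iff, Set.mem_iInter,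
      Finset.mem_range, Set.mem_compl_iff]
    unfold sel
    split_ifs with h
    · constructor
      · intro hx
        left
        subst hx
        refine ⟨Nat.find_spec h, fun m hm => ?_⟩
        rw [Denumerable.encode_ofNat] at hm
        exact Nat.find_min h hm
      · rintro (⟨h1, h2⟩ | ⟨h1, _⟩)
        · have : Nat.find h = Encodable.encode x := by
            rw [Nat.find_eq_iff]
            exact ⟨by rwa [Denumerable.ofNat_encode], fun m hm => h2 m hm⟩
          rw [this, Denumerable.ofNat_encode]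
        · obtain ⟨n, hn⟩ := h
          exact absurd hn (h1 n)
    · push Not at h
      constructor
      · intro hx
        right
        exact ⟨h, hx.symm⟩
      · rintro (⟨h1, _⟩ | ⟨_, h2⟩)
        · have := h (Encodable.encode x)
          rw [Denumerable.ofNat_encode] at this
          exact absurd h1 this
        · exact h2.symm
  rw [e]
  refine MeasurableSet.union ((hG x).inter ?_) ((MeasurableSet.iInter fun n => (hG _).compl).inter
    (MeasurableSet.const _))
  exact Finset.measurableSet_biInter _ fun m _ => (hG _).compl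

variable (A : KerSys S P) (L N : ℕ) (Cell : ℕ → ℤ → Set S) (En : ℕ → S → S → ℝ≥0∞)
  (κ γ γ0 : ℝ≥0∞)

/-- kernel of the layer `k`. -/
noncomputable def gL (k : ℕ) (ω : Ω) : S → S → ℝ≥0∞ := A.G (L + k * N) (L + (k + 1) * N) ω

lemma lv_le (k : ℕ) : L + k * N ≤ L + (k + 1) * N := by gcongr; omega

/-- good tile (layer `k`, cell `x`). -/
def goodS (k : ℕ) (x : ℤ) (lam : S → ℝ≥0∞) : Set Ω :=
  {ω | okM (Cell (k+1) x) (En (k+1)) κ γ lam (gL A L N k ω) ∧
    okM (Cell (k+1) (x+1)) (En (k+1)) κ γ lam (gL A L N k ω)}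

open Classical in
/-- point mass -/
noncomputable def single (z : S) : S → ℝ≥0∞ := fun y => if y = z then 1 else 0

lemma tsum_single (z : S) : ∑' y, single z y = 1 := by
  classical
  unfold single
  exact tsum_ite_eq z (fun _ => 1)

lemma tsum_single_mul (z : S) (f : S → ℝ≥0∞) : ∑' y, single z y * f y = f z := by
  classical
  unfold single
  rw [tsum_eq_single z]
  · simp
  · intro y hy; simp [hy]

/-- first climb from the point `z` reaches the cell `x` of layer `1` well. -/
def good0 (z : S) (ω : Ω) (x : ℤ) : Prop :=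
  okM (Cell 1 x) (En 1) κ γ0 (single z) (gL A L N 0 ω)

/-- success of the first climb. -/
def succ0 (z : S) : Set Ω := {ω | ∃ x, good0 A L N Cell En κ γ0 z ω x}

/-- **The deterministic inputs** for the attempts from the point `z0` of level `L` (the grid `Cell`
may depend on `(L, z0)`). -/
structure Inputs (z0 : S) (q : ℝ≥0∞) : Prop where
  /-- the cells are on the right levels (not needed for the cost, only for the geometry) -/
  nonempty : ∀ k x, (clsM (Cell k x) (En k) κ).Nonempty
  kset : ∀ k (K : Finset ℤ) (lam : ℤ → S → ℝ≥0∞), (∀ x, lam x ∈ clsM (Cell k x) (En k) κ) →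
    P {ω | ∀ x ∈ K, ω ∉ goodS A L N Cell En κ γ k x (lam x)} ≤ q ^ K.card
  start : P (succ0 A L N Cell En κ γ0 z0)ᶜ ≤ q

lemma meas_gL_F (k : ℕ) (y z : S) : Measurable[A.F (L + (k + 1) * N)] fun ω => gL A L N k ω y z :=
  A.measF _ _ y z (lv_le L N k)

lemma meas_gL_H (k : ℕ) (y z : S) : Measurable[A.H (L + k * N)] fun ω => gL A L N k ω y z :=
  A.measH _ _ y z (lv_le L N k)

lemma gL_mass (k : ℕ) (ω : Ω) (y : S) : ∑' z, gL A L N k ω y z ≤ 1 :=
  A.mass _ _ ω y (lv_le L N k)

open Classical in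
/-- **The tile system.** -/
noncomputable def tiles [IsProbabilityMeasure P] (hγ : γ ≠ 0) (hγ0 : γ0 ≠ 0) {q : ℝ≥0∞} {z0 : S}
    (H : Inputs A L N Cell En κ γ γ0 z0 q) :
    TileSys P (FN A L N) S (S → ℝ≥0∞) q where
  cls k x := clsM (Cell k x) (En k) κ
  dflt k x := (H.nonempty k x).some
  dflt_mem k x := (H.nonempty k x).some_mem
  good k x lam := goodS A L N Cell En κ γ k x lam
  outL k x lam ω := outM (Cell (k+1) x) lam (gL A L N k ω)
  outR k x lam ω := outM (Cell (k+1) (x+1)) lam (gL A L N k ω)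
  outL_mem k x lam ω hlam hω :=
    out_mem _ _ hγ (le_of_eq hlam.1) (gL_mass A L N k ω) hω.1
  outR_mem k x lam ω hlam hω :=
    out_mem _ _ hγ (le_of_eq hlam.1) (gL_mass A L N k ω) hω.2
  good_meas k x f hf := by
    have hl : ∀ y, Measurable[A.F (L + (k + 1) * N)] fun ω => f ω y := fun y =>
      (measurable_pi_apply y).comp (hf.mono (A.F.mono (lv_le L N k)) le_rfl)
    have h1 := @meas_ok S _ Ω (A.F (L + (k + 1) * N)) f (gL A L N k) (Cell (k+1) x) (En (k+1)) κ γ
      hl (meas_gL_F A L N k)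
    have h2 := @meas_ok S _ Ω (A.F (L + (k + 1) * N)) f (gL A L N k) (Cell (k+1) (x+1)) (En (k+1))
      κ γ hl (meas_gL_F A L N k)
    exact MeasurableSet.inter h1 h2
  outL_meas k x f hf := by
    have hl : ∀ y, Measurable[A.F (L + (k + 1) * N)] fun ω => f ω y := fun y =>
      (measurable_pi_apply y).comp (hf.mono (A.F.mono (lv_le L N k)) le_rfl)
    exact @meas_out S _ Ω (A.F (L + (k + 1) * N)) f (gL A L N k) (Cell (k+1) x)
      hl (meas_gL_F A L N k)
  outR_meas k x f hf := by
    have hl : ∀ y, Measurable[A.F (L + (k + 1) * N)] fun ω => f ω y := fun y =>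
      (measurable_pi_apply y).comp (hf.mono (A.F.mono (lv_le L N k)) le_rfl)
    exact @meas_out S _ Ω (A.F (L + (k + 1) * N)) f (gL A L N k) (Cell (k+1) (x+1))
      hl (meas_gL_F A L N k)
  succ k z := if k = 0 ∧ z = z0 then succ0 A L N Cell En κ γ0 z else Set.univ
  sig k z ω := if k = 0 ∧ z = z0 then sel (good0 A L N Cell En κ γ0 z ω) else 0
  lam0 k z ω := if k = 0 ∧ z = z0 then
      (if ω ∈ succ0 A L N Cell En κ γ0 z then
        outM (Cell 1 (sel (good0 A L N Cell En κ γ0 z ω))) (single z) (gL A L N 0 ω)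
      else (H.nonempty 1 0).some)
    else (H.nonempty (k+1) 0).some
  succ_meas k z := by
    split_ifs with h
    · have : MeasurableSet[A.F (L + (0 + 1) * N)] (succ0 A L N Cell En κ γ0 z) := by
        have e : succ0 A L N Cell En κ γ0 z =
            ⋃ x, {ω | okM (Cell 1 x) (En 1) κ γ0 (single z) (gL A L N 0 ω)} := by
          ext ω; simp [succ0, good0]
        rw [e]
        exact MeasurableSet.iUnion fun x => @meas_ok S _ Ω (A.F (L + (0 + 1) * N))
          (fun _ => single z) (gL A L N 0) (Cell 1 x) (En 1) κ γ0 (fun y => measurable_const)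
          (meas_gL_F A L N 0)
      rw [h.1]
      exact this
    · exact MeasurableSet.univ
  sig_meas k z x := by
    by_cases h : k = 0 ∧ z = z0
    · obtain ⟨rfl, rfl⟩ := h
      simp only [and_self, if_true]
      have := @meas_sel Ω (A.F (L + (0 + 1) * N)) (fun ω x => good0 A L N Cell En κ γ0 z ω x)
        (fun x => @meas_ok S _ Ω (A.F (L + (0 + 1) * N))
          (fun _ => single z) (gL A L N 0) (Cell 1 x) (En 1) κ γ0 (fun y => measurable_const)
          (meas_gL_F A L N 0)) x
      exact this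
    · simp only [h, if_false]
      exact MeasurableSet.const _
  lam0_meas k z := by
    by_cases h : k = 0 ∧ z = z0
    · obtain ⟨rfl, rfl⟩ := h
      simp only [and_self, if_true]
      have hs : MeasurableSet[A.F (L + (0 + 1) * N)] {ω | ω ∈ succ0 A L N Cell En κ γ0 z} := by
        have e : succ0 A L N Cell En κ γ0 z =
            ⋃ x, {ω | okM (Cell 1 x) (En 1) κ γ0 (single z) (gL A L N 0 ω)} := by
          ext ω; simp [succ0, good0]
        rw [e]
        exact MeasurableSet.iUnion fun x => @meas_ok S _ Ω (A.F (L + (0 + 1) * N))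
          (fun _ => single z) (gL A L N 0) (Cell 1 x) (En 1) κ γ0 (fun y => measurable_const)
          (meas_gL_F A L N 0)
      have hsel := @meas_sel Ω (A.F (L + (0 + 1) * N)) (fun ω x => good0 A L N Cell En κ γ0 z ω x)
        (fun x => @meas_ok S _ Ω (A.F (L + (0 + 1) * N))
          (fun _ => single z) (gL A L N 0) (Cell 1 x) (En 1) κ γ0 (fun y => measurable_const)
          (meas_gL_F A L N 0))
      refine @Measurable.ite Ω (S → ℝ≥0∞) _ _ (A.F (L + (0 + 1) * N)) _
        (fun ω => ω ∈ succ0 A L N Cell En κ γ0 z) _ hs ?_ measurable_const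
      -- countable case distinction on the selected cell
      intro s hs'
      have e : (fun ω => outM (Cell 1 (sel (good0 A L N Cell En κ γ0 z ω))) (single z)
          (gL A L N 0 ω)) ⁻¹' s =
          ⋃ x : ℤ, {ω | sel (good0 A L N Cell En κ γ0 z ω) = x} ∩
            (fun ω => outM (Cell 1 x) (single z) (gL A L N 0 ω)) ⁻¹' s := by
        ext ω
        simp
      rw [e]
      refine MeasurableSet.iUnion fun x => MeasurableSet.inter (hsel x) ?_
      exact @meas_out S _ Ω (A.F (L + (0 + 1) * N)) (fun _ => single z) (gL A L N 0) (Cell 1 x)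
        (fun y => measurable_const) (meas_gL_F A L N 0) s hs'
    · simp only [h, if_false]
      exact measurable_const
  lam0_mem k z ω hω := by
    by_cases h : k = 0 ∧ z = z0
    · obtain ⟨rfl, rfl⟩ := h
      simp only [and_self, if_true] at hω ⊢
      rw [if_pos hω]
      have hg : good0 A L N Cell En κ γ0 z ω (sel (good0 A L N Cell En κ γ0 z ω)) := sel_spec hω
      exact out_mem _ _ hγ0 (le_of_eq (tsum_single z)) (gL_mass A L N 0 ω) hg
    · simp only [h, if_false]
      exact (H.nonempty (k+1) 0).some_mem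
  kset k K f hf hfc B hB := by
    have hm : ∀ x, MeasurableSet[MeasurableSpace.pi.prod (A.H (L + k * N))]
        {p : (S → ℝ≥0∞) × Ω | p.2 ∉ goodS A L N Cell En κ γ k x p.1} := by
      intro x
      have hl : ∀ y, @Measurable ((S → ℝ≥0∞) × Ω) ℝ≥0∞ (MeasurableSpace.pi.prod (A.H (L + k * N))) _
          fun p => p.1 y := fun y =>
        (measurable_pi_apply y).comp (@measurable_fst (S → ℝ≥0∞) Ω MeasurableSpace.pi
          (A.H (L + k * N)))
      have hg : ∀ y z, @Measurable ((S → ℝ≥0∞) × Ω) ℝ≥0∞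
          (MeasurableSpace.pi.prod (A.H (L + k * N))) _ fun p => gL A L N k p.2 y z := fun y z =>
        (meas_gL_H A L N k y z).comp (@measurable_snd (S → ℝ≥0∞) Ω MeasurableSpace.pi
          (A.H (L + k * N)))
      have h1 := @meas_ok S _ ((S → ℝ≥0∞) × Ω) (MeasurableSpace.pi.prod (A.H (L + k * N)))
        (fun p => p.1) (fun p => gL A L N k p.2) (Cell (k+1) x) (En (k+1)) κ γ hl hg
      have h2 := @meas_ok S _ ((S → ℝ≥0∞) × Ω) (MeasurableSpace.pi.prod (A.H (L + k * N)))
        (fun p => p.1) (fun p => gL A L N k p.2) (Cell (k+1) (x+1)) (En (k+1)) κ γ hl hg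
      exact (MeasurableSet.inter h1 h2).compl
    exact TileInd748.kset_rand (m1 := A.F (L + k * N)) (m2 := A.H (L + k * N)) P (A.F.le _)
      (A.H_le _) (A.indep _) (fun x => {p | p.2 ∉ goodS A L N Cell En κ γ k x p.1}) hm
      (fun x => clsM (Cell k x) (En k) κ) K (q ^ K.card)
      (fun lam hlam => H.kset k K lam hlam) f hf hfc B hB
  fail k z B hB := by
    by_cases h : k = 0 ∧ z = z0
    · obtain ⟨rfl, rfl⟩ := h
      simp only [and_self, if_true]
      have hB' : MeasurableSet[A.F L] B := by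
        have : MeasurableSet[A.F (L + 0 * N)] B := hB
        rwa [zero_mul, add_zero] at this
      have hs : MeasurableSet[A.H L] (succ0 A L N Cell En κ γ0 z)ᶜ := by
        have e : succ0 A L N Cell En κ γ0 z =
            ⋃ x, {ω | okM (Cell 1 x) (En 1) κ γ0 (single z) (gL A L N 0 ω)} := by
          ext ω; simp [succ0, good0]
        rw [e]
        refine (MeasurableSet.iUnion fun x => ?_).compl
        have hg : ∀ y z, Measurable[A.H L] fun ω => gL A L N 0 ω y z := fun y z => by
          have := meas_gL_H A L N 0 y z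
          rwa [zero_mul, add_zero] at this
        exact @meas_ok S _ Ω (A.H L) (fun _ => single z) (gL A L N 0) (Cell 1 x) (En 1) κ γ0
          (fun y => measurable_const) hg
      rw [(Indep_iff _ _ _).1 (A.indep L) B _ hB' hs, mul_comm]
      gcongr
      exact H.start
    · simp only [h, if_false, Set.compl_univ, Set.inter_empty, measure_empty]
      exact zero_le

lemma step_cost {A : KerSys S P} {L N : ℕ} {γ γ0 : ℝ≥0∞} {s : ℕ} (hs : 1 ≤ s) {ω : Ω} {z y : S}
    {lam : S → ℝ≥0∞} {o : ℝ≥0∞}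
    (h2 : ∀ y, γ0 * γ ^ (s - 1) * lam y ≤ A.G L (L + s * N) ω z y)
    (hout : γ * o ≤ ∑' w, lam w * gL A L N s ω w y)
    (hcomp : ∀ x y, ∑' w, A.G L (L + s * N) ω x w *
        A.G (L + s * N) (L + (s + 1) * N) ω w y ≤ A.G L (L + (s + 1) * N) ω x y) :
    γ0 * γ ^ (s + 1 - 1) * o ≤ A.G L (L + (s + 1) * N) ω z y := by
  obtain ⟨i, rfl⟩ := Nat.exists_eq_add_of_le hs
  have e1 : 1 + i + 1 - 1 = i + 1 := by omega
  have e2 : 1 + i - 1 = i := by omega
  rw [e2] at h2
  rw [e1]
  calc γ0 * γ ^ (i + 1) * o = γ0 * γ ^ i * (γ * o) := by rw [pow_succ]; ring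
    _ ≤ γ0 * γ ^ i * ∑' w, lam w * gL A L N (1 + i) ω w y := by gcongr
    _ = ∑' w, (γ0 * γ ^ i * lam w) * gL A L N (1 + i) ω w y := by
        rw [← ENNReal.tsum_mul_left]
        exact tsum_congr fun w => by ring
    _ ≤ ∑' w, A.G L (L + (1 + i) * N) ω z w * gL A L N (1 + i) ω w y :=
        ENNReal.tsum_le_tsum fun w => by gcongr; exact h2 w
    _ ≤ A.G L (L + (1 + i + 1) * N) ω z y := hcomp z y

/-- **FINAL FORM**: 299's `fam` (cost `γ0 * γ ^ s`). -/
theorem fam [IsProbabilityMeasure P] (hγ : γ ≠ 0) (hγ0 : γ0 ≠ 0) (hγ1 : γ ≤ 1) {q θ : ℝ≥0∞}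
    (hq : 54 * q ≤ 1) (hθ1 : θ ≤ 1) (hθ : 27 * q ≤ θ ^ 2)
    {z : S} (H : Inputs A L N Cell En κ γ γ0 z q) :
    ∃ τ : Ω → ℕ∞,
      (∀ t : ℕ, MeasurableSet[A.F (L + t * N)] {ω | τ ω = t}) ∧ (∀ ω, 1 ≤ τ ω) ∧
      (∀ t : ℕ, 1 ≤ t → ∀ B, MeasurableSet[A.F L] B → P (B ∩ {ω | τ ω = t}) ≤ θ ^ t * P B) ∧
      (∀ᵐ ω ∂P, ∀ s : ℕ, 1 ≤ s → (s : ℕ∞) < τ ω → γ0 * γ ^ s ≤ A.N L (L + s * N) ω z) := by
  classical
  set T := tiles A L N Cell En κ γ γ0 hγ hγ0 H with hT
  refine ⟨T.tau 0 z, ?_, T.one_le_tau 0 z, ?_, ?_⟩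
  · intro t
    have := T.tau_meas 0 z t
    rw [zero_add] at this
    exact this
  · intro t ht B hB
    refine T.tau_le 0 z θ hq hθ1 hθ t ht B ?_
    show MeasurableSet[A.F (L + 0 * N)] B
    rwa [zero_mul, add_zero]
  · have hcomp : ∀ᵐ ω ∂P, ∀ s : ℕ, ∀ x y, ∑' w, A.G L (L + s * N) ω x w *
        A.G (L + s * N) (L + (s + 1) * N) ω w y ≤ A.G L (L + (s + 1) * N) ω x y := by
      rw [ae_all_iff]
      intro s
      exact A.comp L (L + s * N) (L + (s + 1) * N) (by omega) (lv_le L N s)
    filter_upwards [hcomp] with ω hω s hs hlt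
    have hc : (0 : ℕ) = 0 ∧ z = z := ⟨rfl, rfl⟩
    obtain ⟨x, lam, _, hsum, hle⟩ := T.inv_of_lt_tau 0 z hs hlt
      (fun s x lam => 1 ≤ s ∧ ∑' y, lam y = 1 ∧
        ∀ y, γ0 * γ ^ (s - 1) * lam y ≤ A.G L (L + s * N) ω z y)
      (by
        intro hsucc
        have hsucc' : ω ∈ succ0 A L N Cell En κ γ0 z := by
          simpa [T, tiles, hc] using hsucc
        have hl0 : T.lam0 0 z ω = outM (Cell 1 (sel (good0 A L N Cell En κ γ0 z ω))) (single z)
            (gL A L N 0 ω) := by
          simp [T, tiles, hsucc']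
        have hg : good0 A L N Cell En κ γ0 z ω (sel (good0 A L N Cell En κ γ0 z ω)) :=
          sel_spec hsucc'
        rw [hl0]
        refine ⟨le_rfl, (out_mem _ _ hγ0 (le_of_eq (tsum_single z)) (gL_mass A L N 0 ω) hg).1,
          fun y => ?_⟩
        have := mul_out_le _ _ hγ0 (le_of_eq (tsum_single z)) (gL_mass A L N 0 ω) hg y
        rw [tsum_single_mul] at this
        simpa [gL] using this)
      (by
        rintro s x lam ⟨h0, h1, h2⟩ hgood
        have hgood' : ω ∈ goodS A L N Cell En κ γ s x lam := by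
          have : ω ∈ T.good (0 + s) x lam := hgood
          rw [zero_add] at this
          exact this
        have hout : T.outL (0 + s) x lam ω = outM (Cell (s+1) x) lam (gL A L N s ω) := by
          rw [zero_add]; rfl
        rw [hout]
        refine ⟨by omega, (out_mem _ _ hγ (le_of_eq h1) (gL_mass A L N s ω) hgood'.1).1,
          fun y => ?_⟩
        refine step_cost h0 h2 ?_ (hω s)
        exact mul_out_le _ _ hγ (le_of_eq h1) (gL_mass A L N s ω) hgood'.1 y)
      (by
        rintro s x lam ⟨h0, h1, h2⟩ hgood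
        have hgood' : ω ∈ goodS A L N Cell En κ γ s x lam := by
          have : ω ∈ T.good (0 + s) x lam := hgood
          rw [zero_add] at this
          exact this
        have hout : T.outR (0 + s) x lam ω = outM (Cell (s+1) (x+1)) lam (gL A L N s ω) := by
          rw [zero_add]; rfl
        rw [hout]
        refine ⟨by omega, (out_mem _ _ hγ (le_of_eq h1) (gL_mass A L N s ω) hgood'.2).1,
          fun y => ?_⟩
        refine step_cost h0 h2 ?_ (hω s)
        exact mul_out_le _ _ hγ (le_of_eq h1) (gL_mass A L N s ω) hgood'.2 y)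
    calc γ0 * γ ^ s ≤ γ0 * γ ^ (s - 1) :=
          mul_le_mul_right (pow_le_pow_right_of_le_one' hγ1 (Nat.sub_le s 1)) _
      _ = ∑' y, γ0 * γ ^ (s - 1) * lam y := by rw [ENNReal.tsum_mul_left, hsum, mul_one]
      _ ≤ ∑' y, A.G L (L + s * N) ω z y := ENNReal.tsum_le_tsum hle
      _ = A.N L (L + s * N) ω z := rfl

/-- **299's `TileSys` (v2).** -/
theorem tileSys [IsProbabilityMeasure P] (A : KerSys S P) (N : ℕ) {κ γ γ0 : ℝ≥0∞}
    (hγ : γ ≠ 0) (hγ0 : γ0 ≠ 0) (hγ1 : γ ≤ 1) {q θ : ℝ≥0∞}
    (hq : 54 * q ≤ 1) (hθ1 : θ ≤ 1) (hθ : 27 * q ≤ θ ^ 2)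
    (H : ∀ L, ∀ z ∈ A.L L, ∃ (Cell : ℕ → ℤ → Set S) (En : ℕ → S → S → ℝ≥0∞),
      Inputs A L N Cell En κ γ γ0 z q) :
    WindowK299.TileSys A N γ0 γ θ where
  fam L z hz := by
    obtain ⟨Cell, En, h⟩ := H L z hz
    exact fam A L N Cell En κ γ γ0 hγ hγ0 hγ1 hq hθ1 hθ h

end inst

end Crest.Agent.R154.TileInst748
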