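import Mathlib
import Crest.Agent.R154.ConcC_412
import Crest.Agent.R154.Hit_818
import Crest.Agent.R154.BodyDefs_818

/-!
Row 154, block B3: (L3) = part (a) of BODY.
-/

open MeasureTheory ProbabilityTheory Set
open scoped BigOperators ENNReal NNReal

namespace Crest.Agent.R154.Conc412

variable {ι : Type*} [Fintype ι]

/-! ### Part 1: the Gaussian kernel -/

/-- one-dimensional Gaussian transform -/
theorem gauss1 (x : ℝ) :
    ∫ v : ℝ, Complex.exp ((-(Real.pi * v ^ 2) : ℝ) : ℂ) * Complex.exp ((v * x : ℝ) * Complex.I) =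
      ((Real.exp (-(x ^ 2 / (4 * Real.pi))) : ℝ) : ℂ) := by
  have h := fourierIntegral_gaussian (b := (Real.pi : ℂ)) (by simpa using Real.pi_pos) (x : ℂ)
  have h1 : ((Real.pi : ℂ) / (Real.pi : ℂ)) ^ (1 / 2 : ℂ) = 1 := by
    rw [div_self (by exact_mod_cast Real.pi_ne_zero), Complex.one_cpow]
  rw [h1, one_mul] at h
  rw [Complex.ofReal_exp]
  have h2 : (((-(x ^ 2 / (4 * Real.pi)) : ℝ)) : ℂ) = -(x : ℂ) ^ 2 / (4 * (Real.pi : ℂ)) := by
    push_cast; ring
  rw [h2, ← h]
  refine integral_congr_ae (ae_of_all _ fun v => ?_)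
  simp only
  rw [mul_comm]
  congr 1
  · congr 1; push_cast; ring
  · congr 1; push_cast; ring

/-- The two-dimensional Gaussian. -/
noncomputable def W (v : Fin 2 → ℝ) : ℝ := ∏ i, Real.exp (-(Real.pi * v i ^ 2))

/-- Its transform. -/
noncomputable def Wh (x : Fin 2 → ℝ) : ℝ := ∏ i, Real.exp (-(x i ^ 2 / (4 * Real.pi)))

theorem integrable_W : Integrable W := by
  unfold W
  have := Integrable.fintype_prod (ι := Fin 2) (𝕜 := ℝ) (E := ℝ)
    (f := fun _ v => Real.exp (-(Real.pi * v ^ 2))) (μ := fun _ => volume) (fun i => by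
      have := integrable_exp_neg_mul_sq Real.pi_pos
      simpa using this)
  exact this

theorem gauss2 (x : Fin 2 → ℝ) : ∫ v : Fin 2 → ℝ, (W v : ℂ) * ch v x = (Wh x : ℂ) := by
  have h1 : ∀ v : Fin 2 → ℝ, (W v : ℂ) * ch v x =
      ∏ i, (Complex.exp ((-(Real.pi * v i ^ 2) : ℝ) : ℂ) *
        Complex.exp ((v i * x i : ℝ) * Complex.I)) := by
    intro v
    have hW : (W v : ℂ) = ∏ i, Complex.exp ((-(Real.pi * v i ^ 2) : ℝ) : ℂ) := by
      unfold W
      rw [Complex.ofReal_prod]
      exact Finset.prod_congr rfl fun i _ => Complex.ofReal_exp _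
    have hch : ch v x = ∏ i, Complex.exp ((v i * x i : ℝ) * Complex.I) := by
      unfold ch dot
      rw [← Complex.exp_sum, Complex.ofReal_sum, Finset.sum_mul]
    rw [Finset.prod_mul_distrib, hW, hch]
  simp only [h1]
  rw [integral_fintype_prod_volume_eq_prod (𝕜 := ℂ) (fun i (v : ℝ) =>
    Complex.exp ((-(Real.pi * v ^ 2) : ℝ) : ℂ) * Complex.exp ((v * x i : ℝ) * Complex.I))]
  unfold Wh
  rw [Complex.ofReal_prod]
  exact Finset.prod_congr rfl fun i _ => gauss1 (x i)

theorem Wh_nonneg (x : Fin 2 → ℝ) : 0 ≤ Wh x := Finset.prod_nonneg fun _ _ => Real.exp_nonneg _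


@[fun_prop]
theorem continuous_Wh : Continuous Wh := by unfold Wh; fun_prop

@[fun_prop]
theorem continuous_W : Continuous W := by unfold W; fun_prop

/-- Parseval for the Gaussian. -/
theorem gauss_parseval (σ : Measure (Fin 2 → ℝ)) [IsProbabilityMeasure σ] :
    ∫ v : Fin 2 → ℝ, (W v : ℂ) * cf σ v = ((∫ x, Wh x ∂σ : ℝ) : ℂ) := by
  have h1 : ∀ v : Fin 2 → ℝ, (W v : ℂ) * cf σ v = ∫ x, (W v : ℂ) * ch v x ∂σ := by
    intro v; rw [integral_const_mul]; rfl
  simp only [h1]
  rw [integral_integral_swap]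
  · simp only [gauss2]
    exact integral_ofReal (𝕜 := ℂ)
  · have hW : Integrable (fun z : (Fin 2 → ℝ) × (Fin 2 → ℝ) => W z.1) (volume.prod σ) :=
      Integrable.comp_fst integrable_W σ
    refine Integrable.mono hW (Continuous.aestronglyMeasurable (by
      simp only [Function.uncurry_def]; fun_prop)) (ae_of_all _ fun z => ?_)
    simp only [Function.uncurry_def, norm_mul, norm_ch, mul_one]
    rw [Complex.norm_real]

theorem gauss_parseval_real (σ : Measure (Fin 2 → ℝ)) [IsProbabilityMeasure σ]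
    {φ : (Fin 2 → ℝ) → ℝ} (hφ : ∀ v, cf σ v = (φ v : ℂ)) :
    ∫ v : Fin 2 → ℝ, W v * φ v = ∫ x, Wh x ∂σ := by
  have h1 := gauss_parseval σ
  simp only [hφ] at h1
  have h2 : ∫ v : Fin 2 → ℝ, (W v : ℂ) * (φ v : ℂ) = ((∫ v : Fin 2 → ℝ, W v * φ v : ℝ) : ℂ) := by
    calc ∫ v : Fin 2 → ℝ, (W v : ℂ) * (φ v : ℂ) = ∫ v : Fin 2 → ℝ, ((W v * φ v : ℝ) : ℂ) := by
          refine integral_congr_ae (ae_of_all _ fun v => ?_)
          simp
      _ = _ := integral_ofReal (𝕜 := ℂ)
  rw [h2] at h1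
  exact_mod_cast h1

/-- The constant of the lower bound. -/
noncomputable def Clow : ℝ := Real.exp (50 * Real.pi) *
  (Real.exp Real.pi * ∑' j : ℕ, Real.exp (-(j : ℝ)) * (2 * (j : ℝ) + 5) ^ 2)

theorem summable_Clow : Summable fun j : ℕ => Real.exp (-(j : ℝ)) * (2 * (j : ℝ) + 5) ^ 2 := by
  have h0 := Real.summable_pow_mul_exp_neg_nat_mul 0 (r := 1) zero_lt_one
  have h1 := Real.summable_pow_mul_exp_neg_nat_mul 1 (r := 1) zero_lt_one
  have h2 := Real.summable_pow_mul_exp_neg_nat_mul 2 (r := 1) zero_lt_one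
  have h3 := ((h2.mul_left 4).add (h1.mul_left 20)).add (h0.mul_left 25)
  refine h3.congr fun j => ?_
  simp only [pow_zero, pow_one, one_mul, neg_mul]
  ring

theorem Wh_le (x : Fin 2 → ℝ) : Wh x ≤ Real.exp Real.pi * Real.exp (-max |x 0| |x 1|) := by
  have hpi := Real.pi_pos
  have key : ∀ u : ℝ, -(u ^ 2 / (4 * Real.pi)) ≤ Real.pi + -|u| := by
    intro u
    have h1 : 0 ≤ (|u| - 2 * Real.pi) ^ 2 := sq_nonneg _
    have h2 : |u| - Real.pi ≤ u ^ 2 / (4 * Real.pi) := by
      rw [le_div_iff₀ (by positivity), ← sq_abs u]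
      nlinarith
    linarith
  have hle1 : ∀ u : ℝ, -(u ^ 2 / (4 * Real.pi)) ≤ 0 := by
    intro u
    have : 0 ≤ u ^ 2 / (4 * Real.pi) := by positivity
    linarith
  unfold Wh
  rw [Fin.prod_univ_two, ← Real.exp_add, ← Real.exp_add]
  apply Real.exp_le_exp.2
  rcases max_cases |x 0| |x 1| with ⟨h, _⟩ | ⟨h, _⟩
  · rw [h]; linarith [key (x 0), hle1 (x 1)]
  · rw [h]; linarith [key (x 1), hle1 (x 0)]

/-- The Gaussian integral is controlled by the mass of the unit box. -/
theorem integral_Wh_le (σ : Measure (Fin 2 → ℝ)) [IsProbabilityMeasure σ]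
    (hlow : ∀ R : ℝ, 0 ≤ R → σ.real (box 0 R) ≤ (2 * R + 3) ^ 2 * σ.real (box 0 1)) :
    ∫ x, Wh x ∂σ ≤ (Real.exp Real.pi * ∑' j : ℕ, Real.exp (-(j : ℝ)) * (2 * (j : ℝ) + 5) ^ 2) *
      σ.real (box 0 1) := by
  have hS := summable_Clow
  have h1 : ∀ x : Fin 2 → ℝ, ENNReal.ofReal (Wh x) ≤ ∑' j : ℕ,
      (box 0 ((j : ℝ) + 1)).indicator (fun _ => ENNReal.ofReal (Real.exp Real.pi *
        Real.exp (-(j : ℝ)))) x := by
    intro x
    set m := max |x 0| |x 1| with hm
    have hm0 : 0 ≤ m := le_max_of_le_left (abs_nonneg _)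
    refine le_trans ?_ (ENNReal.le_tsum ⌊m⌋₊)
    have hx : x ∈ box 0 ((⌊m⌋₊ : ℝ) + 1) := by
      have h2 : m ≤ (⌊m⌋₊ : ℝ) + 1 := (Nat.lt_floor_add_one m).le
      intro i
      simp only [Pi.zero_apply, sub_zero]
      refine le_trans ?_ h2
      fin_cases i
      · exact le_max_left _ _
      · exact le_max_right _ _
    rw [Set.indicator_of_mem hx]
    apply ENNReal.ofReal_le_ofReal
    refine (Wh_le x).trans ?_
    have := Nat.floor_le hm0
    gcongr
  have h2 : ∫⁻ x, ENNReal.ofReal (Wh x) ∂σ ≤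
      ∑' j : ℕ, ENNReal.ofReal ((Real.exp Real.pi * (Real.exp (-(j : ℝ)) *
        (2 * (j : ℝ) + 5) ^ 2)) * σ.real (box 0 1)) := by
    refine (lintegral_mono h1).trans ?_
    rw [lintegral_tsum (fun j => (Measurable.indicator measurable_const
      (measurableSet_box _ _)).aemeasurable)]
    refine ENNReal.tsum_le_tsum fun j => ?_
    rw [lintegral_indicator (measurableSet_box _ _), setLIntegral_const]
    have h3 := hlow ((j : ℝ) + 1) (by positivity)
    have h4 : σ (box 0 ((j : ℝ) + 1)) = ENNReal.ofReal (σ.real (box 0 ((j : ℝ) + 1))) := by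
      rw [measureReal_def, ENNReal.ofReal_toReal (measure_ne_top _ _)]
    rw [h4, ← ENNReal.ofReal_mul (by positivity)]
    apply ENNReal.ofReal_le_ofReal
    calc Real.exp Real.pi * Real.exp (-(j : ℝ)) * σ.real (box 0 ((j : ℝ) + 1))
        ≤ Real.exp Real.pi * Real.exp (-(j : ℝ)) *
          ((2 * ((j : ℝ) + 1) + 3) ^ 2 * σ.real (box 0 1)) := by gcongr
      _ = _ := by ring
  have hterm : ∀ j : ℕ, 0 ≤ (Real.exp Real.pi * (Real.exp (-(j : ℝ)) *
        (2 * (j : ℝ) + 5) ^ 2)) * σ.real (box 0 1) := fun j => by positivity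
  rw [← ENNReal.ofReal_tsum_of_nonneg hterm ((hS.mul_left _).mul_right _)] at h2
  rw [integral_eq_lintegral_of_nonneg_ae (ae_of_all _ Wh_nonneg)
    (Continuous.aestronglyMeasurable (by fun_prop))]
  refine (ENNReal.toReal_le_of_le_ofReal (tsum_nonneg hterm) h2).trans (le_of_eq ?_)
  rw [tsum_mul_right, tsum_mul_left]

/-- **Lower bound (A2)**. -/
theorem gauss_lower (σ : Measure (Fin 2 → ℝ)) [IsProbabilityMeasure σ] {φ : (Fin 2 → ℝ) → ℝ}
    (hφ : ∀ v, cf σ v = (φ v : ℂ)) (hφ0 : ∀ v, 0 ≤ φ v)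
    (hlow : ∀ R : ℝ, 0 ≤ R → σ.real (box 0 R) ≤ (2 * R + 3) ^ 2 * σ.real (box 0 1)) :
    ∫ v in box 0 5, φ v ≤ Clow * σ.real (box 0 1) := by
  have h1 := gauss_parseval_real σ hφ
  have h2 := integral_Wh_le σ hlow
  have hφc : Continuous φ := by
    have h3 : φ = fun v => (cf σ v).re := by ext v; rw [hφ]; simp
    rw [h3]
    exact Complex.continuous_re.comp (continuous_cf σ)
  have hφ1 : ∀ v, φ v ≤ 1 := by
    intro v
    have := norm_cf_le_one σ v
    rw [hφ, Complex.norm_real, Real.norm_of_nonneg (hφ0 v)] at this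
    exact this
  have hWφ : Integrable fun v => W v * φ v := by
    refine Integrable.mono integrable_W (Continuous.aestronglyMeasurable (by fun_prop))
      (ae_of_all _ fun v => ?_)
    rw [norm_mul, Real.norm_of_nonneg (hφ0 v)]
    exact mul_le_of_le_one_right (norm_nonneg _) (hφ1 v)
  have hW0 : ∀ v, 0 ≤ W v := fun v => Finset.prod_nonneg fun _ _ => Real.exp_nonneg _
  have h4 : Real.exp (-(50 * Real.pi)) * ∫ v in box 0 5, φ v ≤ ∫ v : Fin 2 → ℝ, W v * φ v := by
    rw [← integral_const_mul]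
    refine le_trans ?_ (setIntegral_le_integral (s := box 0 5) hWφ
      (ae_of_all _ fun v => mul_nonneg (hW0 v) (hφ0 v)))
    refine setIntegral_mono_on ?_ hWφ.integrableOn (measurableSet_box _ _) fun v hv => ?_
    · have hcomp : IsCompact (box 0 5 : Set (Fin 2 → ℝ)) := by
        have : (box 0 5 : Set (Fin 2 → ℝ)) = Set.univ.pi fun _ => Set.Icc (-5 : ℝ) 5 := by
          ext x
          simp only [box, Set.mem_univ_pi, Set.mem_Icc, Set.mem_ofPred_eq, Pi.zero_apply, sub_zero,
            abs_le]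
        rw [this]
        exact isCompact_univ_pi fun _ => isCompact_Icc
      exact (Continuous.continuousOn (by fun_prop)).integrableOn_compact hcomp
    · refine mul_le_mul_of_nonneg_right ?_ (hφ0 v)
      unfold W
      rw [Fin.prod_univ_two, ← Real.exp_add]
      apply Real.exp_le_exp.2
      have a0 := hv 0
      have a1 := hv 1
      simp only [Pi.zero_apply, sub_zero] at a0 a1
      have b0 : v 0 ^ 2 ≤ 25 := by
        rw [← sq_abs]; nlinarith [abs_nonneg (v 0)]
      have b1 : v 1 ^ 2 ≤ 25 := by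
        rw [← sq_abs]; nlinarith [abs_nonneg (v 1)]
      nlinarith [Real.pi_pos]
  have h5 : ∫ v in box 0 5, φ v = Real.exp (50 * Real.pi) *
      (Real.exp (-(50 * Real.pi)) * ∫ v in box 0 5, φ v) := by
    rw [← mul_assoc, ← Real.exp_add]; simp
  rw [h5, Clow, mul_assoc]
  refine mul_le_mul_of_nonneg_left ?_ (Real.exp_nonneg _)
  linarith

/-! ### Part 2: laws of partial sums of a symmetric iid sequence -/

open Hit818 (S measurable_S map_block)


theorem fr_sub (b : Fin 2 → ι → ℝ) (x y : ι → ℝ) : fr b (x - y) = fr b x - fr b y := by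
  ext i; simp [fr, dot_sub_right]

/-- The diff law commutes with linear maps. -/
theorem diffLaw_map_fr (ν : Measure (ι → ℝ)) [IsProbabilityMeasure ν] (b : Fin 2 → ι → ℝ) :
    (diffLaw ν).map (fr b) = diffLaw (ν.map (fr b)) := by
  unfold diffLaw
  rw [Measure.map_prod_map ν ν (measurable_fr b) (measurable_fr b),
    Measure.map_map (by fun_prop) (by fun_prop), Measure.map_map (by fun_prop) (by fun_prop)]
  congr 1
  funext p
  simp [fr_sub]

theorem diffLaw_box (ν : Measure (ι → ℝ)) [IsProbabilityMeasure ν] (z : ι → ℝ) {R : ℝ}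
    (hR : 0 ≤ R) :
    (diffLaw ν).real (box z R) ≤ (2 * R + 3) ^ Fintype.card ι * (diffLaw ν).real (box 0 1) := by
  have h := diff_box_le ν z hR
  have hm : Measurable fun p : (ι → ℝ) × (ι → ℝ) => p.1 - p.2 := by fun_prop
  have e : ∀ (z : ι → ℝ) (R : ℝ), (diffLaw ν).real (box z R) =
      (ν.prod ν).real {p | p.1 - p.2 ∈ box z R} := by
    intro z R
    rw [diffLaw, map_measureReal_apply hm (measurableSet_box z R)]
    rfl
  rw [e, e]
  exact h

theorem cf_diffLaw (ν : Measure (ι → ℝ)) [IsProbabilityMeasure ν] (θ : ι → ℝ) :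
    cf (diffLaw ν) θ = ((‖cf ν θ‖ ^ 2 : ℝ) : ℂ) := by
  have hm : Measurable fun p : (ι → ℝ) × (ι → ℝ) => p.1 - p.2 := by fun_prop
  rw [diffLaw, cf_map _ hm]
  simp only [ch_sub_right]
  rw [integral_prod_mul (L := ℂ) (fun x => ch θ x) (fun y => (starRingEnd ℂ) (ch θ y)),
    integral_conj]
  change cf ν θ * (starRingEnd ℂ) (cf ν θ) = _
  rw [Complex.mul_conj, Complex.normSq_eq_norm_sq]

theorem map_S_eq {V : Type*} [AddCommGroup V] [MeasurableSpace V] [MeasurableAdd₂ V]
    {Ω : Type*} [MeasurableSpace Ω] {P : Measure Ω} [IsProbabilityMeasure P]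
    {X : ℕ → Ω → V} (hX : ∀ k, Measurable (X k)) (hind : iIndepFun X P)
    {μ : Measure V} (hlaw : ∀ k, P.map (X k) = μ) (n : ℕ) :
    P.map (S X n) = (Measure.pi fun _ : Fin n => μ).map (fun x : Fin n → V => ∑ i, x i) := by
  have hi : iIndepFun (fun i : Fin n => X i) P := by
    refine hind.precomp (g := fun i : Fin n => (i : ℕ)) ?_
    intro i j hij
    exact Fin.ext (by simpa using hij)
  have h1 := (iIndepFun_iff_map_fun_eq_pi_map (fun i => (hX _).aemeasurable)).1 hi
  have h2 : S X n = (fun x : Fin n → V => ∑ i, x i) ∘ (fun ω i => X (i : Fin n) ω) := by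
    funext ω
    simp only [Function.comp, S]
    rw [Finset.sum_range]
  rw [h2, ← Measure.map_map (by fun_prop) (measurable_pi_lambda _ fun i => hX _), h1]
  simp only [hlaw]

section laws

variable {Ω : Type*} [MeasurableSpace Ω] {P : Measure Ω} [IsProbabilityMeasure P]
  {μ : Measure (Fin 2 → ℝ)} {X : ℕ → Ω → Fin 2 → ℝ}

/-- The law of a partial sum is symmetric. -/
theorem S_symm (hX : ∀ k, Measurable (X k)) (hind : iIndepFun X P) (hlaw : ∀ k, P.map (X k) = μ)
    (hsym : μ.map (fun x => -x) = μ) (n : ℕ) :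
    (P.map (S X n)).map (fun x => -x) = P.map (S X n) := by
  have hY : ∀ k, Measurable (fun ω => -X k ω) := fun k => (hX k).neg
  have hindY : iIndepFun (fun k ω => -X k ω) P :=
    hind.comp (fun _ x => -x) (fun _ => measurable_neg)
  have hlawY : ∀ k, P.map (fun ω => -X k ω) = μ := by
    intro k
    have : (fun ω => -X k ω) = (fun x : Fin 2 → ℝ => -x) ∘ X k := rfl
    rw [this, ← Measure.map_map measurable_neg (hX k), hlaw, hsym]
  rw [Measure.map_map measurable_neg (measurable_S hX n)]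
  have h1 := map_S_eq hX hind hlaw n
  have h2 := map_S_eq hY hindY hlawY n
  rw [h1, ← h2]
  congr 1
  funext ω
  simp [S, Function.comp]

/-- `S_{2k}` has the law of the difference of two independent copies of `S_k`. -/
theorem law_two (hX : ∀ k, Measurable (X k)) (hind : iIndepFun X P) (hlaw : ∀ k, P.map (X k) = μ)
    (hsym : μ.map (fun x => -x) = μ) (k : ℕ) :
    P.map (S X (2 * k)) = diffLaw (P.map (S X k)) := by
  have hS := measurable_S hX k
  set B : Ω → Fin 2 → ℝ := fun ω => ∑ j ∈ Finset.range k, X (k + j) ω with hB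
  have hBm : Measurable B := by rw [hB]; fun_prop
  have hBlaw : P.map B = P.map (S X k) := map_block hX hind hlaw k k
  have hAB : IndepFun (S X k) B P := by
    have h0 := hind.indepFun_finset (Finset.range k) (Finset.Ico k (k + k))
      (Finset.disjoint_left.2 fun j hj hj' => by
        simp only [Finset.mem_range, Finset.mem_Ico] at hj hj'; omega) hX
    have h1 := h0.comp (φ := fun x : (Finset.range k) → Fin 2 → ℝ => ∑ j, x j)
      (ψ := fun x : (Finset.Ico k (k + k)) → Fin 2 → ℝ => ∑ j, x j)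
      (Finset.measurable_sum _ fun j _ => measurable_pi_apply j)
      (Finset.measurable_sum _ fun j _ => measurable_pi_apply j)
    have e1 : ((fun x : (Finset.range k) → Fin 2 → ℝ => ∑ j, x j) ∘
        fun ω (j : Finset.range k) => X j ω) = S X k := by
      funext ω
      simp only [Function.comp, S]
      rw [Finset.sum_coe_sort (Finset.range k) (fun j => X j ω)]
    have e2 : ((fun x : (Finset.Ico k (k + k)) → Fin 2 → ℝ => ∑ j, x j) ∘
        fun ω (j : Finset.Ico k (k + k)) => X j ω) = B := by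
      funext ω
      simp only [Function.comp, hB]
      rw [Finset.sum_coe_sort (Finset.Ico k (k + k)) (fun j => X j ω),
        Finset.sum_Ico_eq_sum_range]
      simp
    rw [e1, e2] at h1
    exact h1
  have hprod := (indepFun_iff_map_prod_eq_prod_map_map hS.aemeasurable hBm.aemeasurable).1 hAB
  rw [hBlaw] at hprod
  have hadd : S X (2 * k) = (fun p : (Fin 2 → ℝ) × (Fin 2 → ℝ) => p.1 + p.2) ∘
      fun ω => (S X k ω, B ω) := by
    funext ω
    simp only [Function.comp, hB]
    rw [two_mul, Hit818.S_add]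
  rw [hadd, ← Measure.map_map (by fun_prop) (hS.prodMk hBm), hprod, diffLaw]
  set ρ := P.map (S X k) with hρ
  have hsymρ := S_symm hX hind hlaw hsym k
  rw [← hρ] at hsymρ
  have hρp : IsProbabilityMeasure ρ := Measure.isProbabilityMeasure_map hS.aemeasurable
  have h3 : ρ.prod ρ = (ρ.prod ρ).map (Prod.map id fun x => -x) := by
    rw [← Measure.map_prod_map ρ ρ measurable_id measurable_neg, Measure.map_id, hsymρ]
  conv_rhs => rw [h3]
  rw [Measure.map_map (by fun_prop) (measurable_id.prodMap measurable_neg)]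
  congr 1
  funext p
  simp

theorem cf_S (hX : ∀ k, Measurable (X k)) (hind : iIndepFun X P) (hlaw : ∀ k, P.map (X k) = μ)
    (n : ℕ) (θ : Fin 2 → ℝ) : cf (P.map (S X n)) θ = cf μ θ ^ n := by
  have hi : iIndepFun (fun i : Fin n => X i) P := by
    refine hind.precomp (g := fun i : Fin n => (i : ℕ)) ?_
    intro i j hij
    exact Fin.ext (by simpa using hij)
  have h1 := cf_sum P (X := fun i : Fin n => X i) (fun i => hX i) hi θ
  have h2 : S X n = fun ω => ∑ i : Fin n, X i ω := by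
    funext ω; simp only [S]; rw [Finset.sum_range]
  rw [h2, h1]
  simp [hlaw]

theorem cf_map_fr {ν : Measure (ι → ℝ)} (b : Fin 2 → ι → ℝ) (v : Fin 2 → ℝ) :
    cf (ν.map (fr b)) v = cf ν (comb b v) := by
  rw [cf_map ν (measurable_fr b)]
  unfold cf ch
  simp only [dot_comb]

/-- **Lower bound for the even times.** -/
theorem low_S (hX : ∀ k, Measurable (X k)) (hind : iIndepFun X P) (hlaw : ∀ k, P.map (X k) = μ)
    [IsProbabilityMeasure μ] (hsym : μ.map (fun x => -x) = μ) (b : Fin 2 → Fin 2 → ℝ) (k : ℕ) :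
    ∫ v in box 0 5, (1 - GG (diffLaw μ) (comb b v)) ^ k ≤
      Clow * P.real {ω | fr b (S X (2 * k) ω) ∈ box 0 1} := by
  have hS := measurable_S hX k
  have hS2 := measurable_S hX (2 * k)
  set ρ := P.map (S X k) with hρ
  have hρp : IsProbabilityMeasure ρ := Measure.isProbabilityMeasure_map hS.aemeasurable
  have hρb : IsProbabilityMeasure (ρ.map (fr b)) :=
    Measure.isProbabilityMeasure_map (measurable_fr b).aemeasurable
  have h1 := gauss_lower (diffLaw (ρ.map (fr b)))
    (φ := fun v => (1 - GG (diffLaw μ) (comb b v)) ^ k) (fun v => ?_) (fun v => ?_) (fun R hR => ?_)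
  · refine h1.trans (le_of_eq ?_)
    congr 1
    rw [← diffLaw_map_fr, hρ, ← law_two hX hind hlaw hsym k,
      Measure.map_map (measurable_fr b) hS2,
      map_measureReal_apply ((measurable_fr b).comp hS2) (measurableSet_box _ _)]
    rfl
  · rw [cf_diffLaw, cf_map_fr, hρ, cf_S hX hind hlaw, norm_pow, ← normSq_cf_eq]
    congr 1
    rw [← pow_mul, ← pow_mul, mul_comm]
  · have := normSq_cf_eq μ (comb b v)
    have h2 : 0 ≤ 1 - GG (diffLaw μ) (comb b v) := by rw [← this]; positivity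
    positivity
  · have := diffLaw_box (ρ.map (fr b)) 0 hR
    simpa using this

/-- **Upper bound.** -/
theorem up_S (hX : ∀ k, Measurable (X k)) (hind : iIndepFun X P) (hlaw : ∀ k, P.map (X k) = μ)
    [IsProbabilityMeasure μ] (b : Fin 2 → Fin 2 → ℝ) {j : ℕ} {n : ℝ}
    (hj : 2 * n ≤ j) (z : Fin 2 → ℝ) :
    P.real {ω | fr b (S X j ω) ∈ box z 1} ≤
      2 * ∫ v in box 0 1, Real.exp (-n * GG (diffLaw μ) (comb b v)) := by
  have hS := measurable_S hX j
  have hm : Measurable fun ω => fr b (S X j ω) := (measurable_fr b).comp hS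
  have hp : IsProbabilityMeasure (P.map fun ω => fr b (S X j ω)) :=
    Measure.isProbabilityMeasure_map hm.aemeasurable
  have h1 := esseen (P.map fun ω => fr b (S X j ω)) z
  rw [map_measureReal_apply hm (measurableSet_box z 1)] at h1
  have hGc := continuous_GG (diffLaw μ)
  have h2 : ∫ θ in (cube2 : Set (Fin 2 → ℝ)), ‖cf (P.map fun ω => fr b (S X j ω)) θ‖ ≤
      ∫ v in box 0 1, Real.exp (-n * GG (diffLaw μ) (comb b v)) := by
    rw [← cube2_eq_box]
    refine setIntegral_mono_on ?_ ?_ measurableSet_cube2 fun v hv => ?_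
    · exact Integrable.of_bound (C := 1) (continuous_cf _).norm.aestronglyMeasurable
        (ae_of_all _ fun x => by rw [norm_norm]; exact norm_cf_le_one _ x)
    · have hcomp := isCompact_cube2 (ι := Fin 2)
      exact (Continuous.continuousOn (by fun_prop)).integrableOn_compact hcomp
    · have h3 : (P.map fun ω => fr b (S X j ω)) = (P.map (S X j)).map (fr b) := by
        rw [Measure.map_map (measurable_fr b) hS]; rfl
      rw [h3, cf_map_fr, cf_S hX hind hlaw, norm_pow]
      have h4 := norm_cf_le_GG μ (comb b v)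
      calc ‖cf μ (comb b v)‖ ^ j ≤ Real.exp (-(1 / 2) * GG (diffLaw μ) (comb b v)) ^ j :=
            pow_le_pow_left₀ (norm_nonneg _) h4 j
        _ = Real.exp (j * (-(1 / 2) * GG (diffLaw μ) (comb b v))) := by rw [Real.exp_nat_mul]
        _ ≤ Real.exp (-n * GG (diffLaw μ) (comb b v)) := by
            apply Real.exp_le_exp.2
            have := GG_nonneg (diffLaw μ) (comb b v)
            nlinarith
  have h5 := h1.trans h2
  rw [show (((7/8 : ℝ) ^ 2) ^ Fintype.card (Fin 2)) = 2401 / 4096 by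
    rw [Fintype.card_fin]; norm_num] at h5
  have h6 : 0 ≤ P.real {ω | fr b (S X j ω) ∈ box z 1} := measureReal_nonneg
  have h7 : P.real ((fun ω => fr b (S X j ω)) ⁻¹' box z 1) =
      P.real {ω | fr b (S X j ω) ∈ box z 1} := rfl
  rw [h7] at h5
  linarith

end laws

/-! ### Part 3: summation over the scales -/

theorem harmonic_dyadic (M r : ℕ) (hM : 1 ≤ M) :
    (r : ℝ) / 2 ≤ ∑ k ∈ Finset.Ioc M (2 ^ r * M), (1 : ℝ) / k := by
  induction r with
  | zero => simp
  | succ r ih =>
    have h1 : M ≤ 2 ^ r * M := Nat.le_mul_of_pos_left _ (by positivity)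
    have h2 : 2 ^ r * M ≤ 2 ^ (r + 1) * M := by
      rw [pow_succ]; nlinarith [Nat.one_le_two_pow (n := r)]
    rw [← Finset.sum_Ioc_consecutive _ h1 h2]
    have h3 : (1 : ℝ) / 2 ≤ ∑ k ∈ Finset.Ioc (2 ^ r * M) (2 ^ (r + 1) * M), (1 : ℝ) / k := by
      have h4 : ∀ k ∈ Finset.Ioc (2 ^ r * M) (2 ^ (r + 1) * M),
          (1 : ℝ) / (2 ^ (r + 1) * M : ℕ) ≤ 1 / k := by
        intro k hk
        rw [Finset.mem_Ioc] at hk
        have : 0 < k := by omega
        apply one_div_le_one_div_of_le (by exact_mod_cast this)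
        exact_mod_cast hk.2
      refine le_trans ?_ (Finset.sum_le_sum h4)
      rw [Finset.sum_const, Nat.card_Ioc, nsmul_eq_mul]
      have h5 : 2 ^ (r + 1) * M - 2 ^ r * M = 2 ^ r * M := by
        have : 2 ^ (r + 1) * M = 2 ^ r * M + 2 ^ r * M := by rw [pow_succ]; ring
        omega
      rw [h5]
      have h6 : (0 : ℝ) < 2 ^ r * M := by positivity
      push_cast
      rw [pow_succ]
      field_simp
      norm_num
    push_cast
    linarith

/-- `J n = ∫_{box 0 1} exp (-n GG (comb b v)) dv`. -/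
noncomputable def JJ (μ : Measure (Fin 2 → ℝ)) (b : Fin 2 → Fin 2 → ℝ) (n : ℝ) : ℝ :=
  ∫ v in box 0 1, Real.exp (-n * GG (diffLaw μ) (comb b v))

theorem JJ_lower (μ : Measure (Fin 2 → ℝ)) [IsProbabilityMeasure μ] {b : Fin 2 → Fin 2 → ℝ}
    {t n : ℝ} (hn : 0 ≤ n) (hb : IsFrame (diffLaw μ) t b) :
    4 * Real.exp (-(8 * n / t)) ≤ JJ μ b n := by
  have hGc := continuous_GG (diffLaw μ)
  have h1 : ∫ _v in (cube2 : Set (Fin 2 → ℝ)), Real.exp (-(8 * n / t)) ≤ JJ μ b n := by
    unfold JJ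
    rw [← cube2_eq_box]
    have hcomp := isCompact_cube2 (ι := Fin 2)
    refine setIntegral_mono_on ?_ ?_ measurableSet_cube2 fun v hv => ?_
    · exact (Continuous.continuousOn (by fun_prop)).integrableOn_compact hcomp
    · exact (Continuous.continuousOn (by fun_prop)).integrableOn_compact hcomp
    · apply Real.exp_le_exp.2
      have h2 := hb.upper v (mem_cube2_abs hv)
      have h3 := GG_le_gg (diffLaw μ) (comb b v)
      have h4 : 8 * n / t = n * (2 * (4 / t)) := by ring
      rw [h4]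
      nlinarith
  rw [setIntegral_const, measureReal_def, volume_cube2] at h1
  simpa using h1

/-- The main lower bound of the expected number of returns. -/
theorem sum_lower {Ω : Type*} [MeasurableSpace Ω] {P : Measure Ω} [IsProbabilityMeasure P]
    {μ : Measure (Fin 2 → ℝ)} [IsProbabilityMeasure μ] {X : ℕ → Ω → Fin 2 → ℝ}
    (hX : ∀ k, Measurable (X k)) (hind : iIndepFun X P) (hlaw : ∀ k, P.map (X k) = μ)
    (hsym : μ.map (fun x => -x) = μ) {p t n : ℝ} (ht : 0 < t)
    (hp : ∀ v : Fin 2 → ℝ, ‖v‖ = 1 → p ≤ gg (diffLaw μ) v) {b : Fin 2 → Fin 2 → ℝ}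
    (hb : IsFrame (diffLaw μ) t b) (hn : 0 < n) {M r L : ℕ} (hM : 256 ≤ M) (hMt : t ≤ M)
    (hMp : 1 / (M : ℝ) < p) (hr : 8 * (2 ^ r * (M : ℝ)) ≤ n) (hL : 2 * (2 ^ r * M) < L) :
    (JJ μ b n - 36 * Real.exp (-n / 8)) * (n / (K2 * Clow)) * (r / 2) ≤
      ∑ l ∈ Finset.range L, P.real {ω | fr b (S X l ω) ∈ box 0 1} := by
  have hK2 : 0 < K2 := by unfold K2; positivity
  have hClow : 0 < Clow := by
    have h0 : 0 < ∑' j : ℕ, Real.exp (-(j : ℝ)) * (2 * (j : ℝ) + 5) ^ 2 := by
      refine lt_of_lt_of_le ?_ (summable_Clow.le_tsum 0 fun j _ => by positivity)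
      simp
    unfold Clow; positivity
  -- one term
  have h1 : ∀ k ∈ Finset.Ioc M (2 ^ r * M),
      (JJ μ b n - 36 * Real.exp (-n / 8)) * (n / (K2 * Clow)) * (1 / (k : ℝ)) ≤
        P.real {ω | fr b (S X (2 * k) ω) ∈ box 0 1} := by
    intro k hk
    rw [Finset.mem_Ioc] at hk
    have hkM : (M : ℝ) < k := by exact_mod_cast hk.1
    have hM0 : (0 : ℝ) < M := by have : 0 < M := by omega
                                 exact_mod_cast this
    have hk0 : (0 : ℝ) < k := by linarith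
    have hkp : 1 / (k : ℝ) < p := lt_of_le_of_lt (one_div_le_one_div_of_le hM0 hkM.le) hMp
    obtain ⟨b', hb'⟩ := exists_frame hk0 hp hkp
    obtain ⟨β, hβ, hbb⟩ := hb.nested ht (by linarith : t ≤ (k : ℝ)) hb'
    have hkn : 8 * (k : ℝ) ≤ n := by
      refine le_trans ?_ hr
      have : (k : ℝ) ≤ 2 ^ r * M := by exact_mod_cast hk.2
      linarith
    have hk256 : (256 : ℝ) ≤ k := by
      have : (256 : ℝ) ≤ M := by exact_mod_cast hM
      linarith
    have h2 := L2 (diffLaw μ) hk256 hb' hβ hbb hn le_rfl hkn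
    have h3 := low_S hX hind hlaw hsym b k
    have hGc := continuous_GG (diffLaw μ)
    have hJ : ENNReal.ofReal (JJ μ b n) =
        ∫⁻ v in box 0 1, ENNReal.ofReal (Real.exp (-n * GG (diffLaw μ) (comb b v))) := by
      unfold JJ
      rw [← cube2_eq_box]
      have hcomp := isCompact_cube2 (ι := Fin 2)
      exact ofReal_integral_eq_lintegral_ofReal
        ((Continuous.continuousOn (by fun_prop)).integrableOn_compact hcomp)
        (ae_of_all _ fun _ => Real.exp_nonneg _)
    have hφ0 : ∀ v : Fin 2 → ℝ, 0 ≤ 1 - GG (diffLaw μ) (comb b v) := by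
      intro v
      rw [← normSq_cf_eq]; positivity
    have hI : ENNReal.ofReal (∫ v in box 0 5, (1 - GG (diffLaw μ) (comb b v)) ^ k) =
        ∫⁻ v in box 0 5, ENNReal.ofReal ((1 - GG (diffLaw μ) (comb b v)) ^ k) := by
      have hcomp : IsCompact (box 0 5 : Set (Fin 2 → ℝ)) := by
        have : (box 0 5 : Set (Fin 2 → ℝ)) = Set.univ.pi fun _ => Set.Icc (-5 : ℝ) 5 := by
          ext x
          simp only [box, Set.mem_univ_pi, Set.mem_Icc, Set.mem_ofPred_eq, Pi.zero_apply, sub_zero,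
            abs_le]
        rw [this]
        exact isCompact_univ_pi fun _ => isCompact_Icc
      exact ofReal_integral_eq_lintegral_ofReal
        ((Continuous.continuousOn (by fun_prop)).integrableOn_compact hcomp)
        (ae_of_all _ fun v => pow_nonneg (hφ0 v) k)
    have hI0 : 0 ≤ ∫ v in box 0 5, (1 - GG (diffLaw μ) (comb b v)) ^ k :=
      integral_nonneg fun v => pow_nonneg (hφ0 v) k
    rw [← hJ, ← hI, ← ENNReal.ofReal_mul (by positivity), ← ENNReal.ofReal_add
      (by positivity) (by positivity)] at h2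
    have h4 := (ENNReal.ofReal_le_ofReal_iff (by positivity)).1 h2
    set I := ∫ v in box 0 5, (1 - GG (diffLaw μ) (comb b v)) ^ k with hIdef
    set Q := P.real {ω | fr b (S X (2 * k) ω) ∈ box 0 1} with hQ
    have h5 : JJ μ b n - 36 * Real.exp (-n / 8) ≤ K2 * k / n * (Clow * Q) := by
      have : K2 * k / n * I ≤ K2 * k / n * (Clow * Q) :=
        mul_le_mul_of_nonneg_left h3 (by positivity)
      linarith
    calc (JJ μ b n - 36 * Real.exp (-n / 8)) * (n / (K2 * Clow)) * (1 / (k : ℝ))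
        = (JJ μ b n - 36 * Real.exp (-n / 8)) * (n / (K2 * Clow) * (1 / (k : ℝ))) := by ring
      _ ≤ (K2 * k / n * (Clow * Q)) * (n / (K2 * Clow) * (1 / (k : ℝ))) :=
          mul_le_mul_of_nonneg_right h5 (by positivity)
      _ = Q := by field_simp
  rcases le_or_gt 0 (JJ μ b n - 36 * Real.exp (-n / 8)) with hpos | hneg
  · have h2 := harmonic_dyadic M r (by omega)
    calc (JJ μ b n - 36 * Real.exp (-n / 8)) * (n / (K2 * Clow)) * (r / 2)
        ≤ (JJ μ b n - 36 * Real.exp (-n / 8)) * (n / (K2 * Clow)) *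
          ∑ k ∈ Finset.Ioc M (2 ^ r * M), (1 : ℝ) / k := by gcongr
      _ = ∑ k ∈ Finset.Ioc M (2 ^ r * M),
          (JJ μ b n - 36 * Real.exp (-n / 8)) * (n / (K2 * Clow)) * (1 / (k : ℝ)) := by
          rw [Finset.mul_sum]
      _ ≤ ∑ k ∈ Finset.Ioc M (2 ^ r * M), P.real {ω | fr b (S X (2 * k) ω) ∈ box 0 1} :=
          Finset.sum_le_sum h1
      _ = ∑ l ∈ (Finset.Ioc M (2 ^ r * M)).image (fun k => 2 * k),
            P.real {ω | fr b (S X l ω) ∈ box 0 1} := by
          rw [Finset.sum_image]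
          intro x _ y _ hxy
          simp only at hxy
          omega
      _ ≤ ∑ l ∈ Finset.range L, P.real {ω | fr b (S X l ω) ∈ box 0 1} := by
          refine Finset.sum_le_sum_of_subset_of_nonneg ?_ fun _ _ _ => measureReal_nonneg
          intro l hl
          rw [Finset.mem_image] at hl
          obtain ⟨k, hk, rfl⟩ := hl
          rw [Finset.mem_Ioc] at hk
          rw [Finset.mem_range]
          omega
  · refine le_trans ?_ (Finset.sum_nonneg fun _ _ => measureReal_nonneg)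
    have : 0 ≤ n / (K2 * Clow) * ((r : ℝ) / 2) := by positivity
    nlinarith

/-! ### Part 4: conclusion -/

/-- A box of radius four is covered by sixteen boxes of radius one. -/
theorem box_four_subset (z : Fin 2 → ℝ) :
    box z 4 ⊆ ⋃ c ∈ (Finset.univ : Finset (Fin 2 → Fin 4)),
      box (fun i => z i + (2 * (c i : ℕ) - 3 : ℝ)) 1 := by
  intro x hx
  have h1 : ∀ i, ∃ k : Fin 4, |x i - (z i + (2 * (k : ℕ) - 3 : ℝ))| ≤ 1 := by
    intro i
    have h2 := abs_le.1 (hx i)
    rcases le_or_gt (x i - z i) (-2) with h3 | h3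
    · refine ⟨0, ?_⟩
      rw [abs_le]; norm_num; constructor <;> linarith [h2.1, h2.2]
    rcases le_or_gt (x i - z i) 0 with h4 | h4
    · refine ⟨1, ?_⟩
      rw [abs_le]; norm_num; constructor <;> linarith [h2.1, h2.2]
    rcases le_or_gt (x i - z i) 2 with h5 | h5
    · refine ⟨2, ?_⟩
      rw [abs_le]; norm_num; constructor <;> linarith [h2.1, h2.2]
    · refine ⟨3, ?_⟩
      rw [abs_le]; norm_num; constructor <;> linarith [h2.1, h2.2]
  choose c hc using h1
  simp only [Set.mem_iUnion]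
  exact ⟨c, Finset.mem_univ _, hc⟩

theorem up_S_four {Ω : Type*} [MeasurableSpace Ω] {P : Measure Ω} [IsProbabilityMeasure P]
    {μ : Measure (Fin 2 → ℝ)} [IsProbabilityMeasure μ] {X : ℕ → Ω → Fin 2 → ℝ}
    (hX : ∀ k, Measurable (X k)) (hind : iIndepFun X P) (hlaw : ∀ k, P.map (X k) = μ)
    (b : Fin 2 → Fin 2 → ℝ) {j : ℕ} {n : ℝ} (hj : 2 * n ≤ j) (z : Fin 2 → ℝ) :
    P.real {ω | fr b (S X j ω) ∈ box z 4} ≤ 32 * JJ μ b n := by
  have h1 : {ω | fr b (S X j ω) ∈ box z 4} ⊆ ⋃ c ∈ (Finset.univ : Finset (Fin 2 → Fin 4)),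
      {ω | fr b (S X j ω) ∈ box (fun i => z i + (2 * (c i : ℕ) - 3 : ℝ)) 1} := by
    intro ω hω
    have := box_four_subset z hω
    simpa using this
  refine (measureReal_mono h1 (measure_ne_top _ _)).trans
    ((measureReal_biUnion_finset_le _ _).trans ?_)
  refine (Finset.sum_le_sum fun c _ => up_S hX hind hlaw b hj _).trans ?_
  rw [Finset.sum_const, nsmul_eq_mul]
  have : (Finset.univ : Finset (Fin 2 → Fin 4)).card = 16 := by simp
  rw [this]
  unfold JJ
  push_cast
  linarith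

/-- **(L3) = part (a) of BODY**, for a symmetric law which is nondegenerate in the plane. -/
theorem body_a {μ : Measure (Fin 2 → ℝ)} [IsProbabilityMeasure μ]
    (hsym : μ.map (fun x => -x) = μ) {p : ℝ} (hp0 : 0 < p)
    (hp : ∀ v : Fin 2 → ℝ, ‖v‖ = 1 → p ≤ gg (diffLaw μ) v) {ε : ℝ} (hε : 0 < ε) {R : ℕ}
    (hR : 1 ≤ R) :
    ∃ m N₀ : ℕ, ∀ N : ℕ, N₀ ≤ N → ∀ b : Fin 2 → Fin 2 → ℝ,
      IsFrame (diffLaw μ) ((N : ℝ) / 2 ^ m) b →
      ∀ {Ω : Type*} [MeasurableSpace Ω] (P : Measure Ω) [IsProbabilityMeasure P]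
        (X : ℕ → Ω → Fin 2 → ℝ), (∀ k, Measurable (X k)) → iIndepFun X P →
        (∀ k, P.map (X k) = μ) → ∀ y : Fin 2 → ℝ,
        P.real {ω | ∃ j : ℕ, N ≤ R * j ∧ j ≤ R * N ∧ ∀ i, |dot (b i) (S X j ω - y)| ≤ 3} ≤ ε := by
  have hK2 : 0 < K2 := by unfold K2; positivity
  have hClow : 0 < Clow := by
    have h0 : 0 < ∑' j : ℕ, Real.exp (-(j : ℝ)) * (2 * (j : ℝ) + 5) ^ 2 := by
      refine lt_of_lt_of_le ?_ (summable_Clow.le_tsum 0 fun j _ => by positivity)
      simp
    unfold Clow; positivity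
  obtain ⟨r, hr⟩ := exists_nat_ge (512 * (R : ℝ) ^ 2 * (K2 * Clow) / ε + 1)
  have hr1 : (1 : ℝ) ≤ r := by
    refine le_trans ?_ hr
    have : 0 ≤ 512 * (R : ℝ) ^ 2 * (K2 * Clow) / ε := by positivity
    linarith
  set m := r + 5 + R with hm
  obtain ⟨N₁, hN₁⟩ := exists_nat_ge ((2 : ℝ) ^ m * (1 / p + 1))
  set N₀ := max (max (256 * 2 ^ m) N₁) (2 * R * (64 * 2 ^ m + 24)) with hN₀
  refine ⟨m, N₀, fun N hN b hb Ω _ P _ X hX hind hlaw y => ?_⟩
  have hN256 : 256 * 2 ^ m ≤ N := le_trans (le_trans (le_max_left _ _) (le_max_left _ _)) hN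
  have hNN₁ : N₁ ≤ N := le_trans (le_trans (le_max_right _ _) (le_max_left _ _)) hN
  have hN24 : 2 * R * (64 * 2 ^ m + 24) ≤ N := le_trans (le_max_right _ _) hN
  have hRpos : (0 : ℝ) < R := by exact_mod_cast hR
  have h2m : (0 : ℝ) < 2 ^ m := by positivity
  set t : ℝ := (N : ℝ) / 2 ^ m with ht
  have ht256 : 256 ≤ t := by
    rw [ht, le_div_iff₀ h2m]; exact_mod_cast hN256
  have htp : 1 / p < t := by
    rw [ht, lt_div_iff₀ h2m]
    have : (N₁ : ℝ) ≤ N := by exact_mod_cast hNN₁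
    nlinarith
  have ht0 : 0 < t := by linarith
  have hN0 : (0 : ℝ) < N := by
    have : (256 : ℝ) * 2 ^ m ≤ N := by exact_mod_cast hN256
    have : (0 : ℝ) < 256 * 2 ^ m := by positivity
    linarith
  -- the integer scales
  set M := ⌈t⌉₊ with hM
  have htM : t ≤ M := Nat.le_ceil t
  have hMt2 : (M : ℝ) ≤ 2 * t := by
    have := Nat.ceil_lt_add_one ht0.le
    linarith
  have hM256 : 256 ≤ M := by
    have : (256 : ℝ) ≤ M := by linarith
    exact_mod_cast this
  have hMp : 1 / (M : ℝ) < p := by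
    rw [div_lt_iff₀ (by linarith)]
    rw [div_lt_iff₀ hp0] at htp
    nlinarith
  -- the first time
  set a := ⌈(N : ℝ) / R⌉₊ with ha
  have haN : (N : ℝ) / R ≤ a := Nat.le_ceil _
  have ha' : (a : ℝ) ≤ (N : ℝ) / R + 1 := (Nat.ceil_lt_add_one (by positivity)).le
  set n : ℝ := (a : ℝ) / 2 with hn
  have hnN : (N : ℝ) / (2 * R) ≤ n := by
    rw [hn, le_div_iff₀ (by norm_num)]
    refine le_trans (le_of_eq ?_) haN
    field_simp
  have hn0 : 0 < n := lt_of_lt_of_le (by positivity) hnN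
  have hR2 : (R : ℝ) ≤ 2 ^ R := by exact_mod_cast (Nat.lt_two_pow_self (n := R)).le
  have h8 : 8 * (2 ^ r * (M : ℝ)) ≤ n := by
    refine le_trans ?_ hnN
    rw [le_div_iff₀ (by positivity)]
    have h1 : (2 : ℝ) ^ m = 2 ^ r * 32 * 2 ^ R := by
      rw [hm, pow_add, pow_add]; norm_num
    have h2 : (M : ℝ) ≤ 2 * (N / 2 ^ m) := hMt2
    have h3 : 8 * (2 ^ r * (M : ℝ)) * (2 * R) ≤ 8 * (2 ^ r * (2 * (N / 2 ^ m))) * (2 * 2 ^ R) := by
      gcongr
    refine h3.trans (le_of_eq ?_)
    rw [h1]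
    field_simp
    norm_num
  have hL : 2 * (2 ^ r * M) < a := by
    have h1 : (2 : ℝ) * (2 ^ r * M) < a := by
      have h2 : 8 * (2 ^ r * (M : ℝ)) ≤ a / 2 := h8
      have h3 : (0 : ℝ) < 2 ^ r * M := by
        have : (0 : ℝ) < M := by linarith
        positivity
      linarith
    exact_mod_cast h1
  have hsum := sum_lower hX hind hlaw hsym ht0 hp hb hn0 hM256 htM hMp h8 hL
  -- lower bound of `J`
  have hJlow := JJ_lower μ hn0.le hb
  have hJ : 72 * Real.exp (-n / 8) ≤ JJ μ b n := by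
    refine le_trans ?_ hJlow
    have h1 : n ≤ N := by
      have : (N : ℝ) / R ≤ N := div_le_self hN0.le (by exact_mod_cast hR)
      have h2 : (1 : ℝ) ≤ N := by
        have : (256 : ℝ) * 2 ^ m ≤ N := by exact_mod_cast hN256
        have : (1 : ℝ) ≤ 2 ^ m := one_le_pow₀ (by norm_num)
        linarith
      linarith
    have h2 : 8 * n / t ≤ 8 * 2 ^ m := by
      rw [div_le_iff₀ ht0, ht]
      have : 8 * 2 ^ m * ((N : ℝ) / 2 ^ m) = 8 * N := by field_simp
      rw [this]; linarith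
    have h3 : 64 * 2 ^ m + 24 ≤ n := by
      refine le_trans ?_ hnN
      rw [le_div_iff₀ (by positivity)]
      have : (2 * R * (64 * 2 ^ m + 24) : ℝ) ≤ N := by exact_mod_cast hN24
      linarith
    have h4 : (18 : ℝ) ≤ Real.exp 3 := by
      have := Real.exp_one_gt_d9
      have h5 : Real.exp 3 = Real.exp 1 ^ 3 := by rw [← Real.exp_nat_mul]; norm_num
      rw [h5]
      have h6 : (2.7 : ℝ) ≤ Real.exp 1 := by linarith
      have h7 : (2.7 : ℝ) ^ 3 ≤ Real.exp 1 ^ 3 := pow_le_pow_left₀ (by norm_num) h6 3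
      norm_num at h7 ⊢
      linarith
    have h5 : Real.exp 3 * Real.exp (-n / 8) ≤ Real.exp (-(8 * n / t)) := by
      rw [← Real.exp_add]
      apply Real.exp_le_exp.2
      linarith
    have h6 : 18 * Real.exp (-n / 8) ≤ Real.exp (-(8 * n / t)) :=
      le_trans (mul_le_mul_of_nonneg_right h4 (Real.exp_nonneg _)) h5
    linarith
  have hJ0 : 0 < JJ μ b n := lt_of_lt_of_le (by positivity) hJ
  -- the hitting inequality
  set A : Set (Fin 2 → ℝ) := {x | fr b x ∈ box (fr b y) 3} with hA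
  set B : Set (Fin 2 → ℝ) := {x | fr b x ∈ box 0 1} with hB
  set A' : Set (Fin 2 → ℝ) := {x | fr b x ∈ box (fr b y) 4} with hA'
  have mA : MeasurableSet A := measurable_fr b (measurableSet_box _ _)
  have mB : MeasurableSet B := measurable_fr b (measurableSet_box _ _)
  have mA' : MeasurableSet A' := measurable_fr b (measurableSet_box _ _)
  have hAB : ∀ x ∈ A, ∀ u ∈ B, x + u ∈ A' := by
    intro x hx u hu i
    have h1 := hx i
    have h2 := hu i
    simp only [Pi.zero_apply, sub_zero] at h2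
    have h3 : fr b (x + u) i - fr b y i = (fr b x i - fr b y i) + fr b u i := by
      simp [fr, dot_add_right]; ring
    rw [h3]
    exact (abs_add_le _ _).trans (by linarith)
  have hit := Hit818.hit_mul_le hX hind hlaw mA mB mA' hAB a (R * N + 1) a
  -- to real numbers
  have hitR : P.real {ω | ∃ j, a ≤ j ∧ j < R * N + 1 ∧ S X j ω ∈ A} *
      ∑ l ∈ Finset.range a, P.real {ω | S X l ω ∈ B} ≤
      ∑ j ∈ Finset.Ico a (R * N + 1 + a), P.real {ω | S X j ω ∈ A'} := by
    have e1 := ENNReal.toReal_mono (by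
      refine ENNReal.sum_ne_top.2 fun j _ => measure_ne_top _ _) hit
    rw [ENNReal.toReal_mul, ENNReal.toReal_sum (fun _ _ => measure_ne_top _ _),
      ENNReal.toReal_sum (fun _ _ => measure_ne_top _ _)] at e1
    exact e1
  have hup : ∑ j ∈ Finset.Ico a (R * N + 1 + a), P.real {ω | S X j ω ∈ A'} ≤
      (2 * R * N) * (32 * JJ μ b n) := by
    have h1 : ∀ j ∈ Finset.Ico a (R * N + 1 + a), P.real {ω | S X j ω ∈ A'} ≤
        32 * JJ μ b n := by
      intro j hj
      rw [Finset.mem_Ico] at hj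
      refine up_S_four hX hind hlaw b ?_ _
      rw [hn]
      have : (a : ℝ) ≤ j := by exact_mod_cast hj.1
      linarith
    refine (Finset.sum_le_sum h1).trans ?_
    rw [Finset.sum_const, Nat.card_Ico, nsmul_eq_mul]
    have h2 : R * N + 1 + a - a = R * N + 1 := by omega
    rw [h2]
    refine mul_le_mul_of_nonneg_right ?_ (by positivity)
    push_cast
    have h3 : (1 : ℝ) ≤ R * N := by
      have h4 : (1 : ℝ) ≤ R := by exact_mod_cast hR
      have h5 : (1 : ℝ) ≤ N := by
        have : (256 : ℝ) * 2 ^ m ≤ N := by exact_mod_cast hN256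
        have : (1 : ℝ) ≤ 2 ^ m := one_le_pow₀ (by norm_num)
        linarith
      nlinarith
    linarith
  set q := P.real {ω | ∃ j, a ≤ j ∧ j < R * N + 1 ∧ S X j ω ∈ A} with hq
  have hq0 : 0 ≤ q := measureReal_nonneg
  have hmain : q * ((JJ μ b n / 2) * (n / (K2 * Clow)) * (r / 2)) ≤
      (2 * R * N) * (32 * JJ μ b n) := by
    refine le_trans ?_ hup
    refine le_trans (mul_le_mul_of_nonneg_left ?_ hq0) hitR
    refine le_trans ?_ hsum
    have : JJ μ b n / 2 ≤ JJ μ b n - 36 * Real.exp (-n / 8) := by linarith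
    gcongr
  have hfin : q ≤ ε := by
    have h1 : q * (n * r) ≤ 256 * R * N * (K2 * Clow) := by
      have h2 : q * ((JJ μ b n / 2) * (n / (K2 * Clow)) * (r / 2)) =
          (q * (n * r)) * (JJ μ b n / (4 * (K2 * Clow))) := by
        field_simp
        ring
      rw [h2] at hmain
      have h3 : (2 * R * N) * (32 * JJ μ b n) =
          (256 * R * N * (K2 * Clow)) * (JJ μ b n / (4 * (K2 * Clow))) := by
        field_simp
        norm_num
      rw [h3] at hmain
      exact le_of_mul_le_mul_right hmain (by positivity)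
    have h4 : q * (N / (2 * R) * r) ≤ 256 * R * N * (K2 * Clow) := by
      refine le_trans ?_ h1
      gcongr
    have h5 : q * r ≤ 512 * R ^ 2 * (K2 * Clow) := by
      have h6 : q * (N / (2 * R) * r) = (q * r) * (N / (2 * R)) := by ring
      have h7 : 256 * R * N * (K2 * Clow) = (512 * R ^ 2 * (K2 * Clow)) * (N / (2 * R)) := by
        field_simp
        norm_num
      rw [h6, h7] at h4
      exact le_of_mul_le_mul_right h4 (by positivity)
    have h8 : 512 * (R : ℝ) ^ 2 * (K2 * Clow) ≤ ε * r := by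
      have h9 : 512 * (R : ℝ) ^ 2 * (K2 * Clow) / ε ≤ r := by linarith
      rw [div_le_iff₀ hε] at h9
      linarith
    have h10 : q * r ≤ ε * r := h5.trans h8
    exact le_of_mul_le_mul_right h10 (by linarith)
  refine le_trans (measureReal_mono ?_ (measure_ne_top _ _)) hfin
  rintro ω ⟨j, hj1, hj2, hj3⟩
  refine ⟨j, ?_, by omega, ?_⟩
  · rw [ha, Nat.ceil_le, div_le_iff₀ hRpos]
    have : (N : ℝ) ≤ R * j := by exact_mod_cast hj1
    linarith
  · intro i
    have := hj3 i
    rw [dot_sub_right] at this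
    exact this

end Crest.Agent.R154.Conc412
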