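import Mathlib

/-!
Row 154, block B3 (a), (b): concentration of sums of independent vectors of `ι → ℝ`
(Esseen's inequality in a form which is correct for anisotropic laws), and the lower local bound for
differences of two independent copies.  Mathlib only.
-/

open MeasureTheory ProbabilityTheory Set
open scoped BigOperators ENNReal NNReal

namespace Crest.Agent.R154.Conc412

variable {ι : Type*} [Fintype ι]

/-- The pairing of frequencies and positions. -/
def dot (θ x : ι → ℝ) : ℝ := ∑ i, θ i * x i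

/-- The character `x ↦ exp (i θ·x)`. -/
noncomputable def ch (θ x : ι → ℝ) : ℂ := Complex.exp ((dot θ x : ℝ) * Complex.I)

/-- The characteristic function of a measure on `ι → ℝ`. -/
noncomputable def cf (μ : Measure (ι → ℝ)) (θ : ι → ℝ) : ℂ := ∫ x, ch θ x ∂μ

/-- The cube of side `1` centred at `0`. -/
def cube : Set (ι → ℝ) := Set.univ.pi fun _ => Set.Icc (-(1/2) : ℝ) (1/2)

/-- The cube of side `2` centred at `0`. -/
def cube2 : Set (ι → ℝ) := Set.univ.pi fun _ => Set.Icc (-1 : ℝ) 1

/-- The box `z + [-r, r]^ι`. -/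
def box (z : ι → ℝ) (r : ℝ) : Set (ι → ℝ) := {x | ∀ i, |x i - z i| ≤ r}

theorem dot_sub_left (a b x : ι → ℝ) : dot (a - b) x = dot a x - dot b x := by
  simp [dot, sub_mul, Finset.sum_sub_distrib]

theorem dot_sub_right (a x y : ι → ℝ) : dot a (x - y) = dot a x - dot a y := by
  simp [dot, mul_sub, Finset.sum_sub_distrib]

theorem dot_add_right (a x y : ι → ℝ) : dot a (x + y) = dot a x + dot a y := by
  simp [dot, mul_add, Finset.sum_add_distrib]

theorem dot_sum_right {κ : Type*} (s : Finset κ) (a : ι → ℝ) (x : κ → ι → ℝ) :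
    dot a (∑ k ∈ s, x k) = ∑ k ∈ s, dot a (x k) := by
  classical
  induction s using Finset.induction_on with
  | empty => simp [dot]
  | insert k s hk ih => rw [Finset.sum_insert hk, Finset.sum_insert hk, dot_add_right, ih]

@[fun_prop]
theorem continuous_dot {X : Type*} [TopologicalSpace X] {f g : X → ι → ℝ}
    (hf : Continuous f) (hg : Continuous g) : Continuous fun x => dot (f x) (g x) := by
  unfold dot; fun_prop

@[fun_prop]
theorem continuous_ch {X : Type*} [TopologicalSpace X] {f g : X → ι → ℝ}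
    (hf : Continuous f) (hg : Continuous g) : Continuous fun x => ch (f x) (g x) := by
  unfold ch; fun_prop

@[fun_prop]
theorem measurable_dot {X : Type*} [MeasurableSpace X] {f g : X → ι → ℝ}
    (hf : Measurable f) (hg : Measurable g) : Measurable fun x => dot (f x) (g x) := by
  unfold dot; fun_prop

@[fun_prop]
theorem measurable_ch {X : Type*} [MeasurableSpace X] {f g : X → ι → ℝ}
    (hf : Measurable f) (hg : Measurable g) : Measurable fun x => ch (f x) (g x) := by
  unfold ch; fun_prop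

theorem norm_ch (θ x : ι → ℝ) : ‖ch θ x‖ = 1 := by
  simp [ch, Complex.norm_exp_ofReal_mul_I]

theorem ch_sub_left (a b x : ι → ℝ) : ch (a - b) x = ch a x * (starRingEnd ℂ) (ch b x) := by
  simp only [ch, dot_sub_left, ← Complex.exp_conj, ← Complex.exp_add]
  congr 1
  simp
  ring

theorem ch_sub_right (a x y : ι → ℝ) : ch a (x - y) = ch a x * (starRingEnd ℂ) (ch a y) := by
  simp only [ch, dot_sub_right, ← Complex.exp_conj, ← Complex.exp_add]
  congr 1
  simp
  ring


theorem ch_sum_right {κ : Type*} (s : Finset κ) (a : ι → ℝ) (x : κ → ι → ℝ) :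
    ch a (∑ k ∈ s, x k) = ∏ k ∈ s, ch a (x k) := by
  simp only [ch, dot_sum_right, ← Complex.exp_sum]
  congr 1
  simp [Finset.sum_mul]

theorem integrable_ch {X : Type*} [MeasurableSpace X] (μ : Measure X) [IsFiniteMeasure μ]
    {f g : X → ι → ℝ} (hf : Measurable f) (hg : Measurable g) :
    Integrable (fun x => ch (f x) (g x)) μ := by
  refine Integrable.of_bound (C := 1) (by fun_prop) (ae_of_all _ fun x => ?_)
  rw [norm_ch]

theorem continuous_cf (μ : Measure (ι → ℝ)) [IsFiniteMeasure μ] : Continuous (cf μ) := by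
  unfold cf
  refine continuous_of_dominated (bound := fun _ => 1) ?_ ?_ (integrable_const _) ?_
  · intro x; exact (Continuous.aestronglyMeasurable (by fun_prop))
  · intro x; exact ae_of_all _ fun a => by rw [norm_ch]
  · exact ae_of_all _ fun a => by fun_prop

theorem norm_cf_le_one (μ : Measure (ι → ℝ)) [IsProbabilityMeasure μ] (θ : ι → ℝ) :
    ‖cf μ θ‖ ≤ 1 := by
  refine (norm_integral_le_integral_norm _).trans ?_
  simp [norm_ch]

theorem volume_cube : (volume : Measure (ι → ℝ)) cube = 1 := by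
  rw [cube, volume_pi, Measure.pi_pi]
  simp [Real.volume_Icc]
  norm_num

theorem measurableSet_cube : MeasurableSet (cube : Set (ι → ℝ)) :=
  MeasurableSet.univ_pi fun _ => measurableSet_Icc

theorem measurableSet_cube2 : MeasurableSet (cube2 : Set (ι → ℝ)) :=
  MeasurableSet.univ_pi fun _ => measurableSet_Icc

theorem restrict_cube : (volume : Measure (ι → ℝ)).restrict cube =
    Measure.pi fun _ : ι => (volume : Measure ℝ).restrict (Set.Icc (-(1/2) : ℝ) (1/2)) := by
  rw [cube, volume_pi, Measure.restrict_pi_pi]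

theorem restrict_cube2 : (volume : Measure (ι → ℝ)).restrict cube2 =
    Measure.pi fun _ : ι => (volume : Measure ℝ).restrict (Set.Icc (-1 : ℝ) 1) := by
  rw [cube2, volume_pi, Measure.restrict_pi_pi]

instance : IsProbabilityMeasure ((volume : Measure (ι → ℝ)).restrict cube) :=
  ⟨by simp [volume_cube]⟩

instance : IsFiniteMeasure ((volume : Measure (ι → ℝ)).restrict cube2) := by
  rw [restrict_cube2]; infer_instance

/-- The transform of the cube. -/
noncomputable def h (x : ι → ℝ) : ℂ := ∫ a in (cube : Set (ι → ℝ)), ch a x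

theorem h_eq_prod (x : ι → ℝ) :
    h x = ∏ i, ∫ a in Set.Icc (-(1/2) : ℝ) (1/2), Complex.exp ((a * x i : ℝ) * Complex.I) := by
  rw [h, restrict_cube, ← integral_fintype_prod_eq_prod (𝕜 := ℂ)
    (f := fun i (a : ℝ) => Complex.exp ((a * x i : ℝ) * Complex.I))]
  congr 1
  ext a
  simp only [ch, dot, ← Complex.exp_sum]
  congr 1
  simp [Finset.sum_mul]

theorem re_factor_ge {u : ℝ} (hu : |u| ≤ 1) :
    (7/8 : ℝ) ≤ ‖∫ a in Set.Icc (-(1/2) : ℝ) (1/2), Complex.exp ((a * u : ℝ) * Complex.I)‖ := by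
  have hint : Integrable (fun a : ℝ => Complex.exp ((a * u : ℝ) * Complex.I))
      (volume.restrict (Set.Icc (-(1/2) : ℝ) (1/2))) := by
    refine Integrable.of_bound (C := 1) (Continuous.aestronglyMeasurable (by fun_prop))
      (ae_of_all _ fun x => ?_)
    rw [Complex.norm_exp_ofReal_mul_I]
  refine le_trans ?_ (Complex.abs_re_le_norm _)
  refine le_trans ?_ (le_abs_self _)
  have hre : (∫ a in Set.Icc (-(1/2) : ℝ) (1/2), Complex.exp ((a * u : ℝ) * Complex.I)).re
      = ∫ a in Set.Icc (-(1/2) : ℝ) (1/2), Real.cos (a * u) := by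
    have h5 := integral_re hint
    simp only [RCLike.re_eq_complex_re] at h5
    rw [← h5]
    refine integral_congr_ae (ae_of_all _ fun a => ?_)
    exact Complex.exp_ofReal_mul_I_re (a * u)
  rw [hre]
  have h1 : (7/8 : ℝ) = ∫ a in Set.Icc (-(1/2) : ℝ) (1/2), (7/8 : ℝ) := by
    simp
    norm_num
  rw [h1]
  refine setIntegral_mono_on (by simp) ?_ measurableSet_Icc fun a ha => ?_
  · refine Integrable.of_bound (C := 1) (Continuous.aestronglyMeasurable (by fun_prop))
      (ae_of_all _ fun x => ?_)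
    exact Real.abs_cos_le_one _
  · have h2 := Real.one_sub_sq_div_two_le_cos (x := a * u)
    have h3 : |a * u| ≤ 1/2 := by
      rw [abs_mul]
      have : |a| ≤ 1/2 := abs_le.2 ha
      nlinarith [abs_nonneg a, abs_nonneg u]
    have h4 : (a * u) ^ 2 ≤ (1/2)^2 := sq_le_sq' (by linarith [neg_abs_le (a*u)])
      (by linarith [le_abs_self (a*u)])
    nlinarith

theorem norm_h_ge {x : ι → ℝ} (hx : ∀ i, |x i| ≤ 1) :
    (7/8 : ℝ) ^ Fintype.card ι ≤ ‖h x‖ := by
  rw [h_eq_prod, norm_prod, ← Finset.card_univ, ← Finset.prod_const]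
  exact Finset.prod_le_prod (fun _ _ => by norm_num) fun i _ => re_factor_ge (hx i)

theorem norm_h_le_one (x : ι → ℝ) : ‖h x‖ ≤ 1 := by
  refine (norm_integral_le_integral_norm _).trans ?_
  simp [norm_ch, measureReal_def]

theorem continuous_h : Continuous (h : (ι → ℝ) → ℂ) := by
  unfold h
  refine continuous_of_dominated (bound := fun _ => 1) ?_ ?_ (integrable_const _) ?_
  · intro x; exact (Continuous.aestronglyMeasurable (by fun_prop))
  · intro x; exact ae_of_all _ fun a => by rw [norm_ch]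
  · exact ae_of_all _ fun a => by fun_prop

/-- `|h x|²` as a double integral. -/
theorem normSq_h (x : ι → ℝ) : ((‖h x‖ ^ 2 : ℝ) : ℂ) =
    ∫ b in (cube : Set (ι → ℝ)), ∫ a in (cube : Set (ι → ℝ)), ch (a - b) x := by
  have h1 : ∀ b, (∫ a in (cube : Set (ι → ℝ)), ch (a - b) x) = h x * (starRingEnd ℂ) (ch b x) := by
    intro b
    simp only [ch_sub_left, integral_mul_const, h]
  simp only [h1, integral_const_mul]
  rw [integral_conj]
  change _ = h x * (starRingEnd ℂ) (h x)
  rw [Complex.mul_conj, Complex.normSq_eq_norm_sq]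

theorem integrable_h (μ : Measure (ι → ℝ)) [IsFiniteMeasure μ] (z : ι → ℝ) :
    Integrable (fun x => ‖h (x - z)‖ ^ 2) μ := by
  refine Integrable.of_bound (C := 1) (Continuous.aestronglyMeasurable ?_) (ae_of_all _ fun x => ?_)
  · exact (continuous_h.comp (continuous_sub_right z)).norm.pow 2
  · rw [Real.norm_of_nonneg (by positivity)]
    exact pow_le_one₀ (norm_nonneg _) (norm_h_le_one _)

/-- The basic inequality: `∫ |h (x - z)|² dμ ≤ ∫_{[-1,1]^ι} |cf μ|`. -/
theorem integral_h_le (μ : Measure (ι → ℝ)) [IsProbabilityMeasure μ] (z : ι → ℝ) :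
    ∫ x, ‖h (x - z)‖ ^ 2 ∂μ ≤ ∫ θ in (cube2 : Set (ι → ℝ)), ‖cf μ θ‖ := by
  set ν : Measure (ι → ℝ) := (volume : Measure (ι → ℝ)).restrict cube with hν
  have e1 : ((∫ x, ‖h (x - z)‖ ^ 2 ∂μ : ℝ) : ℂ) =
      ∫ b, ∫ a, cf μ (a - b) * (starRingEnd ℂ) (ch (a - b) z) ∂ν ∂ν := by
    calc ((∫ x, ‖h (x - z)‖ ^ 2 ∂μ : ℝ) : ℂ)
        = ∫ x, ((‖h (x - z)‖ ^ 2 : ℝ) : ℂ) ∂μ := (integral_ofReal (𝕜 := ℂ)).symm
      _ = ∫ x, ∫ b, ∫ a, ch (a - b) (x - z) ∂ν ∂ν ∂μ := by
          refine integral_congr_ae (ae_of_all _ fun x => ?_)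
          exact normSq_h (x - z)
      _ = ∫ b, ∫ x, ∫ a, ch (a - b) (x - z) ∂ν ∂μ ∂ν := by
          refine integral_integral_swap ?_
          refine Integrable.of_bound (C := 1) ?_ (ae_of_all _ fun x => ?_)
          · refine Continuous.aestronglyMeasurable ?_
            refine continuous_of_dominated (bound := fun _ => 1) ?_ ?_ (integrable_const _) ?_
            · intro x; exact (Continuous.aestronglyMeasurable (by fun_prop))
            · intro x; exact ae_of_all _ fun a => by rw [norm_ch]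
            · exact ae_of_all _ fun a => by fun_prop
          · refine (norm_integral_le_integral_norm _).trans ?_
            simp [norm_ch, hν, measureReal_def]
      _ = ∫ b, ∫ a, ∫ x, ch (a - b) (x - z) ∂μ ∂ν ∂ν := by
          refine integral_congr_ae (ae_of_all _ fun b => ?_)
          refine integral_integral_swap ?_
          exact integrable_ch _ (by fun_prop) (by fun_prop)
      _ = ∫ b, ∫ a, cf μ (a - b) * (starRingEnd ℂ) (ch (a - b) z) ∂ν ∂ν := by
          refine integral_congr_ae (ae_of_all _ fun b => ?_)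
          refine integral_congr_ae (ae_of_all _ fun a => ?_)
          simp only [ch_sub_right, integral_mul_const, cf]
  have hcf : Continuous (cf μ) := continuous_cf μ
  have e2 : ∀ b ∈ (cube : Set (ι → ℝ)),
      ∫ a, ‖cf μ (a - b)‖ ∂ν ≤ ∫ θ in (cube2 : Set (ι → ℝ)), ‖cf μ θ‖ := by
    intro b hb
    rw [hν, ← integral_indicator measurableSet_cube, ← integral_indicator measurableSet_cube2,
      ← integral_add_right_eq_self (μ := (volume : Measure (ι → ℝ)))
        (fun a => (cube : Set (ι → ℝ)).indicator (fun a => ‖cf μ (a - b)‖) a) b]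
    refine integral_mono_of_nonneg (ae_of_all _ fun θ => ?_) ?_ (ae_of_all _ fun θ => ?_)
    · exact Set.indicator_nonneg (fun _ _ => norm_nonneg _) _
    · rw [integrable_indicator_iff measurableSet_cube2]
      exact Integrable.of_bound (C := 1) hcf.norm.aestronglyMeasurable
        (ae_of_all _ fun x => by rw [norm_norm]; exact norm_cf_le_one μ x)
    · simp only
      by_cases hθ : θ + b ∈ (cube : Set (ι → ℝ))
      · have h2 : θ ∈ (cube2 : Set (ι → ℝ)) := by
          intro i _
          have h3 := hθ i (mem_univ _)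
          have h4 := hb i (mem_univ _)
          simp only [Pi.add_apply, Set.mem_Icc] at h3 h4 ⊢
          constructor <;> linarith [h3.1, h3.2, h4.1, h4.2]
        rw [Set.indicator_of_mem hθ, Set.indicator_of_mem h2, add_sub_cancel_right]
      · rw [Set.indicator_of_notMem hθ]
        exact Set.indicator_nonneg (fun _ _ => norm_nonneg _) _
  have e3 : ‖((∫ x, ‖h (x - z)‖ ^ 2 ∂μ : ℝ) : ℂ)‖ ≤
      ∫ _b : ι → ℝ, (∫ θ in (cube2 : Set (ι → ℝ)), ‖cf μ θ‖) ∂ν := by
    rw [e1]
    refine (norm_integral_le_integral_norm _).trans ?_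
    refine integral_mono_of_nonneg (ae_of_all _ fun _ => norm_nonneg _)
      (integrable_const (μ := ν) _) ?_
    rw [hν]
    refine (ae_restrict_mem measurableSet_cube).mono fun b hb => ?_
    simp only
    refine (norm_integral_le_integral_norm _).trans ?_
    refine le_trans (le_of_eq ?_) (e2 b hb)
    refine integral_congr_ae (ae_of_all _ fun a => ?_)
    simp [norm_ch]
  rw [Complex.norm_real] at e3
  refine (le_abs_self _).trans (e3.trans (le_of_eq ?_))
  simp [hν, measureReal_def]

theorem measurableSet_box (z : ι → ℝ) (r : ℝ) : MeasurableSet (box z r) := by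
  have : box z r = ⋂ i, {x : ι → ℝ | |x i - z i| ≤ r} := by ext; simp [box]
  rw [this]
  refine MeasurableSet.iInter fun i => ?_
  exact measurableSet_le (by fun_prop) (by fun_prop)

/-- **Esseen's inequality.** -/
theorem esseen (μ : Measure (ι → ℝ)) [IsProbabilityMeasure μ] (z : ι → ℝ) :
    ((7/8 : ℝ) ^ 2) ^ Fintype.card ι * μ.real (box z 1) ≤
      ∫ θ in (cube2 : Set (ι → ℝ)), ‖cf μ θ‖ := by
  refine le_trans ?_ (integral_h_le μ z)
  have h1 : ((7/8 : ℝ) ^ 2) ^ Fintype.card ι * μ.real (box z 1) =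
      ∫ x, (box z 1).indicator (fun _ => ((7/8 : ℝ) ^ 2) ^ Fintype.card ι) x ∂μ := by
    rw [integral_indicator_const _ (measurableSet_box z 1)]
    simp [mul_comm]
  rw [h1]
  refine integral_mono ((integrable_const _).indicator (measurableSet_box z 1))
    (integrable_h μ z) fun x => ?_
  by_cases hx : x ∈ box z 1
  · simp only [Set.indicator_of_mem hx]
    rw [← pow_mul, mul_comm, pow_mul]
    exact pow_le_pow_left₀ (by positivity) (norm_h_ge hx) 2
  · simp only [Set.indicator_of_notMem hx]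
    positivity

/-! ### Part C2: the characteristic function of a general law near the origin -/

/-- The `ℓ¹` unit ball. -/
def ball1 : Set (ι → ℝ) := {x | ∑ i, |x i| ≤ 1}


/-- The truncated covariance form of the symmetrised law:
`V μ θ = E[(θ·(X - X'))² ; |X - X'|₁ ≤ 1]`. -/
noncomputable def V (μ : Measure (ι → ℝ)) (θ : ι → ℝ) : ℝ :=
  ∫ p : (ι → ℝ) × (ι → ℝ), (ball1 : Set (ι → ℝ)).indicator (fun x => dot θ x ^ 2) (p.1 - p.2)
    ∂(μ.prod μ)

theorem normSq_cf (μ : Measure (ι → ℝ)) [IsProbabilityMeasure μ] (θ : ι → ℝ) :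
    ‖cf μ θ‖ ^ 2 = ∫ p : (ι → ℝ) × (ι → ℝ), Real.cos (dot θ (p.1 - p.2)) ∂(μ.prod μ) := by
  have h1 : ((‖cf μ θ‖ ^ 2 : ℝ) : ℂ) =
      ∫ p : (ι → ℝ) × (ι → ℝ), ch θ (p.1 - p.2) ∂(μ.prod μ) := by
    simp only [ch_sub_right]
    rw [integral_prod_mul (L := ℂ) (fun x => ch θ x) (fun y => (starRingEnd ℂ) (ch θ y)),
      integral_conj]
    change _ = cf μ θ * (starRingEnd ℂ) (cf μ θ)
    rw [Complex.mul_conj, Complex.normSq_eq_norm_sq]
  have h2 : ‖cf μ θ‖ ^ 2 = (∫ p : (ι → ℝ) × (ι → ℝ), ch θ (p.1 - p.2) ∂(μ.prod μ)).re := by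
    rw [← h1, Complex.ofReal_re]
  rw [h2]
  have hint : Integrable (fun p : (ι → ℝ) × (ι → ℝ) => ch θ (p.1 - p.2)) (μ.prod μ) :=
    integrable_ch _ (by fun_prop) (by fun_prop)
  have h5 := integral_re hint
  simp only [RCLike.re_eq_complex_re] at h5
  rw [← h5]
  refine integral_congr_ae (ae_of_all _ fun p => ?_)
  exact Complex.exp_ofReal_mul_I_re _






/-! ### Part C3: sums of independent vectors -/

theorem cf_map {Ω : Type*} [MeasurableSpace Ω] (P : Measure Ω) {X : Ω → ι → ℝ}
    (hX : Measurable X) (θ : ι → ℝ) : cf (P.map X) θ = ∫ ω, ch θ (X ω) ∂P := by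
  rw [cf, integral_map hX.aemeasurable]
  exact Continuous.aestronglyMeasurable (by fun_prop)

theorem cf_sum {Ω κ : Type*} [Fintype κ] [MeasurableSpace Ω] (P : Measure Ω)
    [IsProbabilityMeasure P] {X : κ → Ω → ι → ℝ}
    (hX : ∀ k, Measurable (X k)) (hind : iIndepFun X P) (θ : ι → ℝ) :
    cf (P.map fun ω => ∑ k, X k ω) θ = ∏ k, cf (P.map (X k)) θ := by
  rw [cf_map P (by fun_prop)]
  simp only [ch_sum_right, cf_map P (hX _)]
  exact hind.integral_fun_prod_comp (fun k => (hX k).aemeasurable)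
    (f := fun _ x => ch θ x) fun k => Continuous.aestronglyMeasurable (by fun_prop)






/-! ### Part C4: the lower local bound for differences -/

/-- The integer cell of a point. -/
noncomputable def cell (x : ι → ℝ) : ι → ℤ := fun i => ⌊x i⌋

omit [Fintype ι] in
@[fun_prop]
theorem measurable_cell : Measurable (cell : (ι → ℝ) → ι → ℤ) := by
  unfold cell
  exact measurable_pi_lambda _ fun i => Int.measurable_floor.comp (measurable_pi_apply i)

/-- Shifted coincidences are at most as likely as coincidences (countable type version). -/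
theorem shift_coincidence {M : Type*} [Countable M] [AddGroup M] [MeasurableSpace M]
    [MeasurableSingletonClass M] (ρ : Measure M) [IsProbabilityMeasure ρ] (w : M) :
    (ρ.prod ρ) {p | p.1 - p.2 = w} ≤ (ρ.prod ρ) {p | p.1 = p.2} := by
  have key : ∀ w : M, (ρ.prod ρ) {p : M × M | p.1 - p.2 = w} =
      ∑' m : M, ρ {w + m} * ρ {m} := by
    intro w
    have h1 : {p : M × M | p.1 - p.2 = w} = ⋃ m : M, ({w + m} ×ˢ {m} : Set (M × M)) := by
      ext ⟨a, b⟩
      simp only [Set.mem_ofPred_eq, Set.mem_iUnion, Set.mem_prod, Set.mem_singleton_iff,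
        sub_eq_iff_eq_add]
      constructor
      · intro h; exact ⟨b, h, rfl⟩
      · rintro ⟨m, h, rfl⟩; exact h
    rw [h1, measure_iUnion]
    · refine tsum_congr fun m => ?_
      rw [Measure.prod_prod]
    · intro a b hab
      simp only [Function.onFun]
      rw [Set.disjoint_left]
      rintro ⟨x, y⟩ ⟨_, hy⟩ ⟨_, hy'⟩
      simp only [mem_singleton_iff] at hy hy'
      exact hab (hy.symm.trans hy')
    · intro m
      exact (measurableSet_singleton _).prod (measurableSet_singleton _)
  have h0 : {p : M × M | p.1 = p.2} = {p : M × M | p.1 - p.2 = 0} := by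
    ext p; simp [sub_eq_zero]
  rw [h0, key w, key 0]
  simp only [zero_add]
  have h2 : ∀ a b : ℝ≥0∞, 2 * (a * b) ≤ a * a + b * b := by
    intro a b
    rcases le_total a b with hab | hab
    · obtain ⟨c, rfl⟩ := exists_add_of_le hab
      have : a * a + (a + c) * (a + c) = 2 * (a * (a + c)) + c * c := by ring
      rw [this]; exact le_self_add
    · obtain ⟨c, rfl⟩ := exists_add_of_le hab
      have : (b + c) * (b + c) + b * b = 2 * ((b + c) * b) + c * c := by ring
      rw [this]; exact le_self_add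
  have h3 : 2 * ∑' m : M, ρ {w + m} * ρ {m} ≤ 2 * ∑' m : M, ρ {m} * ρ {m} := by
    calc 2 * ∑' m : M, ρ {w + m} * ρ {m} = ∑' m : M, 2 * (ρ {w + m} * ρ {m}) :=
          ENNReal.tsum_mul_left.symm
      _ ≤ ∑' m : M, (ρ {w + m} * ρ {w + m} + ρ {m} * ρ {m}) := ENNReal.tsum_le_tsum fun m => h2 _ _
      _ = (∑' m : M, ρ {w + m} * ρ {w + m}) + ∑' m : M, ρ {m} * ρ {m} := ENNReal.tsum_add
      _ = (∑' m : M, ρ {m} * ρ {m}) + ∑' m : M, ρ {m} * ρ {m} := by
          congr 1
          exact (Equiv.addLeft w).tsum_eq fun m => ρ {m} * ρ {m}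
      _ = 2 * ∑' m : M, ρ {m} * ρ {m} := (two_mul _).symm
  exact (ENNReal.mul_le_mul_iff_right (by norm_num) (by norm_num)).1 h3

/-- **Lower local bound for differences (B3(b)).**  Any box of radius `R` has at most
`(2R+3)^D` times the mass of the unit box, for the difference of two independent copies. -/
theorem diff_box_le (ν : Measure (ι → ℝ)) [IsProbabilityMeasure ν] (z : ι → ℝ) {R : ℝ}
    (hR : 0 ≤ R) :
    (ν.prod ν).real {p | p.1 - p.2 ∈ box z R} ≤
      (2 * R + 3) ^ Fintype.card ι * (ν.prod ν).real {p | p.1 - p.2 ∈ box 0 1} := by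
  classical
  have hmc : Measurable (cell : (ι → ℝ) → ι → ℤ) := measurable_cell
  have hpr : IsProbabilityMeasure (ν.map cell) :=
    Measure.isProbabilityMeasure_map hmc.aemeasurable
  set T : Finset (ι → ℤ) := Fintype.piFinset fun i => Finset.Icc ⌈z i - R - 1⌉ ⌊z i + R + 1⌋ with hT
  -- coincidences
  have hprod : (ν.prod ν).map (Prod.map cell cell) = (ν.map cell).prod (ν.map cell) :=
    (Measure.map_prod_map ν ν hmc hmc).symm
  have hmm : Measurable (Prod.map cell cell : (ι → ℝ) × (ι → ℝ) → (ι → ℤ) × (ι → ℤ)) :=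
    hmc.prodMap hmc
  have hw : ∀ w : ι → ℤ, (ν.prod ν).real {p | cell p.1 - cell p.2 = w} ≤
      (ν.prod ν).real {p | p.1 - p.2 ∈ box 0 1} := by
    intro w
    have h1 : (ν.prod ν).real {p | cell p.1 - cell p.2 = w} ≤
        (ν.prod ν).real {p | cell p.1 = cell p.2} := by
      rw [measureReal_def, measureReal_def]
      refine ENNReal.toReal_mono (measure_ne_top _ _) ?_
      have h2 := shift_coincidence (ν.map cell) w
      rw [← hprod, Measure.map_apply hmm (Set.to_countable _).measurableSet,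
        Measure.map_apply hmm (Set.to_countable _).measurableSet] at h2
      exact h2
    refine h1.trans (measureReal_mono ?_)
    intro p hp i
    have h3 : ⌊p.1 i⌋ = ⌊p.2 i⌋ := congrFun hp i
    simp only [Pi.sub_apply, Pi.zero_apply, sub_zero]
    exact (Int.abs_sub_lt_one_of_floor_eq_floor h3).le
  have hsub : {p : (ι → ℝ) × (ι → ℝ) | p.1 - p.2 ∈ box z R} ⊆
      ⋃ w ∈ T, {p | cell p.1 - cell p.2 = w} := by
    intro p hp
    simp only [Set.mem_iUnion, Set.mem_ofPred_eq, exists_prop, exists_eq_right']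
    rw [hT, Fintype.mem_piFinset]
    intro i
    have h1 := abs_le.1 (hp i)
    simp only [Pi.sub_apply] at h1
    have h2 := Int.floor_le (p.1 i)
    have h3 := Int.lt_floor_add_one (p.1 i)
    have h4 := Int.floor_le (p.2 i)
    have h5 := Int.lt_floor_add_one (p.2 i)
    rw [Finset.mem_Icc]
    simp only [cell, Pi.sub_apply]
    constructor
    · rw [Int.ceil_le]; push_cast; linarith [h1.1]
    · rw [Int.le_floor]; push_cast; linarith [h1.2]
  have hcard : (T.card : ℝ) ≤ (2 * R + 3) ^ Fintype.card ι := by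
    rw [hT, Fintype.card_piFinset]
    push_cast
    rw [← Finset.card_univ, ← Finset.prod_const]
    refine Finset.prod_le_prod (fun _ _ => by positivity) fun i _ => ?_
    rw [Int.card_Icc]
    have h1 : (⌈z i - R - 1⌉ : ℝ) ≥ z i - R - 1 := Int.le_ceil _
    have h2 : (⌊z i + R + 1⌋ : ℝ) ≤ z i + R + 1 := Int.floor_le _
    have h3 : (((⌊z i + R + 1⌋ + 1 - ⌈z i - R - 1⌉).toNat : ℤ) : ℝ) ≤ 2 * R + 3 := by
      rw [Int.toNat_eq_max]
      push_cast
      rcases le_total ((⌊z i + R + 1⌋ : ℝ) + 1 - ⌈z i - R - 1⌉) 0 with h | h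
      · rw [max_eq_right h]; linarith
      · rw [max_eq_left h]; linarith
    exact_mod_cast h3
  calc (ν.prod ν).real {p | p.1 - p.2 ∈ box z R}
      ≤ (ν.prod ν).real (⋃ w ∈ T, {p | cell p.1 - cell p.2 = w}) :=
        measureReal_mono hsub (measure_ne_top _ _)
    _ ≤ ∑ w ∈ T, (ν.prod ν).real {p | cell p.1 - cell p.2 = w} := measureReal_biUnion_finset_le _ _
    _ ≤ ∑ _w ∈ T, (ν.prod ν).real {p | p.1 - p.2 ∈ box 0 1} := Finset.sum_le_sum fun w _ => hw w
    _ = T.card * (ν.prod ν).real {p | p.1 - p.2 ∈ box 0 1} := by simp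
    _ ≤ _ := by
        gcongr

end Crest.Agent.R154.Conc412
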