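import Crest.Agent.R154.ContA_424

-- ▼ part R154/ContB_424
section

/-! Row 154, B4, walker side (helper424), part B: the grid, deterministic lemmas. -/

set_option autoImplicit false
set_option linter.unusedVariables false

namespace Crest.Agent.R154

open MeasureTheory ProbabilityTheory Crest.ProbabilityR.RandomEnvironment
open scoped ENNReal

namespace Cont

variable {d : ℕ} {Ω : Type} [MeasurableSpace Ω]

/-- data of the contact inequality: walk space with reading times, range `R`, level function,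
grid of levels `Lv 0 ≤ … ≤ Lv M`, death time `D`, a set `E` and centres `c k`. -/
structure Grid (d : ℕ) (Ω : Type) [MeasurableSpace Ω] where
  /-- walk space -/
  W : WalkSpace d Ω
  /-- reading times -/
  rd : Ω → ℕ → Prop
  /-- range -/
  R : ℕ
  /-- level of a site -/
  lev : Site d → ℤ
  /-- grid levels -/
  Lv : ℕ → ℤ
  /-- number of grid levels -/
  M : ℕ
  /-- death time -/
  D : Ω → ℕ∞
  /-- target set for displacements -/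
  E : Set (Site d)
  /-- centres -/
  c : ℕ → Site d

namespace Grid

variable (𝒢 : Grid d Ω)

/-- first time at level `≥ Lv j`. -/
noncomputable def tau (j : ℕ) (X : Ω) : ℕ∞ := ft fun n => 𝒢.Lv j ≤ 𝒢.lev (𝒢.W.pos X n)

/-- stage `j` (stopped at death). -/
noncomputable def S (j : ℕ) (X : Ω) : ℕ∞ := min (𝒢.tau j X) (𝒢.D X)

/-- position at the first hit of level `Lv j`. -/
noncomputable def U (j : ℕ) (X : Ω) : Site d := 𝒢.W.pos X (𝒢.tau j X).toNat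

/-- rows read before stage `j`. -/
def V (j : ℕ) (X : Ω) : Set (Site d) := rows 𝒢.W 𝒢.rd X (𝒢.S j X)

/-- good path: alive at stage `M`, no backtrack over a window. -/
def Gd (X : Ω) : Prop :=
  𝒢.tau 𝒢.M X < 𝒢.D X ∧ ∀ j < 𝒢.M, ∀ n : ℕ, 𝒢.tau (j + 1) X ≤ n → (n : ℕ∞) ≤ 𝒢.tau 𝒢.M X →
    𝒢.Lv j ≤ 𝒢.lev (𝒢.W.pos X n)

/-- alive at stage `1` but not good. -/
def NG (X : Ω) : Prop := 𝒢.tau 1 X < 𝒢.D X ∧ ¬ 𝒢.Gd X

/-- natural displacement in window `k`. -/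
def Nt (k : ℕ) (X : Ω) : Prop := 𝒢.U (k + 7) X - 𝒢.U k X - 𝒢.c k ∈ 𝒢.E

/-- `T` (before `S M T`) reads a row within distance `R` of a row read by `X` before stage `j`. -/
def JS (j : ℕ) (X T : Ω) : Prop := kap 𝒢.W 𝒢.rd 𝒢.R (𝒢.V j X) T < 𝒢.S 𝒢.M T

/-- reach level `Lv (k+7)` inside `y + c k + E` without going below `Lv (k+1)`. -/
def RI (k : ℕ) (y : Site d) : Set (Path d) :=
  {Y | ∃ m, 𝒢.Lv (k + 7) ≤ 𝒢.lev (Y m) ∧ (∀ i < m, 𝒢.lev (Y i) < 𝒢.Lv (k + 7)) ∧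
    (∀ i ≤ m, 𝒢.Lv (k + 1) ≤ 𝒢.lev (Y i)) ∧ Y m - y - 𝒢.c k ∈ 𝒢.E}

/-- closeness of the exit of `X` and the entry of `T` in window `k`, before any contact. -/
def Ek (k : ℕ) (X T : Ω) : Prop :=
  𝒢.tau (k + 7) X < 𝒢.D X ∧ 𝒢.tau k T < 𝒢.D T ∧
    𝒢.tau k T ≤ kap 𝒢.W 𝒢.rd 𝒢.R (𝒢.V (k + 7) X) T ∧ 𝒢.U (k + 7) X - 𝒢.U k T - 𝒢.c k ∈ 𝒢.E

/-- standing assumptions. -/
structure Ok : Prop where
  hrd : RdSpace 𝒢.W 𝒢.rd
  mono : Monotone 𝒢.Lv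
  sep : ∀ a z : Site d, (∀ i, |a i - z i| ≤ (𝒢.R : ℤ)) → ∀ j, 𝒢.Lv (j + 1) ≤ 𝒢.lev a →
    𝒢.Lv j ≤ 𝒢.lev z
  stopD : 𝒢.W.IsStop 𝒢.D
  dead : ∀ (X : Ω) (m : ℕ), 𝒢.D X = m → 𝒢.tau 1 X ≤ m → 𝒢.lev (𝒢.W.pos X m) < 𝒢.Lv 0

variable {𝒢} (h𝒢 : 𝒢.Ok)

include h𝒢 in
lemma tau_mono {i j : ℕ} (h : i ≤ j) (X : Ω) : 𝒢.tau i X ≤ 𝒢.tau j X :=
  ft_mono fun _ hn => (h𝒢.mono h).trans hn

lemma isStop_tau (j : ℕ) : 𝒢.W.IsStop (𝒢.tau j) :=
  isStop_ft (p := fun X n => 𝒢.Lv j ≤ 𝒢.lev (𝒢.W.pos X n)) fun n X Y h => by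
    simp only [𝒢.W.pos_det n X Y h]

include h𝒢 in
lemma isStop_S (j : ℕ) : 𝒢.W.IsStop (𝒢.S j) := isStop_min (isStop_tau j) h𝒢.stopD

include h𝒢 in
lemma S_mono {i j : ℕ} (h : i ≤ j) (X : Ω) : 𝒢.S i X ≤ 𝒢.S j X :=
  min_le_min (tau_mono h𝒢 h X) le_rfl

lemma S_le_tau (j : ℕ) (X : Ω) : 𝒢.S j X ≤ 𝒢.tau j X := min_le_left _ _

lemma S_le_D (j : ℕ) (X : Ω) : 𝒢.S j X ≤ 𝒢.D X := min_le_right _ _

lemma lev_lt_of_lt_tau {j n : ℕ} {X : Ω} (h : (n : ℕ∞) < 𝒢.tau j X) :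
    𝒢.lev (𝒢.W.pos X n) < 𝒢.Lv j := not_le.1 (not_of_lt_ft h)

lemma tau_le_of_le_lev {j n : ℕ} {X : Ω} (h : 𝒢.Lv j ≤ 𝒢.lev (𝒢.W.pos X n)) :
    𝒢.tau j X ≤ n := ft_le h

lemma le_lev_of_tau_eq {j n : ℕ} {X : Ω} (h : 𝒢.tau j X = n) :
    𝒢.Lv j ≤ 𝒢.lev (𝒢.W.pos X n) := ft_spec (p := fun n => 𝒢.Lv j ≤ 𝒢.lev (𝒢.W.pos X n)) h

include h𝒢 in
lemma S_eq_tau_of_lt {j : ℕ} {X : Ω} (h : 𝒢.tau j X < 𝒢.D X) : 𝒢.S j X = 𝒢.tau j X :=
  min_eq_left h.le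

include h𝒢 in
lemma Gd.S_eq {X : Ω} (h : 𝒢.Gd X) {j : ℕ} (hj : j ≤ 𝒢.M) : 𝒢.S j X = 𝒢.tau j X :=
  S_eq_tau_of_lt h𝒢 (lt_of_le_of_lt (tau_mono h𝒢 hj X) h.1)

include h𝒢 in
lemma V_mono {i j : ℕ} (h : i ≤ j) (X : Ω) : 𝒢.V i X ⊆ 𝒢.V j X := rows_mono (S_mono h𝒢 h X)

include h𝒢 in
lemma JS_mono {i j : ℕ} (h : i ≤ j) {X T : Ω} (hJ : 𝒢.JS i X T) : 𝒢.JS j X T :=
  lt_of_le_of_lt (kap_anti (V_mono h𝒢 h X) T) hJ

/-- the contact made at stage exactly `j + 1`. -/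
lemma JS_step {j : ℕ} {X T : Ω} (h1 : 𝒢.JS (j + 1) X T) (h0 : ¬ 𝒢.JS j X T) :
    ∃ n i : ℕ, kap 𝒢.W 𝒢.rd 𝒢.R (𝒢.V (j + 1) X) T = n ∧ (n : ℕ∞) < 𝒢.S 𝒢.M T ∧ 𝒢.rd T n ∧
      𝒢.rd X i ∧ 𝒢.S j X ≤ i ∧ (i : ℕ∞) < 𝒢.S (j + 1) X ∧
      ∀ l, |𝒢.W.pos X i l - 𝒢.W.pos T n l| ≤ (𝒢.R : ℤ) := by
  obtain ⟨n, hn⟩ := exists_nat_of_lt h1
  obtain ⟨hT, a, ⟨i, hi, hX, rfl⟩, hnear⟩ := kap_spec hn
  have hn' : (n : ℕ∞) < 𝒢.S 𝒢.M T := hn ▸ h1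
  refine ⟨n, i, hn, hn', hT, hX, ?_, hi, hnear⟩
  by_contra hlt
  rw [not_le] at hlt
  apply h0
  unfold JS
  rw [kap_lt_iff]
  exact ⟨n, hn', hT, _, ⟨i, hlt, hX, rfl⟩, hnear⟩

lemma alive_of {j i : ℕ} {X : Ω} (h : 𝒢.S j X ≤ i) (h' : (i : ℕ∞) < 𝒢.S (j + 1) X) :
    𝒢.tau j X ≤ i ∧ (i : ℕ∞) < 𝒢.tau (j + 1) X ∧ (i : ℕ∞) < 𝒢.D X := by
  have h1 : (i : ℕ∞) < 𝒢.D X := lt_of_lt_of_le h' (S_le_D _ _)
  refine ⟨?_, lt_of_lt_of_le h' (S_le_tau _ _), h1⟩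
  rcases min_le_iff.1 h with h2 | h2
  · exact h2
  · exact absurd (lt_of_lt_of_le h1 h2) (lt_irrefl _)

include h𝒢 in
/-- a contact at stage `≥ 2` by a bad path makes it `NG`. -/
lemma NG_of {j : ℕ} {X T : Ω} (hj : 1 ≤ j) (h1 : 𝒢.JS (j + 1) X T) (h0 : ¬ 𝒢.JS j X T)
    (hg : ¬ 𝒢.Gd X) : 𝒢.NG X := by
  obtain ⟨n, i, _, _, _, _, h2, h3, _⟩ := JS_step h1 h0
  obtain ⟨h4, _, h5⟩ := alive_of h2 h3
  exact ⟨lt_of_le_of_lt ((tau_mono h𝒢 hj X).trans h4) h5, hg⟩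

include h𝒢 in
/-- geometry of a contact between good paths. -/
lemma geo {k : ℕ} (hk : k + 7 ≤ 𝒢.M) {X T : Ω} (hX : 𝒢.Gd X) (hT : 𝒢.Gd T) {n i : ℕ}
    (hi : 𝒢.tau (k + 4) X ≤ i) (hi' : (i : ℕ∞) < 𝒢.tau (k + 5) X) (hn : (n : ℕ∞) < 𝒢.tau 𝒢.M T)
    (hnear : ∀ l, |𝒢.W.pos X i l - 𝒢.W.pos T n l| ≤ (𝒢.R : ℤ)) :
    𝒢.Lv (k + 2) ≤ 𝒢.lev (𝒢.W.pos T n) ∧ 𝒢.lev (𝒢.W.pos T n) < 𝒢.Lv (k + 6) ∧
      𝒢.tau (k + 2) T ≤ n ∧ (n : ℕ∞) < 𝒢.tau (k + 7) T := by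
  have hnear' : ∀ l, |𝒢.W.pos T n l - 𝒢.W.pos X i l| ≤ (𝒢.R : ℤ) := fun l => by
    rw [abs_sub_comm]; exact hnear l
  have h1 : 𝒢.Lv (k + 3) ≤ 𝒢.lev (𝒢.W.pos X i) :=
    hX.2 (k + 3) (by omega) i hi (hi'.le.trans (tau_mono h𝒢 (by omega) X))
  have h2 : 𝒢.lev (𝒢.W.pos X i) < 𝒢.Lv (k + 5) := lev_lt_of_lt_tau hi'
  have h3 : 𝒢.Lv (k + 2) ≤ 𝒢.lev (𝒢.W.pos T n) := h𝒢.sep _ _ hnear (k + 2) h1
  have h4 : 𝒢.lev (𝒢.W.pos T n) < 𝒢.Lv (k + 6) := by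
    by_contra h
    rw [not_lt] at h
    have := h𝒢.sep _ _ hnear' (k + 5) h
    omega
  refine ⟨h3, h4, tau_le_of_le_lev h3, ?_⟩
  by_contra h
  rw [not_lt] at h
  have := hT.2 (k + 6) (by omega) n h hn.le
  omega

include h𝒢 in
lemma shp_mem_RI {k : ℕ} (hk : k + 7 ≤ 𝒢.M) {T : Ω} (hT : 𝒢.Gd T) (hN : 𝒢.Nt k T) {n : ℕ}
    (h1 : 𝒢.tau (k + 2) T ≤ n) (h2 : (n : ℕ∞) < 𝒢.tau (k + 7) T) :
    shp 𝒢.W n T ∈ 𝒢.RI k (𝒢.U k T) := by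
  have hM : 𝒢.tau (k + 7) T ≤ 𝒢.tau 𝒢.M T := tau_mono h𝒢 hk T
  obtain ⟨m, hm⟩ := exists_nat_of_lt (lt_of_le_of_lt hM hT.1)
  rw [hm] at h2 hM
  have hnm : n < m := by exact_mod_cast h2
  refine ⟨m - n, ?_, ?_, ?_, ?_⟩
  · have := le_lev_of_tau_eq hm
    simp only [shp]
    rwa [show n + (m - n) = m by omega]
  · intro i hi
    simp only [shp]
    refine lev_lt_of_lt_tau ?_
    rw [hm]
    exact_mod_cast (by omega : n + i < m)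
  · intro i hi
    simp only [shp]
    refine hT.2 (k + 1) (by omega) (n + i) (h1.trans ?_) (le_trans ?_ hM)
    · exact_mod_cast Nat.le_add_right n i
    · exact_mod_cast (by omega : n + i ≤ m)
  · simp only [shp]
    rw [show n + (m - n) = m by omega]
    have : 𝒢.U (k + 7) T = 𝒢.W.pos T m := by
      unfold U
      rw [hm, ENat.toNat_natCast]
    rw [← this]
    exact hN

/-- the state of `X` at time `n` is a success state for window `k`. -/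
def Qk (G : Site d → Measure (Path d)) (lam : ℝ≥0∞) (k n : ℕ) (X T : Ω) : Prop :=
  k + 7 ≤ 𝒢.M ∧ 𝒢.rd X n ∧ (n : ℕ∞) < 𝒢.S (k + 5) X ∧ 𝒢.tau k T < 𝒢.D T ∧
    𝒢.tau k T ≤ kap 𝒢.W 𝒢.rd 𝒢.R (𝒢.W.read X (n + 1)) T ∧
    lam < G (𝒢.W.pos X n) (𝒢.RI k (𝒢.U k T))

include h𝒢 in
lemma Ek_of_Qk {G : Site d → Measure (Path d)} {lam : ℝ≥0∞} {k n : ℕ} {X T : Ω}
    (hQ : 𝒢.Qk G lam k n X T) (hR : shp 𝒢.W n X ∈ 𝒢.RI k (𝒢.U k T)) : 𝒢.Ek k X T := by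
  obtain ⟨hk, hrd, hn, hT, hkap, -⟩ := hQ
  obtain ⟨m, hm1, hm2, hm3, hm4⟩ := hR
  simp only [shp] at hm1 hm2 hm3 hm4
  have hn5 : (n : ℕ∞) < 𝒢.tau (k + 5) X := lt_of_lt_of_le hn (S_le_tau _ _)
  have htau : 𝒢.tau (k + 7) X = ((n + m : ℕ) : ℕ∞) := by
    refine ft_eq_of (p := fun n => 𝒢.Lv (k + 7) ≤ 𝒢.lev (𝒢.W.pos X n)) hm1 fun i hi => ?_
    rw [not_le]
    rcases Nat.lt_or_ge i n with h | h
    · have h1 : (i : ℕ∞) < 𝒢.tau (k + 5) X := lt_trans (by exact_mod_cast h) hn5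
      exact lt_of_lt_of_le (lev_lt_of_lt_tau h1) (h𝒢.mono (by omega))
    · have := hm2 (i - n) (by omega)
      rwa [show n + (i - n) = i by omega] at this
  have hlev : ∀ i, n ≤ i → i ≤ n + m → 𝒢.Lv (k + 1) ≤ 𝒢.lev (𝒢.W.pos X i) := by
    intro i h1 h2
    have := hm3 (i - n) (by omega)
    rwa [show n + (i - n) = i by omega] at this
  have hD : ((n + m : ℕ) : ℕ∞) < 𝒢.D X := by
    by_contra h
    rw [not_lt] at h
    obtain ⟨q, hq⟩ := ENat.ne_top_iff_exists.1 (ne_top_of_le_ne_top (ENat.natCast_ne_top _) h)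
    rw [← hq] at h
    have hqm : q ≤ n + m := by exact_mod_cast h
    have hnq : n < q := by
      have := lt_of_lt_of_le hn (S_le_D _ _)
      rw [← hq] at this
      exact_mod_cast this
    have h1 := hlev q hnq.le hqm
    have h2 : 𝒢.tau 1 X ≤ q := tau_le_of_le_lev ((h𝒢.mono (by omega)).trans h1)
    have h3 := h𝒢.dead X q hq.symm h2
    have h4 := h𝒢.mono (Nat.zero_le (k + 1))
    omega
  refine ⟨htau ▸ hD, hT, ?_, ?_⟩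
  · refine le_ft fun i hi => ?_
    obtain ⟨h1, h2⟩ := hi
    obtain ⟨a, ⟨l, hl, hrl, rfl⟩, hnear⟩ := not_far_iff.1 h2
    rw [S_eq_tau_of_lt h𝒢 (htau ▸ hD), htau] at hl
    have hl' : l < n + m := by exact_mod_cast hl
    rcases Nat.lt_or_ge n l with h3 | h3
    · refine tau_le_of_le_lev ?_
      exact h𝒢.sep _ _ hnear k (hlev l h3.le hl'.le)
    · refine hkap.trans (ft_le ⟨h1, not_far_iff.2 ⟨_, ?_, hnear⟩⟩)
      exact (h𝒢.hrd.read_iff X (n + 1) _).2 ⟨l, by omega, hrl, rfl⟩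
  · have : 𝒢.U (k + 7) X = 𝒢.W.pos X (n + m) := by
      unfold U
      rw [htau, ENat.toNat_natCast]
    rw [this]
    exact hm4

include h𝒢 in
/-- a contact of good paths with `e > lam` gives a success state of `X`. -/
lemma Qk_of_contact {G : Site d → Measure (Path d)} {lam h₀ : ℝ≥0∞} (h0 : h₀ ≠ 0) (h0' : h₀ ≠ ⊤)
    {k : ℕ} (hk : k + 7 ≤ 𝒢.M) {X T : Ω} (hX : 𝒢.Gd X) (hT : 𝒢.Gd T) {n i : ℕ}
    (hkap : kap 𝒢.W 𝒢.rd 𝒢.R (𝒢.V (k + 5) X) T = n) (hrdX : 𝒢.rd X i)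
    (hi : 𝒢.tau (k + 4) X ≤ i) (hi' : (i : ℕ∞) < 𝒢.tau (k + 5) X) (hn : (n : ℕ∞) < 𝒢.tau 𝒢.M T)
    (hnear : ∀ l, |𝒢.W.pos X i l - 𝒢.W.pos T n l| ≤ (𝒢.R : ℤ))
    (hH : ∀ a z : Site d, (∀ l, |a l - z l| ≤ (𝒢.R : ℤ)) → 𝒢.Lv (k + 2) ≤ 𝒢.lev z →
      𝒢.lev z < 𝒢.Lv (k + 6) → ∀ y, h₀ * G z (𝒢.RI k y) ≤ G a (𝒢.RI k y))
    (he : lam < G (𝒢.W.pos T n) (𝒢.RI k (𝒢.U k T))) :
    𝒢.Qk G (h₀ * lam) k i X T := by
  obtain ⟨g1, g2, g3, g4⟩ := geo h𝒢 hk hX hT hi hi' hn hnear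
  have hS5 : 𝒢.S (k + 5) X = 𝒢.tau (k + 5) X := hX.S_eq h𝒢 (by omega)
  refine ⟨hk, hrdX, by rw [hS5]; exact hi', ?_, ?_, ?_⟩
  · exact lt_of_le_of_lt (tau_mono h𝒢 (by omega) T) hT.1
  · have h1 : 𝒢.tau k T ≤ n := (tau_mono h𝒢 (by omega) T).trans g3
    have h2 : kap 𝒢.W 𝒢.rd 𝒢.R (𝒢.V (k + 5) X) T
        ≤ kap 𝒢.W 𝒢.rd 𝒢.R (𝒢.W.read X (i + 1)) T := by
      refine kap_anti ?_ T
      intro z hz
      obtain ⟨l, hl, hrl, hz⟩ := (h𝒢.hrd.read_iff X (i + 1) z).1 hz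
      refine ⟨l, ?_, hrl, hz⟩
      rw [hS5]
      exact lt_of_le_of_lt (by exact_mod_cast (by omega : l ≤ i)) hi'
    rw [hkap] at h2
    exact h1.trans h2
  · calc h₀ * lam < h₀ * G (𝒢.W.pos T n) (𝒢.RI k (𝒢.U k T)) := by
          rw [ENNReal.mul_lt_mul_iff_right h0 h0']
          exact he
      _ ≤ _ := hH _ _ hnear g1 g2 _

end Grid

end Cont

end Crest.Agent.R154
end

-- ▼ part R154/ContC_424
section

/-! Row 154, B4, walker side (helper424), part C: the estimate in a fixed environment. -/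

set_option autoImplicit false
set_option linter.unusedVariables false
set_option linter.unusedSectionVars false

namespace Crest.Agent.R154

open MeasureTheory ProbabilityTheory Crest.ProbabilityR.RandomEnvironment
open scoped ENNReal

namespace Cont

variable {d : ℕ} {Ω : Type} [MeasurableSpace Ω]

namespace Grid

variable {𝒢 : Grid d Ω} (h𝒢 : 𝒢.Ok)

/-! ### determinism -/

include h𝒢 in
lemma Gd.congr {X Y : Ω} (hX : 𝒢.Gd X) (h : Ag 𝒢.W (𝒢.tau 𝒢.M X) X Y) : 𝒢.Gd Y := by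
  have e1 : 𝒢.tau 𝒢.M Y = 𝒢.tau 𝒢.M X := h.stop_eq (isStop_tau _) le_rfl
  refine ⟨?_, fun j hj n h1 h2 => ?_⟩
  · rw [e1]
    exact h.lt_stop h𝒢.stopD hX.1
  · rw [e1] at h2
    rw [← h.pos h2]
    refine hX.2 j hj n ?_ h2
    exact (h.pdet (pdet_stop_le (isStop_tau (𝒢 := 𝒢) (j + 1))) h2).2 h1

lemma U_congr {X Y : Ω} {j : ℕ} {t : ℕ∞} (h : Ag 𝒢.W t X Y) (hj : 𝒢.tau j X ≤ t)
    (hfin : 𝒢.tau j X ≠ ⊤) : 𝒢.U j Y = 𝒢.U j X := by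
  have e1 : 𝒢.tau j Y = 𝒢.tau j X := h.stop_eq (isStop_tau _) hj
  obtain ⟨m, hm⟩ := ENat.ne_top_iff_exists.1 hfin
  unfold U
  rw [e1, ← hm, ENat.toNat_natCast]
  exact (h.pos (hm ▸ hj)).symm

include h𝒢 in
lemma Gd.U_congr {X Y : Ω} (hX : 𝒢.Gd X) (h : Ag 𝒢.W (𝒢.tau 𝒢.M X) X Y) {j : ℕ}
    (hj : j ≤ 𝒢.M) : 𝒢.U j Y = 𝒢.U j X := by
  have h1 := tau_mono h𝒢 hj X
  exact Grid.U_congr h h1 (ne_top_of_lt (lt_of_le_of_lt h1 hX.1))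

include h𝒢 in
lemma V_congr {X Y : Ω} {j : ℕ} (h : Ag 𝒢.W (𝒢.S j X) X Y) : 𝒢.V j Y = 𝒢.V j X := by
  unfold V
  rw [h.stop_eq (isStop_S h𝒢 j) le_rfl]
  exact (h.rows_eq h𝒢.hrd.det).symm

lemma kap_lt_congr (hrd : PDet 𝒢.W 𝒢.rd) {V : Set (Site d)} {T T' : Ω} {t : ℕ∞}
    (h : Ag 𝒢.W t T T') : kap 𝒢.W 𝒢.rd 𝒢.R V T < t ↔ kap 𝒢.W 𝒢.rd 𝒢.R V T' < t := by
  constructor
  · intro h1
    rw [h.stop_eq (isStop_kap hrd V) h1.le]
    exact h1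
  · intro h1
    rw [h.symm.stop_eq (isStop_kap hrd V) h1.le]
    exact h1

include h𝒢 in
lemma JS_congr {X X' T T' : Ω} {j : ℕ} (h : Ag 𝒢.W (𝒢.S j X) X X')
    (h' : Ag 𝒢.W (𝒢.S 𝒢.M T) T T') : 𝒢.JS j X T ↔ 𝒢.JS j X' T' := by
  unfold JS
  rw [V_congr h𝒢 h, h'.stop_eq (isStop_S h𝒢 𝒢.M) le_rfl]
  exact kap_lt_congr h𝒢.hrd.det h'

include h𝒢 in
lemma Ek.congr {X X' T T' : Ω} {k : ℕ} (hE : 𝒢.Ek k X T) (h : Ag 𝒢.W (𝒢.S (k + 7) X) X X')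
    (h' : Ag 𝒢.W (𝒢.S k T) T T') : 𝒢.Ek k X' T' := by
  obtain ⟨h1, h2, h3, h4⟩ := hE
  have e1 := S_eq_tau_of_lt h𝒢 h1
  have e2 := S_eq_tau_of_lt h𝒢 h2
  rw [e2] at h'
  have e3 : 𝒢.V (k + 7) X' = 𝒢.V (k + 7) X := V_congr h𝒢 h
  rw [e1] at h
  have e4 : 𝒢.tau (k + 7) X' = 𝒢.tau (k + 7) X := h.stop_eq (isStop_tau _) le_rfl
  have e5 : 𝒢.tau k T' = 𝒢.tau k T := h'.stop_eq (isStop_tau _) le_rfl
  refine ⟨?_, ?_, ?_, ?_⟩
  · rw [e4]; exact h.lt_stop h𝒢.stopD h1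
  · rw [e5]; exact h'.lt_stop h𝒢.stopD h2
  · rw [e3, e5]
    rw [← not_lt] at h3 ⊢
    exact fun h6 => h3 ((kap_lt_congr h𝒢.hrd.det h').2 h6)
  · rw [U_congr h le_rfl (ne_top_of_lt h1), U_congr h' le_rfl (ne_top_of_lt h2)]
    exact h4

include h𝒢 in
lemma Qk.congr {G : Site d → Measure (Path d)} {lam : ℝ≥0∞} {k n : ℕ} {X X' T T' : Ω}
    (hQ : 𝒢.Qk G lam k n X T) (h : 𝒢.W.hist n X = 𝒢.W.hist n X')
    (h' : Ag 𝒢.W (𝒢.S k T) T T') : 𝒢.Qk G lam k n X' T' := by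
  obtain ⟨hk, hrd, hn, hT, hkap, hlam⟩ := hQ
  have hA := ag_of_hist (W := 𝒢.W) h
  rw [S_eq_tau_of_lt h𝒢 hT] at h'
  have e5 : 𝒢.tau k T' = 𝒢.tau k T := h'.stop_eq (isStop_tau _) le_rfl
  have er : 𝒢.W.read X' (n + 1) = 𝒢.W.read X (n + 1) := by
    ext z
    rw [h𝒢.hrd.read_iff, h𝒢.hrd.read_iff]
    constructor
    · rintro ⟨i, hi, h1, h2⟩
      have hi' : (i : ℕ∞) ≤ n := by exact_mod_cast (by omega : i ≤ n)
      exact ⟨i, hi, (hA.pdet h𝒢.hrd.det hi').2 h1, by rw [hA.pos hi']; exact h2⟩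
    · rintro ⟨i, hi, h1, h2⟩
      have hi' : (i : ℕ∞) ≤ n := by exact_mod_cast (by omega : i ≤ n)
      exact ⟨i, hi, (hA.pdet h𝒢.hrd.det hi').1 h1, by rw [← hA.pos hi']; exact h2⟩
  refine ⟨hk, (hA.pdet h𝒢.hrd.det le_rfl).1 hrd, hA.lt_stop (isStop_S h𝒢 _) hn, ?_, ?_, ?_⟩
  · rw [e5]; exact h'.lt_stop h𝒢.stopD hT
  · rw [er, e5]
    rw [← not_lt] at hkap ⊢
    exact fun h6 => hkap ((kap_lt_congr h𝒢.hrd.det h').2 h6)
  · rw [U_congr h' le_rfl (ne_top_of_lt hT), ← hA.pos le_rfl]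
    exact hlam

/-! ### the sets -/

/-- contact of good paths at stage `k+5`, `T` natural in window `k`. -/
def UU (𝒢 : Grid d Ω) : Set (Ω × Ω) :=
  {p | ∃ k, k + 7 ≤ 𝒢.M ∧ 𝒢.JS (k + 5) p.1 p.2 ∧ ¬ 𝒢.JS (k + 4) p.1 p.2 ∧ 𝒢.Gd p.1 ∧ 𝒢.Gd p.2 ∧
    𝒢.Nt k p.2}

/-- closeness in some window. -/
def UE (𝒢 : Grid d Ω) : Set (Ω × Ω) := {p | ∃ k, k + 7 ≤ 𝒢.M ∧ 𝒢.Ek k p.1 p.2}

/-- some success state. -/
def UQ (𝒢 : Grid d Ω) (G : Site d → Measure (Path d)) (lam : ℝ≥0∞) : Set (Ω × Ω) :=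
  {p | ∃ k n, 𝒢.Qk G lam k n p.1 p.2}

include h𝒢 in
lemma measurableSet_UU : MeasurableSet 𝒢.UU := by
  refine measurableSet_of_open_pair 𝒢.W _ ?_
  rintro ⟨X, T⟩ ⟨k, hk, h1, h2, h3, h4, h5⟩
  simp only at h1 h2 h3 h4 h5
  obtain ⟨m, hm⟩ := exists_nat_of_lt h3.1
  obtain ⟨m', hm'⟩ := exists_nat_of_lt h4.1
  refine ⟨max m m', ?_⟩
  rintro ⟨X', T'⟩ hX hT
  simp only at hX hT
  have hA : Ag 𝒢.W (𝒢.tau 𝒢.M X) X X' := by
    rw [hm]; exact (ag_of_hist hX).mono (by exact_mod_cast le_max_left m m')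
  have hA' : Ag 𝒢.W (𝒢.tau 𝒢.M T) T T' := by
    rw [hm']; exact (ag_of_hist hT).mono (by exact_mod_cast le_max_right m m')
  have hSM : Ag 𝒢.W (𝒢.S 𝒢.M T) T T' := by rw [h4.S_eq h𝒢 le_rfl]; exact hA'
  have hS : ∀ j ≤ 𝒢.M, Ag 𝒢.W (𝒢.S j X) X X' := fun j hj => by
    rw [h3.S_eq h𝒢 hj]; exact hA.mono (tau_mono h𝒢 hj X)
  refine ⟨k, hk, ?_, ?_, h3.congr h𝒢 hA, h4.congr h𝒢 hA', ?_⟩
  · exact (JS_congr h𝒢 (hS _ (by omega)) hSM).1 h1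
  · exact fun h => h2 ((JS_congr h𝒢 (hS _ (by omega)) hSM).2 h)
  · unfold Nt
    simp only
    rw [h4.U_congr h𝒢 hA' hk, h4.U_congr h𝒢 hA' (by omega)]
    exact h5

include h𝒢 in
lemma measurableSet_UE : MeasurableSet 𝒢.UE := by
  refine measurableSet_of_open_pair 𝒢.W _ ?_
  rintro ⟨X, T⟩ ⟨k, hk, hE⟩
  simp only at hE
  obtain ⟨m, hm⟩ := exists_nat_of_lt hE.1
  obtain ⟨m', hm'⟩ := exists_nat_of_lt hE.2.1
  refine ⟨max m m', ?_⟩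
  rintro ⟨X', T'⟩ hX hT
  simp only at hX hT
  refine ⟨k, hk, hE.congr h𝒢 ?_ ?_⟩
  · rw [S_eq_tau_of_lt h𝒢 hE.1, hm]
    exact (ag_of_hist hX).mono (by exact_mod_cast le_max_left m m')
  · rw [S_eq_tau_of_lt h𝒢 hE.2.1, hm']
    exact (ag_of_hist hT).mono (by exact_mod_cast le_max_right m m')

include h𝒢 in
lemma measurableSet_UQ (G : Site d → Measure (Path d)) (lam : ℝ≥0∞) :
    MeasurableSet (𝒢.UQ G lam) := by
  refine measurableSet_of_open_pair 𝒢.W _ ?_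
  rintro ⟨X, T⟩ ⟨k, n, hQ⟩
  simp only at hQ
  have hT := hQ.2.2.2.1
  obtain ⟨m, hm⟩ := exists_nat_of_lt hT
  refine ⟨max n m, ?_⟩
  rintro ⟨X', T'⟩ hX hT'
  simp only at hX hT'
  refine ⟨k, n, hQ.congr h𝒢 (𝒢.W.mono _ _ (le_max_left n m) hX) ?_⟩
  rw [S_eq_tau_of_lt h𝒢 hT, hm]
  exact (ag_of_hist hT').mono (by exact_mod_cast le_max_right n m)

lemma measurableSet_RI (k : ℕ) (y : Site d) : MeasurableSet (𝒢.RI k y) := by
  have h : 𝒢.RI k y = ⋃ m : ℕ, {Y | 𝒢.Lv (k + 7) ≤ 𝒢.lev (Y m) ∧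
      (∀ i < m, 𝒢.lev (Y i) < 𝒢.Lv (k + 7)) ∧
      (∀ i ≤ m, 𝒢.Lv (k + 1) ≤ 𝒢.lev (Y i)) ∧ Y m - y - 𝒢.c k ∈ 𝒢.E} := by
    ext Y
    simp [RI]
  rw [h]
  refine MeasurableSet.iUnion fun m => measurableSet_of_agree m _ fun X Y hXY => ?_
  have h0 := hXY m le_rfl
  constructor
  · rintro ⟨h1, h2, h3, h4⟩
    refine ⟨h0 ▸ h1, fun i hi => ?_, fun i hi => ?_, h0 ▸ h4⟩
    · rw [← hXY i hi.le]; exact h2 i hi
    · rw [← hXY i hi]; exact h3 i hi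
  · rintro ⟨h1, h2, h3, h4⟩
    refine ⟨h0 ▸ h1, fun i hi => ?_, fun i hi => ?_, h0 ▸ h4⟩
    · rw [hXY i hi.le]; exact h2 i hi
    · rw [hXY i hi]; exact h3 i hi

/-! ### success of `X` -/

include h𝒢 in
lemma success {P : Measure Ω} {G : Site d → Measure (Path d)} {c₀ lam : ℝ≥0∞}
    (hML : ML 𝒢.W 𝒢.rd P G c₀) (T : Ω) :
    c₀ * lam * P {X | (X, T) ∈ 𝒢.UQ G lam} ≤ P {X | (X, T) ∈ 𝒢.UE} := by
  classical
  set p : Ω → ℕ → Prop := fun X n => ∃ k, 𝒢.Qk G lam k n X T with hp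
  have hpd : PDet 𝒢.W p := fun n X Y h =>
    ⟨fun ⟨k, hk⟩ => ⟨k, hk.congr h𝒢 h (Ag.refl T)⟩, fun ⟨k, hk⟩ => ⟨k, hk.congr h𝒢 h.symm (Ag.refl T)⟩⟩
  set ρ : Ω → ℕ∞ := fun X => ft (p X) with hρ
  have hstop : 𝒢.W.IsStop ρ := isStop_ft hpd
  set B : Set Ω := {X | ρ X ≠ ⊤} with hBdef
  set kk : Ω → ℕ := fun X => sInf {k | 𝒢.Qk G lam k (ρ X).toNat X T} with hkk
  set F : Ω → Set (Path d) := fun X => 𝒢.RI (kk X) (𝒢.U (kk X) T) with hFdef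
  have hspec : ∀ X ∈ B, 𝒢.Qk G lam (kk X) (ρ X).toNat X T := by
    intro X hX
    obtain ⟨n, hn⟩ := ENat.ne_top_iff_exists.1 hX
    have h1 : p X n := ft_spec hn.symm
    have h2 : {k | 𝒢.Qk G lam k (ρ X).toNat X T}.Nonempty := by
      obtain ⟨k, hk⟩ := h1
      refine ⟨k, ?_⟩
      simp only [Set.mem_ofPred_eq]
      rw [← hn, ENat.toNat_natCast]
      exact hk
    exact Nat.sInf_mem h2
  have hB : ∀ X Y (n : ℕ), 𝒢.W.hist n X = 𝒢.W.hist n Y → ρ X = n → X ∈ B → Y ∈ B := by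
    intro X Y n h hn _
    have : ρ Y = n := hstop X Y n h hn
    simp only [hBdef, Set.mem_ofPred_eq, this]
    exact ENat.natCast_ne_top n
  have hF : ∀ X Y (n : ℕ), 𝒢.W.hist n X = 𝒢.W.hist n Y → ρ X = n → X ∈ B → F X = F Y := by
    intro X Y n h hn _
    have hn' : ρ Y = n := hstop X Y n h hn
    have : kk X = kk Y := by
      simp only [hkk, hn, hn', ENat.toNat_natCast]
      congr 1
      ext k
      exact ⟨fun hk => hk.congr h𝒢 h (Ag.refl T), fun hk => hk.congr h𝒢 h.symm (Ag.refl T)⟩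
    simp only [hFdef, this]
  have key := sml (W := 𝒢.W) hstop (B := B) hB (fun X hX => hX) (F := F) hF
    (fun X => measurableSet_RI _ _) (rd := 𝒢.rd) (fun X hX => (hspec X hX).2.1) hML (a := lam)
    (fun X hX => (hspec X hX).2.2.2.2.2.le)
  refine (mul_le_mul_right ?_ (c₀ * lam)).trans (key.trans (measure_mono ?_))
  · refine measure_mono ?_
    rintro X ⟨k, n, hk⟩
    have : ρ X ≤ n := ft_le (p := p X) ⟨k, hk⟩
    exact ne_top_of_le_ne_top (ENat.natCast_ne_top n) this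
  · rintro X ⟨hX, hX2⟩
    have h1 := hspec X hX
    exact ⟨kk X, h1.1, Ek_of_Qk h𝒢 h1 hX2⟩

/-! ### naturality of `T` -/

/-- no backtrack up to time `n`. -/
def PG (𝒢 : Grid d Ω) (T : Ω) (n : ℕ) : Prop :=
  ∀ j < 𝒢.M, ∀ m : ℕ, m ≤ n → 𝒢.tau (j + 1) T ≤ m → 𝒢.Lv j ≤ 𝒢.lev (𝒢.W.pos T m)

lemma pdet_PG : PDet 𝒢.W 𝒢.PG := by
  intro n X Y h
  have hA := ag_of_hist (W := 𝒢.W) h
  constructor
  · intro hX j hj m hm h1
    have hm' : (m : ℕ∞) ≤ n := by exact_mod_cast hm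
    rw [← hA.pos hm']
    exact hX j hj m hm ((hA.pdet (pdet_stop_le (isStop_tau (𝒢 := 𝒢) (j + 1))) hm').2 h1)
  · intro hX j hj m hm h1
    have hm' : (m : ℕ∞) ≤ n := by exact_mod_cast hm
    rw [hA.pos hm']
    exact hX j hj m hm ((hA.pdet (pdet_stop_le (isStop_tau (𝒢 := 𝒢) (j + 1))) hm').1 h1)

/-- the event at the first contact of `T` with the rows of stage `k+5` of `X`. -/
def BB (𝒢 : Grid d Ω) (G : Site d → Measure (Path d)) (lam : ℝ≥0∞) (X : Ω) (k : ℕ) : Set Ω :=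
  {T | ∃ n : ℕ, kap 𝒢.W 𝒢.rd 𝒢.R (𝒢.V (k + 5) X) T = n ∧
    (n : ℕ∞) < kap 𝒢.W 𝒢.rd 𝒢.R (𝒢.V (k + 4) X) T ∧
    𝒢.Lv (k + 2) ≤ 𝒢.lev (𝒢.W.pos T n) ∧ 𝒢.lev (𝒢.W.pos T n) < 𝒢.Lv (k + 6) ∧ 𝒢.PG T n ∧
    G (𝒢.W.pos T n) (𝒢.RI k (𝒢.U k T)) ≤ lam}

include h𝒢 in
lemma BB_congr {G : Site d → Measure (Path d)} {lam : ℝ≥0∞} {X : Ω} {k : ℕ} {T T' : Ω} {n : ℕ}
    (h : 𝒢.W.hist n T = 𝒢.W.hist n T') (hn : kap 𝒢.W 𝒢.rd 𝒢.R (𝒢.V (k + 5) X) T = n)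
    (hT : T ∈ 𝒢.BB G lam X k) : T' ∈ 𝒢.BB G lam X k := by
  obtain ⟨m, hm, h1, h2, h3, h4, h5⟩ := hT
  have hmn : m = n := by
    rw [hn] at hm
    exact_mod_cast hm.symm
  subst hmn
  have hA := ag_of_hist (W := 𝒢.W) h
  have htau : 𝒢.tau k T ≤ m := tau_le_of_le_lev ((h𝒢.mono (by omega)).trans h2)
  refine ⟨m, isStop_kap h𝒢.hrd.det _ T T' m h hm, hA.lt_stop (isStop_kap h𝒢.hrd.det _) h1, ?_, ?_,
    (pdet_PG m T T' h).1 h4, ?_⟩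
  · rw [← hA.pos le_rfl]; exact h2
  · rw [← hA.pos le_rfl]; exact h3
  · rw [← hA.pos le_rfl, U_congr hA htau (ne_top_of_le_ne_top (ENat.natCast_ne_top m) htau)]
    exact h5

include h𝒢 in
lemma measurableSet_BB (G : Site d → Measure (Path d)) (lam : ℝ≥0∞) (X : Ω) (k : ℕ) :
    MeasurableSet (𝒢.BB G lam X k) := by
  refine measurableSet_of_open 𝒢.W _ fun T hT => ?_
  obtain ⟨n, hn, -⟩ := id hT
  exact ⟨n, fun T' h => BB_congr h𝒢 h hn hT⟩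

include h𝒢 in
lemma natural {P : Measure Ω} {G : Site d → Measure (Path d)} {C₀ lam : ℝ≥0∞}
    (hMU : MU 𝒢.W P G C₀) (X : Ω) (k : ℕ) :
    P {T | T ∈ 𝒢.BB G lam X k ∧ shp 𝒢.W (kap 𝒢.W 𝒢.rd 𝒢.R (𝒢.V (k + 5) X) T).toNat T
      ∈ 𝒢.RI k (𝒢.U k T)} ≤ C₀ * lam * P (𝒢.BB G lam X k) := by
  refine smu (W := 𝒢.W) (isStop_kap (R := 𝒢.R) h𝒢.hrd.det (𝒢.V (k + 5) X)) ?_ ?_ ?_
    (fun T => measurableSet_RI _ _) hMU ?_
  · intro T T' n h hn hT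
    exact BB_congr h𝒢 h hn hT
  · rintro T ⟨n, hn, -⟩
    rw [hn]
    exact ENat.natCast_ne_top n
  · rintro T T' n h hn ⟨m, hm, h1, h2, -⟩
    have hmn : m = n := by
      rw [hn] at hm
      exact_mod_cast hm.symm
    subst hmn
    have hA := ag_of_hist (W := 𝒢.W) h
    have htau : 𝒢.tau k T ≤ m := tau_le_of_le_lev ((h𝒢.mono (by omega)).trans h2)
    rw [U_congr hA htau (ne_top_of_le_ne_top (ENat.natCast_ne_top m) htau)]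
  · rintro T ⟨n, hn, -, -, -, -, h5⟩
    rw [hn, ENat.toNat_natCast]
    exact h5

include h𝒢 in
/-- the contact stages are localised. -/
lemma BB_close {G : Site d → Measure (Path d)} {lam : ℝ≥0∞} {X T : Ω} {k l : ℕ} (hkl : k < l)
    (hl : l + 7 ≤ 𝒢.M) (hk : T ∈ 𝒢.BB G lam X k) (hl' : T ∈ 𝒢.BB G lam X l) : l ≤ k + 4 := by
  obtain ⟨n, hn, -, -, h3, h4, -⟩ := hk
  obtain ⟨m, hm, g1, g2, -⟩ := hl'
  by_contra hcon
  rw [not_le] at hcon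
  have h1 : kap 𝒢.W 𝒢.rd 𝒢.R (𝒢.V (l + 4) X) T ≤ kap 𝒢.W 𝒢.rd 𝒢.R (𝒢.V (k + 5) X) T :=
    kap_anti (V_mono h𝒢 (by omega) X) T
  rw [hn] at h1
  have h2 : m < n := by exact_mod_cast lt_of_lt_of_le g1 h1
  have h5 : 𝒢.tau (l + 2) T ≤ m := tau_le_of_le_lev g2
  have h8 : 𝒢.tau (l + 1 + 1) T ≤ n := h5.trans (by exact_mod_cast h2.le)
  have h9 := h4 (l + 1) (by omega) n le_rfl h8
  have := h𝒢.mono (show k + 6 ≤ l + 1 by omega)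
  omega

include h𝒢 in
lemma sum_BB (P : Measure Ω) [IsProbabilityMeasure P] (G : Site d → Measure (Path d))
    (lam : ℝ≥0∞) (X : Ω) :
    ∑ k ∈ Finset.range (𝒢.M - 6), P (𝒢.BB G lam X k) ≤ 5 := by
  classical
  have hm := fun k => measurableSet_BB h𝒢 G lam X k
  calc ∑ k ∈ Finset.range (𝒢.M - 6), P (𝒢.BB G lam X k)
      = ∫⁻ T, ∑ k ∈ Finset.range (𝒢.M - 6), (𝒢.BB G lam X k).indicator 1 T ∂P := by
        rw [lintegral_finset_sum _ fun k _ => measurable_one.indicator (hm k)]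
        exact Finset.sum_congr rfl fun k _ => (lintegral_indicator_one (hm k)).symm
    _ ≤ ∫⁻ _, 5 ∂P := by
        refine lintegral_mono fun T => ?_
        have h1 : ∑ k ∈ Finset.range (𝒢.M - 6), (𝒢.BB G lam X k).indicator (1 : Ω → ℝ≥0∞) T
            = (((Finset.range (𝒢.M - 6)).filter fun k => T ∈ 𝒢.BB G lam X k).card : ℝ≥0∞) := by
          rw [Finset.card_filter]
          push_cast
          refine Finset.sum_congr rfl fun k _ => ?_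
          by_cases h : T ∈ 𝒢.BB G lam X k <;> simp [h]
        simp only
        rw [h1]
        have h2 : ((Finset.range (𝒢.M - 6)).filter fun k => T ∈ 𝒢.BB G lam X k).card ≤ 5 := by
          rcases Finset.eq_empty_or_nonempty
            ((Finset.range (𝒢.M - 6)).filter fun k => T ∈ 𝒢.BB G lam X k) with h | h
          · rw [h]; simp
          · set s := (Finset.range (𝒢.M - 6)).filter fun k => T ∈ 𝒢.BB G lam X k with hs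
            have hsub : s ⊆ Finset.Icc (s.min' h) (s.min' h + 4) := by
              intro l hl
              rw [Finset.mem_Icc]
              have h3 := Finset.min'_le s l hl
              refine ⟨h3, ?_⟩
              rcases Nat.lt_or_ge (s.min' h) l with h4 | h4
              · have h5 := Finset.min'_mem s h
                have h6 := (Finset.mem_filter.1 h5).2
                obtain ⟨h7, h8⟩ := Finset.mem_filter.1 hl
                rw [Finset.mem_range] at h7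
                exact BB_close h𝒢 h4 (by omega) h6 h8
              · omega
            refine (Finset.card_le_card hsub).trans ?_
            rw [Nat.card_Icc]
            omega
        calc ((((Finset.range (𝒢.M - 6)).filter fun k => T ∈ 𝒢.BB G lam X k).card : ℕ) : ℝ≥0∞)
            ≤ ((5 : ℕ) : ℝ≥0∞) := by exact_mod_cast h2
          _ = 5 := by norm_num
    _ = 5 := by simp

include h𝒢 in
/-- **fixed environment estimate** -/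
theorem fixed_env {P₁ P₂ : Measure Ω} [IsProbabilityMeasure P₁] [IsProbabilityMeasure P₂]
    {G : Site d → Measure (Path d)} {C₀ c₀ h₀ lam : ℝ≥0∞} (hc : c₀ ≠ 0) (hc' : c₀ ≠ ⊤)
    (h0 : h₀ ≠ 0) (h0' : h₀ ≠ ⊤) (hl : lam ≠ 0) (hl' : lam ≠ ⊤)
    (hMU : MU 𝒢.W P₂ G C₀) (hML : ML 𝒢.W 𝒢.rd P₁ G c₀)
    (hH : ∀ k, ∀ a z : Site d, (∀ l, |a l - z l| ≤ (𝒢.R : ℤ)) → 𝒢.Lv (k + 2) ≤ 𝒢.lev z →
      𝒢.lev z < 𝒢.Lv (k + 6) → ∀ y, h₀ * G z (𝒢.RI k y) ≤ G a (𝒢.RI k y)) :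
    (P₁.prod P₂) 𝒢.UU ≤ 5 * (C₀ * lam) + (c₀ * (h₀ * lam))⁻¹ * (P₁.prod P₂) 𝒢.UE := by
  have mU := measurableSet_UU h𝒢
  have mE := measurableSet_UE h𝒢
  have mQ := measurableSet_UQ h𝒢 G (h₀ * lam)
  have hx : c₀ * (h₀ * lam) ≠ 0 := by
    simp only [ne_eq, mul_eq_zero, not_or]
    exact ⟨hc, h0, hl⟩
  have hx' : c₀ * (h₀ * lam) ≠ ⊤ := ENNReal.mul_ne_top hc' (ENNReal.mul_ne_top h0' hl')
  have h1 : (P₁.prod P₂) 𝒢.UU ≤ (P₁.prod P₂) (𝒢.UU \ 𝒢.UQ G (h₀ * lam))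
      + (P₁.prod P₂) (𝒢.UQ G (h₀ * lam)) := by
    refine le_trans (measure_mono ?_) (measure_union_le _ _)
    intro p hp
    by_cases h : p ∈ 𝒢.UQ G (h₀ * lam)
    · exact Or.inr h
    · exact Or.inl ⟨hp, h⟩
  refine h1.trans (add_le_add ?_ ?_)
  · -- naturality of `T`
    rw [Measure.prod_apply (mU.diff mQ)]
    have hX : ∀ X : Ω, P₂ (Prod.mk X ⁻¹' (𝒢.UU \ 𝒢.UQ G (h₀ * lam))) ≤ 5 * (C₀ * lam) := by
      intro X
      have hsub : Prod.mk X ⁻¹' (𝒢.UU \ 𝒢.UQ G (h₀ * lam)) ⊆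
          ⋃ k ∈ Finset.range (𝒢.M - 6), {T | T ∈ 𝒢.BB G lam X k ∧
            shp 𝒢.W (kap 𝒢.W 𝒢.rd 𝒢.R (𝒢.V (k + 5) X) T).toNat T ∈ 𝒢.RI k (𝒢.U k T)} := by
        rintro T ⟨⟨k, hk, g1, g2, g3, g4, g5⟩, hq⟩
        simp only at g1 g2 g3 g4 g5
        obtain ⟨n, i, hkap, hn, hrT, hrX, hi, hi', hnear⟩ := JS_step g1 g2
        obtain ⟨e1, e2, -⟩ := alive_of hi hi'
        have hn' : (n : ℕ∞) < 𝒢.tau 𝒢.M T := lt_of_lt_of_le hn (S_le_tau _ _)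
        obtain ⟨f1, f2, f3, f4⟩ := geo h𝒢 hk g3 g4 e1 e2 hn' hnear
        have hlam : G (𝒢.W.pos T n) (𝒢.RI k (𝒢.U k T)) ≤ lam := by
          by_contra hcon
          rw [not_le] at hcon
          exact hq ⟨k, i, Qk_of_contact h𝒢 h0 h0' hk g3 g4 hkap hrX e1 e2 hn' hnear
            (fun a z h2 h3 h4 y => hH k a z h2 h3 h4 y) hcon⟩
        refine Set.mem_biUnion (x := k) (Finset.mem_coe.2 (Finset.mem_range.2 (by omega))) ⟨⟨n, hkap, ?_, f1, f2, ?_, hlam⟩, ?_⟩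
        · refine lt_of_lt_of_le hn ?_
          by_contra hcon
          rw [not_le] at hcon
          exact g2 hcon
        · intro j hj m hm h2
          refine g4.2 j hj m h2 (le_trans (by exact_mod_cast hm) hn'.le)
        · rw [hkap, ENat.toNat_natCast]
          exact shp_mem_RI h𝒢 hk g4 g5 f3 f4
      calc P₂ (Prod.mk X ⁻¹' (𝒢.UU \ 𝒢.UQ G (h₀ * lam)))
          ≤ ∑ k ∈ Finset.range (𝒢.M - 6), P₂ {T | T ∈ 𝒢.BB G lam X k ∧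
            shp 𝒢.W (kap 𝒢.W 𝒢.rd 𝒢.R (𝒢.V (k + 5) X) T).toNat T ∈ 𝒢.RI k (𝒢.U k T)} :=
            (measure_mono hsub).trans (measure_biUnion_finset_le _ _)
        _ ≤ ∑ k ∈ Finset.range (𝒢.M - 6), C₀ * lam * P₂ (𝒢.BB G lam X k) :=
            Finset.sum_le_sum fun k _ => natural h𝒢 hMU X k
        _ = C₀ * lam * ∑ k ∈ Finset.range (𝒢.M - 6), P₂ (𝒢.BB G lam X k) := by
            rw [Finset.mul_sum]
        _ ≤ C₀ * lam * 5 := by gcongr; exact sum_BB h𝒢 P₂ G lam X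
        _ = 5 * (C₀ * lam) := by ring
    calc ∫⁻ X, P₂ (Prod.mk X ⁻¹' (𝒢.UU \ 𝒢.UQ G (h₀ * lam))) ∂P₁
        ≤ ∫⁻ _, 5 * (C₀ * lam) ∂P₁ := lintegral_mono hX
      _ = 5 * (C₀ * lam) := by simp
  · -- success of `X`
    rw [Measure.prod_apply_symm mQ, Measure.prod_apply_symm mE]
    rw [← lintegral_const_mul _ (measurable_measure_prodMk_right mE)]
    refine lintegral_mono fun T => ?_
    have h2 := success h𝒢 (lam := h₀ * lam) hML T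
    simp only
    rw [← ENNReal.div_eq_inv_mul, ENNReal.le_div_iff_mul_le (Or.inl hx) (Or.inl hx'), mul_comm]
    exact h2

end Grid

end Cont

end Crest.Agent.R154
end

-- ▼ part R154/Contact_424
section

/-! Row 154, B4, walker side (helper424): **the contact inequality**. -/

set_option autoImplicit false
set_option linter.unusedVariables false
set_option linter.unusedSectionVars false

namespace Crest.Agent.R154

open MeasureTheory ProbabilityTheory Crest.ProbabilityR.RandomEnvironment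
open scoped ENNReal

namespace Cont

variable {d : ℕ} {Ω : Type} [MeasurableSpace Ω]

/-- same environment = independent environments without read contact (`X` seen up to `S`, `T` seen
up to `S'`). -/
def K1P (W : WalkSpace d Ω) (rd : Ω → ℕ → Prop) (R : ℕ) (Q : Measure (Environment d))
    (P₁ P₂ : Kernel (Environment d) Ω) : Prop :=
  ∀ S S' : Ω → ℕ∞, W.IsStop S → W.IsStop S' → ∀ C : Set (Ω × Ω), MeasurableSet C →
    (∀ X X' T T', Ag W (S X) X X' → Ag W (S' T) T T' → (X, T) ∈ C → (X', T') ∈ C) →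
    (∀ X T, (X, T) ∈ C → S' T ≤ kap W rd R (rows W rd X (S X)) T) →
    WalkSpace.same Q P₁ P₂ C = WalkSpace.ind Q P₁ P₂ C

namespace Grid

variable {𝒢 : Grid d Ω} (h𝒢 : 𝒢.Ok)

/-- `T` good and natural in window `k`. -/
def GN (𝒢 : Grid d Ω) (k : ℕ) : Set Ω := {T | 𝒢.Gd T ∧ 𝒢.Nt k T}

/-- `T` good and not natural in window `k`. -/
def Bad (𝒢 : Grid d Ω) (k : ℕ) : Set Ω := {T | 𝒢.Gd T ∧ ¬ 𝒢.Nt k T}

/-- contact at stage `k+5`, `T` good and natural in window `k`. -/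
def AK (𝒢 : Grid d Ω) (k : ℕ) : Set (Ω × Ω) :=
  {p | 𝒢.JS (k + 5) p.1 p.2 ∧ ¬ 𝒢.JS (k + 4) p.1 p.2 ∧ p.2 ∈ 𝒢.GN k}

/-- union over the windows. -/
def AA (𝒢 : Grid d Ω) : Set (Ω × Ω) := {p | ∃ k, k + 7 ≤ 𝒢.M ∧ p ∈ 𝒢.AK k}

include h𝒢 in
lemma measurableSet_Gd : MeasurableSet {T | 𝒢.Gd T} := by
  refine measurableSet_of_open 𝒢.W _ fun T hT => ?_
  obtain ⟨m, hm⟩ := exists_nat_of_lt hT.1
  refine ⟨m, fun Y h => hT.congr h𝒢 ?_⟩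
  rw [hm]
  exact ag_of_hist h

include h𝒢 in
lemma measurableSet_GN {k : ℕ} (hk : k + 7 ≤ 𝒢.M) : MeasurableSet (𝒢.GN k) := by
  refine measurableSet_of_open 𝒢.W _ fun T hT => ?_
  obtain ⟨m, hm⟩ := exists_nat_of_lt hT.1.1
  refine ⟨m, fun Y h => ?_⟩
  have hA : Ag 𝒢.W (𝒢.tau 𝒢.M T) T Y := by rw [hm]; exact ag_of_hist h
  refine ⟨hT.1.congr h𝒢 hA, ?_⟩
  have := hT.2
  unfold Nt at this ⊢
  rwa [hT.1.U_congr h𝒢 hA hk, hT.1.U_congr h𝒢 hA (by omega)]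

include h𝒢 in
lemma measurableSet_Bad {k : ℕ} (hk : k + 7 ≤ 𝒢.M) : MeasurableSet (𝒢.Bad k) := by
  have : 𝒢.Bad k = {T | 𝒢.Gd T} \ 𝒢.GN k := by
    ext T
    simp only [Bad, GN, Set.mem_ofPred_eq, Set.mem_sdiff]
    tauto
  rw [this]
  exact (measurableSet_Gd h𝒢).diff (measurableSet_GN h𝒢 hk)

include h𝒢 in
lemma measurableSet_NG : MeasurableSet {X | 𝒢.NG X} := by
  have h1 : MeasurableSet {X | 𝒢.tau 1 X < 𝒢.D X} := by
    refine measurableSet_of_open 𝒢.W _ fun T hT => ?_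
    obtain ⟨m, hm⟩ := exists_nat_of_lt hT
    refine ⟨m, fun Y h => ?_⟩
    have hA : Ag 𝒢.W (𝒢.tau 1 T) T Y := by rw [hm]; exact ag_of_hist h
    simp only [Set.mem_ofPred_eq]
    rw [hA.stop_eq (isStop_tau _) le_rfl]
    exact hA.lt_stop h𝒢.stopD hT
  exact h1.inter (measurableSet_Gd h𝒢).compl

include h𝒢 in
lemma measurableSet_JS (j : ℕ) : MeasurableSet {p : Ω × Ω | 𝒢.JS j p.1 p.2} := by
  refine measurableSet_of_open_pair 𝒢.W _ ?_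
  rintro ⟨X, T⟩ h
  simp only [Set.mem_ofPred_eq, JS, kap_lt_iff] at h
  obtain ⟨n, hn, hr, a, ⟨i, hi, hX, rfl⟩, hnear⟩ := h
  refine ⟨max n i, ?_⟩
  rintro ⟨X', T'⟩ h1 h2
  simp only at h1 h2
  have g1 := ag_of_hist (𝒢.W.mono _ _ (le_max_right n i) h1)
  have g2 := ag_of_hist (𝒢.W.mono _ _ (le_max_left n i) h2)
  simp only [Set.mem_ofPred_eq, JS, kap_lt_iff]
  refine ⟨n, g2.lt_stop (isStop_S h𝒢 _) hn, (g2.pdet h𝒢.hrd.det le_rfl).1 hr, _,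
    ⟨i, g1.lt_stop (isStop_S h𝒢 _) hi, (g1.pdet h𝒢.hrd.det le_rfl).1 hX, rfl⟩, ?_⟩
  rw [← g1.pos le_rfl, ← g2.pos le_rfl]
  exact hnear

include h𝒢 in
lemma measurableSet_AK {k : ℕ} (hk : k + 7 ≤ 𝒢.M) : MeasurableSet (𝒢.AK k) := by
  have : 𝒢.AK k = ({p : Ω × Ω | 𝒢.JS (k + 5) p.1 p.2} \ {p : Ω × Ω | 𝒢.JS (k + 4) p.1 p.2})
      ∩ {p | p.2 ∈ 𝒢.GN k} := by
    ext p
    simp only [AK, Set.mem_ofPred_eq, Set.mem_inter_iff, Set.mem_sdiff]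
    tauto
  rw [this]
  exact ((measurableSet_JS h𝒢 _).diff (measurableSet_JS h𝒢 _)).inter
    (measurable_snd (measurableSet_GN h𝒢 hk))

include h𝒢 in
lemma AA_eq : 𝒢.AA = ⋃ k ∈ Finset.range (𝒢.M - 6), 𝒢.AK k := by
  ext p
  simp only [AA, Set.mem_ofPred_eq, Set.mem_iUnion, Finset.mem_range, exists_prop]
  constructor
  · rintro ⟨k, hk, h⟩; exact ⟨k, by omega, h⟩
  · rintro ⟨k, hk, h⟩; exact ⟨k, by omega, h⟩

include h𝒢 in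
lemma disjoint_AK : Pairwise (Function.onFun Disjoint 𝒢.AK) := by
  have h : ∀ k l, k < l → Disjoint (𝒢.AK k) (𝒢.AK l) := by
    intro k l hkl
    rw [Set.disjoint_left]
    rintro p ⟨h1, -⟩ ⟨-, h2, -⟩
    exact h2 (JS_mono h𝒢 (by omega) h1)
  intro k l hkl
  rcases Nat.lt_or_gt_of_ne hkl with h1 | h1
  · exact h k l h1
  · exact (h l k h1).symm

include h𝒢 in
lemma measure_AA (μ : Measure (Ω × Ω)) :
    μ 𝒢.AA = ∑ k ∈ Finset.range (𝒢.M - 6), μ (𝒢.AK k) := by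
  rw [AA_eq h𝒢]
  refine measure_biUnion_finset (fun k _ l _ hkl => disjoint_AK h𝒢 hkl) fun k hk => ?_
  rw [Finset.mem_range] at hk
  exact measurableSet_AK h𝒢 (by omega)

section laws

variable {Q : Measure (Environment d)} [IsProbabilityMeasure Q]
  {P₁ P₂ : Kernel (Environment d) Ω} [IsMarkovKernel P₁] [IsMarkovKernel P₂]

include h𝒢 in
/-- KEY for an event of `T` and contact before stage `j`. -/
lemma key_J (hK : K1P 𝒢.W 𝒢.rd 𝒢.R Q P₁ P₂) {k : ℕ} (hk : k + 7 ≤ 𝒢.M) (j : ℕ) :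
    WalkSpace.same Q P₁ P₂ ({p | p.2 ∈ 𝒢.GN k} ∩ {p | 𝒢.JS j p.1 p.2})
      = WalkSpace.ind Q P₁ P₂ ({p | p.2 ∈ 𝒢.GN k} ∩ {p | 𝒢.JS j p.1 p.2}) := by
  have mG := measurableSet_GN h𝒢 hk
  have mC : MeasurableSet {p : Ω × Ω | p.2 ∈ 𝒢.GN k} := measurable_snd mG
  have mJ := measurableSet_JS h𝒢 j
  have h1 : WalkSpace.same Q P₁ P₂ ({p | p.2 ∈ 𝒢.GN k} \ {p | 𝒢.JS j p.1 p.2})
      = WalkSpace.ind Q P₁ P₂ ({p | p.2 ∈ 𝒢.GN k} \ {p | 𝒢.JS j p.1 p.2}) := by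
    refine hK (𝒢.S j) (𝒢.S 𝒢.M) (isStop_S h𝒢 j) (isStop_S h𝒢 _) _ (mC.diff mJ) ?_ ?_
    · rintro X X' T T' hX hT ⟨g1, g2⟩
      simp only [Set.mem_ofPred_eq] at g1 g2
      have hA : Ag 𝒢.W (𝒢.tau 𝒢.M T) T T' := by rw [← g1.1.S_eq h𝒢 le_rfl]; exact hT
      refine ⟨⟨g1.1.congr h𝒢 hA, ?_⟩, fun h => g2 ((JS_congr h𝒢 hX hT).2 h)⟩
      have := g1.2
      unfold Nt at this ⊢
      rwa [g1.1.U_congr h𝒢 hA hk, g1.1.U_congr h𝒢 hA (by omega)]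
    · rintro X T ⟨-, g2⟩
      exact not_lt.1 g2
  have e1 := measure_inter_add_sdiff (μ := WalkSpace.same Q P₁ P₂) {p : Ω × Ω | p.2 ∈ 𝒢.GN k} mJ
  have e2 := measure_inter_add_sdiff (μ := WalkSpace.ind Q P₁ P₂) {p : Ω × Ω | p.2 ∈ 𝒢.GN k} mJ
  have e3 : WalkSpace.same Q P₁ P₂ {p : Ω × Ω | p.2 ∈ 𝒢.GN k} = (Q.bind P₂) (𝒢.GN k) :=
    WalkSpace.same_snd Q mG
  have e4 : WalkSpace.ind Q P₁ P₂ {p : Ω × Ω | p.2 ∈ 𝒢.GN k} = (Q.bind P₂) (𝒢.GN k) :=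
    WalkSpace.ind_snd Q
  rw [e3] at e1
  rw [e4, ← h1, ← e1] at e2
  exact ((ENNReal.add_left_inj (measure_ne_top _ _)).1 e2).symm

include h𝒢 in
lemma same_AK (hK : K1P 𝒢.W 𝒢.rd 𝒢.R Q P₁ P₂) {k : ℕ} (hk : k + 7 ≤ 𝒢.M) :
    WalkSpace.same Q P₁ P₂ (𝒢.AK k) = WalkSpace.ind Q P₁ P₂ (𝒢.AK k) := by
  have h : 𝒢.AK k = ({p | p.2 ∈ 𝒢.GN k} ∩ {p | 𝒢.JS (k + 5) p.1 p.2})
      \ ({p | p.2 ∈ 𝒢.GN k} ∩ {p | 𝒢.JS (k + 4) p.1 p.2}) := by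
    ext p
    simp only [AK, Set.mem_ofPred_eq, Set.mem_inter_iff, Set.mem_sdiff]
    tauto
  have hsub : ({p | p.2 ∈ 𝒢.GN k} ∩ {p : Ω × Ω | 𝒢.JS (k + 4) p.1 p.2})
      ⊆ ({p | p.2 ∈ 𝒢.GN k} ∩ {p | 𝒢.JS (k + 5) p.1 p.2}) :=
    fun p hp => ⟨hp.1, JS_mono h𝒢 (by omega) hp.2⟩
  have hm : MeasurableSet ({p | p.2 ∈ 𝒢.GN k} ∩ {p : Ω × Ω | 𝒢.JS (k + 4) p.1 p.2}) :=
    MeasurableSet.inter (measurable_snd (measurableSet_GN h𝒢 hk)) (measurableSet_JS h𝒢 _)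
  rw [h, measure_sdiff hsub hm.nullMeasurableSet (measure_ne_top _ _),
    measure_sdiff hsub hm.nullMeasurableSet (measure_ne_top _ _), key_J h𝒢 hK hk, key_J h𝒢 hK hk]

/-- first closeness window. -/
def EF (𝒢 : Grid d Ω) (k : ℕ) : Set (Ω × Ω) :=
  {p | 𝒢.Ek k p.1 p.2 ∧ ∀ i < k, ¬ 𝒢.Ek i p.1 p.2}

include h𝒢 in
lemma measurableSet_Ek (k : ℕ) : MeasurableSet {p : Ω × Ω | 𝒢.Ek k p.1 p.2} := by
  refine measurableSet_of_open_pair 𝒢.W _ ?_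
  rintro ⟨X, T⟩ hE
  simp only [Set.mem_ofPred_eq] at hE
  obtain ⟨m, hm⟩ := exists_nat_of_lt hE.1
  obtain ⟨m', hm'⟩ := exists_nat_of_lt hE.2.1
  refine ⟨max m m', ?_⟩
  rintro ⟨X', T'⟩ hX hT
  simp only at hX hT
  refine hE.congr h𝒢 ?_ ?_
  · rw [S_eq_tau_of_lt h𝒢 hE.1, hm]
    exact (ag_of_hist hX).mono (by exact_mod_cast le_max_left m m')
  · rw [S_eq_tau_of_lt h𝒢 hE.2.1, hm']
    exact (ag_of_hist hT).mono (by exact_mod_cast le_max_right m m')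

include h𝒢 in
lemma measurableSet_EF (k : ℕ) : MeasurableSet (𝒢.EF k) := by
  have : 𝒢.EF k = {p : Ω × Ω | 𝒢.Ek k p.1 p.2} ∩ ⋂ i ∈ Finset.range k,
      {p : Ω × Ω | 𝒢.Ek i p.1 p.2}ᶜ := by
    ext p
    simp [EF]
  rw [this]
  exact (measurableSet_Ek h𝒢 k).inter
    (Finset.measurableSet_biInter _ fun i _ => (measurableSet_Ek h𝒢 i).compl)

include h𝒢 in
lemma same_EF (hK : K1P 𝒢.W 𝒢.rd 𝒢.R Q P₁ P₂) (k : ℕ) :
    WalkSpace.same Q P₁ P₂ (𝒢.EF k) = WalkSpace.ind Q P₁ P₂ (𝒢.EF k) := by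
  refine hK (𝒢.S (k + 7)) (𝒢.S k) (isStop_S h𝒢 _) (isStop_S h𝒢 _) _ (measurableSet_EF h𝒢 k) ?_ ?_
  · rintro X X' T T' hX hT ⟨h1, h2⟩
    refine ⟨h1.congr h𝒢 hX hT, fun i hi h3 => h2 i hi ?_⟩
    have e1 : 𝒢.S (k + 7) X' = 𝒢.S (k + 7) X := hX.stop_eq (isStop_S h𝒢 _) le_rfl
    have e2 : 𝒢.S k T' = 𝒢.S k T := hT.stop_eq (isStop_S h𝒢 _) le_rfl
    refine h3.congr h𝒢 (hX.symm.mono ?_) (hT.symm.mono ?_)
    · rw [← e1]; exact S_mono h𝒢 (by omega) X'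
    · rw [← e2]; exact S_mono h𝒢 hi.le T'
  · rintro X T ⟨h1, -⟩
    exact (S_le_tau k T).trans h1.2.2.1

include h𝒢 in
lemma measure_UE (μ : Measure (Ω × Ω)) :
    μ 𝒢.UE = ∑ k ∈ Finset.range (𝒢.M - 6), μ (𝒢.EF k) := by
  classical
  have h : 𝒢.UE = ⋃ k ∈ Finset.range (𝒢.M - 6), 𝒢.EF k := by
    ext p
    simp only [UE, Set.mem_ofPred_eq, Set.mem_iUnion, Finset.mem_range, exists_prop]
    constructor
    · rintro ⟨k, hk, h⟩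
      have hex : ∃ k, 𝒢.Ek k p.1 p.2 := ⟨k, h⟩
      refine ⟨Nat.find hex, ?_, Nat.find_spec hex, fun i hi => Nat.find_min hex hi⟩
      have := Nat.find_min' hex h
      omega
    · rintro ⟨k, hk, h⟩; exact ⟨k, by omega, h.1⟩
  rw [h]
  refine measure_biUnion_finset (fun k _ l _ hkl => ?_) fun k hk => measurableSet_EF h𝒢 k
  have hd : ∀ k l, k < l → Disjoint (𝒢.EF k) (𝒢.EF l) := by
    intro k l hkl
    rw [Set.disjoint_left]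
    rintro p ⟨h1, -⟩ ⟨-, h2⟩
    exact h2 k hkl h1
  rcases Nat.lt_or_gt_of_ne hkl with h1 | h1
  · exact hd k l h1
  · exact (hd l k h1).symm

include h𝒢 in
lemma same_UE (hK : K1P 𝒢.W 𝒢.rd 𝒢.R Q P₁ P₂) :
    WalkSpace.same Q P₁ P₂ 𝒢.UE = WalkSpace.ind Q P₁ P₂ 𝒢.UE := by
  rw [measure_UE h𝒢, measure_UE h𝒢]
  exact Finset.sum_congr rfl fun k _ => same_EF h𝒢 hK k

include h𝒢 in
/-- **ONE-SIDED CONTACT INEQUALITY** -/
theorem one_sided (hK : K1P 𝒢.W 𝒢.rd 𝒢.R Q P₁ P₂)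
    {G : Environment d → Site d → Measure (Path d)} {C₀ c₀ h₀ lam : ℝ≥0∞} (hc : c₀ ≠ 0)
    (hc' : c₀ ≠ ⊤) (h0 : h₀ ≠ 0) (h0' : h₀ ≠ ⊤) (hl : lam ≠ 0) (hl' : lam ≠ ⊤)
    (hMU : ∀ᵐ ω ∂Q, MU 𝒢.W (P₂ ω) (G ω) C₀) (hML : ∀ᵐ ω ∂Q, ML 𝒢.W 𝒢.rd (P₁ ω) (G ω) c₀)
    (hH : ∀ᵐ ω ∂Q, ∀ k, ∀ a z : Site d, (∀ l, |a l - z l| ≤ (𝒢.R : ℤ)) →
      𝒢.Lv (k + 2) ≤ 𝒢.lev z → 𝒢.lev z < 𝒢.Lv (k + 6) → ∀ y,
        h₀ * G ω z (𝒢.RI k y) ≤ G ω a (𝒢.RI k y)) :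
    WalkSpace.ind Q P₁ P₂ 𝒢.AA ≤ (Q.bind P₁) {X | 𝒢.NG X} + 5 * (C₀ * lam)
      + (c₀ * (h₀ * lam))⁻¹ * WalkSpace.ind Q P₁ P₂ 𝒢.UE := by
  have e1 : WalkSpace.ind Q P₁ P₂ 𝒢.AA = WalkSpace.same Q P₁ P₂ 𝒢.AA := by
    rw [measure_AA h𝒢, measure_AA h𝒢]
    refine Finset.sum_congr rfl fun k hk => ?_
    rw [Finset.mem_range] at hk
    exact (same_AK h𝒢 hK (by omega)).symm
  have e2 : 𝒢.AA ⊆ {p | p.1 ∈ {X | 𝒢.NG X}} ∪ 𝒢.UU := by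
    rintro p ⟨k, hk, h1, h2, h3, h4⟩
    by_cases hg : 𝒢.Gd p.1
    · exact Or.inr ⟨k, hk, h1, h2, hg, h3, h4⟩
    · exact Or.inl (NG_of h𝒢 (j := k + 4) (by omega) h1 h2 hg)
  have e3 : WalkSpace.same Q P₁ P₂ 𝒢.UU ≤ 5 * (C₀ * lam)
      + (c₀ * (h₀ * lam))⁻¹ * WalkSpace.same Q P₁ P₂ 𝒢.UE := by
    rw [WalkSpace.same_apply _ _ _ (measurableSet_UU h𝒢),
      WalkSpace.same_apply _ _ _ (measurableSet_UE h𝒢)]
    calc ∫⁻ ω, ((P₁ ω).prod (P₂ ω)) 𝒢.UU ∂Q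
        ≤ ∫⁻ ω, (5 * (C₀ * lam) + (c₀ * (h₀ * lam))⁻¹ * ((P₁ ω).prod (P₂ ω)) 𝒢.UE) ∂Q := by
          refine lintegral_mono_ae ?_
          filter_upwards [hMU, hML, hH] with ω g1 g2 g3
          exact fixed_env h𝒢 hc hc' h0 h0' hl hl' g1 g2 g3
      _ = 5 * (C₀ * lam) + (c₀ * (h₀ * lam))⁻¹ * ∫⁻ ω, ((P₁ ω).prod (P₂ ω)) 𝒢.UE ∂Q := by
          have hx : (c₀ * (h₀ * lam))⁻¹ ≠ ⊤ := by
            rw [ENNReal.inv_ne_top]
            simp only [ne_eq, mul_eq_zero, not_or]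
            exact ⟨hc, h0, hl⟩
          rw [lintegral_add_left measurable_const, lintegral_const, measure_univ, mul_one,
            lintegral_const_mul' _ _ hx]
  rw [e1]
  calc WalkSpace.same Q P₁ P₂ 𝒢.AA
      ≤ WalkSpace.same Q P₁ P₂ {p | p.1 ∈ {X | 𝒢.NG X}} + WalkSpace.same Q P₁ P₂ 𝒢.UU :=
        (measure_mono e2).trans (measure_union_le _ _)
    _ ≤ (Q.bind P₁) {X | 𝒢.NG X} + (5 * (C₀ * lam)
          + (c₀ * (h₀ * lam))⁻¹ * WalkSpace.same Q P₁ P₂ 𝒢.UE) := by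
        refine add_le_add (le_of_eq ?_) e3
        exact WalkSpace.same_fst Q (measurableSet_NG h𝒢)
    _ = _ := by rw [same_UE h𝒢 hK, add_assoc]

/-- contact of two good paths in the middle windows, seen from both sides. -/
def CC (𝒢 : Grid d Ω) : Set (Ω × Ω) :=
  {p | 𝒢.Gd p.1 ∧ 𝒢.Gd p.2 ∧ ¬ 𝒢.JS 4 p.1 p.2 ∧ 𝒢.JS (𝒢.M - 2) p.1 p.2 ∧
    ¬ 𝒢.JS 4 p.2 p.1 ∧ 𝒢.JS (𝒢.M - 2) p.2 p.1}

include h𝒢 in
lemma exists_stage {X T : Ω} (h0 : ¬ 𝒢.JS 4 X T) (h1 : 𝒢.JS (𝒢.M - 2) X T) :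
    ∃ k, k + 7 ≤ 𝒢.M ∧ 𝒢.JS (k + 5) X T ∧ ¬ 𝒢.JS (k + 4) X T := by
  classical
  have hex : ∃ j, 𝒢.JS j X T := ⟨_, h1⟩
  set j := Nat.find hex with hj
  have hjs : 𝒢.JS j X T := Nat.find_spec hex
  have h4 : 4 < j := by
    by_contra h
    exact h0 (JS_mono h𝒢 (by omega) hjs)
  have h5 : j ≤ 𝒢.M - 2 := Nat.find_min' hex h1
  refine ⟨j - 5, by omega, ?_, ?_⟩
  · rw [show j - 5 + 5 = j by omega]; exact hjs
  · rw [show j - 5 + 4 = j - 1 by omega]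
    exact Nat.find_min hex (by omega)

include h𝒢 in
lemma stage_close {X T : Ω} (hX : 𝒢.Gd X) (hT : 𝒢.Gd T) {k l : ℕ} (hk : k + 7 ≤ 𝒢.M)
    (h1 : 𝒢.JS (k + 5) X T) (h2 : ¬ 𝒢.JS (k + 4) X T) (h3 : ¬ 𝒢.JS (l + 4) T X) : l ≤ k + 2 := by
  obtain ⟨n, i, hkap, hn, hrT, hrX, hi, hi', hnear⟩ := JS_step h1 h2
  obtain ⟨e1, e2, -⟩ := alive_of hi hi'
  have hn' : (n : ℕ∞) < 𝒢.tau 𝒢.M T := lt_of_lt_of_le hn (S_le_tau _ _)
  obtain ⟨f1, f2, f3, f4⟩ := geo h𝒢 hk hX hT e1 e2 hn' hnear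
  have h7 : 𝒢.JS (k + 7) T X := by
    unfold JS
    rw [kap_lt_iff]
    refine ⟨i, lt_of_lt_of_le hi' (S_mono h𝒢 (by omega) X), hrX, 𝒢.W.pos T n,
      ⟨n, ?_, hrT, rfl⟩, fun l => by rw [abs_sub_comm]; exact hnear l⟩
    rw [hT.S_eq h𝒢 hk]
    exact f4
  by_contra h
  exact h3 (JS_mono h𝒢 (by omega) h7)

include h𝒢 in
/-- **THE CONTACT INEQUALITY** -/
theorem contact_inequality (hK : K1P 𝒢.W 𝒢.rd 𝒢.R Q P₁ P₂) (hK' : K1P 𝒢.W 𝒢.rd 𝒢.R Q P₂ P₁)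
    {G : Environment d → Site d → Measure (Path d)} {C₀ c₀ h₀ lam : ℝ≥0∞} (hc : c₀ ≠ 0)
    (hc' : c₀ ≠ ⊤) (h0 : h₀ ≠ 0) (h0' : h₀ ≠ ⊤) (hl : lam ≠ 0) (hl' : lam ≠ ⊤)
    (hMU₁ : ∀ᵐ ω ∂Q, MU 𝒢.W (P₁ ω) (G ω) C₀) (hMU₂ : ∀ᵐ ω ∂Q, MU 𝒢.W (P₂ ω) (G ω) C₀)
    (hML₁ : ∀ᵐ ω ∂Q, ML 𝒢.W 𝒢.rd (P₁ ω) (G ω) c₀)
    (hML₂ : ∀ᵐ ω ∂Q, ML 𝒢.W 𝒢.rd (P₂ ω) (G ω) c₀)
    (hH : ∀ᵐ ω ∂Q, ∀ k, ∀ a z : Site d, (∀ l, |a l - z l| ≤ (𝒢.R : ℤ)) →
      𝒢.Lv (k + 2) ≤ 𝒢.lev z → 𝒢.lev z < 𝒢.Lv (k + 6) → ∀ y,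
        h₀ * G ω z (𝒢.RI k y) ≤ G ω a (𝒢.RI k y)) :
    WalkSpace.ind Q P₁ P₂ 𝒢.CC ≤
      ((Q.bind P₁) {X | 𝒢.NG X} + 5 * (C₀ * lam)
        + (c₀ * (h₀ * lam))⁻¹ * WalkSpace.ind Q P₁ P₂ 𝒢.UE)
      + ((Q.bind P₂) {X | 𝒢.NG X} + 5 * (C₀ * lam)
        + (c₀ * (h₀ * lam))⁻¹ * WalkSpace.ind Q P₂ P₁ 𝒢.UE)
      + ∑ p ∈ (Finset.range (𝒢.M - 6) ×ˢ Finset.range (𝒢.M - 6)).filter
          (fun p => p.1 ≤ p.2 + 2 ∧ p.2 ≤ p.1 + 2),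
          (Q.bind P₁) (𝒢.Bad p.1) * (Q.bind P₂) (𝒢.Bad p.2) := by
  classical
  have hAA : MeasurableSet 𝒢.AA := by
    rw [AA_eq h𝒢]
    refine Finset.measurableSet_biUnion _ fun k hk => ?_
    rw [Finset.mem_range] at hk
    exact measurableSet_AK h𝒢 (by omega)
  have hsub : 𝒢.CC ⊆ (𝒢.AA ∪ Prod.swap ⁻¹' 𝒢.AA) ∪
      ⋃ p ∈ (Finset.range (𝒢.M - 6) ×ˢ Finset.range (𝒢.M - 6)).filter
          (fun p => p.1 ≤ p.2 + 2 ∧ p.2 ≤ p.1 + 2), 𝒢.Bad p.1 ×ˢ 𝒢.Bad p.2 := by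
    rintro ⟨X, T⟩ ⟨g1, g2, g3, g4, g5, g6⟩
    simp only at g1 g2 g3 g4 g5 g6
    obtain ⟨k, hk, k1, k2⟩ := exists_stage h𝒢 g3 g4
    obtain ⟨l, hl, l1, l2⟩ := exists_stage h𝒢 g5 g6
    by_cases hN : 𝒢.Nt k T
    · exact Or.inl (Or.inl ⟨k, hk, k1, k2, g2, hN⟩)
    by_cases hN' : 𝒢.Nt l X
    · exact Or.inl (Or.inr ⟨l, hl, l1, l2, g1, hN'⟩)
    refine Or.inr (Set.mem_biUnion (x := (l, k)) ?_ ⟨⟨g1, hN'⟩, ⟨g2, hN⟩⟩)
    have c1 := stage_close h𝒢 g1 g2 hk k1 k2 l2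
    have c2 := stage_close h𝒢 g2 g1 hl l1 l2 k2
    simp only [Finset.coe_filter, Finset.mem_product, Finset.mem_range, Set.mem_ofPred_eq]
    omega
  have hswap : WalkSpace.ind Q P₁ P₂ (Prod.swap ⁻¹' 𝒢.AA) = WalkSpace.ind Q P₂ P₁ 𝒢.AA := by
    unfold WalkSpace.ind
    rw [← Measure.prod_swap, Measure.map_apply measurable_swap (measurable_swap hAA)]
    congr 1
  calc WalkSpace.ind Q P₁ P₂ 𝒢.CC
      ≤ (WalkSpace.ind Q P₁ P₂ 𝒢.AA + WalkSpace.ind Q P₁ P₂ (Prod.swap ⁻¹' 𝒢.AA)) +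
        ∑ p ∈ (Finset.range (𝒢.M - 6) ×ˢ Finset.range (𝒢.M - 6)).filter
          (fun p => p.1 ≤ p.2 + 2 ∧ p.2 ≤ p.1 + 2),
          WalkSpace.ind Q P₁ P₂ (𝒢.Bad p.1 ×ˢ 𝒢.Bad p.2) := by
        refine (measure_mono hsub).trans ((measure_union_le _ _).trans ?_)
        exact add_le_add (measure_union_le _ _) (measure_biUnion_finset_le _ _)
    _ ≤ _ := by
        refine add_le_add (add_le_add ?_ ?_) (le_of_eq ?_)
        · exact one_sided h𝒢 hK hc hc' h0 h0' hl hl' hMU₂ hML₁ hH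
        · rw [hswap]
          exact one_sided h𝒢 hK' hc hc' h0 h0' hl hl' hMU₁ hML₂ hH
        · refine Finset.sum_congr rfl fun p _ => ?_
          rw [WalkSpace.ind, Measure.prod_prod]

end laws

end Grid

end Cont

end Crest.Agent.R154
end

-- ▼ part R154/ContK1_424

/-! Row 154, B4 (helper424): the pair theorem with READ contact (both rows read), after 850's
GenPair; `K1P` for every walk space with reading times. -/

set_option autoImplicit false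
set_option linter.unusedVariables false
set_option linter.unusedSectionVars false

namespace Crest.Agent.R154

open MeasureTheory ProbabilityTheory Crest.ProbabilityR.RandomEnvironment
open scoped ENNReal

namespace Cont

variable {d : ℕ} {Ω : Type} [MeasurableSpace Ω] (W : WalkSpace d Ω) (rd : Ω → ℕ → Prop)

/-- the pair `(X stopped at S, T stopped at its first contact with the rows read by X)`. -/
noncomputable def stopPairK (R : ℕ) (S : Ω → ℕ∞) (p : Ω × Ω) : Ω × Ω :=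
  (W.freeze (S p.1) p.1, W.freeze (kap W rd R (W.readE p.1 (S p.1)) p.2) p.2)

/-- stopping time in the pair exploration. -/
noncomputable def pairStopK (R : ℕ) (S : Ω → ℕ∞) (k : ℕ) (s : List (Ω × ℕ)) (X : Ω) : ℕ∞ :=
  match s with
  | [] => min (S X) k
  | q :: l => min (kap W rd R (W.listRows (q :: l)) X) k

/-- the pair exploration, cut at time `k`. -/
noncomputable def pairExpK (R : ℕ) (S : Ω → ℕ∞) (P₁ P₂ : Kernel (Environment d) Ω) (k : ℕ) :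
    GExplorer d Ω (List (Ω × ℕ)) where
  rows s := W.listRows s
  law s := match s with
    | [] => P₁
    | _ :: _ => P₂
  stop := pairStopK W rd R S k
  next s X := (W.freeze (pairStopK W rd R S k s X) X, (pairStopK W rd R S k s X).toNat) :: s

lemma pairExpK_valid (hW : RdSpace W rd) (R : ℕ) {S : Ω → ℕ∞} (hS : W.IsStop S) (Q : Measure (Environment d))
    {P₁ P₂ : Kernel (Environment d) Ω} (h₁ : W.ReadsOnly Q P₁) (h₂ : W.ReadsOnly Q P₂) (k : ℕ) :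
    (pairExpK W rd R S P₁ P₂ k).Valid W Q R where
  isStop s := by
    cases s with
    | nil => exact W.isStop_min_nat hS k
    | cons q l => exact W.isStop_min_nat (isStop_kap hW.det _) k
  det s := by
    intro X Y n hXY hn
    have hY : pairStopK W rd R S k s Y = n := by
      cases s with
      | nil => exact W.isStop_min_nat hS k X Y n hXY hn
      | cons q l => exact W.isStop_min_nat (isStop_kap hW.det _) k X Y n hXY hn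
    have hX : pairStopK W rd R S k s X = n := hn
    simp only [pairExpK, hX, hY, W.freeze_congr hXY]
  far s := by
    intro X n hn z hz
    cases s with
    | nil =>
      intro a ha
      obtain ⟨q, hq, _⟩ := ha
      exact absurd hq (List.not_mem_nil)
    | cons q l =>
      have h1 : min (kap W rd R (W.listRows (q :: l)) X) (k : ℕ∞) = n := hn
      obtain ⟨i, hi, hrd, rfl⟩ := (hW.read_iff X n z).1 hz
      by_contra hcon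
      have h2 : kap W rd R (W.listRows (q :: l)) X ≤ i := ft_le ⟨hrd, hcon⟩
      have h3 : (n : ℕ∞) ≤ i := h1 ▸ (min_le_left _ _).trans h2
      have h4 : n ≤ i := by exact_mod_cast h3
      omega
  rows_next s := by
    intro X n hn z hz
    have hX : pairStopK W rd R S k s X = n := hn
    rcases hz with hz | hz
    · obtain ⟨q, hq, hz⟩ := hz
      exact ⟨q, List.mem_cons_of_mem _ hq, hz⟩
    · refine ⟨_, List.mem_cons_self, ?_⟩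
      simp only [hX, ENat.toNat_natCast]
      rw [← W.read_det n X _ (W.hist_freeze_self n X)]
      exact hz
  reads s := by
    cases s with
    | nil => exact h₁
    | cons q l => exact h₂

/-- the cut events. -/
def cutEvK (R : ℕ) (S : Ω → ℕ∞) (γ δ : Ω) (n m k : ℕ) : Set (Ω × Ω) :=
  {p | W.freeze (min (S p.1) k) p.1 ∈ W.cyl γ n ∧
    W.freeze (min (kap W rd R (W.readE p.1 (min (S p.1) k)) p.2) k) p.2 ∈ W.cyl δ m}

lemma cutEvK_congr (hW : RdSpace W rd) (R : ℕ) {S : Ω → ℕ∞} (hS : W.IsStop S) (γ δ : Ω) (n m k : ℕ)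
    (p q : Ω × Ω) (h1 : W.hist k p.1 = W.hist k q.1) (h2 : W.hist k p.2 = W.hist k q.2)
    (hp : p ∈ cutEvK W rd R S γ δ n m k) : q ∈ cutEvK W rd R S γ δ n m k := by
  obtain ⟨hp1, hp2⟩ := hp
  obtain ⟨j, hj⟩ := ENat.ne_top_iff_exists.1 (min_nat_lt_top (S p.1) k).ne
  have hjk : j ≤ k := by
    have : (j : ℕ∞) ≤ k := hj ▸ min_le_right _ _
    exact_mod_cast this
  have hj1 := W.mono _ _ hjk h1
  have hq : min (S q.1) (k : ℕ∞) = j := W.isStop_min_nat hS k p.1 q.1 j hj1 hj.symm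
  have e1 : W.freeze (min (S q.1) k) q.1 = W.freeze (min (S p.1) k) p.1 := by
    rw [hq, ← hj]
    exact (W.freeze_congr hj1).symm
  have e2 : W.readE q.1 (min (S q.1) k) = W.readE p.1 (min (S p.1) k) := by
    rw [hq, ← hj, W.readE_coe, W.readE_coe]
    exact (W.read_det j _ _ hj1).symm
  refine ⟨by rw [e1]; exact hp1, ?_⟩
  rw [e2]
  set V := W.readE p.1 (min (S p.1) k) with hV
  obtain ⟨l, hl⟩ := ENat.ne_top_iff_exists.1 (min_nat_lt_top (kap W rd R V p.2) k).ne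
  have hlk : l ≤ k := by
    have : (l : ℕ∞) ≤ k := hl ▸ min_le_right _ _
    exact_mod_cast this
  have hl2 := W.mono _ _ hlk h2
  have hq2 : min (kap W rd R V q.2) (k : ℕ∞) = l :=
    W.isStop_min_nat (isStop_kap hW.det _) k p.2 q.2 l hl2 hl.symm
  rw [hq2, ← W.freeze_congr hl2, hl]
  exact hp2

lemma measurableSet_cutEvK (hW : RdSpace W rd) (R : ℕ) {S : Ω → ℕ∞} (hS : W.IsStop S) (γ δ : Ω) (n m k : ℕ) :
    MeasurableSet (cutEvK W rd R S γ δ n m k) :=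
  W.measurableSet_of_hist_pair k _ fun p q h1 h2 => cutEvK_congr W rd hW R hS γ δ n m k p q h1 h2

lemma pairPayK_eq (R : ℕ) {S : Ω → ℕ∞} (P₁ P₂ : Kernel (Environment d) Ω) (γ δ : Ω)
    (n m k : ℕ) (X T : Ω) :
    W.pairPay γ δ n m ((pairExpK W rd R S P₁ P₂ k).next ((pairExpK W rd R S P₁ P₂ k).next [] X) T)
      = (cutEvK W rd R S γ δ n m k).indicator 1 (X, T) := by
  classical
  obtain ⟨j, hj⟩ := ENat.ne_top_iff_exists.1 (min_nat_lt_top (S X) k).ne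
  have e1 : pairStopK W rd R S k [] X = j := hj.symm
  have e2 : W.listRows [(W.freeze (pairStopK W rd R S k [] X) X, (pairStopK W rd R S k [] X).toNat)]
      = W.readE X (min (S X) k) := by
    rw [e1, W.listRows_single, ← hj, W.readE_coe, ENat.toNat_natCast]
    exact (W.read_det j _ _ (W.hist_freeze_self j X)).symm
  simp only [pairExpK, pairPay]
  simp only [pairStopK] at e2 ⊢
  rw [e2]
  simp only [Set.indicator_apply, cutEvK, Set.mem_ofPred_eq, Pi.one_apply]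
  by_cases h1 : W.freeze (min (S X) k) X ∈ W.cyl γ n <;>
    by_cases h2 : W.freeze (min (kap W rd R (W.readE X (min (S X) k)) T) k) T ∈ W.cyl δ m <;>
    simp [WalkSpace.pairPay, h1, h2]

lemma pairStopK_lt_top (R : ℕ) (S : Ω → ℕ∞) (k : ℕ) (s : List (Ω × ℕ)) (X : Ω) :
    pairStopK W rd R S k s X < ⊤ := by
  cases s with
  | nil => exact min_nat_lt_top _ _
  | cons q l => exact min_nat_lt_top _ _

/-- the two laws agree on the cut events. -/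
lemma cutEvK_eq (hW : RdSpace W rd) (R : ℕ) {S : Ω → ℕ∞} (hS : W.IsStop S) (Q : Measure (Environment d))
    [IsProbabilityMeasure Q] (hQ : IndepAt R Q) {P₁ P₂ : Kernel (Environment d) Ω}
    [IsFiniteKernel P₁] [IsFiniteKernel P₂] (h₁ : W.ReadsOnly Q P₁) (h₂ : W.ReadsOnly Q P₂)
    (γ δ : Ω) (n m k : ℕ) :
    WalkSpace.same Q P₁ P₂ (cutEvK W rd R S γ δ n m k) = WalkSpace.ind Q P₁ P₂ (cutEvK W rd R S γ δ n m k) := by
  have hmeas := measurableSet_cutEvK W rd hW R hS γ δ n m k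
  have key := (pairExpK W rd R S P₁ P₂ k).explore_prob (pairExpK_valid W rd hW R hS Q h₁ h₂ k) hQ
    (W.pairPay γ δ n m) 2 []
  have huniv : ∀ s, {X | (pairExpK W rd R S P₁ P₂ k).stop s X < ⊤} = Set.univ := by
    intro s
    rw [Set.eq_univ_iff_forall]
    intro X
    exact pairStopK_lt_top W rd R S k s X
  have hq : ∀ ω, (pairExpK W rd R S P₁ P₂ k).qVal (W.pairPay γ δ n m) ω 2 []
      = ((P₁ ω).prod (P₂ ω)) (cutEvK W rd R S γ δ n m k) := by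
    intro ω
    rw [Measure.prod_apply hmeas]
    simp only [GExplorer.qVal, huniv, Measure.restrict_univ]
    refine lintegral_congr fun X => ?_
    rw [← lintegral_indicator_one (measurable_prodMk_left hmeas)]
    refine lintegral_congr fun T => ?_
    rw [pairPayK_eq W rd R]
    rfl
  have ha : (pairExpK W rd R S P₁ P₂ k).aVal (W.pairPay γ δ n m) Q 2 []
      = ((Q.bind P₁).prod (Q.bind P₂)) (cutEvK W rd R S γ δ n m k) := by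
    rw [Measure.prod_apply hmeas]
    simp only [GExplorer.aVal, huniv, Measure.restrict_univ]
    refine lintegral_congr fun X => ?_
    rw [← lintegral_indicator_one (measurable_prodMk_left hmeas)]
    refine lintegral_congr fun T => ?_
    rw [pairPayK_eq W rd R]
    rfl
  rw [WalkSpace.same_apply _ _ _ hmeas, WalkSpace.ind, ← ha, ← key]
  exact lintegral_congr fun ω => (hq ω).symm

/-! ### passage to the limit -/

lemma eventually_cutEvK (R : ℕ) (S : Ω → ℕ∞) (γ δ : Ω) (n m : ℕ) (p : Ω × Ω) :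
    ∀ᶠ k in Filter.atTop, p ∈ cutEvK W rd R S γ δ n m k ↔
      p ∈ stopPairK W rd R S ⁻¹' (W.cyl γ n ×ˢ W.cyl δ m) := by
  obtain ⟨X, T⟩ := p
  have h1 : ∀ᶠ k in Filter.atTop, W.hist m
      (W.freeze (kap W rd R (W.readE X (min (S X) (k : ℕ))) T) T)
      = W.hist m (W.freeze (kap W rd R (W.readE X (S X)) T) T) := by
    have hsub : ∀ k : ℕ, W.readE X (min (S X) k) ⊆ W.readE X (S X) :=
      fun k => W.readE_mono X (min_le_left _ _)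
    rcases le_or_gt (m : ℕ∞) (kap W rd R (W.readE X (S X)) T) with hc | hc
    · refine Filter.Eventually.of_forall fun k => ?_
      rw [W.hist_freeze_of_le hc, W.hist_freeze_of_le (hc.trans (kap_anti (hsub k) T))]
    · obtain ⟨j, hj⟩ := ENat.ne_top_iff_exists.1 (hc.trans (ENat.natCast_lt_top m)).ne
      obtain ⟨hrT, a, ⟨l, hl, ha⟩, ha2⟩ := kap_spec hj.symm
      filter_upwards [Filter.eventually_ge_atTop l] with k hk
      have h3 : kap W rd R (W.readE X (min (S X) k)) T ≤ j := by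
        refine ft_le ⟨hrT, not_far_iff.2 ⟨a, ⟨l, le_min hl (by exact_mod_cast hk), ha⟩, ha2⟩⟩
      have h4 : kap W rd R (W.readE X (min (S X) k)) T = kap W rd R (W.readE X (S X)) T :=
        le_antisymm (hj ▸ h3) (kap_anti (hsub k) T)
      rw [h4]
  filter_upwards [h1, Filter.eventually_ge_atTop n, Filter.eventually_ge_atTop m]
    with k hk hn hm
  simp only [cutEvK, Set.mem_ofPred_eq, stopPairK, Set.mem_preimage, Set.mem_prod]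
  rw [W.mem_cyl_congr (W.hist_freeze_min (S X) k n hn X),
    W.mem_cyl_congr ((W.hist_freeze_min _ k m hm T).trans hk)]

variable [Nonempty Ω]

lemma measurable_stopPairK (hW : RdSpace W rd) (R : ℕ) {S : Ω → ℕ∞} (hS : W.IsStop S) :
    Measurable (stopPairK W rd R S) := by
  have h : @Measurable _ _ _ (MeasurableSpace.generateFrom
      (Set.image2 (· ×ˢ ·) W.cyls W.cyls)) (stopPairK W rd R S) := by
    refine measurable_generateFrom ?_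
    rintro _ ⟨_, ⟨γ, n, rfl⟩, _, ⟨δ, m, rfl⟩, rfl⟩
    exact measurableSet_of_tendsto_indicator Filter.atTop
      (fun k => measurableSet_cutEvK W rd hW R hS γ δ n m k)
      (fun p => eventually_cutEvK W rd R S γ δ n m p)
  exact h.mono le_rfl W.gen_prod.le

/-- **SAME ENVIRONMENT = INDEPENDENT ENVIRONMENTS up to the first contact (generic form).** -/
theorem same_map_eq_ind_mapK (hW : RdSpace W rd) (R : ℕ) {S : Ω → ℕ∞} (hS : W.IsStop S)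
    (Q : Measure (Environment d)) [IsProbabilityMeasure Q] (hQ : IndepAt R Q)
    {P₁ P₂ : Kernel (Environment d) Ω} [IsFiniteKernel P₁] [IsFiniteKernel P₂]
    (h₁ : W.ReadsOnly Q P₁) (h₂ : W.ReadsOnly Q P₂) :
    (WalkSpace.same Q P₁ P₂).map (stopPairK W rd R S) = (WalkSpace.ind Q P₁ P₂).map (stopPairK W rd R S) := by
  have hm := measurable_stopPairK W rd hW R hS
  refine W.measure_ext_prod fun γ δ n m => ?_
  rw [Measure.map_apply hm ((W.measurableSet_cyl _ _).prod (W.measurableSet_cyl _ _)),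
    Measure.map_apply hm ((W.measurableSet_cyl _ _).prod (W.measurableSet_cyl _ _))]
  have h1 := tendsto_measure_of_tendsto_indicator_of_isFiniteMeasure Filter.atTop
    (WalkSpace.same Q P₁ P₂) (fun k => measurableSet_cutEvK W rd hW R hS γ δ n m k)
    (fun p => eventually_cutEvK W rd R S γ δ n m p)
  have h2 := tendsto_measure_of_tendsto_indicator_of_isFiniteMeasure Filter.atTop
    (WalkSpace.ind Q P₁ P₂) (fun k => measurableSet_cutEvK W rd hW R hS γ δ n m k)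
    (fun p => eventually_cutEvK W rd R S γ δ n m p)
  simp_rw [cutEvK_eq W rd hW R hS Q hQ h₁ h₂] at h1
  exact tendsto_nhds_unique h1 h2

/-- set form. -/
theorem same_eq_indK (hW : RdSpace W rd) (R : ℕ) {S : Ω → ℕ∞} (hS : W.IsStop S)
    (Q : Measure (Environment d)) [IsProbabilityMeasure Q] (hQ : IndepAt R Q)
    {P₁ P₂ : Kernel (Environment d) Ω} [IsFiniteKernel P₁] [IsFiniteKernel P₂]
    (h₁ : W.ReadsOnly Q P₁) (h₂ : W.ReadsOnly Q P₂)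
    {B : Set (Ω × Ω)} (hB : MeasurableSet B) (hdet : ∀ p, stopPairK W rd R S p ∈ B ↔ p ∈ B) :
    WalkSpace.same Q P₁ P₂ B = WalkSpace.ind Q P₁ P₂ B := by
  have hm := measurable_stopPairK W rd hW R hS
  have hpre : stopPairK W rd R S ⁻¹' B = B := by
    ext p
    exact hdet p
  have := congrArg (fun m => m B) (same_map_eq_ind_mapK W rd hW R hS Q hQ h₁ h₂)
  simp only [Measure.map_apply hm hB, hpre] at this
  exact this


/-- **`K1P` holds on every walk space with reading times.** -/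
theorem k1p (hW : RdSpace W rd) (R : ℕ) (Q : Measure (Environment d)) [IsProbabilityMeasure Q]
    (hQ : IndepAt R Q) {P₁ P₂ : Kernel (Environment d) Ω} [IsFiniteKernel P₁] [IsFiniteKernel P₂]
    (h₁ : W.ReadsOnly Q P₁) (h₂ : W.ReadsOnly Q P₂) : K1P W rd R Q P₁ P₂ := by
  intro S S' hS hS' C hC hdet hle
  refine same_eq_indK W rd hW R hS Q hQ h₁ h₂ hC fun p => ?_
  obtain ⟨X, T⟩ := p
  have e1 : S (W.freeze (S X) X) = S X := W.stop_freeze hS X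
  have eV : W.readE X (S X) = rows W rd X (S X) := readE_eq_rows hW X (S X)
  have eX : rows W rd (W.freeze (S X) X) (S (W.freeze (S X) X)) = rows W rd X (S X) := by
    rw [e1]
    exact ((ag_freeze (W := W) (S X) X).rows_eq hW.det).symm
  simp only [stopPairK, eV]
  set V := rows W rd X (S X) with hV
  have e2 : kap W rd R V (W.freeze (kap W rd R V T) T) = kap W rd R V T :=
    W.stop_freeze (isStop_kap hW.det V) T
  constructor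
  · intro h
    have h3 := hle _ _ h
    rw [eX, e2] at h3
    refine hdet _ _ _ _ ?_ ?_ h
    · rw [e1]; exact (ag_freeze (W := W) (S X) X).symm
    · exact ((ag_freeze (W := W) (kap W rd R V T) T).symm).mono h3
  · intro h
    refine hdet _ _ _ _ (ag_freeze (W := W) (S X) X) ?_ h
    exact (ag_freeze (W := W) (kap W rd R V T) T).mono (hle _ _ h)

end Cont

end Crest.Agent.R154
private theorem rz_56f1a0f97b : type_of% @_root_.Crest.Agent.R154.Cont.pairStopK.eq_1 := @_root_.Crest.Agent.R154.Cont.pairStopK.eq_1 -- L24
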