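import Crest.Agent.R154.FinB_804

/-!
Row 154, block d = 2, (D1) small heights (helper569), part A: quenched cost of a climb from height
`0` inside the half space `lev u ≥ 0`; uniformly elliptic steps, boxes, and a tube of boxes.
-/

set_option autoImplicit false

namespace Crest.Agent.R154.D1S

open MeasureTheory ProbabilityTheory Crest.ProbabilityR.RandomEnvironment Crest.Agent.R154
open Crest.Agent.R154.Flux132 (lev opp norm1)
open scoped ENNReal

variable {d : ℕ}

/-- reach the level `h` before going below the level `0` -/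
def Up0 (u : Step d) (h : ℤ) : Set (Path d) :=
  {X | ∃ n, h ≤ lev u (X n) ∧ ∀ k ≤ n, 0 ≤ lev u (X k)}

theorem measurableSet_up0 (u : Step d) (h : ℤ) : MeasurableSet (Up0 u h) := by
  have : Up0 u h = ⋃ n : ℕ, {X : Path d | h ≤ lev u (X n) ∧ ∀ k ≤ n, 0 ≤ lev u (X k)} := by
    ext X
    simp only [Up0, Set.mem_ofPred_eq, Set.mem_iUnion]
  rw [this]
  refine MeasurableSet.iUnion fun n => measurableSet_of_agree n _ fun X Y hXY => ?_
  simp only [Set.mem_ofPred_eq]
  rw [hXY n le_rfl]
  constructor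
  · rintro ⟨h1, h2⟩
    exact ⟨h1, fun k hk => by rw [← hXY k hk]; exact h2 k hk⟩
  · rintro ⟨h1, h2⟩
    exact ⟨h1, fun k hk => by rw [hXY k hk]; exact h2 k hk⟩

lemma lev_add (u : Step d) (x y : Site d) : lev u (x + y) = lev u x + lev u y := by
  unfold lev
  split_ifs
  · rfl
  · rw [Pi.add_apply]; ring


lemma lev_zero (u : Step d) : lev u 0 = 0 := by
  unfold lev
  split_ifs <;> simp

lemma abs_lev (u : Step d) (x : Site d) : |lev u x| = |x u.1| := by
  unfold lev
  split_ifs
  · rfl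
  · rw [abs_neg]

/-- at the start -/
lemma up0_eq_one (ω : Environment d) (u : Step d) {h : ℤ} {x : Site d} (h0 : 0 ≤ lev u x)
    (hh : h ≤ lev u x) : quenchedLaw ω x (Up0 u h) = 1 := by
  rw [← prob_compl_eq_zero_iff (measurableSet_up0 u h)]
  have : ∀ᵐ X ∂quenchedLaw ω x, X ∈ Up0 u h := by
    filter_upwards [quenched_zero_eq ω x] with X hX
    refine ⟨0, by rw [hX]; exact hh, fun k hk => ?_⟩
    obtain rfl := Nat.le_zero.1 hk
    rw [hX]; exact h0
  exact this

/-- one step -/
lemma step_ge (ω : Environment d) (u : Step d) {h : ℤ} {x : Site d} (e : Step d)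
    (h0 : 0 ≤ lev u x) :
    ENNReal.ofReal ((ω x).1 e) * quenchedLaw ω (x + stepVec e) (Up0 u h)
      ≤ quenchedLaw ω x (Up0 u h) := by
  classical
  set γ : Path d := fun i => if i = 0 then x else x + stepVec e with hγ
  have hg0 : γ 0 = x := by simp [hγ]
  have hg1 : γ 1 = x + stepVec e := by simp [hγ]
  have hc : quenchedLaw ω x (cyl γ 1) = ENNReal.ofReal ((ω x).1 e) := by
    rw [quenched_cyl, if_pos hg0]
    simp only [wt, Finset.range_one, Finset.prod_singleton, zero_add]
    rw [hg0, hg1, stepP_add]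
  have hm := markov_event ω x 1 (A := cyl γ 1) (B := Up0 u h)
    (fun X Y h => ⟨fun hX => h.symm.trans hX, fun hY => h.trans hY⟩) (measurableSet_up0 u h)
  have e1 : ∫⁻ X in cyl γ 1, quenchedLaw ω (X 1) (Up0 u h) ∂quenchedLaw ω x
      = ∫⁻ _ in cyl γ 1, quenchedLaw ω (x + stepVec e) (Up0 u h) ∂quenchedLaw ω x := by
    refine setLIntegral_congr_fun (measurableSet_cyl _ _) fun X hX => ?_
    rw [hX 1 le_rfl, hg1]
  rw [e1, setLIntegral_const, hc, mul_comm] at hm
  rw [← hm]
  refine measure_mono ?_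
  rintro X ⟨hX, m, hX1, hX2⟩
  have h0' : X 0 = x := by rw [hX 0 (Nat.zero_le _), hg0]
  simp only [shift] at hX1 hX2
  refine ⟨1 + m, hX1, fun i hi2 => ?_⟩
  rcases Nat.eq_zero_or_pos i with rfl | hi
  · rw [h0']; exact h0
  · have h2 := hX2 (i - 1) (by omega)
    rwa [Nat.add_sub_cancel' hi] at h2

lemma norm1_eq_zero {x : Site d} (h : norm1 x = 0) : x = 0 := by
  unfold norm1 at h
  rw [Finset.sum_eq_zero_iff] at h
  funext i
  have := h i (Finset.mem_univ i)
  simpa using this

/-- a step towards the target -/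
lemma exists_step_towards (u : Step d) {x y : Site d} {n : ℕ} (h : norm1 (y - x) = n + 1)
    (hx : 0 ≤ lev u x) (hy : 0 ≤ lev u y) :
    ∃ e : Step d, norm1 (y - (x + stepVec e)) = n ∧ 0 ≤ lev u (x + stepVec e) := by
  classical
  obtain ⟨i, hi⟩ : ∃ i, (y - x) i ≠ 0 := by
    by_contra hcon
    push Not at hcon
    have : y - x = 0 := funext hcon
    rw [this] at h
    simp [norm1] at h
  have hi' : y i - x i ≠ 0 := hi
  refine ⟨(i, decide (0 < y i - x i)), ?_, ?_⟩
  · set e : Step d := (i, decide (0 < y i - x i)) with he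
    have hoth : ∀ j, j ≠ i → (y - (x + stepVec e)) j = (y - x) j := by
      intro j hj
      simp only [Pi.sub_apply, Pi.add_apply, stepVec, he, Pi.single_eq_of_ne hj]
      ring
    have hsame : ((y - (x + stepVec e)) i).natAbs + 1 = ((y - x) i).natAbs := by
      simp only [Pi.sub_apply, Pi.add_apply, stepVec, he, Pi.single_eq_same]
      by_cases hpos : 0 < y i - x i
      · simp only [hpos, decide_true, if_true]
        omega
      · simp only [hpos, decide_false, Bool.false_eq_true, if_false]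
        omega
    unfold norm1 at h ⊢
    rw [← Finset.add_sum_erase _ _ (Finset.mem_univ i)] at h ⊢
    rw [Finset.sum_congr rfl (g := fun j => ((y - x) j).natAbs) (fun j hj => by
      rw [hoth j (Finset.ne_of_mem_erase hj)])]
    omega
  · unfold lev at hx hy ⊢
    by_cases hiu : i = u.1
    · subst hiu
      simp only [Pi.add_apply, stepVec, Pi.single_eq_same]
      by_cases hu2 : u.2 = true
      · simp only [hu2, if_true] at hx hy ⊢
        by_cases hpos : 0 < y u.1 - x u.1
        · simp only [hpos, decide_true, if_true]; omega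
        · simp only [hpos, decide_false, Bool.false_eq_true, if_false]; omega
      · simp only [hu2, if_false, Bool.false_eq_true] at hx hy ⊢
        by_cases hpos : 0 < y u.1 - x u.1
        · simp only [hpos, decide_true, if_true]; omega
        · simp only [hpos, decide_false, Bool.false_eq_true, if_false]; omega
    · have hne : u.1 ≠ i := fun h => hiu h.symm
      simp only [Pi.add_apply, stepVec, Pi.single_eq_of_ne hne, add_zero]
      exact hx

/-- **UE path inside the half space** -/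
theorem path_ge (ω : Environment d) {κ : ℝ} (hell : ∀ (x : Site d) (e : Step d), κ ≤ (ω x).1 e)
    (u : Step d) (h : ℤ) (n : ℕ) :
    ∀ x y : Site d, norm1 (y - x) ≤ n → κ ≤ 1 → 0 ≤ lev u x → 0 ≤ lev u y →
      ENNReal.ofReal κ ^ n * quenchedLaw ω y (Up0 u h) ≤ quenchedLaw ω x (Up0 u h) := by
  induction n with
  | zero =>
    intro x y hxy _ _ _
    have : y - x = 0 := norm1_eq_zero (Nat.le_zero.1 hxy)
    rw [sub_eq_zero.1 this, pow_zero, one_mul]
  | succ n ih =>
    intro x y hxy hκ hx hy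
    rcases Nat.lt_or_ge n (norm1 (y - x)) with h1 | h1
    · obtain ⟨e, he1, he2⟩ := exists_step_towards u (n := n) (by omega) hx hy
      have h2 := ih (x + stepVec e) y he1.le hκ he2 hy
      calc ENNReal.ofReal κ ^ (n + 1) * quenchedLaw ω y (Up0 u h)
          = ENNReal.ofReal κ * (ENNReal.ofReal κ ^ n * quenchedLaw ω y (Up0 u h)) := by
            rw [pow_succ]; ring
        _ ≤ ENNReal.ofReal ((ω x).1 e) * quenchedLaw ω (x + stepVec e) (Up0 u h) :=
            mul_le_mul' (ENNReal.ofReal_le_ofReal (hell x e)) h2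
        _ ≤ _ := step_ge ω u e hx
    · refine le_trans ?_ (ih x y h1 hκ hx hy)
      refine mul_le_mul' ?_ le_rfl
      exact pow_le_pow_right_of_le_one' (by
        rw [← ENNReal.ofReal_one]; exact ENNReal.ofReal_le_ofReal hκ) (Nat.le_succ n)

/-! ### boxes -/

/-- from the centre `c`: the first hit of level `lev c + s` is within `ρ` of `c + s v`, before that
the walk stays in the box of radius `M s` and above level `lev c - s`. -/
def Ev (u : Step d) (v : Fin d → ℝ) (ρ : ℝ) (M s : ℕ) (c : Site d) : Set (Path d) :=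
  {X | X 0 = c ∧ ∃ n, lev u (X n) = lev u c + s ∧ (∀ k < n, lev u (X k) < lev u c + s) ∧
    (∀ i, |((X n i : ℤ) : ℝ) - c i - s * v i| ≤ ρ) ∧
    ∀ k < n, (∀ i, |X k i - c i| ≤ M * s) ∧ lev u c - s ≤ lev u (X k)}

theorem measurableSet_ev (u : Step d) (v : Fin d → ℝ) (ρ : ℝ) (M s : ℕ) (c : Site d) :
    MeasurableSet (Ev u v ρ M s c) := by
  have : Ev u v ρ M s c = ⋃ n : ℕ, {X : Path d | X 0 = c ∧ lev u (X n) = lev u c + s ∧
      (∀ k < n, lev u (X k) < lev u c + s) ∧ (∀ i, |((X n i : ℤ) : ℝ) - c i - s * v i| ≤ ρ) ∧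
      ∀ k < n, (∀ i, |X k i - c i| ≤ M * s) ∧ lev u c - s ≤ lev u (X k)} := by
    ext X
    simp only [Ev, Set.mem_ofPred_eq, Set.mem_iUnion, exists_and_left]
  rw [this]
  refine MeasurableSet.iUnion fun n => measurableSet_of_agree n _ fun X Y hXY => ?_
  simp only [Set.mem_ofPred_eq]
  rw [hXY n le_rfl, hXY 0 (Nat.zero_le n)]
  refine and_congr Iff.rfl (and_congr Iff.rfl (and_congr ?_ (and_congr Iff.rfl ?_)))
  · exact forall_congr' fun k => forall_congr' fun hk => by rw [hXY k hk.le]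
  · exact forall_congr' fun k => forall_congr' fun hk => by rw [hXY k hk.le]

/-- the box of the centre `c` -/
def Bx (u : Step d) (M s : ℕ) (c : Site d) : Set (Site d) :=
  {y | (∀ i, |y i - c i| ≤ M * s) ∧ lev u c - s ≤ lev u y ∧ lev u y < lev u c + s}

theorem dec_ev (u : Step d) (v : Fin d → ℝ) (ρ : ℝ) (M s : ℕ) (c : Site d) :
    Q561.Dec (Bx u M s c) (Ev u v ρ M s c) := by
  ext X
  constructor
  · rintro ⟨h0, n, h1, h2, h3, h4⟩
    have hin : ∀ k < n, Q561.stopAt (Bx u M s c) X k ∈ Bx u M s c := fun k hk =>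
      ⟨(h4 k hk).1, (h4 k hk).2, h2 k hk⟩
    have hin' : ∀ k < n, X k ∈ Bx u M s c := fun k hk => Q561.mem_of_stopAt_mem (hin k hk) k le_rfl
    have heq : ∀ k ≤ n, Q561.stopAt (Bx u M s c) X k = X k := fun k hk =>
      Q561.stopAt_eq_of_mem fun j hj => hin' j (lt_of_lt_of_le hj hk)
    rw [heq n le_rfl] at h1 h3
    exact ⟨h0, n, h1, fun k hk => (hin' k hk).2.2, h3, fun k hk => ⟨(hin' k hk).1, (hin' k hk).2.1⟩⟩
  · rintro ⟨h0, n, h1, h2, h3, h4⟩
    have hin' : ∀ k < n, X k ∈ Bx u M s c := fun k hk => ⟨(h4 k hk).1, (h4 k hk).2, h2 k hk⟩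
    have heq : ∀ k ≤ n, Q561.stopAt (Bx u M s c) X k = X k := fun k hk =>
      Q561.stopAt_eq_of_mem fun j hj => hin' j (lt_of_lt_of_le hj hk)
    refine ⟨h0, n, by rw [heq n le_rfl]; exact h1, fun k hk => by rw [heq k hk.le]; exact h2 k hk,
      fun i => by rw [heq n le_rfl]; exact h3 i, fun k hk => by rw [heq k hk.le]; exact h4 k hk⟩

/-- **one good box** -/
theorem box_ge (ω : Environment d) (u : Step d) (v : Fin d → ℝ) (ρ : ℝ) (M s : ℕ) (h : ℤ)
    {c : Site d} (hc : (s : ℤ) ≤ lev u c) {p : ℝ≥0∞} (hp : p ≤ quenchedLaw ω c (Ev u v ρ M s c))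
    {q : ℝ≥0∞} (hq : ∀ z : Site d, lev u z = lev u c + s →
      (∀ i, |((z i : ℤ) : ℝ) - c i - s * v i| ≤ ρ) → q ≤ quenchedLaw ω z (Up0 u h)) :
    p * q ≤ quenchedLaw ω c (Up0 u h) := by
  classical
  set τ : Path d → ℕ∞ := firstTime (fun z => lev u c + s ≤ lev u z) with hτd
  have hτ : IsStop τ := isStop_firstTime _
  set A := Ev u v ρ M s c with hAd
  have key : ∀ X ∈ A, ∃ n : ℕ, τ X = n ∧ lev u (X n) = lev u c + s ∧
      (∀ i, |((X n i : ℤ) : ℝ) - c i - s * v i| ≤ ρ) ∧ ∀ k ≤ n, 0 ≤ lev u (X k) := by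
    rintro X ⟨_, n, h1, h2, h3, h4⟩
    refine ⟨n, ?_, h1, h3, fun k hk => ?_⟩
    · rw [hτd, firstTime_eq_iff]
      exact ⟨h1.ge, fun i hi => not_le.2 (h2 i hi)⟩
    · rcases Nat.lt_or_ge k n with hk' | hk'
      · have := (h4 k hk').2; omega
      · obtain rfl := le_antisymm hk hk'
        rw [h1]; omega
  have hA : DetBy τ (· ∈ A) := by
    intro X Y n hXY hn
    have hn' : τ Y = n := hτ X Y n hXY hn
    have hgen : ∀ X Y : Path d, Agree n X Y → τ X = n → X ∈ A → Y ∈ A := by
      intro X Y hXY hn hX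
      obtain ⟨h0, m, h1, h2, h3, h4⟩ := hX
      have hm : τ X = m := by
        rw [hτd, firstTime_eq_iff]
        exact ⟨h1.ge, fun i hi => not_le.2 (h2 i hi)⟩
      have hmn : m = n := by
        rw [hn] at hm; exact_mod_cast hm.symm
      subst hmn
      refine ⟨by rw [← hXY 0 (Nat.zero_le _)]; exact h0, m, by rw [← hXY m le_rfl]; exact h1,
        fun k hk => by rw [← hXY k hk.le]; exact h2 k hk, fun i => by rw [← hXY m le_rfl]; exact h3 i,
        fun k hk => by rw [← hXY k hk.le]; exact h4 k hk⟩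
    exact propext ⟨hgen X Y hXY hn, hgen Y X hXY.symm hn'⟩
  have hAm : MeasurableSet A := measurableSet_ev u v ρ M s c
  have hTA : {X | τ X ≠ ⊤} ∩ A = A := by
    refine Set.inter_eq_right.2 fun X hX => ?_
    obtain ⟨n, hn, _⟩ := key X hX
    show τ X ≠ ⊤
    rw [hn]; exact ENat.natCast_ne_top n
  have hsm := strong_markov_event ω c hτ hA hAm (measurableSet_up0 u h)
  rw [hTA] at hsm
  have h1 : p * q ≤ ∫⁻ X in A, quenchedLaw ω (X (τ X).toNat) (Up0 u h) ∂quenchedLaw ω c := by
    calc p * q ≤ quenchedLaw ω c A * q := mul_le_mul' hp le_rfl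
      _ = ∫⁻ _ in A, q ∂quenchedLaw ω c := by rw [setLIntegral_const, mul_comm]
      _ ≤ _ := by
        refine setLIntegral_mono' hAm fun X hX => ?_
        obtain ⟨n, hn, h1, h2, _⟩ := key X hX
        rw [hn, ENat.toNat_natCast]
        exact hq _ h1 h2
  refine h1.trans (hsm.symm.le.trans (measure_mono ?_))
  rintro X ⟨hX, hX2⟩
  obtain ⟨n, hn, h1, _, h3⟩ := key X hX
  have hX2' : shift (τ X).toNat X ∈ Up0 u h := hX2
  rw [hn, ENat.toNat_natCast] at hX2'
  obtain ⟨m, hm1, hm2⟩ := hX2'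
  refine ⟨n + m, hm1, fun k hk => ?_⟩
  rcases Nat.le_total k n with hk' | hk'
  · exact h3 k hk'
  · have := hm2 (k - n) (by omega)
    simp only [shift] at this
    rwa [Nat.add_sub_cancel' hk'] at this

/-- **a tube of boxes**: `D` bounds the recentring, `D'` the distance of successive centres. -/
theorem tube_ge (ω : Environment d) {κ : ℝ} (hκ1 : κ ≤ 1)
    (hell : ∀ (x : Site d) (e : Step d), κ ≤ (ω x).1 e)
    (u : Step d) (v : Fin d → ℝ) (ρ : ℝ) (M s : ℕ) (h : ℤ) (c : ℕ → Site d)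
    (hc : ∀ k, (s : ℤ) ≤ lev u (c k)) (D D' : ℕ)
    (hD : ∀ k, ∀ z : Site d, lev u z = lev u (c k) + s →
      (∀ i, |((z i : ℤ) : ℝ) - c k i - s * v i| ≤ ρ) → norm1 (c (k + 1) - z) ≤ D)
    (hD' : ∀ k, norm1 (c (k + 1) - c k) ≤ D') (S : Finset ℕ) (K : ℕ)
    (hS : ∀ k < K, k ∉ S → 1 / 2 ≤ quenchedLaw ω (c k) (Ev u v ρ M s (c k)))
    (hK : h ≤ lev u (c K)) :
    ∀ j ≤ K, (1 / 2) ^ (K - j) * ENNReal.ofReal κ ^ (D * (K - j) + D' * (S.filter (j ≤ ·)).card)
      ≤ quenchedLaw ω (c j) (Up0 u h) := by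
  have hk1 : ENNReal.ofReal κ ≤ 1 := by
    rw [← ENNReal.ofReal_one]; exact ENNReal.ofReal_le_ofReal hκ1
  have hlev : ∀ k, 0 ≤ lev u (c k) := fun k => le_trans (by positivity) (hc k)
  intro j hj
  induction hn : K - j generalizing j with
  | zero =>
    have : j = K := by omega
    subst this
    rw [up0_eq_one ω u (hlev j) hK, pow_zero, one_mul]
    exact pow_le_one' hk1 _
  | succ n ih =>
    have hjK : j < K := by omega
    have ih' := ih (j + 1) (by omega) (by omega)
    by_cases hjS : j ∈ S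
    · have hcard : (S.filter (j ≤ ·)).card = (S.filter (j + 1 ≤ ·)).card + 1 := by
        have : S.filter (j ≤ ·) = insert j (S.filter (j + 1 ≤ ·)) := by
          ext a
          simp only [Finset.mem_filter, Finset.mem_insert]
          constructor
          · rintro ⟨h1, h2⟩
            rcases Nat.eq_or_lt_of_le h2 with h3 | h3
            · exact Or.inl h3.symm
            · exact Or.inr ⟨h1, h3⟩
          · rintro (rfl | ⟨h1, h2⟩)
            · exact ⟨hjS, le_rfl⟩
            · exact ⟨h1, by omega⟩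
        rw [this, Finset.card_insert_of_notMem (by simp)]
      have h1 := path_ge ω hell u h D' (c j) (c (j + 1)) (hD' j) hκ1 (hlev j) (hlev (j + 1))
      calc (1 / 2 : ℝ≥0∞) ^ (n + 1) * ENNReal.ofReal κ ^ (D * (n + 1) + D' * (S.filter (j ≤ ·)).card)
          ≤ (1 / 2) ^ n * ENNReal.ofReal κ ^ (D * n + D' * (S.filter (j + 1 ≤ ·)).card + D') := by
            refine mul_le_mul' ?_ ?_
            · refine pow_le_pow_right_of_le_one' ?_ (Nat.le_succ n)
              rw [one_div]; exact ENNReal.inv_le_one.2 (by norm_num)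
            · refine pow_le_pow_right_of_le_one' hk1 ?_
              rw [hcard]
              nlinarith
        _ = ENNReal.ofReal κ ^ D' * ((1 / 2) ^ n *
              ENNReal.ofReal κ ^ (D * n + D' * (S.filter (j + 1 ≤ ·)).card)) := by
            rw [pow_add]; ring
        _ ≤ ENNReal.ofReal κ ^ D' * quenchedLaw ω (c (j + 1)) (Up0 u h) :=
            mul_le_mul' le_rfl ih'
        _ ≤ _ := h1
    · have hcard : (S.filter (j + 1 ≤ ·)).card ≤ (S.filter (j ≤ ·)).card := by
        refine Finset.card_le_card fun a ha => ?_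
        simp only [Finset.mem_filter] at ha ⊢
        exact ⟨ha.1, by omega⟩
      have h1 := box_ge ω u v ρ M s h (hc j) (hS j hjK hjS)
        (q := ENNReal.ofReal κ ^ D * ((1 / 2) ^ n *
              ENNReal.ofReal κ ^ (D * n + D' * (S.filter (j + 1 ≤ ·)).card)))
        (fun z hz1 hz2 => by
          refine (mul_le_mul' le_rfl ih').trans ?_
          refine path_ge ω hell u h D z (c (j + 1)) (hD j z hz1 hz2) hκ1 ?_ (hlev (j + 1))
          rw [hz1]
          have := hlev j
          positivity)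
      refine le_trans ?_ h1
      calc (1 / 2 : ℝ≥0∞) ^ (n + 1) * ENNReal.ofReal κ ^ (D * (n + 1) + D' * (S.filter (j ≤ ·)).card)
          ≤ (1 / 2) ^ (n + 1) * ENNReal.ofReal κ ^ (D * (n + 1) + D' * (S.filter (j + 1 ≤ ·)).card) := by
            refine mul_le_mul' le_rfl (pow_le_pow_right_of_le_one' hk1 ?_)
            gcongr
        _ = 1 / 2 * (ENNReal.ofReal κ ^ D * ((1 / 2) ^ n *
              ENNReal.ofReal κ ^ (D * n + D' * (S.filter (j + 1 ≤ ·)).card))) := by
            rw [pow_succ, mul_add, mul_one, add_right_comm, pow_add _ (D * n + _) D]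
            ring

end Crest.Agent.R154.D1S
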