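import Crest.Agent.R154.Spine_796
import Crest.Agent.R154.B2Frame_719_Mg
import Crest.Agent.R154.FinE_804

-- ▼ part R154/SpineH_796
section

/-! Row 154, SPINE (helper796): input 1 (`HalfProp`) is closed (419's `halfSpace_of` + 719's
`Frame.x_bounded`), so S0219 <- `NBProp`, S0221 <- `FL3Prop`, S0220 <- `FL3Prop` + `FL2Prop`. -/

set_option autoImplicit false

namespace Crest.Agent.R154.Spine

open MeasureTheory ProbabilityTheory Crest.ProbabilityR.RandomEnvironment Crest.Agent.R154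
open Crest.Agent.R154.B2d Crest.Agent.R154.Bind263
open scoped ENNReal Topology

/-- **input 1 closed**: half space property in every frame. -/
theorem halfProp : HalfProp := by
  intro d Q _ κ R F ℓ h hℓ
  have h' : annealedProb Q 0 (escapeEvent ℓ) ≠ 0 := by
    rwa [← annealed_apply Q 0 (B2d.measurableSet_escapeEvent ℓ)]
  exact Half419.halfSpace_of F ℓ hℓ h'
    fun i => F.x_bounded ℓ hℓ h' (Half419.crd i) (abs_crd_stp i)

theorem s0219' (hNB : NBProp) : T0219 := s0219 halfProp hNB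


theorem s0221' (h3 : FL3Prop) : T0221 := s0221 halfProp h3

end Crest.Agent.R154.Spine
end

-- ▼ part R154/Spine2_796

/-!
Row 154, SPINE, second layer (helper796).

`FLeProp` : single input for `d ≥ 3` (all frames), in 804's elliptic form.
`FLofFLe` : `FLe → FL` under uniform ellipticity (263).
`FL2Prop1`: `d = 2`, iid UE, only for directions of escape with probability one, one order `M = 8`
            and threshold `1/√h` (409's form).
-/

set_option autoImplicit false

namespace Crest.Agent.R154.Spine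

open MeasureTheory ProbabilityTheory Crest.ProbabilityR.RandomEnvironment Crest.Agent.R154
open Crest.Agent.R154.B2d Crest.Agent.R154.Bind263
open scoped ENNReal Topology

/-- **SINGLE OPEN INPUT for `d ≥ 3`** (B3-B8, every frame). -/
def FLeProp : Prop :=
  ∀ (d : ℕ) (_ : 3 ≤ d) (Q : Measure (Environment d)) [IsProbabilityMeasure Q] (κ : ℝ) (R : ℕ),
    Frame Q κ R → ∀ u : Step d, annealed Q 0 (escapeEvent (dirVec u)) ≠ 0 → FinE804.FLe Q u

/-- `FLe → FL` under uniform ellipticity. -/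
def FLofFLe : Prop :=
  ∀ (d : ℕ) (Q : Measure (Environment d)) [IsProbabilityMeasure Q] (κ : ℝ), 0 < κ →
    (∀ᵐ ω ∂Q, ∀ (x : Site d) (e : Step d), κ ≤ (ω x).1 e) →
    ∀ u : Step d, FinE804.FLe Q u → Fin804.FL Q u

/-- **OPEN INPUT for `d = 2`**, weakest form. -/
def FL2Prop1 : Prop :=
  ∀ (ν : Measure (Row 2)) [IsProbabilityMeasure ν] (κ : ℝ), 0 < κ →
    (∀ᵐ p ∂ν, ∀ e : Step 2, κ ≤ p.1 e) → ∀ u : Step 2,
    annealed (iidEnvironmentLaw ν) 0 (escapeEvent (dirVec u)) = 1 →
    B9409.FL (iidEnvironmentLaw ν) (B9409.htu u) 8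

/-- **S0219 from `FLeProp`.** -/
theorem s0219_of_FLe (h : FLeProp) : T0219 := by
  intro d hd ν _ hν ℓ hℓ
  exact FinE804.S0219_end ν hν (halfProp d _ 0 0 (frame_iid ν hν))
    (h d hd _ 0 0 (frame_iid ν hν)) ℓ hℓ

theorem fl3_of_FLe (h : FLeProp) (h' : FLofFLe) : FL3Prop := by
  intro d hd Q _ κ R hκ F hell u hu
  exact h' d Q κ hκ hell u (h d hd Q κ R F u hu)

/-- **S0221 from `FLeProp` and `FLofFLe`.** -/
theorem s0221_of_FLe (h : FLeProp) (h' : FLofFLe) : T0221 := s0221' (fl3_of_FLe h h')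

/-- **S0220** from `FL3Prop` and the weak form of the input for `d = 2`. -/
theorem s0220_weak (h3 : FL3Prop) (h2 : FL2Prop1) : T0220 := by
  intro d hd ν _ κ hκ hν ℓ hℓ htrans
  rcases Nat.lt_or_ge d 3 with h | h
  · obtain rfl : d = 2 := by omega
    have hpos := pos_of_ue hκ hν
    have hℓ0 : ℓ ≠ 0 := by
      rintro rfl
      simp at hℓ
    have hA : annealed (iidEnvironmentLaw ν) 0 (escapeEvent ℓ) ≠ 0 := by
      rw [annealed_apply _ 0 (B2d.measurableSet_escapeEvent ℓ), htrans]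
      exact one_ne_zero
    refine B9409.S0220_of_FL ν κ hκ hν ℓ htrans (halfProp 2 _ 0 0 (frame_iid ν hpos) ℓ hA hℓ0)
      fun u hu => ?_
    have h1 : annealed (iidEnvironmentLaw ν) 0 (escapeEvent (dirVec u)) = 1 := by
      rw [annealed_apply _ 0 (B2d.measurableSet_escapeEvent _)]
      exact hu
    exact ⟨B9409.nt_ne_zero_of_escape (Q561.iid_shift ν) (by rw [h1]; exact one_ne_zero),
      h2 ν κ hκ hν u h1⟩
  · have hpos := pos_of_ue hκ hν
    have hell := B9409.ue_iid ν hν
    have hℓ0 : ℓ ≠ 0 := by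
      rintro rfl
      simp at hℓ
    have hA : annealed (iidEnvironmentLaw ν) 0 (escapeEvent ℓ) ≠ 0 := by
      rw [annealed_apply _ 0 (B2d.measurableSet_escapeEvent ℓ), htrans]
      exact one_ne_zero
    exact B9409.S0220_end ν κ hκ hν ℓ htrans (halfProp d _ 0 0 (frame_iid ν hpos) ℓ hA hℓ0)
      (h3 d h _ κ 0 hκ (frame_ue (Q561.iid_shift ν) hκ hell
        (Q561.iid_isFiniteRangeDependent ν 0)) hell)

/-- **S0220 from `FLeProp`, `FLofFLe` and `FL2Prop1`.** -/
theorem s0220_of_FLe (h : FLeProp) (h' : FLofFLe) (h2 : FL2Prop1) : T0220 :=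
  s0220_weak (fl3_of_FLe h h') h2

end Crest.Agent.R154.Spine
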