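import Crest.Agent.R154.RHbind_872
import Crest.Agent.R154.Spine2_796
import Crest.Agent.R154.Tight_872
import Crest.Agent.R154.WindowK_299

-- ▼ part R154/RatioS_775
section

/-! Row 154, B8, step (R) without any contact / energy input: windows of ratio `R` lose only
`ε log R` by (W) and by the convergence of the annealed natural climb probabilities `h n` alone.

In `[H, 10 H]` the exit laws of `T` levels are tried; one of them climbs the next `n` levels with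
quenched mass `≥ p/2` (conditional probability `≥ p/2` each), and the mass which climbs `n` levels
but not to `10^k H` has mean `h n - h (..) → 0`. -/

set_option autoImplicit false
set_option linter.unusedSectionVars false
set_option linter.deprecated false

namespace Crest.Agent.R154.RatioS775

open MeasureTheory ProbabilityTheory Set Filter Finset
open Crest.Agent.R154.RatioR872 Crest.Agent.R154.RatioR872.KerSys
open scoped ENNReal

variable {S : Type*} [Countable S] {Ω : Type*} {m0 : MeasurableSpace Ω} {P : Measure Ω}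

/-- monotonicity of the masses in the height -/
lemma tot_push_anti (A : KerSys S P) {a b c : ℕ} (hab : a ≤ b) (hbc : b ≤ c)
    (w : Ω → S → ℝ≥0∞) (ω : Ω) : tot (A.push a c w) ω ≤ tot (A.push a b w) ω := by
  rw [tot_push, tot_push]
  refine ENNReal.tsum_le_tsum fun x => ?_
  gcongr
  exact A.anti a b c ω x hab hbc

/-- first moment bound for the mass which reaches level `b` but not level `c` -/
lemma bad_first [IsProbabilityMeasure P] (A : KerSys S P) {a b c : ℕ} (hab : a ≤ b) (hbc : b ≤ c)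
    {w : Ω → S → ℝ≥0∞} (hw : A.Wt a w) (hw1 : ∀ ω, tot w ω ≤ 1)
    (hh : ∀ n, A.h n ≤ 1) {p ε : ℝ≥0∞} (hp0 : p ≠ 0) (hpt : p ≠ ∞)
    (hε : A.h (b - a) ≤ A.h (c - a) + ε)
    {B : Set Ω} (hB : MeasurableSet[A.F a] B) :
    P (B ∩ {ω | p / 2 ≤ tot (A.push a b w) ω ∧ tot (A.push a c w) ω < p / 4})
      ≤ 4 * ε / p * P B := by
  have hac : a ≤ c := hab.trans hbc
  have hB0 : MeasurableSet B := A.F.le a _ hB
  have hφ : Measurable[A.F a] (B.indicator (1 : Ω → ℝ≥0∞)) :=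
    (@measurable_one _ _ _ (A.F a) _).indicator hB
  have e1 := first_moment hab hw hφ
  have e2 := first_moment hac hw hφ
  set s : Ω → ℝ≥0∞ := tot (A.push a b w) with hs
  set t : Ω → ℝ≥0∞ := tot (A.push a c w) with ht
  have hsm : Measurable s := ((hw.push hab).meas_tot).mono (A.F.le b) le_rfl
  have htm : Measurable t := ((hw.push hac).meas_tot).mono (A.F.le c) le_rfl
  have hts : ∀ ω, t ω ≤ s ω := fun ω => tot_push_anti A hab hbc w ω
  have hs1 : ∀ ω, s ω ≤ 1 := fun ω => (A.tot_push_le hab w ω).trans (hw1 ω)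
  set E : Set Ω := {ω | p / 2 ≤ s ω ∧ t ω < p / 4} with hE
  have hEm : MeasurableSet E :=
    (measurableSet_le measurable_const hsm).inter (measurableSet_lt htm measurable_const)
  have hone : Measurable (B.indicator (1 : Ω → ℝ≥0∞)) := measurable_one.indicator hB0
  have hmul : Measurable fun ω => B.indicator (1 : Ω → ℝ≥0∞) ω * t ω := hone.mul htm
  -- total weight
  set W : ℝ≥0∞ := ∫⁻ ω, B.indicator 1 ω * tot w ω ∂P with hW
  have hWB : W ≤ P B := by
    rw [hW, ← lintegral_indicator_one hB0]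
    refine lintegral_mono fun ω => ?_
    calc B.indicator 1 ω * tot w ω ≤ B.indicator 1 ω * 1 := by gcongr; exact hw1 ω
      _ = _ := mul_one _
  have hWt : W ≠ ∞ := ne_top_of_le_ne_top (measure_ne_top _ _) hWB
  have hfin : ∫⁻ ω, B.indicator 1 ω * t ω ∂P ≠ ∞ := by
    rw [e2]
    exact ENNReal.mul_ne_top (ne_top_of_le_ne_top ENNReal.one_ne_top (hh _)) hWt
  have key : ∫⁻ ω, B.indicator 1 ω * t ω ∂P + p / 4 * P (B ∩ E)
      ≤ ∫⁻ ω, B.indicator 1 ω * t ω ∂P + ε * P B := by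
    calc ∫⁻ ω, B.indicator 1 ω * t ω ∂P + p / 4 * P (B ∩ E)
        = ∫⁻ ω, (B.indicator 1 ω * t ω + p / 4 * (B ∩ E).indicator 1 ω) ∂P := by
          rw [lintegral_add_left hmul,
            lintegral_const_mul _ (measurable_one.indicator (hB0.inter hEm)),
            lintegral_indicator_one (hB0.inter hEm)]
      _ ≤ ∫⁻ ω, B.indicator 1 ω * s ω ∂P := by
          refine lintegral_mono fun ω => ?_
          by_cases h1 : ω ∈ B
          · rw [indicator_of_mem h1]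
            by_cases h2 : ω ∈ E
            · have h3 : ω ∈ B ∩ E := ⟨h1, h2⟩
              rw [indicator_of_mem h3]
              simp only [Pi.one_apply, one_mul, mul_one]
              have h4 : t ω ≤ p / 4 := h2.2.le
              calc t ω + p / 4 ≤ p / 4 + p / 4 := by gcongr
                _ = p / 2 := by
                  lift p to NNReal using hpt
                  have h4' : (4 : ℝ≥0∞) = ((4 : NNReal) : ℝ≥0∞) := by norm_cast
                  have h2' : (2 : ℝ≥0∞) = ((2 : NNReal) : ℝ≥0∞) := by norm_cast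
                  rw [h4', h2', ← ENNReal.coe_div (by norm_num), ← ENNReal.coe_div (by norm_num),
                    ← ENNReal.coe_add]
                  congr 1
                  rw [← NNReal.coe_inj]
                  push_cast
                  ring
                _ ≤ s ω := h2.1
            · have h3 : ω ∉ B ∩ E := fun h => h2 h.2
              rw [indicator_of_notMem h3]
              simp only [Pi.one_apply, one_mul, mul_zero, add_zero]
              exact hts ω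
          · rw [indicator_of_notMem h1, indicator_of_notMem (fun h => h1 h.1)]
            simp
      _ = A.h (b - a) * W := e1
      _ ≤ (A.h (c - a) + ε) * W := by gcongr
      _ = A.h (c - a) * W + ε * W := by ring
      _ ≤ ∫⁻ ω, B.indicator 1 ω * t ω ∂P + ε * P B := by
          rw [e2]
          gcongr
  have l1 : p / 4 * P (B ∩ E) ≤ ε * P B := (ENNReal.add_le_add_iff_left hfin).1 key
  calc P (B ∩ E) = p⁻¹ * (p * P (B ∩ E)) := by
        rw [← mul_assoc, ENNReal.inv_mul_cancel hp0 hpt, one_mul]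
    _ = p⁻¹ * (4 * (p / 4 * P (B ∩ E))) := by
        congr 1
        rw [← mul_assoc, ENNReal.mul_div_cancel (by norm_num) (by norm_num)]
    _ ≤ p⁻¹ * (4 * (ε * P B)) := by gcongr
    _ = 4 * ε / p * P B := by
        rw [ENNReal.div_eq_inv_mul]; ring

/-- the composition inequality for the masses, one step -/
lemma Sh_ge1 (A : KerSys S P) {μ : S → ℝ≥0∞} (hμ : A.Start μ) {a c : ℕ} (hac : a ≤ c) :
    ∀ᵐ ω ∂P, A.Sh μ a ω * tot (A.push a c (A.exitW μ a)) ω ≤ A.Sh μ c ω := by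
  filter_upwards [A.comp 0 a c (Nat.zero_le _) hac] with ω h1
  have e1 : ∀ y, A.Sh μ a ω * A.push a c (A.exitW μ a) ω y ≤ A.push 0 c (fun _ => μ) ω y := by
    intro y
    calc A.Sh μ a ω * A.push a c (A.exitW μ a) ω y
        = ∑' x, A.push 0 a (fun _ => μ) ω x * A.G a c ω x y := by
          unfold KerSys.push
          rw [← ENNReal.tsum_mul_left]
          refine tsum_congr fun x => ?_
          rw [← mul_assoc, mul_exitW hμ]
          rfl
      _ = ∑' x, ∑' x0, μ x0 * (A.G 0 a ω x0 x * A.G a c ω x y) := by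
          refine tsum_congr fun x => ?_
          unfold KerSys.push
          rw [← ENNReal.tsum_mul_right]
          exact tsum_congr fun x0 => by ring
      _ = ∑' x0, μ x0 * ∑' x, (A.G 0 a ω x0 x * A.G a c ω x y) := by
          rw [ENNReal.tsum_comm]
          exact tsum_congr fun x0 => ENNReal.tsum_mul_left
      _ ≤ ∑' x0, μ x0 * A.G 0 c ω x0 y := by
          refine ENNReal.tsum_le_tsum fun x0 => ?_
          gcongr
          exact h1 x0 y
      _ = _ := rfl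
  calc A.Sh μ a ω * tot (A.push a c (A.exitW μ a)) ω
      = ∑' y, A.Sh μ a ω * A.push a c (A.exitW μ a) ω y := by
        unfold tot
        rw [← ENNReal.tsum_mul_left]
    _ ≤ ∑' y, A.push 0 c (fun _ => μ) ω y := ENNReal.tsum_le_tsum e1
    _ = A.Sh μ c ω := rfl

/-- **the probabilistic core without energy**: in `[H,10H]` some exit law continues with mass
`≥ p/4` to `10^k H`. -/
lemma coreS [IsProbabilityMeasure P] (A : KerSys S P) {p : ℝ≥0∞} (hp0 : p ≠ 0)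
    (hp : ∀ n, p ≤ A.h n) (hh : ∀ n, A.h n ≤ 1)
    (hpos : ∀ μ, A.Start μ → ∀ h, ∀ᵐ ω ∂P, A.Sh μ h ω ≠ 0)
    {ε : ℝ≥0∞} {T n1 : ℕ} (hT : 0 < T)
    (hconv : ∀ n, n1 ≤ n → ∀ m, n1 ≤ m → A.h n ≤ A.h m + ε)
    {H k : ℕ} (hk : 1 ≤ k) (hH : T * (n1 + 1) ≤ H)
    {μ : S → ℝ≥0∞} (hμ : A.Start μ) {B : Set Ω} (hB : MeasurableSet[A.F H] B) :
    P (B ∩ {ω | A.Sh μ (10 ^ k * H) ω < p / 4 * A.Sh μ (10 * H) ω})
      ≤ ((1 - p / 2) ^ T + T * (4 * ε / p)) * P B := by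
  have hpt : p ≠ ∞ := ne_top_of_le_ne_top ENNReal.one_ne_top ((hp 0).trans (hh 0))
  set n : ℕ := H / T with hn
  have hnT : n * T ≤ H := Nat.div_mul_le_self H T
  have hn0 : n1 + 1 ≤ n := (Nat.le_div_iff_mul_le hT).2 (by rw [mul_comm]; exact hH)
  set lv : ℕ → ℕ := fun j => H + j * n with hlv
  have hlvm : Monotone lv := fun i j hij => by
    simp only [hlv]
    exact Nat.add_le_add_left (Nat.mul_le_mul_right _ hij) _
  have hlv0 : lv 0 = H := by simp [hlv]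
  have hlvs : ∀ j, lv (j + 1) = lv j + n := fun j => by simp only [hlv]; ring
  have hlvT : ∀ j, j ≤ T → lv j ≤ 10 * H := by
    intro j hj
    simp only [hlv]
    have : j * n ≤ T * n := Nat.mul_le_mul_right _ hj
    nlinarith
  set c : ℕ := 10 ^ k * H with hc
  have h10 : 10 * H ≤ c := by
    rw [hc]
    refine Nat.mul_le_mul_right _ ?_
    calc 10 = 10 ^ 1 := (pow_one _).symm
      _ ≤ 10 ^ k := Nat.pow_le_pow_right (by norm_num) hk
  set w : ℕ → Ω → S → ℝ≥0∞ := fun j => A.exitW μ (lv j) with hw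
  set E : ℕ → Set Ω := fun j => {ω | p / 2 ≤ tot (A.push (lv j) (lv (j + 1)) (w j)) ω} with hE
  set Bd : ℕ → Set Ω := fun j => {ω | p / 2 ≤ tot (A.push (lv j) (lv (j + 1)) (w j)) ω ∧
    tot (A.push (lv j) c (w j)) ω < p / 4} with hBd
  have hw1 : ∀ j, ∀ᵐ ω ∂P, tot (w j) ω = 1 := by
    intro j
    filter_upwards [hpos μ hμ (lv j)] with ω hω
    exact tot_exitW_eq hμ _ ω hω
  have hwW : ∀ j, A.Wt (lv j) (w j) := fun j => wt_exitW hμ _
  have hwl : ∀ j ω, tot (w j) ω ≤ 1 := fun j ω => tot_exitW_le μ _ ω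
  have hEm : ∀ j, MeasurableSet[A.F (lv (j + 1))] (E j) := by
    intro j
    have hm := ((hwW j).push (hlvm (Nat.le_succ j))).meas_tot
    exact @measurableSet_le _ _ _ _ _ (A.F (lv (j + 1))) _ _ _ _ _
      (@measurable_const _ _ _ (A.F (lv (j + 1))) _) hm
  have h1 := (all_fail (P := P) A.F lv hlvm E hEm (q := p / 2) T (fun j _ B hB =>
    good_prob (hlvm (Nat.le_succ j)) (hwW j) (hw1 j) (hp _) (hwl j) hB)
    (B := B) (by rw [hlv0]; exact hB) T le_rfl).2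
  have h2 : ∀ j, j < T → P (B ∩ Bd j) ≤ 4 * ε / p * P B := by
    intro j hj
    have hjc : lv (j + 1) ≤ c := (hlvT (j + 1) hj).trans h10
    refine bad_first A (hlvm (Nat.le_succ j)) hjc (hwW j) (hwl j) hh hp0 hpt
      (hconv _ ?_ _ ?_) (A.F.mono (by simp [hlv]) _ hB)
    · rw [hlvs]; omega
    · have := hlvs j; omega
  have hsub : (B ∩ {ω | A.Sh μ c ω < p / 4 * A.Sh μ (10 * H) ω} : Set Ω)
      ≤ᵐ[P] ((B ∩ ⋂ l ∈ Finset.range T, (E l)ᶜ) ∪ ⋃ j ∈ Finset.range T, (B ∩ Bd j) : Set Ω) := by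
    have hall : ∀ᵐ ω ∂P, ∀ j ∈ Finset.range T, A.Sh μ (lv j) ω *
        tot (A.push (lv j) c (A.exitW μ (lv j))) ω ≤ A.Sh μ c ω := by
      rw [Finset.eventually_all]
      intro j hj
      exact Sh_ge1 A hμ ((hlvT j (Finset.mem_range.1 hj).le).trans h10)
    filter_upwards [hall] with ω hω
    rintro ⟨hωB, hωS⟩
    by_contra hcon
    have hcon' : ¬ ((ω ∈ B ∩ ⋂ l ∈ Finset.range T, (E l)ᶜ) ∨
        (ω ∈ ⋃ j ∈ Finset.range T, (B ∩ Bd j))) := hcon
    rw [not_or] at hcon'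
    obtain ⟨hc1, hc2⟩ := hcon'
    have hc3 : ∃ l ∈ Finset.range T, ω ∈ E l := by
      by_contra h
      refine hc1 ⟨hωB, ?_⟩
      simp only [mem_iInter, mem_compl_iff]
      intro l hl hE'
      exact h ⟨l, hl, hE'⟩
    obtain ⟨l, hl, hEl⟩ := hc3
    have hBl : ω ∉ Bd l := fun h => hc2 (mem_biUnion (by exact_mod_cast hl) ⟨hωB, h⟩)
    have hm : p / 4 ≤ tot (A.push (lv l) c (w l)) ω := by
      by_contra h
      exact hBl ⟨hEl, not_le.1 h⟩
    have h5 := hω l hl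
    have h6 : A.Sh μ (10 * H) ω ≤ A.Sh μ (lv l) ω :=
      Sh_anti (hlvT l (Finset.mem_range.1 hl).le) ω
    have h7 : p / 4 * A.Sh μ (10 * H) ω ≤ A.Sh μ c ω := by
      calc p / 4 * A.Sh μ (10 * H) ω ≤
            tot (A.push (lv l) c (w l)) ω * A.Sh μ (lv l) ω := by gcongr
        _ = A.Sh μ (lv l) ω * tot (A.push (lv l) c (w l)) ω := mul_comm _ _
        _ ≤ _ := h5
    exact absurd hωS (not_lt.2 h7)
  calc P (B ∩ {ω | A.Sh μ c ω < p / 4 * A.Sh μ (10 * H) ω})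
      ≤ P ((B ∩ ⋂ l ∈ Finset.range T, (E l)ᶜ) ∪ ⋃ j ∈ Finset.range T, (B ∩ Bd j)) :=
        measure_mono_ae hsub
    _ ≤ P (B ∩ ⋂ l ∈ Finset.range T, (E l)ᶜ) + P (⋃ j ∈ Finset.range T, (B ∩ Bd j)) :=
        measure_union_le _ _
    _ ≤ (1 - p / 2) ^ T * P B + ∑ j ∈ Finset.range T, P (B ∩ Bd j) := by
        gcongr
        exact measure_biUnion_finset_le _ _
    _ ≤ (1 - p / 2) ^ T * P B + ∑ j ∈ Finset.range T, (4 * ε / p * P B) := by
        gcongr with j hj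
        exact h2 j (Finset.mem_range.1 hj)
    _ = _ := by
        rw [Finset.sum_const, Finset.card_range, nsmul_eq_mul]
        ring

/-- the annealed climb probabilities converge -/
lemma conv_h (A : KerSys S P) (hh : ∀ n, A.h n ≤ 1) (hne : (A.L 0).Nonempty) {ε : ℝ≥0∞}
    (hε : ε ≠ 0) : ∃ n1 : ℕ, ∀ n, n1 ≤ n → ∀ m, n1 ≤ m → A.h n ≤ A.h m + ε := by
  obtain ⟨x, hx⟩ := hne
  have hanti : Antitone A.h := by
    intro n m hnm
    have e1 := A.h_eq 0 n x (Nat.zero_le _) hx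
    have e2 := A.h_eq 0 m x (Nat.zero_le _) hx
    rw [Nat.sub_zero] at e1 e2
    rw [← e1, ← e2]
    exact lintegral_mono fun ω => A.anti 0 n m ω x (Nat.zero_le _) hnm
  have hlim := tendsto_atTop_iInf hanti
  set l : ℝ≥0∞ := ⨅ n, A.h n with hl
  have hlt : l ≠ ∞ := ne_top_of_le_ne_top ENNReal.one_ne_top ((iInf_le _ 0).trans (hh 0))
  have h1 : l < l + ε := ENNReal.lt_add_right hlt hε
  obtain ⟨n1, hn1⟩ := eventually_atTop.1 ((tendsto_order.1 hlim).2 _ h1)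
  refine ⟨n1, fun n hn m _ => (hn1 n hn).le.trans ?_⟩
  gcongr
  exact iInf_le _ m

/-- **(R), multiplicative form, without energy.** -/
theorem ratio_mulS [IsProbabilityMeasure P] (A : KerSys S P) {p : ℝ≥0∞} (hp0 : p ≠ 0)
    (hp : ∀ n, p ≤ A.h n) (hh : ∀ n, A.h n ≤ 1)
    (hpos : ∀ μ, A.Start μ → ∀ h, ∀ᵐ ω ∂P, A.Sh μ h ω ≠ 0) {δ : ℝ≥0∞}
    (hδ : δ ≠ 0) (k : ℕ) (hk : 1 ≤ k) :
    ∃ i1 : ℕ, ∀ i, i1 ≤ i → ∀ μ, A.Start μ → ∀ B, MeasurableSet[A.F (10 ^ i)] B →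
      P (B ∩ {ω | A.Sh μ (10 ^ (i + 1 + k)) ω < p / 4 * A.Sh μ (10 ^ (i + 2)) ω})
        ≤ δ * P B := by
  have hpt : p ≠ ∞ := ne_top_of_le_ne_top ENNReal.one_ne_top ((hp 0).trans (hh 0))
  by_cases hne : (A.L 0).Nonempty
  swap
  · refine ⟨0, fun i _ μ hμ => ?_⟩
    exfalso
    have h0 : ∀ x, μ x = 0 := fun x => hμ.supp x (fun hx => hne ⟨x, hx⟩)
    have h1 := hμ.one
    simp [h0] at h1
  have hδ2 : δ / 2 ≠ 0 := by simp [hδ]
  obtain ⟨T, hT0, hT⟩ := exists_T hp0 hδ2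
  set ε : ℝ≥0∞ := (δ / 2) / T * p / 4 with hε
  by_cases hδt : δ = ∞
  · refine ⟨0, ?_⟩
    intro i _ μ _ B _
    by_cases hB : P B = 0
    · rw [hB, mul_zero]
      exact (measure_mono_null inter_subset_left hB).le
    · rw [hδt, ENNReal.top_mul hB]
      exact le_top
  have hTt : (T : ℝ≥0∞) ≠ 0 := by exact_mod_cast hT0.ne'
  have hε0 : ε ≠ 0 := by
    rw [hε]
    refine (ENNReal.div_pos (mul_ne_zero (ENNReal.div_pos hδ2 (ENNReal.natCast_ne_top T)).ne'
      hp0) (by norm_num)).ne'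
  have hεT : T * (4 * ε / p) ≤ δ / 2 := by
    have e1 : 4 * ε = (δ / 2) / T * p := by
      rw [hε]
      exact ENNReal.mul_div_cancel (by norm_num) (by norm_num)
    rw [e1, ENNReal.mul_div_cancel_right hp0 hpt,
      ENNReal.mul_div_cancel hTt (ENNReal.natCast_ne_top T)]
  obtain ⟨n1, hn1⟩ := conv_h A hh hne hε0
  refine ⟨T * (n1 + 1), ?_⟩
  intro i hi μ hμ B hB
  have hH : T * (n1 + 1) ≤ 10 ^ (i + 1) := by
    calc T * (n1 + 1) ≤ i := hi
      _ ≤ i + 1 := Nat.le_succ i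
      _ ≤ 10 ^ (i + 1) := (Nat.lt_pow_self (by norm_num)).le
  have hB' : MeasurableSet[A.F (10 ^ (i + 1))] B :=
    A.F.mono (Nat.pow_le_pow_right (by norm_num) (Nat.le_succ i)) _ hB
  have h := coreS A hp0 hp hh hpos hT0 (n1 := n1) (ε := ε) hn1 hk hH hμ hB'
  have e1 : 10 ^ k * 10 ^ (i + 1) = 10 ^ (i + 1 + k) := by rw [← pow_add]; congr 1; ring
  have e2 : 10 * 10 ^ (i + 1) = 10 ^ (i + 2) := by ring
  rw [e1, e2] at h
  refine h.trans ?_
  gcongr
  calc (1 - p / 2) ^ T + T * (4 * ε / p) ≤ δ / 2 + δ / 2 := by gcongr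
    _ = δ := ENNReal.add_halves δ

/-- the constant of `step_RS` -/
noncomputable def lcS (p : ℝ≥0∞) : ℝ := - Real.log (p / 4).toReal

/-- **(R), one-window form, without energy.** -/
theorem step_RS [IsProbabilityMeasure P] (A : KerSys S P) {p : ℝ≥0∞} (hp0 : p ≠ 0)
    (hp : ∀ n, p ≤ A.h n) (hh : ∀ n, A.h n ≤ 1)
    (hpos : ∀ μ, A.Start μ → ∀ h, ∀ᵐ ω ∂P, A.Sh μ h ω ≠ 0) {δ : ℝ≥0∞}
    (hδ : δ ≠ 0) (k : ℕ) (hk : 1 ≤ k) :
    ∃ i1 : ℕ, ∀ μ, A.Start μ → ∀ a : ℕ → Ω → ℝ,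
      (∀ i, ∀ᵐ ω ∂P, a i ω = - Real.log (A.Sh μ (10 ^ i) ω).toReal) →
      ∀ i, i1 ≤ i → ∀ v ℓ : ℝ, lcS p < ℓ → ∀ B, MeasurableSet[A.F (10 ^ i)] B →
      P (B ∩ {ω | v + ℓ ≤ a (i + 1 + k) ω - a (i + 1) ω})
        ≤ P (B ∩ {ω | v ≤ a (i + 2) ω - a (i + 1) ω}) + δ * P B := by
  have hpt : p ≠ ∞ := ne_top_of_le_ne_top ENNReal.one_ne_top ((hp 0).trans (hh 0))
  obtain ⟨i1, hi1⟩ := ratio_mulS A hp0 hp hh hpos hδ k hk
  refine ⟨i1, ?_⟩
  intro μ hμ a ha i hi v ℓ hℓ B hB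
  have hτ0 : p / 4 ≠ 0 := (ENNReal.div_pos hp0 (by norm_num)).ne'
  have hτt : p / 4 ≠ ∞ := ENNReal.div_ne_top hpt (by norm_num)
  have h1 := hi1 i hi μ hμ B hB
  have hsub : (B ∩ {ω | v + ℓ ≤ a (i + 1 + k) ω - a (i + 1) ω} : Set Ω) ≤ᵐ[P]
      ((B ∩ {ω | v ≤ a (i + 2) ω - a (i + 1) ω}) ∪
        (B ∩ {ω | A.Sh μ (10 ^ (i + 1 + k)) ω < p / 4 * A.Sh μ (10 ^ (i + 2)) ω}) : Set Ω) := by
    filter_upwards [ha (i + 1 + k), ha (i + 2), ha (i + 1), hpos μ hμ (10 ^ (i + 1 + k)),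
      hpos μ hμ (10 ^ (i + 2))] with ω e1 e2 e3 p1 p2
    rintro ⟨hωB, hω⟩
    have hω' : v + ℓ ≤ a (i + 1 + k) ω - a (i + 1) ω := hω
    by_contra hcon
    have hcon' : ¬ ((ω ∈ B ∩ {ω | v ≤ a (i + 2) ω - a (i + 1) ω}) ∨
        (ω ∈ B ∩ {ω | A.Sh μ (10 ^ (i + 1 + k)) ω < p / 4 * A.Sh μ (10 ^ (i + 2)) ω})) := hcon
    rw [not_or] at hcon'
    have c1 : a (i + 2) ω - a (i + 1) ω < v := by
      by_contra h
      exact hcon'.1 ⟨hωB, not_lt.1 h⟩
    have c2 : p / 4 * A.Sh μ (10 ^ (i + 2)) ω ≤ A.Sh μ (10 ^ (i + 1 + k)) ω := by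
      by_contra h
      exact hcon'.2 ⟨hωB, not_le.1 h⟩
    have t1 : A.Sh μ (10 ^ (i + 1 + k)) ω ≠ ∞ :=
      ne_top_of_le_ne_top ENNReal.one_ne_top (Sh_le_one hμ _ ω)
    have t2 : A.Sh μ (10 ^ (i + 2)) ω ≠ ∞ :=
      ne_top_of_le_ne_top ENNReal.one_ne_top (Sh_le_one hμ _ ω)
    have q2 : 0 < (A.Sh μ (10 ^ (i + 2)) ω).toReal := ENNReal.toReal_pos p2 t2
    have q3 : 0 < (p / 4).toReal := ENNReal.toReal_pos hτ0 hτt
    have c3 : (p / 4).toReal * (A.Sh μ (10 ^ (i + 2)) ω).toReal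
        ≤ (A.Sh μ (10 ^ (i + 1 + k)) ω).toReal := by
      rw [← ENNReal.toReal_mul]
      exact ENNReal.toReal_mono t1 c2
    have c4 := Real.log_le_log (mul_pos q3 q2) c3
    rw [Real.log_mul q3.ne' q2.ne'] at c4
    rw [e1] at hω'
    rw [e2] at c1
    have hl : lcS p = - Real.log (p / 4).toReal := rfl
    linarith
  calc P (B ∩ {ω | v + ℓ ≤ a (i + 1 + k) ω - a (i + 1) ω})
      ≤ P (B ∩ {ω | v ≤ a (i + 2) ω - a (i + 1) ω}) +
        P (B ∩ {ω | A.Sh μ (10 ^ (i + 1 + k)) ω < p / 4 * A.Sh μ (10 ^ (i + 2)) ω}) :=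
        (measure_mono_ae hsub).trans (measure_union_le _ _)
    _ ≤ P (B ∩ {ω | v ≤ a (i + 2) ω - a (i + 1) ω}) + δ * P B := by gcongr

/-- **`hW` ⇒ `hR`** for `CompW.chain`, without energy (any dimension, also `d = 2`). -/
theorem hR_of_hWS [IsProbabilityMeasure P] (A : KerSys S P) {p : ℝ≥0∞} (hp0 : p ≠ 0)
    (hp : ∀ n, p ≤ A.h n) (hh : ∀ n, A.h n ≤ 1)
    (hpos : ∀ μ, A.Start μ → ∀ h, ∀ᵐ ω ∂P, A.Sh μ h ω ≠ 0)
    (μ : ℕ → S → ℝ≥0∞) (hμ : ∀ n, A.Start (μ n)) (a : ℕ → ℕ → Ω → ℝ)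
    (ha : ∀ n i, ∀ᵐ ω ∂P, a n i ω = - Real.log (A.Sh (μ n) (10 ^ i) ω).toReal)
    (hW : ∀ lam ε' : ℝ, 0 < lam → 0 < ε' → ∃ u0 c : ℝ, 0 < c ∧ ∃ w : ℕ → ℝ, (∀ i, 0 ≤ w i) ∧
      (∀ J : ℕ, ∑ i ∈ range J, w i ≤ ε' * J + u0) ∧ ∀ n, CompW.WH P A.F10 (a n) lam u0 c w) :
    ∀ ε b ε' : ℝ, 0 < ε → 0 < b → 0 < ε' → ∃ k0 : ℕ, ∀ k, k0 ≤ k → ∃ i1 : ℕ,
      ∃ w : ℕ → ℝ, (∀ i, 0 ≤ w i) ∧ (∀ J : ℕ, ∑ i ∈ range J, w i ≤ ε' * J + i1) ∧
        ∀ n, CompW.RH P A.F10 (a n) ε b k i1 w := by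
  intro ε b ε' hε hb hε'
  obtain ⟨u0, c, hc, w, hw0, hwS, hWn⟩ := hW (2 * (b + 1) / ε) ε' (by positivity) hε'
  obtain ⟨K, hK⟩ := exists_nat_gt (max (max u0 (lcS p)) 1 * 2 / ε + 1)
  refine ⟨K, fun k hk => ?_⟩
  have hkR : max (max u0 (lcS p)) 1 * 2 / ε + 1 < k := hK.trans_le (by exact_mod_cast hk)
  have hk1' : (1:ℝ) < k := by
    have : 0 ≤ max (max u0 (lcS p)) 1 * 2 / ε :=
      div_nonneg (mul_nonneg (le_trans zero_le_one (le_max_right _ _)) (by norm_num)) hε.le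
    linarith
  have hk1 : 1 ≤ k := by exact_mod_cast hk1'.le
  have hkε : max (max u0 (lcS p)) 1 < ε * k / 2 := by
    have h1 : max (max u0 (lcS p)) 1 * 2 / ε < k := by linarith
    rw [div_lt_iff₀ hε] at h1
    linarith
  have hu : u0 ≤ ε * k / 2 := ((le_max_left _ _).trans (le_max_left _ _)).trans hkε.le
  have hl : lcS p < ε * k / 2 :=
    lt_of_le_of_lt ((le_max_right _ _).trans (le_max_left _ _)) hkε
  obtain ⟨i1, hi1⟩ := step_RS A hp0 hp hh hpos
    (δ := ENNReal.ofReal (Real.exp (-((b + 1) * k)))) (by simp [Real.exp_pos]) k hk1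
  have hw : ∀ i, w i ≤ ε' * (i + 1) + u0 := by
    intro i
    have h1 := hwS (i + 1)
    rw [sum_range_succ] at h1
    have h2 : 0 ≤ ∑ j ∈ range i, w j := sum_nonneg fun j _ => hw0 j
    push_cast at h1
    linarith
  have hlim : ∀ᶠ i : ℕ in atTop, ε * k / 2 + (ε' * (i + 1) + u0) ≤ c * 10 ^ i := by
    have h1 : Tendsto (fun i : ℕ => (i : ℝ) ^ 1 / (10:ℝ) ^ i) atTop (nhds 0) :=
      tendsto_pow_const_div_const_pow_of_one_lt 1 (by norm_num)
    have h2 : Tendsto (fun i : ℕ => 1 / (10:ℝ) ^ i) atTop (nhds 0) := by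
      have := tendsto_pow_const_div_const_pow_of_one_lt (r := (10:ℝ)) 0 (by norm_num)
      simpa using this
    have h3 : Tendsto (fun i : ℕ => ε' * ((i : ℝ) ^ 1 / (10:ℝ) ^ i)
        + (ε * k / 2 + ε' + u0) * (1 / (10:ℝ) ^ i)) atTop (nhds (ε' * 0
          + (ε * k / 2 + ε' + u0) * 0)) := (h1.const_mul _).add (h2.const_mul _)
    rw [mul_zero, mul_zero, add_zero] at h3
    filter_upwards [(tendsto_order.1 h3).2 c hc] with i hi
    have h10 : (0:ℝ) < 10 ^ i := by positivity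
    have h4 : ε' * ((i : ℝ) ^ 1 / (10:ℝ) ^ i) + (ε * k / 2 + ε' + u0) * (1 / (10:ℝ) ^ i)
        = (ε * k / 2 + (ε' * (i + 1) + u0)) / 10 ^ i := by
      field_simp
      ring
    rw [h4, div_lt_iff₀ h10] at hi
    exact hi.le
  obtain ⟨i2, hi2⟩ := eventually_atTop.1 hlim
  obtain ⟨i3, hi3⟩ := exists_nat_ge u0
  refine ⟨max (max i1 i2) i3, w, hw0, fun J => ?_, fun n => ?_⟩
  · refine (hwS J).trans ?_
    have : (i3 : ℝ) ≤ (max (max i1 i2) i3 : ℕ) := by exact_mod_cast le_max_right _ _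
    linarith
  · intro i hi B hB
    have g1 : i1 ≤ i := ((le_max_left _ _).trans (le_max_left _ _)).trans hi
    have g2 : i2 ≤ i := ((le_max_right _ _).trans (le_max_left _ _)).trans hi
    have hBF : MeasurableSet[A.F (10 ^ i)] B := hB
    have h1 := hi1 (μ n) (hμ n) (a n) (ha n) i g1 (ε * k / 2 + w i) (ε * k / 2) hl B hBF
    have h2 := hWn n i (ε * k / 2) hu ((by have := hw i; linarith :
      ε * k / 2 + w i ≤ ε * k / 2 + (ε' * (i + 1) + u0)).trans (hi2 i g2)) B hB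
    have e1 : 2 * (b + 1) / ε * (ε * k / 2) = (b + 1) * k := by field_simp
    rw [e1] at h2
    have e2 : ε * k / 2 + w i + ε * k / 2 = ε * k + w i := by ring
    rw [e2] at h1
    calc P (B ∩ {ω | ε * k + w i ≤ a n (i + 1 + k) ω - a n (i + 1) ω})
        ≤ P (B ∩ {ω | ε * k / 2 + w i ≤ a n (i + 2) ω - a n (i + 1) ω})
          + ENNReal.ofReal (Real.exp (-((b + 1) * k))) * P B := h1
      _ ≤ ENNReal.ofReal (Real.exp (-((b + 1) * k))) * P B
          + ENNReal.ofReal (Real.exp (-((b + 1) * k))) * P B := by gcongr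
      _ = ENNReal.ofReal (2 * Real.exp (-((b + 1) * k))) * P B := by
          rw [← add_mul, ← ENNReal.ofReal_add (Real.exp_pos _).le (Real.exp_pos _).le, two_mul]
      _ ≤ ENNReal.ofReal (Real.exp (-(b * k))) * P B := by
          gcongr
          have h6 : Real.exp (-((b + 1) * k)) = Real.exp (-(b * k)) * Real.exp (-(k:ℝ)) := by
            rw [← Real.exp_add]; congr 1; ring
          have h7 : Real.exp (-(k:ℝ)) ≤ 1 / 2 := by
            have h8 : (2:ℝ) ≤ Real.exp k := by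
              have := Real.add_one_le_exp (k:ℝ)
              linarith
            rw [Real.exp_neg, one_div]
            exact inv_anti₀ (by norm_num) h8
          rw [h6]
          have := Real.exp_pos (-(b * k))
          nlinarith

end Crest.Agent.R154.RatioS775
end

-- ▼ part R154/D2Asm_244

/-!
Row 154, block `d = 2` (helper244): FINAL ASSEMBLY of `Spine.FL2Prop1` from
* tile systems of constant cost (input `hT` of 299's `window_const`), point starts,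
* small heights (569): the quenched climb of `h ≤ A t` levels costs `≥ t` with probability
  `≤ exp (- c t ^ 2)`.
(R) comes from 775's `hR_of_hWS` (no energy), positivity from 872's `rho_pos`.
-/

set_option autoImplicit false
set_option linter.unusedSectionVars false
set_option linter.deprecated false

namespace Crest.Agent.R154.D2Asm244

open MeasureTheory ProbabilityTheory Set Filter Crest.ProbabilityR.RandomEnvironment
open Crest.Agent.R154 Crest.Agent.R154.Mk561 Crest.Agent.R154.Q561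
open Crest.Agent.R154.RatioR872 Crest.Agent.R154.RatioR872.KerSys
open Crest.Agent.R154.Flux132 (lev)
open Crest.Agent.R154.B6I (Nt)
open Crest.Agent.R154.Tile872 (rho rho_le rho_pos rho_shift measurable_rho)
open Crest.Agent.R154.WindowK299 (TileSys)
open scoped ENNReal Topology

variable {d : ℕ}

/-- the kernel system of the natural climbs with the trivial energy -/
noncomputable def kT (u : Step d) (R : ℕ) (κ : ℝ) (Q : Measure (Environment d))
    [IsProbabilityMeasure Q] (hstat : ∀ z : Site d, MeasurePreserving (shiftEnv z) Q Q)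
    (hR : IsFiniteRangeDependent Q R) : KerSys (Site d) Q :=
  kerSys u R κ Q hstat hR (fun _ _ _ _ => 1) fun a b x x' _ _ _ => by
    refine le_trans ?_ le_add_self
    calc ∫⁻ ω, mkLaw κ ω x (ClA u R x b) * mkLaw κ ω x' (ClA u R x' b) ∂Q
        ≤ ∫⁻ _, 1 ∂Q := by
          refine lintegral_mono fun ω => ?_
          calc mkLaw κ ω x (ClA u R x b) * mkLaw κ ω x' (ClA u R x' b) ≤ 1 * 1 := by
                gcongr <;> exact prob_le_one
            _ = 1 := one_mul 1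
      _ = 1 := by simp

/-- tile systems do not see the energy -/
theorem tileSys_congr {u : Step d} {R : ℕ} {κ : ℝ} {Q : Measure (Environment d)}
    [IsProbabilityMeasure Q] {hstat : ∀ z : Site d, MeasurePreserving (shiftEnv z) Q Q}
    {hR : IsFiniteRangeDependent Q R} {K K' : ℕ → ℕ → Site d → Site d → ℝ≥0∞} {hK hK'}
    {N : ℕ} {c1 c θ : ℝ≥0∞} (h : TileSys (kerSys u R κ Q hstat hR K hK) N c1 c θ) :
    TileSys (kerSys u R κ Q hstat hR K' hK') N c1 c θ :=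
  ⟨fun L x hx => h.fam L x hx⟩

section sys

variable {Q : Measure (Environment d)} [IsProbabilityMeasure Q] {κ : ℝ} {R : ℕ}

lemma N_eq (F : Bind263.Frame Q κ R) (u : Step d) {a : ℕ} (b : ℕ) (ω : Environment d) {x : Site d}
    (hx : lev u x = a) :
    (kT u R κ Q F.stat F.fin).N a b ω x = mkLaw κ ω x (ClA u R x b) := by
  rw [← tsum_gk]
  unfold KerSys.N
  refine tsum_congr fun y => ?_
  change (if lev u x = (a : ℤ) then gk u R κ b ω x y else 0) = _
  rw [if_pos hx]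

lemma h_ge (F : Bind263.Frame Q κ R) (u : Step d) (n : ℕ) :
    ∫⁻ ω, rho u R κ ω 0 ∂Q ≤ (kT u R κ Q F.stat F.fin).h n := by
  change _ ≤ mkAnn κ Q 0 (ClA u R 0 n)
  rw [mkAnn_apply κ Q 0 (meas_ClA u R 0 n)]
  refine lintegral_mono fun ω => ?_
  refine (rho_le u R κ ω 0 n).trans (le_of_eq ?_)
  have h := ClA_eq u R (0 : Site d) n
  rw [Flux132.lev_zero, zero_add] at h
  rw [← h]

lemma h_le (F : Bind263.Frame Q κ R) (u : Step d) (n : ℕ) :
    (kT u R κ Q F.stat F.fin).h n ≤ 1 := by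
  change mkAnn κ Q 0 (ClA u R 0 n) ≤ 1
  rw [mkAnn_apply κ Q 0 (meas_ClA u R 0 n)]
  calc ∫⁻ ω, mkLaw κ ω 0 (ClA u R 0 n) ∂Q ≤ ∫⁻ _, 1 ∂Q :=
        lintegral_mono fun ω => prob_le_one
    _ = 1 := by simp

lemma rho_pos_all (F : Bind263.Frame Q κ R) (u : Step d)
    (hA : annealedProb Q 0 (escapeEvent (B2d.dirVec u)) ≠ 0) :
    ∀ᵐ ω ∂Q, ∀ x, rho u R κ ω x ≠ 0 := by
  rw [ae_all_iff]
  intro x
  have h := (F.stat x).quasiMeasurePreserving.ae (rho_pos F u hA)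
  filter_upwards [h] with ω hω
  rw [rho_shift]
  exact hω

/-- positivity of the climb masses -/
lemma Sh_pos (F : Bind263.Frame Q κ R) (u : Step d)
    (hA : annealedProb Q 0 (escapeEvent (B2d.dirVec u)) ≠ 0) :
    ∀ μ, (kT u R κ Q F.stat F.fin).Start μ → ∀ h, ∀ᵐ ω ∂Q,
      (kT u R κ Q F.stat F.fin).Sh μ h ω ≠ 0 := by
  intro μ hμ h
  filter_upwards [rho_pos_all F u hA] with ω hω
  obtain ⟨x, hx⟩ : ∃ x, μ x ≠ 0 := by
    by_contra hcon
    push Not at hcon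
    have h1 := hμ.one
    simp [hcon] at h1
  have hxL : x ∈ (kT u R κ Q F.stat F.fin).L 0 := by
    by_contra hcon
    exact hx (hμ.supp x hcon)
  have hx0 : lev u x = ((0 : ℕ) : ℤ) := hxL
  unfold KerSys.Sh
  rw [tot_push]
  refine ne_of_gt (lt_of_lt_of_le ?_ (ENNReal.le_tsum x))
  refine pos_iff_ne_zero.2 (mul_ne_zero hx ?_)
  rw [N_eq F u h ω hx0]
  have h2 := rho_le u R κ ω x h
  have h3 := ClA_eq u R x h
  rw [hx0, Nat.cast_zero, zero_add] at h3
  rw [← h3] at h2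
  intro h0
  rw [h0] at h2
  exact hω x (le_antisymm h2 zero_le)

/-- the point start -/
noncomputable def pt : Site d → ℝ≥0∞ := fun x => by classical exact if x = 0 then 1 else 0

lemma pt_start (F : Bind263.Frame Q κ R) (u : Step d) :
    (kT u R κ Q F.stat F.fin).Start (pt (d := d)) where
  one := by
    classical
    unfold pt
    exact tsum_ite_eq 0 (fun _ => 1)
  supp x hx := by
    classical
    unfold pt
    rw [if_neg]
    rintro rfl
    refine hx ?_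
    change lev u 0 = ((0 : ℕ) : ℤ)
    rw [Flux132.lev_zero]; rfl

lemma Sh_pt (F : Bind263.Frame Q κ R) (u : Step d) (h : ℕ) (ω : Environment d) :
    (kT u R κ Q F.stat F.fin).Sh (pt (d := d)) h ω = mkLaw κ ω 0 (ClA u R 0 h) := by
  classical
  unfold KerSys.Sh
  rw [tot_push, tsum_eq_single (0 : Site d)]
  · rw [N_eq F u h ω (by rw [Flux132.lev_zero]; rfl)]
    simp [pt]
  · intro x hx
    simp [pt, hx]

/-- running maximum of `- log` of the climb masses at the heights `10 ^ j`, `j ≤ i` -/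
noncomputable def aa (A : KerSys (Site d) Q) (μ : Site d → ℝ≥0∞) : ℕ → Environment d → ℝ
  | 0 => fun ω => - Real.log (A.Sh μ (10 ^ 0) ω).toReal
  | (i + 1) => fun ω => max (aa A μ i ω) (- Real.log (A.Sh μ (10 ^ (i + 1)) ω).toReal)

lemma aa_nonneg {A : KerSys (Site d) Q} {μ : Site d → ℝ≥0∞} (hμ : A.Start μ) (i : ℕ)
    (ω : Environment d) : 0 ≤ aa A μ i ω := by
  have h0 : 0 ≤ aa A μ 0 ω := by
    change 0 ≤ - Real.log _
    rw [neg_nonneg]
    refine Real.log_nonpos ENNReal.toReal_nonneg ?_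
    have := ENNReal.toReal_mono ENNReal.one_ne_top (Sh_le_one hμ (10 ^ 0) ω)
    simpa using this
  induction i with
  | zero => exact h0
  | succ i ih => exact le_trans ih (le_max_left _ _)

lemma aa_mono {A : KerSys (Site d) Q} {μ : Site d → ℝ≥0∞} (ω : Environment d) :
    Monotone fun i => aa A μ i ω :=
  monotone_nat_of_le_succ fun _ => le_max_left _ _

lemma aa_meas {A : KerSys (Site d) Q} {μ : Site d → ℝ≥0∞} (hμ : A.Start μ) (i : ℕ) :
    Measurable[A.F10 i] (aa A μ i) := by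
  have hb : ∀ j, Measurable[A.F10 j] fun ω => - Real.log (A.Sh μ (10 ^ j) ω).toReal := by
    intro j
    have h1 : Measurable[A.F (10 ^ j)] (A.Sh μ (10 ^ j)) := meas_Sh hμ _
    exact (Real.measurable_log.comp (ENNReal.measurable_toReal.comp h1)).neg
  induction i with
  | zero => exact hb 0
  | succ i ih =>
    have h1 : Measurable[A.F10 (i + 1)] (aa A μ i) := ih.mono (A.F10.mono (Nat.le_succ i)) le_rfl
    exact h1.max (hb (i + 1))

lemma aa_eq {A : KerSys (Site d) Q} {μ : Site d → ℝ≥0∞} (hμ : A.Start μ)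
    (hpos : ∀ h, ∀ᵐ ω ∂Q, A.Sh μ h ω ≠ 0) (i : ℕ) :
    ∀ᵐ ω ∂Q, aa A μ i ω = - Real.log (A.Sh μ (10 ^ i) ω).toReal := by
  induction i with
  | zero => exact Eventually.of_forall fun _ => rfl
  | succ i ih =>
    filter_upwards [ih, hpos (10 ^ (i + 1))] with ω h1 h2
    change max (aa A μ i ω) (- Real.log (A.Sh μ (10 ^ (i + 1)) ω).toReal) = _
    refine max_eq_right ?_
    rw [h1]
    have t0 : A.Sh μ (10 ^ i) ω ≠ ∞ :=
      ne_top_of_le_ne_top ENNReal.one_ne_top (Sh_le_one hμ _ ω)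
    have t1 : A.Sh μ (10 ^ (i + 1)) ω ≠ ∞ :=
      ne_top_of_le_ne_top ENNReal.one_ne_top (Sh_le_one hμ _ ω)
    have h3 : A.Sh μ (10 ^ (i + 1)) ω ≤ A.Sh μ (10 ^ i) ω :=
      Sh_anti (Nat.pow_le_pow_right (by norm_num) (Nat.le_succ i)) ω
    have h4 := ENNReal.toReal_mono t0 h3
    have h5 := Real.log_le_log (ENNReal.toReal_pos h2 t1) h4
    linarith

/-- **the chain with a point start** (no energy): every order of every threshold. -/
theorem chain_pt (F : Bind263.Frame Q κ R) (u : Step d)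
    (hA : annealedProb Q 0 (escapeEvent (B2d.dirVec u)) ≠ 0)
    (hT : ∀ Λ : ℝ, ∃ (m m1 : ℝ) (n0 : ℕ), 1 ≤ m ∧ ∀ n, n0 ≤ n →
      TileSys (kT u R κ Q F.stat F.fin) (2 ^ n) (ENNReal.ofReal (Real.exp (-m1)))
        (ENNReal.ofReal (Real.exp (-m))) (ENNReal.ofReal (Real.exp (-(Λ * m)))))
    (hI : ∀ A : ℝ, 0 < A → ∃ c : ℝ, 0 < c ∧ ∃ t0 : ℝ, ∀ t : ℝ, t0 ≤ t → ∀ h : ℕ,
      (h : ℝ) ≤ A * t → Q {ω | mkLaw κ ω 0 (ClA u R 0 h) ≤ ENNReal.ofReal (Real.exp (-t))}
        ≤ ENNReal.ofReal (Real.exp (-(c * t ^ 2)))) :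
    ∀ δ M : ℝ, 0 < δ → 0 < M → ∃ C : ℝ, ∀ i : ℕ,
      Q {ω | mkLaw κ ω 0 (ClA u R 0 ((10 ^ i : ℕ) : ℤ)) < ENNReal.ofReal (Real.exp (-(δ * i)))}
        ≤ ENNReal.ofReal (C * Real.exp (-(M * i))) := by
  intro δ M hδ hM
  set A := kT u R κ Q F.stat F.fin with hAdef
  have hst : A.Start (pt (d := d)) := pt_start F u
  have hpos := Sh_pos F u hA
  have hposp : ∀ h, ∀ᵐ ω ∂Q, A.Sh (pt (d := d)) h ω ≠ 0 := hpos _ hst
  have hae : ∀ i, ∀ᵐ ω ∂Q, aa A pt i ω = - Real.log (A.Sh (pt (d := d)) (10 ^ i) ω).toReal :=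
    aa_eq hst hposp
  have hW : ∀ lam ε' : ℝ, 0 < lam → 0 < ε' → ∃ u0 c : ℝ, 0 < c ∧ ∃ w : ℕ → ℝ, (∀ i, 0 ≤ w i) ∧
      (∀ J : ℕ, ∑ i ∈ Finset.range J, w i ≤ ε' * J + u0) ∧
      ∀ _n : ℕ, CompW.WH Q A.F10 (aa A pt) lam u0 c w := by
    intro lam ε' hlam hε'
    obtain ⟨u0, c, hc, hu0, h⟩ := WindowK299.window_const hT lam hlam
    refine ⟨u0, c, hc, fun _ => 0, fun _ => le_rfl, fun J => ?_, fun _ => ?_⟩
    · simp only [Finset.sum_const_zero]
      have : (0:ℝ) ≤ J := Nat.cast_nonneg J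
      nlinarith
    · intro i v hv hvc B hB
      simp only [add_zero] at hvc ⊢
      exact h pt hst hposp (aa A pt) hae i v hv hvc B hB
  have hp0 : ∫⁻ ω, rho u R κ ω 0 ∂Q ≠ 0 := by
    rw [Ne, lintegral_eq_zero_iff (measurable_rho u R κ 0)]
    intro h0
    obtain ⟨ω, h1, h2⟩ := ((rho_pos F u hA).and h0).exists
    exact h1 h2
  have hR := RatioS775.hR_of_hWS A hp0 (h_ge F u) (h_le F u) hpos (fun _ => pt) (fun _ => hst)
    (fun _ => aa A pt) (fun _ => hae) hW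
  obtain ⟨C, hC⟩ := CompW.chain Q A.F10 (fun _ => aa A pt) (fun _ => aa_meas hst)
    (fun _ => aa_nonneg hst) (fun _ => aa_mono) hW hR (by
      intro b δ' M' hb hδ' hM'
      obtain ⟨c, hc, t0, h1⟩ := hI (b / δ') (by positivity)
      obtain ⟨n1, hn1⟩ := exists_nat_ge (max (t0 / δ') (M' / (c * δ' ^ 2)))
      refine ⟨n1, fun n hn J hJ => ?_⟩
      have hn' : (n1 : ℝ) ≤ n := by exact_mod_cast hn
      have g1 : t0 / δ' ≤ n := (le_max_left _ _).trans (hn1.trans hn')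
      have g2 : M' / (c * δ' ^ 2) ≤ n := (le_max_right _ _).trans (hn1.trans hn')
      rw [div_le_iff₀ hδ'] at g1
      rw [div_le_iff₀ (by positivity)] at g2
      have h2 := h1 (δ' * n) (by linarith) (10 ^ J) (by
        push_cast
        calc (10:ℝ) ^ J ≤ b * n := hJ
          _ = b / δ' * (δ' * n) := by field_simp)
      have hsub : ({ω | δ' * n ≤ aa A pt J ω} : Set (Environment d)) ≤ᵐ[Q]
          {ω | mkLaw κ ω 0 (ClA u R 0 ((10 ^ J : ℕ) : ℤ)) ≤
            ENNReal.ofReal (Real.exp (-(δ' * n)))} := by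
        filter_upwards [hae J, hposp (10 ^ J)] with ω e1 e2
        intro hω
        have hω' : δ' * n ≤ aa A pt J ω := hω
        rw [e1, Sh_pt F u] at hω'
        rw [Sh_pt F u] at e2
        have t1 : mkLaw κ ω 0 (ClA u R 0 ((10 ^ J : ℕ) : ℤ)) ≠ ∞ := measure_ne_top _ _
        have e3 := ENNReal.toReal_pos e2 t1
        change mkLaw κ ω 0 (ClA u R 0 ((10 ^ J : ℕ) : ℤ)) ≤ _
        rw [← ENNReal.ofReal_toReal t1]
        refine ENNReal.ofReal_le_ofReal ?_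
        rw [← Real.log_le_iff_le_exp e3]
        linarith
      refine (measure_mono_ae hsub).trans (h2.trans (ENNReal.ofReal_le_ofReal ?_))
      refine Real.exp_le_exp.2 ?_
      have hn0 : (0:ℝ) ≤ n := Nat.cast_nonneg n
      have : M' * n ≤ (n * (c * δ' ^ 2)) * n := by gcongr
      nlinarith) hδ hM
  refine ⟨C, fun i => le_trans (measure_mono_ae ?_) (hC i)⟩
  filter_upwards [hae i, hposp (10 ^ i)] with ω e1 e2
  intro hω
  have hω' : mkLaw κ ω 0 (ClA u R 0 ((10 ^ i : ℕ) : ℤ)) < ENNReal.ofReal (Real.exp (-(δ * i))) := hω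
  change δ * i ≤ aa A pt i ω
  rw [e1, Sh_pt F u]
  rw [Sh_pt F u] at e2
  have t1 : mkLaw κ ω 0 (ClA u R 0 ((10 ^ i : ℕ) : ℤ)) ≠ ∞ := measure_ne_top _ _
  have e3 := ENNReal.toReal_pos e2 t1
  have e4 : (mkLaw κ ω 0 (ClA u R 0 ((10 ^ i : ℕ) : ℤ))).toReal ≤ Real.exp (-(δ * i)) := by
    have := ENNReal.toReal_mono ENNReal.ofReal_ne_top hω'.le
    rwa [ENNReal.toReal_ofReal (Real.exp_pos _).le] at this
  have e5 := (Real.log_le_iff_le_exp e3).2 e4
  linarith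

end sys

/-! ### marked climb and quenched climb -/

/-- the marked natural climb is a climb -/
lemma ClA_subset (u : Step d) (R h : ℕ) :
    ClA u R 0 (h : ℤ) ⊆ mpath (0 : Site d) ⁻¹' Fin804.Climb u h := by
  intro M hM
  obtain ⟨m, hm⟩ := mem_iUnion.1 hM
  obtain ⟨a1, a2, a3, a4⟩ := hm
  have hz : mpath (0 : Site d) M 0 = 0 := pos_zero _ _
  refine ⟨m, ?_, fun k hk => ?_⟩
  · rw [hz]
    change lev u 0 + (h : ℤ) ≤ lev u (pos 0 M m)
    rw [a1, Flux132.lev_zero, zero_add]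
  · rw [hz]
    change lev u 0 ≤ lev u (pos 0 M k)
    by_cases hkR : R ≤ k
    · have := a4 k hkR hk
      omega
    · have hup : ∀ j, j ≤ k → lev u (pos 0 M j) = lev u 0 + j := by
        intro j
        induction j with
        | zero => intro _; simp [pos_zero]
        | succ j ih =>
          intro hj
          have e1 := ih (by omega)
          have e2 : M j = (u, true) := a3 j (by omega) (by omega)
          rw [pos_succ, Flux132.lev_add, e1, e2]
          have : lev u (stp ((u, true) : Mark d)) = 1 := Flux132.lev_step_self u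
          rw [this]
          push_cast
          ring
      rw [hup k le_rfl]
      omega

/-- for `R = 0` they are the same event -/
lemma ClA_eq_climb (u : Step d) (h : ℕ) :
    ClA u 0 0 (h : ℤ) = mpath (0 : Site d) ⁻¹' Fin804.Climb u h := by
  refine Subset.antisymm (ClA_subset u 0 h) ?_
  rintro M ⟨n, h1, h2⟩
  have hz : mpath (0 : Site d) M 0 = 0 := pos_zero _ _
  rw [hz] at h1 h2
  have h1' : lev u 0 + (h : ℤ) ≤ lev u (pos 0 M n) := h1
  rw [Flux132.lev_zero, zero_add] at h1'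
  classical
  have hex : ∃ n, (h : ℤ) ≤ lev u (pos 0 M n) := ⟨n, h1'⟩
  set m := Nat.find hex with hm
  have g1 : (h : ℤ) ≤ lev u (pos 0 M m) := Nat.find_spec hex
  have g2 : ∀ i < m, lev u (pos 0 M i) < h := fun i hi => not_le.1 (Nat.find_min hex hi)
  have g3 : m ≤ n := Nat.find_le h1'
  have g4 : lev u (pos 0 M m) = h := by
    rcases Nat.eq_zero_or_pos m with h0 | h0
    · rw [h0, pos_zero] at g1 ⊢
      rw [Flux132.lev_zero] at g1 ⊢
      omega
    · obtain ⟨k, hk⟩ : ∃ k, m = k + 1 := ⟨m - 1, by omega⟩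
      have e1 := g2 k (by omega)
      have e2 := lev_pos_succ_le u 0 M k
      rw [hk] at g1 ⊢
      omega
  refine mem_iUnion.2 ⟨m, g4, g2, fun i _ hR => absurd hR (Nat.not_lt_zero i), fun i _ hi => ?_⟩
  have := h2 i (by omega)
  have h5 : lev u (0 : Site d) ≤ lev u (pos 0 M i) := this
  simpa using h5

section fin

variable {Q : Measure (Environment d)} [IsProbabilityMeasure Q] {κ : ℝ} {R : ℕ}

lemma mk_le_climb (F : Bind263.Frame Q κ R) (u : Step d) :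
    ∀ᵐ ω ∂Q, ∀ h : ℕ, mkLaw κ ω 0 (ClA u R 0 (h : ℤ)) ≤ quenchedLaw ω 0 (Fin804.Climb u h) := by
  filter_upwards [F.ell] with ω hω h
  rw [← mk_projection_of_le hω 0, Measure.map_apply (measurable_mpath 0)
    (Fin804.measurableSet_climb u h)]
  exact measure_mono (ClA_subset u R h)

lemma mk_eq_climb (F : Bind263.Frame Q κ 0) (u : Step d) :
    ∀ᵐ ω ∂Q, ∀ h : ℕ, mkLaw κ ω 0 (ClA u 0 0 (h : ℤ)) = quenchedLaw ω 0 (Fin804.Climb u h) := by
  filter_upwards [F.ell] with ω hω h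
  rw [← mk_projection_of_le hω 0, Measure.map_apply (measurable_mpath 0)
    (Fin804.measurableSet_climb u h), ClA_eq_climb]

/-- **(FL) from tile systems with point start and small heights**, any frame. -/
theorem FL_of (F : Bind263.Frame Q κ R) (u : Step d)
    (hA : annealedProb Q 0 (escapeEvent (B2d.dirVec u)) ≠ 0)
    (hT : ∀ Λ : ℝ, ∃ (m m1 : ℝ) (n0 : ℕ), 1 ≤ m ∧ ∀ n, n0 ≤ n →
      TileSys (kT u R κ Q F.stat F.fin) (2 ^ n) (ENNReal.ofReal (Real.exp (-m1)))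
        (ENNReal.ofReal (Real.exp (-m))) (ENNReal.ofReal (Real.exp (-(Λ * m)))))
    (hI : ∀ A : ℝ, 0 < A → ∃ c : ℝ, 0 < c ∧ ∃ t0 : ℝ, ∀ t : ℝ, t0 ≤ t → ∀ h : ℕ,
      (h : ℝ) ≤ A * t → Q {ω | mkLaw κ ω 0 (ClA u R 0 h) ≤ ENNReal.ofReal (Real.exp (-t))}
        ≤ ENNReal.ofReal (Real.exp (-(c * t ^ 2)))) : Fin804.FL Q u := by
  intro δ M hδ hM
  obtain ⟨C, hC⟩ := chain_pt F u hA hT hI δ M hδ hM
  refine ⟨C, fun i => le_trans (measure_mono_ae ?_) (hC i)⟩
  filter_upwards [mk_le_climb F u] with ω h1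
  intro hω
  exact lt_of_le_of_lt (h1 (10 ^ i)) hω

end fin

/-! ### the two inputs of `d = 2` -/

/-- **INPUT 1 (TILE, d = 2)**: tile systems of constant cost. -/
def TileD2 : Prop :=
  ∀ (ν : Measure (Row 2)) [IsProbabilityMeasure ν] (κ : ℝ), 0 < κ →
    (∀ᵐ p ∂ν, ∀ e : Step 2, κ ≤ p.1 e) → ∀ u : Step 2,
    annealed (iidEnvironmentLaw ν) 0 (escapeEvent (B2d.dirVec u)) = 1 →
    ∀ Λ : ℝ, ∃ (m m1 : ℝ) (n0 : ℕ), 1 ≤ m ∧ ∀ n, n0 ≤ n →
      TileSys (kT u 0 0 (iidEnvironmentLaw ν) (Q561.iid_shift ν)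
        (Q561.iid_isFiniteRangeDependent ν 0)) (2 ^ n) (ENNReal.ofReal (Real.exp (-m1)))
        (ENNReal.ofReal (Real.exp (-m))) (ENNReal.ofReal (Real.exp (-(Λ * m))))

/-- **INPUT 2 (small heights, d = 2; 569).** -/
def SmallD2 : Prop :=
  ∀ (ν : Measure (Row 2)) [IsProbabilityMeasure ν] (κ : ℝ), 0 < κ →
    (∀ᵐ p ∂ν, ∀ e : Step 2, κ ≤ p.1 e) → ∀ u : Step 2,
    annealed (iidEnvironmentLaw ν) 0 (escapeEvent (B2d.dirVec u)) = 1 →
    ∀ A : ℝ, 0 < A → ∃ c : ℝ, 0 < c ∧ ∃ t0 : ℝ, ∀ t : ℝ, t0 ≤ t → ∀ h : ℕ, (h : ℝ) ≤ A * t →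
      iidEnvironmentLaw ν {ω | quenchedLaw ω 0 (Fin804.Climb u h) ≤ ENNReal.ofReal (Real.exp (-t))}
        ≤ ENNReal.ofReal (Real.exp (-(c * t ^ 2)))

/-- **FINAL ASSEMBLY of `d = 2`.** -/
theorem fl2_of (h1 : TileD2) (h2 : SmallD2) : Spine.FL2Prop1 := by
  intro ν _ κ hκ hν u hu
  have hpos := Spine.pos_of_ue hκ hν
  have F : Bind263.Frame (iidEnvironmentLaw ν) 0 0 := Bind263.frame_iid ν hpos
  have hA : annealedProb (iidEnvironmentLaw ν) 0 (escapeEvent (B2d.dirVec u)) ≠ 0 := by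
    rw [← annealed_apply _ 0 (B2d.measurableSet_escapeEvent _), hu]
    exact one_ne_zero
  refine B9409.FL_of_804 (FL_of F u hA (h1 ν κ hκ hν u hu) ?_) 8
  intro A hA'
  obtain ⟨c, hc, t0, h⟩ := h2 ν κ hκ hν u hu A hA'
  refine ⟨c, hc, t0, fun t ht n hn => le_trans (measure_mono_ae ?_) (h t ht n hn)⟩
  filter_upwards [mk_eq_climb F u] with ω h1
  intro hω
  have hω' : mkLaw 0 ω 0 (ClA u 0 0 (n : ℤ)) ≤ ENNReal.ofReal (Real.exp (-t)) := hω
  rw [h1 n] at hω'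
  exact hω'

end Crest.Agent.R154.D2Asm244
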