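import Crest.Agent.R154.FluxDefs_132

/-! Row 154, FLUX block: levels, the flux identity `Σ_x P^x(..) ≤ P(max level = n+1)`. -/

set_option autoImplicit false

namespace Crest.Agent.R154.Flux132

open MeasureTheory ProbabilityTheory Crest.ProbabilityR.RandomEnvironment
open Crest.Agent.R154.Kal132
open Filter
open scoped ENNReal Topology

variable {d : ℕ}

/-! ### levels -/

lemma lev_add (u : Step d) (x y : Site d) : lev u (x + y) = lev u x + lev u y := by
  unfold lev; split_ifs <;> simp; ring

lemma lev_neg (u : Step d) (x : Site d) : lev u (-x) = - lev u x := by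
  unfold lev; split_ifs <;> simp

lemma lev_zero (u : Step d) : lev u (0 : Site d) = 0 := by
  unfold lev; split_ifs <;> simp

lemma lev_step_self (u : Step d) : lev u (stepVec u) = 1 := by
  unfold lev stepVec; split_ifs <;> simp_all


lemma stepVec_opp (u : Step d) : stepVec (opp u) = - stepVec u := by
  unfold stepVec opp
  rw [← Pi.single_neg]
  congr 1
  cases u.2 <;> simp




/-! ### the first hit of level `0` at the origin -/

/-- first hit of level `0` at time `m`, at the origin -/
def Em (u : Step d) (m : ℕ) : Set (Path d) := {X | (∀ i, i < m → lev u (X i) < 0) ∧ X m = 0}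

/-- the first hit of level `0` is at the origin -/
def H0 (u : Step d) : Set (Path d) := ⋃ m, Em u m







/-! ### the excursion and the event `V` -/

/-- follow `ρ` up to time `K`, then natural down. -/
def Bex (u : Step d) (ρ : Path d) (K : ℕ) : Set (Path d) := cyl ρ K ∩ shift K ⁻¹' Dn u


/-- first hit of level `0` at the origin, then the excursion, then natural down. -/
def V (u : Step d) (ρ : Path d) (K : ℕ) : Set (Path d) :=
  ⋃ m, (Em u m ∩ shift m ⁻¹' Bex u ρ K)










end Crest.Agent.R154.Flux132
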