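import Crest.Agent.R154.D2V_36
import Crest.Agent.R154.Loc_561
import Crest.Agent.R154.Flux1_132

-- ▼ part R154/D2WA_36
section

/-!
# Row 154, `d = 2`, D2.9-END, part A (helper36): path level facts about first visits of levels
-/

set_option autoImplicit false
set_option linter.unusedVariables false
set_option linter.unusedSectionVars false

namespace Crest.Agent.R154.D2V36

open MeasureTheory ProbabilityTheory Crest.ProbabilityR.RandomEnvironment Crest.Agent.R154
open Crest.Agent.R154.Flux132 (lev)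
open Crest.Agent.R154.ExK9 Crest.Agent.R154.Resamp9
open Crest.Agent.R154.River916 (Ev)
open Crest.Agent.R154.P2916 (sl)
open scoped ENNReal

/-! ### exits -/

section gen
variable {d : ℕ}

lemma measurable_exP (A : Set (Site d)) : Measurable fun X : Path d => X (exT A X).toNat := by
  have h1 : Measurable fun X : Path d => (exT A X).toNat :=
    (measurable_of_countable ENat.toNat).comp (isStop_exT A).measurable
  have h2 : Measurable fun p : Path d × ℕ => p.1 p.2 :=
    measurable_from_prod_countable_left fun n => measurable_pi_apply n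
  exact h2.comp (measurable_id.prodMk h1)

lemma measurable_exSh (A : Set (Site d)) : Measurable fun X : Path d => shift (exT A X).toNat X := by
  refine measurable_pi_iff.2 fun i => ?_
  have h1 : Measurable fun X : Path d => (exT A X).toNat :=
    (measurable_of_countable ENat.toNat).comp (isStop_exT A).measurable
  have h2 : Measurable fun p : Path d × ℕ => p.1 (p.2 + i) :=
    measurable_from_prod_countable_left fun n => measurable_pi_apply (n + i)
  exact h2.comp (measurable_id.prodMk h1)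

lemma measurableSet_fin (A : Set (Site d)) : MeasurableSet {X : Path d | exT A X ≠ ⊤} :=
  (isStop_exT A).measurableSet_ne_top



/-- the annealed law from `y` is the translated annealed law -/
lemma annealed_tr {Q : Measure (Environment d)} [IsProbabilityMeasure Q]
    (hQ : ∀ z : Site d, MeasurePreserving (shiftEnv z) Q Q) (y : Site d) :
    annealed Q y = (annealed Q 0).map (Q561.tr y) := by
  ext B hB
  rw [Measure.map_apply (Q561.measurable_tr y) hB, annealed_apply Q y hB,
    annealed_apply Q 0 (Q561.measurable_tr y hB), Q561.annealed_eq_zero_shift hQ y hB]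

lemma annealed_zero (Q : Measure (Environment d)) [IsProbabilityMeasure Q] (y : Site d) :
    ∀ᵐ X ∂annealed Q y, X 0 = y := by
  have hm : MeasurableSet {X : Path d | X 0 = y} :=
    measurableSet_eq_fun (measurable_pi_apply 0) measurable_const
  exact annealed_ae (A := {X | X 0 = y}) hm
    (Filter.Eventually.of_forall fun ω => quenched_zero_eq ω y)

lemma annealed_nn (Q : Measure (Environment d)) [IsProbabilityMeasure Q] (y : Site d) :
    ∀ᵐ X ∂annealed Q y, ∀ n, ∃ e : Step d, X (n + 1) = X n + stepVec e := by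
  have hm : MeasurableSet {X : Path d | ∀ n, ∃ e : Step d, X (n + 1) = X n + stepVec e} := by
    have : {X : Path d | ∀ n, ∃ e : Step d, X (n + 1) = X n + stepVec e} =
        ⋂ n, ⋃ e : Step d, {X : Path d | X (n + 1) = X n + stepVec e} := by
      ext X; simp
    rw [this]
    refine MeasurableSet.iInter fun n => MeasurableSet.iUnion fun e => ?_
    exact measurableSet_eq_fun (measurable_pi_apply _)
      ((measurable_pi_apply n).add_const _)
  exact annealed_ae (A := {X | ∀ n, ∃ e : Step d, X (n + 1) = X n + stepVec e}) hm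
    (Filter.Eventually.of_forall fun ω => quenched_nn ω y)

end gen

/-! ### levels -/

variable {u : Step 2} {i : Fin 2} {θ : ℝ}


lemma Sb_mono {l l' : ℕ} (h : l ≤ l') : Sb u l ⊆ Sb u l' := fun y hy => by
  have h1 : lev u y < (l : ℤ) := hy
  have h2 : (l : ℤ) ≤ l' := by exact_mod_cast h
  exact lt_of_lt_of_le h1 h2

lemma measurable_xT (l : ℕ) : Measurable (xT u l) := measurable_exP _


/-- the first visit of a higher level is seen after the first visit of the lower one -/
lemma xT_shift {l l' : ℕ} (h : l ≤ l') {X : Path 2} (h2 : exT (Sb u l') X ≠ ⊤) :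
    xT u l' (shift (exT (Sb u l) X).toNat X) = xT u l' X := by
  have h3 := ((mem_ExS_shift (Sb_mono h) (xT u l' X) X).1 (mem_ExS_iff.2 ⟨h2, rfl⟩)).2
  exact (mem_ExS_iff.1 h3).2

lemma exT_zero {A : Set (Site 2)} {X : Path 2} (h : X 0 ∉ A) : exT A X = 0 := by
  have : exT A X = ((0 : ℕ) : ℕ∞) := exT_eq_iff.2 ⟨h, fun i hi => absurd hi (Nat.not_lt_zero i)⟩
  simpa using this

lemma xT_start {l : ℕ} {X : Path 2} (h : X 0 ∉ Sb u l) : xT u l X = X 0 := by
  unfold xT
  rw [exT_zero h]
  rfl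

lemma sl_add (x y : Site 2) : sl u i θ (x + y) = sl u i θ x + sl u i θ y := by
  unfold sl
  rw [Flux132.lev_add]
  simp only [Pi.add_apply]
  push_cast
  ring

lemma abs_lev_step (e : Step 2) : |(lev u (stepVec e) : ℝ)| ≤ 1 := by
  have h : |lev u (stepVec e)| ≤ 1 := by
    unfold lev
    rcases e with ⟨j, b⟩
    by_cases h : j = u.1
    · subst h
      simp only [stepVec, Pi.single_eq_same]
      cases b <;> cases u.2 <;> simp
    · have : stepVec ((j, b) : Step 2) u.1 = 0 := by
        simp only [stepVec]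
        exact Pi.single_eq_of_ne (Ne.symm h) _
      rw [this]
      split_ifs <;> simp
  rw [← Int.cast_abs]
  exact_mod_cast h

lemma abs_coord_step (j : Fin 2) (e : Step 2) : |((stepVec e j : ℤ) : ℝ)| ≤ 1 := by
  have h : |stepVec e j| ≤ 1 := by
    rcases e with ⟨k, b⟩
    by_cases h : j = k
    · subst h
      simp only [stepVec, Pi.single_eq_same]
      cases b <;> simp
    · have : stepVec ((k, b) : Step 2) j = 0 := by
        simp only [stepVec]
        exact Pi.single_eq_of_ne h _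
      rw [this]
      simp
  rw [← Int.cast_abs]
  exact_mod_cast h

lemma abs_sl_step (e : Step 2) : |sl u i θ (stepVec e)| ≤ 1 + |θ| := by
  unfold sl
  calc |((stepVec e i : ℤ) : ℝ) - θ * (lev u (stepVec e) : ℝ)|
      ≤ |((stepVec e i : ℤ) : ℝ)| + |θ * (lev u (stepVec e) : ℝ)| := abs_sub _ _
    _ ≤ 1 + |θ| * 1 := by
        rw [abs_mul]
        exact add_le_add (abs_coord_step i e)
          (mul_le_mul_of_nonneg_left (abs_lev_step e) (abs_nonneg θ))
    _ = 1 + |θ| := by ring

/-- bad event of the slab started at the current site -/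
def BadC (u : Step 2) (i : Fin 2) (θ : ℝ) (l g h : ℕ) (r : ℝ) : Set (Path 2) :=
  {X | X ∉ Ev (Col u i θ l g h r (X 0)) (Lvl u (l + g))}

lemma measurableSet_BadC (l g h : ℕ) (r : ℝ) : MeasurableSet (BadC u i θ l g h r) := by
  have : BadC u i θ l g h r = ⋃ y : Site 2, ({X | X 0 = y} ∩
      (Ev (Col u i θ l g h r y) (Lvl u (l + g)))ᶜ) := by
    ext X
    simp only [BadC, Set.mem_iUnion, Set.mem_inter_iff, Set.mem_ofPred_eq, Set.mem_compl_iff]
    constructor
    · exact fun hX => ⟨X 0, rfl, hX⟩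
    · rintro ⟨y, rfl, hX⟩; exact hX
  rw [this]
  exact MeasurableSet.iUnion fun y =>
    (measurableSet_eq_fun (measurable_pi_apply 0) measurable_const).inter
      (River916.meas_Ev _ _).compl

lemma quenched_BadC (ω : Environment 2) (y : Site 2) (l g h : ℕ) (r : ℝ) :
    quenchedLaw ω y (BadC u i θ l g h r) =
      quenchedLaw ω y (Ev (Col u i θ l g h r y) (Lvl u (l + g)))ᶜ := by
  refine measure_congr ?_
  filter_upwards [quenched_zero_eq ω y] with X hX
  apply propext
  show X ∉ Ev (Col u i θ l g h r (X 0)) (Lvl u (l + g)) ↔ X ∉ Ev (Col u i θ l g h r y) (Lvl u (l + g))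
  rw [hX]

/-- the slab integral of `SlabP` -/
noncomputable def pb (u : Step 2) (i : Fin 2) (θ : ℝ) (Q : Measure (Environment 2))
    (l g h : ℕ) (r : ℝ) : ℝ≥0∞ :=
  ∫⁻ ω, ∑' y : Site 2, EK ω (Sb u l) 0 y *
    quenchedLaw ω y (Ev (Col u i θ l g h r y) (Lvl u (l + g)))ᶜ ∂Q

lemma pb_eq (Q : Measure (Environment 2)) [IsProbabilityMeasure Q] (l g h : ℕ) (r : ℝ) :
    annealed Q 0 {X | exT (Sb u l) X ≠ ⊤ ∧
      shift (exT (Sb u l) X).toNat X ∈ BadC u i θ l g h r} = pb u i θ Q l g h r := by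
  have hm : MeasurableSet {X : Path 2 | exT (Sb u l) X ≠ ⊤ ∧
      shift (exT (Sb u l) X).toNat X ∈ BadC u i θ l g h r} := by
    have h1 := measurable_exSh (Sb u l) (measurableSet_BadC (u := u) (i := i) (θ := θ) l g h r)
    exact MeasurableSet.inter (measurableSet_fin (Sb u l)) h1
  rw [annealed_apply Q 0 hm]
  unfold annealedProb pb
  refine lintegral_congr fun ω => ?_
  rw [exit_markov ω (Sb u l) 0 (measurableSet_BadC l g h r)]
  exact tsum_congr fun y => by rw [quenched_BadC]

/-- deterministic: a path which leaves its column through the top moves little -/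
lemma sl_of_Ev {l g h : ℕ} {r : ℝ} (hr : 0 ≤ r) {X : Path 2}
    (hnn : ∀ n, ∃ e : Step 2, X (n + 1) = X n + stepVec e)
    (hX : X ∈ Ev (Col u i θ l g h r (X 0)) (Lvl u (l + g))) :
    |sl u i θ (xT u (l + g) X) - sl u i θ (X 0)| ≤ r + (1 + |θ|) := by
  obtain ⟨n, hn, hi⟩ := hX
  have h1 : exT (Sb u (l + g)) X = n := by
    refine exT_eq_iff.2 ⟨?_, fun j hj => ?_⟩
    · intro hc
      have a1 : lev u (X n) = ((l + g : ℕ) : ℤ) := hn
      have a2 : lev u (X n) < ((l + g : ℕ) : ℤ) := hc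
      omega
    · have a1 := (hi j hj).2.1
      show lev u (X j) < ((l + g : ℕ) : ℤ)
      push_cast
      exact a1
  have h2 : xT u (l + g) X = X n := by
    unfold xT
    rw [h1, ENat.toNat_natCast]
  rw [h2]
  have hθ := abs_nonneg θ
  cases n with
  | zero => rw [sub_self, abs_zero]; linarith
  | succ n =>
    obtain ⟨e, he⟩ := hnn n
    have a1 := (hi n (Nat.lt_succ_self n)).2.2
    rw [he, sl_add]
    have a2 := abs_sl_step (u := u) (i := i) (θ := θ) e
    have : sl u i θ (X n) + sl u i θ (stepVec e) - sl u i θ (X 0) =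
        (sl u i θ (X n) - sl u i θ (X 0)) + sl u i θ (stepVec e) := by ring
    rw [this]
    exact (abs_add_le _ _).trans (add_le_add a1 a2)

variable {ν : Measure (Row 2)} [IsProbabilityMeasure ν]

lemma annealed_hit (hH : HitP u ν) (y : Site 2) :
    ∀ᵐ X ∂annealed (iidEnvironmentLaw ν) y, ∀ l : ℕ, exT (Sb u l) X ≠ ⊤ := by
  rw [ae_all_iff]
  intro l
  refine annealed_ae (A := {X | exT (Sb u l) X ≠ ⊤}) (measurableSet_fin _) ?_
  filter_upwards [hH] with ω hω
  rw [ae_iff]
  have h := hω l y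
  convert h using 2
  ext X
  simp

/-- **displacement between two levels** -/
theorem disp (hH : HitP u ν) (l g h : ℕ) {r : ℝ} (hr : 0 ≤ r) :
    annealed (iidEnvironmentLaw ν) 0
      {X | r + (1 + |θ|) < |sl u i θ (xT u (l + g) X) - sl u i θ (xT u l X)|} ≤
      pb u i θ (iidEnvironmentLaw ν) l g h r := by
  rw [← pb_eq]
  refine measure_mono_ae ?_
  filter_upwards [annealed_hit hH 0, annealed_nn (iidEnvironmentLaw ν) 0] with X hX hnn
  intro hlt
  refine ⟨hX l, ?_⟩
  intro hE
  have hnn' : ∀ n, ∃ e : Step 2, shift (exT (Sb u l) X).toNat X (n + 1) =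
      shift (exT (Sb u l) X).toNat X n + stepVec e := fun n => hnn _
  have h1 := sl_of_Ev hr hnn' hE
  rw [xT_shift (Nat.le_add_right l g) (hX (l + g))] at h1
  have h2 : shift (exT (Sb u l) X).toNat X 0 = xT u l X := rfl
  rw [h2] at h1
  exact absurd hlt (not_lt.2 h1)

end Crest.Agent.R154.D2V36
end

-- ▼ part R154/D2WB_36

/-!
# Row 154, `d = 2`, D2.9-END, part B (helper36): products of functions of first visits, comparison
-/

set_option autoImplicit false
set_option linter.unusedVariables false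
set_option linter.unusedSectionVars false

namespace Crest.Agent.R154.D2V36

open MeasureTheory ProbabilityTheory Crest.ProbabilityR.RandomEnvironment Crest.Agent.R154
open Crest.Agent.R154.Flux132 (lev)
open Crest.Agent.R154.ExK9 Crest.Agent.R154.Resamp9
open Crest.Agent.R154.River916 (Ev)
open Crest.Agent.R154.P2916 (sl)
open scoped ENNReal

/-! ### products of numbers of `[0,1]` -/

lemma prod_mem {ι : Type*} (s : Finset ι) {a : ι → ℝ} (ha : ∀ j, 0 ≤ a j ∧ a j ≤ 1) :
    0 ≤ ∏ j ∈ s, a j ∧ ∏ j ∈ s, a j ≤ 1 :=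
  ⟨Finset.prod_nonneg fun j _ => (ha j).1, Finset.prod_le_one (fun j _ => (ha j).1) fun j _ => (ha j).2⟩

lemma abs_prod_sub_le {ι : Type*} (s : Finset ι) {a b : ι → ℝ} (ha : ∀ j, 0 ≤ a j ∧ a j ≤ 1)
    (hb : ∀ j, 0 ≤ b j ∧ b j ≤ 1) : |∏ j ∈ s, a j - ∏ j ∈ s, b j| ≤ ∑ j ∈ s, |a j - b j| := by
  classical
  induction s using Finset.induction_on with
  | empty => simp
  | insert x s hx ih =>
    rw [Finset.prod_insert hx, Finset.prod_insert hx, Finset.sum_insert hx]
    have e : a x * ∏ j ∈ s, a j - b x * ∏ j ∈ s, b j =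
        (a x - b x) * ∏ j ∈ s, a j + b x * (∏ j ∈ s, a j - ∏ j ∈ s, b j) := by ring
    rw [e]
    refine (abs_add_le _ _).trans ?_
    rw [abs_mul, abs_mul]
    have h1 := prod_mem s ha
    have h2 : |∏ j ∈ s, a j| ≤ 1 := abs_le.2 ⟨by linarith [h1.1], h1.2⟩
    have h3 : |b x| ≤ 1 := abs_le.2 ⟨by linarith [(hb x).1], (hb x).2⟩
    have h4 : |a x - b x| * |∏ j ∈ s, a j| ≤ |a x - b x| * 1 :=
      mul_le_mul_of_nonneg_left h2 (abs_nonneg _)
    have h5 : |b x| * |∏ j ∈ s, a j - ∏ j ∈ s, b j| ≤ 1 * |∏ j ∈ s, a j - ∏ j ∈ s, b j| :=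
      mul_le_mul_of_nonneg_right h3 (abs_nonneg _)
    linarith

section cmp
variable {Ω : Type*} [MeasurableSpace Ω] {P : Measure Ω} [IsProbabilityMeasure P]

lemma integrable_unit {f : Ω → ℝ} (hf : Measurable f) (h : ∀ ω, 0 ≤ f ω ∧ f ω ≤ 1) :
    Integrable f P :=
  Integrable.of_bound hf.aestronglyMeasurable 1 (Filter.Eventually.of_forall fun ω => by
    rw [Real.norm_eq_abs, abs_le]; exact ⟨by linarith [(h ω).1], (h ω).2⟩)

/-- products, in mean -/
lemma cmp_prod {m : ℕ} {a b : Fin m → Ω → ℝ} (ham : ∀ j, Measurable (a j))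
    (hbm : ∀ j, Measurable (b j)) (ha : ∀ j ω, 0 ≤ a j ω ∧ a j ω ≤ 1)
    (hb : ∀ j ω, 0 ≤ b j ω ∧ b j ω ≤ 1) {β : ℝ} (hβ : ∀ j, ∫ ω, |a j ω - b j ω| ∂P ≤ β) :
    ∫ ω, |∏ j, a j ω - ∏ j, b j ω| ∂P ≤ m * β := by
  have i1 : ∀ j, Integrable (fun ω => |a j ω - b j ω|) P := fun j =>
    ((integrable_unit (ham j) (ha j)).sub (integrable_unit (hbm j) (hb j))).abs
  calc ∫ ω, |∏ j, a j ω - ∏ j, b j ω| ∂P
      ≤ ∫ ω, ∑ j, |a j ω - b j ω| ∂P := by
        refine integral_mono_of_nonneg (Filter.Eventually.of_forall fun ω => abs_nonneg _)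
          (integrable_finset_sum _ fun j _ => i1 j) (Filter.Eventually.of_forall fun ω => ?_)
        exact abs_prod_sub_le _ (fun j => ha j ω) fun j => hb j ω
    _ = ∑ j, ∫ ω, |a j ω - b j ω| ∂P := integral_finset_sum _ fun j _ => i1 j
    _ ≤ ∑ _j : Fin m, β := Finset.sum_le_sum fun j _ => hβ j
    _ = m * β := by rw [Finset.sum_const, Finset.card_univ, Fintype.card_fin, nsmul_eq_mul]

/-- truncation at a rare event -/
lemma cmp_rare {f : Ω → ℝ} (hf : Measurable f) (hf1 : ∀ ω, 0 ≤ f ω ∧ f ω ≤ 1) {B : Set Ω}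
    (hB : MeasurableSet B) {c δ : ℝ} (hc : ∀ᵐ ω ∂P, ω ∉ B → f ω ≤ c) (hc0 : 0 ≤ c)
    (hδ : P.real B ≤ δ) : ∫ ω, f ω ∂P ≤ c + δ := by
  have i2 : Integrable (fun ω => c + B.indicator (fun _ => (1 : ℝ)) ω) P :=
    (integrable_const c).add ((integrable_const (1 : ℝ)).indicator hB)
  calc ∫ ω, f ω ∂P ≤ ∫ ω, (c + B.indicator (fun _ => (1 : ℝ)) ω) ∂P := by
        refine integral_mono_ae (integrable_unit hf hf1) i2 ?_
        filter_upwards [hc] with ω hω
        by_cases hωB : ω ∈ B
        · show f ω ≤ c + B.indicator (fun _ => (1 : ℝ)) ω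
          rw [Set.indicator_of_mem hωB]
          linarith [(hf1 ω).2]
        · show f ω ≤ c + B.indicator (fun _ => (1 : ℝ)) ω
          rw [Set.indicator_of_notMem hωB, add_zero]
          exact hω hωB
    _ = c + P.real B := by
        rw [integral_add (integrable_const c) ((integrable_const (1 : ℝ)).indicator hB),
          integral_const, integral_indicator hB]
        simp
    _ ≤ c + δ := by linarith

end cmp

/-! ### displacement in mean -/

variable {u : Step 2} {i : Fin 2} {θ : ℝ} {ν : Measure (Row 2)} [IsProbabilityMeasure ν]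

lemma measurable_sl_xT (l : ℕ) : Measurable fun X : Path 2 => sl u i θ (xT u l X) :=
  (measurable_of_countable (sl u i θ)).comp (measurable_xT l)


/-- two functions of the positions at levels `t`, `t + g` -/
theorem disp_mean (hH : HitP u ν) {t g h : ℕ} {r w c δ : ℝ} (hr : 0 ≤ r) (hw : 0 < w)
    (hc : 0 ≤ c) (hδ : pb u i θ (iidEnvironmentLaw ν) t g h r ≤ ENNReal.ofReal δ) (hδ0 : 0 ≤ δ)
    {f₁ f₂ : Path 2 → ℝ} (h1 : Measurable f₁) (h2 : Measurable f₂)
    (h1b : ∀ X, 0 ≤ f₁ X ∧ f₁ X ≤ 1) (h2b : ∀ X, 0 ≤ f₂ X ∧ f₂ X ≤ 1)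
    (hf : ∀ᵐ X ∂annealed (iidEnvironmentLaw ν) 0, |f₁ X - f₂ X| ≤
      (c + |sl u i θ (xT u (t + g) X) - sl u i θ (xT u t X)|) / w) :
    ∫ X, |f₁ X - f₂ X| ∂annealed (iidEnvironmentLaw ν) 0 ≤ (c + (r + (1 + |θ|))) / w + δ := by
  have hθ := abs_nonneg θ
  refine cmp_rare (B := {X | r + (1 + |θ|) < |sl u i θ (xT u (t + g) X) - sl u i θ (xT u t X)|})
    (h1.sub h2).abs (fun X => ⟨abs_nonneg _, ?_⟩) ?_ ?_ (by positivity) ?_
  · have a1 := h1b X
    have a2 := h2b X
    show |f₁ X - f₂ X| ≤ 1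
    rw [abs_le]
    constructor <;> linarith [a1.1, a1.2, a2.1, a2.2]
  · exact measurableSet_lt measurable_const ((measurable_sl_xT (t + g)).sub (measurable_sl_xT t)).abs
  · filter_upwards [hf] with X hX hXB
    have hX' : ¬ r + (1 + |θ|) < |sl u i θ (xT u (t + g) X) - sl u i θ (xT u t X)| := hXB
    refine hX.trans ?_
    gcongr
    exact not_lt.1 hX'
  · have h3 := (disp hH t g h hr).trans hδ
    rw [measureReal_def]
    exact ENNReal.toReal_le_of_le_ofReal hδ0 h3

/-! ### the products along a grid -/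

/-- translated path -/
lemma xT_tr {l L : ℕ} (hl : l ≤ L) {y : Site 2} (hy : lev u y = l) (X : Path 2) :
    xT u L (Q561.tr y X) = xT u (L - l) X + y := by
  have h1 : exT (Sb u L) (Q561.tr y X) = exT (Sb u (L - l)) X := by
    have hmem : ∀ n, (Q561.tr y X n ∈ Sb u L ↔ X n ∈ Sb u (L - l)) := by
      intro n
      show lev u (X n + y) < (L : ℤ) ↔ lev u (X n) < ((L - l : ℕ) : ℤ)
      rw [Flux132.lev_add, hy, Nat.cast_sub hl]
      constructor <;> intro h <;> linarith
    by_cases htop : exT (Sb u (L - l)) X = ⊤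
    · rw [htop, exT_eq_top_iff]
      intro n
      exact (hmem n).2 (exT_eq_top_iff.1 htop n)
    · obtain ⟨n, hn⟩ := ENat.ne_top_iff_exists.1 htop
      rw [← hn]
      have h2 := exT_eq_iff.1 hn.symm
      exact exT_eq_iff.2 ⟨fun h => h2.1 ((hmem n).1 h), fun j hj => (hmem j).2 (h2.2 j hj)⟩
  unfold xT
  rw [h1]
  rfl

section grid

variable {m : ℕ} (lvl : ℕ → ℕ) (kk : Fin m → ℕ) (χ : Fin m → Site 2 → ℝ)

/-- product of the `χ j` at the first visits of the levels `lvl (kk j)`, over the `j` with `k < kk j` -/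
noncomputable def Ph (u : Step 2) (k : ℕ) (X : Path 2) : ℝ :=
  ∏ j, if k < kk j then χ j (xT u (lvl (kk j)) X) else 1

/-- weight at the grid index `k` -/
noncomputable def Wt (k : ℕ) (z : Site 2) : ℝ := ∏ j, if kk j = k then χ j z else 1

/-- quenched expectation -/
noncomputable def Fk (u : Step 2) (k : ℕ) (ω : Environment 2) (y : Site 2) : ℝ≥0∞ :=
  ∫⁻ X, ENNReal.ofReal (Ph lvl kk χ u k X) ∂quenchedLaw ω y

/-- annealed expectation -/
noncomputable def vk (u : Step 2) (ν : Measure (Row 2)) (k : ℕ) (y : Site 2) : ℝ :=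
  ∫ X, Ph lvl kk χ u k X ∂annealed (iidEnvironmentLaw ν) y

variable {lvl kk χ}

lemma measurable_Ph (k : ℕ) : Measurable (Ph lvl kk χ u k) := by
  refine Finset.measurable_prod _ fun j _ => ?_
  by_cases h : k < kk j
  · simp only [h, if_true]
    exact (measurable_of_countable _).comp (measurable_xT _)
  · simp only [h, if_false]
    exact measurable_const

lemma Ph_mem (hχ : ∀ j z, 0 ≤ χ j z ∧ χ j z ≤ 1) (k : ℕ) (X : Path 2) :
    0 ≤ Ph lvl kk χ u k X ∧ Ph lvl kk χ u k X ≤ 1 := by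
  refine prod_mem _ fun j => ?_
  split_ifs
  · exact hχ _ _
  · exact ⟨zero_le_one, le_rfl⟩

lemma Wt_mem (hχ : ∀ j z, 0 ≤ χ j z ∧ χ j z ≤ 1) (k : ℕ) (z : Site 2) :
    0 ≤ Wt kk χ k z ∧ Wt kk χ k z ≤ 1 := by
  refine prod_mem _ fun j => ?_
  split_ifs
  · exact hχ _ _
  · exact ⟨zero_le_one, le_rfl⟩

lemma vk_mem (hχ : ∀ j z, 0 ≤ χ j z ∧ χ j z ≤ 1) (k : ℕ) (y : Site 2) :
    0 ≤ vk lvl kk χ u ν k y ∧ vk lvl kk χ u ν k y ≤ 1 := by
  unfold vk
  refine ⟨integral_nonneg fun X => (Ph_mem hχ k X).1, ?_⟩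
  calc ∫ X, Ph lvl kk χ u k X ∂annealed (iidEnvironmentLaw ν) y
      ≤ ∫ _, (1 : ℝ) ∂annealed (iidEnvironmentLaw ν) y :=
        integral_mono (integrable_unit (measurable_Ph k) (Ph_mem hχ k)) (integrable_const _)
          fun X => (Ph_mem hχ k X).2
    _ = 1 := by simp

lemma Fk_le_one (hχ : ∀ j z, 0 ≤ χ j z ∧ χ j z ≤ 1) (k : ℕ) (ω : Environment 2) (y : Site 2) :
    Fk lvl kk χ u k ω y ≤ 1 := by
  unfold Fk
  calc ∫⁻ X, ENNReal.ofReal (Ph lvl kk χ u k X) ∂quenchedLaw ω y
      ≤ ∫⁻ _, 1 ∂quenchedLaw ω y := lintegral_mono fun X => by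
        have := ENNReal.ofReal_le_ofReal (Ph_mem (u := u) (lvl := lvl) (kk := kk) hχ k X).2
        rwa [ENNReal.ofReal_one] at this
    _ = 1 := by simp

lemma measurable_Fk (k : ℕ) (y : Site 2) : Measurable fun ω => Fk lvl kk χ u k ω y := by
  unfold Fk
  exact (Measure.measurable_lintegral (measurable_Ph k).ennreal_ofReal).comp
    (Q561.measurable_quenchedLaw y)

/-- annealed expectation of the quenched one -/
lemma lint_Fk (hχ : ∀ j z, 0 ≤ χ j z ∧ χ j z ≤ 1) (k : ℕ) (y : Site 2) :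
    ∫⁻ ω, Fk lvl kk χ u k ω y ∂(iidEnvironmentLaw ν) = ENNReal.ofReal (vk lvl kk χ u ν k y) := by
  unfold Fk vk
  rw [← lintegral_annealed (iidEnvironmentLaw ν) y (measurable_Ph k).ennreal_ofReal,
    ofReal_integral_eq_lintegral_ofReal (integrable_unit (measurable_Ph k) (Ph_mem hχ k))
      (Filter.Eventually.of_forall fun X => (Ph_mem hχ k X).1)]

/-- **(L)**: the annealed expectations are slowly varying -/
theorem vk_lip (hH : HitP u ν) (hl : Monotone lvl) (hχ : ∀ j z, 0 ≤ χ j z ∧ χ j z ≤ 1)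
    {w : ℝ} (hw : 0 < w) (hLip : ∀ j z z', |χ j z - χ j z'| ≤ |sl u i θ z - sl u i θ z'| / w)
    {h : ℕ} {r δ : ℝ} (hr : 0 ≤ r) (hδ0 : 0 ≤ δ) {k : ℕ}
    (hδ : ∀ t, pb u i θ (iidEnvironmentLaw ν) t (lvl (k + 1) - lvl k) h r ≤ ENNReal.ofReal δ)
    {y z : Site 2} (hy : lev u y = lvl k) (hz : lev u z = lvl (k + 1)) {ρ : ℝ}
    (hρ : |sl u i θ z - sl u i θ y| ≤ ρ) :
    |Wt kk χ (k + 1) z * vk lvl kk χ u ν (k + 1) z - vk lvl kk χ u ν k y| ≤
      m * ((ρ + (r + (1 + |θ|))) / w + δ) := by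
  have hst := Q561.iid_shift ν
  have hkk : lvl k ≤ lvl (k + 1) := hl (Nat.le_succ k)
  -- both sides as integrals under the law from `0`
  let a : Fin m → Path 2 → ℝ := fun j X =>
    if k < kk j then χ j (xT u (lvl (kk j) - lvl (k + 1)) X + z) else 1
  let b : Fin m → Path 2 → ℝ := fun j X =>
    if k < kk j then χ j (xT u (lvl (kk j) - lvl k) X + y) else 1
  have ham : ∀ j, Measurable (a j) := fun j => by
    by_cases h : k < kk j
    · simp only [a, h, if_true]
      exact (measurable_of_countable fun x : Site 2 => χ j (x + z)).comp (measurable_xT _)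
    · simp only [a, h, if_false]; exact measurable_const
  have hbm : ∀ j, Measurable (b j) := fun j => by
    by_cases h : k < kk j
    · simp only [b, h, if_true]
      exact (measurable_of_countable fun x : Site 2 => χ j (x + y)).comp (measurable_xT _)
    · simp only [b, h, if_false]; exact measurable_const
  have ha : ∀ j X, 0 ≤ a j X ∧ a j X ≤ 1 := fun j X => by
    simp only [a]; split_ifs
    · exact hχ _ _
    · exact ⟨zero_le_one, le_rfl⟩
  have hb : ∀ j X, 0 ≤ b j X ∧ b j X ≤ 1 := fun j X => by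
    simp only [b]; split_ifs
    · exact hχ _ _
    · exact ⟨zero_le_one, le_rfl⟩
  have ez : Wt kk χ (k + 1) z * vk lvl kk χ u ν (k + 1) z =
      ∫ X, ∏ j, a j X ∂annealed (iidEnvironmentLaw ν) 0 := by
    unfold vk
    rw [annealed_tr hst z, integral_map (Q561.measurable_tr z).aemeasurable
      (measurable_Ph (k + 1)).aestronglyMeasurable, ← integral_const_mul]
    refine integral_congr_ae ?_
    filter_upwards [annealed_zero (iidEnvironmentLaw ν) 0] with X hX
    show Wt kk χ (k + 1) z * Ph lvl kk χ u (k + 1) (Q561.tr z X) = ∏ j, a j X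
    unfold Wt Ph
    rw [← Finset.prod_mul_distrib]
    refine Finset.prod_congr rfl fun j _ => ?_
    simp only [a]
    rcases lt_trichotomy (kk j) (k + 1) with h1 | h1 | h1
    · rw [if_neg (by omega), if_neg (by omega), if_neg (by omega), one_mul]
    · rw [if_pos h1, if_neg (by omega), if_pos (by omega), mul_one, h1, Nat.sub_self]
      have h2 : xT u 0 X = X 0 := xT_start (by
        rw [hX]
        show ¬ lev u 0 < ((0 : ℕ) : ℤ)
        rw [Flux132.lev_zero]; simp)
      rw [h2, hX, zero_add]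
    · rw [if_neg (by omega), if_pos h1, if_pos (by omega), one_mul,
        xT_tr (hl h1.le) hz]
  have ey : vk lvl kk χ u ν k y = ∫ X, ∏ j, b j X ∂annealed (iidEnvironmentLaw ν) 0 := by
    unfold vk
    rw [annealed_tr hst y, integral_map (Q561.measurable_tr y).aemeasurable
      (measurable_Ph k).aestronglyMeasurable]
    refine integral_congr_ae (Filter.Eventually.of_forall fun X => ?_)
    show Ph lvl kk χ u k (Q561.tr y X) = ∏ j, b j X
    unfold Ph
    refine Finset.prod_congr rfl fun j _ => ?_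
    simp only [b]
    by_cases h1 : k < kk j
    · rw [if_pos h1, if_pos h1, xT_tr (hl h1.le) hy]
    · rw [if_neg h1, if_neg h1]
  have iA : Integrable (fun X => ∏ j, a j X) (annealed (iidEnvironmentLaw ν) 0) :=
    integrable_unit (Finset.measurable_prod _ fun j _ => ham j) fun X => prod_mem _ fun j => ha j X
  have iB : Integrable (fun X => ∏ j, b j X) (annealed (iidEnvironmentLaw ν) 0) :=
    integrable_unit (Finset.measurable_prod _ fun j _ => hbm j) fun X => prod_mem _ fun j => hb j X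
  rw [ez, ey, ← integral_sub iA iB]
  refine abs_integral_le_integral_abs.trans ?_
  have hρ0 : 0 ≤ ρ := (abs_nonneg _).trans hρ
  have hθ := abs_nonneg θ
  refine cmp_prod ham hbm ha hb fun j => ?_
  by_cases h1 : k < kk j
  · have hle : lvl (k + 1) ≤ lvl (kk j) := hl h1
    have hsum : lvl (kk j) - lvl k = (lvl (kk j) - lvl (k + 1)) + (lvl (k + 1) - lvl k) := by omega
    refine disp_mean hH (t := lvl (kk j) - lvl (k + 1)) (g := lvl (k + 1) - lvl k) hr hw hρ0
      (hδ _) hδ0 (ham j) (hbm j) (ha j) (hb j) (Filter.Eventually.of_forall fun X => ?_)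
    simp only [a, b, h1, if_true]
    rw [hsum]
    refine (hLip j _ _).trans ?_
    gcongr
    rw [sl_add, sl_add]
    have e : sl u i θ (xT u (lvl (kk j) - lvl (k + 1)) X) + sl u i θ z -
        (sl u i θ (xT u (lvl (kk j) - lvl (k + 1) + (lvl (k + 1) - lvl k)) X) + sl u i θ y) =
        (sl u i θ z - sl u i θ y) - (sl u i θ (xT u (lvl (kk j) - lvl (k + 1) +
          (lvl (k + 1) - lvl k)) X) - sl u i θ (xT u (lvl (kk j) - lvl (k + 1)) X)) := by ring
    rw [e]
    exact (abs_sub _ _).trans (add_le_add hρ le_rfl)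
  · simp only [a, b, h1, if_false, sub_self, abs_zero, integral_zero]
    positivity

end grid

end Crest.Agent.R154.D2V36
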