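import Crest.Agent.R154.Resamp2_9

/-!
# Row 154, helper9: the exit chain with weights

* `xT A X` the first exit point of `A`, `sh A X` the path after the exit;
* `exit_markov_fun` : strong Markov property at the exit, for functions;
* `wq A χ x n ω z` : quenched law of the exit point of `A n`, with the weights `χ j` at the exit
  points of `A j`, `1 ≤ j ≤ n`; `wChain` : it is a `Chain` of `Resamp2_9`;
* `wq_path` : path form (with the future after the exit).
-/

set_option autoImplicit false
set_option linter.unusedVariables false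
set_option linter.unusedSectionVars false

namespace Crest.Agent.R154.WChain9

open MeasureTheory ProbabilityTheory Crest.ProbabilityR.RandomEnvironment Crest.Agent.R154
open Crest.Agent.R154.ExK9 Crest.Agent.R154.Resamp9
open scoped ENNReal

variable {d : ℕ}

/-- the first exit point -/
noncomputable def xT (A : Set (Site d)) (X : Path d) : Site d := X (exT A X).toNat

/-- the path after the first exit -/
noncomputable def sh (A : Set (Site d)) (X : Path d) : Path d := shift (exT A X).toNat X

lemma meas_sh (A : Set (Site d)) : Measurable (sh A) := by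
  refine measurable_pi_iff.2 fun i => ?_
  have h1 : Measurable fun X : Path d => (exT A X).toNat :=
    (measurable_of_countable ENat.toNat).comp (isStop_exT A).measurable
  have h2 : Measurable fun p : Path d × ℕ => p.1 (p.2 + i) :=
    measurable_from_prod_countable_left fun n => measurable_pi_apply (n + i)
  exact h2.comp (measurable_id.prodMk h1)

lemma meas_xT (A : Set (Site d)) : Measurable (xT A) := by
  have h1 : Measurable fun X : Path d => (exT A X).toNat :=
    (measurable_of_countable ENat.toNat).comp (isStop_exT A).measurable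
  have h2 : Measurable fun p : Path d × ℕ => p.1 p.2 :=
    measurable_from_prod_countable_left fun n => measurable_pi_apply n
  exact h2.comp (measurable_id.prodMk h1)

lemma meas_exit (A : Set (Site d)) : MeasurableSet {X : Path d | exT A X ≠ ⊤} :=
  (isStop_exT A).measurableSet_ne_top

lemma xT_of_mem {A : Set (Site d)} {z : Site d} {X : Path d} (h : X ∈ ExS A z) : xT A X = z :=
  (mem_ExS_iff.1 h).2

lemma exit_eq (A : Set (Site d)) : {X : Path d | exT A X ≠ ⊤} = ⋃ z, ExS A z := by
  ext X
  simp only [Set.mem_ofPred_eq, Set.mem_iUnion]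
  constructor
  · intro h; exact ⟨_, mem_ExS_iff.2 ⟨h, rfl⟩⟩
  · rintro ⟨z, hz⟩; exact (mem_ExS_iff.1 hz).1


/-! ### strong Markov property for functions -/

theorem exit_markov_at (ω : Environment d) (A : Set (Site d)) (x z : Site d) {B : Set (Path d)}
    (hB : MeasurableSet B) :
    quenchedLaw ω x (ExS A z ∩ {X | sh A X ∈ B}) = EK ω A x z * quenchedLaw ω z B := by
  have hdet : DetBy (exT A) (· ∈ ExS A z) := by
    intro X Y n hXY hn
    have h2 : exT A Y = n := isStop_exT A X Y n hXY hn
    apply propext
    show X ∈ ExS A z ↔ Y ∈ ExS A z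
    rw [mem_ExS_iff, mem_ExS_iff, hn, h2, ENat.toNat_natCast, hXY n le_rfl]
  have e : {X : Path d | exT A X ≠ ⊤} ∩ ExS A z = ExS A z := by
    ext X
    constructor
    · exact fun h => h.2
    · exact fun h => ⟨(mem_ExS_iff.1 h).1, h⟩
  have h1 := strong_markov_event ω x (isStop_exT A) hdet (measurableSet_ExS A z) hB
  rw [e] at h1
  refine h1.trans ?_
  rw [setLIntegral_congr_fun (g := fun _ => quenchedLaw ω z B) (measurableSet_ExS A z),
    setLIntegral_const, mul_comm]
  · rfl
  · intro X hX
    show quenchedLaw ω (X (exT A X).toNat) B = quenchedLaw ω z B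
    rw [(mem_ExS_iff.1 hX).2]

/-- the law of the path after the exit at `z` -/
theorem map_sh (ω : Environment d) (A : Set (Site d)) (x z : Site d) :
    ((quenchedLaw ω x).restrict (ExS A z)).map (sh A) = EK ω A x z • quenchedLaw ω z := by
  ext B hB
  rw [Measure.map_apply (meas_sh A) hB, Measure.restrict_apply (meas_sh A hB), Set.inter_comm,
    Measure.smul_apply, smul_eq_mul]
  exact exit_markov_at ω A x z hB

theorem lint_sh (ω : Environment d) (A : Set (Site d)) (x z : Site d) {G : Path d → ℝ≥0∞}
    (hG : Measurable G) :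
    ∫⁻ X in ExS A z, G (sh A X) ∂quenchedLaw ω x
      = EK ω A x z * ∫⁻ X, G X ∂quenchedLaw ω z := by
  rw [← lintegral_map hG (meas_sh A), map_sh, lintegral_smul_measure, smul_eq_mul]

/-- **strong Markov property at the exit of `A`, functions** -/
theorem exit_markov_fun (ω : Environment d) (A : Set (Site d)) (x : Site d) (h : Site d → ℝ≥0∞)
    {G : Path d → ℝ≥0∞} (hG : Measurable G) :
    ∫⁻ X in {X | exT A X ≠ ⊤}, h (xT A X) * G (sh A X) ∂quenchedLaw ω x
      = ∑' z, EK ω A x z * (h z * ∫⁻ X, G X ∂quenchedLaw ω z) := by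
  rw [exit_eq, lintegral_iUnion (fun z => measurableSet_ExS A z) (ExS_disjoint A)]
  refine tsum_congr fun z => ?_
  rw [setLIntegral_congr_fun (g := fun X => h z * G (sh A X)) (measurableSet_ExS A z)]
  · have hm : Measurable fun X : Path d => G (sh A X) := hG.comp (meas_sh A)
    rw [lintegral_const_mul _ hm, lint_sh ω A x z hG]
    ring
  · intro X hX
    show h (xT A X) * G (sh A X) = h z * G (sh A X)
    rw [xT_of_mem hX]

/-! ### exits of increasing sets -/

lemma exT_shift {A A' : Set (Site d)} (h : A ⊆ A') {X : Path d} (hX : exT A X ≠ ⊤) :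
    exT A' X = exT A X + exT A' (sh A X) := by
  obtain ⟨t, ht⟩ := ENat.ne_top_iff_exists.1 hX
  have h1 := exT_eq_iff.1 ht.symm
  have e : sh A X = shift t X := by unfold sh; rw [← ht, ENat.toNat_natCast]
  rw [e, ← ht]
  by_cases h2 : exT A' (shift t X) = ⊤
  · rw [h2]
    have h3 := exT_eq_top_iff.1 h2
    have : exT A' X = ⊤ := by
      rw [exT_eq_top_iff]
      intro i
      rcases Nat.lt_or_ge i t with h4 | h4
      · exact h (h1.2 i h4)
      · have h5 : X (t + (i - t)) ∈ A' := h3 (i - t)
        rwa [Nat.add_sub_cancel' h4] at h5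
    rw [this]; simp
  · obtain ⟨m, hm⟩ := ENat.ne_top_iff_exists.1 h2
    have h3 := exT_eq_iff.1 hm.symm
    rw [← hm, ← Nat.cast_add, exT_eq_iff]
    refine ⟨h3.1, fun i hi => ?_⟩
    rcases Nat.lt_or_ge i t with h4 | h4
    · exact h (h1.2 i h4)
    · have h5 : X (t + (i - t)) ∈ A' := h3.2 (i - t) (by omega)
      rwa [Nat.add_sub_cancel' h4] at h5

lemma exT_ne_top_of_sub {A A' : Set (Site d)} (h : A ⊆ A') {X : Path d} (hX : exT A' X ≠ ⊤) :
    exT A X ≠ ⊤ := by
  intro h1
  rw [exT_eq_top_iff] at h1
  exact hX (exT_eq_top_iff.2 fun i => h (h1 i))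

lemma exT_iff {A A' : Set (Site d)} (h : A ⊆ A') {X : Path d} (hX : exT A X ≠ ⊤) :
    exT A' X ≠ ⊤ ↔ exT A' (sh A X) ≠ ⊤ := by
  rw [exT_shift h hX, Ne, Ne, not_iff_not]
  constructor
  · intro h1
    rcases WithTop.add_eq_top.1 h1 with h2 | h2
    · exact absurd h2 hX
    · exact h2
  · intro h1; rw [h1]; simp

lemma toNat_shift {A A' : Set (Site d)} (h : A ⊆ A') {X : Path d} (hX : exT A' X ≠ ⊤) :
    (exT A' X).toNat = (exT A X).toNat + (exT A' (sh A X)).toNat := by
  have h1 := exT_ne_top_of_sub h hX
  have h2 := (exT_iff h h1).1 hX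
  rw [exT_shift h h1, ENat.toNat_add h1 h2]

lemma xT_shift {A A' : Set (Site d)} (h : A ⊆ A') {X : Path d} (hX : exT A' X ≠ ⊤) :
    xT A' X = xT A' (sh A X) := by
  unfold xT
  rw [toNat_shift h hX]
  rfl


/-! ### the weighted chain -/



variable {A : ℕ → Set (Site d)} {χ : ℕ → Site d → ℝ≥0∞} {x : Site d}










/-! ### path form -/





/-- the unweighted case, with the future -/
theorem EK_path (B : Set (Site d)) (ω : Environment d) (x : Site d) (h : Site d → ℝ≥0∞) :
    ∫⁻ X in {X | exT B X ≠ ⊤}, h (xT B X) ∂quenchedLaw ω x = ∑' z, EK ω B x z * h z := by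
  have h1 := exit_markov_fun ω B x h (G := fun _ => 1) measurable_const
  simpa using h1


end Crest.Agent.R154.WChain9
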