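import Crest.Agent.R154.Resamp_9
import Crest.Agent.R154.D2WB_36
import Crest.Agent.R154.FEk_9
import Crest.Agent.R154.Hit2_569
import Mathlib

-- ▼ part R154/QV_766
section

/-!
# Row 154, helper766: object-level quenched variance theorem (D2.9)

`f ω = E_ω^x [Π_k χ k (x_k) * g (x_n)]`, `x_k` the exit site of `S k`, for an iid environment and
increasing row sets `S 0 ⊆ S 1 ⊆ … ⊆ S n`.  Fresh windows `C k y`, good exits `G k y`,
`lv` = quenched probability not to leave the window through the good exits, `v k` arbitrary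
deterministic functions.
`∫ f² ≤ (∫ f)² + Σ (β k ² * NN k + 6 (e2 k + e1 (k+1)) + e1 k) + 2 e1 0`.
-/

set_option autoImplicit false
set_option linter.unusedVariables false
set_option linter.unusedSectionVars false

namespace Crest.Agent.R154.QV766

open MeasureTheory ProbabilityTheory Crest.ProbabilityR.RandomEnvironment Crest.Agent.R154
open Crest.Agent.R154.ExK9 Crest.Agent.R154.Resamp9
open scoped ENNReal NNReal

/-! ### absolute difference in `ℝ≥0∞` -/

/-- absolute difference -/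
noncomputable def AD (a b : ℝ≥0∞) : ℝ≥0∞ := (a - b) + (b - a)

lemma le_add_AD (a b : ℝ≥0∞) : a ≤ b + AD a b :=
  le_add_tsub.trans (add_le_add le_rfl le_self_add)

lemma le_add_AD' (a b : ℝ≥0∞) : b ≤ a + AD a b :=
  le_add_tsub.trans (add_le_add le_rfl (le_add_of_nonneg_left zero_le))

lemma AD_le_one {a b : ℝ≥0∞} (ha : a ≤ 1) (hb : b ≤ 1) : AD a b ≤ 1 := by
  unfold AD
  rcases le_total a b with h | h
  · rw [tsub_eq_zero_of_le h, zero_add]; exact tsub_le_self.trans hb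
  · rw [tsub_eq_zero_of_le h, add_zero]; exact tsub_le_self.trans ha


lemma prod_le {a a' u u' δ δ' : ℝ≥0∞} (ha : a ≠ ⊤) (ha' : a' ≠ ⊤) (hu : u ≠ ⊤) (hu' : u' ≠ ⊤)
    (hδ : δ ≠ ⊤) (hδ' : δ' ≠ ⊤) (h1 : u ≤ a + δ) (h2 : a ≤ u + δ) (h1' : u' ≤ a' + δ')
    (h2' : a' ≤ u' + δ') : u * u' + a * a' ≤ a * u' + a' * u + δ * δ' := by
  lift a to ℝ≥0 using ha
  lift a' to ℝ≥0 using ha'
  lift u to ℝ≥0 using hu
  lift u' to ℝ≥0 using hu'
  lift δ to ℝ≥0 using hδ
  lift δ' to ℝ≥0 using hδ'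
  norm_cast at h1 h2 h1' h2' ⊢
  rw [← NNReal.coe_le_coe] at h1 h2 h1' h2' ⊢
  push_cast at h1 h2 h1' h2' ⊢
  have e1 : |(u : ℝ) - a| ≤ δ := abs_le.2 ⟨by linarith, by linarith⟩
  have e2 : |(u' : ℝ) - a'| ≤ δ' := abs_le.2 ⟨by linarith, by linarith⟩
  have e3 : ((u : ℝ) - a) * (u' - a') ≤ δ * δ' := by
    calc ((u : ℝ) - a) * (u' - a') ≤ |((u : ℝ) - a) * (u' - a')| := le_abs_self _
      _ = |(u : ℝ) - a| * |(u' : ℝ) - a'| := abs_mul _ _
      _ ≤ _ := mul_le_mul e1 e2 (abs_nonneg _) δ.2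
  nlinarith

lemma prod_le' {a a' u u' δ δ' : ℝ≥0∞} (ha : a ≠ ⊤) (ha' : a' ≠ ⊤) (hu : u ≠ ⊤) (hu' : u' ≠ ⊤)
    (hδ : δ ≠ ⊤) (hδ' : δ' ≠ ⊤) (h1 : u ≤ a + δ) (h2 : a ≤ u + δ) (h1' : u' ≤ a' + δ')
    (h2' : a' ≤ u' + δ') : a * u' + a' * u ≤ u * u' + a * a' + δ * δ' := by
  lift a to ℝ≥0 using ha
  lift a' to ℝ≥0 using ha'
  lift u to ℝ≥0 using hu
  lift u' to ℝ≥0 using hu'
  lift δ to ℝ≥0 using hδ
  lift δ' to ℝ≥0 using hδ'
  norm_cast at h1 h2 h1' h2' ⊢
  rw [← NNReal.coe_le_coe] at h1 h2 h1' h2' ⊢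
  push_cast at h1 h2 h1' h2' ⊢
  have e1 : |(u : ℝ) - a| ≤ δ := abs_le.2 ⟨by linarith, by linarith⟩
  have e2 : |(u' : ℝ) - a'| ≤ δ' := abs_le.2 ⟨by linarith, by linarith⟩
  have e3 : -(((u : ℝ) - a) * (u' - a')) ≤ δ * δ' := by
    calc -(((u : ℝ) - a) * (u' - a')) ≤ |((u : ℝ) - a) * (u' - a')| := neg_le_abs _
      _ = |(u : ℝ) - a| * |(u' : ℝ) - a'| := abs_mul _ _
      _ ≤ _ := mul_le_mul e1 e2 (abs_nonneg _) δ.2
  nlinarith

variable {d : ℕ} {ν : Measure (Row d)} [IsProbabilityMeasure ν]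

/-! ### far pairs: frozen rows and disjoint fresh rows -/

lemma locOn_glue_right {S C : Set (Site d)} {f : Environment d → ℝ≥0∞}
    (hf : Q561.LocOn (S ∪ C) f) (ω : Environment d) : Q561.LocOn C fun ω' => f (glue S ω ω') := by
  intro ω₁ ω₂ h
  refine hf _ _ fun z hz => ?_
  by_cases hS : z ∈ S
  · rw [glue_mem _ _ hS, glue_mem _ _ hS]
  · rw [glue_notMem _ _ hS, glue_notMem _ _ hS]
    exact h z (hz.resolve_left hS)

/-- **exact factorisation** given the rows of `S` -/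
theorem cnd_mul_of_disj {S C C' : Set (Site d)} (hC : Disjoint C C')
    {f f' : Environment d → ℝ≥0∞} (hf : Q561.LocOn (S ∪ C) f) (hf' : Q561.LocOn (S ∪ C') f')
    (hm : Measurable f) (hm' : Measurable f') (ω : Environment d) :
    cnd ν S (fun ω => f ω * f' ω) ω = cnd ν S f ω * cnd ν S f' ω := by
  unfold cnd
  exact lint_mul ν hC
    (Q561.measurable_coord (hm.comp (measurable_glue_right S ω)) (locOn_glue_right hf ω))
    (Q561.measurable_coord (hm'.comp (measurable_glue_right S ω)) (locOn_glue_right hf' ω))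

/-! ### the set-up -/

/-- fresh windows, good exits and weights -/
structure Win (d : ℕ) where
  S : ℕ → Set (Site d)
  mono : ∀ k, S k ⊆ S (k + 1)
  C : ℕ → Site d → Set (Site d)
  CS : ∀ k y, C k y ⊆ S (k + 1)
  G : ℕ → Site d → Set (Site d)
  GS : ∀ k y z, z ∈ G k y → z ∉ S (k + 1)
  χ : ℕ → Site d → ℝ≥0∞
  χ_le : ∀ k z, χ k z ≤ 1

lemma measurable_AD {f : Environment d → ℝ≥0∞} (hf : Measurable f) (c : ℝ≥0∞) :
    Measurable fun ω => AD (f ω) c :=
  (hf.sub measurable_const).add (measurable_const.sub hf)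

lemma mul_le_one' {a b : ℝ≥0∞} (ha : a ≤ 1) (hb : b ≤ 1) : a * b ≤ 1 := by
  calc a * b ≤ 1 * 1 := by gcongr
    _ = 1 := one_mul _

namespace Win

variable (W : Win d)

/-- rows seen from `y`: the frozen ones and the window -/
def B (k : ℕ) (y : Site d) : Set (Site d) := W.S k ∪ W.C k y

lemma B_sub (k : ℕ) (y : Site d) : W.B k y ⊆ W.S (k + 1) :=
  Set.union_subset (W.mono k) (W.CS k y)


/-- mass of the good exits -/
noncomputable def gd (k : ℕ) (ω : Environment d) (y : Site d) : ℝ≥0∞ :=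
  ∑' z, (W.G k y).indicator (EK ω (W.B k y) y) z

/-- **quenched probability to miss the good exits of the window** -/
noncomputable def lv (k : ℕ) (ω : Environment d) (y : Site d) : ℝ≥0∞ := 1 - W.gd k ω y

/-- quenched mean of `h` on the good exits -/
noncomputable def gm (k : ℕ) (h : Site d → ℝ≥0∞) (ω : Environment d) (y : Site d) : ℝ≥0∞ :=
  ∑' z, (W.G k y).indicator (fun z => EK ω (W.B k y) y z * h z) z

lemma gd_le_one (k : ℕ) (ω : Environment d) (y : Site d) : W.gd k ω y ≤ 1 := by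
  refine le_trans (ENNReal.tsum_le_tsum fun z => ?_) (tsum_EK_le ω (W.B k y) y)
  exact Set.indicator_le_self _ _ z

lemma gd_add_lv (k : ℕ) (ω : Environment d) (y : Site d) : W.gd k ω y + W.lv k ω y = 1 :=
  add_tsub_cancel_of_le (W.gd_le_one k ω y)

lemma lv_le_one (k : ℕ) (ω : Environment d) (y : Site d) : W.lv k ω y ≤ 1 := tsub_le_self

lemma gm_le_one (k : ℕ) {h : Site d → ℝ≥0∞} (hh : ∀ z, h z ≤ 1) (ω : Environment d)
    (y : Site d) : W.gm k h ω y ≤ 1 := by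
  refine le_trans (ENNReal.tsum_le_tsum fun z => ?_) (tsum_EK_le ω (W.B k y) y)
  by_cases hz : z ∈ W.G k y
  · rw [Set.indicator_of_mem hz]
    calc EK ω (W.B k y) y z * h z ≤ EK ω (W.B k y) y z * 1 := by gcongr; exact hh z
      _ = _ := mul_one _
  · rw [Set.indicator_of_notMem hz]; exact zero_le

lemma meas_gm (k : ℕ) (h : Site d → ℝ≥0∞) (y : Site d) :
    Measurable fun ω : Environment d => W.gm k h ω y := by
  refine Measurable.tsum fun z => ?_
  by_cases hz : z ∈ W.G k y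
  · simp only [Set.indicator_of_mem hz]
    exact (meas_EK _ _ _).mul measurable_const
  · simp only [Set.indicator_of_notMem hz]
    exact measurable_const

lemma locOn_gm (k : ℕ) (h : Site d → ℝ≥0∞) (y : Site d) :
    Q561.LocOn (W.B k y) fun ω : Environment d => W.gm k h ω y := by
  intro ω₁ ω₂ hω
  show ∑' z, _ = ∑' z, _
  refine tsum_congr fun z => ?_
  by_cases hz : z ∈ W.G k y
  · simp only [Set.indicator_of_mem hz]
    have h1 : EK ω₁ (W.B k y) y z = EK ω₂ (W.B k y) y z := locOn_EK _ y z ω₁ ω₂ hω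
    rw [h1]
  · simp only [Set.indicator_of_notMem hz]

lemma meas_gd (k : ℕ) (y : Site d) : Measurable fun ω : Environment d => W.gd k ω y := by
  refine Measurable.tsum fun z => ?_
  by_cases hz : z ∈ W.G k y
  · simp only [Set.indicator_of_mem hz]
    exact meas_EK _ _ _
  · simp only [Set.indicator_of_notMem hz]
    exact measurable_const

lemma meas_lv (k : ℕ) (y : Site d) : Measurable fun ω : Environment d => W.lv k ω y :=
  measurable_const.sub (W.meas_gd k y)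

/-- the mean at the exit of `S (k+1)`, upper bound by the good exits -/
lemma fE_le (k : ℕ) {h : Site d → ℝ≥0∞} (hh : ∀ z, h z ≤ 1) (ω : Environment d) (y : Site d) :
    fE (W.S (k + 1)) h ω y ≤ W.gm k h ω y + W.lv k ω y := by
  rw [fE_comp (W.B_sub k y) h ω y]
  have h1 : ∀ z, EK ω (W.B k y) y z * fE (W.S (k + 1)) h ω z ≤
      (W.G k y).indicator (fun z => EK ω (W.B k y) y z * h z) z +
        ((W.G k y)ᶜ).indicator (EK ω (W.B k y) y) z := by
    intro z
    by_cases hz : z ∈ W.G k y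
    · rw [Set.indicator_of_mem hz, Set.indicator_of_notMem (Set.notMem_compl_iff.2 hz), add_zero]
      have : fE (W.S (k + 1)) h ω z = h z := by
        unfold fE
        rw [tsum_eq_single z]
        · rw [EK_notMem ω (W.GS k y z hz), Set.indicator_of_mem (Set.mem_singleton z), one_mul]
        · intro z' hz'
          rw [EK_notMem ω (W.GS k y z hz),
            Set.indicator_of_notMem fun h => hz' (Set.mem_singleton_iff.1 h), zero_mul]
      rw [this]
    · rw [Set.indicator_of_notMem hz, Set.indicator_of_mem (Set.mem_compl hz), zero_add]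
      calc EK ω (W.B k y) y z * fE (W.S (k + 1)) h ω z ≤ EK ω (W.B k y) y z * 1 := by
            gcongr; exact fE_le_one hh _ ω z
        _ = _ := mul_one _
  refine (ENNReal.tsum_le_tsum h1).trans ?_
  rw [ENNReal.tsum_add]
  gcongr
  · exact le_rfl
  · refine ENNReal.le_sub_of_add_le_left (ne_top_of_le_ne_top ENNReal.one_ne_top
      (W.gd_le_one k ω y)) ?_
    unfold gd
    rw [← ENNReal.tsum_add]
    refine le_trans (ENNReal.tsum_le_tsum fun z => ?_) (tsum_EK_le ω (W.B k y) y)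
    by_cases hz : z ∈ W.G k y
    · rw [Set.indicator_of_mem hz, Set.indicator_of_notMem (Set.notMem_compl_iff.2 hz), add_zero]
    · rw [Set.indicator_of_notMem hz, Set.indicator_of_mem (Set.mem_compl hz), zero_add]

/-- lower bound -/
lemma le_fE (k : ℕ) (h : Site d → ℝ≥0∞) (ω : Environment d) (y : Site d) :
    W.gm k h ω y ≤ fE (W.S (k + 1)) h ω y := by
  rw [fE_comp (W.B_sub k y) h ω y]
  refine ENNReal.tsum_le_tsum fun z => ?_
  by_cases hz : z ∈ W.G k y
  · rw [Set.indicator_of_mem hz]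
    have : fE (W.S (k + 1)) h ω z = h z := by
      unfold fE
      rw [tsum_eq_single z]
      · rw [EK_notMem ω (W.GS k y z hz), Set.indicator_of_mem (Set.mem_singleton z), one_mul]
      · intro z' hz'
        rw [EK_notMem ω (W.GS k y z hz),
          Set.indicator_of_notMem fun h => hz' (Set.mem_singleton_iff.1 h), zero_mul]
    rw [this]
  · rw [Set.indicator_of_notMem hz]; exact zero_le

/-! ### the quenched functional and the conditional value functions -/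

/-- backward quenched functional, `m` stages from stage `k` -/
noncomputable def Gb (g : Site d → ℝ≥0∞) (ω : Environment d) : ℕ → ℕ → Site d → ℝ≥0∞
  | 0 => fun _ y => g y
  | m + 1 => fun k y => ∑' z, EK ω (W.S (k + 1)) y z * (W.χ (k + 1) z * Gb g ω m (k + 1) z)

variable {g : Site d → ℝ≥0∞} {n : ℕ} {v : ℕ → Site d → ℝ≥0∞} {β : ℕ → ℝ≥0∞}

lemma Gb_le_one (hg : ∀ z, g z ≤ 1) (ω : Environment d) (m k : ℕ) (y : Site d) :
    W.Gb g ω m k y ≤ 1 := by
  induction m generalizing k y with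
  | zero => exact hg y
  | succ m ih =>
    exact fE_le_one (fun z => mul_le_one' (W.χ_le _ z) (ih (k + 1) z)) (W.S (k + 1)) ω y

lemma meas_Gb (m k : ℕ) (y : Site d) : Measurable fun ω : Environment d => W.Gb g ω m k y := by
  induction m generalizing k y with
  | zero => exact measurable_const
  | succ m ih =>
    exact Measurable.tsum fun z => (meas_EK _ _ _).mul (measurable_const.mul (ih (k + 1) z))

variable (ν) in
/-- conditional value function at stage `k` -/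
noncomputable def ph (n : ℕ) (g : Site d → ℝ≥0∞) (k : ℕ) (ω : Environment d) (y : Site d) :
    ℝ≥0∞ := cnd ν (W.S k) (fun ω => W.Gb g ω (n - k) k y) ω

variable (ν) in
/-- error of the deterministic approximation -/
noncomputable def rho (n : ℕ) (g : Site d → ℝ≥0∞) (v : ℕ → Site d → ℝ≥0∞) (k : ℕ)
    (ω : Environment d) (y : Site d) : ℝ≥0∞ := AD (W.ph ν n g k ω y) (v k y)

lemma meas_ph (k : ℕ) (y : Site d) : Measurable fun ω => W.ph ν n g k ω y :=
  meas_cnd _ (W.meas_Gb _ _ _)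

lemma ph_le_one (hg : ∀ z, g z ≤ 1) (k : ℕ) (ω : Environment d) (y : Site d) :
    W.ph ν n g k ω y ≤ 1 := cnd_le_one _ (fun ω => W.Gb_le_one hg ω _ _ y) ω

lemma meas_rho (k : ℕ) (y : Site d) : Measurable fun ω => W.rho ν n g v k ω y :=
  measurable_AD (W.meas_ph k y) _

lemma rho_le_one (hg : ∀ z, g z ≤ 1) (hv : ∀ k z, v k z ≤ 1) (k : ℕ) (ω : Environment d)
    (y : Site d) : W.rho ν n g v k ω y ≤ 1 := AD_le_one (W.ph_le_one hg k ω y) (hv k y)

variable (ν) in
/-- one step: `U k ω y = ∑ z, EK (S (k+1)) y z * (χ (k+1) z * φ (k+1) z)` -/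
noncomputable def U (n : ℕ) (g : Site d → ℝ≥0∞) (k : ℕ) (ω : Environment d) (y : Site d) :
    ℝ≥0∞ := ∑' z, EK ω (W.S (k + 1)) y z * (W.χ (k + 1) z * W.ph ν n g (k + 1) ω z)

variable (ν) in
/-- `r k ω y = ∑ z, EK (S (k+1)) y z * ρ (k+1) z` -/
noncomputable def rr (n : ℕ) (g : Site d → ℝ≥0∞) (v : ℕ → Site d → ℝ≥0∞) (k : ℕ)
    (ω : Environment d) (y : Site d) : ℝ≥0∞ :=
  ∑' z, EK ω (W.S (k + 1)) y z * W.rho ν n g v (k + 1) ω z

lemma tsum_EK_mul_le {h : Site d → ℝ≥0∞} (hh : ∀ z, h z ≤ 1) (ω : Environment d)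
    (A : Set (Site d)) (y : Site d) : ∑' z, EK ω A y z * h z ≤ 1 := fE_le_one hh A ω y

lemma U_le_one (hg : ∀ z, g z ≤ 1) (k : ℕ) (ω : Environment d) (y : Site d) :
    W.U ν n g k ω y ≤ 1 :=
  tsum_EK_mul_le (fun z => mul_le_one' (W.χ_le _ z) (W.ph_le_one hg _ ω z)) ω _ y

lemma rr_le_one (hg : ∀ z, g z ≤ 1) (hv : ∀ k z, v k z ≤ 1) (k : ℕ) (ω : Environment d)
    (y : Site d) : W.rr ν n g v k ω y ≤ 1 :=
  tsum_EK_mul_le (fun z => W.rho_le_one hg hv _ ω z) ω _ y

lemma meas_U (k : ℕ) (y : Site d) : Measurable fun ω => W.U ν n g k ω y :=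
  Measurable.tsum fun z => (meas_EK _ _ _).mul (measurable_const.mul (W.meas_ph _ z))

lemma meas_rr (k : ℕ) (y : Site d) : Measurable fun ω => W.rr ν n g v k ω y :=
  Measurable.tsum fun z => (meas_EK _ _ _).mul (W.meas_rho _ z)

/-- backward step -/
lemma ph_step {k : ℕ} (hk : k < n) (ω : Environment d) (y : Site d) :
    W.ph ν n g k ω y = cnd ν (W.S k) (fun ω => W.U ν n g k ω y) ω := by
  obtain ⟨m, hm⟩ : ∃ m, n - k = m + 1 := ⟨n - k - 1, by omega⟩
  have h1 : n - (k + 1) = m := by omega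
  unfold ph
  rw [hm, ← cnd_tower (W.mono k) (W.meas_Gb (m + 1) k y) ω]
  congr 1
  funext ω
  show cnd ν (W.S (k + 1)) (fun ω => ∑' z, EK ω (W.S (k + 1)) y z *
    (W.χ (k + 1) z * W.Gb g ω m (k + 1) z)) ω = _
  rw [cnd_tsum (W.S (k + 1)) (f := fun z ω => EK ω (W.S (k + 1)) y z *
    (W.χ (k + 1) z * W.Gb g ω m (k + 1) z))
    (fun z => (meas_EK _ _ _).mul (measurable_const.mul (W.meas_Gb m (k + 1) z)))]
  unfold U
  refine tsum_congr fun z => ?_
  rw [cnd_pull (w := fun ω => EK ω (W.S (k + 1)) y z)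
    (f := fun ω => W.χ (k + 1) z * W.Gb g ω m (k + 1) z) (locOn_EK _ y z)
    (measurable_const.mul (W.meas_Gb m (k + 1) z)),
    cnd_pull (w := fun _ => W.χ (k + 1) z) (f := fun ω => W.Gb g ω m (k + 1) z)
    (fun _ _ _ => rfl) (W.meas_Gb m (k + 1) z)]
  unfold ph
  rw [h1]

/-- replacing `φ` by `v`, upper -/
lemma U_le (k : ℕ) (ω : Environment d) (y : Site d) :
    W.U ν n g k ω y ≤
      fE (W.S (k + 1)) (fun z => W.χ (k + 1) z * v (k + 1) z) ω y + W.rr ν n g v k ω y := by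
  unfold U fE rr
  rw [← ENNReal.tsum_add]
  refine ENNReal.tsum_le_tsum fun z => ?_
  rw [← mul_add]
  gcongr
  calc W.χ (k + 1) z * W.ph ν n g (k + 1) ω z
      ≤ W.χ (k + 1) z * (v (k + 1) z + W.rho ν n g v (k + 1) ω z) := by
        gcongr; exact le_add_AD _ _
    _ = W.χ (k + 1) z * v (k + 1) z + W.χ (k + 1) z * W.rho ν n g v (k + 1) ω z := mul_add _ _ _
    _ ≤ W.χ (k + 1) z * v (k + 1) z + 1 * W.rho ν n g v (k + 1) ω z := by
        gcongr; exact W.χ_le _ z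
    _ = _ := by rw [one_mul]

lemma le_U (k : ℕ) (ω : Environment d) (y : Site d) :
    fE (W.S (k + 1)) (fun z => W.χ (k + 1) z * v (k + 1) z) ω y ≤
      W.U ν n g k ω y + W.rr ν n g v k ω y := by
  unfold U fE rr
  rw [← ENNReal.tsum_add]
  refine ENNReal.tsum_le_tsum fun z => ?_
  rw [← mul_add]
  gcongr
  calc W.χ (k + 1) z * v (k + 1) z
      ≤ W.χ (k + 1) z * (W.ph ν n g (k + 1) ω z + W.rho ν n g v (k + 1) ω z) := by
        gcongr; exact le_add_AD' _ _
    _ = W.χ (k + 1) z * W.ph ν n g (k + 1) ω z + W.χ (k + 1) z * W.rho ν n g v (k + 1) ω z :=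
        mul_add _ _ _
    _ ≤ W.χ (k + 1) z * W.ph ν n g (k + 1) ω z + 1 * W.rho ν n g v (k + 1) ω z := by
        gcongr; exact W.χ_le _ z
    _ = _ := by rw [one_mul]

/-- total error -/
noncomputable def ee (ν : Measure (Row d)) [IsProbabilityMeasure ν] (n : ℕ) (g : Site d → ℝ≥0∞)
    (v : ℕ → Site d → ℝ≥0∞) (k : ℕ) (ω : Environment d) (y : Site d) : ℝ≥0∞ :=
  W.lv k ω y + W.rr ν n g v k ω y

lemma meas_ee (k : ℕ) (y : Site d) : Measurable fun ω => W.ee ν n g v k ω y :=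
  (W.meas_lv k y).add (W.meas_rr k y)

lemma ee_le_two (hg : ∀ z, g z ≤ 1) (hv : ∀ k z, v k z ≤ 1) (k : ℕ) (ω : Environment d)
    (y : Site d) : W.ee ν n g v k ω y ≤ 2 := by
  have h1 := W.lv_le_one k ω y
  have h2 := W.rr_le_one (ν := ν) (n := n) hg hv k ω y
  calc W.ee ν n g v k ω y ≤ 1 + 1 := add_le_add h1 h2
    _ = 2 := one_add_one_eq_two

/-- `gm` of a function close to a constant -/
lemma gm_le_const {k : ℕ} {y : Site d} {h : Site d → ℝ≥0∞} {a b : ℝ≥0∞}
    (hβ : ∀ z ∈ W.G k y, h z ≤ a + b) (ω : Environment d) : W.gm k h ω y ≤ a + b := by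
  calc W.gm k h ω y ≤ ∑' z, (a + b) * (W.G k y).indicator (EK ω (W.B k y) y) z := by
        refine ENNReal.tsum_le_tsum fun z => ?_
        by_cases hz : z ∈ W.G k y
        · rw [Set.indicator_of_mem hz, Set.indicator_of_mem hz, mul_comm]
          gcongr
          exact hβ z hz
        · rw [Set.indicator_of_notMem hz]; exact zero_le
    _ = (a + b) * W.gd k ω y := ENNReal.tsum_mul_left
    _ ≤ (a + b) * 1 := by gcongr; exact W.gd_le_one k ω y
    _ = _ := mul_one _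

lemma const_le_gm {k : ℕ} {y : Site d} {h : Site d → ℝ≥0∞} {a b : ℝ≥0∞} (ha : a ≤ 1)
    (hβ : ∀ z ∈ W.G k y, a ≤ h z + b) (ω : Environment d) :
    a ≤ W.gm k h ω y + b + W.lv k ω y := by
  calc a = a * (W.gd k ω y + W.lv k ω y) := by rw [W.gd_add_lv, mul_one]
    _ = a * W.gd k ω y + a * W.lv k ω y := mul_add _ _ _
    _ ≤ (W.gm k h ω y + b) + W.lv k ω y := by
        gcongr
        · calc a * W.gd k ω y
              = ∑' z, a * (W.G k y).indicator (EK ω (W.B k y) y) z := ENNReal.tsum_mul_left.symm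
            _ ≤ ∑' z, ((W.G k y).indicator (fun z => EK ω (W.B k y) y z * h z) z +
                  b * (W.G k y).indicator (EK ω (W.B k y) y) z) := by
                refine ENNReal.tsum_le_tsum fun z => ?_
                by_cases hz : z ∈ W.G k y
                · rw [Set.indicator_of_mem hz, Set.indicator_of_mem hz, mul_comm a,
                    mul_comm b, ← mul_add]
                  gcongr
                  exact hβ z hz
                · rw [Set.indicator_of_notMem hz, mul_zero]; exact zero_le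
            _ = W.gm k h ω y + b * W.gd k ω y := by
                rw [ENNReal.tsum_add, ENNReal.tsum_mul_left]; rfl
            _ ≤ W.gm k h ω y + b * 1 := by gcongr; exact W.gd_le_one k ω y
            _ = _ := by rw [mul_one]
        · calc a * W.lv k ω y ≤ 1 * W.lv k ω y := by gcongr
            _ = _ := one_mul _

/-- the Lipschitz hypothesis on the windows -/
structure Lip (n : ℕ) (v : ℕ → Site d → ℝ≥0∞) (β : ℕ → ℝ≥0∞) : Prop where
  le_one : ∀ k, β k ≤ 1
  up : ∀ k < n, ∀ y, ∀ z ∈ W.G k y, W.χ (k + 1) z * v (k + 1) z ≤ v k y + β k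
  dn : ∀ k < n, ∀ y, ∀ z ∈ W.G k y, v k y ≤ W.χ (k + 1) z * v (k + 1) z + β k

/-- `|U - v k y| ≤ β + e` -/
lemma U_near (hg : ∀ z, g z ≤ 1) (hv : ∀ k z, v k z ≤ 1) (hL : W.Lip n v β) {k : ℕ} (hk : k < n)
    (ω : Environment d) (y : Site d) : W.U ν n g k ω y ≤ v k y + (β k + W.ee ν n g v k ω y) ∧
      v k y ≤ W.U ν n g k ω y + (β k + W.ee ν n g v k ω y) := by
  have hh : ∀ z, W.χ (k + 1) z * v (k + 1) z ≤ 1 := fun z => mul_le_one' (W.χ_le _ z) (hv _ z)
  constructor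
  · calc W.U ν n g k ω y
        ≤ fE (W.S (k + 1)) (fun z => W.χ (k + 1) z * v (k + 1) z) ω y + W.rr ν n g v k ω y :=
          W.U_le k ω y
      _ ≤ (W.gm k (fun z => W.χ (k + 1) z * v (k + 1) z) ω y + W.lv k ω y) +
            W.rr ν n g v k ω y := by
          gcongr; exact W.fE_le k hh ω y
      _ ≤ ((v k y + β k) + W.lv k ω y) + W.rr ν n g v k ω y := by
          gcongr; exact W.gm_le_const (hL.up k hk y) ω
      _ = _ := by unfold ee; ring
  · calc v k y ≤ W.gm k (fun z => W.χ (k + 1) z * v (k + 1) z) ω y + β k + W.lv k ω y :=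
          W.const_le_gm (hv k y) (hL.dn k hk y) ω
      _ ≤ (W.U ν n g k ω y + W.rr ν n g v k ω y) + β k + W.lv k ω y := by
          gcongr
          exact (W.le_fE k _ ω y).trans (W.le_U k ω y)
      _ = _ := by unfold ee; ring

/-- **all pairs (used for the near ones)** -/
theorem pair_near (hg : ∀ z, g z ≤ 1) (hv : ∀ k z, v k z ≤ 1) (hL : W.Lip n v β) {k : ℕ}
    (hk : k < n) (ω : Environment d) (y y' : Site d) :
    cnd ν (W.S k) (fun ω => W.U ν n g k ω y * W.U ν n g k ω y') ω ≤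
      W.ph ν n g k ω y * W.ph ν n g k ω y' + β k ^ 2 +
        3 * (cnd ν (W.S k) (fun ω => W.ee ν n g v k ω y) ω +
          cnd ν (W.S k) (fun ω => W.ee ν n g v k ω y') ω) + W.rho ν n g v k ω y := by
  have hβ : β k ≤ 1 := hL.le_one k
  have hβt : β k ≠ ⊤ := ne_top_of_le_ne_top ENNReal.one_ne_top hβ
  have hvt : ∀ k z, v k z ≠ ⊤ := fun k z => ne_top_of_le_ne_top ENNReal.one_ne_top (hv k z)
  have hUt : ∀ ω z, W.U ν n g k ω z ≠ ⊤ :=
    fun ω z => ne_top_of_le_ne_top ENNReal.one_ne_top (W.U_le_one hg k ω z)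
  have het : ∀ ω z, W.ee ν n g v k ω z ≠ ⊤ :=
    fun ω z => ne_top_of_le_ne_top ENNReal.ofNat_ne_top (W.ee_le_two hg hv k ω z)
  have hpt : ∀ ω z, W.ph ν n g k ω z ≠ ⊤ :=
    fun ω z => ne_top_of_le_ne_top ENNReal.one_ne_top (W.ph_le_one hg k ω z)
  have hrt : ∀ ω z, W.rho ν n g v k ω z ≠ ⊤ :=
    fun ω z => ne_top_of_le_ne_top ENNReal.one_ne_top (W.rho_le_one hg hv k ω z)
  -- pointwise
  have h1 : ∀ ω, W.U ν n g k ω y * W.U ν n g k ω y' + v k y * v k y' ≤
      (v k y * W.U ν n g k ω y' + v k y' * W.U ν n g k ω y) +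
        (β k ^ 2 + 3 * (W.ee ν n g v k ω y + W.ee ν n g v k ω y')) := by
    intro ω
    obtain ⟨a1, a2⟩ := W.U_near (ν := ν) (n := n) hg hv hL hk ω y
    obtain ⟨b1, b2⟩ := W.U_near (ν := ν) (n := n) hg hv hL hk ω y'
    have := prod_le (hvt k y) (hvt k y') (hUt ω y) (hUt ω y')
      (ENNReal.add_ne_top.2 ⟨hβt, het ω y⟩) (ENNReal.add_ne_top.2 ⟨hβt, het ω y'⟩) a1 a2 b1 b2
    refine this.trans ?_
    gcongr
    set e := W.ee ν n g v k ω y
    set e' := W.ee ν n g v k ω y'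
    have he : e ≤ 2 := W.ee_le_two hg hv k ω y
    calc (β k + e) * (β k + e') = β k ^ 2 + β k * e' + e * β k + e * e' := by ring
      _ ≤ β k ^ 2 + 1 * e' + e * 1 + 2 * e' := by gcongr
      _ = β k ^ 2 + (e + 3 * e') := by ring
      _ ≤ β k ^ 2 + (3 * e + 3 * e') := by
          gcongr
          calc e = 1 * e := (one_mul _).symm
            _ ≤ 3 * e := by gcongr; norm_num
      _ = _ := by rw [mul_add]
  -- conditional expectation
  have hmU : ∀ z, Measurable fun ω => W.U ν n g k ω z := W.meas_U k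
  have hme : ∀ z, Measurable fun ω => W.ee ν n g v k ω z := W.meas_ee k
  have cmul : ∀ (c : ℝ≥0∞) (f : Environment d → ℝ≥0∞), Measurable f →
      cnd ν (W.S k) (fun ω => c * f ω) ω = c * cnd ν (W.S k) f ω := fun c f hf =>
    cnd_pull (w := fun _ => c) (fun _ _ _ => rfl) hf ω
  have h2 : cnd ν (W.S k) (fun ω => W.U ν n g k ω y * W.U ν n g k ω y') ω + v k y * v k y' ≤
      (v k y * W.ph ν n g k ω y' + v k y' * W.ph ν n g k ω y) +
        (β k ^ 2 + 3 * (cnd ν (W.S k) (fun ω => W.ee ν n g v k ω y) ω +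
          cnd ν (W.S k) (fun ω => W.ee ν n g v k ω y') ω)) := by
    have e1 : cnd ν (W.S k) (fun ω => W.U ν n g k ω y * W.U ν n g k ω y' + v k y * v k y') ω =
        cnd ν (W.S k) (fun ω => W.U ν n g k ω y * W.U ν n g k ω y') ω + v k y * v k y' := by
      rw [cnd_add (W.S k) (f := fun ω => W.U ν n g k ω y * W.U ν n g k ω y')
        (g := fun _ => v k y * v k y') ((hmU y).mul (hmU y')), cnd_const]
    have e2 : cnd ν (W.S k) (fun ω => (v k y * W.U ν n g k ω y' + v k y' * W.U ν n g k ω y) +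
        (β k ^ 2 + 3 * (W.ee ν n g v k ω y + W.ee ν n g v k ω y'))) ω =
        (v k y * W.ph ν n g k ω y' + v k y' * W.ph ν n g k ω y) +
        (β k ^ 2 + 3 * (cnd ν (W.S k) (fun ω => W.ee ν n g v k ω y) ω +
          cnd ν (W.S k) (fun ω => W.ee ν n g v k ω y') ω)) := by
      rw [cnd_add (W.S k) (f := fun ω => v k y * W.U ν n g k ω y' + v k y' * W.U ν n g k ω y)
          (g := fun ω => β k ^ 2 + 3 * (W.ee ν n g v k ω y + W.ee ν n g v k ω y'))
          ((measurable_const.mul (hmU y')).add (measurable_const.mul (hmU y))),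
        cnd_add (W.S k) (f := fun ω => v k y * W.U ν n g k ω y')
          (g := fun ω => v k y' * W.U ν n g k ω y) (measurable_const.mul (hmU y')),
        cnd_add (W.S k) (f := fun _ => β k ^ 2)
          (g := fun ω => 3 * (W.ee ν n g v k ω y + W.ee ν n g v k ω y')) measurable_const,
        cmul _ _ (hmU y'), cmul _ _ (hmU y),
        cmul _ (fun ω => W.ee ν n g v k ω y + W.ee ν n g v k ω y') ((hme y).add (hme y')),
        cnd_const, cnd_add (W.S k) (f := fun ω => W.ee ν n g v k ω y)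
          (g := fun ω => W.ee ν n g v k ω y') (hme y), W.ph_step hk ω y, W.ph_step hk ω y']
    rw [← e1, ← e2]
    exact cnd_mono _ h1 ω
  have h3 := prod_le' (hvt k y) (hvt k y') (hpt ω y) (hpt ω y') (hrt ω y) (hrt ω y')
    (le_add_AD _ _) (le_add_AD' _ _) (le_add_AD _ _) (le_add_AD' _ _)
  have h4 : W.rho ν n g v k ω y * W.rho ν n g v k ω y' ≤ W.rho ν n g v k ω y := by
    calc _ ≤ W.rho ν n g v k ω y * 1 := by gcongr; exact W.rho_le_one hg hv k ω y'
      _ = _ := mul_one _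
  have h5 := h2.trans (add_le_add_left h3 _)
  have hvv : v k y * v k y' ≠ ⊤ := ENNReal.mul_ne_top (hvt k y) (hvt k y')
  refine (ENNReal.add_le_add_iff_right hvv).1 (h5.trans ?_)
  set P := W.ph ν n g k ω y * W.ph ν n g k ω y'
  set V := v k y * v k y'
  set E := 3 * (cnd ν (W.S k) (fun ω => W.ee ν n g v k ω y) ω +
          cnd ν (W.S k) (fun ω => W.ee ν n g v k ω y') ω)
  calc P + V + W.rho ν n g v k ω y * W.rho ν n g v k ω y' + (β k ^ 2 + E)
      ≤ P + V + W.rho ν n g v k ω y + (β k ^ 2 + E) := by gcongr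
    _ = P + β k ^ 2 + E + W.rho ν n g v k ω y + V := by ring

/-- **far pairs**: disjoint fresh windows -/
theorem pair_far (hg : ∀ z, g z ≤ 1) (hv : ∀ k z, v k z ≤ 1) {k : ℕ}
    (hk : k < n) (ω : Environment d) (y y' : Site d) (hd : Disjoint (W.C k y) (W.C k y')) :
    cnd ν (W.S k) (fun ω => W.U ν n g k ω y * W.U ν n g k ω y') ω ≤
      W.ph ν n g k ω y * W.ph ν n g k ω y' +
        3 * (cnd ν (W.S k) (fun ω => W.ee ν n g v k ω y) ω +
          cnd ν (W.S k) (fun ω => W.ee ν n g v k ω y') ω) := by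
  set h : Site d → ℝ≥0∞ := fun z => W.χ (k + 1) z * v (k + 1) z with hh0
  have hh : ∀ z, h z ≤ 1 := fun z => mul_le_one' (W.χ_le _ z) (hv _ z)
  have hmU : ∀ z, Measurable fun ω => W.U ν n g k ω z := W.meas_U k
  have hme : ∀ z, Measurable fun ω => W.ee ν n g v k ω z := W.meas_ee k
  have hmr : ∀ z, Measurable fun ω => W.rr ν n g v k ω z := W.meas_rr k
  have hmX : ∀ z, Measurable fun ω => W.gm k h ω z := W.meas_gm k h
  have hUX : ∀ ω z, W.U ν n g k ω z ≤ W.gm k h ω z + W.ee ν n g v k ω z := by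
    intro ω z
    calc W.U ν n g k ω z ≤ fE (W.S (k + 1)) h ω z + W.rr ν n g v k ω z := W.U_le k ω z
      _ ≤ (W.gm k h ω z + W.lv k ω z) + W.rr ν n g v k ω z := by
          gcongr; exact W.fE_le k hh ω z
      _ = _ := by unfold ee; ring
  have hXU : ∀ ω z, W.gm k h ω z ≤ W.U ν n g k ω z + W.rr ν n g v k ω z := fun ω z =>
    (W.le_fE k h ω z).trans (W.le_U k ω z)
  -- pointwise
  have h1 : ∀ ω, W.U ν n g k ω y * W.U ν n g k ω y' ≤
      W.gm k h ω y * W.gm k h ω y' + (W.ee ν n g v k ω y + W.ee ν n g v k ω y') := by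
    intro ω
    calc W.U ν n g k ω y * W.U ν n g k ω y'
        ≤ (W.gm k h ω y + W.ee ν n g v k ω y) * W.U ν n g k ω y' := by gcongr; exact hUX ω y
      _ = W.gm k h ω y * W.U ν n g k ω y' + W.ee ν n g v k ω y * W.U ν n g k ω y' := add_mul _ _ _
      _ ≤ W.gm k h ω y * (W.gm k h ω y' + W.ee ν n g v k ω y') + W.ee ν n g v k ω y * 1 := by
          gcongr
          · exact hUX ω y'
          · exact W.U_le_one hg k ω y'
      _ = W.gm k h ω y * W.gm k h ω y' + (W.gm k h ω y * W.ee ν n g v k ω y' +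
            W.ee ν n g v k ω y) := by ring
      _ ≤ W.gm k h ω y * W.gm k h ω y' + (1 * W.ee ν n g v k ω y' + W.ee ν n g v k ω y) := by
          gcongr; exact W.gm_le_one k hh ω y
      _ = _ := by ring
  set c1 := cnd ν (W.S k) (fun ω => W.ee ν n g v k ω y) ω
  set c2 := cnd ν (W.S k) (fun ω => W.ee ν n g v k ω y') ω
  have hX : ∀ z, cnd ν (W.S k) (fun ω => W.gm k h ω z) ω ≤
      W.ph ν n g k ω z + cnd ν (W.S k) (fun ω => W.ee ν n g v k ω z) ω := by
    intro z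
    calc cnd ν (W.S k) (fun ω => W.gm k h ω z) ω
        ≤ cnd ν (W.S k) (fun ω => W.U ν n g k ω z + W.rr ν n g v k ω z) ω :=
          cnd_mono _ (fun ω => hXU ω z) ω
      _ = cnd ν (W.S k) (fun ω => W.U ν n g k ω z) ω +
            cnd ν (W.S k) (fun ω => W.rr ν n g v k ω z) ω :=
          cnd_add (W.S k) (f := fun ω => W.U ν n g k ω z) (g := fun ω => W.rr ν n g v k ω z)
            (hmU z) ω
      _ ≤ _ := by
          rw [← W.ph_step hk ω z]
          gcongr
          exact cnd_mono _ (fun ω => le_add_of_nonneg_left zero_le) ω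
  have hX1 : ∀ z, cnd ν (W.S k) (fun ω => W.gm k h ω z) ω ≤ 1 := fun z =>
    cnd_le_one _ (fun ω => W.gm_le_one k hh ω z) ω
  have h2 : cnd ν (W.S k) (fun ω => W.gm k h ω y * W.gm k h ω y') ω =
      cnd ν (W.S k) (fun ω => W.gm k h ω y) ω * cnd ν (W.S k) (fun ω => W.gm k h ω y') ω :=
    cnd_mul_of_disj hd (W.locOn_gm k h y) (W.locOn_gm k h y') (hmX y) (hmX y') ω
  have h3 : cnd ν (W.S k) (fun ω => W.gm k h ω y) ω * cnd ν (W.S k) (fun ω => W.gm k h ω y') ω ≤
      W.ph ν n g k ω y * W.ph ν n g k ω y' + (c1 + c2) := by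
    calc _ ≤ cnd ν (W.S k) (fun ω => W.gm k h ω y) ω * (W.ph ν n g k ω y' + c2) := by
          gcongr; exact hX y'
      _ = cnd ν (W.S k) (fun ω => W.gm k h ω y) ω * W.ph ν n g k ω y' +
            cnd ν (W.S k) (fun ω => W.gm k h ω y) ω * c2 := mul_add _ _ _
      _ ≤ (W.ph ν n g k ω y + c1) * W.ph ν n g k ω y' + 1 * c2 := by
          gcongr
          · exact hX y
          · exact hX1 y
      _ = W.ph ν n g k ω y * W.ph ν n g k ω y' + (c1 * W.ph ν n g k ω y' + c2) := by ring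
      _ ≤ W.ph ν n g k ω y * W.ph ν n g k ω y' + (c1 * 1 + c2) := by
          gcongr; exact W.ph_le_one hg k ω y'
      _ = _ := by rw [mul_one]
  calc cnd ν (W.S k) (fun ω => W.U ν n g k ω y * W.U ν n g k ω y') ω
      ≤ cnd ν (W.S k) (fun ω => W.gm k h ω y * W.gm k h ω y' +
          (W.ee ν n g v k ω y + W.ee ν n g v k ω y')) ω := cnd_mono _ h1 ω
    _ = cnd ν (W.S k) (fun ω => W.gm k h ω y * W.gm k h ω y') ω + (c1 + c2) := by
        rw [cnd_add (W.S k) (f := fun ω => W.gm k h ω y * W.gm k h ω y')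
          (g := fun ω => W.ee ν n g v k ω y + W.ee ν n g v k ω y') ((hmX y).mul (hmX y')),
          cnd_add (W.S k) (f := fun ω => W.ee ν n g v k ω y)
            (g := fun ω => W.ee ν n g v k ω y') (hme y)]
    _ ≤ (W.ph ν n g k ω y * W.ph ν n g k ω y' + (c1 + c2)) + (c1 + c2) := by
        rw [h2]; gcongr
    _ = W.ph ν n g k ω y * W.ph ν n g k ω y' + 2 * (c1 + c2) := by ring
    _ ≤ _ := by gcongr; norm_num

/-! ### the weighted walk and the second moment recursion -/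

/-- weighted law of the walker at stage `k` -/
noncomputable def qw (x : Site d) (ω : Environment d) : ℕ → Site d → ℝ≥0∞
  | 0 => fun y => EK ω (W.S 0) x y
  | k + 1 => fun z => (∑' y, qw x ω k y * EK ω (W.S (k + 1)) y z) * W.χ (k + 1) z

lemma qw_le (x : Site d) (ω : Environment d) (k : ℕ) (y : Site d) :
    W.qw x ω k y ≤ EK ω (W.S k) x y := by
  induction k generalizing y with
  | zero => exact le_rfl
  | succ k ih =>
    calc W.qw x ω (k + 1) y = (∑' y', W.qw x ω k y' * EK ω (W.S (k + 1)) y' y) * W.χ (k + 1) y :=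
          rfl
      _ ≤ (∑' y', EK ω (W.S k) x y' * EK ω (W.S (k + 1)) y' y) * 1 := by
          gcongr with y'
          · exact ih y'
          · exact W.χ_le _ _
      _ = _ := by rw [mul_one, ← EK_comp ω (W.mono k) x y]

lemma tsum_qw_le (x : Site d) (ω : Environment d) (k : ℕ) : ∑' y, W.qw x ω k y ≤ 1 :=
  (ENNReal.tsum_le_tsum fun y => W.qw_le x ω k y).trans (tsum_EK_le ω _ x)

lemma meas_qw (x : Site d) (k : ℕ) (y : Site d) :
    Measurable fun ω : Environment d => W.qw x ω k y := by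
  induction k generalizing y with
  | zero => exact meas_EK _ _ _
  | succ k ih =>
    exact (Measurable.tsum fun y' => (ih y').mul (meas_EK _ _ _)).mul measurable_const

lemma locOn_qw (x : Site d) (k : ℕ) (y : Site d) :
    Q561.LocOn (W.S k) fun ω : Environment d => W.qw x ω k y := by
  induction k generalizing y with
  | zero => exact locOn_EK _ _ _
  | succ k ih =>
    intro ω₁ ω₂ h
    show (∑' y', W.qw x ω₁ k y' * EK ω₁ (W.S (k + 1)) y' y) * W.χ (k + 1) y =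
      (∑' y', W.qw x ω₂ k y' * EK ω₂ (W.S (k + 1)) y' y) * W.χ (k + 1) y
    congr 1
    refine tsum_congr fun y' => ?_
    have h1 : W.qw x ω₁ k y' = W.qw x ω₂ k y' := ih y' ω₁ ω₂ fun z hz => h z (W.mono k hz)
    have h2 : EK ω₁ (W.S (k + 1)) y' y = EK ω₂ (W.S (k + 1)) y' y := locOn_EK _ y' y ω₁ ω₂ h
    rw [h1, h2]

variable (ν) in
/-- the martingale -/
noncomputable def M (n : ℕ) (g : Site d → ℝ≥0∞) (x : Site d) (k : ℕ) (ω : Environment d) :
    ℝ≥0∞ := ∑' y, W.qw x ω k y * W.ph ν n g k ω y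

lemma meas_M (x : Site d) (k : ℕ) : Measurable (W.M ν n g x k) :=
  Measurable.tsum fun y => (W.meas_qw x k y).mul (W.meas_ph k y)

lemma M_succ (x : Site d) (k : ℕ) (ω : Environment d) :
    W.M ν n g x (k + 1) ω = ∑' y, W.qw x ω k y * W.U ν n g k ω y := by
  unfold M U
  simp_rw [← ENNReal.tsum_mul_left]
  rw [ENNReal.tsum_comm]
  refine tsum_congr fun z => ?_
  show (∑' y, W.qw x ω k y * EK ω (W.S (k + 1)) y z) * W.χ (k + 1) z * W.ph ν n g (k + 1) ω z = _
  rw [← ENNReal.tsum_mul_right, ← ENNReal.tsum_mul_right]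
  exact tsum_congr fun y => by ring

/-- the functional is the last value of the martingale -/
lemma sum_Gb (x : Site d) (ω : Environment d) {k : ℕ} (hk : k ≤ n) :
    ∑' y, W.qw x ω k y * W.Gb g ω (n - k) k y = ∑' y, W.qw x ω 0 y * W.Gb g ω n 0 y := by
  induction k with
  | zero => rfl
  | succ k ih =>
    rw [← ih (by omega)]
    obtain ⟨m, hm⟩ : ∃ m, n - k = m + 1 := ⟨n - k - 1, by omega⟩
    have h1 : n - (k + 1) = m := by omega
    rw [hm, h1]
    show ∑' z, (∑' y, W.qw x ω k y * EK ω (W.S (k + 1)) y z) * W.χ (k + 1) z *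
      W.Gb g ω m (k + 1) z = ∑' y, W.qw x ω k y *
        ∑' z, EK ω (W.S (k + 1)) y z * (W.χ (k + 1) z * W.Gb g ω m (k + 1) z)
    simp_rw [← ENNReal.tsum_mul_left, ← ENNReal.tsum_mul_right]
    rw [ENNReal.tsum_comm]
    exact tsum_congr fun y => tsum_congr fun z => by ring

lemma ph_last (ω : Environment d) (y : Site d) : W.ph ν n g n ω y = g y := by
  unfold ph
  rw [Nat.sub_self]
  exact cnd_const _ _ _

lemma M_last (x : Site d) (ω : Environment d) (hx : x ∉ W.S 0) :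
    W.M ν n g x n ω = W.Gb g ω n 0 x := by
  unfold M
  have h1 : ∀ y, W.qw x ω n y * W.ph ν n g n ω y = W.qw x ω n y * W.Gb g ω (n - n) n y := by
    intro y
    rw [W.ph_last, Nat.sub_self]
    rfl
  rw [tsum_congr h1, W.sum_Gb x ω le_rfl]
  show ∑' y, EK ω (W.S 0) x y * W.Gb g ω n 0 y = _
  rw [tsum_eq_single x]
  · rw [EK_notMem ω hx, Set.indicator_of_mem (Set.mem_singleton x), one_mul]
  · intro z hz
    rw [EK_notMem ω hx, Set.indicator_of_notMem fun h => hz (Set.mem_singleton_iff.1 h), zero_mul]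

lemma M_zero (x : Site d) (ω : Environment d) (hx : x ∉ W.S 0) :
    W.M ν n g x 0 ω = W.ph ν n g 0 ω x := by
  unfold M
  rw [tsum_eq_single x]
  · show EK ω (W.S 0) x x * _ = _
    rw [EK_notMem ω hx, Set.indicator_of_mem (Set.mem_singleton x), one_mul]
  · intro z hz
    show EK ω (W.S 0) x z * _ = _
    rw [EK_notMem ω hx, Set.indicator_of_notMem fun h => hz (Set.mem_singleton_iff.1 h), zero_mul]

/-! ### the three annealed error terms -/

variable (ν) in
/-- `e1 k = ∫ ∑ y, q_k(y) |φ_k(y) - v_k(y)|`, unweighted walk -/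
noncomputable def e1 (n : ℕ) (g : Site d → ℝ≥0∞) (v : ℕ → Site d → ℝ≥0∞) (x : Site d) (k : ℕ) :
    ℝ≥0∞ := ∫⁻ ω, ∑' y, EK ω (W.S k) x y * W.rho ν n g v k ω y ∂(iidEnvironmentLaw ν)

variable (ν) in
/-- `e2 k = ∫ ∑ y, q_k(y) lv k y`, unweighted walk -/
noncomputable def e2 (x : Site d) (k : ℕ) : ℝ≥0∞ :=
  ∫⁻ ω, ∑' y, EK ω (W.S k) x y * W.lv k ω y ∂(iidEnvironmentLaw ν)

open Classical in
variable (ν) in
/-- the near pairs, unweighted walk -/
noncomputable def NN (x : Site d) (k : ℕ) : ℝ≥0∞ :=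
  ∫⁻ ω, ∑' y, ∑' y', (if Disjoint (W.C k y) (W.C k y') then 0
    else EK ω (W.S k) x y * EK ω (W.S k) x y') ∂(iidEnvironmentLaw ν)

lemma rr_sum (x : Site d) (k : ℕ) (ω : Environment d) :
    ∑' y, EK ω (W.S k) x y * W.rr ν n g v k ω y =
      ∑' z, EK ω (W.S (k + 1)) x z * W.rho ν n g v (k + 1) ω z := by
  unfold rr
  simp_rw [EK_comp ω (W.mono k) x, ← ENNReal.tsum_mul_left, ← ENNReal.tsum_mul_right]
  rw [ENNReal.tsum_comm]
  exact tsum_congr fun z => tsum_congr fun y => by ring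

open Classical in
/-- conditional second moment of one step, pointwise -/
theorem cnd_sq_le (hg : ∀ z, g z ≤ 1) (hv : ∀ k z, v k z ≤ 1) (hL : W.Lip n v β) (x : Site d)
    {k : ℕ} (hk : k < n) (ω : Environment d) :
    cnd ν (W.S k) (fun ω => W.M ν n g x (k + 1) ω ^ 2) ω ≤
      W.M ν n g x k ω ^ 2 +
      β k ^ 2 * (∑' y, ∑' y', (if Disjoint (W.C k y) (W.C k y') then 0
        else EK ω (W.S k) x y * EK ω (W.S k) x y')) +
      6 * cnd ν (W.S k) (fun ω => ∑' y, EK ω (W.S k) x y * W.ee ν n g v k ω y) ω +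
      ∑' y, EK ω (W.S k) x y * W.rho ν n g v k ω y := by
  have hmU : ∀ z, Measurable fun ω => W.U ν n g k ω z := W.meas_U k
  have hme : ∀ z, Measurable fun ω => W.ee ν n g v k ω z := W.meas_ee k
  have hq := W.meas_qw x k
  have hql := W.locOn_qw x k
  -- expansion
  have e1 : (fun ω => W.M ν n g x (k + 1) ω ^ 2) = fun ω => ∑' y, ∑' y',
      (W.qw x ω k y * W.qw x ω k y') * (W.U ν n g k ω y * W.U ν n g k ω y') := by
    funext ω
    rw [W.M_succ, sq, ← ENNReal.tsum_mul_right]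
    refine tsum_congr fun y => ?_
    rw [← ENNReal.tsum_mul_left]
    exact tsum_congr fun y' => by ring
  have e2 : cnd ν (W.S k) (fun ω => W.M ν n g x (k + 1) ω ^ 2) ω = ∑' y, ∑' y',
      (W.qw x ω k y * W.qw x ω k y') *
        cnd ν (W.S k) (fun ω => W.U ν n g k ω y * W.U ν n g k ω y') ω := by
    rw [e1, cnd_tsum (W.S k) (f := fun y ω => ∑' y', (W.qw x ω k y * W.qw x ω k y') *
      (W.U ν n g k ω y * W.U ν n g k ω y'))
      (fun y => Measurable.tsum fun y' => ((hq y).mul (hq y')).mul ((hmU y).mul (hmU y')))]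
    refine tsum_congr fun y => ?_
    rw [cnd_tsum (W.S k) (f := fun y' ω => (W.qw x ω k y * W.qw x ω k y') *
      (W.U ν n g k ω y * W.U ν n g k ω y'))
      (fun y' => ((hq y).mul (hq y')).mul ((hmU y).mul (hmU y')))]
    refine tsum_congr fun y' => ?_
    refine cnd_pull (S := W.S k) (w := fun ω => W.qw x ω k y * W.qw x ω k y') ?_
      ((hmU y).mul (hmU y')) ω
    intro ω₁ ω₂ h
    have h1 : W.qw x ω₁ k y = W.qw x ω₂ k y := hql y ω₁ ω₂ h
    have h2 : W.qw x ω₁ k y' = W.qw x ω₂ k y' := hql y' ω₁ ω₂ h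
    show W.qw x ω₁ k y * W.qw x ω₁ k y' = W.qw x ω₂ k y * W.qw x ω₂ k y'
    rw [h1, h2]
  -- abbreviations
  set c : Site d → ℝ≥0∞ := fun y => cnd ν (W.S k) (fun ω => W.ee ν n g v k ω y) ω with hc
  set q : Site d → ℝ≥0∞ := fun y => W.qw x ω k y with hqq
  set p : Site d → ℝ≥0∞ := fun y => EK ω (W.S k) x y with hpp
  set φ : Site d → ℝ≥0∞ := fun y => W.ph ν n g k ω y with hφ
  set ρ : Site d → ℝ≥0∞ := fun y => W.rho ν n g v k ω y with hρ
  have hqp : ∀ y, q y ≤ p y := W.qw_le x ω k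
  have hq1 : ∑' y, q y ≤ 1 := W.tsum_qw_le x ω k
  have hpair : ∀ y y', (q y * q y') *
      cnd ν (W.S k) (fun ω => W.U ν n g k ω y * W.U ν n g k ω y') ω ≤
      (q y * φ y) * (q y' * φ y') + β k ^ 2 * (if Disjoint (W.C k y) (W.C k y') then 0
        else p y * p y') + 3 * ((q y * c y) * q y' + q y * (q y' * c y')) + (q y * ρ y) * q y' := by
    intro y y'
    by_cases hd : Disjoint (W.C k y) (W.C k y')
    · rw [if_pos hd, mul_zero, add_zero]
      calc (q y * q y') * cnd ν (W.S k) (fun ω => W.U ν n g k ω y * W.U ν n g k ω y') ω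
          ≤ (q y * q y') * (φ y * φ y' + 3 * (c y + c y')) := by
            gcongr; exact W.pair_far hg hv hk ω y y' hd
        _ = (q y * φ y) * (q y' * φ y') + 3 * ((q y * c y) * q y' + q y * (q y' * c y')) := by ring
        _ ≤ _ := le_self_add
    · rw [if_neg hd]
      calc (q y * q y') * cnd ν (W.S k) (fun ω => W.U ν n g k ω y * W.U ν n g k ω y') ω
          ≤ (q y * q y') * (φ y * φ y' + β k ^ 2 + 3 * (c y + c y') + ρ y) := by
            gcongr; exact W.pair_near hg hv hL hk ω y y'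
        _ = (q y * φ y) * (q y' * φ y') + β k ^ 2 * (q y * q y') +
              3 * ((q y * c y) * q y' + q y * (q y' * c y')) + (q y * ρ y) * q y' := by ring
        _ ≤ _ := by gcongr <;> exact hqp _
  rw [e2]
  -- sum over the pairs
  calc ∑' y, ∑' y', (q y * q y') *
        cnd ν (W.S k) (fun ω => W.U ν n g k ω y * W.U ν n g k ω y') ω
      ≤ ∑' y, ∑' y', ((q y * φ y) * (q y' * φ y') +
          β k ^ 2 * (if Disjoint (W.C k y) (W.C k y') then 0 else p y * p y') +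
          3 * ((q y * c y) * q y' + q y * (q y' * c y')) + (q y * ρ y) * q y') :=
        ENNReal.tsum_le_tsum fun y => ENNReal.tsum_le_tsum fun y' => hpair y y'
    _ = (∑' y, q y * φ y) * (∑' y, q y * φ y) +
          β k ^ 2 * (∑' y, ∑' y', (if Disjoint (W.C k y) (W.C k y') then 0 else p y * p y')) +
          3 * ((∑' y, q y * c y) * (∑' y, q y) + (∑' y, q y) * (∑' y, q y * c y)) +
          (∑' y, q y * ρ y) * (∑' y, q y) := by
        simp only [ENNReal.tsum_add, ENNReal.tsum_mul_left, ENNReal.tsum_mul_right]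
    _ ≤ (∑' y, q y * φ y) * (∑' y, q y * φ y) +
          β k ^ 2 * (∑' y, ∑' y', (if Disjoint (W.C k y) (W.C k y') then 0 else p y * p y')) +
          3 * ((∑' y, p y * c y) * 1 + 1 * (∑' y, p y * c y)) + (∑' y, p y * ρ y) * 1 := by
        gcongr with y y y <;> exact hqp _
    _ = _ := by
        have h6 : cnd ν (W.S k) (fun ω => ∑' y, EK ω (W.S k) x y * W.ee ν n g v k ω y) ω =
            ∑' y, p y * c y := by
          rw [cnd_tsum (W.S k) (f := fun y ω => EK ω (W.S k) x y * W.ee ν n g v k ω y)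
            (fun y => (meas_EK _ _ _).mul (hme y))]
          exact tsum_congr fun y => cnd_pull (w := fun ω => EK ω (W.S k) x y)
            (f := fun ω => W.ee ν n g v k ω y) (locOn_EK _ x y) (hme y) ω
        rw [h6]
        have h7 : W.M ν n g x k ω = ∑' y, q y * φ y := rfl
        rw [h7]
        ring

/-- one step of the second moment recursion -/
theorem sq_step (hg : ∀ z, g z ≤ 1) (hv : ∀ k z, v k z ≤ 1) (hL : W.Lip n v β) (x : Site d)
    {k : ℕ} (hk : k < n) :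
    ∫⁻ ω, W.M ν n g x (k + 1) ω ^ 2 ∂(iidEnvironmentLaw ν) ≤
      ∫⁻ ω, W.M ν n g x k ω ^ 2 ∂(iidEnvironmentLaw ν) +
      (β k ^ 2 * W.NN ν x k + 6 * (W.e2 ν x k + W.e1 ν n g v x (k + 1)) + W.e1 ν n g v x k) := by
  classical
  have hmM : ∀ j, Measurable fun ω => W.M ν n g x j ω ^ 2 := fun j => (W.meas_M x j).pow_const 2
  have hmE : Measurable fun ω => ∑' y, EK ω (W.S k) x y * W.ee ν n g v k ω y :=
    Measurable.tsum fun y => (meas_EK _ _ _).mul (W.meas_ee k y)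
  have hmN : Measurable fun ω : Environment d => ∑' y, ∑' y',
      (if Disjoint (W.C k y) (W.C k y') then 0 else EK ω (W.S k) x y * EK ω (W.S k) x y') := by
    refine Measurable.tsum fun y => Measurable.tsum fun y' => ?_
    by_cases hd : Disjoint (W.C k y) (W.C k y')
    · simp only [if_pos hd]; exact measurable_const
    · simp only [if_neg hd]; exact (meas_EK _ _ _).mul (meas_EK _ _ _)
  have hmR : Measurable fun ω => ∑' y, EK ω (W.S k) x y * W.rho ν n g v k ω y :=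
    Measurable.tsum fun y => (meas_EK _ _ _).mul (W.meas_rho k y)
  have hee : ∫⁻ ω, cnd ν (W.S k) (fun ω => ∑' y, EK ω (W.S k) x y * W.ee ν n g v k ω y) ω
      ∂(iidEnvironmentLaw ν) = W.e2 ν x k + W.e1 ν n g v x (k + 1) := by
    rw [lint_cnd_one hmE]
    unfold e2 e1
    have hmL : Measurable fun ω : Environment d => ∑' y, EK ω (W.S k) x y * W.lv k ω y :=
      Measurable.tsum fun y => (meas_EK _ _ _).mul (W.meas_lv k y)
    rw [← lintegral_add_left hmL]
    refine lintegral_congr fun ω => ?_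
    rw [← W.rr_sum x k ω, ← ENNReal.tsum_add]
    exact tsum_congr fun y => mul_add _ _ _
  calc ∫⁻ ω, W.M ν n g x (k + 1) ω ^ 2 ∂(iidEnvironmentLaw ν)
      = ∫⁻ ω, cnd ν (W.S k) (fun ω => W.M ν n g x (k + 1) ω ^ 2) ω ∂(iidEnvironmentLaw ν) :=
        (lint_cnd_one (hmM (k + 1))).symm
    _ ≤ ∫⁻ ω, (W.M ν n g x k ω ^ 2 +
      β k ^ 2 * (∑' y, ∑' y', (if Disjoint (W.C k y) (W.C k y') then 0
        else EK ω (W.S k) x y * EK ω (W.S k) x y')) +
      6 * cnd ν (W.S k) (fun ω => ∑' y, EK ω (W.S k) x y * W.ee ν n g v k ω y) ω +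
      ∑' y, EK ω (W.S k) x y * W.rho ν n g v k ω y) ∂(iidEnvironmentLaw ν) :=
        lintegral_mono fun ω => W.cnd_sq_le hg hv hL x hk ω
    _ = _ := by
        rw [lintegral_add_right _ hmR, lintegral_add_right _ ((meas_cnd _ hmE).const_mul 6),
          lintegral_add_right _ (hmN.const_mul _), lintegral_const_mul _ hmN,
          lintegral_const_mul _ (meas_cnd _ hmE), hee]
        unfold NN e1
        ring

/-- **quenched variance theorem** -/
theorem qv (hg : ∀ z, g z ≤ 1) (hv : ∀ k z, v k z ≤ 1) (hL : W.Lip n v β) {x : Site d}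
    (hx : x ∉ W.S 0) :
    ∫⁻ ω, W.Gb g ω n 0 x ^ 2 ∂(iidEnvironmentLaw ν) ≤
      (∫⁻ ω, W.Gb g ω n 0 x ∂(iidEnvironmentLaw ν)) ^ 2 +
      ∑ k ∈ Finset.range n, (β k ^ 2 * W.NN ν x k +
        6 * (W.e2 ν x k + W.e1 ν n g v x (k + 1)) + W.e1 ν n g v x k) +
      2 * W.e1 ν n g v x 0 := by
  have h1 : ∀ m ≤ n, ∫⁻ ω, W.M ν n g x m ω ^ 2 ∂(iidEnvironmentLaw ν) ≤
      ∫⁻ ω, W.M ν n g x 0 ω ^ 2 ∂(iidEnvironmentLaw ν) +
      ∑ k ∈ Finset.range m, (β k ^ 2 * W.NN ν x k +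
        6 * (W.e2 ν x k + W.e1 ν n g v x (k + 1)) + W.e1 ν n g v x k) := by
    intro m
    induction m with
    | zero => intro _; simp
    | succ m ih =>
      intro hm
      refine (W.sq_step hg hv hL x (by omega)).trans ?_
      rw [Finset.sum_range_succ]
      refine le_trans (add_le_add (ih (by omega)) le_rfl) (le_of_eq ?_)
      ring
  have h2 : ∀ ω, W.M ν n g x n ω = W.Gb g ω n 0 x := fun ω => W.M_last x ω hx
  have h3 : ∀ ω, W.M ν n g x 0 ω = W.ph ν n g 0 ω x := fun ω => W.M_zero x ω hx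
  have hm0 : Measurable fun ω => W.ph ν n g 0 ω x := W.meas_ph 0 x
  have hmr : Measurable fun ω => W.rho ν n g v 0 ω x := W.meas_rho 0 x
  -- the mean
  have h4 : ∫⁻ ω, W.ph ν n g 0 ω x ∂(iidEnvironmentLaw ν) =
      ∫⁻ ω, W.Gb g ω n 0 x ∂(iidEnvironmentLaw ν) := by
    unfold ph
    rw [lint_cnd_one (W.meas_Gb _ _ _), Nat.sub_zero]
  have h5 : ∫⁻ ω, W.rho ν n g v 0 ω x ∂(iidEnvironmentLaw ν) = W.e1 ν n g v x 0 := by
    unfold e1
    refine lintegral_congr fun ω => ?_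
    rw [tsum_eq_single x]
    · rw [EK_notMem ω hx, Set.indicator_of_mem (Set.mem_singleton x), one_mul]
    · intro z hz
      rw [EK_notMem ω hx, Set.indicator_of_notMem fun h => hz (Set.mem_singleton_iff.1 h), zero_mul]
  set m0 := ∫⁻ ω, W.Gb g ω n 0 x ∂(iidEnvironmentLaw ν) with hm0'
  have hm01 : m0 ≤ 1 := by
    rw [← h4]
    calc ∫⁻ ω, W.ph ν n g 0 ω x ∂(iidEnvironmentLaw ν)
        ≤ ∫⁻ _, 1 ∂(iidEnvironmentLaw ν) := lintegral_mono fun ω => W.ph_le_one hg 0 ω x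
      _ = 1 := by simp
  -- second moment at stage 0
  have h6 : ∫⁻ ω, W.M ν n g x 0 ω ^ 2 ∂(iidEnvironmentLaw ν) ≤ m0 ^ 2 + 2 * W.e1 ν n g v x 0 := by
    have hv0 : v 0 x ≤ m0 + W.e1 ν n g v x 0 := by
      have : v 0 x = ∫⁻ _, v 0 x ∂(iidEnvironmentLaw ν) := by simp
      rw [this, ← h4, ← h5, ← lintegral_add_left hm0]
      exact lintegral_mono fun ω => le_add_AD' _ _
    calc ∫⁻ ω, W.M ν n g x 0 ω ^ 2 ∂(iidEnvironmentLaw ν)
        = ∫⁻ ω, W.ph ν n g 0 ω x * W.ph ν n g 0 ω x ∂(iidEnvironmentLaw ν) := by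
          refine lintegral_congr fun ω => ?_
          rw [h3, sq]
      _ ≤ ∫⁻ ω, (v 0 x * W.ph ν n g 0 ω x + W.rho ν n g v 0 ω x) ∂(iidEnvironmentLaw ν) := by
          refine lintegral_mono fun ω => ?_
          calc W.ph ν n g 0 ω x * W.ph ν n g 0 ω x
              ≤ (v 0 x + W.rho ν n g v 0 ω x) * W.ph ν n g 0 ω x := by
                gcongr; exact le_add_AD _ _
            _ = v 0 x * W.ph ν n g 0 ω x + W.rho ν n g v 0 ω x * W.ph ν n g 0 ω x := add_mul _ _ _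
            _ ≤ v 0 x * W.ph ν n g 0 ω x + W.rho ν n g v 0 ω x * 1 := by
                gcongr; exact W.ph_le_one hg 0 ω x
            _ = _ := by rw [mul_one]
      _ = v 0 x * m0 + W.e1 ν n g v x 0 := by
          rw [lintegral_add_right _ hmr, lintegral_const_mul _ hm0, h4, h5]
      _ ≤ (m0 + W.e1 ν n g v x 0) * m0 + W.e1 ν n g v x 0 := by gcongr
      _ = m0 ^ 2 + W.e1 ν n g v x 0 * m0 + W.e1 ν n g v x 0 := by ring
      _ ≤ m0 ^ 2 + W.e1 ν n g v x 0 * 1 + W.e1 ν n g v x 0 := by gcongr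
      _ = _ := by ring
  calc ∫⁻ ω, W.Gb g ω n 0 x ^ 2 ∂(iidEnvironmentLaw ν)
      = ∫⁻ ω, W.M ν n g x n ω ^ 2 ∂(iidEnvironmentLaw ν) :=
        lintegral_congr fun ω => by rw [h2]
    _ ≤ _ := h1 n le_rfl
    _ ≤ (m0 ^ 2 + 2 * W.e1 ν n g v x 0) + ∑ k ∈ Finset.range n, (β k ^ 2 * W.NN ν x k +
        6 * (W.e2 ν x k + W.e1 ν n g v x (k + 1)) + W.e1 ν n g v x k) := by gcongr
    _ = _ := by ring

end Win

/-! ### consequences of a variance bound -/

section cons
variable {Ω : Type*} [MeasurableSpace Ω] {P : Measure Ω} [IsProbabilityMeasure P]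

lemma AD_sq {a m : ℝ≥0∞} (ha : a ≠ ⊤) (hm : m ≠ ⊤) : AD a m ^ 2 + 2 * m * a = a ^ 2 + m ^ 2 := by
  lift a to ℝ≥0 using ha
  lift m to ℝ≥0 using hm
  unfold AD
  rcases le_total a m with h | h
  · have e : ((a : ℝ≥0∞) - m) = 0 := tsub_eq_zero_of_le (by exact_mod_cast h)
    obtain ⟨t, rfl⟩ := exists_add_of_le h
    rw [e, zero_add]
    have e2 : (((a + t : ℝ≥0) : ℝ≥0∞) - a) = t := by
      rw [ENNReal.coe_add]
      exact ENNReal.add_sub_cancel_left ENNReal.coe_ne_top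
    rw [e2, ENNReal.coe_add]
    ring
  · have e : ((m : ℝ≥0∞) - a) = 0 := tsub_eq_zero_of_le (by exact_mod_cast h)
    obtain ⟨t, rfl⟩ := exists_add_of_le h
    rw [e, add_zero]
    have e2 : (((m + t : ℝ≥0) : ℝ≥0∞) - m) = t := by
      rw [ENNReal.coe_add]
      exact ENNReal.add_sub_cancel_left ENNReal.coe_ne_top
    rw [e2, ENNReal.coe_add]
    ring

/-- variance in `ℝ≥0∞` -/
theorem var_le {f : Ω → ℝ≥0∞} (hf : Measurable f) (h1 : ∀ ω, f ω ≤ 1) {E : ℝ≥0∞}
    (h : ∫⁻ ω, f ω ^ 2 ∂P ≤ (∫⁻ ω, f ω ∂P) ^ 2 + E) :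
    ∫⁻ ω, AD (f ω) (∫⁻ ω, f ω ∂P) ^ 2 ∂P ≤ E := by
  set m := ∫⁻ ω, f ω ∂P with hm
  have hm1 : m ≤ 1 := by
    calc m ≤ ∫⁻ _, 1 ∂P := lintegral_mono h1
      _ = 1 := by simp
  have hmt : m ≠ ⊤ := ne_top_of_le_ne_top ENNReal.one_ne_top hm1
  have hft : ∀ ω, f ω ≠ ⊤ := fun ω => ne_top_of_le_ne_top ENNReal.one_ne_top (h1 ω)
  have hmAD : Measurable fun ω => AD (f ω) m ^ 2 :=
    ((hf.sub measurable_const).add (measurable_const.sub hf)).pow_const 2
  have e1 : ∫⁻ ω, AD (f ω) m ^ 2 ∂P + 2 * m * m = ∫⁻ ω, f ω ^ 2 ∂P + m ^ 2 := by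
    have e2 : ∫⁻ ω, 2 * m * f ω ∂P = 2 * m * m := lintegral_const_mul _ hf
    have e3 : ∫⁻ _ : Ω, m ^ 2 ∂P = m ^ 2 := by simp
    rw [← e2, ← lintegral_add_left hmAD]
    conv_rhs => rw [← e3]
    rw [← lintegral_add_left (hf.pow_const 2)]
    exact lintegral_congr fun ω => AD_sq (hft ω) hmt
  have h2 : ∫⁻ ω, AD (f ω) m ^ 2 ∂P + 2 * m * m ≤ E + 2 * m * m := by
    rw [e1]
    calc ∫⁻ ω, f ω ^ 2 ∂P + m ^ 2 ≤ m ^ 2 + E + m ^ 2 := by gcongr
      _ = _ := by ring
  exact (ENNReal.add_le_add_iff_right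
    (ENNReal.mul_ne_top (ENNReal.mul_ne_top ENNReal.ofNat_ne_top hmt) hmt)).1 h2



/-- `L¹` form: `∫ |f - E f| ≤ t + E / t` -/
theorem l1_le {f : Ω → ℝ≥0∞} (hf : Measurable f) (h1 : ∀ ω, f ω ≤ 1) {E t : ℝ≥0∞}
    (ht : t ≠ 0) (ht' : t ≠ ⊤)
    (h : ∫⁻ ω, f ω ^ 2 ∂P ≤ (∫⁻ ω, f ω ∂P) ^ 2 + E) :
    ∫⁻ ω, AD (f ω) (∫⁻ ω, f ω ∂P) ∂P ≤ t + E / t := by
  have hv := var_le hf h1 h
  set m := ∫⁻ ω, f ω ∂P
  have hmAD : Measurable fun ω => AD (f ω) m :=
    (hf.sub measurable_const).add (measurable_const.sub hf)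
  calc ∫⁻ ω, AD (f ω) m ∂P ≤ ∫⁻ ω, (t + AD (f ω) m ^ 2 * t⁻¹) ∂P := by
        refine lintegral_mono fun ω => ?_
        rcases le_total (AD (f ω) m) t with h | h
        · exact h.trans le_self_add
        · refine le_trans ?_ (le_add_of_nonneg_left zero_le)
          calc AD (f ω) m = AD (f ω) m * 1 := (mul_one _).symm
            _ = AD (f ω) m * (t * t⁻¹) := by rw [ENNReal.mul_inv_cancel ht ht']
            _ = (AD (f ω) m * t) * t⁻¹ := by ring
            _ ≤ (AD (f ω) m * AD (f ω) m) * t⁻¹ := by gcongr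
            _ = _ := by rw [sq]
    _ = t + (∫⁻ ω, AD (f ω) m ^ 2 ∂P) * t⁻¹ := by
        rw [lintegral_add_left measurable_const, lintegral_mul_const _ (hmAD.pow_const 2)]
        simp
    _ ≤ t + E * t⁻¹ := by gcongr
    _ = _ := by rw [ENNReal.div_eq_inv_mul, mul_comm]

end cons

end Crest.Agent.R154.QV766
end

-- ▼ part R154/D2WC_36
section

/-!
# Row 154, `d = 2`, D2.9-END, part C (helper36): 766's quenched variance theorem on the grid
-/

set_option autoImplicit false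
set_option linter.unusedVariables false
set_option linter.unusedSectionVars false

namespace Crest.Agent.R154.D2V36

open MeasureTheory ProbabilityTheory Crest.ProbabilityR.RandomEnvironment Crest.Agent.R154
open Crest.Agent.R154.Flux132 (lev)
open Crest.Agent.R154.ExK9 Crest.Agent.R154.Resamp9
open Crest.Agent.R154.River916 (Ev)
open Crest.Agent.R154.P2916 (sl)
open Crest.Agent.R154.FEk9 (wE wG wE_le_one wG_mem cutL cutχ)
open scoped ENNReal

variable {u : Step 2} {i : Fin 2} {θ : ℝ} {ν : Measure (Row 2)} [IsProbabilityMeasure ν]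
variable {m : ℕ} {lvl : ℕ → ℕ} {kk : Fin m → ℕ} {χ : Fin m → Site 2 → ℝ}

lemma wG_eq (k : ℕ) (z : Site 2) : wG χ kk k z = Wt kk χ k z := by
  unfold wG Wt
  rw [Finset.prod_filter]

/-- 36's product `Ph` is a cut functional of the kit -/
lemma PX_cut (hl : Monotone lvl) (k : ℕ) (X : Path 2) :
    PX u (cutL (fun j => lvl (kk j)) (lvl k)) (cutχ χ kk k) X = Ph lvl kk χ u k X := by
  unfold PX Ph
  refine Finset.prod_congr rfl fun j _ => ?_
  unfold cutχ cutL
  by_cases h : k < kk j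
  · rw [if_pos h, if_pos h, max_eq_left (hl h.le)]
  · rw [if_neg h, if_neg h]

lemma FE_cut_Fk (hl : Monotone lvl) (hχ : ∀ j z, 0 ≤ χ j z ∧ χ j z ≤ 1) (k : ℕ)
    (ω : Environment 2) (y : Site 2) :
    FE u (cutL (fun j => lvl (kk j)) (lvl k)) (cutχ χ kk k) ω y =
      (Fk lvl kk χ u k ω y).toReal := by
  rw [FEk9.FE_eq_lint (FEk9.cutχ_mem hχ kk k)]
  unfold Fk
  congr 1
  exact lintegral_congr fun X => by rw [PX_cut hl]

/-- the annealed mean of the cut functional -/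
lemma int_FE_cut (hl : Monotone lvl) (hχ : ∀ j z, 0 ≤ χ j z ∧ χ j z ≤ 1) (k : ℕ) (y : Site 2) :
    ∫ ω, FE u (cutL (fun j => lvl (kk j)) (lvl k)) (cutχ χ kk k) ω y ∂(iidEnvironmentLaw ν) =
      vk lvl kk χ u ν k y := by
  simp_rw [FE_cut_Fk hl hχ]
  rw [integral_toReal (measurable_Fk k y).aemeasurable
    (Filter.Eventually.of_forall fun ω =>
      lt_of_le_of_lt (Fk_le_one hχ k ω y) ENNReal.one_lt_top), lint_Fk hχ,
    ENNReal.toReal_ofReal (vk_mem hχ k y).1]

variable (u i θ) in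
/-- fresh windows of the grid -/
noncomputable def WW (hl : Monotone lvl) (kk : Fin m → ℕ) (hχ : ∀ j z, 0 ≤ χ j z ∧ χ j z ≤ 1)
    (r : ℝ) : QV766.Win 2 where
  S := fun k => if k = 0 then ∅ else Sb u (lvl k)
  mono := fun k => by
    by_cases h : k = 0
    · rw [if_pos h]; exact Set.empty_subset _
    · rw [if_neg h, if_neg (Nat.succ_ne_zero k)]
      exact Sb_mono (hl (Nat.le_succ k))
  C := fun k y => {z | lev u z < (lvl (k + 1) : ℤ) ∧ (k ≠ 0 → (lvl k : ℤ) ≤ lev u z) ∧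
    |sl u i θ z - sl u i θ y| ≤ r}
  CS := fun k y z hz => by
    rw [if_neg (Nat.succ_ne_zero k)]
    exact hz.1
  G := fun k y => {z | lev u y = (lvl k : ℤ) ∧ lev u z = (lvl (k + 1) : ℤ) ∧
    |sl u i θ z - sl u i θ y| ≤ r + (1 + |θ|)}
  GS := fun k y z hz h => by
    rw [if_neg (Nat.succ_ne_zero k)] at h
    have h1 : lev u z < (lvl (k + 1) : ℤ) := h
    have h2 := hz.2.1
    omega
  χ := wE χ kk
  χ_le := wE_le_one hχ kk

variable {hl : Monotone lvl} {hχ : ∀ j z, 0 ≤ χ j z ∧ χ j z ≤ 1} {r : ℝ}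

lemma WW_S {k : ℕ} (hk : k ≠ 0) : (WW u i θ hl kk hχ r).S k = Sb u (lvl k) := by
  show (if k = 0 then (∅ : Set (Site 2)) else Sb u (lvl k)) = _
  rw [if_neg hk]

lemma WW_S0 : (WW u i θ hl kk hχ r).S 0 = ∅ := by
  show (if (0 : ℕ) = 0 then (∅ : Set (Site 2)) else Sb u (lvl 0)) = _
  rw [if_pos rfl]

lemma WW_Gb (ω : Environment 2) (p k : ℕ) (y : Site 2) :
    (WW u i θ hl kk hχ r).Gb (fun _ => 1) ω p k y =
      FEk9.Gb (fun k => Sb u (lvl k)) (wE χ kk) (fun _ => 1) ω p k y := by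
  induction p generalizing k y with
  | zero => rfl
  | succ p ih =>
    show ∑' z, EK ω ((WW u i θ hl kk hχ r).S (k + 1)) y z *
      (wE χ kk (k + 1) z * (WW u i θ hl kk hχ r).Gb (fun _ => 1) ω p (k + 1) z) =
      ∑' z, EK ω (Sb u (lvl (k + 1))) y z *
      (wE χ kk (k + 1) z * FEk9.Gb (fun k => Sb u (lvl k)) (wE χ kk) (fun _ => 1) ω p (k + 1) z)
    rw [WW_S (Nat.succ_ne_zero k)]
    exact tsum_congr fun z => by rw [ih]

/-! ### (L) -/

theorem WW_lip (hH : HitP u ν) {n : ℕ} {w : ℝ} (hw : 0 < w)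
    (hLip : ∀ j z z', |χ j z - χ j z'| ≤ |sl u i θ z - sl u i θ z'| / w)
    {h : ℕ} {δ b : ℝ} (hr : 0 ≤ r) (hδ0 : 0 ≤ δ)
    (hδ : ∀ k < n, ∀ t, pb u i θ (iidEnvironmentLaw ν) t (lvl (k + 1) - lvl k) h r ≤
      ENNReal.ofReal δ)
    (hb : m * ((r + (1 + |θ|) + (r + (1 + |θ|))) / w + δ) ≤ b) (hb1 : b ≤ 1) :
    (WW u i θ hl kk hχ r).Lip n (fun k y => ENNReal.ofReal (vk lvl kk χ u ν k y))
      (fun _ => ENNReal.ofReal b) := by
  have hθ := abs_nonneg θ
  have hb0 : 0 ≤ b := le_trans (by positivity) hb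
  have key : ∀ k < n, ∀ y, ∀ z ∈ (WW u i θ hl kk hχ r).G k y,
      |Wt kk χ (k + 1) z * vk lvl kk χ u ν (k + 1) z - vk lvl kk χ u ν k y| ≤ b := by
    intro k hk y z hz
    exact (vk_lip hH hl hχ hw hLip hr hδ0 (hδ k hk) hz.1 hz.2.1 hz.2.2).trans hb
  refine ⟨fun _ => by rw [← ENNReal.ofReal_one]; exact ENNReal.ofReal_le_ofReal hb1, ?_, ?_⟩
  · intro k hk y z hz
    show wE χ kk (k + 1) z * ENNReal.ofReal (vk lvl kk χ u ν (k + 1) z) ≤ _
    unfold wE
    rw [wG_eq, ← ENNReal.ofReal_mul (Wt_mem hχ _ _).1,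
      ← ENNReal.ofReal_add (vk_mem hχ k y).1 hb0]
    refine ENNReal.ofReal_le_ofReal ?_
    have := (abs_le.1 (key k hk y z hz)).2
    linarith
  · intro k hk y z hz
    show _ ≤ wE χ kk (k + 1) z * ENNReal.ofReal (vk lvl kk χ u ν (k + 1) z) + _
    unfold wE
    rw [wG_eq, ← ENNReal.ofReal_mul (Wt_mem hχ _ _).1,
      ← ENNReal.ofReal_add (mul_nonneg (Wt_mem hχ _ _).1 (vk_mem hχ _ _).1) hb0]
    refine ENNReal.ofReal_le_ofReal ?_
    have := (abs_le.1 (key k hk y z hz)).1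
    linarith

/-! ### `e1` -/

theorem WW_e1 (hH : HitP u ν) {n k : ℕ} (hk0 : k ≠ 0) (hk : k ≤ n) (hkk : ∀ j, kk j ≤ n)
    {η : ℝ} (hη : ∫ ω, E1 (EK ω (Sb u (lvl k)) 0) (fun y =>
      |cndR ν (Sb u (lvl k)) (fun ω => FE u (cutL (fun j => lvl (kk j)) (lvl k))
        (cutχ χ kk k) ω y) ω -
        ∫ η, FE u (cutL (fun j => lvl (kk j)) (lvl k)) (cutχ χ kk k) η y
          ∂(iidEnvironmentLaw ν)|) ∂(iidEnvironmentLaw ν) ≤ η) :
    (WW u i θ hl kk hχ r).e1 ν n (fun _ => 1)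
      (fun k y => ENNReal.ofReal (vk lvl kk χ u ν k y)) 0 k ≤ ENNReal.ofReal η := by
  have h1 := FEk9.e1_eq (u := u) (L := fun j => lvl (kk j)) hχ hH hl (σ := kk) (fun j => rfl)
    (k := k) (p := n - k) (n := n) (by omega) hkk 0 (V := vk lvl kk χ u ν k)
    (fun y => (vk_mem hχ k y).1) (fun y => (vk_mem hχ k y).2)
  simp_rw [int_FE_cut hl hχ] at hη
  refine le_trans (le_of_eq ?_) (ENNReal.ofReal_le_ofReal hη)
  rw [← h1]
  unfold QV766.Win.e1 QV766.Win.rho QV766.Win.ph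
  rw [WW_S hk0]
  simp_rw [WW_Gb]
  rfl

theorem WW_e1_zero {n : ℕ} (hH : HitP u ν) (hl0 : lvl 0 = 0) (hkk : ∀ j, kk j ≤ n) :
    (WW u i θ hl kk hχ r).e1 ν n (fun _ => 1)
      (fun k y => ENNReal.ofReal (vk lvl kk χ u ν k y)) 0 0 = 0 := by
  have h0 : ∀ ω : Environment 2, (WW u i θ hl kk hχ r).rho ν n (fun _ => 1)
      (fun k y => ENNReal.ofReal (vk lvl kk χ u ν k y)) 0 ω 0 = 0 := by
    intro ω
    unfold QV766.Win.rho QV766.Win.ph
    have h1 : cnd ν ((WW u i θ hl kk hχ r).S 0)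
        (fun ω => (WW u i θ hl kk hχ r).Gb (fun _ => 1) ω (n - 0) 0 0) ω =
        ENNReal.ofReal (vk lvl kk χ u ν 0 0) := by
      rw [← lint_Fk hχ]
      unfold cnd
      refine lintegral_congr_ae ?_
      filter_upwards [hH] with ω' hω'
      rw [WW_S0, WW_Gb]
      have h2 : glue (∅ : Set (Site 2)) ω ω' = ω' := by
        funext z
        exact glue_notMem ω ω' (Set.notMem_empty z)
      rw [h2, Nat.sub_zero]
      have h3 := FEk9.FE_cut (u := u) (L := fun j => lvl (kk j)) hχ hω' hl (σ := kk)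
        (fun j => rfl) (k := 0) (p := n) (n := n) (by omega) hkk 0
      rw [FE_cut_Fk hl hχ] at h3
      have h4 : FEk9.Gb (fun k => Sb u (lvl k)) (wE χ kk) (fun _ => 1) ω' n 0 0 ≤ 1 :=
        FEk9.Gb_le_one (wE_le_one hχ kk) (fun _ => le_rfl) ω' n 0 0
      exact ((ENNReal.toReal_eq_toReal_iff' (ne_top_of_le_ne_top ENNReal.one_ne_top
        (Fk_le_one hχ 0 ω' 0)) (ne_top_of_le_ne_top ENNReal.one_ne_top h4)).1 h3).symm
    rw [h1]
    unfold QV766.AD
    rw [tsub_self, add_zero]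
  unfold QV766.Win.e1
  have h1 : ∀ ω : Environment 2, ∑' y, EK ω ((WW u i θ hl kk hχ r).S 0) 0 y *
      (WW u i θ hl kk hχ r).rho ν n (fun _ => 1)
        (fun k y => ENNReal.ofReal (vk lvl kk χ u ν k y)) 0 ω y = 0 := by
    intro ω
    rw [ENNReal.tsum_eq_zero]
    intro y
    rw [WW_S0]
    by_cases hy : y = 0
    · rw [hy, h0, mul_zero]
    · rw [EK_notMem ω (Set.notMem_empty _), Set.indicator_of_notMem
        (fun h => hy (Set.mem_singleton_iff.1 h)), zero_mul]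
  simp_rw [h1]
  exact lintegral_zero

/-! ### `e2` -/

/-- leaving the column through the top = a good exit of the window -/
lemma WW_lv {k : ℕ} (hr : 0 ≤ r) {g h : ℕ} (hg : lvl k + g = lvl (k + 1)) (ω : Environment 2)
    {y : Site 2} (hy : lev u y = lvl k) :
    (WW u i θ hl kk hχ r).lv k ω y ≤
      quenchedLaw ω y (Ev (Col u i θ (lvl k) g h r y) (Lvl u (lvl k + g)))ᶜ := by
  set W := WW u i θ hl kk hχ r with hW
  set E := Ev (Col u i θ (lvl k) g h r y) (Lvl u (lvl k + g)) with hE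
  have hmE : MeasurableSet E := River916.meas_Ev _ _
  have hgd : quenchedLaw ω y E ≤ W.gd k ω y := by
    have h1 : W.gd k ω y = quenchedLaw ω y (⋃ z : W.G k y, ExS (W.B k y) z.1) := by
      rw [measure_iUnion (fun z z' hzz' => by
        have := ExS_disjoint (W.B k y) (fun h => hzz' (Subtype.ext h))
        exact this) fun z => measurableSet_ExS _ _]
      unfold QV766.Win.gd
      rw [← tsum_subtype]
      rfl
    rw [h1]
    refine measure_mono_ae ?_
    filter_upwards [quenched_zero_eq ω y, quenched_nn ω y] with X hX0 hnn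
    intro hXE
    obtain ⟨n, hn, hi⟩ := hXE
    have hln : lev u (X n) = (lvl (k + 1) : ℤ) := by
      have h2 : lev u (X n) = ((lvl k + g : ℕ) : ℤ) := hn
      rw [h2, hg]
    have hsl : |sl u i θ (X n) - sl u i θ y| ≤ r + (1 + |θ|) := by
      have hθ := abs_nonneg θ
      cases n with
      | zero => rw [hX0, sub_self, abs_zero]; linarith
      | succ n =>
        obtain ⟨e, he⟩ := hnn n
        have a1 := (hi n (Nat.lt_succ_self n)).2.2
        rw [he, sl_add]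
        have a2 := abs_sl_step (u := u) (i := i) (θ := θ) e
        have : sl u i θ (X n) + sl u i θ (stepVec e) - sl u i θ y =
            (sl u i θ (X n) - sl u i θ y) + sl u i θ (stepVec e) := by ring
        rw [this]
        exact (abs_add_le _ _).trans (add_le_add a1 a2)
    have hzG : X n ∈ W.G k y := ⟨hy, hln, hsl⟩
    refine Set.mem_iUnion.2 ⟨⟨X n, hzG⟩, ?_⟩
    refine ⟨?_, n, rfl, fun j hj => ?_⟩
    · rintro (hS | hC)
      · exact W.GS k y _ hzG (W.mono k hS)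
      · have h5 : lev u (X n) < (lvl (k + 1) : ℤ) := hC.1
        omega
    · have a1 := (hi j hj)
      by_cases hk0 : k = 0
      · refine Or.inr ⟨?_, fun h => absurd hk0 h, a1.2.2⟩
        have := a1.2.1
        have h3 : ((lvl k + g : ℕ) : ℤ) = lvl (k + 1) := by rw [hg]
        push_cast at h3
        omega
      · by_cases hlow : lev u (X j) < lvl k
        · refine Or.inl ?_
          rw [WW_S hk0]
          exact hlow
        · refine Or.inr ⟨?_, fun _ => not_lt.1 hlow, a1.2.2⟩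
          have := a1.2.1
          have h3 : ((lvl k + g : ℕ) : ℤ) = lvl (k + 1) := by rw [hg]
          push_cast at h3
          omega
  unfold QV766.Win.lv
  rw [prob_compl_eq_one_sub hmE]
  exact tsub_le_tsub_left hgd 1

theorem WW_e2 {k : ℕ} (hr : 0 ≤ r) (hl0 : lvl 0 = 0) (h : ℕ) :
    (WW u i θ hl kk hχ r).e2 ν 0 k ≤
      pb u i θ (iidEnvironmentLaw ν) (lvl k) (lvl (k + 1) - lvl k) h r := by
  have hg : lvl k + (lvl (k + 1) - lvl k) = lvl (k + 1) := by
    have h1 : lvl k ≤ lvl (k + 1) := hl (Nat.le_succ k)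
    omega
  unfold QV766.Win.e2 pb
  refine lintegral_mono fun ω => ENNReal.tsum_le_tsum fun y => ?_
  have hEK : EK ω ((WW u i θ hl kk hχ r).S k) 0 y = EK ω (Sb u (lvl k)) 0 y := by
    by_cases hk0 : k = 0
    · subst hk0
      have h0 : (0 : Site 2) ∉ Sb u (lvl 0) := by
        show ¬ lev u 0 < ((lvl 0 : ℕ) : ℤ)
        rw [Flux132.lev_zero, hl0]; simp
      rw [WW_S0, EK_notMem ω (Set.notMem_empty _), EK_notMem ω h0]
    · rw [WW_S hk0]
  rw [hEK]
  by_cases hy : lev u y = lvl k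
  · gcongr
    exact WW_lv hr hg ω hy
  · rw [Hit2569.EK_Sb ω u (by rw [Flux132.lev_zero]; exact_mod_cast Nat.zero_le _) hy, zero_mul,
      zero_mul]

/-! ### near pairs -/

/-- near occupation of the level `l` -/
noncomputable def occ (u : Step 2) (i : Fin 2) (θ : ℝ) (Q : Measure (Environment 2)) (R : ℝ)
    (l : ℕ) : ℝ≥0∞ := ∫⁻ ω, ∑' y : Site 2, ∑' y' : Site 2,
    EK ω (Sb u l) 0 y * EK ω (Sb u l) 0 y' *
      {p : Site 2 × Site 2 | |sl u i θ p.1 - sl u i θ p.2| ≤ R}.indicator 1 (y, y') ∂Q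

theorem WW_NN {k : ℕ} (hk : k ≠ 0) {R : ℝ} (hR : 2 * r ≤ R) :
    (WW u i θ hl kk hχ r).NN ν 0 k ≤ occ u i θ (iidEnvironmentLaw ν) R (lvl k) := by
  classical
  unfold QV766.Win.NN occ
  refine lintegral_mono fun ω => ENNReal.tsum_le_tsum fun y => ENNReal.tsum_le_tsum fun y' => ?_
  rw [WW_S hk]
  by_cases hd : Disjoint ((WW u i θ hl kk hχ r).C k y) ((WW u i θ hl kk hχ r).C k y')
  · rw [if_pos hd]; exact zero_le
  · rw [if_neg hd]
    obtain ⟨z, hz, hz'⟩ := Set.not_disjoint_iff.1 hd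
    have h1 := hz.2.2
    have h2 := hz'.2.2
    have h3 : |sl u i θ y - sl u i θ y'| ≤ R := by
      have e : sl u i θ y - sl u i θ y' =
        (sl u i θ z - sl u i θ y') - (sl u i θ z - sl u i θ y) := by ring
      rw [e]
      refine (abs_sub _ _).trans ?_
      linarith
    rw [Set.indicator_of_mem (by exact h3), Pi.one_apply, mul_one]

theorem WW_NN_one (k : ℕ) : (WW u i θ hl kk hχ r).NN ν 0 k ≤ 1 := by
  classical
  unfold QV766.Win.NN
  calc _ ≤ ∫⁻ _, 1 ∂(iidEnvironmentLaw ν) := by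
        refine lintegral_mono fun ω => ?_
        calc _ ≤ ∑' y : Site 2, ∑' y' : Site 2, EK ω ((WW u i θ hl kk hχ r).S k) 0 y *
              EK ω ((WW u i θ hl kk hχ r).S k) 0 y' := by
              refine ENNReal.tsum_le_tsum fun y => ENNReal.tsum_le_tsum fun y' => ?_
              split_ifs
              · exact zero_le
              · exact le_rfl
          _ = (∑' y : Site 2, EK ω ((WW u i θ hl kk hχ r).S k) 0 y) *
              ∑' y' : Site 2, EK ω ((WW u i θ hl kk hχ r).S k) 0 y' := by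
              simp_rw [ENNReal.tsum_mul_left, ENNReal.tsum_mul_right]
          _ ≤ 1 * 1 := mul_le_mul' (tsum_EK_le ω _ 0) (tsum_EK_le ω _ 0)
          _ = 1 := one_mul 1
    _ = 1 := by simp

/-! ### the theorem on the grid -/

theorem grid_l1 (hH : HitP u ν) (hl : Monotone lvl) (hl0 : lvl 0 = 0)
    (hχ : ∀ j z, 0 ≤ χ j z ∧ χ j z ≤ 1) {n : ℕ} (hkk : ∀ j, 0 < kk j ∧ kk j ≤ n)
    {w : ℝ} (hw : 0 < w)
    (hLip : ∀ j z z', |χ j z - χ j z'| ≤ |sl u i θ z - sl u i θ z'| / w)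
    {h : ℕ} {r δ b : ℝ} (hr : 0 ≤ r) (hδ0 : 0 ≤ δ)
    (hδ : ∀ k < n, ∀ t, pb u i θ (iidEnvironmentLaw ν) t (lvl (k + 1) - lvl k) h r ≤
      ENNReal.ofReal δ)
    (hb : m * ((r + (1 + |θ|) + (r + (1 + |θ|))) / w + δ) ≤ b) (hb1 : b ≤ 1)
    {η : ℝ} (hη0 : 0 ≤ η) (hη : ∀ k, k ≠ 0 → k ≤ n → ∫ ω, E1 (EK ω (Sb u (lvl k)) 0) (fun y =>
      |cndR ν (Sb u (lvl k)) (fun ω => FE u (cutL (fun j => lvl (kk j)) (lvl k))
        (cutχ χ kk k) ω y) ω -
        ∫ η, FE u (cutL (fun j => lvl (kk j)) (lvl k)) (cutχ χ kk k) η y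
          ∂(iidEnvironmentLaw ν)|) ∂(iidEnvironmentLaw ν) ≤ η)
    {R K : ℝ} (hR : 2 * r ≤ R) (hK0 : 0 ≤ K)
    (hocc : ∑ k ∈ Finset.range (n - 1), occ u i θ (iidEnvironmentLaw ν) R (lvl (k + 1)) ≤
      ENNReal.ofReal K) {s : ℝ} (hs : 0 < s) :
    ∫ ω, |FE u (fun j => lvl (kk j)) χ ω 0 - ∫ η, FE u (fun j => lvl (kk j)) χ η 0
      ∂(iidEnvironmentLaw ν)| ∂(iidEnvironmentLaw ν) ≤
      s + (b ^ 2 * (1 + K) + 6 * n * δ + 7 * n * η) / s := by
  have hθ := abs_nonneg θ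
  have hb0 : 0 ≤ b := le_trans (by positivity) hb
  set W := WW u i θ hl kk hχ r with hW
  set v : ℕ → Site 2 → ℝ≥0∞ := fun k y => ENNReal.ofReal (vk lvl kk χ u ν k y) with hv
  set G : Environment 2 → ℝ≥0∞ := fun ω => W.Gb (fun _ => 1) ω n 0 0 with hGd
  have hG1 : ∀ ω, G ω ≤ 1 := fun ω => W.Gb_le_one (fun _ => le_rfl) ω n 0 0
  have hGm : Measurable G := W.meas_Gb n 0 0
  have hFE : ∀ᵐ ω ∂(iidEnvironmentLaw ν), FE u (fun j => lvl (kk j)) χ ω 0 = (G ω).toReal := by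
    filter_upwards [hH] with ω hω
    rw [FEk9.FE_grid hχ hω hl (σ := kk) (fun j => rfl) (k := 0) (p := n) (n := n) (zero_add n)
      (fun j => hkk j) 0, ← WW_Gb (i := i) (θ := θ) (hl := hl) (hχ := hχ) (r := r)]
  have hmean : ∫ η, FE u (fun j => lvl (kk j)) χ η 0 ∂(iidEnvironmentLaw ν) =
      (∫⁻ ω, G ω ∂(iidEnvironmentLaw ν)).toReal := by
    rw [integral_congr_ae hFE, integral_toReal hGm.aemeasurable
      (Filter.Eventually.of_forall fun ω => lt_of_le_of_lt (hG1 ω) ENNReal.one_lt_top)]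
  have hv1 : ∀ k z, v k z ≤ 1 := fun k z => by
    rw [← ENNReal.ofReal_one]
    exact ENNReal.ofReal_le_ofReal (vk_mem hχ k z).2
  have hL : W.Lip n v (fun _ => ENNReal.ofReal b) := WW_lip hH hw hLip hr hδ0 hδ hb hb1
  have hx : (0 : Site 2) ∉ W.S 0 := by
    rw [WW_S0]
    exact Set.notMem_empty _
  have hqv := W.qv (ν := ν) (g := fun _ => 1) (n := n) (fun _ => le_rfl) hv1 hL hx
  set Er : ℝ := b ^ 2 * (1 + K) + 6 * n * δ + 7 * n * η with hEr
  have hEr0 : 0 ≤ Er := by positivity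
  have he1 : ∀ k ≤ n, W.e1 ν n (fun _ => 1) v 0 k ≤ ENNReal.ofReal η := by
    intro k hk
    by_cases hk0 : k = 0
    · subst hk0
      rw [hW, hv, WW_e1_zero hH hl0 (fun j => (hkk j).2)]
      exact zero_le
    · exact WW_e1 hH hk0 hk (fun j => (hkk j).2) (hη k hk0 hk)
  have he0 : W.e1 ν n (fun _ => 1) v 0 0 = 0 := WW_e1_zero hH hl0 fun j => (hkk j).2
  have he2 : ∀ k < n, W.e2 ν 0 k ≤ ENNReal.ofReal δ := fun k hk =>
    (WW_e2 hr hl0 h).trans (hδ k hk _)
  have hNN : ∑ k ∈ Finset.range n, W.NN ν 0 k ≤ 1 + ENNReal.ofReal K := by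
    rcases Nat.eq_zero_or_pos n with h0 | h0
    · rw [h0, Finset.range_zero, Finset.sum_empty]; exact zero_le
    · obtain ⟨n', rfl⟩ : ∃ n', n = n' + 1 := ⟨n - 1, by omega⟩
      rw [Finset.sum_range_succ', add_comm]
      refine add_le_add (WW_NN_one 0) (le_trans ?_ hocc)
      rw [Nat.add_sub_cancel]
      exact Finset.sum_le_sum fun k _ => WW_NN (Nat.succ_ne_zero k) hR
  have hE : ∫⁻ ω, G ω ^ 2 ∂(iidEnvironmentLaw ν) ≤ (∫⁻ ω, G ω ∂(iidEnvironmentLaw ν)) ^ 2 +
      ENNReal.ofReal Er := by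
    refine hqv.trans ?_
    rw [he0, mul_zero, add_zero]
    gcongr
    calc ∑ k ∈ Finset.range n, (ENNReal.ofReal b ^ 2 * W.NN ν 0 k +
          6 * (W.e2 ν 0 k + W.e1 ν n (fun _ => 1) v 0 (k + 1)) + W.e1 ν n (fun _ => 1) v 0 k)
        ≤ ∑ k ∈ Finset.range n, (ENNReal.ofReal b ^ 2 * W.NN ν 0 k +
          (6 * (ENNReal.ofReal δ + ENNReal.ofReal η) + ENNReal.ofReal η)) := by
          refine Finset.sum_le_sum fun k hk => ?_
          have hk' := Finset.mem_range.1 hk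
          rw [add_assoc]
          gcongr
          · exact he2 k hk'
          · exact he1 (k + 1) hk'
          · exact he1 k hk'.le
      _ = ENNReal.ofReal b ^ 2 * ∑ k ∈ Finset.range n, W.NN ν 0 k +
          n * (6 * (ENNReal.ofReal δ + ENNReal.ofReal η) + ENNReal.ofReal η) := by
          rw [Finset.sum_add_distrib, ← Finset.mul_sum, Finset.sum_const, Finset.card_range,
            nsmul_eq_mul]
      _ ≤ ENNReal.ofReal b ^ 2 * (1 + ENNReal.ofReal K) +
          n * (6 * (ENNReal.ofReal δ + ENNReal.ofReal η) + ENNReal.ofReal η) := by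
          gcongr
      _ = ENNReal.ofReal Er := by
          rw [hEr]
          have e6 : (6 : ℝ≥0∞) = ENNReal.ofReal 6 := by
            rw [ENNReal.ofReal_ofNat]
          have en : (n : ℝ≥0∞) = ENNReal.ofReal n := by
            rw [ENNReal.ofReal_natCast]
          rw [e6, en, ← ENNReal.ofReal_one, ← ENNReal.ofReal_pow hb0,
            ← ENNReal.ofReal_add zero_le_one hK0, ← ENNReal.ofReal_mul (by positivity),
            ← ENNReal.ofReal_add hδ0 hη0, ← ENNReal.ofReal_mul (by norm_num),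
            ← ENNReal.ofReal_add (by positivity) hη0, ← ENNReal.ofReal_mul (by positivity),
            ← ENNReal.ofReal_add (by positivity) (by positivity)]
          congr 1
          ring
  have hl1 := QV766.l1_le (P := iidEnvironmentLaw ν) hGm hG1 (t := ENNReal.ofReal s)
    (by rwa [Ne, ENNReal.ofReal_eq_zero, not_le]) ENNReal.ofReal_ne_top hE
  have hm1 : ∫⁻ ω, G ω ∂(iidEnvironmentLaw ν) ≤ 1 := by
    calc ∫⁻ ω, G ω ∂(iidEnvironmentLaw ν) ≤ ∫⁻ _, 1 ∂(iidEnvironmentLaw ν) := lintegral_mono hG1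
      _ = 1 := by simp
  have hint : ∫ ω, |FE u (fun j => lvl (kk j)) χ ω 0 - ∫ η, FE u (fun j => lvl (kk j)) χ η 0
      ∂(iidEnvironmentLaw ν)| ∂(iidEnvironmentLaw ν) =
      (∫⁻ ω, QV766.AD (G ω) (∫⁻ ω, G ω ∂(iidEnvironmentLaw ν))
        ∂(iidEnvironmentLaw ν)).toReal := by
    rw [hmean, integral_eq_lintegral_of_nonneg_ae (Filter.Eventually.of_forall fun ω =>
      abs_nonneg _) (((FEk9.meas_FE hχ 0).sub_const _).abs).aestronglyMeasurable]
    congr 1
    refine lintegral_congr_ae ?_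
    filter_upwards [hFE] with ω hω
    rw [hω]
    exact (FEk9.AD_eq (hG1 ω) hm1).symm
  rw [hint]
  refine ENNReal.toReal_le_of_le_ofReal (by positivity) (hl1.trans (le_of_eq ?_))
  rw [← ENNReal.ofReal_div_of_pos hs, ← ENNReal.ofReal_add hs.le (by positivity)]

end Crest.Agent.R154.D2V36
end

-- ▼ part R154/D2WD_36
section

/-!
# Row 154, `d = 2`, D2.9-END, part D (helper36): marked levels against grid levels; the LLN from the
pure choice of constants
-/

set_option autoImplicit false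
set_option linter.unusedVariables false
set_option linter.unusedSectionVars false

namespace Crest.Agent.R154.D2V36

open MeasureTheory ProbabilityTheory Crest.ProbabilityR.RandomEnvironment Crest.Agent.R154
open Crest.Agent.R154.Flux132 (lev)
open Crest.Agent.R154.ExK9 Crest.Agent.R154.Resamp9
open Crest.Agent.R154.River916 (Ev)
open Crest.Agent.R154.P2916 (sl)
open Crest.Agent.R154.FEk9 (wE wG wE_le_one wG_mem cutL cutχ meas_FE meas_PX abs_FE_le)
open scoped ENNReal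

variable {u : Step 2} {i : Fin 2} {θ : ℝ} {ν : Measure (Row 2)} [IsProbabilityMeasure ν]
variable {m : ℕ} {χ : Fin m → Site 2 → ℝ}

lemma PX_mem (hχ : ∀ j z, 0 ≤ χ j z ∧ χ j z ≤ 1) (L : Fin m → ℕ) (X : Path 2) :
    0 ≤ PX u L χ X ∧ PX u L χ X ≤ 1 := prod_mem _ fun j => hχ j _

/-- quenched expectations are close in mean if the products are close under the annealed law -/
lemma FE_sub_le (hχ : ∀ j z, 0 ≤ χ j z ∧ χ j z ≤ 1) (L L' : Fin m → ℕ) :
    ∫ ω, |FE u L χ ω 0 - FE u L' χ ω 0| ∂(iidEnvironmentLaw ν) ≤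
      ∫ X, |PX u L χ X - PX u L' χ X| ∂annealed (iidEnvironmentLaw ν) 0 := by
  have mD : Measurable fun X : Path 2 => |PX u L χ X - PX u L' χ X| :=
    ((meas_PX L χ).sub (meas_PX L' χ)).abs
  have hD : ∀ X : Path 2, 0 ≤ |PX u L χ X - PX u L' χ X| ∧ |PX u L χ X - PX u L' χ X| ≤ 1 := by
    intro X
    refine ⟨abs_nonneg _, ?_⟩
    have a1 := PX_mem (u := u) hχ L X
    have a2 := PX_mem (u := u) hχ L' X
    rw [abs_le]
    constructor <;> linarith [a1.1, a1.2, a2.1, a2.2]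
  have mF : Measurable fun ω : Environment 2 => |FE u L χ ω 0 - FE u L' χ ω 0| :=
    ((meas_FE hχ 0).sub (meas_FE hχ 0)).abs
  rw [integral_eq_lintegral_of_nonneg_ae (Filter.Eventually.of_forall fun ω => abs_nonneg _)
    mF.aestronglyMeasurable,
    integral_eq_lintegral_of_nonneg_ae (Filter.Eventually.of_forall fun X => abs_nonneg _)
    mD.aestronglyMeasurable]
  refine ENNReal.toReal_mono ?_ ?_
  · refine ne_top_of_le_ne_top ENNReal.one_ne_top ?_
    calc ∫⁻ X, ENNReal.ofReal |PX u L χ X - PX u L' χ X| ∂annealed (iidEnvironmentLaw ν) 0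
        ≤ ∫⁻ _, 1 ∂annealed (iidEnvironmentLaw ν) 0 := lintegral_mono fun X => by
          rw [← ENNReal.ofReal_one]
          exact ENNReal.ofReal_le_ofReal (hD X).2
      _ = 1 := by simp
  · rw [lintegral_annealed (iidEnvironmentLaw ν) 0 mD.ennreal_ofReal]
    refine lintegral_mono fun ω => ?_
    have i1 : Integrable (PX u L χ) (quenchedLaw ω 0) :=
      integrable_unit (meas_PX L χ) (PX_mem hχ L)
    have i2 : Integrable (PX u L' χ) (quenchedLaw ω 0) :=
      integrable_unit (meas_PX L' χ) (PX_mem hχ L')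
    rw [← ofReal_integral_eq_lintegral_ofReal (integrable_unit mD hD)
      (Filter.Eventually.of_forall fun X => abs_nonneg _)]
    refine ENNReal.ofReal_le_ofReal ?_
    unfold FE
    rw [← integral_sub i1 i2]
    exact abs_integral_le_integral_abs

/-- **T5**: marked levels against grid levels below them -/
theorem grid_cmp (hH : HitP u ν) (hχ : ∀ j z, 0 ≤ χ j z ∧ χ j z ≤ 1) {w : ℝ} (hw : 0 < w)
    (hLip : ∀ j z z', |χ j z - χ j z'| ≤ |sl u i θ z - sl u i θ z'| / w) {L L' : Fin m → ℕ}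
    (hLL : ∀ j, L' j ≤ L j) {h : ℕ} {r δ : ℝ} (hr : 0 ≤ r) (hδ0 : 0 ≤ δ)
    (hδ : ∀ j, pb u i θ (iidEnvironmentLaw ν) (L' j) (L j - L' j) h r ≤ ENNReal.ofReal δ) :
    ∫ ω, |FE u L χ ω 0 - FE u L' χ ω 0| ∂(iidEnvironmentLaw ν) ≤
      m * ((0 + (r + (1 + |θ|))) / w + δ) := by
  refine (FE_sub_le hχ L L').trans ?_
  unfold PX
  refine cmp_prod (a := fun j X => χ j (xT u (L j) X)) (b := fun j X => χ j (xT u (L' j) X))
    (fun j => (measurable_of_countable (χ j)).comp (measurable_xT _))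
    (fun j => (measurable_of_countable (χ j)).comp (measurable_xT _))
    (fun j X => hχ j _) (fun j X => hχ j _) fun j => ?_
  refine disp_mean hH (t := L' j) (g := L j - L' j) hr hw le_rfl (hδ j) hδ0
    ((measurable_of_countable (χ j)).comp (measurable_xT _))
    ((measurable_of_countable (χ j)).comp (measurable_xT _))
    (fun X => hχ j _) (fun X => hχ j _) (Filter.Eventually.of_forall fun X => ?_)
  have e : L' j + (L j - L' j) = L j := by
    have := hLL j
    omega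
  rw [e, zero_add]
  exact hLip j _ _

/-- triangle inequality for the `L¹` distance to the mean -/
lemma l1_tri {Ω : Type*} [MeasurableSpace Ω] {P : Measure Ω} [IsProbabilityMeasure P]
    {F F' : Ω → ℝ} (iF : Integrable F P) (iF' : Integrable F' P) {b c : ℝ}
    (h1 : ∫ ω, |F ω - F' ω| ∂P ≤ b) (h2 : ∫ ω, |F' ω - ∫ η, F' η ∂P| ∂P ≤ c) :
    ∫ ω, |F ω - ∫ η, F η ∂P| ∂P ≤ b + c + b := by
  have h3 : |∫ η, F' η ∂P - ∫ η, F η ∂P| ≤ b := by
    rw [← integral_sub iF' iF]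
    refine abs_integral_le_integral_abs.trans ?_
    simp_rw [abs_sub_comm (F' _) (F _)]
    exact h1
  have i1 : Integrable (fun ω => |F ω - F' ω|) P := (iF.sub iF').abs
  have i2 : Integrable (fun ω => |F' ω - ∫ η, F' η ∂P|) P := (iF'.sub (integrable_const _)).abs
  calc ∫ ω, |F ω - ∫ η, F η ∂P| ∂P
      ≤ ∫ ω, (|F ω - F' ω| + |F' ω - ∫ η, F' η ∂P| + b) ∂P := by
        refine integral_mono_of_nonneg (Filter.Eventually.of_forall fun ω => abs_nonneg _)
          ((i1.add i2).add (integrable_const _)) (Filter.Eventually.of_forall fun ω => ?_)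
        show |F ω - ∫ η, F η ∂P| ≤ |F ω - F' ω| + |F' ω - ∫ η, F' η ∂P| + b
        have e : F ω - ∫ η, F η ∂P = (F ω - F' ω) + (F' ω - ∫ η, F' η ∂P) +
            (∫ η, F' η ∂P - ∫ η, F η ∂P) := by ring
        rw [e]
        have a1 := abs_add_le ((F ω - F' ω) + (F' ω - ∫ η, F' η ∂P))
          (∫ η, F' η ∂P - ∫ η, F η ∂P)
        have a2 := abs_add_le (F ω - F' ω) (F' ω - ∫ η, F' η ∂P)
        linarith
    _ = ∫ ω, |F ω - F' ω| ∂P + ∫ ω, |F' ω - ∫ η, F' η ∂P| ∂P + b := by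
        have i3 : Integrable (fun ω => |F ω - F' ω| + |F' ω - ∫ η, F' η ∂P|) P := i1.add i2
        have e1 := integral_add i3 (integrable_const (μ := P) b)
        have e2 := integral_add i1 i2
        rw [e1, e2, integral_const]
        simp
    _ ≤ b + c + b := by linarith

/-! ### the grid -/

/-- grid levels -/
def gl (o h k : ℕ) : ℕ := if k = 0 then 0 else o + (k - 1) * h

lemma gl_zero (o h : ℕ) : gl o h 0 = 0 := rfl

lemma gl_succ (o h k : ℕ) : gl o h (k + 1) = o + k * h := by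
  unfold gl
  rw [if_neg (Nat.succ_ne_zero k), Nat.add_sub_cancel]

lemma gl_mono (o h : ℕ) : Monotone (gl o h) := by
  refine monotone_nat_of_le_succ fun k => ?_
  cases k with
  | zero => rw [gl_zero]; exact Nat.zero_le _
  | succ k =>
    rw [gl_succ, gl_succ, Nat.succ_mul]
    omega

lemma gl_step {o h : ℕ} (ho : o ≤ h) (k : ℕ) : gl o h (k + 1) - gl o h k ≤ h := by
  cases k with
  | zero => rw [gl_zero, gl_succ]; omega
  | succ k =>
    rw [gl_succ, gl_succ, Nat.succ_mul]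
    omega

lemma gl_ge {o h k : ℕ} (hk : k ≠ 0) : o ≤ gl o h k := by
  unfold gl
  rw [if_neg hk]
  omega

/-- grid index below the level `l` -/
def gi (o h l : ℕ) : ℕ := (l - o) / h + 1

lemma gi_le {o h l : ℕ} (ho : o ≤ l) : gl o h (gi o h l) ≤ l := by
  unfold gi
  rw [gl_succ]
  have := Nat.div_mul_le_self (l - o) h
  omega

lemma gi_sub {o h l : ℕ} (ho : o ≤ l) (hh : 0 < h) : l - gl o h (gi o h l) ≤ h := by
  unfold gi
  rw [gl_succ]
  have h1 := Nat.lt_div_mul_add (a := l - o) hh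
  omega

lemma gi_mono (o h : ℕ) : Monotone (gi o h) := fun a b hab =>
  Nat.succ_le_succ (Nat.div_le_div_right (Nat.sub_le_sub_right hab o))

lemma gi_le_n {o h l n : ℕ} (hh : 0 < h) (hl : l < n * h) : gi o h l ≤ n := by
  unfold gi
  have : (l - o) / h < n := (Nat.div_lt_iff_lt_mul hh).2 (lt_of_le_of_lt (Nat.sub_le _ _) hl)
  omega

end Crest.Agent.R154.D2V36
end

-- ▼ part R154/Off_9
section

/-!
# Row 154, helper9, `d = 2`: choice of the offset of a grid by averaging (36's (P3))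
-/

set_option autoImplicit false
set_option linter.unusedVariables false

namespace Crest.Agent.R154.Off9

open scoped ENNReal

theorem offset (f : ℕ → ENNReal) {h n N : ℕ} (hh : 1 ≤ h) (hn : 1 ≤ n) (hN : (n - 1) * h < N) :
    ∃ o : ℕ, h < 2 * o ∧ o ≤ h ∧
      (h : ENNReal) * ∑ k ∈ Finset.range (n - 1), f (o + k * h) ≤
        2 * ∑ l ∈ Finset.range N, f l := by
  classical
  set T : ENNReal := ∑ l ∈ Finset.range N, f l with hT
  set O : Finset ℕ := Finset.Ioc (h / 2) h with hO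
  have hmem : ∀ o ∈ O, h < 2 * o ∧ o ≤ h := by
    intro o ho
    have := Finset.mem_Ioc.1 ho
    omega
  have hcard : h ≤ 2 * O.card := by
    rw [hO, Nat.card_Ioc]
    omega
  have hne : O.Nonempty := ⟨h, Finset.mem_Ioc.2 ⟨by omega, le_rfl⟩⟩
  -- the double sum is below `T`
  have hsum : ∑ o ∈ O, ∑ k ∈ Finset.range (n - 1), f (o + k * h) ≤ T := by
    rw [← Finset.sum_product']
    have hinj : Set.InjOn (fun p : ℕ × ℕ => p.1 + p.2 * h) (O ×ˢ Finset.range (n - 1) : Finset _) := by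
      rintro ⟨o, k⟩ hp ⟨o', k'⟩ hp' he
      have h1 := Finset.mem_product.1 (Finset.mem_coe.1 hp)
      have h2 := Finset.mem_product.1 (Finset.mem_coe.1 hp')
      have a1 := Finset.mem_Ioc.1 h1.1
      have a2 := Finset.mem_Ioc.1 h2.1
      simp only at he a1 a2
      have e1 : o + k * h = o' + k' * h := he
      have hkk : k = k' := by
        rcases lt_trichotomy k k' with hlt | heq | hgt
        · exfalso
          have : (k + 1) * h ≤ k' * h := Nat.mul_le_mul_right h hlt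
          have : k * h + h ≤ k' * h := by rw [Nat.succ_mul] at this; exact this
          omega
        · exact heq
        · exfalso
          have : (k' + 1) * h ≤ k * h := Nat.mul_le_mul_right h hgt
          have : k' * h + h ≤ k * h := by rw [Nat.succ_mul] at this; exact this
          omega
      subst hkk
      have : o = o' := by omega
      rw [this]
    rw [← Finset.sum_image (f := f) hinj]
    refine Finset.sum_le_sum_of_subset ?_
    intro l hl
    obtain ⟨⟨o, k⟩, hp, rfl⟩ := Finset.mem_image.1 hl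
    have h1 := Finset.mem_product.1 hp
    have a1 := Finset.mem_Ioc.1 h1.1
    have a2 := Finset.mem_range.1 h1.2
    simp only at a1 a2
    refine Finset.mem_range.2 ?_
    show o + k * h < N
    have : (k + 1) * h ≤ (n - 1) * h := Nat.mul_le_mul_right h a2
    have : k * h + h ≤ (n - 1) * h := by rw [Nat.succ_mul] at this; exact this
    omega
  by_contra hcon
  push Not at hcon
  have hlt : ∑ _o ∈ O, 2 * T < ∑ o ∈ O, (h : ENNReal) * ∑ k ∈ Finset.range (n - 1),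
      f (o + k * h) :=
    ENNReal.sum_lt_sum_of_nonempty hne fun o ho => hcon o (hmem o ho).1 (hmem o ho).2
  rw [Finset.sum_const, nsmul_eq_mul, ← Finset.mul_sum] at hlt
  have h1 : (h : ENNReal) * T ≤ (O.card : ENNReal) * (2 * T) := by
    rw [← mul_assoc]
    gcongr
    have : ((h : ℕ) : ENNReal) ≤ ((2 * O.card : ℕ) : ENNReal) := by exact_mod_cast hcard
    calc (h : ENNReal) ≤ ((2 * O.card : ℕ) : ENNReal) := this
      _ = (O.card : ENNReal) * 2 := by push_cast; ring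
  have h2 : (h : ENNReal) * ∑ o ∈ O, ∑ k ∈ Finset.range (n - 1), f (o + k * h) ≤
      (h : ENNReal) * T := by gcongr
  exact absurd (lt_of_lt_of_le hlt h2) (not_lt.2 h1)

end Crest.Agent.R154.Off9
end

-- ▼ part R154/D2W_36
section

/-!
# Row 154, `d = 2`, D2.9-END (helper36): the quenched law of large numbers `LLN`
-/

set_option autoImplicit false
set_option linter.unusedVariables false
set_option linter.unusedSectionVars false

namespace Crest.Agent.R154.D2V36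

open MeasureTheory ProbabilityTheory Crest.ProbabilityR.RandomEnvironment Crest.Agent.R154
open Crest.Agent.R154.Flux132 (lev)
open Crest.Agent.R154.ExK9 Crest.Agent.R154.Resamp9
open Crest.Agent.R154.River916 (Ev)
open Crest.Agent.R154.P2916 (sl)
open Crest.Agent.R154.FEk9 (wE wG wE_le_one wG_mem cutL cutχ meas_FE meas_PX abs_FE_le)
open scoped ENNReal

variable {u : Step 2} {i : Fin 2} {θ : ℝ} {ν : Measure (Row 2)} [IsProbabilityMeasure ν]

/-- the pure choice of the constants -/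
def ConstsP : Prop := ∀ (m : ℕ) {Λ Cs Cl cl Co c0 : ℝ}, 0 < Λ → 0 < Cs → 0 < Cl → 0 < cl →
  0 < Co → 0 < c0 → ∀ {ε : ℝ}, 0 < ε → ∃ (A : ℝ) (n : ℕ) (a δ b : ℝ), 1 ≤ A ∧ 2 * m + 2 ≤ n ∧
  0 < a ∧ a ≤ 1 ∧ 2 * (A * (Cs / Real.sqrt n)) ≤ a ∧ Cl * Real.exp (-(cl * A)) < δ ∧
  0 < b ∧ b ≤ 1 ∧ b ≤ ε ∧ m * (Λ * (3 * (A * (Cs / Real.sqrt n))) + δ) ≤ b ∧
  b ^ 2 * (1 + 2 * n * (Co * a ^ c0)) + 6 * n * δ ≤ ε

lemma aux7 {n ε : ℝ} (hn : 0 < n) : 7 * n * (ε ^ 2 / (32 * (7 * n))) = ε ^ 2 / 32 := by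
  field_simp

lemma aux8 {x W Λ : ℝ} (hW : 0 < W) (hΛ : 0 < Λ) : Λ * (x / W) = x / (W / Λ) := by
  field_simp

set_option maxHeartbeats 1000000 in
theorem lln_of (hC : ConstsP) {wd : ℕ → ℕ} (hO : OccP u i θ ν wd) (hSc : ScaleP wd)
    (hSl : SlabP u i θ ν wd) (hRe : ResidP u i θ ν) (hH : HitP u ν)
    (hwd : Filter.Tendsto wd Filter.atTop Filter.atTop) : LLN u i θ ν wd := by
  intro m χ Λ hχ hΛ ε hε
  have hθ := abs_nonneg θ
  obtain ⟨Co, c0, hCo, hc0, hO⟩ := hO
  obtain ⟨Cs, hCs, hSc⟩ := hSc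
  obtain ⟨Cl, cl, hCl, hcl, hSl⟩ := hSl
  set Λ' : ℝ := |Λ| + 1 with hΛ'd
  have hΛ' : 0 < Λ' := by positivity
  have hε' : 0 < min (ε ^ 2 / 32) (ε / 8) := by positivity
  obtain ⟨A, n, a, δ, b, hA, hn, ha, ha1, h2a, hδ, hb0, hb1, hbε, hmb, hE⟩ :=
    hC m hΛ' hCs hCl hcl hCo hc0 hε'
  have hn1 : 1 ≤ n := by omega
  have hn0 : (0 : ℝ) < n := by exact_mod_cast hn1
  have hsn : 0 < Real.sqrt n := Real.sqrt_pos.2 hn0
  have hδ0 : 0 ≤ δ := le_trans (by positivity) hδ.le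
  set η : ℝ := ε ^ 2 / (32 * (7 * n)) with hη
  have hη0 : 0 < η := by positivity
  set q : ℝ := A * (Cs / Real.sqrt n) with hq
  have hq0 : 0 < q := by positivity
  obtain ⟨h0, hSl⟩ := hSl A hA (δ - Cl * Real.exp (-(cl * A))) (by linarith)
  have hSl' : ∀ h ≥ h0, ∀ l g : ℕ, g ≤ h →
      pb u i θ (iidEnvironmentLaw ν) l g h (A * wd h) ≤ ENNReal.ofReal δ := by
    intro h hh l g hg
    have h1 := hSl h hh l g hg
    rw [show Cl * Real.exp (-(cl * A)) + (δ - Cl * Real.exp (-(cl * A))) = δ by ring] at h1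
    exact h1
  obtain ⟨N1, hSc⟩ := hSc n hn1
  obtain ⟨N2, hO⟩ := hO a ha ha1
  obtain ⟨l0, w0, hw0, hRe⟩ := hRe m η hη0
  obtain ⟨N3, hN3⟩ := Filter.eventually_atTop.1 ((Filter.tendsto_atTop.1
    (tendsto_natCast_atTop_atTop.comp hwd : Filter.Tendsto (fun N => ((wd N : ℕ) : ℝ))
      Filter.atTop Filter.atTop)) (max (Λ' * w0) (max (2 * (1 + |θ|) / q) 1)))
  refine ⟨max (max N1 N2) (max N3 (n * max (max h0 (2 * l0)) n)), fun H hHH => ?_⟩
  have hHN1 : N1 ≤ H := le_trans (le_trans (le_max_left _ _) (le_max_left _ _)) hHH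
  have hHN2 : N2 ≤ H := le_trans (le_trans (le_max_right _ _) (le_max_left _ _)) hHH
  have hHN3 : N3 ≤ H := le_trans (le_trans (le_max_left _ _) (le_max_right _ _)) hHH
  have hHn : n * max (max h0 (2 * l0)) n ≤ H :=
    le_trans (le_trans (le_max_right _ _) (le_max_right _ _)) hHH
  have hq' : max (max h0 (2 * l0)) n ≤ H / n := by
    rw [Nat.le_div_iff_mul_le (by omega), mul_comm]
    exact hHn
  have hqh0 : h0 ≤ H / n := le_trans (le_trans (le_max_left _ _) (le_max_left _ _)) hq'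
  have hql0 : 2 * l0 ≤ H / n := le_trans (le_trans (le_max_right _ _) (le_max_left _ _)) hq'
  have hqn : n ≤ H / n := le_trans (le_max_right _ _) hq'
  -- the width
  have hw3 := hN3 H hHN3
  have hW1 : Λ' * w0 ≤ (wd H : ℝ) := le_trans (le_max_left _ _) hw3
  have hW2 : 2 * (1 + |θ|) / q ≤ (wd H : ℝ) :=
    le_trans (le_trans (le_max_left _ _) (le_max_right _ _)) hw3
  have hW3 : (1 : ℝ) ≤ (wd H : ℝ) :=
    le_trans (le_trans (le_max_right _ _) (le_max_right _ _)) hw3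
  have hW0 : (0 : ℝ) < (wd H : ℝ) := by linarith
  have hW2' : 2 * (1 + |θ|) ≤ q * wd H := by
    rw [div_le_iff₀ hq0] at hW2
    linarith
  -- slabs
  set h : ℕ := H / n + 1 with hh
  have hh1 : 1 ≤ h := by omega
  have hHnh : H < n * h := Nat.lt_mul_div_succ H (by omega)
  have hnH : n * (H / n) ≤ H := Nat.mul_div_le H n
  have hN : (n - 1) * h < H := by
    obtain ⟨n', rfl⟩ : ∃ n', n = n' + 1 := ⟨n - 1, by omega⟩
    rw [Nat.add_sub_cancel, hh]
    have e1 : (n' + 1) * (H / (n' + 1)) = n' * (H / (n' + 1)) + H / (n' + 1) := by ring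
    have e2 : n' * (H / (n' + 1) + 1) = n' * (H / (n' + 1)) + n' := by ring
    omega
  obtain ⟨o, ho1, ho2, hoff⟩ := Off9.offset
    (fun l => occ u i θ (iidEnvironmentLaw ν) (a * wd H) l) hh1 hn1 hN
  have hol0 : l0 ≤ o := by omega
  set r : ℝ := A * wd h with hr
  have hr0 : 0 ≤ r := by positivity
  have hrq : r ≤ q * wd H := by
    have h1 := hSc H hHN1
    rw [hr, hq, mul_assoc]
    exact mul_le_mul_of_nonneg_left h1 (by linarith)
  set w : ℝ := wd H / Λ' with hw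
  have hw0' : 0 < w := by positivity
  have hww : w0 ≤ w := by
    rw [hw, le_div_iff₀ hΛ', mul_comm]
    exact hW1
  -- functions
  set ψ : Fin m → Site 2 → ℝ := fun j z => χ j (sl u i θ z / wd H) with hψ
  have hψ1 : ∀ j z, 0 ≤ ψ j z ∧ ψ j z ≤ 1 := fun j z => hχ j _
  have hψL : ∀ j z z', |ψ j z - ψ j z'| ≤ |sl u i θ z - sl u i θ z'| / w := by
    intro j z z'
    have h1 := hΛ j (sl u i θ z / wd H) (sl u i θ z' / wd H)
    have h2 : Λ * |sl u i θ z / wd H - sl u i θ z' / wd H| ≤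
        Λ' * |sl u i θ z / wd H - sl u i θ z' / wd H| :=
      mul_le_mul_of_nonneg_right (le_trans (le_abs_self Λ) (by rw [hΛ'd]; linarith))
        (abs_nonneg _)
    refine h1.trans (h2.trans (le_of_eq ?_))
    rw [← sub_div, abs_div, abs_of_pos hW0, hw]
    exact aux8 hW0 hΛ'
  -- marks
  set L : Fin m → ℕ := fun j => ((j : ℕ) + 1) * H / m with hL
  have hLmono : Monotone L := by
    intro j j' hjj
    have : (j : ℕ) ≤ j' := hjj
    exact Nat.div_le_div_right (Nat.mul_le_mul_right H (by omega))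
  have hLo : ∀ j, o ≤ L j := by
    intro j
    have hm : 0 < m := Fin.pos j
    refine ho2.trans ?_
    rw [hL, Nat.le_div_iff_mul_le hm, hh]
    calc (H / n + 1) * m ≤ (H / n + H / n) * m := by
          refine Nat.mul_le_mul_right m ?_
          omega
      _ = 2 * m * (H / n) := by ring
      _ ≤ n * (H / n) := Nat.mul_le_mul_right _ (by omega)
      _ ≤ H := hnH
      _ ≤ ((j : ℕ) + 1) * H := Nat.le_mul_of_pos_left H (Nat.succ_pos _)
  have hLH : ∀ j, L j ≤ H := by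
    intro j
    have hm : 0 < m := Fin.pos j
    rw [hL]
    refine Nat.div_le_of_le_mul ?_
    exact Nat.mul_le_mul_right H (by have := j.2; omega)
  set kk : Fin m → ℕ := fun j => gi o h (L j) with hkk
  have hkkn : ∀ j, 0 < kk j ∧ kk j ≤ n := fun j =>
    ⟨Nat.succ_pos _, gi_le_n (by omega) (lt_of_le_of_lt (hLH j) hHnh)⟩
  have hkkm : Monotone kk := fun j j' hjj => gi_mono o h (hLmono hjj)
  -- the grid theorem
  have hpb : ∀ k < n, ∀ t, pb u i θ (iidEnvironmentLaw ν) t (gl o h (k + 1) - gl o h k) h r ≤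
      ENNReal.ofReal δ := fun k _ t => hSl' h (by omega) t _ (gl_step ho2 k)
  have hb' : m * ((r + (1 + |θ|) + (r + (1 + |θ|))) / w + δ) ≤ b := by
    refine le_trans ?_ hmb
    have h1 : (r + (1 + |θ|) + (r + (1 + |θ|))) / w ≤ Λ' * (3 * q) := by
      rw [hw, div_div_eq_mul_div, div_le_iff₀ hW0]
      have h2 : r + (1 + |θ|) + (r + (1 + |θ|)) ≤ 3 * (q * wd H) := by linarith
      calc (r + (1 + |θ|) + (r + (1 + |θ|))) * Λ' ≤ 3 * (q * wd H) * Λ' :=
            mul_le_mul_of_nonneg_right h2 hΛ'.le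
        _ = Λ' * (3 * q) * wd H := by ring
    have hm0 : (0 : ℝ) ≤ m := Nat.cast_nonneg m
    exact mul_le_mul_of_nonneg_left (by linarith) hm0
  have hocc : ∑ k ∈ Finset.range (n - 1), occ u i θ (iidEnvironmentLaw ν) (a * wd H)
      (gl o h (k + 1)) ≤ ENNReal.ofReal (2 * n * (Co * a ^ c0)) := by
    have h1 := hO H hHN2
    have h1' : ∑ l ∈ Finset.range H, occ u i θ (iidEnvironmentLaw ν) (a * wd H) l ≤
        ENNReal.ofReal (Co * a ^ c0 * H) := h1
    have hhR : (0 : ℝ) < h := by exact_mod_cast hh1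
    have hh0 : (h : ℝ≥0∞) ≠ 0 := by exact_mod_cast (by omega : h ≠ 0)
    have hac : 0 ≤ a ^ c0 := Real.rpow_nonneg ha.le c0
    simp_rw [gl_succ]
    refine (ENNReal.mul_le_mul_iff_right hh0 (ENNReal.natCast_ne_top h)).1 ?_
    refine hoff.trans ?_
    calc 2 * ∑ l ∈ Finset.range H, occ u i θ (iidEnvironmentLaw ν) (a * wd H) l
        ≤ 2 * ENNReal.ofReal (Co * a ^ c0 * H) := by gcongr
      _ = ENNReal.ofReal (2 * (Co * a ^ c0 * H)) := by
          rw [ENNReal.ofReal_mul (p := 2) (by norm_num), ENNReal.ofReal_ofNat]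
      _ ≤ ENNReal.ofReal (h * (2 * n * (Co * a ^ c0))) := by
          refine ENNReal.ofReal_le_ofReal ?_
          have h2 : (H : ℝ) ≤ n * h := by exact_mod_cast hHnh.le
          have h3 : 0 ≤ 2 * (Co * a ^ c0) := by positivity
          nlinarith
      _ = h * ENNReal.ofReal (2 * n * (Co * a ^ c0)) := by
          rw [ENNReal.ofReal_mul hhR.le, ENNReal.ofReal_natCast]
  have hgrid := grid_l1 (u := u) (i := i) (θ := θ) (ν := ν) hH (gl_mono o h) (gl_zero o h)
    hψ1 hkkn hw0' hψL hr0 hδ0 hpb hb' hb1 hη0.le (fun k hk0 hkn => by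
      refine hRe w hww (gl o h k) (hol0.trans (gl_ge hk0)) _
        (FEk9.cutL_mono ((gl_mono o h).comp hkkm) _) (FEk9.le_cutL _ _) _
        (FEk9.cutχ_mem hψ1 kk k) fun j z z' => ?_
      unfold cutχ
      split_ifs
      · exact hψL j z z'
      · rw [sub_self, abs_zero]
        positivity)
    (R := a * wd H) (K := 2 * n * (Co * a ^ c0)) (by
      have : 2 * r ≤ 2 * q * wd H := by linarith
      exact this.trans (mul_le_mul_of_nonneg_right h2a hW0.le)) (by positivity) hocc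
    (s := ε / 4) (by linarith)
  have hcmp : ∫ ω, |FE u L ψ ω 0 - FE u (fun j => gl o h (kk j)) ψ ω 0|
      ∂(iidEnvironmentLaw ν) ≤ b := by
    refine (grid_cmp (L := L) (L' := fun j => gl o h (kk j)) (h := h) hH hψ1 hw0' hψL
      (fun j => gi_le (hLo j)) hr0 hδ0
      (fun j => hSl' h (by omega) _ _ (gi_sub (hLo j) (by omega)))).trans (le_trans ?_ hb')
    have hm0 : (0 : ℝ) ≤ m := Nat.cast_nonneg m
    refine mul_le_mul_of_nonneg_left ?_ hm0
    gcongr
    linarith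
  have iF : ∀ L : Fin m → ℕ, Integrable (fun ω => FE u L ψ ω 0) (iidEnvironmentLaw ν) := fun L =>
    integrable_unit (meas_FE hψ1 0) fun ω => ⟨FEk9.FE_nonneg hψ1 ω 0, FEk9.FE_le_one hψ1 ω 0⟩
  have hfin := l1_tri (iF L) (iF fun j => gl o h (kk j)) hcmp hgrid
  refine hfin.trans ?_
  have hb8 : b ≤ ε / 8 := hbε.trans (min_le_right _ _)
  have h7 : 7 * n * η = ε ^ 2 / 32 := aux7 hn0
  have hE' : b ^ 2 * (1 + 2 * n * (Co * a ^ c0)) + 6 * n * δ + 7 * n * η ≤ ε ^ 2 / 16 := by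
    have := hE.trans (min_le_left _ _)
    rw [h7]
    linarith
  have hq4 : (b ^ 2 * (1 + 2 * n * (Co * a ^ c0)) + 6 * n * δ + 7 * n * η) / (ε / 4) ≤ ε / 4 := by
    rw [div_le_iff₀ (by linarith)]
    linarith [sq ε]
  linarith

end Crest.Agent.R154.D2V36
end

-- ▼ part R154/D2WK_36

/-!
# Row 154, `d = 2`, D2.9-END (helper36): the pure choice of the constants
-/

set_option autoImplicit false

namespace Crest.Agent.R154.D2V36

open Filter Topology

lemma tendsto_pow_exp {c : ℝ} (hc : 0 < c) (k : ℕ) (K : ℝ) :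
    Tendsto (fun t : ℕ => K * ((t : ℝ) ^ k * Real.exp (-(c * t)))) atTop (𝓝 0) := by
  have h1 := (Real.tendsto_pow_mul_exp_neg_atTop_nhds_zero k).comp
    ((tendsto_natCast_atTop_atTop (R := ℝ)).const_mul_atTop hc)
  have h2 := h1.const_mul (K / c ^ k)
  rw [mul_zero] at h2
  refine h2.congr fun t => ?_
  simp only [Function.comp]
  have hck : c ^ k ≠ 0 := by positivity
  rw [mul_pow]
  field_simp

lemma tendsto_inv_pow' {k : ℕ} (hk : k ≠ 0) (K : ℝ) :
    Tendsto (fun t : ℕ => K / (t : ℝ) ^ k) atTop (𝓝 0) :=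
  Tendsto.const_div_atTop ((tendsto_pow_atTop hk).comp (tendsto_natCast_atTop_atTop (R := ℝ))) K

theorem consts36 (m : ℕ) {Λ Cs Cl cl Co c0 : ℝ} (hΛ : 0 < Λ) (hCs : 0 < Cs) (hCl : 0 < Cl)
    (hcl : 0 < cl) (hCo : 0 < Co) (hc0 : 0 < c0) {ε : ℝ} (hε : 0 < ε) :
    ∃ (A : ℝ) (n : ℕ) (a δ b : ℝ), 1 ≤ A ∧ 2 * m + 2 ≤ n ∧
      0 < a ∧ a ≤ 1 ∧ 2 * (A * (Cs / Real.sqrt n)) ≤ a ∧ Cl * Real.exp (-(cl * A)) < δ ∧
      0 < b ∧ b ≤ 1 ∧ b ≤ ε ∧ m * (Λ * (3 * (A * (Cs / Real.sqrt n))) + δ) ≤ b ∧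
      b ^ 2 * (1 + 2 * n * (Co * a ^ c0)) + 6 * n * δ ≤ ε := by
  obtain ⟨P0, hP0⟩ := exists_nat_ge (3 / c0)
  set P : ℕ := P0 + 1 with hP
  have hP1 : P ≠ 0 := Nat.succ_ne_zero _
  have hPc : 3 ≤ P * c0 := by
    have h1 : 3 / c0 ≤ (P : ℝ) := by rw [hP]; push_cast; linarith
    rwa [div_le_iff₀ hc0] at h1
  set Kb : ℝ := m * (3 * Λ * Cs + 1) + 1 with hKb
  have hm0 : (0 : ℝ) ≤ m := Nat.cast_nonneg m
  have hKb0 : 0 < Kb := by positivity
  set K2 : ℝ := 2 * Kb ^ 2 * Co * (2 * Cs) ^ c0 with hK2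
  have hCs2 : 0 < (2 * Cs) ^ c0 := Real.rpow_pos_of_pos (by positivity) _
  have ev1 := (tendsto_pow_exp hcl P (2 * Cl)).eventually (ge_mem_nhds (zero_lt_one))
  have ev2 := (tendsto_inv_pow' hP1 Kb).eventually
    (ge_mem_nhds (show (0 : ℝ) < min 1 (ε / 3) by positivity))
  have ev3 := (tendsto_inv_pow' one_ne_zero K2).eventually
    (ge_mem_nhds (show (0 : ℝ) < ε / 3 by positivity))
  have ev4 := (tendsto_pow_exp hcl (2 * P + 2) (12 * Cl)).eventually
    (ge_mem_nhds (show (0 : ℝ) < ε / 3 by positivity))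
  have ev5 := (tendsto_inv_pow' hP1 (2 * Cs)).eventually (ge_mem_nhds (zero_lt_one))
  obtain ⟨t, h1, h2, h3, h4, h5, h6⟩ := (ev1.and (ev2.and (ev3.and (ev4.and (ev5.and
    (eventually_ge_atTop (2 * m + 2))))))).exists
  have ht1 : (1 : ℝ) ≤ t := by
    have : 1 ≤ t := by omega
    exact_mod_cast this
  have ht0 : (0 : ℝ) < t := by linarith
  have htP : (0 : ℝ) < (t : ℝ) ^ P := by positivity
  have hsq : Real.sqrt ((t ^ (2 * P + 2) : ℕ) : ℝ) = (t : ℝ) ^ (P + 1) := by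
    push_cast
    rw [show 2 * P + 2 = (P + 1) * 2 by ring, pow_mul, Real.sqrt_sq (by positivity)]
  have hq : (t : ℝ) * (Cs / Real.sqrt ((t ^ (2 * P + 2) : ℕ) : ℝ)) = Cs / (t : ℝ) ^ P := by
    rw [hsq, pow_succ]
    field_simp
  have hexp := Real.exp_pos (-(cl * t))
  refine ⟨t, t ^ (2 * P + 2), 2 * Cs / (t : ℝ) ^ P, 2 * Cl * Real.exp (-(cl * t)),
    Kb / (t : ℝ) ^ P, ht1, ?_, by positivity, h5, ?_, ?_, by positivity,
    h2.trans (min_le_left _ _), ?_, ?_, ?_⟩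
  · exact h6.trans (Nat.le_self_pow (by omega) t)
  · rw [hq, mul_div_assoc]
  · nlinarith
  · have := h2.trans (min_le_right _ _)
    linarith
  · rw [hq]
    have e1 : 2 * Cl * Real.exp (-(cl * t)) ≤ 1 / (t : ℝ) ^ P := by
      rw [le_div_iff₀ htP]
      have : 2 * Cl * ((t : ℝ) ^ P * Real.exp (-(cl * t))) ≤ 1 := h1
      linarith
    have e2 : Λ * (3 * (Cs / (t : ℝ) ^ P)) + 2 * Cl * Real.exp (-(cl * t)) ≤
        (3 * Λ * Cs + 1) / (t : ℝ) ^ P := by
      have e3 : (3 * Λ * Cs + 1) / (t : ℝ) ^ P = Λ * (3 * (Cs / (t : ℝ) ^ P)) + 1 / (t : ℝ) ^ P := by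
        field_simp
      rw [e3]
      linarith
    calc m * (Λ * (3 * (Cs / (t : ℝ) ^ P)) + 2 * Cl * Real.exp (-(cl * t)))
        ≤ m * ((3 * Λ * Cs + 1) / (t : ℝ) ^ P) := mul_le_mul_of_nonneg_left e2 hm0
      _ = (m * (3 * Λ * Cs + 1)) / (t : ℝ) ^ P := by rw [mul_div_assoc]
      _ ≤ Kb / (t : ℝ) ^ P := by
          refine div_le_div_of_nonneg_right ?_ htP.le
          rw [hKb]; linarith
  · have hb1 : Kb / (t : ℝ) ^ P ≤ 1 := h2.trans (min_le_left _ _)
    have hb3 : Kb / (t : ℝ) ^ P ≤ ε / 3 := h2.trans (min_le_right _ _)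
    have hb0 : 0 < Kb / (t : ℝ) ^ P := by positivity
    have hbb : (Kb / (t : ℝ) ^ P) ^ 2 ≤ ε / 3 := by nlinarith
    have hac : (2 * Cs / (t : ℝ) ^ P) ^ c0 ≤ (2 * Cs) ^ c0 / (t : ℝ) ^ 3 := by
      rw [Real.div_rpow (by positivity) (by positivity)]
      refine div_le_div_of_nonneg_left hCs2.le (by positivity) ?_
      rw [← Real.rpow_natCast (t : ℝ) P, ← Real.rpow_mul ht0.le, ← Real.rpow_natCast (t : ℝ) 3]
      refine Real.rpow_le_rpow_of_exponent_le ht1 ?_
      push_cast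
      exact hPc
    have hmain : (Kb / (t : ℝ) ^ P) ^ 2 * (2 * ((t ^ (2 * P + 2) : ℕ) : ℝ) *
        (Co * (2 * Cs / (t : ℝ) ^ P) ^ c0)) ≤ K2 / (t : ℝ) ^ 1 := by
      calc (Kb / (t : ℝ) ^ P) ^ 2 * (2 * ((t ^ (2 * P + 2) : ℕ) : ℝ) *
            (Co * (2 * Cs / (t : ℝ) ^ P) ^ c0))
          ≤ (Kb / (t : ℝ) ^ P) ^ 2 * (2 * ((t ^ (2 * P + 2) : ℕ) : ℝ) *
            (Co * ((2 * Cs) ^ c0 / (t : ℝ) ^ 3))) := by gcongr
        _ = K2 / (t : ℝ) ^ 1 := by
            have e7 : (t : ℝ) ^ (2 * P + 2) = ((t : ℝ) ^ P) ^ 2 * (t : ℝ) ^ 2 := by ring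
            rw [hK2]
            push_cast
            rw [e7]
            field_simp
    have h3' : K2 / (t : ℝ) ^ 1 ≤ ε / 3 := h3
    have h4' : 12 * Cl * ((t : ℝ) ^ (2 * P + 2) * Real.exp (-(cl * t))) ≤ ε / 3 := h4
    have e6 : 6 * ((t ^ (2 * P + 2) : ℕ) : ℝ) * (2 * Cl * Real.exp (-(cl * t))) =
        12 * Cl * ((t : ℝ) ^ (2 * P + 2) * Real.exp (-(cl * t))) := by
      push_cast
      ring
    rw [e6, mul_add, mul_one]
    linarith

end Crest.Agent.R154.D2V36
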