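import Crest.Agent.R154.KExp_402

/-!
Row 154, block B7 in the frame: tests stopped when their own annealed conditional success
probability drops below `s` (walk-space form of the stopped explorations of helper923).
-/

set_option autoImplicit false
set_option linter.unusedSectionVars false

namespace Crest.Agent.R154

open MeasureTheory ProbabilityTheory Crest.ProbabilityR.RandomEnvironment
open scoped ENNReal

namespace Dip

open KExp WalkSpace

variable {d : ℕ} {Ω : Type} [MeasurableSpace Ω] (W : WalkSpace d Ω)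
  (μ : Measure Ω) (G : Set Ω) (s : ℝ≥0∞)

/-- the annealed conditional success probability at time `n` is below `s`. -/
def low (n : ℕ) (X : Ω) : Prop := μ (G ∩ W.cyl X n) < s * μ (W.cyl X n)

/-- first time at which the conditional success probability is below `s`. -/
noncomputable def dip (X : Ω) : ℕ∞ := fst fun n => low W μ G s n X

lemma cyl_congr {n : ℕ} {X Y : Ω} (h : W.hist n X = W.hist n Y) : W.cyl X n = W.cyl Y n := by
  ext Z
  simp only [WalkSpace.cyl, Set.mem_ofPred_eq, h]

lemma low_congr {n : ℕ} {X Y : Ω} (h : W.hist n X = W.hist n Y) :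
    low W μ G s n X ↔ low W μ G s n Y := by
  unfold low
  rw [cyl_congr W h]

lemma isStop_dip : W.IsStop (dip W μ G s) :=
  isStop_fst W fun _ _ _ h => low_congr W μ G s h

lemma good_before {n : ℕ} {X : Ω} (h : (n : ℕ∞) < dip W μ G s X) :
    s * μ (W.cyl X n) ≤ μ (G ∩ W.cyl X n) :=
  not_lt.1 (not_of_lt_fst h)

lemma low_of_dip_eq {n : ℕ} {X : Ω} (h : dip W μ G s X = n) : low W μ G s n X := by
  by_contra hn
  have h1 : ((n + 1 : ℕ) : ℕ∞) ≤ dip W μ G s X := by
    by_contra hlt
    rw [not_le] at hlt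
    obtain ⟨m, hm, hp⟩ := fst_exists hlt
    have hm' : m < n + 1 := by exact_mod_cast hm
    have h2 : dip W μ G s X ≤ m := fst_le hp
    rw [h] at h2
    have h3 : n ≤ m := by exact_mod_cast h2
    have : m = n := by omega
    rw [this] at hp
    exact hn hp
  rw [h] at h1
  have : n + 1 ≤ n := by exact_mod_cast h1
  omega

/-- the success probability lost by stopping. -/
theorem dip_loss [IsProbabilityMeasure μ] :
    μ (G ∩ {X | dip W μ G s X < ⊤}) ≤ s := by
  have hS : W.IsStop (dip W μ G s) := isStop_dip W μ G s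
  have hm : MeasurableSet {X | dip W μ G s X < ⊤} := W.measurableSet_stop_lt hS
  have hdet : W.DetBy (dip W μ G s) (fun _ : Ω => (1 : ℝ≥0∞)) := fun _ _ _ _ _ => rfl
  have e1 := W.lintegral_stop hS hdet (μ.restrict G)
  have e2 := W.lintegral_stop hS hdet μ
  have h1 : μ (G ∩ {X | dip W μ G s X < ⊤})
      = ∫⁻ _ in {X | dip W μ G s X < ⊤}, 1 ∂(μ.restrict G) := by
    rw [setLIntegral_one, Measure.restrict_apply hm, Set.inter_comm]
  have h2 : (∫⁻ _ in {X | dip W μ G s X < ⊤}, (1 : ℝ≥0∞) ∂μ) ≤ 1 := by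
    rw [setLIntegral_one]; exact prob_le_one
  rw [h1, e1]
  calc (∑' p : (Σ n, W.H n), if dip W μ G s (W.ext p.1 p.2) = p.1 then
          1 * (μ.restrict G) (W.hcyl p.1 p.2) else 0)
      ≤ ∑' p : (Σ n, W.H n), s * (if dip W μ G s (W.ext p.1 p.2) = p.1 then
          1 * μ (W.hcyl p.1 p.2) else 0) := by
        refine ENNReal.tsum_le_tsum fun p => ?_
        split_ifs with h
        · have hl := low_of_dip_eq W μ G s h
          unfold low at hl
          rw [← W.hcyl_eq] at hl
          rw [one_mul, one_mul, Measure.restrict_apply (W.measurableSet_hcyl _ _), Set.inter_comm]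
          exact hl.le
        · simp
    _ = s * ∑' p : (Σ n, W.H n), (if dip W μ G s (W.ext p.1 p.2) = p.1 then
          1 * μ (W.hcyl p.1 p.2) else 0) := ENNReal.tsum_mul_left
    _ ≤ s * 1 := by
        rw [← e2]
        gcongr
    _ = s := mul_one s

/-- the stopped decision time. -/
noncomputable def sτ (τ : Ω → ℕ∞) (X : Ω) : ℕ∞ := min (τ X) (dip W μ G s X)

/-- success without dip. -/
def sG (τ : Ω → ℕ∞) : Set Ω := {X | X ∈ G ∧ τ X ≤ dip W μ G s X}

lemma isStop_sτ {τ : Ω → ℕ∞} (hτ : W.IsStop τ) : W.IsStop (sτ W μ G s τ) :=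
  isStop_min W hτ (isStop_dip W μ G s)

lemma sτ_le (τ : Ω → ℕ∞) (X : Ω) : sτ W μ G s τ X ≤ τ X := min_le_left _ _


lemma sG_lt_top {τ : Ω → ℕ∞} (hGτ : ∀ X ∈ G, τ X < ⊤) :
    ∀ X ∈ sG W μ G s τ, sτ W μ G s τ X < ⊤ :=
  fun X hX => (sτ_le W μ G s τ X).trans_lt (hGτ X hX.1)



lemma detBy_sG {τ : Ω → ℕ∞} (hτ : W.IsStop τ) (hG : W.DetBy τ (fun X => X ∈ G)) :
    W.DetBy (sτ W μ G s τ) (fun X => X ∈ sG W μ G s τ) := by
  intro X Y n h hn
  have hdip := isStop_dip W μ G s
  have hle : ∀ {Z : Ω}, sτ W μ G s τ Z = n → (n : ℕ∞) ≤ dip W μ G s Z := fun hZ =>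
    hZ ▸ min_le_right _ _
  have hle' : ∀ {Z : Ω}, sτ W μ G s τ Z = n → (n : ℕ∞) ≤ τ Z := fun hZ =>
    hZ ▸ min_le_left _ _
  have hnY : sτ W μ G s τ Y = n := isStop_sτ W μ G s hτ X Y n h hn
  by_cases hc : τ X = n
  · have hc' : τ Y = n := hτ X Y n h hc
    have hGG : (X ∈ G) = (Y ∈ G) := hG X Y n h hc
    have h1 : τ X ≤ dip W μ G s X := hc.le.trans (hle hn)
    have h2 : τ Y ≤ dip W μ G s Y := hc'.le.trans (hle hnY)
    simp only [sG, Set.mem_ofPred_eq, h1, h2, and_true]
    exact hGG
  · have hc' : ¬ τ Y = n := fun e => hc (hτ Y X n h.symm e)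
    have key : ∀ {Z : Ω}, sτ W μ G s τ Z = n → ¬ τ Z = n → ¬ τ Z ≤ dip W μ G s Z := by
      intro Z hZ hne hZle
      exact hne ((min_eq_left hZle).symm.trans hZ)
    have h1 := key hn hc
    have h2 := key hnY hc'
    simp only [sG, Set.mem_ofPred_eq, h1, h2, and_false]

lemma measurableSet_sG {τ : Ω → ℕ∞} (hτ : W.IsStop τ) (hGm : MeasurableSet G) :
    MeasurableSet (sG W μ G s τ) := by
  have : sG W μ G s τ = G ∩ {X | dip W μ G s X < τ X}ᶜ := by
    ext X
    simp [sG, not_lt]
  rw [this]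
  exact hGm.inter (W.measurableSet_lt (isStop_dip W μ G s) hτ).compl

/-- the stopped test keeps the success probability up to `s`. -/
theorem le_sG [IsProbabilityMeasure μ] {τ : Ω → ℕ∞}
    (hGτ : ∀ X ∈ G, τ X < ⊤) : μ G ≤ μ (sG W μ G s τ) + s := by
  have hsub : G ⊆ sG W μ G s τ ∪ (G ∩ {X | dip W μ G s X < ⊤}) := by
    intro X hX
    by_cases hc : τ X ≤ dip W μ G s X
    · exact Or.inl ⟨hX, hc⟩
    · exact Or.inr ⟨hX, (not_le.1 hc).trans (hGτ X hX)⟩
  calc μ G ≤ μ (sG W μ G s τ ∪ (G ∩ {X | dip W μ G s X < ⊤})) := measure_mono hsub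
    _ ≤ μ (sG W μ G s τ) + μ (G ∩ {X | dip W μ G s X < ⊤}) := measure_union_le _ _
    _ ≤ μ (sG W μ G s τ) + s := by
        gcongr
        exact dip_loss W μ G s

/-- before the dip the conditional success probability is at least `s` (integrated form): for
every stopping time `T ≤ dip` with `T < dip` or not, the mass of the histories at `T` before the
dip is bounded by the success mass through them divided by `s`. -/
theorem mass_before_dip {T : Ω → ℕ∞} (hT : W.IsStop T) {F : Ω → ℝ≥0∞} (hF : W.DetBy T F) :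
    s * ∫⁻ X in {X | T X < dip W μ G s X}, F X ∂μ
      ≤ ∫⁻ X in {X | T X < dip W μ G s X}, F X ∂(μ.restrict G) := by
  classical
  -- auxiliary stopping time: `T` on `{T < dip}`, `⊤` otherwise
  set U : Ω → ℕ∞ := fun X => if T X < dip W μ G s X then T X else ⊤ with hU
  have hltU : ∀ X, U X < ⊤ ↔ T X < dip W μ G s X := by
    intro X
    simp only [hU]
    split_ifs with h
    · exact ⟨fun _ => h, fun _ => ne_top_of_lt h |>.lt_top⟩
    · simp [h]
  have hset : {X | T X < dip W μ G s X} = {X | U X < ⊤} := by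
    ext X; exact (hltU X).symm
  have hdip := isStop_dip W μ G s
  have hUs : W.IsStop U := by
    intro X Y n h hn
    have h1 : T X < dip W μ G s X := (hltU X).1 (by rw [hn]; exact ENat.natCast_lt_top n)
    have hTX : T X = n := by
      simp only [hU, if_pos h1] at hn; exact hn
    have hTY : T Y = n := hT X Y n h hTX
    have hdY : (n : ℕ∞) < dip W μ G s Y := by
      by_contra hlt
      rw [not_lt] at hlt
      obtain ⟨i, hi⟩ := ENat.ne_top_iff_exists.1
        (lt_of_le_of_lt hlt (ENat.natCast_lt_top n)).ne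
      rw [← hi] at hlt
      have hin : i ≤ n := by exact_mod_cast hlt
      have h2 := hdip Y X i (W.mono X Y hin h).symm hi.symm
      rw [hTX, h2] at h1
      have : n < i := by exact_mod_cast h1
      omega
    have h2 : T Y < dip W μ G s Y := by rw [hTY]; exact hdY
    simp only [hU, if_pos h2]
    exact hTY
  have hFU : W.DetBy U F := by
    intro X Y n h hn
    have h1 : T X < dip W μ G s X := (hltU X).1 (by rw [hn]; exact ENat.natCast_lt_top n)
    have hTX : T X = n := by
      simp only [hU, if_pos h1] at hn; exact hn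
    exact hF X Y n h hTX
  rw [hset, W.lintegral_stop hUs hFU μ, W.lintegral_stop hUs hFU (μ.restrict G),
    ← ENNReal.tsum_mul_left]
  refine ENNReal.tsum_le_tsum fun p => ?_
  split_ifs with h
  · have h1 : T (W.ext p.1 p.2) < dip W μ G s (W.ext p.1 p.2) :=
      (hltU _).1 (by rw [h]; exact ENat.natCast_lt_top _)
    have hTX : T (W.ext p.1 p.2) = p.1 := by
      simp only [hU, if_pos h1] at h; exact h
    have h2 := good_before W μ G s (n := p.1) (X := W.ext p.1 p.2) (hTX ▸ h1)
    rw [← W.hcyl_eq] at h2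
    rw [Measure.restrict_apply (W.measurableSet_hcyl _ _), Set.inter_comm]
    calc s * (F (W.ext p.1 p.2) * μ (W.hcyl p.1 p.2))
        = F (W.ext p.1 p.2) * (s * μ (W.hcyl p.1 p.2)) := by ring
      _ ≤ F (W.ext p.1 p.2) * μ (G ∩ W.hcyl p.1 p.2) := by gcongr
  · simp

end Dip

end Crest.Agent.R154
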