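import Crest.Agent.R154.Flux2_566
import Crest.Agent.R154.B5Abs_566
import Crest.Agent.R154.NBSurg_28
import Crest.Agent.R154.RetW_458

-- ▼ part R154/Win_775
section

/-! Row 154, ROAD 801 (helper775): the window lemmas in finite words. -/

set_option autoImplicit false
set_option linter.unusedVariables false

open MeasureTheory ProbabilityTheory Crest.ProbabilityR.RandomEnvironment
open scoped ENNReal Classical

namespace Crest.Agent.R154.Win775

open Crest.Agent.R154.Flux566

variable {d : ℕ}

lemma lw_append (ω : Environment d) (l l' : List (Step d)) (x : Site d) :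
    lw ω x (l ++ l') = lw ω x l * lw ω (endp x l) l' := by
  induction l generalizing x with
  | nil => simp [lw, endp]
  | cons e l ih => simp only [List.cons_append, lw, endp]; rw [ih, mul_assoc]

lemma sitesL_append (l l' : List (Step d)) (x : Site d) :
    sitesL x (l ++ l') = sitesL x l ++ sitesL (endp x l) l' := by
  induction l generalizing x with
  | nil => simp [sitesL, endp]
  | cons e l ih => simp only [List.cons_append, sitesL, endp]; rw [ih]

lemma row_sum (ω : Environment d) (x : Site d) :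
    ∑ e : Step d, ENNReal.ofReal ((ω x).1 e) = 1 := by
  rw [← ENNReal.ofReal_sum_of_nonneg fun e _ => (ω x).2.1 e, (ω x).2.2, ENNReal.ofReal_one]

/-- first-passage words: the sites read lie in `S`, the end lies in `T` -/
def FP (S T : Set (Site d)) (x : Site d) (l : List (Step d)) : Prop :=
  (∀ z ∈ sitesL x l, z ∈ S) ∧ endp x l ∈ T

lemma FP.prefix_free {S T : Set (Site d)} (hST : Disjoint S T) {x : Site d}
    {l1 l2 l1' l2' : List (Step d)} (h : FP S T x l1) (h' : FP S T x l1')
    (e : l1 ++ l2 = l1' ++ l2') : l1 = l1' := by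
  rcases List.append_eq_append_iff.1 e with ⟨c, hc, _⟩ | ⟨c, hc, _⟩
  · cases c with
    | nil => simpa using hc.symm
    | cons s c =>
      exfalso
      have h1 : endp x l1 ∈ S := h'.1 _ (by rw [hc, sitesL_append]; simp [sitesL])
      exact Set.disjoint_left.1 hST h1 h.2
  · cases c with
    | nil => simpa using hc
    | cons s c =>
      exfalso
      have h1 : endp x l1' ∈ S := h.1 _ (by rw [hc, sitesL_append]; simp [sitesL])
      exact Set.disjoint_left.1 hST h1 h'.2

lemma kraft_aux (ω : Environment d) {S T : Set (Site d)} (hST : Disjoint S T) (n : ℕ) :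
    ∀ x : Site d, ∑' l : List (Step d), (if FP S T x l ∧ l.length ≤ n then lw ω x l else 0) ≤ 1 := by
  induction n with
  | zero =>
    intro x
    rw [tsum_eq_single ([] : List (Step d))]
    · split_ifs <;> simp [lw]
    · intro l hl
      rw [if_neg]
      rintro ⟨_, h⟩
      exact hl (List.length_eq_zero_iff.1 (by omega))
  | succ n ih =>
    intro x
    rw [B5A.tsum_list]
    by_cases hx : x ∈ T
    · have hS : x ∉ S := fun h => Set.disjoint_left.1 hST h hx
      have : ∀ (e : Step d) (l : List (Step d)), ¬ (FP S T x (e :: l) ∧ (e :: l).length ≤ n + 1) := by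
        rintro e l ⟨h, _⟩
        exact hS (h.1 x (by simp [sitesL]))
      simp only [if_neg (this _ _), tsum_zero, add_zero]
      split_ifs <;> simp [lw]
    · rw [if_neg (by rintro ⟨h, _⟩; exact hx h.2), zero_add]
      rw [← row_sum ω x, tsum_fintype]
      refine Finset.sum_le_sum fun e _ => ?_
      calc ∑' l : List (Step d), (if FP S T x (e :: l) ∧ (e :: l).length ≤ n + 1 then
              lw ω x (e :: l) else 0)
          ≤ ∑' l : List (Step d), ENNReal.ofReal ((ω x).1 e) *
              (if FP S T (x + stepVec e) l ∧ l.length ≤ n then lw ω (x + stepVec e) l else 0) := by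
            refine ENNReal.tsum_le_tsum fun l => ?_
            by_cases h : FP S T x (e :: l) ∧ (e :: l).length ≤ n + 1
            · rw [if_pos h, if_pos]
              · simp [lw]
              · refine ⟨⟨fun z hz => h.1.1 z (by simp [sitesL, hz]), h.1.2⟩, ?_⟩
                have := h.2
                simp only [List.length_cons] at this
                omega
            · rw [if_neg h]; exact zero_le
        _ = ENNReal.ofReal ((ω x).1 e) * ∑' l : List (Step d),
              (if FP S T (x + stepVec e) l ∧ l.length ≤ n then lw ω (x + stepVec e) l else 0) :=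
            ENNReal.tsum_mul_left
        _ ≤ ENNReal.ofReal ((ω x).1 e) * 1 := mul_le_mul_right (ih _) _
        _ = _ := mul_one _

/-- quenched Kraft inequality -/
lemma kraft (ω : Environment d) {S T : Set (Site d)} (hST : Disjoint S T) (x : Site d) :
    ∑' l : List (Step d), (if FP S T x l then lw ω x l else 0) ≤ 1 := by
  rw [ENNReal.tsum_eq_iSup_sum]
  refine iSup_le fun s => ?_
  refine le_trans ?_ (kraft_aux ω hST (s.sup List.length) x)
  refine le_trans (Finset.sum_le_sum fun l hl => ?_) (ENNReal.sum_le_tsum s)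
  by_cases h : FP S T x l
  · rw [if_pos h, if_pos ⟨h, Finset.le_sup (f := List.length) hl⟩]
  · rw [if_neg h]; exact zero_le

/-- decompose every word -/
lemma tsum_split_le {B : Type*} {F : List B → ℝ≥0∞} {G : List B → List B → ℝ≥0∞}
    (h : ∀ l, F l ≠ 0 → ∃ l1 l2, l = l1 ++ l2 ∧ F l ≤ G l1 l2) :
    ∑' l, F l ≤ ∑' l1, ∑' l2, G l1 l2 := by
  rw [← ENNReal.tsum_prod (f := G)]
  choose c1 c2 hc hG using h
  rw [← tsum_subtype_support F]
  calc ∑' l : Function.support F, F l
      ≤ ∑' l : Function.support F, (fun p : List B × List B => G p.1 p.2)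
          (c1 l.1 l.2, c2 l.1 l.2) := ENNReal.tsum_le_tsum fun l => hG l.1 l.2
    _ ≤ ∑' p : List B × List B, G p.1 p.2 := by
        refine ENNReal.tsum_comp_le_tsum_of_injective
          (f := fun l : Function.support F => (c1 l.1 l.2, c2 l.1 l.2)) ?_ _
        rintro ⟨l, hl⟩ ⟨l', hl'⟩ e
        simp only [Prod.mk.injEq] at e
        apply Subtype.ext
        change l = l'
        rw [hc l hl, hc l' hl', e.1, e.2]

/-- join words (prefix-free first parts) -/
lemma tsum_join_le {B : Type*} {F : List B → ℝ≥0∞} {G : List B → List B → ℝ≥0∞}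
    (h : ∀ l1 l2, G l1 l2 ≤ F (l1 ++ l2))
    (hinj : ∀ l1 l2 l1' l2', G l1 l2 ≠ 0 → G l1' l2' ≠ 0 → l1 ++ l2 = l1' ++ l2' → l1 = l1') :
    ∑' l1, ∑' l2, G l1 l2 ≤ ∑' l, F l := by
  rw [← ENNReal.tsum_prod (f := G)]
  rw [← tsum_subtype_support (fun p : List B × List B => G p.1 p.2)]
  calc ∑' p : Function.support (fun p : List B × List B => G p.1 p.2), G p.1.1 p.1.2
      ≤ ∑' p : Function.support (fun p : List B × List B => G p.1 p.2), F (p.1.1 ++ p.1.2) :=
        ENNReal.tsum_le_tsum fun p => h _ _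
    _ ≤ ∑' l, F l := by
        refine ENNReal.tsum_comp_le_tsum_of_injective
          (f := fun p : Function.support (fun p : List B × List B => G p.1 p.2) =>
            p.1.1 ++ p.1.2) ?_ _
        rintro ⟨⟨l1, l2⟩, hl⟩ ⟨⟨l1', l2'⟩, hl'⟩ e
        have e1 := hinj l1 l2 l1' l2' hl hl' e
        subst e1
        have e2 : l2 = l2' := List.append_cancel_left e
        subst e2
        rfl

/-- first visit of a set -/
lemma exists_first {A : Set (Site d)} : ∀ (l : List (Step d)) (x : Site d),
    (∃ z ∈ sitesL x l, z ∈ A) → ∃ l1 l2, l = l1 ++ l2 ∧ (∀ z ∈ sitesL x l1, z ∉ A) ∧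
      endp x l1 ∈ A ∧ l2 ≠ [] := by
  intro l
  induction l with
  | nil => rintro x ⟨z, hz, _⟩; simp [sitesL] at hz
  | cons e l ih =>
    rintro x ⟨z, hz, hzA⟩
    by_cases hx : x ∈ A
    · exact ⟨[], e :: l, rfl, by simp [sitesL], hx, by simp⟩
    · have hz' : z ∈ sitesL (x + stepVec e) l := by
        simp only [sitesL, List.mem_cons] at hz
        rcases hz with rfl | hz
        · exact absurd hzA hx
        · exact hz
      obtain ⟨l1, l2, h1, h2, h3, h4⟩ := ih _ ⟨z, hz', hzA⟩
      refine ⟨e :: l1, l2, by rw [h1]; rfl, ?_, h3, h4⟩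
      intro y hy
      simp only [sitesL, List.mem_cons] at hy
      rcases hy with rfl | hy
      · exact hx
      · exact h2 y hy

/-- **quenched strong Markov**: words which visit `A` where the continuation mass is `≤ θ` -/
lemma markov_le (ω : Environment d) {S T : Set (Site d)} (hST : Disjoint S T) (x : Site d)
    (A : Set (Site d)) (θ : ℝ≥0∞)
    (hA : ∀ v ∈ A, ∑' τ : List (Step d), (if FP S T v τ then lw ω v τ else 0) ≤ θ) :
    ∑' l : List (Step d), (if FP S T x l ∧ ∃ z ∈ sitesL x l, z ∈ A then lw ω x l else 0) ≤ θ := by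
  calc ∑' l : List (Step d), (if FP S T x l ∧ ∃ z ∈ sitesL x l, z ∈ A then lw ω x l else 0)
      ≤ ∑' l1 : List (Step d), ∑' l2 : List (Step d),
          (if FP Aᶜ A x l1 then lw ω x l1 else 0) *
            (if FP S T (endp x l1) l2 then lw ω (endp x l1) l2 else 0) := by
        refine tsum_split_le fun l hl => ?_
        have hl' : FP S T x l ∧ ∃ z ∈ sitesL x l, z ∈ A := by
          by_contra hcon
          exact hl (if_neg hcon)
        obtain ⟨l1, l2, h1, h2, h3, h4⟩ := exists_first l x hl'.2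
        refine ⟨l1, l2, h1, ?_⟩
        rw [if_pos hl', if_pos ⟨fun z hz => h2 z hz, h3⟩, if_pos, h1, lw_append]
        subst h1
        refine ⟨fun z hz => hl'.1.1 z (by rw [sitesL_append]; simp [hz]), ?_⟩
        have := hl'.1.2
        rwa [endp_append] at this
    _ = ∑' l1 : List (Step d), (if FP Aᶜ A x l1 then lw ω x l1 else 0) *
          ∑' l2 : List (Step d), (if FP S T (endp x l1) l2 then lw ω (endp x l1) l2 else 0) := by
        refine tsum_congr fun l1 => ENNReal.tsum_mul_left
    _ ≤ ∑' l1 : List (Step d), (if FP Aᶜ A x l1 then lw ω x l1 else 0) * θ := by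
        refine ENNReal.tsum_le_tsum fun l1 => ?_
        by_cases h : FP Aᶜ A x l1
        · exact mul_le_mul_right (hA _ h.2) _
        · simp [if_neg h]
    _ = (∑' l1 : List (Step d), (if FP Aᶜ A x l1 then lw ω x l1 else 0)) * θ :=
        ENNReal.tsum_mul_right
    _ ≤ 1 * θ := mul_le_mul_left (kraft ω disjoint_compl_left x) _
    _ = θ := one_mul _

/-- annealed weight of a word from `x` -/
noncomputable def awx (ν : Measure (Row d)) (x : Site d) (l : List (Step d)) : ℝ≥0∞ :=
  ∫⁻ ω, lw ω x l ∂(iidEnvironmentLaw ν)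

/-- the first site of the word `π` (from `y`) read by the word `ρ` (from `x`) exists and lies
in `A` -/
def Hit (x : Site d) (ρ : List (Step d)) (y : Site d) (A : Set (Site d)) (π : List (Step d)) :
    Prop :=
  ∃ π1 π2, π = π1 ++ π2 ∧ (∀ z ∈ sitesL y π1, z ∉ sitesL x ρ) ∧ endp y π1 ∈ sitesL x ρ ∧
    endp y π1 ∈ A

lemma exists_min_prefix {B : Type*} (P : List B → Prop) (l : List B) (h : P l) :
    ∃ l1 l2, l = l1 ++ l2 ∧ P l1 ∧ ∀ l', l' <+: l1 → l' ≠ l1 → ¬ P l' := by
  have hex : ∃ n, P (l.take n) := ⟨l.length, by simpa using h⟩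
  refine ⟨l.take (Nat.find hex), l.drop (Nat.find hex), (List.take_append_drop _ _).symm,
    Nat.find_spec hex, ?_⟩
  intro l' h1 h2 h3
  have h4 : l' <+: l := h1.trans (List.take_prefix _ _)
  have h5 : l' = l.take l'.length := List.prefix_iff_eq_take.1 h4
  have h6 : Nat.find hex ≤ l'.length := Nat.find_min' hex (by rw [← h5]; exact h3)
  have h7 : l'.length ≤ (l.take (Nat.find hex)).length := h1.length_le
  apply h2
  refine h1.eq_of_length ?_
  have h8 : (l.take (Nat.find hex)).length ≤ Nat.find hex := by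
    rw [List.length_take]; exact min_le_left _ _
  omega

lemma dyadic {M lam m e : ℝ≥0∞} (hM : M ≠ 0) (hM' : M ≠ ⊤) (hl : lam ≠ 0) (hl' : lam ≠ ⊤)
    (hm : m ≤ M) :
    m ≤ M / lam * e + ∑' j : ℕ, (if M * (2 ^ (j + 1))⁻¹ < m ∧ e ≤ lam * (2 ^ j)⁻¹ then
      M * (2 ^ j)⁻¹ else 0) := by
  by_cases h : m ≤ M / lam * e
  · exact h.trans le_self_add
  rw [not_le] at h
  have hm0 : m ≠ 0 := (pos_of_gt h).ne'
  have hex : ∃ j : ℕ, M * (2 ^ (j + 1))⁻¹ < m := by
    have h1 : Filter.Tendsto (fun j : ℕ => M * ((2 : ℝ≥0∞)⁻¹) ^ j) Filter.atTop (nhds (M * 0)) :=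
      ENNReal.Tendsto.const_mul
        (ENNReal.tendsto_pow_atTop_nhds_zero_of_lt_one (by
          rw [ENNReal.inv_lt_one]; norm_num)) (Or.inr hM')
    rw [mul_zero] at h1
    obtain ⟨j, hj⟩ := (h1.eventually_lt_const (pos_iff_ne_zero.2 hm0)).exists
    refine ⟨j, lt_of_le_of_lt ?_ hj⟩
    rw [ENNReal.inv_pow]
    refine mul_le_mul_right ?_ _
    exact pow_le_pow_of_le_one zero_le (by rw [ENNReal.inv_le_one]; norm_num) (Nat.le_succ j)
  have hj1 := Nat.find_spec hex
  set j := Nat.find hex with hj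
  have hj2 : m ≤ M * (2 ^ j)⁻¹ := by
    rcases Nat.eq_zero_or_pos j with h0 | h0
    · rw [h0]; simpa using hm
    · have := Nat.find_min hex (m := j - 1) (by omega)
      rw [not_lt] at this
      rwa [show j - 1 + 1 = j by omega] at this
  have hj3 : e ≤ lam * (2 ^ j)⁻¹ := by
    have h2 : M / lam * e ≤ M * (2 ^ j)⁻¹ := h.le.trans hj2
    have h3 : M * (e / lam) ≤ M * (2 ^ j)⁻¹ := by
      calc M * (e / lam) = M / lam * e := by rw [div_eq_mul_inv, div_eq_mul_inv]; ring
        _ ≤ _ := h2
    have h4 : e / lam ≤ (2 ^ j)⁻¹ := (ENNReal.mul_le_mul_iff_right hM hM').1 h3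
    rw [ENNReal.div_le_iff hl hl'] at h4
    rwa [mul_comm]
  calc m ≤ M * (2 ^ j)⁻¹ := hj2
    _ = (if M * (2 ^ (j + 1))⁻¹ < m ∧ e ≤ lam * (2 ^ j)⁻¹ then M * (2 ^ j)⁻¹ else 0) := by
        rw [if_pos ⟨hj1, hj3⟩]
    _ ≤ _ := ENNReal.le_tsum j
    _ ≤ _ := le_add_self


lemma lintegral_lw_mul (ν : Measure (Row d)) [IsProbabilityMeasure ν] {x y : Site d}
    {ρ π : List (Step d)} (h : ∀ z ∈ sitesL y π, z ∉ sitesL x ρ) :
    ∫⁻ ω, lw ω x ρ * lw ω y π ∂(iidEnvironmentLaw ν) = awx ν x ρ * awx ν y π := by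
  refine Q561.iid_lintegral_mul ν (S := {z | z ∈ sitesL x ρ}) (T := {z | z ∈ sitesL y π}) ?_
    (measurable_lw _ _) (measurable_lw _ _) (locOn_lw _ _) (locOn_lw _ _)
  rw [Set.disjoint_left]
  intro z hz hz'
  exact h z hz' hz

lemma awx_kraft (ν : Measure (Row d)) [IsProbabilityMeasure ν] {S T : Set (Site d)}
    (hST : Disjoint S T) (y : Site d) (π1 : List (Step d)) :
    ∑' π2 : List (Step d), (if FP S T y (π1 ++ π2) then awx ν y (π1 ++ π2) else 0)
      ≤ awx ν y π1 := by
  calc ∑' π2 : List (Step d), (if FP S T y (π1 ++ π2) then awx ν y (π1 ++ π2) else 0)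
      = ∑' π2 : List (Step d), ∫⁻ ω, (if FP S T y (π1 ++ π2) then lw ω y (π1 ++ π2) else 0)
          ∂(iidEnvironmentLaw ν) := by
        refine tsum_congr fun π2 => ?_
        split_ifs
        · rfl
        · simp
    _ = ∫⁻ ω, ∑' π2 : List (Step d), (if FP S T y (π1 ++ π2) then lw ω y (π1 ++ π2) else 0)
          ∂(iidEnvironmentLaw ν) := by
        rw [lintegral_tsum]
        intro π2
        refine Measurable.aemeasurable ?_
        split_ifs
        · exact measurable_lw _ _
        · exact measurable_const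
    _ ≤ ∫⁻ ω, lw ω y π1 ∂(iidEnvironmentLaw ν) := by
        refine lintegral_mono fun ω => ?_
        calc ∑' π2 : List (Step d), (if FP S T y (π1 ++ π2) then lw ω y (π1 ++ π2) else 0)
            ≤ ∑' π2 : List (Step d), lw ω y π1 *
                (if FP S T (endp y π1) π2 then lw ω (endp y π1) π2 else 0) := by
              refine ENNReal.tsum_le_tsum fun π2 => ?_
              by_cases h : FP S T y (π1 ++ π2)
              · rw [if_pos h, if_pos, lw_append]
                refine ⟨fun z hz => h.1 z (by rw [sitesL_append]; simp [hz]), ?_⟩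
                have := h.2
                rwa [endp_append] at this
              · rw [if_neg h]; exact zero_le
          _ = lw ω y π1 * ∑' π2 : List (Step d),
                (if FP S T (endp y π1) π2 then lw ω (endp y π1) π2 else 0) :=
              ENNReal.tsum_mul_left
          _ ≤ lw ω y π1 * 1 := mul_le_mul_right (kraft ω hST _) _
          _ = _ := mul_one _

lemma lw_le_one (ω : Environment d) (x : Site d) (l : List (Step d)) : lw ω x l ≤ 1 := by
  induction l generalizing x with
  | nil => simp [lw]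
  | cons e l ih =>
    simp only [lw]
    refine mul_le_one' ?_ (ih _)
    rw [← row_sum ω x]
    exact Finset.single_le_sum (f := fun e : Step d => ENNReal.ofReal ((ω x).1 e))
      (fun _ _ => zero_le) (Finset.mem_univ e)

lemma awx_le_one (ν : Measure (Row d)) [IsProbabilityMeasure ν] (x : Site d)
    (l : List (Step d)) : awx ν x l ≤ 1 := by
  have : IsProbabilityMeasure (iidEnvironmentLaw ν) := by
    unfold iidEnvironmentLaw; infer_instance
  calc awx ν x l ≤ ∫⁻ _, 1 ∂(iidEnvironmentLaw ν) := lintegral_mono fun ω => lw_le_one ω x l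
    _ = 1 := by simp

section W3

variable (ν : Measure (Row d)) [IsProbabilityMeasure ν] (S T : Site d → Set (Site d))
  (S' T' Q A : Set (Site d)) (y : Site d) (δ : Site d → Site d → ℝ≥0∞)

/-- free walker completed: unnormalised weight -/
noncomputable def Bw (x : Site d) (π1 : List (Step d)) : ℝ≥0∞ :=
  ∑' π2 : List (Step d), (if FP S' T' y (π1 ++ π2) then
    awx ν y (π1 ++ π2) * δ x (endp y (π1 ++ π2)) else 0)

/-- the weight martingale -/
noncomputable def mw (x : Site d) (π1 : List (Step d)) : ℝ≥0∞ :=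
  Bw ν S' T' y δ x π1 / awx ν y π1

lemma Bw_le {M : ℝ≥0∞} (hd : Disjoint S' T') (hδ : ∀ x z, δ x z ≤ M) (x : Site d)
    (π1 : List (Step d)) : Bw ν S' T' y δ x π1 ≤ M * awx ν y π1 := by
  calc Bw ν S' T' y δ x π1
      ≤ ∑' π2 : List (Step d), M * (if FP S' T' y (π1 ++ π2) then awx ν y (π1 ++ π2) else 0) := by
        refine ENNReal.tsum_le_tsum fun π2 => ?_
        split_ifs
        · rw [mul_comm]; exact mul_le_mul_left (hδ _ _) _
        · simp
    _ = M * ∑' π2 : List (Step d), (if FP S' T' y (π1 ++ π2) then awx ν y (π1 ++ π2) else 0) :=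
        ENNReal.tsum_mul_left
    _ ≤ _ := mul_le_mul_right (awx_kraft ν hd y π1) _

lemma Bw_eq {M : ℝ≥0∞} (hd : Disjoint S' T') (hδ : ∀ x z, δ x z ≤ M) (x : Site d)
    (π1 : List (Step d)) : Bw ν S' T' y δ x π1 = awx ν y π1 * mw ν S' T' y δ x π1 := by
  unfold mw
  by_cases h : awx ν y π1 = 0
  · have := Bw_le ν S' T' y δ hd hδ x π1
    rw [h, mul_zero] at this
    rw [h, zero_mul]
    exact le_antisymm this zero_le
  · rw [ENNReal.mul_div_cancel h (ne_top_of_le_ne_top ENNReal.one_ne_top (awx_le_one ν y π1))]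

lemma mw_le {M : ℝ≥0∞} (hd : Disjoint S' T') (hδ : ∀ x z, δ x z ≤ M) (x : Site d)
    (π1 : List (Step d)) : mw ν S' T' y δ x π1 ≤ M :=
  ENNReal.div_le_of_le_mul (Bw_le ν S' T' y δ hd hδ x π1)

/-- first hit prefix -/
def F1 (x : Site d) (ρ : List (Step d)) (π1 : List (Step d)) : Prop :=
  (∀ z ∈ sitesL y π1, z ∉ sitesL x ρ) ∧ endp y π1 ∈ sitesL x ρ ∧ endp y π1 ∈ A ∧
    (∀ z ∈ sitesL y π1, z ∈ S')

/-- first prefix of weight above `M 2^{-(j+1)}` -/
def F0 (M : ℝ≥0∞) (x : Site d) (j : ℕ) (π0 : List (Step d)) : Prop :=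
  M * (2 ^ (j + 1))⁻¹ < mw ν S' T' y δ x π0 ∧
    ∀ π', π' <+: π0 → π' ≠ π0 → ¬ M * (2 ^ (j + 1))⁻¹ < mw ν S' T' y δ x π'

lemma hit_sum (x : Site d) (ρ : List (Step d)) :
    ∑' π : List (Step d), (if FP S' T' y π ∧ Hit x ρ y A π then
      awx ν y π * δ x (endp y π) else 0)
      ≤ ∑' π1 : List (Step d), (if F1 S' A y x ρ π1 then Bw ν S' T' y δ x π1 else 0) := by
  calc _ ≤ ∑' π1 : List (Step d), ∑' π2 : List (Step d),
        (if F1 S' A y x ρ π1 then (if FP S' T' y (π1 ++ π2) then
          awx ν y (π1 ++ π2) * δ x (endp y (π1 ++ π2)) else 0) else 0) := by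
        refine tsum_split_le fun π hπ => ?_
        have h : FP S' T' y π ∧ Hit x ρ y A π := by
          by_contra hcon
          exact hπ (if_neg hcon)
        obtain ⟨π1, π2, h1, h2, h3, h4⟩ := h.2
        refine ⟨π1, π2, h1, ?_⟩
        subst h1
        rw [if_pos h, if_pos, if_pos h.1]
        exact ⟨h2, h3, h4, fun z hz => h.1.1 z (by rw [sitesL_append]; simp [hz])⟩
    _ = _ := by
        refine tsum_congr fun π1 => ?_
        by_cases h : F1 S' A y x ρ π1
        · simp only [if_pos h]; rfl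
        · simp only [if_neg h, tsum_zero]

variable {S T S' T' Q A y δ}

lemma F1.inj {x : Site d} {ρ π1 π2 π1' π2' : List (Step d)} (h : F1 S' A y x ρ π1)
    (h' : F1 S' A y x ρ π1') (e : π1 ++ π2 = π1' ++ π2') : π1 = π1' :=
  FP.prefix_free (S := {z | z ∉ sitesL x ρ}) (T := {z | z ∈ sitesL x ρ})
    (Set.disjoint_left.2 fun z hz hz' => hz hz') (x := y) ⟨h.1, h.2.1⟩ ⟨h'.1, h'.2.1⟩ e

lemma F0.inj {M : ℝ≥0∞} {x : Site d} {j : ℕ} {π1 π2 π1' π2' : List (Step d)}
    (h : F0 ν S' T' y δ M x j π1) (h' : F0 ν S' T' y δ M x j π1')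
    (e : π1 ++ π2 = π1' ++ π2') : π1 = π1' := by
  rcases List.append_eq_append_iff.1 e with ⟨c, hc, _⟩ | ⟨c, hc, _⟩
  · by_contra hne
    exact h'.2 π1 ⟨c, hc.symm⟩ hne h.1
  · by_contra hne
    exact h.2 π1' ⟨c, hc.symm⟩ (Ne.symm hne) h'.1

/-- quenched bound, turning part -/
lemma turn_le (ω : Environment d) (hS : ∀ x, S x ⊆ Qᶜ) (hT : ∀ x, T x ⊆ Q) (hS' : S' ⊆ Qᶜ)
    (x : Site d) (ρ : List (Step d)) (hρ : FP (S x) (T x) x ρ) :
    ∑' π1 : List (Step d), (if F1 S' A y x ρ π1 then lw ω y π1 *
      (∑' τ : List (Step d), (if FP (S x) (T x) (endp y π1) τ then lw ω (endp y π1) τ else 0))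
        else 0)
      ≤ ∑' σ : List (Step d), (if FP Qᶜ Q y σ ∧ endp y σ ∈ T x ∧ (∃ z ∈ sitesL y σ, z ∈ A)
        then lw ω y σ else 0) := by
  calc _ = ∑' π1 : List (Step d), ∑' τ : List (Step d),
        (if F1 S' A y x ρ π1 ∧ FP (S x) (T x) (endp y π1) τ then
          lw ω y π1 * lw ω (endp y π1) τ else 0) := by
        refine tsum_congr fun π1 => ?_
        by_cases h : F1 S' A y x ρ π1
        · rw [if_pos h, ← ENNReal.tsum_mul_left]
          refine tsum_congr fun τ => ?_
          by_cases h2 : FP (S x) (T x) (endp y π1) τ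
          · rw [if_pos h2, if_pos ⟨h, h2⟩]
          · rw [if_neg h2, if_neg (fun hh => h2 hh.2), mul_zero]
        · rw [if_neg h]
          simp [h]
    _ ≤ _ := by
        refine tsum_join_le ?_ ?_
        · intro π1 τ
          by_cases h : F1 S' A y x ρ π1 ∧ FP (S x) (T x) (endp y π1) τ
          · rw [if_pos h, if_pos, lw_append]
            obtain ⟨⟨f1, f2, f3, f4⟩, g1, g2⟩ := h
            refine ⟨⟨?_, ?_⟩, ?_, ?_⟩
            · intro z hz
              rw [sitesL_append, List.mem_append] at hz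
              rcases hz with hz | hz
              · exact hS' (f4 z hz)
              · exact hS x (g1 z hz)
            · rw [endp_append]; exact hT x g2
            · rw [endp_append]; exact g2
            · refine ⟨endp y π1, ?_, f3⟩
              rw [sitesL_append, List.mem_append]
              right
              cases τ with
              | nil =>
                exfalso
                have h1 : endp y π1 ∈ S x := hρ.1 _ f2
                exact hS x h1 (hT x g2)
              | cons s τ => simp [sitesL]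
          · rw [if_neg h]; exact zero_le
        · intro l1 l2 l1' l2' h h' e
          have h1 : F1 S' A y x ρ l1 := by
            by_contra hcon; exact h (if_neg fun hh => hcon hh.1)
          have h2 : F1 S' A y x ρ l1' := by
            by_contra hcon; exact h' (if_neg fun hh => hcon hh.1)
          exact h1.inj h2 e

/-- quenched bound, threshold part: the free walker -/
lemma free_le (ω : Environment d) {M : ℝ≥0∞} (x : Site d) (ρ : List (Step d)) (j : ℕ)
    (R : List (Step d) → Prop) :
    ∑' π1 : List (Step d), (if F1 S' A y x ρ π1 ∧ M * (2 ^ (j + 1))⁻¹ < mw ν S' T' y δ x π1 ∧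
      R π1 then lw ω y π1 else 0)
      ≤ ∑' π0 : List (Step d), (if F0 ν S' T' y δ M x j π0 then lw ω y π0 else 0) := by
  have hd : Disjoint {z | z ∉ sitesL x ρ} {z | z ∈ sitesL x ρ} :=
    Set.disjoint_left.2 fun z hz hz' => hz hz'
  calc _ ≤ ∑' π0 : List (Step d), ∑' κ : List (Step d),
        (if F0 ν S' T' y δ M x j π0 then lw ω y π0 else 0) *
          (if FP {z | z ∉ sitesL x ρ} {z | z ∈ sitesL x ρ} (endp y π0) κ then
            lw ω (endp y π0) κ else 0) := by
        refine tsum_split_le fun π1 hπ1 => ?_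
        have h : F1 S' A y x ρ π1 ∧ M * (2 ^ (j + 1))⁻¹ < mw ν S' T' y δ x π1 ∧ R π1 := by
          by_contra hcon
          exact hπ1 (if_neg hcon)
        obtain ⟨π0, κ, h1, h2, h3⟩ := exists_min_prefix
          (fun l => M * (2 ^ (j + 1))⁻¹ < mw ν S' T' y δ x l) π1 h.2.1
        refine ⟨π0, κ, h1, ?_⟩
        rw [if_pos h, if_pos ⟨h2, h3⟩, if_pos, h1, lw_append]
        subst h1
        refine ⟨fun z hz => h.1.1 z (by rw [sitesL_append]; simp [hz]), ?_⟩
        have := h.1.2.1
        rwa [endp_append] at this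
    _ = ∑' π0 : List (Step d), (if F0 ν S' T' y δ M x j π0 then lw ω y π0 else 0) *
          ∑' κ : List (Step d), (if FP {z | z ∉ sitesL x ρ} {z | z ∈ sitesL x ρ}
            (endp y π0) κ then lw ω (endp y π0) κ else 0) := by
        refine tsum_congr fun π0 => ENNReal.tsum_mul_left
    _ ≤ ∑' π0 : List (Step d), (if F0 ν S' T' y δ M x j π0 then lw ω y π0 else 0) * 1 :=
        ENNReal.tsum_le_tsum fun π0 => mul_le_mul_right (kraft ω hd _) _
    _ = _ := by simp

/-- pointwise bound of the window sum -/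
lemma point_le (ω : Environment d) {M lam : ℝ≥0∞} (hM : M ≠ 0) (hM' : M ≠ ⊤) (hl : lam ≠ 0)
    (hl' : lam ≠ ⊤) (hd : Disjoint S' T') (hδ : ∀ x z, δ x z ≤ M)
    (hS : ∀ x, S x ⊆ Qᶜ) (hT : ∀ x, T x ⊆ Q) (hS' : S' ⊆ Qᶜ) (x : Site d) :
    ∑' ρ : List (Step d), ∑' π1 : List (Step d), (if FP (S x) (T x) x ρ ∧ F1 S' A y x ρ π1 then
      lw ω x ρ * lw ω y π1 * mw ν S' T' y δ x π1 else 0)
      ≤ M / lam * ∑' σ : List (Step d), (if FP Qᶜ Q y σ ∧ endp y σ ∈ T x ∧
          (∃ z ∈ sitesL y σ, z ∈ A) then lw ω y σ else 0) +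
        ∑' j : ℕ, M * (2 ^ j)⁻¹ * (lam * (2 ^ j)⁻¹) *
          ∑' π0 : List (Step d), (if F0 ν S' T' y δ M x j π0 then lw ω y π0 else 0) := by
  have hdx : Disjoint (S x) (T x) :=
    Set.disjoint_left.2 fun z hz hz' => hS x hz (hT x hz')
  set e : Site d → ℝ≥0∞ := fun v =>
    ∑' τ : List (Step d), (if FP (S x) (T x) v τ then lw ω v τ else 0) with he
  set Rx := ∑' σ : List (Step d), (if FP Qᶜ Q y σ ∧ endp y σ ∈ T x ∧
          (∃ z ∈ sitesL y σ, z ∈ A) then lw ω y σ else 0) with hRx
  set Z : ℕ → ℝ≥0∞ := fun j =>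
    ∑' π0 : List (Step d), (if F0 ν S' T' y δ M x j π0 then lw ω y π0 else 0) with hZ
  -- for fixed `ρ`
  have key : ∀ ρ : List (Step d), ∑' π1 : List (Step d),
      (if FP (S x) (T x) x ρ ∧ F1 S' A y x ρ π1 then
        lw ω x ρ * lw ω y π1 * mw ν S' T' y δ x π1 else 0)
      ≤ (if FP (S x) (T x) x ρ then lw ω x ρ else 0) * (M / lam * Rx) +
        ∑' j : ℕ, M * (2 ^ j)⁻¹ * ((if FP (S x) (T x) x ρ ∧
          (∃ z ∈ sitesL x ρ, z ∈ {v | e v ≤ lam * (2 ^ j)⁻¹}) then lw ω x ρ else 0) * Z j) := by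
    intro ρ
    by_cases hρ : FP (S x) (T x) x ρ
    swap
    · simp [hρ]
    simp only [hρ, true_and, if_true]
    calc ∑' π1 : List (Step d), (if F1 S' A y x ρ π1 then
          lw ω x ρ * lw ω y π1 * mw ν S' T' y δ x π1 else 0)
        ≤ ∑' π1 : List (Step d), (lw ω x ρ * (M / lam) *
            (if F1 S' A y x ρ π1 then lw ω y π1 * e (endp y π1) else 0) +
            ∑' j : ℕ, M * (2 ^ j)⁻¹ * (lw ω x ρ * (if F1 S' A y x ρ π1 ∧
              M * (2 ^ (j + 1))⁻¹ < mw ν S' T' y δ x π1 ∧ e (endp y π1) ≤ lam * (2 ^ j)⁻¹ then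
                lw ω y π1 else 0))) := by
          refine ENNReal.tsum_le_tsum fun π1 => ?_
          by_cases h1 : F1 S' A y x ρ π1
          · simp only [h1, if_true, true_and]
            calc lw ω x ρ * lw ω y π1 * mw ν S' T' y δ x π1
                ≤ lw ω x ρ * lw ω y π1 * (M / lam * e (endp y π1) +
                  ∑' j : ℕ, (if M * (2 ^ (j + 1))⁻¹ < mw ν S' T' y δ x π1 ∧
                    e (endp y π1) ≤ lam * (2 ^ j)⁻¹ then M * (2 ^ j)⁻¹ else 0)) :=
                  mul_le_mul_right (dyadic hM hM' hl hl' (mw_le ν S' T' y δ hd hδ x π1)) _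
              _ = _ := by
                  rw [mul_add]
                  congr 1
                  · ring
                  · rw [← ENNReal.tsum_mul_left]
                    refine tsum_congr fun j => ?_
                    split_ifs
                    · ring
                    · simp
          · rw [if_neg h1]; exact zero_le
      _ = lw ω x ρ * (M / lam) * ∑' π1 : List (Step d),
            (if F1 S' A y x ρ π1 then lw ω y π1 * e (endp y π1) else 0) +
          ∑' j : ℕ, M * (2 ^ j)⁻¹ * (lw ω x ρ * ∑' π1 : List (Step d), (if F1 S' A y x ρ π1 ∧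
              M * (2 ^ (j + 1))⁻¹ < mw ν S' T' y δ x π1 ∧ e (endp y π1) ≤ lam * (2 ^ j)⁻¹ then
                lw ω y π1 else 0)) := by
          rw [ENNReal.tsum_add, ENNReal.tsum_mul_left, ENNReal.tsum_comm]
          congr 1
          refine tsum_congr fun j => ?_
          rw [ENNReal.tsum_mul_left, ENNReal.tsum_mul_left]
      _ ≤ lw ω x ρ * (M / lam) * Rx + ∑' j : ℕ, M * (2 ^ j)⁻¹ * ((if
          (∃ z ∈ sitesL x ρ, z ∈ {v | e v ≤ lam * (2 ^ j)⁻¹}) then lw ω x ρ else 0) * Z j) := by
          refine add_le_add (mul_le_mul_right (turn_le ω hS hT hS' x ρ hρ) _) ?_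
          refine ENNReal.tsum_le_tsum fun j => mul_le_mul_right ?_ _
          by_cases hv : ∃ z ∈ sitesL x ρ, z ∈ {v | e v ≤ lam * (2 ^ j)⁻¹}
          · rw [if_pos hv]
            refine mul_le_mul_right (le_trans (le_of_eq ?_)
              (free_le (A := A) ν ω x ρ j fun π1 => e (endp y π1) ≤ lam * (2 ^ j)⁻¹)) _
            refine tsum_congr fun π1 => ?_
            congr
          · have : ∀ π1 : List (Step d), ¬ (F1 S' A y x ρ π1 ∧
              M * (2 ^ (j + 1))⁻¹ < mw ν S' T' y δ x π1 ∧ e (endp y π1) ≤ lam * (2 ^ j)⁻¹) := by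
              rintro π1 ⟨h1, _, h3⟩
              exact hv ⟨_, h1.2.1, h3⟩
            simp only [if_neg (this _), tsum_zero, mul_zero]
            exact zero_le
      _ = _ := by rw [mul_assoc]
  calc _ ≤ ∑' ρ : List (Step d), ((if FP (S x) (T x) x ρ then lw ω x ρ else 0) * (M / lam * Rx) +
        ∑' j : ℕ, M * (2 ^ j)⁻¹ * ((if FP (S x) (T x) x ρ ∧
          (∃ z ∈ sitesL x ρ, z ∈ {v | e v ≤ lam * (2 ^ j)⁻¹}) then lw ω x ρ else 0) * Z j)) :=
        ENNReal.tsum_le_tsum key
    _ = (∑' ρ : List (Step d), (if FP (S x) (T x) x ρ then lw ω x ρ else 0)) * (M / lam * Rx) +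
        ∑' j : ℕ, M * (2 ^ j)⁻¹ * ((∑' ρ : List (Step d), (if FP (S x) (T x) x ρ ∧
          (∃ z ∈ sitesL x ρ, z ∈ {v | e v ≤ lam * (2 ^ j)⁻¹}) then lw ω x ρ else 0)) * Z j) := by
        rw [ENNReal.tsum_add, ENNReal.tsum_mul_right, ENNReal.tsum_comm]
        congr 1
        refine tsum_congr fun j => ?_
        rw [ENNReal.tsum_mul_left, ENNReal.tsum_mul_right]
    _ ≤ 1 * (M / lam * Rx) + ∑' j : ℕ, M * (2 ^ j)⁻¹ * ((lam * (2 ^ j)⁻¹) * Z j) := by
        refine add_le_add (mul_le_mul_left (kraft ω hdx x) _) ?_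
        refine ENNReal.tsum_le_tsum fun j => mul_le_mul_right (mul_le_mul_left ?_ _) _
        refine le_trans (le_of_eq ?_)
          (markov_le ω hdx x {v | e v ≤ lam * (2 ^ j)⁻¹} _ fun v hv => hv)
        exact tsum_congr fun ρ => by congr
    _ = _ := by
        rw [one_mul]
        congr 1
        exact tsum_congr fun j => (mul_assoc _ _ _).symm

/-- mass of the first prefixes of large weight (weak `L¹` maximal inequality) -/
lemma F0_mass {M : ℝ≥0∞} (hd : Disjoint S' T') (hδ : ∀ x z, δ x z ≤ M) (j : ℕ) (x : Site d) :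
    M * (2 ^ (j + 1))⁻¹ * ∑' π0 : List (Step d), (if F0 ν S' T' y δ M x j π0 then
      awx ν y π0 else 0)
      ≤ ∑' π : List (Step d), (if FP S' T' y π then awx ν y π * δ x (endp y π) else 0) := by
  calc _ = ∑' π0 : List (Step d), (if F0 ν S' T' y δ M x j π0 then
        M * (2 ^ (j + 1))⁻¹ * awx ν y π0 else 0) := by
        rw [← ENNReal.tsum_mul_left]
        refine tsum_congr fun π0 => ?_
        split_ifs <;> simp
    _ ≤ ∑' π0 : List (Step d), ∑' π2 : List (Step d), (if F0 ν S' T' y δ M x j π0 ∧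
          FP S' T' y (π0 ++ π2) then awx ν y (π0 ++ π2) * δ x (endp y (π0 ++ π2)) else 0) := by
        refine ENNReal.tsum_le_tsum fun π0 => ?_
        by_cases h : F0 ν S' T' y δ M x j π0
        · simp only [if_pos h, h, true_and]
          change _ ≤ Bw ν S' T' y δ x π0
          rw [Bw_eq ν S' T' y δ hd hδ, mul_comm]
          exact mul_le_mul_right h.1.le _
        · rw [if_neg h]; exact zero_le
    _ ≤ _ := by
        refine tsum_join_le ?_ ?_
        · intro π0 π2
          by_cases h : F0 ν S' T' y δ M x j π0 ∧ FP S' T' y (π0 ++ π2)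
          · rw [if_pos h, if_pos h.2]
          · rw [if_neg h]; exact zero_le
        · intro l1 l2 l1' l2' h h' e
          have h1 : F0 ν S' T' y δ M x j l1 := by
            by_contra hcon; exact h (if_neg fun hh => hcon hh.1)
          have h2 : F0 ν S' T' y δ M x j l1' := by
            by_contra hcon; exact h' (if_neg fun hh => hcon hh.1)
          exact F0.inj ν h1 h2 e

lemma lintegral_if_lw (p : Prop) [Decidable p] (x : Site d) (l : List (Step d)) :
    ∫⁻ ω, (if p then lw ω x l else 0) ∂(iidEnvironmentLaw ν) = if p then awx ν x l else 0 := by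
  split_ifs
  · rfl
  · simp

lemma meas_if_lw (p : Prop) [Decidable p] (x : Site d) (l : List (Step d)) :
    Measurable fun ω : Environment d => (if p then lw ω x l else 0) := by
  split_ifs
  · exact measurable_lw _ _
  · exact measurable_const

lemma sum_four (lam : ℝ≥0∞) : ∑' j : ℕ, 2 * (lam * (2 ^ j)⁻¹) = 4 * lam := by
  simp only [ENNReal.inv_pow]
  rw [ENNReal.tsum_mul_left, ENNReal.tsum_mul_left, ENNReal.tsum_geometric, ENNReal.one_sub_inv_two,
    inv_inv]
  ring

/-- **the window lemma (3)**: event walker `ρ` from `x` (summed over `x`, landing in `T x`),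
free walker `π` from the fixed site `y`, tie weight `δ x (landing of π)`. -/
theorem win3 {M lam N r : ℝ≥0∞} (hM : M ≠ 0) (hM' : M ≠ ⊤) (hl : lam ≠ 0)
    (hl' : lam ≠ ⊤) (hd : Disjoint S' T') (hδ : ∀ x z, δ x z ≤ M)
    (hδ1 : ∀ z, ∑' x, δ x z ≤ 1)
    (hS : ∀ x, S x ⊆ Qᶜ) (hT : ∀ x, T x ⊆ Q) (hS' : S' ⊆ Qᶜ)
    (hN : ∀ z, ∑' x : Site d, (if z ∈ T x then (1 : ℝ≥0∞) else 0) ≤ N)
    (hr : ∑' σ : List (Step d), (if FP Qᶜ Q y σ ∧ (∃ z ∈ sitesL y σ, z ∈ A) then
      awx ν y σ else 0) ≤ r) :
    ∑' x : Site d, ∑' ρ : List (Step d), ∑' π : List (Step d),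
      (if FP (S x) (T x) x ρ ∧ FP S' T' y π ∧ Hit x ρ y A π then
        awx ν x ρ * (awx ν y π * δ x (endp y π)) else 0)
      ≤ 4 * lam + M / lam * (N * r) := by
  calc ∑' x : Site d, ∑' ρ : List (Step d), ∑' π : List (Step d),
      (if FP (S x) (T x) x ρ ∧ FP S' T' y π ∧ Hit x ρ y A π then
        awx ν x ρ * (awx ν y π * δ x (endp y π)) else 0)
      ≤ ∑' x : Site d, ∑' ρ : List (Step d), ∑' π1 : List (Step d),
          (if FP (S x) (T x) x ρ ∧ F1 S' A y x ρ π1 then
            awx ν x ρ * awx ν y π1 * mw ν S' T' y δ x π1 else 0) := by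
        refine ENNReal.tsum_le_tsum fun x => ENNReal.tsum_le_tsum fun ρ => ?_
        by_cases hρ : FP (S x) (T x) x ρ
        swap
        · simp [hρ]
        simp only [hρ, true_and]
        calc _ = awx ν x ρ * ∑' π : List (Step d), (if FP S' T' y π ∧ Hit x ρ y A π then
              awx ν y π * δ x (endp y π) else 0) := by
              rw [← ENNReal.tsum_mul_left]
              refine tsum_congr fun π => ?_
              split_ifs <;> simp
          _ ≤ awx ν x ρ * ∑' π1 : List (Step d),
                (if F1 S' A y x ρ π1 then Bw ν S' T' y δ x π1 else 0) :=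
              mul_le_mul_right (hit_sum ν S' T' A y δ x ρ) _
          _ = _ := by
              rw [← ENNReal.tsum_mul_left]
              refine tsum_congr fun π1 => ?_
              by_cases h : F1 S' A y x ρ π1
              · rw [if_pos h, if_pos h, Bw_eq ν S' T' y δ hd hδ, mul_assoc]
              · rw [if_neg h, if_neg h, mul_zero]
    _ = ∫⁻ ω, ∑' x : Site d, ∑' ρ : List (Step d), ∑' π1 : List (Step d),
          (if FP (S x) (T x) x ρ ∧ F1 S' A y x ρ π1 then
            lw ω x ρ * lw ω y π1 * mw ν S' T' y δ x π1 else 0) ∂(iidEnvironmentLaw ν) := by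
        have hm : ∀ x (ρ π1 : List (Step d)), Measurable fun ω : Environment d =>
            (if FP (S x) (T x) x ρ ∧ F1 S' A y x ρ π1 then
              lw ω x ρ * lw ω y π1 * mw ν S' T' y δ x π1 else 0) := by
          intro x ρ π1
          split_ifs
          · exact ((measurable_lw _ _).mul (measurable_lw _ _)).mul_const _
          · exact measurable_const
        rw [lintegral_tsum fun x => (Measurable.ennreal_tsum fun ρ =>
          Measurable.ennreal_tsum fun π1 => hm x ρ π1).aemeasurable]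
        refine tsum_congr fun x => ?_
        rw [lintegral_tsum fun ρ => (Measurable.ennreal_tsum fun π1 => hm x ρ π1).aemeasurable]
        refine tsum_congr fun ρ => ?_
        rw [lintegral_tsum fun π1 => (hm x ρ π1).aemeasurable]
        refine tsum_congr fun π1 => ?_
        by_cases h : FP (S x) (T x) x ρ ∧ F1 S' A y x ρ π1
        · simp only [if_pos h]
          have hmm : Measurable fun ω : Environment d => lw ω x ρ * lw ω y π1 :=
            (measurable_lw _ _).mul (measurable_lw _ _)
          rw [lintegral_mul_const _ hmm, lintegral_lw_mul ν h.2.1]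
        · simp only [if_neg h, lintegral_zero]
    _ ≤ ∫⁻ ω, ∑' x : Site d, (M / lam * ∑' σ : List (Step d), (if FP Qᶜ Q y σ ∧
          endp y σ ∈ T x ∧ (∃ z ∈ sitesL y σ, z ∈ A) then lw ω y σ else 0) +
        ∑' j : ℕ, M * (2 ^ j)⁻¹ * (lam * (2 ^ j)⁻¹) *
          ∑' π0 : List (Step d), (if F0 ν S' T' y δ M x j π0 then lw ω y π0 else 0))
            ∂(iidEnvironmentLaw ν) :=
        lintegral_mono fun ω => ENNReal.tsum_le_tsum fun x =>
          point_le ν ω hM hM' hl hl' hd hδ hS hT hS' x
    _ = ∑' x : Site d, (M / lam * ∑' σ : List (Step d), (if FP Qᶜ Q y σ ∧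
          endp y σ ∈ T x ∧ (∃ z ∈ sitesL y σ, z ∈ A) then awx ν y σ else 0) +
        ∑' j : ℕ, M * (2 ^ j)⁻¹ * (lam * (2 ^ j)⁻¹) *
          ∑' π0 : List (Step d), (if F0 ν S' T' y δ M x j π0 then awx ν y π0 else 0)) := by
        have hm1 : ∀ x, Measurable fun ω : Environment d => ∑' σ : List (Step d),
            (if FP Qᶜ Q y σ ∧ endp y σ ∈ T x ∧ (∃ z ∈ sitesL y σ, z ∈ A) then lw ω y σ else 0) :=
          fun x => Measurable.ennreal_tsum fun σ => meas_if_lw _ y σ
        have hm2 : ∀ x (j : ℕ), Measurable fun ω : Environment d => ∑' π0 : List (Step d),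
            (if F0 ν S' T' y δ M x j π0 then lw ω y π0 else 0) :=
          fun x j => Measurable.ennreal_tsum fun π0 => meas_if_lw _ y π0
        have hmx : ∀ x : Site d, Measurable fun ω : Environment d =>
            (M / lam * ∑' σ : List (Step d), (if FP Qᶜ Q y σ ∧
              endp y σ ∈ T x ∧ (∃ z ∈ sitesL y σ, z ∈ A) then lw ω y σ else 0) +
            ∑' j : ℕ, M * (2 ^ j)⁻¹ * (lam * (2 ^ j)⁻¹) *
              ∑' π0 : List (Step d), (if F0 ν S' T' y δ M x j π0 then lw ω y π0 else 0)) :=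
          fun x => ((hm1 x).const_mul _).add (Measurable.ennreal_tsum fun j =>
            (hm2 x j).const_mul _)
        rw [lintegral_tsum fun x => (hmx x).aemeasurable]
        refine tsum_congr fun x => ?_
        rw [lintegral_add_left ((hm1 x).const_mul _), lintegral_const_mul _ (hm1 x),
          lintegral_tsum fun σ => (meas_if_lw _ y σ).aemeasurable,
          lintegral_tsum fun j => ((hm2 x j).const_mul _).aemeasurable]
        congr 1
        · congr 1
          exact tsum_congr fun σ => lintegral_if_lw ν _ y σ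
        · refine tsum_congr fun j => ?_
          rw [lintegral_const_mul _ (hm2 x j),
            lintegral_tsum fun π0 => (meas_if_lw _ y π0).aemeasurable]
          congr 1
          exact tsum_congr fun π0 => lintegral_if_lw ν _ y π0
    _ = M / lam * (∑' x : Site d, ∑' σ : List (Step d), (if FP Qᶜ Q y σ ∧
          endp y σ ∈ T x ∧ (∃ z ∈ sitesL y σ, z ∈ A) then awx ν y σ else 0)) +
        ∑' j : ℕ, M * (2 ^ j)⁻¹ * (lam * (2 ^ j)⁻¹) * ∑' x : Site d,
          ∑' π0 : List (Step d), (if F0 ν S' T' y δ M x j π0 then awx ν y π0 else 0) := by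
        rw [ENNReal.tsum_add, ENNReal.tsum_mul_left]
        congr 1
        rw [ENNReal.tsum_comm]
        exact tsum_congr fun j => ENNReal.tsum_mul_left
    _ ≤ M / lam * (N * r) + ∑' j : ℕ, 2 * (lam * (2 ^ j)⁻¹) := by
        refine add_le_add (mul_le_mul_right ?_ _) (ENNReal.tsum_le_tsum fun j => ?_)
        · rw [ENNReal.tsum_comm]
          calc ∑' σ : List (Step d), ∑' x : Site d, (if FP Qᶜ Q y σ ∧
                endp y σ ∈ T x ∧ (∃ z ∈ sitesL y σ, z ∈ A) then awx ν y σ else 0)
              ≤ ∑' σ : List (Step d), N * (if FP Qᶜ Q y σ ∧ (∃ z ∈ sitesL y σ, z ∈ A) then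
                  awx ν y σ else 0) := by
                refine ENNReal.tsum_le_tsum fun σ => ?_
                by_cases h : FP Qᶜ Q y σ ∧ (∃ z ∈ sitesL y σ, z ∈ A)
                · rw [if_pos h]
                  refine le_trans ?_ (mul_le_mul_left (hN (endp y σ)) _)
                  rw [← ENNReal.tsum_mul_right]
                  refine ENNReal.tsum_le_tsum fun x => ?_
                  by_cases h2 : endp y σ ∈ T x
                  · simp [h.1, h2]
                    split_ifs <;> simp
                  · rw [if_neg (fun hh => h2 hh.2.1)]; exact zero_le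
                · have : ∀ x, ¬ (FP Qᶜ Q y σ ∧ endp y σ ∈ T x ∧ (∃ z ∈ sitesL y σ, z ∈ A)) :=
                    fun x hh => h ⟨hh.1, hh.2.2⟩
                  simp only [if_neg (this _), tsum_zero]
                  exact zero_le
            _ = N * ∑' σ : List (Step d), (if FP Qᶜ Q y σ ∧ (∃ z ∈ sitesL y σ, z ∈ A) then
                  awx ν y σ else 0) := ENNReal.tsum_mul_left
            _ ≤ N * r := mul_le_mul_right hr _
        · set W := ∑' x : Site d, ∑' π0 : List (Step d), (if F0 ν S' T' y δ M x j π0 then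
            awx ν y π0 else 0) with hW
          have h1 : M * (2 ^ (j + 1))⁻¹ * W ≤ 1 := by
            rw [hW, ← ENNReal.tsum_mul_left]
            calc _ ≤ ∑' x : Site d, ∑' π : List (Step d),
                  (if FP S' T' y π then awx ν y π * δ x (endp y π) else 0) :=
                  ENNReal.tsum_le_tsum fun x => F0_mass ν hd hδ j x
              _ = ∑' π : List (Step d), (if FP S' T' y π then awx ν y π else 0) *
                    ∑' x : Site d, δ x (endp y π) := by
                  rw [ENNReal.tsum_comm]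
                  refine tsum_congr fun π => ?_
                  rw [← ENNReal.tsum_mul_left]
                  refine tsum_congr fun x => ?_
                  split_ifs <;> simp
              _ ≤ ∑' π : List (Step d), (if FP S' T' y π then awx ν y π else 0) * 1 :=
                  ENNReal.tsum_le_tsum fun π => mul_le_mul_right (hδ1 _) _
              _ ≤ awx ν y [] := by
                  simp only [mul_one]
                  exact awx_kraft ν hd y []
              _ ≤ 1 := awx_le_one ν y []
          calc M * (2 ^ j)⁻¹ * (lam * (2 ^ j)⁻¹) * W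
              = 2 * (lam * (2 ^ j)⁻¹) * (M * (2 ^ (j + 1))⁻¹ * W) := by
                have h2 : ((2 : ℝ≥0∞) ^ j)⁻¹ = 2 * (2 ^ (j + 1))⁻¹ := by
                  rw [pow_succ, ENNReal.mul_inv (Or.inl (by positivity))
                    (Or.inl (by finiteness)), mul_comm (2 : ℝ≥0∞), mul_assoc,
                    ENNReal.inv_mul_cancel (by norm_num) (by norm_num), mul_one]
                calc M * (2 ^ j)⁻¹ * (lam * (2 ^ j)⁻¹) * W
                    = (lam * (2 ^ j)⁻¹) * (M * (2 ^ j)⁻¹ * W) := by ring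
                  _ = (lam * (2 ^ j)⁻¹) * (M * (2 * (2 ^ (j + 1))⁻¹) * W) := by rw [← h2]
                  _ = _ := by ring
            _ ≤ 2 * (lam * (2 ^ j)⁻¹) * 1 := mul_le_mul_right h1 _
            _ = _ := mul_one _
    _ = 4 * lam + M / lam * (N * r) := by rw [sum_four, add_comm]

end W3

end Crest.Agent.R154.Win775
end

-- ▼ part R154/E3_168

/-! Row 154, ROAD 801 (helper168): window lemma (3) at one common height, in the letters of
`NBDefs_28` (= 912's `E3`), from 775's `win3` and 458's `ret_small`. -/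

set_option autoImplicit false

namespace Crest.Agent.R154.E23168

open MeasureTheory ProbabilityTheory Crest.ProbabilityR.RandomEnvironment Crest.Agent.R154
open Crest.Agent.R154.Flux132 (lev opp)
open Crest.Agent.R154.Flux566 (lw endp sitesL)
open Crest.Agent.R154.NB28 (IsUp IsDn Cm aw)
open scoped ENNReal Classical

variable {d : ℕ}

/-- turning weight: words from `0` to their first site of level `1`, which visit level `≤ -s` -/
noncomputable def us (ν : Measure (Row d)) [IsProbabilityMeasure ν] (u : Step d) (s : ℕ) : ℝ≥0∞ :=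
  ∑' l : List (Step d), (if (∀ y ∈ sitesL 0 l, lev u y < 1) ∧ lev u (endp 0 l) = 1 ∧
    (∃ y ∈ sitesL 0 l, lev u y ≤ -(s : ℤ)) then aw ν l else 0)

theorem us_small (ν : Measure (Row d)) [IsProbabilityMeasure ν] (u : Step d)
    (ε : ℝ≥0∞) (hε : ε ≠ 0) : ∃ s0 : ℕ, ∀ s, s0 ≤ s → us ν u s ≤ ε :=
  RetW458.ret_small ν u 1 ε hε

theorem us_tendsto (ν : Measure (Row d)) [IsProbabilityMeasure ν] (u : Step d) :
    Filter.Tendsto (us ν u) Filter.atTop (nhds 0) := by
  rw [ENNReal.tendsto_atTop_zero]
  intro ε hε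
  obtain ⟨s0, h⟩ := us_small ν u ε hε.ne'
  exact ⟨s0, fun n hn => h n hn⟩

lemma lev_sub' (u : Step d) (x y : Site d) : lev u (x - y) = lev u x - lev u y := by
  unfold Flux132.lev; split_ifs <;> simp <;> ring

lemma lev_add' (u : Step d) (x y : Site d) : lev u (x + y) = lev u x + lev u y := by
  unfold Flux132.lev; split_ifs <;> simp <;> ring


lemma lev_opp' (u : Step d) (x : Site d) : lev (opp u) x = - lev u x := by
  unfold Flux132.lev Flux132.opp
  rcases u with ⟨i, b⟩
  cases b <;> simp

lemma lev_step_ge (u e : Step d) : -1 ≤ lev u (stepVec e) := by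
  unfold Flux132.lev stepVec
  rcases u with ⟨i, b⟩
  rcases e with ⟨j, c⟩
  by_cases hij : i = j
  · subst hij
    cases b <;> cases c <;> simp
  · have hji : j ≠ i := fun h => hij h.symm
    cases b <;> cases c <;> simp [Pi.single_apply, hij]

lemma end_eq (u : Step d) (l : List (Step d)) : ∀ x : Site d, (∀ y ∈ sitesL x l, 0 ≤ lev u y) →
    lev u (endp x l) < 0 → l ≠ [] → lev u (endp x l) = -1 := by
  induction l with
  | nil => intro x _ _ h; exact absurd rfl h
  | cons e l ih =>
    intro x h1 h2 _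
    have hx : 0 ≤ lev u x := h1 x (by simp [sitesL])
    have he := lev_step_ge u e
    by_cases hl : l = []
    · subst hl
      simp only [endp] at h2 ⊢
      rw [lev_add'] at h2 ⊢
      omega
    · simp only [endp] at h2 ⊢
      exact ih _ (fun y hy => h1 y (by simp [sitesL, hy])) h2 hl

/-- contact depths, hung at the bottom of the up walker -/
lemma cm_iff (u : Step d) (x : Site d) (π γ : List (Step d)) (z : Site d)
    (hz : z ∈ sitesL 0 π)
    (hz' : z ∈ sitesL (x + endp 0 π + stepVec (opp u)) γ) (k : ℕ)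
    (hk : lev u z - lev u (endp 0 π) = -(k : ℤ)) : k ∈ Cm u x π γ := by
  refine ⟨z - endp 0 π, ?_, ?_, ?_⟩
  · have := (NB28.mem_sitesL_add π 0 (-endp 0 π) z).2 hz
    rw [zero_add, ← sub_eq_add_neg] at this
    exact this
  · have := (NB28.mem_sitesL_add γ (x + stepVec (opp u)) (endp 0 π) (z - endp 0 π)).1
    apply this
    rw [sub_add_cancel, show x + stepVec (opp u) + endp 0 π = x + endp 0 π + stepVec (opp u) by abel]
    exact hz'
  · rw [lev_sub']; exact hk

theorem E3 (ν : Measure (Row d)) [IsProbabilityMeasure ν] (u : Step d) (s H : ℕ)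
    (E : Finset (Site d)) (μ : Site d → ℝ≥0∞) (M lam : ℝ≥0∞) (hμ : ∑' x, μ x ≤ 1)
    (hM : ∀ x, μ x ≤ M) (hl0 : lam ≠ 0) (hlt : lam ≠ ⊤) :
    ∑' x, (if lev u x = 0 then μ x * ∑' π, ∑' γ, (if IsUp u H π ∧ endp 0 γ ∈ E ∧ IsDn u H γ ∧
      (∃ k, k ∈ Cm u x π γ) ∧ (∀ k ∈ Cm u x π γ, k + s ≤ H) then aw ν π * aw ν γ else 0) else 0)
      ≤ 4 * lam + M / lam * (E.card * us ν (opp u) s) := by
  -- reduce to `M ≠ 0, ⊤`
  set M' := min M 1 with hM'
  have hM'M : M' ≤ M := min_le_left _ _
  have hμM' : ∀ x, μ x ≤ M' := fun x => le_min (hM x) ((ENNReal.le_tsum x).trans hμ)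
  have hM't : M' ≠ ⊤ := ne_top_of_le_ne_top ENNReal.one_ne_top (min_le_right _ _)
  by_cases hM0 : M' = 0
  · have : ∀ x, μ x = 0 := fun x => le_antisymm ((hμM' x).trans hM0.le) zero_le
    simp [this]
  set Y0 : Site d := stepVec (opp u) with hY0
  have hlY0 : lev u Y0 = -1 := NB28.lev_opp u
  -- data for `win3`
  set S : Site d → Set (Site d) := fun _ => {z | 0 ≤ lev u z} with hS
  set T : Site d → Set (Site d) := fun x => {z | lev u z < 0 ∧ z - x ∈ E} with hT
  set S' : Set (Site d) := {z | 0 ≤ lev u z ∧ lev u z < H} with hS'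
  set T' : Set (Site d) := {z | lev u z = H} with hT'
  set Q : Set (Site d) := {z | lev u z < 0} with hQ
  set A : Set (Site d) := {z | (s : ℤ) ≤ lev u z} with hA
  set δ : Site d → Site d → ℝ≥0∞ := fun x z => μ (x - Y0 - z) with hδ
  have key := Win775.win3 (ν := ν) (S := S) (T := T) (S' := S') (T' := T') (Q := Q) (A := A)
    (y := 0) (δ := δ) (M := M') (lam := lam) (N := (E.card : ℝ≥0∞)) (r := us ν (opp u) s)
    hM0 hM't hl0 hlt
    (by
      rw [Set.disjoint_left]
      intro z hz hz'
      simp only [hS', hT', Set.mem_setOf_eq] at hz hz'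
      omega)
    (fun x z => hμM' _)
    (fun z => by
      refine le_trans (le_of_eq ?_) hμ
      have e : ∀ x : Site d, δ x z = μ (Equiv.subRight (Y0 + z) x) := by
        intro x
        simp only [hδ, Equiv.subRight_apply]
        rw [sub_sub]
      rw [tsum_congr e, (Equiv.subRight (Y0 + z)).tsum_eq])
    (fun x z hz => by
      simp only [hS, hQ, Set.mem_compl_iff, Set.mem_setOf_eq] at hz ⊢
      omega)
    (fun x z hz => by
      simp only [hT, hQ, Set.mem_setOf_eq] at hz ⊢
      exact hz.1)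
    (fun z hz => by
      simp only [hS', hQ, Set.mem_compl_iff, Set.mem_setOf_eq] at hz ⊢
      omega)
    (fun z => by
      calc _ ≤ ∑' x : Site d, (if z - x ∈ E then (1 : ℝ≥0∞) else 0) := by
            refine ENNReal.tsum_le_tsum fun x => ?_
            by_cases h : z ∈ T x
            · have h2 : z - x ∈ E := h.2
              rw [if_pos h, if_pos h2]
            · rw [if_neg h]; exact zero_le
        _ = ∑' x : Site d, (if Equiv.subLeft z x ∈ E then (1 : ℝ≥0∞) else 0) := by
            simp only [Equiv.subLeft_apply]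
        _ = ∑' x : Site d, (if x ∈ E then (1 : ℝ≥0∞) else 0) :=
            (Equiv.subLeft z).tsum_eq (fun x => if x ∈ E then (1 : ℝ≥0∞) else 0)
        _ = E.card := by
            rw [tsum_eq_sum (s := E)]
            · rw [Finset.sum_congr rfl (fun x hx => if_pos hx)]
              simp
            · intro x hx; rw [if_neg hx]
        _ ≤ _ := le_rfl)
    (by
      refine ENNReal.tsum_le_tsum fun σ => ?_
      by_cases h : Win775.FP Qᶜ Q 0 σ ∧ (∃ z ∈ sitesL 0 σ, z ∈ A)
      · rw [if_pos h, if_pos]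
        · exact le_rfl
        · obtain ⟨⟨h1, h2⟩, z, hz, hzA⟩ := h
          simp only [hQ, hA, Set.mem_compl_iff, Set.mem_setOf_eq] at h1 h2 hzA
          have h3 := end_eq u σ 0 (fun y hy => not_lt.1 (h1 y hy)) h2
            (by rintro rfl; simp [sitesL] at hz)
          refine ⟨fun y hy => ?_, ?_, z, hz, ?_⟩
          · have := h1 y hy; rw [lev_opp']; omega
          · rw [lev_opp', h3]; rfl
          · rw [lev_opp']; omega
      · rw [if_neg h]; exact zero_le)
  have hlow : M' / lam * (E.card * us ν (opp u) s) ≤ M / lam * (E.card * us ν (opp u) s) :=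
    mul_le_mul_left (ENNReal.div_le_div_right hM'M _) _
  refine le_trans ?_ (key.trans (add_le_add le_rfl hlow))
  -- rearrange
  have e1 : ∀ x : Site d, (if lev u x = 0 then μ x * ∑' π, ∑' γ, (if IsUp u H π ∧ endp 0 γ ∈ E ∧
      IsDn u H γ ∧ (∃ k, k ∈ Cm u x π γ) ∧ (∀ k ∈ Cm u x π γ, k + s ≤ H)
      then aw ν π * aw ν γ else 0) else 0)
      = ∑' γ, ∑' π, (if lev u x = 0 ∧ IsUp u H π ∧ endp 0 γ ∈ E ∧
      IsDn u H γ ∧ (∃ k, k ∈ Cm u x π γ) ∧ (∀ k ∈ Cm u x π γ, k + s ≤ H)
      then aw ν γ * (aw ν π * μ x) else 0) := by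
    intro x
    by_cases hx : lev u x = 0
    · rw [if_pos hx, ENNReal.tsum_comm, ← ENNReal.tsum_mul_left]
      refine tsum_congr fun γ => ?_
      rw [← ENNReal.tsum_mul_left]
      refine tsum_congr fun π => ?_
      simp only [hx, true_and]
      split_ifs
      · ring
      · rw [mul_zero]
    · simp [hx]
  rw [tsum_congr e1]
  rw [ENNReal.tsum_comm]
  rw [ENNReal.tsum_comm (f := fun (x : Site d) (ρ : List (Step d)) => ∑' π : List (Step d),
      (if Win775.FP (S x) (T x) x ρ ∧ Win775.FP S' T' 0 π ∧ Win775.Hit x ρ 0 A π then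
        Win775.awx ν x ρ * (Win775.awx ν 0 π * δ x (endp 0 π)) else 0))]
  refine ENNReal.tsum_le_tsum fun γ => ?_
  rw [ENNReal.tsum_comm]
  rw [ENNReal.tsum_comm (f := fun (x : Site d) (π : List (Step d)) =>
      (if Win775.FP (S x) (T x) x γ ∧ Win775.FP S' T' 0 π ∧ Win775.Hit x γ 0 A π then
        Win775.awx ν x γ * (Win775.awx ν 0 π * δ x (endp 0 π)) else 0))]
  refine ENNReal.tsum_le_tsum fun π => ?_
  rw [← (Equiv.subRight (Y0 + endp 0 π)).tsum_eq]
  refine ENNReal.tsum_le_tsum fun x => ?_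
  simp only [Equiv.subRight_apply]
  split_ifs with h h'
  · -- values
    rw [hδ]
    simp only
    rw [show x - Y0 - endp 0 π = x - (Y0 + endp 0 π) by rw [sub_sub]]
    have a1 : Win775.awx ν x γ = aw ν γ := NB28.aw_shift ν x γ
    have a2 : Win775.awx ν 0 π = aw ν π := rfl
    rw [a1, a2]
  · exfalso
    apply h'
    obtain ⟨hx, hup, hE, hdn, ⟨k, hk⟩, hall⟩ := h
    have hlx : lev u x = H - 1 := by
      rw [lev_sub', lev_add', hlY0, hup.2] at hx
      omega
    have hxe : x - (Y0 + endp 0 π) + endp 0 π + stepVec (opp u) = x := by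
      rw [← hY0]; abel
    refine ⟨⟨?_, ?_⟩, ⟨?_, ?_⟩, ?_⟩
    · intro z hz
      rw [NB28.mem_sitesL_iff] at hz
      have := hdn.1 _ hz
      rw [lev_sub'] at this
      simp only [hS, Set.mem_setOf_eq]
      omega
    · simp only [hT, Set.mem_setOf_eq]
      have e : endp x γ = x + endp 0 γ := Flux566.endp_eq_add γ x
      constructor
      · rw [e, lev_add', hdn.2]; omega
      · rw [e, add_sub_cancel_left]; exact hE
    · intro z hz
      exact hup.1 z hz
    · exact hup.2
    · -- the first hit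
      obtain ⟨y, hy1, hy2, hy3⟩ := hk
      have hz1 : y + endp 0 π ∈ sitesL 0 π := by
        have := (NB28.mem_sitesL_add π (-endp 0 π) (endp 0 π) y).2 hy1
        rwa [neg_add_cancel] at this
      have hz2 : y + endp 0 π ∈ sitesL x γ := by
        have := (NB28.mem_sitesL_add γ (x - (Y0 + endp 0 π) + stepVec (opp u)) (endp 0 π) y).2 hy2
        rwa [show x - (Y0 + endp 0 π) + stepVec (opp u) + endp 0 π = x by rw [← hY0]; abel] at this
      obtain ⟨π1, π2, e1, h1, h2, h3⟩ := Win775.exists_first (A := {z | z ∈ sitesL x γ}) π 0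
        ⟨_, hz1, hz2⟩
      refine ⟨π1, π2, e1, h1, h2, ?_⟩
      have hmem : endp 0 π1 ∈ sitesL 0 π := by
        rw [e1, Win775.sitesL_append]
        cases π2 with
        | nil => exact absurd rfl h3
        | cons a π2 => simp [sitesL]
      have hl := hup.1 _ hmem
      have hk' := hall (H - (lev u (endp 0 π1)).toNat) (cm_iff u _ π γ (endp 0 π1) hmem
        (by rw [hxe]; exact h2) _ (by rw [hup.2]; omega))
      simp only [hA, Set.mem_setOf_eq]
      omega
  · exact zero_le
  · exact zero_le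

/-- 912's literal `E3` with `C = 4`. -/
theorem E3' (ν : Measure (Row d)) [IsProbabilityMeasure ν] (u : Step d) (s H : ℕ)
    (E : Finset (Site d)) (μ : Site d → ℝ≥0∞) (M lam : ℝ≥0∞) (hμ : ∑' x, μ x ≤ 1)
    (hM : ∀ x, μ x ≤ M) (hl0 : lam ≠ 0) (hlt : lam ≠ ⊤) :
    ∑' x, (if lev u x = 0 then μ x * ∑' π, ∑' γ, (if IsUp u H π ∧ endp 0 γ ∈ E ∧ IsDn u H γ ∧
      (∃ k, k ∈ Cm u x π γ) ∧ (∀ k ∈ Cm u x π γ, k + s ≤ H) then aw ν π * aw ν γ else 0) else 0)
      ≤ 4 * (lam + M * E.card * us ν (opp u) s / lam + us ν (opp u) s) := by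
  refine (E3 ν u s H E μ M lam hμ hM hl0 hlt).trans ?_
  have e : M / lam * (E.card * us ν (opp u) s) = M * E.card * us ν (opp u) s / lam := by
    rw [div_eq_mul_inv, div_eq_mul_inv]; ring
  rw [e, mul_add, mul_add]
  calc 4 * lam + M * E.card * us ν (opp u) s / lam
      ≤ 4 * lam + 4 * (M * E.card * us ν (opp u) s / lam) := by
        refine add_le_add le_rfl ?_
        calc M * E.card * us ν (opp u) s / lam = 1 * (M * E.card * us ν (opp u) s / lam) :=
              (one_mul _).symm
          _ ≤ _ := mul_le_mul_left (by norm_num) _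
    _ ≤ _ := le_self_add

end Crest.Agent.R154.E23168
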