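import Crest.Agent.R154.RatioB_872
import Crest.Agent.R154.HomeC_903

-- ▼ part R154/Try_9
section

/-! Row 154 (helper9), home mass + static units (263 #36390), leaf HM5: median split, big try,
sequential tries, abstract on any `KerSys`. -/

set_option autoImplicit false
set_option linter.unusedSectionVars false
set_option linter.deprecated false

namespace Crest.Agent.R154.Try9

open MeasureTheory ProbabilityTheory Set Filter RatioR872 RatioR872.KerSys
open scoped ENNReal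

variable {S : Type*} [Countable S] {Ω : Type*} {m0 : MeasurableSpace Ω} {P : Measure Ω}
variable (A : KerSys S P)

open Classical in
/-- restricted push -/
noncomputable def rp (D : S → S → Prop) (a b : ℕ) (w : Ω → S → ℝ≥0∞) (ω : Ω) (y : S) : ℝ≥0∞ :=
  ∑' x, w ω x * (if D x y then A.G a b ω x y else 0)

lemma rp_le_push (D : S → S → Prop) (a b : ℕ) (w : Ω → S → ℝ≥0∞) (ω : Ω) (y : S) :
    rp A D a b w ω y ≤ A.push a b w ω y := by
  unfold rp push
  refine ENNReal.tsum_le_tsum fun x => ?_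
  gcongr
  split_ifs
  · exact le_rfl
  · exact zero_le

variable {A}

lemma rp_wt (D : S → S → Prop) {a b : ℕ} (hab : a ≤ b) {w : Ω → S → ℝ≥0∞} (hw : A.Wt a w) :
    A.Wt b (rp A D a b w) where
  meas y := by
    classical
    unfold rp
    refine Measurable.ennreal_tsum fun x => ?_
    refine ((hw.meas x).mono (A.F.mono hab) le_rfl).mul ?_
    by_cases h : D x y
    · simp only [h, if_true]
      exact A.measF a b x y hab
    · simp only [h, if_false]
      exact measurable_const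
  supp ω y hy := by
    have h := rp_le_push A D a b w ω y
    rw [(hw.push hab).supp ω y hy] at h
    exact le_antisymm h zero_le

lemma tot_mono {v w : Ω → S → ℝ≥0∞} {ω : Ω} (h : ∀ y, v ω y ≤ w ω y) : tot v ω ≤ tot w ω :=
  ENNReal.tsum_le_tsum h

lemma tot_rp_le (D : S → S → Prop) {a b : ℕ} (hab : a ≤ b) (w : Ω → S → ℝ≥0∞) (ω : Ω) :
    tot (rp A D a b w) ω ≤ tot w ω :=
  (tot_mono fun y => rp_le_push A D a b w ω y).trans (A.tot_push_le hab w ω)

lemma rp_supp {D : S → S → Prop} {a b : ℕ} {w : Ω → S → ℝ≥0∞} {ω : Ω} {y : S}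
    (h : rp A D a b w ω y ≠ 0) : ∃ x, w ω x ≠ 0 ∧ D x y := by
  classical
  by_contra hn
  push Not at hn
  apply h
  unfold rp
  rw [ENNReal.tsum_eq_zero]
  intro x
  by_cases hx : w ω x = 0
  · rw [hx, zero_mul]
  · rw [if_neg (hn x hx), mul_zero]

lemma push_mono {a b : ℕ} {v w : Ω → S → ℝ≥0∞} {ω : Ω} (h : ∀ y, v ω y ≤ w ω y) (z : S) :
    A.push a b v ω z ≤ A.push a b w ω z := by
  unfold push
  refine ENNReal.tsum_le_tsum fun x => ?_
  gcongr
  exact h x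

lemma push_push_le (A : KerSys S P) {a b c : ℕ} (hab : a ≤ b) (hbc : b ≤ c) :
    ∀ᵐ ω ∂P, ∀ (w : Ω → S → ℝ≥0∞) (z : S), A.push b c (A.push a b w) ω z ≤ A.push a c w ω z := by
  filter_upwards [A.comp a b c hab hbc] with ω h w z
  unfold push
  calc ∑' y, (∑' x, w ω x * A.G a b ω x y) * A.G b c ω y z
      = ∑' y, ∑' x, w ω x * (A.G a b ω x y * A.G b c ω y z) := by
        refine tsum_congr fun y => ?_
        rw [← ENNReal.tsum_mul_right]
        exact tsum_congr fun x => by ring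
    _ = ∑' x, w ω x * ∑' y, A.G a b ω x y * A.G b c ω y z := by
        rw [ENNReal.tsum_comm]
        exact tsum_congr fun x => ENNReal.tsum_mul_left
    _ ≤ ∑' x, w ω x * A.G a c ω x z := by
        refine ENNReal.tsum_le_tsum fun x => ?_
        gcongr
        exact h x z

lemma Sh_ge1 {μ : S → ℝ≥0∞} (hμ : A.Start μ) {a c : ℕ} (hac : a ≤ c) :
    ∀ᵐ ω ∂P, A.Sh μ a ω * tot (A.push a c (A.exitW μ a)) ω ≤ A.Sh μ c ω := by
  filter_upwards [push_push_le A (Nat.zero_le a) hac] with ω h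
  have e : ∀ z, A.Sh μ a ω * A.push a c (A.exitW μ a) ω z
      ≤ A.push 0 c (fun _ => μ) ω z := by
    intro z
    calc A.Sh μ a ω * A.push a c (A.exitW μ a) ω z
        = A.push a c (A.push 0 a fun _ => μ) ω z := by
          unfold push
          rw [← ENNReal.tsum_mul_left]
          refine tsum_congr fun x => ?_
          rw [← mul_assoc, mul_exitW hμ]
          rfl
      _ ≤ _ := h _ z
  calc A.Sh μ a ω * tot (A.push a c (A.exitW μ a)) ω
      = ∑' z, A.Sh μ a ω * A.push a c (A.exitW μ a) ω z := by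
        unfold tot; rw [ENNReal.tsum_mul_left]
    _ ≤ ∑' z, A.push 0 c (fun _ => μ) ω z := ENNReal.tsum_le_tsum e
    _ = A.Sh μ c ω := rfl

/-! ### median split -/

section Split

variable (φ : S → ℝ)

open Classical in
/-- mass strictly to the left of `t` -/
noncomputable def mlt (w : Ω → S → ℝ≥0∞) (ω : Ω) (t : ℝ) : ℝ≥0∞ :=
  ∑' y, if φ y < t then w ω y else 0

open Classical in
/-- mass to the left of `t` -/
noncomputable def mle (w : Ω → S → ℝ≥0∞) (ω : Ω) (t : ℝ) : ℝ≥0∞ :=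
  ∑' y, if φ y ≤ t then w ω y else 0

open Classical in
noncomputable def Lw (w : Ω → S → ℝ≥0∞) (ω : Ω) (x : S) : ℝ≥0∞ :=
  if mlt φ w ω (φ x) < tot w ω / 2 then w ω x else 0

open Classical in
noncomputable def Rw (w : Ω → S → ℝ≥0∞) (ω : Ω) (x : S) : ℝ≥0∞ :=
  if tot w ω / 2 ≤ mle φ w ω (φ x) then w ω x else 0

lemma Lw_le (w : Ω → S → ℝ≥0∞) (ω : Ω) (x : S) : Lw φ w ω x ≤ w ω x := by
  unfold Lw; split_ifs
  · exact le_rfl
  · exact zero_le

lemma Rw_le (w : Ω → S → ℝ≥0∞) (ω : Ω) (x : S) : Rw φ w ω x ≤ w ω x := by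
  unfold Rw; split_ifs
  · exact le_rfl
  · exact zero_le

lemma mle_le_mlt (w : Ω → S → ℝ≥0∞) (ω : Ω) {s t : ℝ} (h : s < t) :
    mle φ w ω s ≤ mlt φ w ω t := by
  unfold mle mlt
  refine ENNReal.tsum_le_tsum fun y => ?_
  by_cases h1 : φ y ≤ s
  · rw [if_pos h1, if_pos (lt_of_le_of_lt h1 h)]
  · rw [if_neg h1]; exact zero_le

lemma LR_order {w : Ω → S → ℝ≥0∞} {ω : Ω} {x y : S} (hx : Lw φ w ω x ≠ 0)
    (hy : Rw φ w ω y ≠ 0) : φ x ≤ φ y := by
  unfold Lw at hx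
  unfold Rw at hy
  have h1 : mlt φ w ω (φ x) < tot w ω / 2 := by
    by_contra h; rw [if_neg h] at hx; exact hx rfl
  have h2 : tot w ω / 2 ≤ mle φ w ω (φ y) := by
    by_contra h; rw [if_neg h] at hy; exact hy rfl
  by_contra h
  push Not at h
  exact absurd (lt_of_lt_of_le (lt_of_le_of_lt (mle_le_mlt φ w ω h) h1) h2) (lt_irrefl _)

open Classical in
lemma mlt_add (w : Ω → S → ℝ≥0∞) (ω : Ω) (t : ℝ) :
    mlt φ w ω t + ∑' y, (if t ≤ φ y then w ω y else 0) = tot w ω := by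
  unfold mlt tot
  rw [← ENNReal.tsum_add]
  refine tsum_congr fun y => ?_
  by_cases h : φ y < t
  · rw [if_pos h, if_neg (not_le.2 h), add_zero]
  · rw [if_neg h, if_pos (not_lt.1 h), zero_add]

/-- a set of more than half the mass contains a finite set of more than half the mass -/
lemma exists_fin {w : Ω → S → ℝ≥0∞} {ω : Ω} (h1 : tot w ω ≠ ∞) {v r : S → ℝ≥0∞}
    (hvr : ∀ x, v x + r x = w ω x) (hlt : ∑' x, v x < tot w ω / 2) :
    ∃ s : Finset S, (∀ x ∈ s, r x ≠ 0) ∧ tot w ω / 2 < ∑ x ∈ s, r x := by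
  classical
  have hr : tot w ω / 2 < ∑' x, r x := by
    by_contra hc
    push Not at hc
    have h2 : tot w ω < tot w ω := by
      calc tot w ω = ∑' x, (v x + r x) := by
            unfold tot; exact tsum_congr fun x => (hvr x).symm
        _ = (∑' x, v x) + ∑' x, r x := ENNReal.tsum_add
        _ ≤ (∑' x, v x) + tot w ω / 2 := by gcongr
        _ < tot w ω / 2 + tot w ω / 2 :=
            ENNReal.add_lt_add_right (ne_top_of_le_ne_top h1 ENNReal.half_le_self) hlt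
        _ = tot w ω := ENNReal.add_halves _
    exact lt_irrefl _ h2
  rw [ENNReal.tsum_eq_iSup_sum] at hr
  obtain ⟨s, hs⟩ := lt_iSup_iff.1 hr
  refine ⟨s.filter fun x => r x ≠ 0, fun x hx => (Finset.mem_filter.1 hx).2, ?_⟩
  rwa [Finset.sum_filter_ne_zero]

lemma half_le_L {w : Ω → S → ℝ≥0∞} {ω : Ω} (h1 : tot w ω ≠ ∞) :
    tot w ω / 2 ≤ tot (Lw φ w) ω := by
  classical
  by_cases h0 : tot w ω = 0
  · rw [h0]; simp
  by_contra hc
  push Not at hc
  obtain ⟨s, hs0, hs⟩ := exists_fin h1 (v := fun x => Lw φ w ω x)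
    (r := fun x => if mlt φ w ω (φ x) < tot w ω / 2 then 0 else w ω x)
    (fun x => by unfold Lw; split_ifs <;> simp) hc
  have hne : s.Nonempty := by
    rw [Finset.nonempty_iff_ne_empty]
    rintro rfl
    simp at hs
  obtain ⟨x, hx, hmin⟩ := s.exists_min_image φ hne
  have hxn := hs0 x hx
  have h2 : ¬ mlt φ w ω (φ x) < tot w ω / 2 := by
    intro h; simp only [h, if_true] at hxn; exact hxn rfl
  push Not at h2
  have h3 := mlt_add φ w ω (φ x)
  have h4 : tot w ω / 2 < ∑' y, (if φ x ≤ φ y then w ω y else 0) := by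
    refine lt_of_lt_of_le hs ?_
    refine le_trans (Finset.sum_le_sum (g := fun y => if φ x ≤ φ y then w ω y else 0) ?_)
      (ENNReal.sum_le_tsum s)
    intro y hy
    rw [if_pos (hmin y hy)]
    split_ifs
    · exact zero_le
    · exact le_rfl
  have h5 : tot w ω < tot w ω := by
    calc tot w ω = tot w ω / 2 + tot w ω / 2 := (ENNReal.add_halves _).symm
      _ < tot w ω / 2 + ∑' y, (if φ x ≤ φ y then w ω y else 0) :=
          ENNReal.add_lt_add_left (ne_top_of_le_ne_top h1 ENNReal.half_le_self) h4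
      _ ≤ mlt φ w ω (φ x) + ∑' y, (if φ x ≤ φ y then w ω y else 0) := by gcongr
      _ = tot w ω := h3
  exact lt_irrefl _ h5

lemma half_le_R {w : Ω → S → ℝ≥0∞} {ω : Ω} (h1 : tot w ω ≠ ∞) :
    tot w ω / 2 ≤ tot (Rw φ w) ω := by
  classical
  by_cases h0 : tot w ω = 0
  · rw [h0]; simp
  by_contra hc
  push Not at hc
  obtain ⟨s, hs0, hs⟩ := exists_fin h1 (v := fun x => Rw φ w ω x)
    (r := fun x => if tot w ω / 2 ≤ mle φ w ω (φ x) then 0 else w ω x)
    (fun x => by unfold Rw; split_ifs <;> simp) hc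
  have hne : s.Nonempty := by
    rw [Finset.nonempty_iff_ne_empty]
    rintro rfl
    simp at hs
  obtain ⟨x, hx, hmax⟩ := s.exists_max_image φ hne
  have hxn := hs0 x hx
  have h2 : ¬ tot w ω / 2 ≤ mle φ w ω (φ x) := by
    intro h; simp only [h, if_true] at hxn; exact hxn rfl
  apply h2
  refine hs.le.trans ?_
  unfold mle
  refine le_trans (Finset.sum_le_sum (g := fun y => if φ y ≤ φ x then w ω y else 0) ?_)
    (ENNReal.sum_le_tsum s)
  intro y hy
  rw [if_pos (hmax y hy)]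
  split_ifs
  · exact zero_le
  · exact le_rfl

lemma meas_mlt {a : ℕ} {w : Ω → S → ℝ≥0∞} (hw : A.Wt a w) (t : ℝ) :
    Measurable[A.F a] (fun ω => mlt φ w ω t) := by
  classical
  unfold mlt
  refine Measurable.ennreal_tsum fun y => ?_
  by_cases h : φ y < t
  · simp only [h, if_true]; exact hw.meas y
  · simp only [h, if_false]; exact measurable_const

lemma meas_mle {a : ℕ} {w : Ω → S → ℝ≥0∞} (hw : A.Wt a w) (t : ℝ) :
    Measurable[A.F a] (fun ω => mle φ w ω t) := by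
  classical
  unfold mle
  refine Measurable.ennreal_tsum fun y => ?_
  by_cases h : φ y ≤ t
  · simp only [h, if_true]; exact hw.meas y
  · simp only [h, if_false]; exact measurable_const

lemma wt_Lw {a : ℕ} {w : Ω → S → ℝ≥0∞} (hw : A.Wt a w) : A.Wt a (Lw φ w) where
  meas x := by
    unfold Lw
    refine Measurable.ite ?_ (hw.meas x) measurable_const
    exact @measurableSet_lt _ _ _ _ _ (A.F a) _ _ _ _ _ (meas_mlt φ hw _) (hw.meas_tot.div_const _)
  supp ω x hx := le_antisymm ((Lw_le φ w ω x).trans (hw.supp ω x hx).le) zero_le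

lemma wt_Rw {a : ℕ} {w : Ω → S → ℝ≥0∞} (hw : A.Wt a w) : A.Wt a (Rw φ w) where
  meas x := by
    unfold Rw
    refine Measurable.ite ?_ (hw.meas x) measurable_const
    exact @measurableSet_le _ _ _ _ _ (A.F a) _ _ _ _ _ (hw.meas_tot.div_const _) (meas_mle φ hw _)
  supp ω x hx := le_antisymm ((Rw_le φ w ω x).trans (hw.supp ω x hx).le) zero_le

end Split

/-! ### the three inputs -/

/-- home relation -/
def Hm (φ : S → ℝ) (d : ℝ) : S → S → Prop := fun x y => |φ y - φ x| ≤ d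

/-- jump relation -/
def Jp (φ : S → ℝ) (Δ : ℝ) : S → S → Prop := fun x y => Δ ≤ φ y - φ x

/-- one static unit over one step of the grid -/
def HomeAt (A : KerSys S P) (φ : S → ℝ) (lv : ℕ → ℕ) (d : ℝ) (ε δ : ℝ≥0∞) (m : ℕ) : Prop :=
  ∀ w : Ω → S → ℝ≥0∞, A.Wt (lv m) w → (∀ ω, tot w ω ≤ 1) → ∀ B, MeasurableSet[A.F (lv m)] B →
    P (B ∩ {ω | tot (rp A (Hm φ d) (lv m) (lv (m + 1)) w) ω < ε * tot w ω}) ≤ δ * P B

/-- the traveller over one step of the grid -/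
def TravAt (A : KerSys S P) (φ : S → ℝ) (lv : ℕ → ℕ) (d2 : ℝ) (ε δ : ℝ≥0∞) (m : ℕ) : Prop :=
  ∀ w : Ω → S → ℝ≥0∞, A.Wt (lv m) w → (∀ ω, tot w ω ≤ 1) → ∀ B, MeasurableSet[A.F (lv m)] B →
    P (B ∩ {ω | tot (rp A (Jp φ d2) (lv m) (lv (m + 1)) w) ω < ε * tot w ω}) ≤ δ * P B

/-- `k` separated units: one of them survives from level `a` to level `e` -/
def UnitsAt (A : KerSys S P) (φ : S → ℝ) (k : ℕ) (g : ℝ) (a e : ℕ) (ε δ : ℝ≥0∞) : Prop :=
  ∀ w : Fin k → Ω → S → ℝ≥0∞, (∀ i, A.Wt a (w i)) → (∀ i ω, tot (w i) ω ≤ 1) →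
    ∀ B, MeasurableSet[A.F a] B →
    (∀ ω ∈ B, ∀ i j, i < j → ∀ x y, w i ω x ≠ 0 → w j ω y ≠ 0 → φ x + g ≤ φ y) →
    P (B ∩ {ω | ∀ i, tot (A.push a e (w i)) ω < ε * tot (w i) ω}) ≤ δ * P B

/-! ### one try -/

section OneTry

variable (A) (φ : S → ℝ) (lv : ℕ → ℕ) (d d2 : ℝ)

/-- one stage of splitting: `j` = index of the last unit -/
noncomputable def nxt (m j : ℕ) (u : ℕ → Ω → S → ℝ≥0∞) (i : ℕ) : Ω → S → ℝ≥0∞ :=
  if i < j then rp A (Hm φ d) (lv m) (lv (m + 1)) (u i)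
  else if i = j then rp A (Hm φ d) (lv m) (lv (m + 1)) (Lw φ (u j))
  else rp A (Jp φ d2) (lv m) (lv (m + 1)) (Rw φ (u j))

/-- the units after `s` stages -/
noncomputable def un (m1 : ℕ) (W : Ω → S → ℝ≥0∞) : ℕ → ℕ → Ω → S → ℝ≥0∞
  | 0 => fun _ => W
  | s + 1 => nxt A φ lv d d2 (m1 + s) s (un m1 W s)

/-- the input of unit `i` in stage `s` -/
noncomputable def inp (m1 : ℕ) (W : Ω → S → ℝ≥0∞) (s i : ℕ) : Ω → S → ℝ≥0∞ :=
  if i < s then un A φ lv d d2 m1 W s i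
  else if i = s then Lw φ (un A φ lv d d2 m1 W s s)
  else Rw φ (un A φ lv d d2 m1 W s s)

/-- success of the first `s` stages -/
def Suc (m1 : ℕ) (W : Ω → S → ℝ≥0∞) (ε : ℝ≥0∞) : ℕ → Set Ω
  | 0 => univ
  | s + 1 => Suc m1 W ε s ∩ {ω | ∀ i, i ≤ s + 1 →
      ε * tot (inp A φ lv d d2 m1 W s i) ω ≤ tot (un A φ lv d d2 m1 W (s + 1) i) ω}

variable {A φ lv d d2} {m1 : ℕ} {W : Ω → S → ℝ≥0∞}

lemma un_wt (hlv : Monotone lv) (hW : A.Wt (lv m1) W) :
    ∀ s i, A.Wt (lv (m1 + s)) (un A φ lv d d2 m1 W s i) := by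
  intro s
  induction s with
  | zero => intro i; exact hW
  | succ s ih =>
    intro i
    have hle : lv (m1 + s) ≤ lv (m1 + s + 1) := hlv (by omega)
    show A.Wt (lv (m1 + s + 1)) (nxt A φ lv d d2 (m1 + s) s (un A φ lv d d2 m1 W s) i)
    unfold nxt
    split_ifs with h1 h2
    · exact rp_wt _ hle (ih i)
    · exact rp_wt _ hle (wt_Lw φ (ih s))
    · exact rp_wt _ hle (wt_Rw φ (ih s))

lemma un_tot (hlv : Monotone lv) (hW1 : ∀ ω, tot W ω ≤ 1) :
    ∀ s i ω, tot (un A φ lv d d2 m1 W s i) ω ≤ 1 := by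
  intro s
  induction s with
  | zero => intro i; exact hW1
  | succ s ih =>
    intro i ω
    have hle : lv (m1 + s) ≤ lv (m1 + s + 1) := hlv (by omega)
    show tot (nxt A φ lv d d2 (m1 + s) s (un A φ lv d d2 m1 W s) i) ω ≤ 1
    unfold nxt
    split_ifs with h1 h2
    · exact (tot_rp_le _ hle _ ω).trans (ih i ω)
    · exact (tot_rp_le _ hle _ ω).trans ((tot_mono fun y => Lw_le φ _ ω y).trans (ih s ω))
    · exact (tot_rp_le _ hle _ ω).trans ((tot_mono fun y => Rw_le φ _ ω y).trans (ih s ω))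

lemma inp_wt (hlv : Monotone lv) (hW : A.Wt (lv m1) W) (s i : ℕ) :
    A.Wt (lv (m1 + s)) (inp A φ lv d d2 m1 W s i) := by
  unfold inp
  split_ifs with h1 h2
  · exact un_wt hlv hW s i
  · exact wt_Lw φ (un_wt hlv hW s s)
  · exact wt_Rw φ (un_wt hlv hW s s)

lemma inp_tot (hlv : Monotone lv) (hW1 : ∀ ω, tot W ω ≤ 1) (s i : ℕ) (ω : Ω) :
    tot (inp A φ lv d d2 m1 W s i) ω ≤ 1 := by
  unfold inp
  split_ifs with h1 h2
  · exact un_tot hlv hW1 s i ω
  · exact (tot_mono fun y => Lw_le φ _ ω y).trans (un_tot hlv hW1 s s ω)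
  · exact (tot_mono fun y => Rw_le φ _ ω y).trans (un_tot hlv hW1 s s ω)

lemma un_sep (hd : 0 ≤ d) (hd2 : 0 ≤ d2) :
    ∀ s : ℕ, ∀ i j : ℕ, i < j → j ≤ s → ∀ ω x y, un A φ lv d d2 m1 W s i ω x ≠ 0 →
      un A φ lv d d2 m1 W s j ω y ≠ 0 → φ x + (d2 - 2 * s * d) ≤ φ y := by
  intro s
  induction s with
  | zero => intro i j hij hj; omega
  | succ s ih =>
    intro i j hij hj ω x y hx hy
    have ex : un A φ lv d d2 m1 W (s + 1) i = nxt A φ lv d d2 (m1 + s) s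
      (un A φ lv d d2 m1 W s) i := rfl
    have ey : un A φ lv d d2 m1 W (s + 1) j = nxt A φ lv d d2 (m1 + s) s
      (un A φ lv d d2 m1 W s) j := rfl
    rw [ex] at hx
    rw [ey] at hy
    have hsd : (0:ℝ) ≤ s * d := mul_nonneg (by positivity) hd
    push_cast
    unfold nxt at hx hy
    by_cases hj1 : j < s
    · -- both old
      rw [if_pos (by omega)] at hx
      rw [if_pos hj1] at hy
      obtain ⟨x0, hx0, hxd⟩ := rp_supp hx
      obtain ⟨y0, hy0, hyd⟩ := rp_supp hy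
      have := ih i j hij hj1.le ω x0 y0 hx0 hy0
      unfold Hm at hxd hyd
      rw [abs_le] at hxd hyd
      nlinarith
    by_cases hj2 : j = s
    · rw [if_pos (by omega)] at hx
      rw [if_neg hj1, if_pos hj2] at hy
      obtain ⟨x0, hx0, hxd⟩ := rp_supp hx
      obtain ⟨y0, hy0, hyd⟩ := rp_supp hy
      have hy0' : un A φ lv d d2 m1 W s s ω y0 ≠ 0 := fun h0 =>
        hy0 (le_antisymm ((Lw_le φ _ ω y0).trans h0.le) zero_le)
      have := ih i s (by omega) le_rfl ω x0 y0 hx0 hy0'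
      unfold Hm at hxd hyd
      rw [abs_le] at hxd hyd
      nlinarith
    · rw [if_neg hj1, if_neg hj2] at hy
      obtain ⟨y0, hy0, hyd⟩ := rp_supp hy
      have hy0' : un A φ lv d d2 m1 W s s ω y0 ≠ 0 := fun h0 =>
        hy0 (le_antisymm ((Rw_le φ _ ω y0).trans h0.le) zero_le)
      unfold Jp at hyd
      by_cases hi : i < s
      · rw [if_pos hi] at hx
        obtain ⟨x0, hx0, hxd⟩ := rp_supp hx
        have := ih i s hi le_rfl ω x0 y0 hx0 hy0'
        unfold Hm at hxd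
        rw [abs_le] at hxd
        nlinarith
      · rw [if_neg hi, if_pos (by omega)] at hx
        obtain ⟨x0, hx0, hxd⟩ := rp_supp hx
        have := LR_order φ hx0 hy0
        unfold Hm at hxd
        rw [abs_le] at hxd
        nlinarith

lemma un_push (hlv : Monotone lv) {e : ℕ} :
    ∀ s, lv (m1 + s) ≤ e → ∀ᵐ ω ∂P, ∀ i z,
      A.push (lv (m1 + s)) e (un A φ lv d d2 m1 W s i) ω z ≤ A.push (lv m1) e W ω z := by
  intro s
  induction s with
  | zero => intro _; exact Filter.Eventually.of_forall fun ω i z => le_rfl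
  | succ s ih =>
    intro he
    have hle : lv (m1 + s) ≤ lv (m1 + s + 1) := hlv (by omega)
    filter_upwards [ih (hle.trans he), push_push_le A hle he] with ω h1 h2 i z
    have key : ∀ (j : ℕ) (D : S → S → Prop) (v : Ω → S → ℝ≥0∞),
        (∀ y, v ω y ≤ un A φ lv d d2 m1 W s j ω y) →
        A.push (lv (m1 + s + 1)) e (rp A D (lv (m1 + s)) (lv (m1 + s + 1)) v) ω z
          ≤ A.push (lv m1) e W ω z := by
      intro j D v hv
      calc A.push (lv (m1 + s + 1)) e (rp A D (lv (m1 + s)) (lv (m1 + s + 1)) v) ω z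
          ≤ A.push (lv (m1 + s + 1)) e (A.push (lv (m1 + s)) (lv (m1 + s + 1))
            (un A φ lv d d2 m1 W s j)) ω z :=
            push_mono (fun y => (rp_le_push A D _ _ v ω y).trans (push_mono hv y)) z
        _ ≤ A.push (lv (m1 + s)) e (un A φ lv d d2 m1 W s j) ω z := h2 _ z
        _ ≤ _ := h1 j z
    show A.push (lv (m1 + s + 1)) e (nxt A φ lv d d2 (m1 + s) s
      (un A φ lv d d2 m1 W s) i) ω z ≤ _
    unfold nxt
    split_ifs with h3 h4
    · exact key i _ _ fun y => le_rfl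
    · exact key s _ _ fun y => Lw_le φ _ ω y
    · exact key s _ _ fun y => Rw_le φ _ ω y

lemma Suc_meas (hlv : Monotone lv) (hW : A.Wt (lv m1) W) (ε : ℝ≥0∞) :
    ∀ s, MeasurableSet[A.F (lv (m1 + s))] (Suc A φ lv d d2 m1 W ε s) := by
  intro s
  induction s with
  | zero => exact MeasurableSet.univ
  | succ s ih =>
    have hle : lv (m1 + s) ≤ lv (m1 + s + 1) := hlv (by omega)
    show MeasurableSet[A.F (lv (m1 + s + 1))] (Suc A φ lv d d2 m1 W ε s ∩ _)
    refine (A.F.mono hle _ ih).inter ?_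
    have : {ω | ∀ i, i ≤ s + 1 →
      ε * tot (inp A φ lv d d2 m1 W s i) ω ≤ tot (un A φ lv d d2 m1 W (s + 1) i) ω}
        = ⋂ i ∈ Finset.range (s + 2), {ω |
      ε * tot (inp A φ lv d d2 m1 W s i) ω ≤ tot (un A φ lv d d2 m1 W (s + 1) i) ω} := by
      ext ω
      simp only [mem_setOf_eq, mem_iInter, Finset.mem_range]
      constructor
      · intro h i hi; exact h i (by omega)
      · intro h i hi; exact h i (by omega)
    rw [this]
    refine Finset.measurableSet_biInter _ fun i _ => ?_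
    have hR : Measurable[A.F (lv (m1 + s + 1))]
        (fun ω => tot (un A φ lv d d2 m1 W (s + 1) i) ω) :=
      (un_wt hlv hW (s + 1) i).meas_tot
    have hL : Measurable[A.F (lv (m1 + s + 1))] (fun ω =>
      ε * tot (inp A φ lv d d2 m1 W s i) ω) :=
      Measurable.const_mul ((inp_wt hlv hW s i).meas_tot.mono (A.F.mono hle) le_rfl) ε
    exact @measurableSet_le _ _ _ _ _ (A.F (lv (m1 + s + 1))) _ _ _ _ _ hL hR

lemma Suc_mass (hlv : Monotone lv) (hW1 : ∀ ω, tot W ω ≤ 1) (ε : ℝ≥0∞) :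
    ∀ s, ∀ ω ∈ Suc A φ lv d d2 m1 W ε s, ∀ i, i ≤ s →
      (ε / 2) ^ s * tot W ω ≤ tot (un A φ lv d d2 m1 W s i) ω := by
  intro s
  induction s with
  | zero =>
    intro ω _ i _
    rw [pow_zero, one_mul]
    exact le_rfl
  | succ s ih =>
    intro ω hω i hi
    obtain ⟨h1, h2⟩ := hω
    have h3 := h2 i hi
    refine le_trans ?_ h3
    have hfin : ∀ j, tot (un A φ lv d d2 m1 W s j) ω ≠ ∞ := fun j =>
      ne_top_of_le_ne_top ENNReal.one_ne_top (un_tot hlv hW1 s j ω)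
    have e1 : (ε / 2) ^ (s + 1) * tot W ω = ε * (((ε / 2) ^ s * tot W ω) / 2) := by
      rw [pow_succ, ENNReal.div_eq_inv_mul, ENNReal.div_eq_inv_mul]
      ring
    rw [e1]
    gcongr
    unfold inp
    split_ifs with h4 h5
    · exact ENNReal.half_le_self.trans (ih ω h1 i h4.le)
    · refine le_trans ?_ (half_le_L φ (hfin s))
      gcongr
      exact ih ω h1 s le_rfl
    · refine le_trans ?_ (half_le_R φ (hfin s))
      gcongr
      exact ih ω h1 s le_rfl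

/-- failure of stage `s` -/
lemma stage_fail (hlv : Monotone lv) (hW : A.Wt (lv m1) W) (hW1 : ∀ ω, tot W ω ≤ 1)
    {ε δ : ℝ≥0∞} {s : ℕ} (hH : HomeAt A φ lv d ε δ (m1 + s)) (hT : TravAt A φ lv d2 ε δ (m1 + s))
    {B : Set Ω} (hB : MeasurableSet[A.F (lv (m1 + s))] B) :
    P ((B ∩ Suc A φ lv d d2 m1 W ε s) ∩ (Suc A φ lv d d2 m1 W ε (s + 1))ᶜ)
      ≤ (s + 2 : ℕ) * δ * P B := by
  have hB' : MeasurableSet[A.F (lv (m1 + s))] (B ∩ Suc A φ lv d d2 m1 W ε s) :=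
    hB.inter (Suc_meas hlv hW ε s)
  have hsub : (B ∩ Suc A φ lv d d2 m1 W ε s) ∩ (Suc A φ lv d d2 m1 W ε (s + 1))ᶜ
      ⊆ ⋃ i ∈ Finset.range (s + 2), (B ∩ Suc A φ lv d d2 m1 W ε s) ∩ {ω |
        tot (un A φ lv d d2 m1 W (s + 1) i) ω < ε * tot (inp A φ lv d d2 m1 W s i) ω} := by
    rintro ω ⟨⟨hω1, hω2⟩, hω3⟩
    have h4 : ¬ ∀ i, i ≤ s + 1 →
      ε * tot (inp A φ lv d d2 m1 W s i) ω ≤ tot (un A φ lv d d2 m1 W (s + 1) i) ω := by
      intro h
      exact hω3 ⟨hω2, h⟩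
    push Not at h4
    obtain ⟨i, hi, h5⟩ := h4
    simp only [mem_iUnion, Finset.mem_range]
    exact ⟨i, by omega, ⟨hω1, hω2⟩, h5⟩
  have hone : ∀ i, P ((B ∩ Suc A φ lv d d2 m1 W ε s) ∩ {ω |
        tot (un A φ lv d d2 m1 W (s + 1) i) ω < ε * tot (inp A φ lv d d2 m1 W s i) ω})
        ≤ δ * P B := by
    intro i
    have hPB : δ * P (B ∩ Suc A φ lv d d2 m1 W ε s) ≤ δ * P B := by
      gcongr
      exact inter_subset_left
    refine le_trans ?_ hPB
    have e1 : un A φ lv d d2 m1 W (s + 1) i = nxt A φ lv d d2 (m1 + s) s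
      (un A φ lv d d2 m1 W s) i := rfl
    rw [e1]
    have hi1 := inp_wt (A := A) (m1 := m1) (φ := φ) (d := d) (d2 := d2) hlv hW s i
    have hi2 := inp_tot (A := A) (m1 := m1) (φ := φ) (d := d) (d2 := d2) hlv hW1 s i
    unfold nxt
    unfold inp at hi1 hi2 ⊢
    split_ifs with h1 h2
    · simp only [h1, if_true] at hi1 hi2
      exact hH _ hi1 hi2 _ hB'
    · simp only [h2, if_true] at hi1 hi2
      rw [if_neg (lt_irrefl s)] at hi1
      refine hH _ hi1 (fun ω => ?_) _ hB'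
      have := hi2 ω
      rw [if_neg (lt_irrefl s)] at this
      exact this
    · simp only [h1, h2, if_false] at hi1 hi2
      exact hT _ hi1 hi2 _ hB'
  calc P ((B ∩ Suc A φ lv d d2 m1 W ε s) ∩ (Suc A φ lv d d2 m1 W ε (s + 1))ᶜ)
      ≤ P (⋃ i ∈ Finset.range (s + 2), (B ∩ Suc A φ lv d d2 m1 W ε s) ∩ {ω |
        tot (un A φ lv d d2 m1 W (s + 1) i) ω < ε * tot (inp A φ lv d d2 m1 W s i) ω}) :=
        measure_mono hsub
    _ ≤ ∑ i ∈ Finset.range (s + 2), P ((B ∩ Suc A φ lv d d2 m1 W ε s) ∩ {ω |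
        tot (un A φ lv d d2 m1 W (s + 1) i) ω < ε * tot (inp A φ lv d d2 m1 W s i) ω}) :=
        measure_biUnion_finset_le _ _
    _ ≤ ∑ i ∈ Finset.range (s + 2), δ * P B := Finset.sum_le_sum fun i _ => hone i
    _ = (s + 2 : ℕ) * δ * P B := by
        rw [Finset.sum_const, Finset.card_range, nsmul_eq_mul, mul_assoc]

/-- failure of a try -/
lemma try_fail (hlv : Monotone lv) (hW : A.Wt (lv m1) W) (hW1 : ∀ ω, tot W ω ≤ 1)
    {ε δ : ℝ≥0∞} {s : ℕ} (hH : ∀ r < s, HomeAt A φ lv d ε δ (m1 + r))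
    (hT : ∀ r < s, TravAt A φ lv d2 ε δ (m1 + r))
    {B : Set Ω} (hB : MeasurableSet[A.F (lv m1)] B) :
    P (B ∩ (Suc A φ lv d d2 m1 W ε s)ᶜ) ≤ ((s * (s + 2) : ℕ) : ℝ≥0∞) * δ * P B := by
  induction s with
  | zero =>
    have : B ∩ (Suc A φ lv d d2 m1 W ε 0)ᶜ = ∅ := by
      show B ∩ univᶜ = ∅
      simp
    rw [this]; simp
  | succ s ih =>
    have ih' := ih (fun r hr => hH r (by omega)) (fun r hr => hT r (by omega))
    have hst := stage_fail (B := B) hlv hW hW1 (hH s (by omega)) (hT s (by omega))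
      (A.F.mono (hlv (by omega)) _ hB)
    calc P (B ∩ (Suc A φ lv d d2 m1 W ε (s + 1))ᶜ)
        ≤ P ((B ∩ (Suc A φ lv d d2 m1 W ε s)ᶜ)
          ∪ ((B ∩ Suc A φ lv d d2 m1 W ε s) ∩ (Suc A φ lv d d2 m1 W ε (s + 1))ᶜ)) := by
          refine measure_mono ?_
          rintro ω ⟨h1, h2⟩
          by_cases h : ω ∈ Suc A φ lv d d2 m1 W ε s
          · exact Or.inr ⟨⟨h1, h⟩, h2⟩
          · exact Or.inl ⟨h1, h⟩
      _ ≤ ((s * (s + 2) : ℕ) : ℝ≥0∞) * δ * P B + (s + 2 : ℕ) * δ * P B :=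
          (measure_union_le _ _).trans (add_le_add ih' hst)
      _ = ((s * (s + 2) + (s + 2) : ℕ) : ℝ≥0∞) * δ * P B := by
          push_cast; ring
      _ ≤ (((s + 1) * (s + 1 + 2) : ℕ) : ℝ≥0∞) * δ * P B := by
          gcongr
          nlinarith

end OneTry

/-! ### sequential tries -/

section Tries

variable {φ : S → ℝ} {lv : ℕ → ℕ} {d d2 : ℝ}

variable (A φ lv d d2) in
/-- success of try `t` -/
def ST (k : ℕ) (μ : S → ℝ≥0∞) (ε : ℝ≥0∞) (t : ℕ) : Set Ω :=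
  Suc A φ lv d d2 (t * k) (A.exitW μ (lv (t * k))) ε (k - 1)

lemma ST_meas {k : ℕ} (hlv : Monotone lv) {μ : S → ℝ≥0∞} (hμ : A.Start μ) (ε : ℝ≥0∞) (t : ℕ) :
    MeasurableSet[A.F (lv (t * k + (k - 1)))] (ST A φ lv d d2 k μ ε t) :=
  Suc_meas hlv (wt_exitW hμ _) ε _

lemma tries_fail {k : ℕ} (hk : 1 ≤ k) (hlv : Monotone lv) {μ : S → ℝ≥0∞} (hμ : A.Start μ)
    {ε δ : ℝ≥0∞} {n : ℕ} (hH : ∀ m < n * k, HomeAt A φ lv d ε δ m)
    (hT : ∀ m < n * k, TravAt A φ lv d2 ε δ m) {B : Set Ω} (hB : MeasurableSet[A.F (lv 0)] B) :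
    ∀ t ≤ n, MeasurableSet[A.F (lv (t * k))] (B ∩ ⋂ l ∈ Finset.range t, (ST A φ lv d d2 k μ ε l)ᶜ)
      ∧ P (B ∩ ⋂ l ∈ Finset.range t, (ST A φ lv d d2 k μ ε l)ᶜ) ≤ ((k * k : ℕ) * δ) ^ t * P B := by
  intro t
  induction t with
  | zero =>
    intro _
    have e0 : (B ∩ ⋂ l ∈ Finset.range 0, (ST A φ lv d d2 k μ ε l)ᶜ) = B := by simp
    rw [e0, zero_mul, pow_zero, one_mul]
    exact ⟨hB, le_rfl⟩
  | succ t ih =>
    intro ht
    obtain ⟨ihm, ihp⟩ := ih (by omega)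
    have htk : t * k + k ≤ n * k := by
      have : (t + 1) * k ≤ n * k := Nat.mul_le_mul_right k ht
      linarith [this, add_mul t 1 k, one_mul k]
    have e1 : (B ∩ ⋂ l ∈ Finset.range (t + 1), (ST A φ lv d d2 k μ ε l)ᶜ)
        = (B ∩ ⋂ l ∈ Finset.range t, (ST A φ lv d d2 k μ ε l)ᶜ) ∩ (ST A φ lv d d2 k μ ε t)ᶜ := by
      rw [Finset.range_add_one, Finset.set_biInter_insert, inter_assoc, inter_comm (_ᶜ)]
    rw [e1]
    constructor
    · have hst : (t + 1) * k = t * k + k := by ring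
      refine MeasurableSet.inter (A.F.mono (hlv (by rw [hst]; omega)) _ ihm) ?_
      refine MeasurableSet.compl ?_
      exact A.F.mono (hlv (by rw [hst]; omega)) _ (ST_meas hlv hμ ε t)
    · have h := try_fail (A := A) (φ := φ) (lv := lv) (d := d) (d2 := d2) (m1 := t * k)
        (W := A.exitW μ (lv (t * k))) (ε := ε) (δ := δ) (s := k - 1) hlv (wt_exitW hμ _)
        (fun ω => tot_exitW_le μ _ ω) (fun r hr => hH _ (by omega)) (fun r hr => hT _ (by omega)) ihm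
      refine h.trans ?_
      have hkk : (k - 1) * (k - 1 + 2) ≤ k * k := by
        obtain ⟨j, rfl⟩ : ∃ j, k = j + 1 := ⟨k - 1, by omega⟩
        simp only [Nat.add_sub_cancel]
        nlinarith
      calc (((k - 1) * (k - 1 + 2) : ℕ) : ℝ≥0∞) * δ
            * P (B ∩ ⋂ l ∈ Finset.range t, (ST A φ lv d d2 k μ ε l)ᶜ)
          ≤ ((k * k : ℕ) : ℝ≥0∞) * δ * (((k * k : ℕ) * δ) ^ t * P B) := by
            gcongr
        _ = ((k * k : ℕ) * δ) ^ (t + 1) * P B := by ring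

/-- continuation after a successful try -/
lemma units_fail {k : ℕ} (hk : 1 ≤ k) (hlv : Monotone lv) {μ : S → ℝ≥0∞} (hμ : A.Start μ)
    {ε ε3 δ3 : ℝ≥0∞} {g : ℝ} {e t : ℕ} (hd : 0 ≤ d) (hd2 : 0 ≤ d2) (hg : g + 2 * k * d ≤ d2)
    (hU : UnitsAt A φ k g (lv (t * k + (k - 1))) e ε3 δ3) {B : Set Ω}
    (hB : MeasurableSet[A.F (lv 0)] B) :
    P ((B ∩ ST A φ lv d d2 k μ ε t) ∩ {ω | ∀ i : Fin k,
      tot (A.push (lv (t * k + (k - 1))) e
        (un A φ lv d d2 (t * k) (A.exitW μ (lv (t * k))) (k - 1) i)) ω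
      < ε3 * tot (un A φ lv d d2 (t * k) (A.exitW μ (lv (t * k))) (k - 1) i) ω})
      ≤ δ3 * P B := by
  have hB' : MeasurableSet[A.F (lv (t * k + (k - 1)))] (B ∩ ST A φ lv d d2 k μ ε t) :=
    (A.F.mono (hlv (Nat.zero_le _)) _ hB).inter (ST_meas hlv hμ ε t)
  have h := hU (fun i => un A φ lv d d2 (t * k) (A.exitW μ (lv (t * k))) (k - 1) i)
    (fun i => un_wt hlv (wt_exitW hμ _) _ _)
    (fun i ω => un_tot hlv (fun ω => tot_exitW_le μ _ ω) _ _ ω) _ hB' (by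
      intro ω _ i j hij x y hx hy
      have hs := un_sep (A := A) (φ := φ) (lv := lv) (m1 := t * k)
        (W := A.exitW μ (lv (t * k))) hd hd2 (k - 1) i j (by exact_mod_cast hij)
        (by have := j.2; omega) ω x y hx hy
      have hk' : ((k - 1 : ℕ) : ℝ) ≤ k := by exact_mod_cast Nat.sub_le k 1
      have : ((k - 1 : ℕ) : ℝ) * d ≤ k * d := mul_le_mul_of_nonneg_right hk' hd
      linarith)
  refine h.trans ?_
  gcongr
  exact inter_subset_left

/-- **HM5**: median split + travellers + sequential tries + `k` separated units -/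
theorem win_of_units {k : ℕ} (hk : 1 ≤ k) (hlv : Monotone lv) {n e : ℕ} (he : lv (n * k) ≤ e)
    {ε δ ε3 δ3 : ℝ≥0∞} {g : ℝ} (hd : 0 ≤ d) (hd2 : 0 ≤ d2) (hg : g + 2 * k * d ≤ d2)
    (hH : ∀ m < n * k, HomeAt A φ lv d ε δ m) (hT : ∀ m < n * k, TravAt A φ lv d2 ε δ m)
    (hU : ∀ t < n, UnitsAt A φ k g (lv (t * k + (k - 1))) e ε3 δ3)
    {μ : S → ℝ≥0∞} (hμ : A.Start μ) {B : Set Ω} (hB : MeasurableSet[A.F (lv 0)] B) :
    P (B ∩ {ω | A.Sh μ (lv (n * k)) ω ≠ 0 ∧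
      A.Sh μ e ω < ε3 * (ε / 2) ^ (k - 1) * A.Sh μ (lv (n * k)) ω})
      ≤ (((k * k : ℕ) * δ) ^ n + n * δ3) * P B := by
  classical
  set F : ℕ → Set Ω := fun t => (B ∩ ST A φ lv d d2 k μ ε t) ∩ {ω | ∀ i : Fin k,
      tot (A.push (lv (t * k + (k - 1))) e
        (un A φ lv d d2 (t * k) (A.exitW μ (lv (t * k))) (k - 1) i)) ω
      < ε3 * tot (un A φ lv d d2 (t * k) (A.exitW μ (lv (t * k))) (k - 1) i) ω} with hF
  have htk : ∀ t < n, t * k + k ≤ n * k := by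
    intro t ht
    have : (t + 1) * k ≤ n * k := Nat.mul_le_mul_right k ht
    linarith [this, add_mul t 1 k, one_mul k]
  have hae : ∀ᵐ ω ∂P, ∀ t ∈ Finset.range n, ∀ i z,
      A.push (lv (t * k + (k - 1))) e
        (un A φ lv d d2 (t * k) (A.exitW μ (lv (t * k))) (k - 1) i) ω z
      ≤ A.push (lv (t * k)) e (A.exitW μ (lv (t * k))) ω z := by
    refine (Finset.eventually_all _).2 fun t ht => ?_
    have := htk t (Finset.mem_range.1 ht)
    exact un_push hlv _ ((hlv (by omega)).trans he)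
  have hae2 : ∀ᵐ ω ∂P, ∀ t ∈ Finset.range n,
      A.Sh μ (lv (t * k)) ω * tot (A.push (lv (t * k)) e (A.exitW μ (lv (t * k)))) ω
        ≤ A.Sh μ e ω := by
    refine (Finset.eventually_all _).2 fun t ht => ?_
    have := htk t (Finset.mem_range.1 ht)
    exact Sh_ge1 hμ ((hlv (by omega)).trans he)
  have hsub : ∀ᵐ ω ∂P, ω ∈ (B ∩ {ω | A.Sh μ (lv (n * k)) ω ≠ 0 ∧
      A.Sh μ e ω < ε3 * (ε / 2) ^ (k - 1) * A.Sh μ (lv (n * k)) ω} : Set Ω) →
      ω ∈ ((B ∩ ⋂ l ∈ Finset.range n, (ST A φ lv d d2 k μ ε l)ᶜ) ∪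
        ⋃ t ∈ Finset.range n, F t : Set Ω) := by
    filter_upwards [hae, hae2] with ω h1 h2 hω
    obtain ⟨hωB, hω0, hωlt⟩ := hω
    by_cases hall : ∀ l ∈ Finset.range n, ω ∈ (ST A φ lv d d2 k μ ε l)ᶜ
    · left
      exact ⟨hωB, by simpa only [mem_iInter] using hall⟩
    · right
      push Not at hall
      obtain ⟨t, ht, htS⟩ := hall
      have htS' : ω ∈ ST A φ lv d d2 k μ ε t := by
        by_contra h; exact htS h
      have hkn := htk t (Finset.mem_range.1 ht)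
      simp only [mem_iUnion]
      refine ⟨t, ht, ⟨hωB, htS'⟩, ?_⟩
      intro i
      by_contra hc
      push Not at hc
      have hanti : A.Sh μ (lv (n * k)) ω ≤ A.Sh μ (lv (t * k)) ω := Sh_anti (hlv (by omega)) ω
      have hne : A.Sh μ (lv (t * k)) ω ≠ 0 := fun h0 => hω0 (le_antisymm (hanti.trans h0.le) zero_le)
      have hone : tot (A.exitW μ (lv (t * k))) ω = 1 := tot_exitW_eq hμ _ ω hne
      have hm := Suc_mass (A := A) (φ := φ) (lv := lv) (d := d) (d2 := d2) (m1 := t * k)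
        (W := A.exitW μ (lv (t * k))) hlv (fun ω => tot_exitW_le μ _ ω) ε (k - 1) ω htS' i
        (by have := i.2; omega)
      rw [hone, mul_one] at hm
      refine absurd hωlt (not_lt.2 ?_)
      calc ε3 * (ε / 2) ^ (k - 1) * A.Sh μ (lv (n * k)) ω
          ≤ A.Sh μ (lv (t * k)) ω * (ε3 *
            tot (un A φ lv d d2 (t * k) (A.exitW μ (lv (t * k))) (k - 1) i) ω) := by
            rw [mul_comm (ε3 * _)]
            gcongr
        _ ≤ A.Sh μ (lv (t * k)) ω * tot (A.push (lv (t * k + (k - 1))) e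
            (un A φ lv d d2 (t * k) (A.exitW μ (lv (t * k))) (k - 1) i)) ω := by
            gcongr
        _ ≤ A.Sh μ (lv (t * k)) ω * tot (A.push (lv (t * k)) e (A.exitW μ (lv (t * k)))) ω := by
            gcongr
            exact tot_mono (h1 t ht i)
        _ ≤ A.Sh μ e ω := h2 t ht
  calc P (B ∩ {ω | A.Sh μ (lv (n * k)) ω ≠ 0 ∧
      A.Sh μ e ω < ε3 * (ε / 2) ^ (k - 1) * A.Sh μ (lv (n * k)) ω})
      ≤ P ((B ∩ ⋂ l ∈ Finset.range n, (ST A φ lv d d2 k μ ε l)ᶜ) ∪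
        ⋃ t ∈ Finset.range n, F t) := measure_mono_ae hsub
    _ ≤ P (B ∩ ⋂ l ∈ Finset.range n, (ST A φ lv d d2 k μ ε l)ᶜ) + P (⋃ t ∈ Finset.range n, F t) :=
        measure_union_le _ _
    _ ≤ ((k * k : ℕ) * δ) ^ n * P B + ∑ t ∈ Finset.range n, δ3 * P B := by
        refine add_le_add (tries_fail hk hlv hμ hH hT hB n le_rfl).2 ?_
        refine (measure_biUnion_finset_le _ _).trans (Finset.sum_le_sum fun t ht => ?_)
        exact units_fail hk hlv hμ hd hd2 hg (hU t (Finset.mem_range.1 ht)) hB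
    _ = (((k * k : ℕ) * δ) ^ n + n * δ3) * P B := by
        rw [Finset.sum_const, Finset.card_range, nsmul_eq_mul]
        ring

end Tries

/-! ### normalised laws -/

section Norm

variable {φ : S → ℝ}








end Norm

end Crest.Agent.R154.Try9
end

-- ▼ part R154/Trav_32
section

/-!
# Row 154 (helper32), HOME MASS (263): the traveller

Macro steps `lv 0 < lv 1 < ... < lv J`.  In one macro step, from every law `w` known at its bottom:
* with probability `≥ 1 - δ` the part of the push that JUMPS (relation `Jp`) has mass `≥ η tot w`;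
* with probability `≥ 1 - C q ^ j` the part of the push that stays HOME up to `j` (relation `Hm j`) has
  mass `≥ ε1 ^ j tot w`.
Conclusion after `J` macro steps: the part of the push with `≥ s` jumps and total home drift `≤ n` has
mass `≥ ε1 ^ n η ^ J tot w` with probability `≥ 1 - (x + δ) ^ J x⁻ˢ - (Z ^ J) σ ^ n`.
-/

set_option autoImplicit false
set_option linter.unusedSectionVars false

namespace Crest.Agent.R154.Trav32

open MeasureTheory ProbabilityTheory Set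
open Crest.Agent.R154.RatioR872 Crest.Agent.R154.RatioR872.KerSys Crest.Agent.R154.Home903
open scoped ENNReal Classical

variable {S : Type*} [Countable S] {Ω : Type*} {m0 : MeasurableSpace Ω} {P : Measure Ω}
variable {A : KerSys S P}

/-- jump part of the bound -/
noncomputable def gg (x δ : ℝ≥0∞) (r s : ℕ) : ℝ≥0∞ :=
  if s = 0 then 0 else (x + δ) ^ r * (x⁻¹) ^ s

lemma gg_step {x δ : ℝ≥0∞} (hx0 : x ≠ 0) (hx1 : x ≤ 1) (r s : ℕ) :
    gg x δ r (s - 1) + δ * gg x δ r s ≤ gg x δ (r + 1) s := by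
  rcases s with _ | _ | s
  · simp [gg]
  · simp only [gg, zero_add, Nat.sub_self, if_true, one_ne_zero, if_false]
    calc δ * ((x + δ) ^ r * x⁻¹ ^ 1) = δ * (x + δ) ^ r * x⁻¹ ^ 1 := by ring
      _ ≤ (x + δ) * (x + δ) ^ r * x⁻¹ ^ 1 := by gcongr; exact le_add_self
      _ = (x + δ) ^ (r + 1) * x⁻¹ ^ 1 := by ring
  · have hxx : x * x⁻¹ = 1 := ENNReal.mul_inv_cancel hx0 (ne_top_of_le_ne_top ENNReal.one_ne_top hx1)
    have e1 : s + 1 + 1 - 1 = s + 1 := by omega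
    simp only [gg, e1, Nat.succ_ne_zero, if_false]
    refine le_of_eq ?_
    calc (x + δ) ^ r * x⁻¹ ^ (s + 1) + δ * ((x + δ) ^ r * x⁻¹ ^ (s + 1 + 1))
        = (x + δ) ^ r * x⁻¹ ^ (s + 1) * 1 + δ * ((x + δ) ^ r * x⁻¹ ^ (s + 1 + 1)) := by ring
      _ = (x + δ) ^ r * x⁻¹ ^ (s + 1) * (x * x⁻¹) + δ * ((x + δ) ^ r * x⁻¹ ^ (s + 1 + 1)) := by
          rw [hxx]
      _ = (x + δ) ^ (r + 1) * x⁻¹ ^ (s + 1 + 1) := by ring

lemma one_le_gg {x δ : ℝ≥0∞} (hx0 : x ≠ 0) (hx1 : x ≤ 1) {s : ℕ} (hs : s ≠ 0) :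
    1 ≤ gg x δ 1 s := by
  obtain ⟨s, rfl⟩ := Nat.exists_eq_succ_of_ne_zero hs
  have hxx : x * x⁻¹ = 1 := ENNReal.mul_inv_cancel hx0 (ne_top_of_le_ne_top ENNReal.one_ne_top hx1)
  have h1 : 1 ≤ x⁻¹ := ENNReal.one_le_inv.2 hx1
  simp only [gg, Nat.succ_ne_zero, if_false]
  calc (1 : ℝ≥0∞) = 1 * 1 := by ring
    _ ≤ (x * x⁻¹) * x⁻¹ ^ s := by rw [hxx]; gcongr; exact one_le_pow₀ h1
    _ = x ^ 1 * x⁻¹ ^ (s + 1) := by ring
    _ ≤ _ := by gcongr; exact le_self_add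

lemma triv_bound {W : ℝ≥0∞} (hW : 1 ≤ W) (B X : Set Ω) : P (B ∩ X) ≤ W * P B :=
  calc P (B ∩ X) ≤ P B := measure_mono inter_subset_left
    _ = 1 * P B := (one_mul _).symm
    _ ≤ W * P B := by gcongr

/-- **the sequential composition** -/
theorem main {lv : ℕ → ℕ} (hlv : Monotone lv) {J : ℕ} {Jp : S → S → Prop}
    {Hm : ℕ → S → S → Prop} {E : ℕ → ℕ → S → S → Prop}
    (hE1 : ∀ s n x y z, Jp x y → E (s - 1) n y z → E s n x z)
    (hE2 : ∀ s n j, 1 ≤ j → j ≤ n → ∀ x y z, Hm j x y → E s (n - j) y z → E s n x z)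
    (hE3 : ∀ n x y, 1 ≤ n → Hm n x y → E 0 n x y)
    {η ε1 δ q C x σ Z : ℝ≥0∞} (hη : η ≤ 1) (hC : 1 ≤ C) (hx1 : x ≤ 1) (hx0 : x ≠ 0)
    (hJump : ∀ t < J, ∀ w, A.Wt (lv t) w → (∀ ω, tot w ω ≤ 1) → ∀ B, MeasurableSet[A.F (lv t)] B →
      P (B ∩ {ω | tot (rpush A Jp (lv t) (lv (t + 1)) w) ω < η * tot w ω}) ≤ δ * P B)
    (hHome : ∀ t < J, ∀ w, A.Wt (lv t) w → (∀ ω, tot w ω ≤ 1) → ∀ B, MeasurableSet[A.F (lv t)] B →
      ∀ j, 1 ≤ j →
      P (B ∩ {ω | tot (rpush A (Hm j) (lv t) (lv (t + 1)) w) ω < ε1 ^ j * tot w ω})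
        ≤ C * q ^ j * P B)
    (hZ : ∀ n, σ ^ n + ∑ j ∈ Finset.Icc 1 n, C * q ^ (j - 1) * σ ^ (n - j) + C * q ^ n ≤ Z * σ ^ n) :
    ∀ r, 1 ≤ r → ∀ i, i + r ≤ J → ∀ s n w, A.Wt (lv i) w → (∀ ω, tot w ω ≤ 1) →
      ∀ B, MeasurableSet[A.F (lv i)] B →
      P (B ∩ {ω | tot (rpush A (E s n) (lv i) (lv (i + r)) w) ω < ε1 ^ n * η ^ r * tot w ω})
        ≤ (gg x δ r s + Z ^ r * σ ^ n) * P B := by
  have hZ1 : 1 ≤ Z := by
    have := hZ 0
    simp only [pow_zero, mul_one, Finset.Icc_eq_empty_of_lt (by norm_num : (0:ℕ) < 1),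
      Finset.sum_empty, add_zero] at this
    exact le_trans (le_self_add) this
  intro r hr
  induction r, hr using Nat.le_induction with
  | base =>
    intro i hi s n w hw hw1 B hB
    rcases Nat.eq_zero_or_pos s with rfl | hs
    · rcases Nat.eq_zero_or_pos n with rfl | hn
      · refine triv_bound ?_ _ _
        simp only [pow_zero, mul_one, pow_one]
        exact hZ1.trans le_add_self
      · have h1 := hHome i (by omega) w hw hw1 B hB n hn
        calc P (B ∩ {ω | tot (rpush A (E 0 n) (lv i) (lv (i + 1)) w) ω < ε1 ^ n * η ^ 1 * tot w ω})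
            ≤ P (B ∩ {ω | tot (rpush A (Hm n) (lv i) (lv (i + 1)) w) ω < ε1 ^ n * tot w ω}) := by
              refine measure_mono fun ω hω => ⟨hω.1, ?_⟩
              calc tot (rpush A (Hm n) (lv i) (lv (i + 1)) w) ω
                  ≤ tot (rpush A (E 0 n) (lv i) (lv (i + 1)) w) ω :=
                    tot_rpush_mono_D (fun x y => hE3 n x y hn) _ _ _ _
                _ < ε1 ^ n * η ^ 1 * tot w ω := hω.2
                _ ≤ ε1 ^ n * 1 * tot w ω := by gcongr; rw [pow_one]; exact hη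
                _ = ε1 ^ n * tot w ω := by ring
          _ ≤ C * q ^ n * P B := h1
          _ ≤ _ := by
              gcongr
              rw [pow_one]
              exact (le_add_self.trans (hZ n)).trans le_add_self
    · refine triv_bound ?_ _ _
      exact (one_le_gg hx0 hx1 (by omega)).trans le_self_add
  | succ r hr ih =>
    intro i hi s n w hw hw1 B hB
    rcases Nat.eq_zero_or_pos n with rfl | hn
    · refine triv_bound ?_ _ _
      simp only [pow_zero, mul_one]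
      exact (one_le_pow₀ hZ1).trans le_add_self
    have hlv1 : lv i ≤ lv (i + 1) := hlv (Nat.le_succ i)
    have hlv2 : lv (i + 1) ≤ lv (i + 1 + r) := hlv (by omega)
    have eir : i + (r + 1) = i + 1 + r := by omega
    rw [eir]
    have hB' : MeasurableSet[A.F (lv (i + 1))] B := A.F.mono hlv1 _ hB
    set wJ := rpush A Jp (lv i) (lv (i + 1)) w with hwJ
    set wH : ℕ → Ω → S → ℝ≥0∞ := fun j => rpush A (Hm j) (lv i) (lv (i + 1)) w with hwH
    have hwJw : A.Wt (lv (i + 1)) wJ := rpush_wt hlv1 hw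
    have hwHw : ∀ j, A.Wt (lv (i + 1)) (wH j) := fun j => rpush_wt hlv1 hw
    have hwJ1 : ∀ ω, tot wJ ω ≤ 1 := fun ω =>
      (tot_rpush_le _ _ _ _ _).trans ((tot_push_le A hlv1 w ω).trans (hw1 ω))
    have hwH1 : ∀ j ω, tot (wH j) ω ≤ 1 := fun j ω =>
      (tot_rpush_le _ _ _ _ _).trans ((tot_push_le A hlv1 w ω).trans (hw1 ω))
    have hwm : Measurable[A.F (lv (i + 1))] (fun ω => tot w ω) :=
      hw.meas_tot.mono (A.F.mono hlv1) le_rfl
    set Sg : Set Ω := {ω | η * tot w ω ≤ tot wJ ω} with hSg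
    set G : ℕ → Set Ω := fun j => {ω | ε1 ^ j * tot w ω ≤ tot (wH j) ω} with hG
    have hSm : MeasurableSet[A.F (lv (i + 1))] Sg :=
      measurableSet_le (hwm.const_mul _) hwJw.meas_tot
    have hGm : ∀ j, MeasurableSet[A.F (lv (i + 1))] (G j) := fun j =>
      measurableSet_le (hwm.const_mul _) (hwHw j).meas_tot
    set R : ℕ → Set Ω := fun j => Sgᶜ ∩ (G j ∩ ⋂ j' ∈ Finset.Ico 1 j, (G j')ᶜ) with hR
    have hRm : ∀ j, MeasurableSet[A.F (lv (i + 1))] (R j) := fun j =>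
      hSm.compl.inter ((hGm j).inter (Finset.measurableSet_biInter _ fun j' _ => (hGm j').compl))
    -- prices
    have hPS : P (B ∩ Sgᶜ) ≤ δ * P B := by
      refine le_trans (measure_mono ?_) (hJump i (by omega) w hw hw1 B hB)
      intro ω hω
      have h2 : ¬ (η * tot w ω ≤ tot wJ ω) := hω.2
      exact ⟨hω.1, not_le.1 h2⟩
    have hPG : ∀ j, 1 ≤ j → P (B ∩ (G j)ᶜ) ≤ C * q ^ j * P B := by
      intro j hj
      refine le_trans (measure_mono ?_) (hHome i (by omega) w hw hw1 B hB j hj)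
      intro ω hω
      have h2 : ¬ (ε1 ^ j * tot w ω ≤ tot (wH j) ω) := hω.2
      exact ⟨hω.1, not_le.1 h2⟩
    have hPR : ∀ j, 1 ≤ j → P (B ∩ R j) ≤ C * q ^ (j - 1) * P B := by
      intro j hj
      rcases Nat.lt_or_ge 1 j with h1 | h1
      · refine le_trans (measure_mono ?_) (hPG (j - 1) (by omega))
        intro ω hω
        refine ⟨hω.1, ?_⟩
        have := hω.2.2.2
        simp only [mem_iInter] at this
        exact this (j - 1) (Finset.mem_Ico.2 ⟨by omega, by omega⟩)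
      · have : j - 1 = 0 := by omega
        rw [this, pow_zero, mul_one]
        exact triv_bound hC _ _
    have hPsum : ∑ j ∈ Finset.Icc 1 n, P (B ∩ R j) ≤ δ * P B := by
      have hdis : Set.PairwiseDisjoint (↑(Finset.Icc 1 n)) fun j => B ∩ R j := by
        intro j hj j' hj' hne
        have hj1 := Finset.mem_Icc.1 (Finset.mem_coe.1 hj)
        have hj1' := Finset.mem_Icc.1 (Finset.mem_coe.1 hj')
        rw [Function.onFun, Set.disjoint_left]
        rintro ω ⟨_, _, h1, h2⟩ ⟨_, _, h1', h2'⟩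
        simp only [mem_iInter] at h2 h2'
        rcases lt_or_gt_of_ne hne with h | h
        · exact h2' j (Finset.mem_Ico.2 ⟨hj1.1, h⟩) h1
        · exact h2 j' (Finset.mem_Ico.2 ⟨hj1'.1, h⟩) h1'
      rw [← measure_biUnion_finset hdis fun j _ => (A.F.le _ _ (hB'.inter (hRm j)))]
      refine le_trans (measure_mono ?_) hPS
      intro ω hω
      obtain ⟨j, _, h⟩ := mem_iUnion₂.1 hω
      exact ⟨h.1, h.2.1⟩
    -- covering
    have hcov : P (B ∩ {ω | tot (rpush A (E s n) (lv i) (lv (i + 1 + r)) w) ω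
          < ε1 ^ n * η ^ (r + 1) * tot w ω}) ≤
        P ((B ∩ Sg) ∩ {ω | tot (rpush A (E (s - 1) n) (lv (i + 1)) (lv (i + 1 + r)) wJ) ω
          < ε1 ^ n * η ^ r * tot wJ ω}) +
        ∑ j ∈ Finset.Icc 1 n,
          P ((B ∩ R j) ∩ {ω | tot (rpush A (E s (n - j)) (lv (i + 1)) (lv (i + 1 + r)) (wH j)) ω
          < ε1 ^ (n - j) * η ^ r * tot (wH j) ω}) + P (B ∩ (G n)ᶜ) := by
      refine le_trans (measure_mono_ae ?_) ((measure_union_le _ _).trans
        (add_le_add ((measure_union_le _ _).trans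
        (add_le_add le_rfl (measure_biUnion_finset_le _ _))) le_rfl))
      have hc1 := tot_rpush_comp (A := A) (P := P) (hE1 s n) hlv1 hlv2
      have hc2 : ∀ᵐ ω ∂P, ∀ j, 1 ≤ j → j ≤ n → ∀ w : Ω → S → ℝ≥0∞,
          tot (rpush A (E s (n - j)) (lv (i + 1)) (lv (i + 1 + r))
            (rpush A (Hm j) (lv i) (lv (i + 1)) w)) ω
            ≤ tot (rpush A (E s n) (lv i) (lv (i + 1 + r)) w) ω := by
        rw [ae_all_iff]
        intro j
        by_cases hj : 1 ≤ j ∧ j ≤ n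
        · filter_upwards [tot_rpush_comp (A := A) (P := P) (hE2 s n j hj.1 hj.2) hlv1 hlv2]
            with ω hω _ _ using hω
        · exact Filter.Eventually.of_forall fun ω h1 h2 => absurd ⟨h1, h2⟩ hj
      filter_upwards [hc1, hc2] with ω h1 h2
      rintro ⟨hωB, hω⟩
      rw [mem_setOf_eq] at hω
      by_cases hωS : ω ∈ Sg
      · left; left
        refine ⟨⟨hωB, hωS⟩, ?_⟩
        rw [mem_setOf_eq]
        refine (h1 w).trans_lt (hω.trans_le ?_)
        calc ε1 ^ n * η ^ (r + 1) * tot w ω = ε1 ^ n * η ^ r * (η * tot w ω) := by ring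
          _ ≤ ε1 ^ n * η ^ r * tot wJ ω := by gcongr; exact hωS
      · by_cases hex : ∃ j, 1 ≤ j ∧ ω ∈ G j
        · set j := Nat.find hex with hj
          have hj1 : 1 ≤ j := (Nat.find_spec hex).1
          have hj2 : ω ∈ G j := (Nat.find_spec hex).2
          have hj3 : ∀ j' ∈ Finset.Ico 1 j, ω ∉ G j' := by
            intro j' hj' hG'
            have := Finset.mem_Ico.1 hj'
            exact Nat.find_min hex this.2 ⟨this.1, hG'⟩
          by_cases hjn : j ≤ n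
          · left; right
            refine mem_iUnion₂.2 ⟨j, Finset.mem_Icc.2 ⟨hj1, hjn⟩, ⟨hωB, hωS, hj2, ?_⟩, ?_⟩
            · simp only [mem_iInter]
              exact hj3
            · rw [mem_setOf_eq]
              refine (h2 j hj1 hjn w).trans_lt (hω.trans_le ?_)
              calc ε1 ^ n * η ^ (r + 1) * tot w ω
                  = ε1 ^ (n - j) * η ^ r * η * (ε1 ^ j * tot w ω) := by
                    have : ε1 ^ n = ε1 ^ (n - j) * ε1 ^ j := by
                      rw [← pow_add]; congr 1; omega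
                    rw [this]; ring
                _ ≤ ε1 ^ (n - j) * η ^ r * 1 * tot (wH j) ω := by gcongr; exact hj2
                _ = ε1 ^ (n - j) * η ^ r * tot (wH j) ω := by ring
          · right
            exact ⟨hωB, hj3 n (Finset.mem_Ico.2 ⟨hn, by omega⟩)⟩
        · right
          exact ⟨hωB, fun h => hex ⟨n, hn, h⟩⟩
    -- summing up
    have hI1 := ih (i + 1) (by omega) (s - 1) n wJ hwJw hwJ1 (B ∩ Sg) (hB'.inter hSm)
    have hI2 : ∀ j ∈ Finset.Icc 1 n, P ((B ∩ R j) ∩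
        {ω | tot (rpush A (E s (n - j)) (lv (i + 1)) (lv (i + 1 + r)) (wH j)) ω
          < ε1 ^ (n - j) * η ^ r * tot (wH j) ω}) ≤
        gg x δ r s * P (B ∩ R j) + Z ^ r * (C * q ^ (j - 1) * σ ^ (n - j)) * P B := by
      intro j hj
      have hj' := Finset.mem_Icc.1 hj
      calc _ ≤ (gg x δ r s + Z ^ r * σ ^ (n - j)) * P (B ∩ R j) :=
            ih (i + 1) (by omega) s (n - j) (wH j) (hwHw j) (hwH1 j) (B ∩ R j) (hB'.inter (hRm j))
        _ = gg x δ r s * P (B ∩ R j) + Z ^ r * σ ^ (n - j) * P (B ∩ R j) := by ring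
        _ ≤ gg x δ r s * P (B ∩ R j) + Z ^ r * σ ^ (n - j) * (C * q ^ (j - 1) * P B) := by
            gcongr
            exact hPR j hj'.1
        _ = _ := by ring
    calc _ ≤ _ := hcov
      _ ≤ (gg x δ r (s - 1) + Z ^ r * σ ^ n) * P B +
          ∑ j ∈ Finset.Icc 1 n, (gg x δ r s * P (B ∩ R j) +
            Z ^ r * (C * q ^ (j - 1) * σ ^ (n - j)) * P B) + C * q ^ n * P B := by
          refine add_le_add (add_le_add (hI1.trans ?_) (Finset.sum_le_sum hI2)) (hPG n hn)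
          gcongr
          exact inter_subset_left
      _ = (gg x δ r (s - 1) + Z ^ r * σ ^ n) * P B +
          (gg x δ r s * ∑ j ∈ Finset.Icc 1 n, P (B ∩ R j) +
            Z ^ r * (∑ j ∈ Finset.Icc 1 n, C * q ^ (j - 1) * σ ^ (n - j)) * P B)
            + C * q ^ n * P B := by
          rw [Finset.sum_add_distrib, ← Finset.mul_sum, ← Finset.sum_mul, ← Finset.mul_sum]
      _ ≤ (gg x δ r (s - 1) + Z ^ r * σ ^ n) * P B +
          (gg x δ r s * (δ * P B) +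
            Z ^ r * (∑ j ∈ Finset.Icc 1 n, C * q ^ (j - 1) * σ ^ (n - j)) * P B)
            + Z ^ r * (C * q ^ n) * P B := by
          refine add_le_add (add_le_add le_rfl ?_) ?_
          · gcongr
          · rw [← mul_assoc]
            have : (1 : ℝ≥0∞) ≤ Z ^ r := one_le_pow₀ hZ1
            calc C * q ^ n * P B = 1 * C * q ^ n * P B := by ring
              _ ≤ Z ^ r * C * q ^ n * P B := by gcongr
      _ = ((gg x δ r (s - 1) + δ * gg x δ r s) +
          Z ^ r * (σ ^ n + ∑ j ∈ Finset.Icc 1 n, C * q ^ (j - 1) * σ ^ (n - j) + C * q ^ n))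
          * P B := by ring
      _ ≤ (gg x δ (r + 1) s + Z ^ r * (Z * σ ^ n)) * P B := by
          gcongr
          · exact gg_step hx0 hx1 r s
          · exact hZ n
      _ = (gg x δ (r + 1) s + Z ^ (r + 1) * σ ^ n) * P B := by ring

/-- numeric input: `q ≤ σ / 2`, `Z = 1 + 2 C / σ + C` -/
lemma hZ_num {q σ C : ℝ≥0∞} (hσ0 : σ ≠ 0) (hσ1 : σ ≠ ∞) (hq : q ≤ σ / 2) (n : ℕ) :
    σ ^ n + ∑ j ∈ Finset.Icc 1 n, C * q ^ (j - 1) * σ ^ (n - j) + C * q ^ n
      ≤ (1 + 2 * C / σ + C) * σ ^ n := by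
  have hq' : q ≤ 2⁻¹ * σ := by rwa [mul_comm, ← div_eq_mul_inv]
  have hgeo : ∑ j ∈ Finset.Icc 1 n, (2⁻¹ : ℝ≥0∞) ^ (j - 1) ≤ 2 := by
    calc ∑ j ∈ Finset.Icc 1 n, (2⁻¹ : ℝ≥0∞) ^ (j - 1)
        = ∑ j ∈ Finset.range n, (2⁻¹ : ℝ≥0∞) ^ j := by
          refine Finset.sum_bij' (fun j _ => j - 1) (fun j _ => j + 1) ?_ ?_ ?_ ?_ ?_
          · intro j hj
            have := Finset.mem_Icc.1 hj
            exact Finset.mem_range.2 (by omega)
          · intro j hj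
            have := Finset.mem_range.1 hj
            exact Finset.mem_Icc.2 ⟨by omega, by omega⟩
          · intro j hj
            have := Finset.mem_Icc.1 hj
            show j - 1 + 1 = j
            omega
          · intro j _
            show j + 1 - 1 = j
            omega
          · intro j _
            rfl
      _ ≤ ∑' j, (2⁻¹ : ℝ≥0∞) ^ j := ENNReal.sum_le_tsum _
      _ = 2 := by rw [ENNReal.tsum_geometric, ENNReal.one_sub_inv_two, inv_inv]
  have h1 : ∑ j ∈ Finset.Icc 1 n, C * q ^ (j - 1) * σ ^ (n - j) ≤ (2 * C / σ) * σ ^ n := by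
    rcases Nat.eq_zero_or_pos n with rfl | hn
    · simp
    calc ∑ j ∈ Finset.Icc 1 n, C * q ^ (j - 1) * σ ^ (n - j)
        ≤ ∑ j ∈ Finset.Icc 1 n, (C * σ ^ (n - 1)) * (2⁻¹ : ℝ≥0∞) ^ (j - 1) := by
          refine Finset.sum_le_sum fun j hj => ?_
          have hj' := Finset.mem_Icc.1 hj
          calc C * q ^ (j - 1) * σ ^ (n - j) ≤ C * (2⁻¹ * σ) ^ (j - 1) * σ ^ (n - j) := by gcongr
            _ = C * (2⁻¹ : ℝ≥0∞) ^ (j - 1) * (σ ^ (j - 1) * σ ^ (n - j)) := by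
                rw [mul_pow]; ring
            _ = (C * σ ^ (n - 1)) * (2⁻¹ : ℝ≥0∞) ^ (j - 1) := by
                rw [← pow_add]
                have : j - 1 + (n - j) = n - 1 := by omega
                rw [this]; ring
      _ = (C * σ ^ (n - 1)) * ∑ j ∈ Finset.Icc 1 n, (2⁻¹ : ℝ≥0∞) ^ (j - 1) := by
          rw [Finset.mul_sum]
      _ ≤ (C * σ ^ (n - 1)) * 2 := by gcongr
      _ = 2 * C * σ ^ (n - 1) * 1 := by ring
      _ = 2 * C * σ ^ (n - 1) * (σ⁻¹ * σ) := by rw [ENNReal.inv_mul_cancel hσ0 hσ1]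
      _ = (2 * C * σ⁻¹) * (σ ^ (n - 1) * σ) := by ring
      _ = (2 * C / σ) * σ ^ n := by
          rw [← pow_succ, Nat.sub_add_cancel hn, div_eq_mul_inv]
  have h2 : C * q ^ n ≤ C * σ ^ n := by
    gcongr
    refine hq.trans ?_
    exact ENNReal.half_le_self
  calc _ ≤ σ ^ n + (2 * C / σ) * σ ^ n + C * σ ^ n := by gcongr
    _ = _ := by ring

variable {φ : S → ℝ}

/-- **TRAVELLER**: at least `s` jumps of size `Δ`, total home drift at most `n * D1`. -/
theorem trav {lv : ℕ → ℕ} (hlv : Monotone lv) {J : ℕ} (hJ : 1 ≤ J) {Δ D1 : ℝ} (hΔ : 0 ≤ Δ)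
    {η ε1 δ q C x σ Z : ℝ≥0∞} (hη : η ≤ 1) (hC : 1 ≤ C) (hx1 : x ≤ 1) (hx0 : x ≠ 0)
    (hJump : ∀ t < J, ∀ w, A.Wt (lv t) w → (∀ ω, tot w ω ≤ 1) → ∀ B, MeasurableSet[A.F (lv t)] B →
      P (B ∩ {ω | tot (rpush A (fun x y => Δ ≤ φ y - φ x) (lv t) (lv (t + 1)) w) ω < η * tot w ω})
        ≤ δ * P B)
    (hHome : ∀ t < J, ∀ w, A.Wt (lv t) w → (∀ ω, tot w ω ≤ 1) → ∀ B, MeasurableSet[A.F (lv t)] B →
      ∀ j : ℕ, 1 ≤ j →
      P (B ∩ {ω | tot (rpush A (fun x y => |φ y - φ x| ≤ j * D1) (lv t) (lv (t + 1)) w) ω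
        < ε1 ^ j * tot w ω}) ≤ C * q ^ j * P B)
    (hZ : ∀ n, σ ^ n + ∑ j ∈ Finset.Icc 1 n, C * q ^ (j - 1) * σ ^ (n - j) + C * q ^ n ≤ Z * σ ^ n)
    (s n : ℕ) {w : Ω → S → ℝ≥0∞} (hw : A.Wt (lv 0) w) (hw1 : ∀ ω, tot w ω ≤ 1)
    {B : Set Ω} (hB : MeasurableSet[A.F (lv 0)] B) :
    P (B ∩ {ω | tot (rpush A (fun x y => s * Δ - n * D1 ≤ φ y - φ x) (lv 0) (lv J) w) ω
      < ε1 ^ n * η ^ J * tot w ω}) ≤ ((x + δ) ^ J * (x⁻¹) ^ s + Z ^ J * σ ^ n) * P B := by
  have := main (A := A) (P := P) hlv (J := J) (Jp := fun x y => Δ ≤ φ y - φ x)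
    (Hm := fun j x y => |φ y - φ x| ≤ j * D1)
    (E := fun s n x y => s * Δ - n * D1 ≤ φ y - φ x)
    (by
      intro s n x y z h1 h2
      have h3 : (s : ℝ) ≤ ((s - 1 : ℕ) : ℝ) + 1 := by
        exact_mod_cast (by omega : s ≤ s - 1 + 1)
      have h4 : (s : ℝ) * Δ ≤ (((s - 1 : ℕ) : ℝ) + 1) * Δ := mul_le_mul_of_nonneg_right h3 hΔ
      linarith)
    (by
      intro s n j _ hjn x y z h1 h2
      have h3 : ((n - j : ℕ) : ℝ) = n - j := Nat.cast_sub hjn
      rw [h3] at h2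
      have h4 := (abs_le.1 h1).1
      linarith)
    (by
      intro n x y _ h1
      have h4 := (abs_le.1 h1).1
      simp only [Nat.cast_zero, zero_mul, zero_sub]
      exact h4)
    hη hC hx1 hx0 hJump hHome hZ J hJ 0 (by omega) s n w hw hw1 B hB
  rw [zero_add] at this
  refine this.trans ?_
  gcongr
  unfold gg
  by_cases hs : s = 0
  · simp [hs]
  · simp [hs]

/-- **HOME** over `J` macro steps: total drift at most `n * D1`. -/
theorem home {lv : ℕ → ℕ} (hlv : Monotone lv) {J : ℕ} (hJ : 1 ≤ J) {D1 : ℝ}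
    {ε1 q C σ Z : ℝ≥0∞} (hC : 1 ≤ C)
    (hHome : ∀ t < J, ∀ w, A.Wt (lv t) w → (∀ ω, tot w ω ≤ 1) → ∀ B, MeasurableSet[A.F (lv t)] B →
      ∀ j : ℕ, 1 ≤ j →
      P (B ∩ {ω | tot (rpush A (fun x y => |φ y - φ x| ≤ j * D1) (lv t) (lv (t + 1)) w) ω
        < ε1 ^ j * tot w ω}) ≤ C * q ^ j * P B)
    (hZ : ∀ n, σ ^ n + ∑ j ∈ Finset.Icc 1 n, C * q ^ (j - 1) * σ ^ (n - j) + C * q ^ n ≤ Z * σ ^ n)
    (n : ℕ) {w : Ω → S → ℝ≥0∞} (hw : A.Wt (lv 0) w) (hw1 : ∀ ω, tot w ω ≤ 1)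
    {B : Set Ω} (hB : MeasurableSet[A.F (lv 0)] B) :
    P (B ∩ {ω | tot (rpush A (fun x y => |φ y - φ x| ≤ n * D1) (lv 0) (lv J) w) ω
      < ε1 ^ n * tot w ω}) ≤ Z ^ J * σ ^ n * P B := by
  have := main (A := A) (P := P) hlv (J := J) (Jp := fun _ _ => False)
    (Hm := fun j x y => |φ y - φ x| ≤ j * D1)
    (E := fun _ n x y => |φ y - φ x| ≤ n * D1)
    (fun s n x y z h1 _ => h1.elim)
    (by
      intro s n j _ hjn x y z h1 h2
      have h3 : ((n - j : ℕ) : ℝ) = n - j := Nat.cast_sub hjn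
      rw [h3] at h2
      have e1 : φ z - φ x = (φ y - φ x) + (φ z - φ y) := by ring
      rw [e1]
      refine (abs_add_le _ _).trans ?_
      linarith)
    (fun n x y _ h1 => h1)
    (η := 1) (δ := 1) (x := 1) le_rfl hC le_rfl one_ne_zero
    (fun t _ w _ _ B _ => by rw [one_mul]; exact measure_mono inter_subset_left)
    hHome hZ J hJ 0 (by omega) 0 n w hw hw1 B hB
  rw [zero_add] at this
  simp only [one_pow, mul_one, gg, if_true, zero_add] at this
  exact this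

/-- TRAVELLER with `J = 2 * s` macro steps, `x = δ`, `q ≤ σ / 2`, `Z = 1 + 2 C / σ + C`, drift budget
`n = m * J`: displacement `≥ s * Δ - m * (2 s) * D1`. -/
theorem trav_half {lv : ℕ → ℕ} (hlv : Monotone lv) {s : ℕ} (hs : 1 ≤ s) {Δ D1 : ℝ} (hΔ : 0 ≤ Δ)
    {η ε1 δ q C σ : ℝ≥0∞} (hη : η ≤ 1) (hC : 1 ≤ C) (hδ1 : δ ≤ 1) (hδ0 : δ ≠ 0)
    (hσ0 : σ ≠ 0) (hσ1 : σ ≠ ∞) (hq : q ≤ σ / 2)
    (hJump : ∀ t < 2 * s, ∀ w, A.Wt (lv t) w → (∀ ω, tot w ω ≤ 1) →
      ∀ B, MeasurableSet[A.F (lv t)] B →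
      P (B ∩ {ω | tot (rpush A (fun x y => Δ ≤ φ y - φ x) (lv t) (lv (t + 1)) w) ω < η * tot w ω})
        ≤ δ * P B)
    (hHome : ∀ t < 2 * s, ∀ w, A.Wt (lv t) w → (∀ ω, tot w ω ≤ 1) →
      ∀ B, MeasurableSet[A.F (lv t)] B → ∀ j : ℕ, 1 ≤ j →
      P (B ∩ {ω | tot (rpush A (fun x y => |φ y - φ x| ≤ j * D1) (lv t) (lv (t + 1)) w) ω
        < ε1 ^ j * tot w ω}) ≤ C * q ^ j * P B)
    (m : ℕ) {w : Ω → S → ℝ≥0∞} (hw : A.Wt (lv 0) w) (hw1 : ∀ ω, tot w ω ≤ 1)
    {B : Set Ω} (hB : MeasurableSet[A.F (lv 0)] B) :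
    P (B ∩ {ω | tot (rpush A (fun x y => s * Δ - (m * (2 * s) : ℕ) * D1 ≤ φ y - φ x)
        (lv 0) (lv (2 * s)) w) ω < ε1 ^ (m * (2 * s)) * η ^ (2 * s) * tot w ω})
      ≤ ((4 * δ) ^ s + ((1 + 2 * C / σ + C) * σ ^ m) ^ (2 * s)) * P B := by
  refine (trav (A := A) (P := P) hlv (J := 2 * s) (by omega) hΔ hη hC hδ1 hδ0 hJump hHome
    (hZ_num hσ0 hσ1 hq) s (m * (2 * s)) hw hw1 hB).trans ?_
  gcongr
  · have hδδ : δ * δ⁻¹ = 1 :=
      ENNReal.mul_inv_cancel hδ0 (ne_top_of_le_ne_top ENNReal.one_ne_top hδ1)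
    refine le_of_eq ?_
    calc (δ + δ) ^ (2 * s) * δ⁻¹ ^ s = (4 * δ) ^ s * (δ * δ⁻¹) ^ s := by
          rw [mul_pow δ δ⁻¹, pow_mul, ← mul_assoc, ← mul_pow]
          ring
      _ = (4 * δ) ^ s := by rw [hδδ, one_pow, mul_one]
  · rw [mul_pow, ← pow_mul]

end Crest.Agent.R154.Trav32
end

-- ▼ part R154/UnitsAt_299

/-!
Row 154, HOME v1, HM8 (helper299): the number-free joints between STAT (product bound for `k` gapped
normalised laws) and the Props of 9's `win_of_units` (#37344) / 32's `trav` (#37605).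

* `ProdAt A φ k a e D g z p`: the product bound over one window `[a, e]`, normalised laws.
* `unitsAt`: all `k` units bad is expensive (laws of mass `≤ 1`).
* `homeAt`: the confined mass of one law (k = 1).
* `hHome`: 32's scores.
* `comp_two`: two consecutive restricted pushes (traveller, then static rest of the grid step).
-/

set_option autoImplicit false
set_option linter.unusedSectionVars false
set_option linter.unusedVariables false

namespace Crest.Agent.R154.Units299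

open MeasureTheory ProbabilityTheory Set
open Crest.Agent.R154.RatioR872 Crest.Agent.R154.RatioR872.KerSys Crest.Agent.R154.Home903
open scoped ENNReal Classical

variable {S : Type*} [Countable S] {Ω : Type*} {m0 : MeasurableSpace Ω} {P : Measure Ω}
variable {A : KerSys S P}

/-- the normalised law -/
noncomputable def nrm (w : Ω → S → ℝ≥0∞) (ω : Ω) (x : S) : ℝ≥0∞ := (tot w ω)⁻¹ * w ω x

lemma nrm_wt {a : ℕ} {w : Ω → S → ℝ≥0∞} (hw : A.Wt a w) : A.Wt a (nrm w) where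
  meas x := by
    unfold nrm
    exact hw.meas_tot.inv.mul (hw.meas x)
  supp ω x hx := by
    unfold nrm
    rw [hw.supp ω x hx, mul_zero]

lemma tot_nrm {w : Ω → S → ℝ≥0∞} {ω : Ω} (h0 : tot w ω ≠ 0) (h1 : tot w ω ≠ ∞) :
    tot (nrm w) ω = 1 := by
  have e : tot (nrm w) ω = (tot w ω)⁻¹ * tot w ω := by
    show ∑' x, (tot w ω)⁻¹ * w ω x = _
    rw [ENNReal.tsum_mul_left]
    rfl
  rw [e, ENNReal.inv_mul_cancel h0 h1]

lemma nrm_ne_zero {w : Ω → S → ℝ≥0∞} {ω : Ω} {x : S} (h : nrm w ω x ≠ 0) : w ω x ≠ 0 := by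
  intro h0
  exact h (by unfold nrm; rw [h0, mul_zero])

lemma tot_rpush_nrm (D : S → S → Prop) (a b : ℕ) (w : Ω → S → ℝ≥0∞) (ω : Ω) :
    tot (rpush A D a b (nrm w)) ω = (tot w ω)⁻¹ * tot (rpush A D a b w) ω :=
  tot_rpush_smul D a b w (fun ω => (tot w ω)⁻¹) ω

/-- below `ε * tot w` implies: `tot w ≠ 0` and the normalised push is `≤ ε` -/
lemma nrm_small {X : ℝ≥0∞} {t ε : ℝ≥0∞} (h : X < ε * t) (ht : t ≠ ∞) : t ≠ 0 ∧ t⁻¹ * X ≤ ε := by
  have h0 : t ≠ 0 := by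
    rintro rfl
    simp at h
  refine ⟨h0, ?_⟩
  calc t⁻¹ * X ≤ t⁻¹ * (ε * t) := mul_le_mul_right h.le _
    _ = ε * (t⁻¹ * t) := by ring
    _ = ε := by rw [ENNReal.inv_mul_cancel h0 ht, mul_one]

/-- **product bound** over one window `[a, e]` for `k` normalised laws at level `a` whose supports
are `g`-separated in the order of the indices. -/
def ProdAt (A : KerSys S P) (φ : S → ℝ) (k : ℕ) (a e : ℕ) (D g : ℝ) (z p : ℝ≥0∞) : Prop :=
  ∀ w : Fin k → Ω → S → ℝ≥0∞, (∀ i, A.Wt a (w i)) → ∀ B, MeasurableSet[A.F a] B →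
    (∀ ω ∈ B, ∀ i, tot (w i) ω = 1) →
    (∀ ω ∈ B, ∀ i j, i < j → ∀ x y, w i ω x ≠ 0 → w j ω y ≠ 0 → φ x + g ≤ φ y) →
    P (B ∩ {ω | ∏ i, tot (rpush A (fun x y => |φ y - φ x| ≤ D) a e (w i)) ω ≤ z}) ≤ p * P B

/-- the same with the gap in absolute value -/
def ProdAbs (A : KerSys S P) (φ : S → ℝ) (k : ℕ) (a e : ℕ) (D g : ℝ) (z p : ℝ≥0∞) : Prop :=
  ∀ w : Fin k → Ω → S → ℝ≥0∞, (∀ i, A.Wt a (w i)) → ∀ B, MeasurableSet[A.F a] B →
    (∀ ω ∈ B, ∀ i, tot (w i) ω = 1) →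
    (∀ ω ∈ B, ∀ i j, i ≠ j → ∀ x y, w i ω x ≠ 0 → w j ω y ≠ 0 → g ≤ |φ x - φ y|) →
    P (B ∩ {ω | ∏ i, tot (rpush A (fun x y => |φ y - φ x| ≤ D) a e (w i)) ω ≤ z}) ≤ p * P B

lemma ProdAbs.toProdAt {φ : S → ℝ} {k a e : ℕ} {D g : ℝ} {z p : ℝ≥0∞}
    (h : ProdAbs A φ k a e D g z p) : ProdAt A φ k a e D g z p := by
  intro w hw B hB h1 hg
  refine h w hw B hB h1 fun ω hω i j hij x y hx hy => ?_
  rcases lt_or_gt_of_ne hij with h2 | h2
  · have := hg ω hω i j h2 x y hx hy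
    rw [abs_sub_comm]
    exact le_trans (by linarith) (le_abs_self _)
  · have := hg ω hω j i h2 y x hy hx
    exact le_trans (by linarith) (le_abs_self _)

lemma ProdAbs.neg {φ : S → ℝ} {k a e : ℕ} {D g : ℝ} {z p : ℝ≥0∞}
    (h : ProdAbs A φ k a e D g z p) : ProdAbs A (fun x => -φ x) k a e D g z p := by
  intro w hw B hB h1 hg
  have e1 : (fun x y : S => |(-φ y) - (-φ x)| ≤ D) = fun x y => |φ y - φ x| ≤ D := by
    funext x y
    rw [← abs_neg]
    congr 2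
    ring
  have h2 := h w hw B hB h1 fun ω hω i j hij x y hx hy => by
    have h3 := hg ω hω i j hij x y hx hy
    have e2 : |(-φ x) - (-φ y)| = |φ x - φ y| := by
      rw [← abs_neg]
      congr 1
      ring
    rwa [e2] at h3
  simp only [e1]
  exact h2

/-- **UnitsAt** (confined form): all `k` units bad -/
theorem units_conf {φ : S → ℝ} {k a e : ℕ} {D g : ℝ} {ε p : ℝ≥0∞}
    (h : ProdAt A φ k a e D g (ε ^ k) p) (w : Fin k → Ω → S → ℝ≥0∞) (hw : ∀ i, A.Wt a (w i))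
    (hw1 : ∀ i ω, tot (w i) ω ≤ 1) {B : Set Ω} (hB : MeasurableSet[A.F a] B)
    (hg : ∀ ω ∈ B, ∀ i j, i < j → ∀ x y, w i ω x ≠ 0 → w j ω y ≠ 0 → φ x + g ≤ φ y) :
    P (B ∩ {ω | ∀ i, tot (rpush A (fun x y => |φ y - φ x| ≤ D) a e (w i)) ω < ε * tot (w i) ω})
      ≤ p * P B := by
  set B' : Set Ω := B ∩ {ω | ∀ i, tot (w i) ω ≠ 0} with hB'
  have hB'm : MeasurableSet[A.F a] B' := by
    refine hB.inter ?_
    have e1 : {ω | ∀ i, tot (w i) ω ≠ 0} = ⋂ i, {ω | tot (w i) ω = 0}ᶜ := by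
      ext ω; simp
    rw [e1]
    exact MeasurableSet.iInter fun i =>
      (measurableSet_eq_fun (hw i).meas_tot measurable_const).compl
  have h1 := h (fun i => nrm (w i)) (fun i => nrm_wt (hw i)) B' hB'm
    (fun ω hω i => tot_nrm (hω.2 i) (ne_top_of_le_ne_top ENNReal.one_ne_top (hw1 i ω)))
    (fun ω hω i j hij x y hx hy => hg ω hω.1 i j hij x y (nrm_ne_zero hx) (nrm_ne_zero hy))
  refine le_trans (measure_mono ?_) (h1.trans (mul_le_mul_right (measure_mono inter_subset_left) _))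
  rintro ω ⟨hωB, hω⟩
  have h2 : ∀ i, tot (w i) ω ≠ 0 ∧
      (tot (w i) ω)⁻¹ * tot (rpush A (fun x y => |φ y - φ x| ≤ D) a e (w i)) ω ≤ ε := fun i =>
    nrm_small (hω i) (ne_top_of_le_ne_top ENNReal.one_ne_top (hw1 i ω))
  refine ⟨⟨hωB, fun i => (h2 i).1⟩, ?_⟩
  show ∏ i, tot (rpush A (fun x y => |φ y - φ x| ≤ D) a e (nrm (w i))) ω ≤ ε ^ k
  calc ∏ i, tot (rpush A (fun x y => |φ y - φ x| ≤ D) a e (nrm (w i))) ω
      ≤ ∏ _i : Fin k, ε := Finset.prod_le_prod' fun i _ => by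
        rw [tot_rpush_nrm]
        exact (h2 i).2
    _ = ε ^ k := by simp

/-- **9's UnitsAt**, from the product bound -/
theorem unitsAt {φ : S → ℝ} {k a e : ℕ} {D g : ℝ} {ε p : ℝ≥0∞}
    (h : ProdAt A φ k a e D g (ε ^ k) p) :
    ∀ w : Fin k → Ω → S → ℝ≥0∞, (∀ i, A.Wt a (w i)) → (∀ i ω, tot (w i) ω ≤ 1) →
      ∀ B, MeasurableSet[A.F a] B →
      (∀ ω ∈ B, ∀ i j, i < j → ∀ x y, w i ω x ≠ 0 → w j ω y ≠ 0 → φ x + g ≤ φ y) →
      P (B ∩ {ω | ∀ i, tot (A.push a e (w i)) ω < ε * tot (w i) ω}) ≤ p * P B := by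
  intro w hw hw1 B hB hg
  refine le_trans (measure_mono ?_) (units_conf h w hw hw1 hB hg)
  rintro ω ⟨hωB, hω⟩
  exact ⟨hωB, fun i => lt_of_le_of_lt (tot_rpush_le _ _ _ _ _) (hω i)⟩

/-- **9's HomeAt**, from the product bound with `k = 1` -/
theorem homeAt {φ : S → ℝ} {a e : ℕ} {D g : ℝ} {ε p : ℝ≥0∞}
    (h : ProdAt A φ 1 a e D g ε p) :
    ∀ w, A.Wt a w → (∀ ω, tot w ω ≤ 1) → ∀ B, MeasurableSet[A.F a] B →
      P (B ∩ {ω | tot (rpush A (fun x y => |φ y - φ x| ≤ D) a e w) ω < ε * tot w ω})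
        ≤ p * P B := by
  intro w hw hw1 B hB
  have h' : ProdAt A φ 1 a e D g (ε ^ 1) p := by rwa [pow_one]
  refine le_trans (measure_mono ?_) (units_conf h' (fun _ => w) (fun _ => hw) (fun _ => hw1) hB
    (fun ω _ i j hij => absurd hij (by rw [Subsingleton.elim i j]; exact lt_irrefl j)))
  rintro ω ⟨hωB, hω⟩
  exact ⟨hωB, fun _ => hω⟩

/-- **32's hHome** over one macro step: scores `j ≥ 1` -/
theorem hHome {φ : S → ℝ} {a e : ℕ} {D1 g : ℝ} {ε1 C q : ℝ≥0∞}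
    (h : ∀ j : ℕ, 1 ≤ j → ∃ g, ProdAt A φ 1 a e (j * D1) g (ε1 ^ j) (C * q ^ j)) :
    ∀ w, A.Wt a w → (∀ ω, tot w ω ≤ 1) → ∀ B, MeasurableSet[A.F a] B → ∀ j : ℕ, 1 ≤ j →
      P (B ∩ {ω | tot (rpush A (fun x y => |φ y - φ x| ≤ j * D1) a e w) ω < ε1 ^ j * tot w ω})
        ≤ C * q ^ j * P B := by
  intro w hw hw1 B hB j hj
  obtain ⟨g, hg⟩ := h j hj
  exact homeAt hg w hw hw1 B hB



end Crest.Agent.R154.Units299
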