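import Crest.Agent.R154.RatioA_872
import Crest.Agent.R154.Home_903

/-!
Row 154, `d ≥ 3`, `κ > 0` (HWPos): **THE CONTRACT FILE OF THE HOME MASS** (helper74), literals of
263's doc HOME v1 (#37558) with the corrections of 357, 262, 539, 209, 104, 199, 872 (#37612,
#37707, #37708, #37731, #37730, #37787, #37734).

Any kernel system `A`, `lat lev : S → ℝ`, sheared coordinate `ph lat lev α x = lat x - α * lev x`.

* `Hm φ D`, `Jp φ Δ` : home / jump relations; `rpush` is 903's;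
* `TailH`    : home tail (HM6a), binder form of 903 / 736;
* `STAT`     : `k` separated static units (HM3b);
* `JumpTail`, `JUMP` : annealed jump / quenched jump from every law (HM6b / HM4).
-/

set_option autoImplicit false
set_option linter.unusedSectionVars false

namespace Crest.Agent.R154.Doc74

open MeasureTheory ProbabilityTheory Set
open Crest.Agent.R154.RatioR872 Crest.Agent.R154.RatioR872.KerSys Crest.Agent.R154.Home903
open scoped ENNReal Classical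

variable {S : Type*} {Ω : Type*} {m0 : MeasurableSpace Ω} {P : Measure Ω}

/-- the sheared coordinate (431) -/
def ph (lat lev : S → ℝ) (α : ℝ) (x : S) : ℝ := lat x - α * lev x

/-- home relation -/
def Hm (φ : S → ℝ) (D : ℝ) (x y : S) : Prop := |φ y - φ x| ≤ D

/-- jump relation -/
def Jp (φ : S → ℝ) (Δ : ℝ) (x y : S) : Prop := Δ ≤ φ y - φ x

/-- **(HM6a)** home tail over at most `N` levels -/
def TailH (A : KerSys S P) (φ : S → ℝ) (N : ℕ) (D : ℝ) (ν : ℝ≥0∞) : Prop :=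
  ∀ a c, a ≤ c → c ≤ a + N → ∃ Bd : S → Ω → ℝ≥0∞, (∀ x, Measurable[A.H a] (Bd x)) ∧
    (∀ x ∈ A.L a, ∫⁻ ω, Bd x ω ∂P ≤ ν) ∧
    ∀ b, a ≤ b → b ≤ c → ∀ᵐ ω ∂P, ∀ x ∈ A.L a,
      ∑' y, (if Hm φ D x y then 0 else A.G a b ω x y) * A.N b c ω y ≤ Bd x ω

/-- separation of the supports of the units on `B` (absolute value: serves both signs) -/
def Sep {k : ℕ} (φ : S → ℝ) (g : ℝ) (B : Set Ω) (w : Fin k → Ω → S → ℝ≥0∞) : Prop :=
  ∀ ω ∈ B, ∀ i j, i ≠ j → ∀ x y, w i ω x ≠ 0 → w j ω y ≠ 0 → g ≤ |φ x - φ y|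

/-- one static estimate with `k` units, scale `N`, drift `2 D` per epoch, `r` scheduled epochs and
`s` unscheduled ones -/
def StatAt (A : KerSys S P) (φ : S → ℝ) (k N : ℕ) (D g0 θ : ℝ) (η Ks : ℝ≥0∞) : Prop :=
  ∀ r s L n : ℕ, n ≤ r * N → ∀ (w : Fin k → Ω → S → ℝ≥0∞) (B : Set Ω),
    MeasurableSet[A.F L] B → (∀ a, A.Wt L (w a)) → (∀ ω ∈ B, ∀ a, tot (w a) ω = 1) →
    Sep φ (g0 + 4 * s * D) B w → ∀ z : ℝ≥0∞,
    P (B ∩ {ω | ∏ a, tot (rpush A (Hm φ (2 * s * D)) L (L + n) (w a)) ω ≤ z}) ≤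
      ((2 * Ks) ^ r * z ^ θ + (2 * η) ^ s * (1 / η) ^ r) * P B

/-- **(HM3b)** `k` separated static units (`η ≤ 1/4`, drift `2 D` per epoch, gap `g0 + 4 s D`). -/
def STAT (A : KerSys S P) (lat lev : S → ℝ) : Prop :=
  ∃ θ : ℝ, 0 < θ ∧ ∀ k : ℕ, 1 ≤ k → ∀ η : ℝ≥0∞, 0 < η → η ≤ 1 / 4 →
    ∃ (Ks ν : ℝ≥0∞) (N0 : ℕ) (g0 : ℝ), Ks ≠ ∞ ∧ 1 ≤ Ks ∧ ν ≠ 0 ∧ 0 ≤ g0 ∧
      ∀ N : ℕ, N0 ≤ N → ∀ α D : ℝ, g0 ≤ D → TailH A (ph lat lev α) N D ν →
        StatAt A (ph lat lev α) k N D g0 θ η Ks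

/-- **(HM6b)** annealed jump over `n` levels, from every point -/
def JumpTail (A : KerSys S P) (φ : S → ℝ) (n : ℕ) (Δ : ℝ) (π : ℝ≥0∞) : Prop :=
  ∀ a, ∀ x ∈ A.L a, π ≤ ∫⁻ ω, ∑' y, (if Jp φ Δ x y then A.G a (a + n) ω x y else 0) ∂P

/-- quenched jump from every law over the levels `L → L + l` -/
def JumpAt (A : KerSys S P) (φ : S → ℝ) (l : ℕ) (Δ : ℝ) (ε δ : ℝ≥0∞) : Prop :=
  ∀ (L : ℕ) (w : Ω → S → ℝ≥0∞) (B : Set Ω), MeasurableSet[A.F L] B → A.Wt L w →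
    (∀ ω, tot w ω ≤ 1) →
    P (B ∩ {ω | tot (rpush A (Jp φ Δ) L (L + l) w) ω < ε * tot w ω}) ≤ δ * P B

/-- **(HM4)** the jump, 872's literal (#37734): every law jumps by `Δ` over `s + n` levels with
mass `≥ exp (-x1 (1 + log (1/δ)))`, off probability `δ`; `x1` depends on `π` only, `ν` on `δ`. -/
def JUMP (A : KerSys S P) : Prop :=
  ∀ π : ℝ≥0∞, π ≠ 0 → π ≤ 1 → ∃ x1 : ℝ, 0 ≤ x1 ∧ ∀ δ : ℝ, 0 < δ → δ ≤ 1 →
    ∃ ν : ℝ≥0∞, ν ≠ 0 ∧ ∀ r : ℕ, ∃ s0 : ℕ, ∀ s, s0 ≤ s → ∀ n, s + n ≤ r * s →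
      ∀ (φ : S → ℝ) (Δ : ℝ), JumpTail A φ n (2 * Δ) π → TailH A φ s Δ ν →
        JumpAt A φ (s + n) Δ (ENNReal.ofReal (Real.exp (-(x1 * (1 + Real.log (1 / δ))))))
          (ENNReal.ofReal δ)

/-! ### trivial facts -/

lemma ph_neg (lat lev : S → ℝ) (α : ℝ) (x : S) :
    ph (fun x => - lat x) lev (-α) x = - ph lat lev α x := by unfold ph; ring

lemma Hm_neg (φ : S → ℝ) (D : ℝ) (x y : S) : Hm (fun x => - φ x) D x y ↔ Hm φ D x y := by
  unfold Hm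
  rw [show - φ y - - φ x = -(φ y - φ x) by ring, abs_neg]

/-- the separation does not see the sign of the coordinate -/
lemma Sep.neg {k : ℕ} {φ : S → ℝ} {g : ℝ} {B : Set Ω} {w : Fin k → Ω → S → ℝ≥0∞}
    (h : Sep φ g B w) : Sep (fun x => - φ x) g B w := by
  intro ω hω i j hij x y hx hy
  rw [show - φ x - - φ y = -(φ x - φ y) by ring, abs_neg]
  exact h ω hω i j hij x y hx hy

/-- ordered supports are separated -/
lemma Sep.of_lt {k : ℕ} {φ : S → ℝ} {g : ℝ} {B : Set Ω} {w : Fin k → Ω → S → ℝ≥0∞}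
    (h : ∀ ω ∈ B, ∀ i j, i < j → ∀ x y, w i ω x ≠ 0 → w j ω y ≠ 0 → φ x + g ≤ φ y) :
    Sep φ g B w := by
  intro ω hω i j hij x y hx hy
  rcases lt_or_gt_of_ne hij with h1 | h1
  · have h2 := h ω hω i j h1 x y hx hy
    rw [abs_sub_comm]
    exact le_trans (by linarith) (le_abs_self _)
  · have h2 := h ω hω j i h1 y x hy hx
    exact le_trans (by linarith) (le_abs_self _)



lemma Hm_Jp {φ : S → ℝ} {Δ D : ℝ} {x y z : S} (h1 : Hm φ D x y) (h2 : Jp φ Δ y z) :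
    Jp φ (Δ - D) x z := by
  unfold Hm at h1
  unfold Jp at *
  rw [abs_le] at h1
  linarith [h1.1]

lemma TailH.mono {A : KerSys S P} {φ : S → ℝ} {N N' : ℕ} {D : ℝ} {ν ν' : ℝ≥0∞}
    (h : TailH A φ N D ν) (hN : N' ≤ N) (hν : ν ≤ ν') : TailH A φ N' D ν' := by
  intro a c hac hc
  obtain ⟨Bd, h1, h2, h3⟩ := h a c hac (hc.trans (by omega))
  exact ⟨Bd, h1, fun x hx => (h2 x hx).trans hν, h3⟩

lemma TailH.mono_D {A : KerSys S P} {φ : S → ℝ} {N : ℕ} {D D' : ℝ} {ν : ℝ≥0∞}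
    (h : TailH A φ N D ν) (hD : D ≤ D') : TailH A φ N D' ν := by
  intro a c hac hc
  obtain ⟨Bd, h1, h2, h3⟩ := h a c hac hc
  refine ⟨Bd, h1, h2, fun b hab hbc => ?_⟩
  filter_upwards [h3 b hab hbc] with ω hω x hx
  refine le_trans (ENNReal.tsum_le_tsum fun y => ?_) (hω x hx)
  gcongr
  by_cases h4 : Hm φ D x y
  · have h5 : Hm φ D' x y := h4.trans hD
    simp [h4, h5]
  · by_cases h5 : Hm φ D' x y
    · simp [h4, h5]
    · simp [h4, h5]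

/-- the sign change of the coordinate -/
lemma TailH.neg {A : KerSys S P} {lat lev : S → ℝ} {α : ℝ} {N : ℕ} {D : ℝ} {ν : ℝ≥0∞}
    (h : TailH A (ph lat lev α) N D ν) : TailH A (ph (fun x => - lat x) lev (-α)) N D ν := by
  intro a c hac hc
  obtain ⟨Bd, h1, h2, h3⟩ := h a c hac hc
  refine ⟨Bd, h1, h2, fun b hab hbc => ?_⟩
  filter_upwards [h3 b hab hbc] with ω hω x hx
  have e : ∀ y, Hm (ph (fun x => - lat x) lev (-α)) D x y ↔ Hm (ph lat lev α) D x y := by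
    intro y
    have e1 : ph (fun x => - lat x) lev (-α) = fun x => - ph lat lev α x :=
      funext fun x => ph_neg lat lev α x
    rw [e1, Hm_neg]
  simp only [e]
  exact hω x hx

end Crest.Agent.R154.Doc74
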