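import Crest.Agent.R154.KerInst_872
import Crest.Agent.R154.B6Laws_833

/-! Row 154, B8, step (R): the pair energy of the kernel system of the natural climbs, from 833's
pair laws (same environment `PSm`, independent environments `PIm`). -/

set_option autoImplicit false
set_option linter.unusedSectionVars false
set_option linter.deprecated false

namespace Crest.Agent.R154.RatioR872

open MeasureTheory ProbabilityTheory Set Filter Crest.ProbabilityR.RandomEnvironment
open Crest.Agent.R154.Mk561 Crest.Agent.R154.Q561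
open Crest.Agent.R154.Flux132 (lev)
open Crest.Agent.R154.B6I (Hit bf Alv Eqv Nt zt SP PP Om NoC tip th Al Dt PSm PIm ct)
open scoped ENNReal

variable {d : ℕ}

lemma mem_ClM_iff (u : Step d) (R : ℕ) {x : Site d} {n m : ℕ} {M : MPath d} :
    M ∈ ClM u R x (lev u x + n) m ↔ Hit u n M m ∧ Nt u R 0 n M := by
  have hl : ∀ k, lev u (pos x M k) = lev u x + zt u M k := B6I.lev_pos u x M
  unfold ClM
  simp only [mem_setOf_eq, hl]
  constructor
  · rintro ⟨h1, h2, h3, h4⟩
    have hH : Hit u n M m := ⟨by omega, fun k hk => by have := h2 k hk; omega⟩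
    refine ⟨hH, 0, m, B6I.hit_zero M, hH, fun k _ hk => ⟨fun hR => h3 k hk (by omega), fun hR => ?_⟩⟩
    have := h4 k (by omega) hk.le
    push_cast
    omega
  · rintro ⟨hH, a, b, ha, hb, hN⟩
    have ha0 : a = 0 := ha.unique (B6I.hit_zero M)
    have hbm : b = m := hb.unique hH
    subst ha0 hbm
    refine ⟨by rw [hH.1], fun i hi => by have := hH.2 i hi; omega,
      fun i hi hR => (hN i (Nat.zero_le _) hi).1 (by omega), fun i hR hi => ?_⟩
    rcases lt_or_eq_of_le hi with hlt | heq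
    · have := (hN i (Nat.zero_le _) hlt).2 (by omega)
      push_cast at this
      omega
    · subst heq
      rcases Nat.eq_zero_or_pos i with h0 | h0
      · subst h0
        have : R = 0 := by omega
        subst this
        simp
      · rcases Nat.lt_or_ge R i with hlt | hge
        · have h5 := (hN (i - 1) (Nat.zero_le _) (by omega)).2 (by omega)
          have h6 := hH.2 (i - 1) (by omega)
          have h7 := hH.1
          push_cast at h5
          omega
        · have hRi : R = i := by omega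
          have h5 := B6I.zt_forced (u := u) (M := M) (a := 0) (n := i)
            (fun m _ h2 => (hN m (Nat.zero_le _) (by omega)).1 (by omega))
          rw [zero_add, B6I.zt_zero] at h5
          rw [h5, hRi]
          omega

lemma ClA_eq (u : Step d) (R : ℕ) (x : Site d) (n : ℕ) :
    ClA u R x (lev u x + n) = {M | Nt u R 0 n M} := by
  ext M
  simp only [ClA, mem_iUnion, mem_ClM_iff, mem_setOf_eq]
  constructor
  · rintro ⟨m, _, h⟩; exact h
  · intro h
    obtain ⟨m, hm⟩ := h.alv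
    exact ⟨m, hm, h⟩

lemma ClA_eq' (u : Step d) (R : ℕ) {x : Site d} {a b : ℕ} (hx : lev u x = a) (hab : a ≤ b) :
    ClA u R x b = {M | Nt u R 0 (b - a) M} := by
  rw [← ClA_eq u R x (b - a), hx]
  congr 1
  push_cast [Nat.cast_sub hab]
  ring

/-- both natural up to `n` -/
def both (u : Step d) (R n : ℕ) : Set (PP d) := {p | Nt u R 0 n p.1 ∧ Nt u R 0 n p.2}

lemma meas_Nt (u : Step d) (R n : ℕ) : MeasurableSet {M : MPath d | Nt u R 0 n M} := by
  rw [← ClA_eq u R 0 n]
  exact meas_ClA u R _ _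

lemma both_al {u : Step d} {R n : ℕ} : ∀ p ∈ both u R n, Al u n p :=
  fun _ hp => ⟨hp.1.alv, hp.2.alv⟩

lemma dt_both (u : Step d) (R n : ℕ) : Dt u n (both u R n) := B6I.dt_nt (Nat.zero_le n)


/-- both natural up to `n`, contact between the stages `j` and `n` -/
def bc (u : Step d) (R j n : ℕ) (s : SP u) : Set (PP d) :=
  {p | p ∈ both u R n ∧ ¬ NoC R j n ((s, p) : Om u)}

lemma dt_bc (u : Step d) (R : ℕ) {j n : ℕ} (hjn : j ≤ n) (s : SP u) : Dt u n (bc u R j n s) :=
  (dt_both u R n).inter (B6I.dt_noC hjn s).compl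

lemma meas_bc (u : Step d) (R : ℕ) {j n : ℕ} (hjn : j ≤ n) (s : SP u) :
    MeasurableSet (bc u R j n s) :=
  B6I.measurableSet_of_dt (fun p hp => both_al p hp.1) (dt_bc u R hjn s)

section energy

variable (u : Step d) (R : ℕ) (κ : ℝ) (Q : Measure (Environment d)) [IsProbabilityMeasure Q]

/-- pair energy: same environment, both natural, some contact -/
noncomputable def Kc (a b : ℕ) (x x' : Site d) : ℝ≥0∞ :=
  open Classical in
  if h : lev u x = lev u x' then PSm κ Q x x' (bc u R 0 (b - a) ⟨(x, x'), h⟩) else 0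

lemma hn_eq_Nt (hstat : ∀ z : Site d, MeasurePreserving (shiftEnv z) Q Q) (x : Site d) (n : ℕ) :
    mkAnn κ Q x {M | Nt u R 0 n M} = hn u R κ Q n := by
  rw [mkAnn_stat hstat κ x, hn]
  congr 1
  have h := ClA_eq u R (0 : Site d) n
  rw [B6I.lev_zero, zero_add] at h
  exact h.symm

/-- second moment property -/
lemma second (hstat : ∀ z : Site d, MeasurePreserving (shiftEnv z) Q Q)
    (hR : IsFiniteRangeDependent Q R) (a b : ℕ) (x x' : Site d) (hab : a ≤ b)
    (hx : lev u x = a) (hx' : lev u x' = a) :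
    ∫⁻ ω, mkLaw κ ω x (ClA u R x b) * mkLaw κ ω x' (ClA u R x' b) ∂Q
        ≤ hn u R κ Q (b - a) ^ 2 + Kc u R κ Q a b x x' := by
  classical
  have hs : lev u x = lev u x' := hx.trans hx'.symm
  set s : SP u := ⟨(x, x'), hs⟩ with hsd
  set n := b - a with hn'
  rw [ClA_eq' u R hx hab, ClA_eq' u R hx' hab]
  have e1 : ∫⁻ ω, mkLaw κ ω x {M | Nt u R 0 n M} * mkLaw κ ω x' {M | Nt u R 0 n M} ∂Q
      = PSm κ Q x x' (both u R n) := by
    rw [← B6I.PSm_prod κ Q x x' (meas_Nt u R n) (meas_Nt u R n)]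
    rfl
  have hmN : MeasurableSet (both u R n ∩ {p | NoC R 0 n ((s, p) : Om u)}) :=
    B6I.measurableSet_of_dt (fun p hp => both_al p hp.1)
      ((dt_both u R n).inter (B6I.dt_noC (Nat.zero_le n) s))
  have e2 : both u R n ⊆ (both u R n ∩ {p | NoC R 0 n ((s, p) : Om u)}) ∪ bc u R 0 n s := by
    intro p hp
    by_cases h : NoC R 0 n ((s, p) : Om u)
    · exact Or.inl ⟨hp, h⟩
    · exact Or.inr ⟨hp, h⟩
  have e3 : PSm κ Q x x' (both u R n ∩ {p | NoC R 0 n ((s, p) : Om u)})
      = PIm κ Q x x' (both u R n ∩ {p | NoC R 0 n ((s, p) : Om u)}) :=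
    B6I.PS_eq_PI_set (κ := κ) hR s (fun p hp => both_al p hp.1)
      ((dt_both u R n).inter (B6I.dt_noC (Nat.zero_le n) s)) (fun p hp => hp.2)
  have e4 : PIm κ Q x x' (both u R n) = hn u R κ Q n ^ 2 := by
    have : both u R n = {M : MPath d | Nt u R 0 n M} ×ˢ {M : MPath d | Nt u R 0 n M} := rfl
    rw [this, B6I.PIm, Measure.prod_prod, hn_eq_Nt u R κ Q hstat, hn_eq_Nt u R κ Q hstat, sq]
  rw [e1]
  calc PSm κ Q x x' (both u R n)
      ≤ PSm κ Q x x' (both u R n ∩ {p | NoC R 0 n ((s, p) : Om u)})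
        + PSm κ Q x x' (bc u R 0 n s) := (measure_mono e2).trans (measure_union_le _ _)
    _ ≤ hn u R κ Q n ^ 2 + Kc u R κ Q a b x x' := by
        refine add_le_add ?_ ?_
        · rw [e3, ← e4]
          exact measure_mono inter_subset_left
        · unfold Kc
          rw [dif_pos hs]

/-- the kernel system -/
noncomputable def kS (hstat : ∀ z : Site d, MeasurePreserving (shiftEnv z) Q Q)
    (hR : IsFiniteRangeDependent Q R) : KerSys (Site d) Q :=
  kerSys u R κ Q hstat hR (Kc u R κ Q) (second u R κ Q hstat hR)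

/-- the natural climb to `n` from both sites of `s` with tips `z, z'` -/
lemma energy_eq {a n : ℕ} {x x' : Site d} (hx : lev u x = a) (hx' : lev u x' = a)
    (F : Site d → Site d → ℝ≥0∞) :
    ∑' z, ∑' z', (∫⁻ ω, gk u R κ (a + n : ℕ) ω x z * gk u R κ (a + n : ℕ) ω x' z' ∂Q) * F z z'
      = ∫⁻ p in both u R n, F (tip n (⟨(x, x'), hx.trans hx'.symm⟩ : SP u) p).1.1
          (tip n (⟨(x, x'), hx.trans hx'.symm⟩ : SP u) p).1.2 ∂(PSm κ Q x x') := by
  set s : SP u := ⟨(x, x'), hx.trans hx'.symm⟩ with hs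
  have hb : ((a + n : ℕ) : ℤ) = lev u x + n := by rw [hx]; push_cast; ring
  have hb' : ((a + n : ℕ) : ℤ) = lev u x' + n := by rw [hx']; push_cast; ring
  -- decomposition of `both`
  have hdec : both u R n = ⋃ q : Site d × Site d,
      (Cl u R x (a + n : ℕ) q.1) ×ˢ (Cl u R x' (a + n : ℕ) q.2) := by
    ext p
    simp only [mem_iUnion, mem_prod, Prod.exists]
    have h1 : Nt u R 0 n p.1 ↔ ∃ z, p.1 ∈ Cl u R x (a + n : ℕ) z := by
      rw [← mem_iUnion, iUnion_Cl, hb, ClA_eq]; rfl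
    have h2 : Nt u R 0 n p.2 ↔ ∃ z, p.2 ∈ Cl u R x' (a + n : ℕ) z := by
      rw [← mem_iUnion, iUnion_Cl, hb', ClA_eq]; rfl
    constructor
    · rintro ⟨g1, g2⟩
      obtain ⟨z, hz⟩ := h1.1 g1
      obtain ⟨z', hz'⟩ := h2.1 g2
      exact ⟨z, z', hz, hz'⟩
    · rintro ⟨z, z', hz, hz'⟩
      exact ⟨h1.2 ⟨z, hz⟩, h2.2 ⟨z', hz'⟩⟩
  have hdisj : Pairwise (Function.onFun Disjoint fun q : Site d × Site d =>
      ((Cl u R x (a + n : ℕ) q.1) ×ˢ (Cl u R x' (a + n : ℕ) q.2) : Set (PP d))) := by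
    intro q q' hne
    rw [Function.onFun, Set.disjoint_left]
    rintro p ⟨h1, h2⟩ ⟨h3, h4⟩
    apply hne
    refine Prod.ext ?_ ?_
    · by_contra h
      exact Set.disjoint_left.1 (disj_Cl u R x _ h) h1 h3
    · by_contra h
      exact Set.disjoint_left.1 (disj_Cl u R x' _ h) h2 h4
  have hms : ∀ q : Site d × Site d, MeasurableSet
      ((Cl u R x (a + n : ℕ) q.1) ×ˢ (Cl u R x' (a + n : ℕ) q.2) : Set (PP d)) :=
    fun q => (meas_Cl u R x _ q.1).prod (meas_Cl u R x' _ q.2)
  rw [hdec, lintegral_iUnion hms hdisj, ENNReal.tsum_prod']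
  refine tsum_congr fun z => tsum_congr fun z' => ?_
  have hc : ∀ p ∈ ((Cl u R x (a + n : ℕ) z) ×ˢ (Cl u R x' (a + n : ℕ) z') : Set (PP d)),
      (tip n s p).1 = (z, z') := by
    rintro p ⟨h1, h2⟩
    obtain ⟨m, hm⟩ := mem_iUnion.1 h1
    obtain ⟨m', hm'⟩ := mem_iUnion.1 h2
    have g1 := hm.1
    have g2 := hm'.1
    rw [hb, mem_ClM_iff] at g1
    rw [hb', mem_ClM_iff] at g2
    rw [B6I.tip_val s g1.1 g2.1]
    exact Prod.ext hm.2 hm'.2
  rw [setLIntegral_congr_fun ((meas_Cl u R x _ z).prod (meas_Cl u R x' _ z'))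
    (g := fun _ => F z z') (fun p hp => by simp only [hc p hp]), setLIntegral_const, mul_comm]
  congr 1
  rw [B6I.PSm_prod κ Q x x' (meas_Cl u R x _ z) (meas_Cl u R x' _ z')]
  rfl

/-- **the energy after a climb is a late contact probability** -/
lemma energy_le (hR : IsFiniteRangeDependent Q R) {a n c : ℕ} (hc : a + n ≤ c) {x x' : Site d}
    (hx : lev u x = a) (hx' : lev u x' = a) :
    ∑' z, ∑' z', (∫⁻ ω, gk u R κ (a + n : ℕ) ω x z * gk u R κ (a + n : ℕ) ω x' z' ∂Q)
        * Kc u R κ Q (a + n) c z z'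
      ≤ PSm κ Q x x' (bc u R n (c - a) (⟨(x, x'), hx.trans hx'.symm⟩ : SP u)) := by
  classical
  set s : SP u := ⟨(x, x'), hx.trans hx'.symm⟩ with hs
  set m := c - (a + n) with hm
  have hca : c - a = n + m := by omega
  rw [energy_eq u R κ Q hx hx' (Kc u R κ Q (a + n) c)]
  set E : Set (Om u) := {ω | ω.2 ∈ bc u R 0 m ω.1} with hE
  have hres := (B6I.mult_PS (u := u) (Q := Q) κ hR).restart s (j := n) (k := m)
    (B := both u R n) both_al (dt_both u R n) (E := E)
    (fun t => dt_bc u R (Nat.zero_le m) t) (fun t p hp => hp.1)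
  have hK : ∀ p : PP d, Kc u R κ Q (a + n) c (tip n s p).1.1 (tip n s p).1.2
      = PSm κ Q (tip n s p).1.1 (tip n s p).1.2 {q | ((tip n s p, q) : Om u) ∈ E} := by
    intro p
    unfold Kc
    rw [dif_pos (tip n s p).2]
    rfl
  change ∫⁻ p in both u R n, Kc u R κ Q (a + n) c (tip n s p).1.1 (tip n s p).1.2
    ∂(PSm κ Q x x') ≤ _
  rw [lintegral_congr hK]
  refine hres.symm.le.trans ?_
  refine measure_mono ?_
  rintro p ⟨hp1, hp2⟩
  have hp3 : th u n p ∈ both u R m ∧ ¬ NoC R 0 m ((tip n s p, th u n p) : Om u) := hp2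
  have hal : Al u n p := both_al p hp1
  have hNoC0 : ∀ (j : ℕ) (ω : Om u), NoC R j j ω := fun j ω i i' h1 h2 _ => ⟨h1, h2⟩
  have h1 := (B6I.shift_iff (R := R) (j := n) (L := n) (n := n + m) le_rfl (by omega) s hal).2
    ⟨by rw [show n + m - n = m by omega]; exact hp3.1,
      by rw [Nat.sub_self]; exact hNoC0 0 _⟩
  rw [hca]
  refine ⟨⟨hp1.1.trans (Nat.zero_le n) (by omega) h1.1.1,
    hp1.2.trans (Nat.zero_le n) (by omega) h1.1.2⟩, fun hcon => hp3.2 ?_⟩
  have h2 := (B6I.shift_iff (R := R) (j := n) (L := n + m) (n := n + m) (by omega) le_rfl s hal).1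
    ⟨h1.1, hcon⟩
  rw [show n + m - n = m by omega] at h2
  exact h2.2

/-- **late contact hypothesis** (B6, `lateG_lim`): for every ratio `r` and every `ε`, for `n` large,
uniformly in the pair of start sites, the probability in the same environment that both walkers are
natural up to `n + m ≤ r n` and have a new contact after stage `n` is `≤ ε`. -/
def LateHyp (n0 : ℕ → ℝ≥0∞ → ℕ) : Prop :=
  ∀ r : ℕ, ∀ ε : ℝ≥0∞, ε ≠ 0 → ∀ n, n0 r ε ≤ n → ∀ m, n + m ≤ r * n → ∀ s : SP u,
    PSm κ Q s.1.1 s.1.2 (bc u R n (n + m) s) ≤ ε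


end energy

end Crest.Agent.R154.RatioR872
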