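import Crest.Agent.R154.KBGrid_424
import Crest.Agent.R154.B6Fin_833

-- ▼ part R154/KBMeas_424
section

/-! Row 154, B4 (helper424): measure side of KB: natural sets, restart at first hits, forced start. -/

set_option autoImplicit false
set_option linter.unusedVariables false
set_option linter.unusedSectionVars false

open MeasureTheory ProbabilityTheory Filter Set
open scoped ENNReal Topology

namespace Crest.Agent.R154.KB424

open Crest.ProbabilityR.RandomEnvironment Crest.Agent.R154.Q561 Crest.Agent.R154.Ren263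
open Crest.Agent.R154.Mk561 Crest.Agent.R154.B6I Crest.Agent.R154.Cont
open Crest.Agent.R154.Flux132 (lev)
open Crest.Agent.R154.Fin804 (lev_add lev_step_le)

local notation "shf" => Crest.Agent.R154.Ren263.shift

variable {d : ℕ} (u : Step d) (R : ℕ)

/-! ### open sets are measurable -/

lemma open1 (A : Set (MPath d)) (hA : ∀ M ∈ A, ∃ n : ℕ, ∀ M' : MPath d, (∀ i < n, M i = M' i) →
    M' ∈ A) : MeasurableSet A := by
  have h : A = ⋃ n : ℕ, {M | ∀ M' : MPath d, (∀ i < n, M i = M' i) → M' ∈ A} := by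
    ext M
    simp only [Set.mem_iUnion, Set.mem_ofPred_eq]
    exact ⟨fun h => hA M h, fun ⟨n, h⟩ => h M fun _ _ => rfl⟩
  rw [h]
  refine MeasurableSet.iUnion fun n => Det.measurableSet (n := n) fun M M' hMM => ?_
  constructor
  · intro h N hN
    exact h N fun i hi => (hMM i hi).trans (hN i hi)
  · intro h N hN
    exact h N fun i hi => (hMM i hi).symm.trans (hN i hi)

include u in
lemma open2 (A : Set (PP d)) (hA : ∀ p ∈ A, ∃ n : ℕ, ∀ q : PP d, (∀ i < n, p.1 i = q.1 i) →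
    (∀ i < n, p.2 i = q.2 i) → q ∈ A) : MeasurableSet A := by
  have h := measurableSet_of_open_pair (fWS u) {P : SMPath d × SMPath d | (P.1.2, P.2.2) ∈ A} (by
    rintro ⟨X, T⟩ hp
    obtain ⟨n, hn⟩ := hA (X.2, T.2) hp
    refine ⟨n, ?_⟩
    rintro ⟨X', T'⟩ h1 h2
    have h1' : fHist n X = fHist n X' := h1
    have h2' : fHist n T = fHist n T' := h2
    rw [fHist_eq_iff] at h1' h2'
    exact hn (X'.2, T'.2) h1'.2.1 h2'.2.1)
  have hm : Measurable fun p : PP d => (((0 : Site d), p.1), ((0 : Site d), p.2)) :=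
    (measurable_const.prodMk measurable_fst).prodMk (measurable_const.prodMk measurable_snd)
  exact hm h

/-! ### natural sets -/

/-- natural for ever -/
def NI : Set (MPath d) := {M | (∀ n < R, M n = (u, true)) ∧ ∀ n, R ≤ n → (R : ℤ) ≤ zt u M n}

/-- natural up to every level -/
def NJ : Set (MPath d) := {M | ∀ n, Nt u R 0 n M}

variable {u R}

lemma nt_open {i j : ℕ} (hij : i ≤ j) {M : MPath d} (h : Nt u R i j M) :
    ∃ n : ℕ, ∀ M' : MPath d, (∀ i < n, M i = M' i) → Nt u R i j M' := by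
  obtain ⟨b, hb⟩ := h.alv
  refine ⟨b, fun M' hM => Eqv.nt hij ?_ h⟩
  exact (eqv_iff_of_hit hb).2 fun i hi => (hM i hi).symm

lemma measurableSet_nt {i j : ℕ} (hij : i ≤ j) : MeasurableSet {M : MPath d | Nt u R i j M} :=
  open1 _ fun M hM => nt_open hij hM

lemma measurableSet_NJ : MeasurableSet (NJ u R) := by
  have : NJ u R = ⋂ n, {M : MPath d | Nt u R 0 n M} := by
    ext M; simp [NJ]
  rw [this]
  exact MeasurableSet.iInter fun n => measurableSet_nt (Nat.zero_le n)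

lemma NJ_subset : NJ u R ⊆ NI u R := by
  intro M hM
  constructor
  · intro n hn
    obtain ⟨a, b, ha, hb, H⟩ := hM (n + 1)
    obtain rfl : a = 0 := ha.unique (hit_zero M)
    have := ha.add_le (Nat.zero_le (n + 1)) hb
    exact (H n (Nat.zero_le _) (by omega)).1 (by omega)
  · intro n hn
    obtain ⟨a, b, ha, hb, H⟩ := hM (n + 1)
    obtain rfl : a = 0 := ha.unique (hit_zero M)
    have := ha.add_le (Nat.zero_le (n + 1)) hb
    have h := (H n (Nat.zero_le _) (by omega)).2 (by omega)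
    push_cast at h
    linarith

lemma measurableSet_NS : MeasurableSet (NS u) := by
  have : NS u = ⋂ n, {M : MPath d | 0 ≤ zt u M n} := by
    ext M; simp [NS]
  rw [this]
  refine MeasurableSet.iInter fun n => Det.measurableSet (n := n) fun M M' h => ?_
  change 0 ≤ zt u M n ↔ 0 ≤ zt u M' n
  rw [zt_congr u h le_rfl]

/-- forced start -/
def FS (u : Step d) (R : ℕ) : Set (MPath d) := Cy (fun _ => (u, true)) R

lemma zt_FS {M : MPath d} (h : M ∈ FS u R) {n : ℕ} (hn : n ≤ R) : zt u M n = n := by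
  have := zt_forced (u := u) (M := M) (a := 0) (n := n) (fun m _ h2 => h m (by omega))
  simpa using this

lemma NI_eq : NI u R = FS u R ∩ shf R ⁻¹' (NS u) := by
  ext M
  constructor
  · rintro ⟨h1, h2⟩
    refine ⟨h1, fun n => ?_⟩
    rw [zt_shift, zt_FS (u := u) (R := R) h1 le_rfl]
    have := h2 (R + n) (by omega)
    linarith
  · rintro ⟨h1, h2⟩
    refine ⟨h1, fun n hn => ?_⟩
    have := h2 (n - R)
    rw [zt_shift, zt_FS (u := u) (R := R) h1 le_rfl, show R + (n - R) = n by omega] at this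
    linarith

lemma measurableSet_FS : MeasurableSet (FS u R) := measurableSet_Cy _ _

lemma measurableSet_NI : MeasurableSet (NI u R) := by
  rw [NI_eq]
  exact measurableSet_FS.inter (measurable_shf R measurableSet_NS)

/-- natural up to level `n`, but not for ever -/
noncomputable def eta (κ : ℝ) (Q : Measure (Environment d)) (u : Step d) (R n : ℕ) : ℝ≥0∞ :=
  mkAnn κ Q 0 ({M | Nt u R 0 n M} \ NJ u R)


lemma tendsto_eta (κ : ℝ) (Q : Measure (Environment d)) [IsProbabilityMeasure Q] :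
    Tendsto (eta κ Q u R) atTop (𝓝 0) := by
  have h := tendsto_measure_iInter_atTop (μ := mkAnn κ Q 0)
    (s := fun n : ℕ => ({M : MPath d | Nt u R 0 n M} \ NJ u R))
    (fun n => ((measurableSet_nt (Nat.zero_le n)).diff measurableSet_NJ).nullMeasurableSet)
    (fun n m hnm M hM => ⟨hM.1.left hnm, hM.2⟩) ⟨0, measure_ne_top _ _⟩
  have h0 : (⋂ n : ℕ, ({M : MPath d | Nt u R 0 n M} \ NJ u R)) = ∅ := by
    rw [Set.eq_empty_iff_forall_notMem]
    intro M hM
    rw [Set.mem_iInter] at hM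
    exact (hM 0).2 fun n => (hM n).1
  rw [h0, measure_empty] at h
  exact h

/-! ### restart at a first hit -/

/-- natural restart at level `l` -/
def Re (u : Step d) (R l : ℕ) : Set (MPath d) := {M | ∃ n, Hit u l M n ∧ shf n M ∈ NI u R}

lemma hit_det (l n : ℕ) : Det n {M : MPath d | Hit u l M n} := by
  intro M M' h
  constructor
  · intro hM
    refine ⟨by rw [← zt_congr u h le_rfl]; exact hM.1, fun k hk => ?_⟩
    rw [← zt_congr u h hk.le]; exact hM.2 k hk
  · intro hM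
    refine ⟨by rw [zt_congr u h le_rfl]; exact hM.1, fun k hk => ?_⟩
    rw [zt_congr u h hk.le]; exact hM.2 k hk

lemma re_eq (l : ℕ) : Re u R l = ⋃ n, ({M : MPath d | Hit u l M n} ∩ shf n ⁻¹' NI u R) := by
  ext M; simp [Re]

lemma measurableSet_re (l : ℕ) : MeasurableSet (Re u R l) := by
  rw [re_eq]
  exact MeasurableSet.iUnion fun n => (hit_det l n).measurableSet.inter
    (measurable_shf n measurableSet_NI)

variable {κ : ℝ} {Q : Measure (Environment d)} [IsProbabilityMeasure Q]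

/-- one cylinder -/
lemma restart_cy (hstat : ∀ z : Site d, MeasurePreserving (shiftEnv z) Q Q)
    (hR : IsFiniteRangeDependent Q R) {l n : ℕ} {W : MPath d} (hW : Hit u l W n) :
    mkAnn κ Q 0 (Cy W n ∩ shf n ⁻¹' NI u R)
      = mkAnn κ Q 0 (Cy W n) * mkAnn κ Q 0 (NI u R) := by
  refine mkAnn_Cy_shift hstat hR (S := {z | lev u z < lev u (0 : Site d) + l})
    (T := {z | lev u (0 : Site d) + l + R ≤ lev u z}) (sepR_lev le_rfl) κ 0 W n
    (hit_mem_RdB hW) measurableSet_NI ?_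
  intro M hM i hf
  simp only [Set.mem_ofPred_eq]
  rw [lev_pos, lev_pos, hW.1]
  rcases Nat.lt_or_ge i R with h | h
  · have := hM.1 i h
    rw [this] at hf; simp at hf
  · have := hM.2 i h
    linarith

lemma restart1 (hstat : ∀ z : Site d, MeasurePreserving (shiftEnv z) Q Q)
    (hR : IsFiniteRangeDependent Q R) {l : ℕ} {B : Set (MPath d)} (hBa : ∀ M ∈ B, Alv u l M)
    (hB : ∀ M M' : MPath d, Eqv u l M M' → M ∈ B → M' ∈ B) :
    mkAnn κ Q 0 (B ∩ Re u R l) = mkAnn κ Q 0 B * mkAnn κ Q 0 (NI u R) := by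
  set A : ℕ → Set (MPath d) := fun n => B ∩ {M | Hit u l M n} with hA
  have hdet : ∀ n, Det n (A n) := by
    intro n M M' h
    have key : ∀ M M' : MPath d, (∀ i < n, M i = M' i) → M ∈ A n → M' ∈ A n := by
      rintro M M' h ⟨h1, h2⟩
      refine ⟨hB M M' ((eqv_iff_of_hit h2).2 fun i hi => (h i hi).symm) h1, ?_⟩
      exact ((hit_det l n) M M' h).1 h2
    exact ⟨key M M' h, key M' M fun i hi => (h i hi).symm⟩
  have hBu : B = ⋃ n, A n := by
    ext M
    simp only [hA, Set.mem_iUnion, Set.mem_inter_iff, Set.mem_ofPred_eq]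
    exact ⟨fun h => ⟨_, h, (hBa M h).choose_spec⟩, fun ⟨_, h, _⟩ => h⟩
  have hdisj : Pairwise (Function.onFun Disjoint A) := by
    intro n m hnm
    rw [Function.onFun, Set.disjoint_left]
    rintro M ⟨_, h1⟩ ⟨_, h2⟩
    exact hnm (h1.unique h2)
  have hBR : B ∩ Re u R l = ⋃ n, (A n ∩ shf n ⁻¹' NI u R) := by
    ext M
    simp only [hA, Set.mem_iUnion, Set.mem_inter_iff, Set.mem_ofPred_eq, Re, Set.mem_preimage]
    constructor
    · rintro ⟨h, n, h1, h2⟩
      exact ⟨n, ⟨h, h1⟩, h2⟩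
    · rintro ⟨n, ⟨h, h1⟩, h2⟩
      exact ⟨h, n, h1, h2⟩
  rw [hBR, measure_iUnion]
  · conv_rhs => rw [hBu, measure_iUnion hdisj fun n => (hdet n).measurableSet]
    rw [← ENNReal.tsum_mul_right]
    refine tsum_congr fun n => ?_
    have e := det_eq (Φ := (mkAnn κ Q 0).restrict (shf n ⁻¹' NI u R))
      (Ψ := (mkAnn κ Q 0 (NI u R)) • mkAnn κ Q 0) (hdet n) ?_
    · rw [Measure.restrict_apply (hdet n).measurableSet, Measure.smul_apply, smul_eq_mul,
        mul_comm] at e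
      exact e
    · intro W hW
      rw [Measure.restrict_apply (measurableSet_Cy W n), Measure.smul_apply, smul_eq_mul,
        mul_comm]
      exact restart_cy hstat hR hW.2
  · intro n m hnm
    exact (hdisj hnm).mono Set.inter_subset_left Set.inter_subset_left
  · exact fun n => (hdet n).measurableSet.inter (measurable_shf n measurableSet_NI)

/-- **restart of both walkers at different levels, independent environments** -/
lemma restart2 (hstat : ∀ z : Site d, MeasurePreserving (shiftEnv z) Q Q)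
    (hR : IsFiniteRangeDependent Q R) {l l' : ℕ} {D : Set (PP d)} (hDm : MeasurableSet D)
    (hDa : ∀ p ∈ D, Alv u l p.1 ∧ Alv u l' p.2)
    (hD : ∀ p q : PP d, Eqv u l p.1 q.1 → Eqv u l' p.2 q.2 → p ∈ D → q ∈ D) :
    ((mkAnn κ Q 0).prod (mkAnn κ Q 0)) (D ∩ {p | p.1 ∈ Re u R l ∧ p.2 ∈ Re u R l'})
      = ((mkAnn κ Q 0).prod (mkAnn κ Q 0)) D * mkAnn κ Q 0 (NI u R) ^ 2 := by
  have m1 : MeasurableSet {p : PP d | p.1 ∈ Re u R l} := measurable_fst (measurableSet_re l)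
  have m2 : MeasurableSet {p : PP d | p.2 ∈ Re u R l'} := measurable_snd (measurableSet_re l')
  have e1 : ((mkAnn κ Q 0).prod (mkAnn κ Q 0)) (D ∩ {p | p.1 ∈ Re u R l ∧ p.2 ∈ Re u R l'})
      = ((mkAnn κ Q 0).prod (mkAnn κ Q 0)) (D ∩ {p | p.1 ∈ Re u R l})
        * mkAnn κ Q 0 (NI u R) := by
    have hs : D ∩ {p : PP d | p.1 ∈ Re u R l ∧ p.2 ∈ Re u R l'}
        = (D ∩ {p | p.1 ∈ Re u R l}) ∩ {p | p.2 ∈ Re u R l'} := by
      ext p
      simp only [Set.mem_inter_iff, Set.mem_ofPred_eq, and_assoc]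
    rw [hs, Measure.prod_apply ((hDm.inter m1).inter m2), Measure.prod_apply (hDm.inter m1),
      ← lintegral_mul_const']
    · refine lintegral_congr fun X => ?_
      have h1 : Prod.mk X ⁻¹' ((D ∩ {p : PP d | p.1 ∈ Re u R l}) ∩ {p | p.2 ∈ Re u R l'})
          = (Prod.mk X ⁻¹' (D ∩ {p : PP d | p.1 ∈ Re u R l})) ∩ Re u R l' := rfl
      rw [h1]
      refine restart1 hstat hR (fun T hT => (hDa _ hT.1).2) ?_
      rintro T T' hTT ⟨h2, h3⟩
      exact ⟨hD (X, T) (X, T') (Eqv.refl l X) hTT h2, h3⟩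
    · exact measure_ne_top _ _
  have e2 : ((mkAnn κ Q 0).prod (mkAnn κ Q 0)) (D ∩ {p | p.1 ∈ Re u R l})
      = ((mkAnn κ Q 0).prod (mkAnn κ Q 0)) D * mkAnn κ Q 0 (NI u R) := by
    rw [Measure.prod_apply_symm (hDm.inter m1), Measure.prod_apply_symm hDm,
      ← lintegral_mul_const']
    · refine lintegral_congr fun T => ?_
      have h1 : (fun X => (X, T)) ⁻¹' (D ∩ {p : PP d | p.1 ∈ Re u R l})
          = ((fun X => (X, T)) ⁻¹' D) ∩ Re u R l := rfl
      rw [h1]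
      refine restart1 hstat hR (fun X hX => (hDa _ hX).1) ?_
      intro X X' hXX h2
      exact hD (X, T) (X', T) hXX (Eqv.refl l' T) h2
    · exact measure_ne_top _ _
  rw [e1, e2, pow_two, mul_assoc]

/-! ### forced start -/

/-- weight of the forced start -/
noncomputable def wF (d R : ℕ) (κ : ℝ) : ℝ≥0∞ := ENNReal.ofReal (kf d κ) ^ R

lemma forced_map (hstat : ∀ z : Site d, MeasurePreserving (shiftEnv z) Q Q)
    (hR : IsFiniteRangeDependent Q R) :
    ((mkAnn κ Q 0).restrict (FS u R)).map (shf R) = wF d R κ • mkAnn κ Q 0 := by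
  refine Measure.ext fun B hB => ?_
  rw [Measure.map_apply (measurable_shf R) hB,
    Measure.restrict_apply (measurable_shf R hB), Set.inter_comm, Measure.smul_apply,
    smul_eq_mul]
  have h1 := mkAnn_Cy_shift hstat hR (S := ∅) (T := Set.univ)
    (fun a ha => absurd ha (Set.notMem_empty a)) κ 0 (fun _ => ((u, true) : Mark d)) R
    (fun i hi hf => by simp at hf) hB (fun M hM i hf => Set.mem_univ _)
  change mkAnn κ Q 0 (Cy (fun _ => (u, true)) R ∩ shf R ⁻¹' B) = _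
  rw [h1, mkAnn_apply κ Q 0 (measurableSet_Cy _ _)]
  congr 1
  simp only [mk_cyl, wgt_forced κ _ (0 : Site d) (F := fun _ => ((u, true) : Mark d)) (G := R)
    (fun i _ => rfl)]
  simp [wF]

lemma forced1 (hstat : ∀ z : Site d, MeasurePreserving (shiftEnv z) Q Q)
    (hR : IsFiniteRangeDependent Q R) {B : Set (MPath d)} (hB : MeasurableSet B) :
    mkAnn κ Q 0 (FS u R ∩ shf R ⁻¹' B) = wF d R κ * mkAnn κ Q 0 B := by
  have := congrArg (fun μ : Measure (MPath d) => μ B) (forced_map (u := u) (κ := κ) hstat hR)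
  simp only [Measure.smul_apply, smul_eq_mul] at this
  rw [Measure.map_apply (measurable_shf R) hB,
    Measure.restrict_apply (measurable_shf R hB), Set.inter_comm] at this
  exact this

lemma wF_le_one (u : Step d) : wF d R κ ≤ 1 := pow_le_one' (GD.kf_le_one u κ) R

lemma q_eq (hstat : ∀ z : Site d, MeasurePreserving (shiftEnv z) Q Q)
    (hR : IsFiniteRangeDependent Q R) :
    mkAnn κ Q 0 (NI u R) = wF d R κ * mkAnn κ Q 0 (NS u) := by
  rw [NI_eq]
  exact forced1 hstat hR measurableSet_NS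

lemma forced2 (hstat : ∀ z : Site d, MeasurePreserving (shiftEnv z) Q Q)
    (hR : IsFiniteRangeDependent Q R) {B : Set (PP d)} (hB : MeasurableSet B) :
    ((mkAnn κ Q 0).prod (mkAnn κ Q 0)) ({p | p.1 ∈ FS u R ∧ p.2 ∈ FS u R ∧
      (shf R p.1, shf R p.2) ∈ B}) = wF d R κ ^ 2 * ((mkAnn κ Q 0).prod (mkAnn κ Q 0)) B := by
  have hsh : Measurable (Prod.map (shf R) (shf R) : PP d → PP d) :=
    (measurable_shf R).prodMap (measurable_shf R)
  have hset : {p : PP d | p.1 ∈ FS u R ∧ p.2 ∈ FS u R ∧ (shf R p.1, shf R p.2) ∈ B}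
      = (Prod.map (shf R) (shf R)) ⁻¹' B ∩ (FS u R ×ˢ FS u R) := by
    ext p
    simp only [Set.mem_ofPred_eq, Set.mem_inter_iff, Set.mem_preimage, Set.mem_prod, Prod.map]
    tauto
  rw [hset, ← Measure.restrict_apply (hsh hB), ← Measure.map_apply hsh hB,
    ← Measure.prod_restrict, ← Measure.map_prod_map _ _ (measurable_shf R) (measurable_shf R),
    forced_map hstat hR, Measure.prod_smul_left, Measure.prod_smul_right, smul_smul,
    Measure.smul_apply, smul_eq_mul, pow_two]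

end Crest.Agent.R154.KB424
end

-- ▼ part R154/KBInst_424
section

/-! Row 154, B4 (helper424): **KB from the trunk input**. -/

set_option autoImplicit false
set_option linter.unusedVariables false
set_option linter.unusedSectionVars false

open MeasureTheory ProbabilityTheory Filter Set
open scoped ENNReal Topology

namespace Crest.Agent.R154.KB424

open Crest.ProbabilityR.RandomEnvironment Crest.Agent.R154.Q561 Crest.Agent.R154.Ren263
open Crest.Agent.R154.Mk561 Crest.Agent.R154.B6I Crest.Agent.R154.Cont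
open Crest.Agent.R154.Flux132 (lev)
open Crest.Agent.R154.Fin804 (lev_add lev_step_le)

local notation "shf" => Crest.Agent.R154.Ren263.shift

variable {d : ℕ} {u : Step d} {R : ℕ} {κ : ℝ} {Q : Measure (Environment d)}
  [IsProbabilityMeasure Q]

/-! ### the laws -/

lemma bind_smP (hstat : ∀ z : Site d, MeasurePreserving (shiftEnv z) Q Q) (x : Site d) :
    Q.bind (smP κ x) = (mkAnn κ Q 0).map (Prod.mk x) := by
  refine Measure.ext fun A hA => ?_
  have hm : MeasurableSet {M : MPath d | (x, M) ∈ A} := measurable_prodMk_left hA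
  rw [Measure.bind_apply hA (Kernel.measurable _).aemeasurable,
    Measure.map_apply measurable_prodMk_left hA]
  simp only [smP_apply' κ x _ hA]
  rw [← mkAnn_apply κ Q x hm, mkAnn_stat hstat κ x]
  rfl

lemma bind_apply_smP (hstat : ∀ z : Site d, MeasurePreserving (shiftEnv z) Q Q) (x : Site d)
    {A : Set (SMPath d)} (hA : MeasurableSet A) :
    (Q.bind (smP κ x)) A = mkAnn κ Q 0 {M | (x, M) ∈ A} := by
  rw [bind_smP hstat, Measure.map_apply measurable_prodMk_left hA]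
  rfl

lemma ind_apply_smP (hstat : ∀ z : Site d, MeasurePreserving (shiftEnv z) Q Q) (x y : Site d)
    {A : Set (SMPath d × SMPath d)} (hA : MeasurableSet A) :
    WalkSpace.ind Q (smP κ x) (smP κ y) A
      = ((mkAnn κ Q 0).prod (mkAnn κ Q 0)) {p | ((x, p.1), (y, p.2)) ∈ A} := by
  unfold WalkSpace.ind
  rw [bind_smP hstat, bind_smP hstat,
    Measure.map_prod_map _ _ measurable_prodMk_left measurable_prodMk_left,
    Measure.map_apply (measurable_prodMk_left.prodMap measurable_prodMk_left) hA]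
  rfl

/-! ### the grid -/

/-- the grid of levels `R + (k0 + k) t` -/
def gd (u : Step d) (R : ℕ) (l0 : ℤ) (k0 t M : ℕ) (E : Set (Site d)) : GD d :=
  ⟨u, R, l0, fun k => R + (k0 + k) * t, M, E⟩

variable {l0 : ℤ} {k0 t N : ℕ} {E : Set (Site d)}

lemma gd_ok (ht : R ≤ t) (ht1 : 1 ≤ t) : (gd u R l0 k0 t N E).Ok where
  mono i j hij := by
    change R + (k0 + i) * t ≤ R + (k0 + j) * t
    gcongr
  sep j := by
    change R + (k0 + j) * t + R ≤ R + (k0 + (j + 1)) * t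
    nlinarith
  ge := by
    change R ≤ R + (k0 + 0) * t
    omega
  gt := by
    change R < R + (k0 + 1) * t
    have : 0 < (k0 + 1) * t := by positivity
    omega

/-! ### forced start of a path -/

lemma hit_FS {M : MPath d} (h : M ∈ FS u R) : Hit u R M R :=
  ⟨zt_FS h le_rfl, fun k hk => by rw [zt_FS h hk.le]; exact_mod_cast hk⟩

lemma hit_FS_iff {M : MPath d} (h : M ∈ FS u R) (l n : ℕ) :
    Hit u l (shf R M) n ↔ Hit u (R + l) M (R + n) := by
  have := hit_shift_iff (u := u) (i := R) (j := R + l) (by omega) (hit_FS h) n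
  rwa [Nat.add_sub_cancel_left] at this

/-- the forced displacement -/
def vR (u : Step d) (R : ℕ) : Site d := pos 0 (fun _ => ((u, true) : Mark d)) R

lemma pos_eq_up {M : MPath d} (h : M ∈ FS u R) (x : Site d) {l a : ℕ} (ha : Hit u (R + l) M a) :
    pos x M a = x + vR u R + Up u l (shf R M) := by
  have h1 : R ≤ a := (hit_FS h).le_of_le (by omega) ha
  obtain ⟨n, rfl⟩ := Nat.exists_eq_add_of_le h1
  have h2 := (hit_FS_iff h l n).2 ha
  unfold Up vR
  rw [hn_eq h2, ← pos_shift x M R n]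
  have h3 : pos x M R = x + pos 0 (fun _ => ((u, true) : Mark d)) R := by
    have e1 := pos_congr x (M := M) (M' := fun _ => ((u, true) : Mark d)) (n := R)
      (fun i hi => h i hi) le_rfl
    have e2 := pos_add (0 : Site d) x (fun _ => ((u, true) : Mark d)) R
    rw [zero_add] at e2
    rw [e1, e2, add_comm]
  have h4 := pos_add (0 : Site d) (pos x M R) (shf R M) n
  rw [zero_add] at h4
  rw [h4, h3, add_comm]

lemma forced1_le (hstat : ∀ z : Site d, MeasurePreserving (shiftEnv z) Q Q)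
    (hR : IsFiniteRangeDependent Q R) (B : Set (MPath d)) :
    mkAnn κ Q 0 (FS u R ∩ shf R ⁻¹' B) ≤ mkAnn κ Q 0 B := by
  have hm := measurableSet_toMeasurable (mkAnn κ Q 0) B
  calc mkAnn κ Q 0 (FS u R ∩ shf R ⁻¹' B)
      ≤ mkAnn κ Q 0 (FS u R ∩ shf R ⁻¹' toMeasurable (mkAnn κ Q 0) B) :=
        measure_mono fun M hM => ⟨hM.1, subset_toMeasurable _ _ hM.2⟩
    _ = wF d R κ * mkAnn κ Q 0 (toMeasurable (mkAnn κ Q 0) B) := forced1 hstat hR hm
    _ ≤ 1 * mkAnn κ Q 0 (toMeasurable (mkAnn κ Q 0) B) := by gcongr; exact wF_le_one u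
    _ = mkAnn κ Q 0 B := by rw [one_mul, measure_toMeasurable]

/-! ### `NG` and `Bad` -/

lemma ng_le (hstat : ∀ z : Site d, MeasurePreserving (shiftEnv z) Q Q)
    (hR : IsFiniteRangeDependent Q R) (ht : R ≤ t) (ht1 : 1 ≤ t) {x : Site d}
    (hx : lev u x = l0) :
    mkAnn κ Q 0 {M | (gd u R l0 k0 t N E).gr.NG (x, M)} ≤ eta κ Q u R (R + (k0 + 1) * t) +
      ∑ j ∈ Finset.range N, mkAnn κ Q 0 {M | M ∈ NS u ∧ NoCutW u ((k0 + j) * t) t M} := by
  set g := gd u R l0 k0 t N E with hgdef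
  have hg : g.Ok := gd_ok ht ht1
  have hsub : {M | g.gr.NG (x, M)} ⊆ ({M : MPath d | Nt u R 0 (R + (k0 + 1) * t) M} \ NJ u R) ∪
      ⋃ j ∈ Finset.range N, (FS u R ∩ shf R ⁻¹' {M | M ∈ NS u ∧
        NoCutW u ((k0 + j) * t) t M}) := by
    rintro M ⟨h1, h2⟩
    have hN1 : Nt u R 0 (g.L 1) M := (GD.alive_iff (g := g) hg hx 1).1 h1
    by_cases hJ : M ∈ NJ u R
    swap
    · exact Or.inl ⟨hN1, hJ⟩
    refine Or.inr ?_
    have hNI := NJ_subset hJ
    rw [NI_eq] at hNI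
    have hal : g.gr.tau g.gr.M (x, M) < g.gr.D (x, M) :=
      (GD.alive_iff (g := g) hg hx _).2 (hJ _)
    have h3 : ∃ j < g.gr.M, ∃ n : ℕ, g.gr.tau (j + 1) (x, M) ≤ n ∧
        (n : ℕ∞) ≤ g.gr.tau g.gr.M (x, M) ∧ g.gr.lev (g.gr.W.pos (x, M) n) < g.gr.Lv j := by
      by_contra hcon
      push Not at hcon
      exact h2 ⟨hal, hcon⟩
    obtain ⟨j, hj, n, n1, n2, n3⟩ := h3
    refine Set.mem_biUnion (x := j) (Finset.mem_coe.2 (Finset.mem_range.2 hj))
      ⟨hNI.1, hNI.2, fun l n' l1 l2 l3 => ?_⟩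
    rw [hit_FS_iff hNI.1] at l3
    obtain ⟨q, hq⟩ := ENat.ne_top_iff_exists.1 (ne_top_of_le_ne_top (ENat.natCast_ne_top n) n1)
    rw [← hq] at n1
    have hqn : q ≤ n := by exact_mod_cast n1
    have hH := GD.hit_of_tau (g := g) hx hq.symm
    have hle : R + n' ≤ q := l3.le_of_le (by
      change R + l ≤ R + (k0 + (j + 1)) * t
      have : (k0 + (j + 1)) * t = (k0 + j) * t + t := by ring
      omega) hH
    refine ⟨n - R, by omega, ?_⟩
    rw [zt_shift, zt_FS hNI.1 le_rfl, show R + (n - R) = n by omega]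
    have n4 : lev u (pos x M n) < l0 + ((R + (k0 + j) * t : ℕ) : ℤ) := n3
    rw [lev_pos, hx] at n4
    push_cast at n4
    have l4 : (((k0 + j) * t : ℕ) : ℤ) ≤ l := by exact_mod_cast l1
    push_cast at l4
    linarith
  refine (measure_mono hsub).trans ((measure_union_le _ _).trans (add_le_add le_rfl ?_))
  refine (measure_biUnion_finset_le _ _).trans (Finset.sum_le_sum fun j _ => ?_)
  exact forced1_le hstat hR _

lemma bad_le (hstat : ∀ z : Site d, MeasurePreserving (shiftEnv z) Q Q)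
    (hR : IsFiniteRangeDependent Q R) (ht : R ≤ t) (ht1 : 1 ≤ t) (hN : 1 ≤ N) {x : Site d}
    (hx : lev u x = l0) (i : ℕ) :
    mkAnn κ Q 0 {M | (x, M) ∈ (gd u R l0 k0 t N E).gr.Bad i} ≤ eta κ Q u R (R + (k0 + 1) * t) +
      mkAnn κ Q 0 {M | M ∈ NS u ∧ Up u ((k0 + i) * t + 7 * t) M - Up u ((k0 + i) * t) M ∉ E} := by
  set g := gd u R l0 k0 t N E with hgdef
  have hg : g.Ok := gd_ok ht ht1
  have hsub : {M | (x, M) ∈ g.gr.Bad i} ⊆ ({M : MPath d | Nt u R 0 (R + (k0 + 1) * t) M} \ NJ u R) ∪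
      (FS u R ∩ shf R ⁻¹' {M | M ∈ NS u ∧
        Up u ((k0 + i) * t + 7 * t) M - Up u ((k0 + i) * t) M ∉ E}) := by
    rintro M ⟨h1, h2⟩
    have hNM : Nt u R 0 (g.L g.M) M := (GD.alive_iff (g := g) hg hx g.M).1 h1.1
    have hN1 : Nt u R 0 (g.L 1) M := hNM.left (hg.mono hN)
    by_cases hJ : M ∈ NJ u R
    swap
    · exact Or.inl ⟨hN1, hJ⟩
    refine Or.inr ?_
    have hNI := NJ_subset hJ
    rw [NI_eq] at hNI
    refine ⟨hNI.1, hNI.2, fun h3 => h2 ?_⟩
    obtain ⟨a, ha⟩ := (hJ (R + ((k0 + i) * t + 7 * t))).alv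
    obtain ⟨b, hb⟩ := (hJ (R + (k0 + i) * t)).alv
    have ea : g.gr.U (i + 7) (x, M) = pos x M a := by
      have ha' : Hit g.u (g.L (i + 7)) M a := by
        change Hit u (R + (k0 + (i + 7)) * t) M a
        rw [show (k0 + (i + 7)) * t = (k0 + i) * t + 7 * t by ring]
        exact ha
      unfold Grid.U
      rw [GD.tau_of_hit (g := g) hx ha', ENat.toNat_natCast]
      rfl
    have eb : g.gr.U i (x, M) = pos x M b := by
      unfold Grid.U
      rw [GD.tau_of_hit (g := g) hx (show Hit g.u (g.L i) M b from hb), ENat.toNat_natCast]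
      rfl
    change g.gr.U (i + 7) (x, M) - g.gr.U i (x, M) - 0 ∈ E
    rw [ea, eb, pos_eq_up hNI.1 x ha, pos_eq_up hNI.1 x hb]
    convert! h3 using 1
    abel
  refine (measure_mono hsub).trans ((measure_union_le _ _).trans (add_le_add le_rfl ?_))
  exact forced1_le hstat hR _

/-! ### `UE` -/

/-- closeness in window `k` -/
def AC (u : Step d) (R k0 t : ℕ) (E : Set (Site d)) (x y : Site d) (k : ℕ) : Set (PP d) :=
  {p | Nt u R 0 (R + (k0 + k + 7) * t) p.1 ∧ Nt u R 0 (R + (k0 + k) * t) p.2 ∧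
    ∃ a b, Hit u (R + (k0 + k + 7) * t) p.1 a ∧ Hit u (R + (k0 + k) * t) p.2 b ∧
      pos x p.1 a - pos y p.2 b ∈ E}

lemma AC_eqv {x y : Site d} {k : ℕ} {p q : PP d}
    (h1 : Eqv u (R + (k0 + k + 7) * t) p.1 q.1) (h2 : Eqv u (R + (k0 + k) * t) p.2 q.2)
    (hp : p ∈ AC u R k0 t E x y k) : q ∈ AC u R k0 t E x y k := by
  obtain ⟨n1, n2, a, b, ha, hb, hE⟩ := hp
  refine ⟨h1.nt (Nat.zero_le _) n1, h2.nt (Nat.zero_le _) n2, a, b, h1.hit ha, h2.hit hb, ?_⟩
  rw [← pos_congr x (h1.agree ha) le_rfl, ← pos_congr y (h2.agree hb) le_rfl]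
  exact hE

/-- first closeness -/
def AF (u : Step d) (R k0 t : ℕ) (E : Set (Site d)) (x y : Site d) (k : ℕ) : Set (PP d) :=
  {p | p ∈ AC u R k0 t E x y k ∧ ∀ j < k, p ∉ AC u R k0 t E x y j}

lemma AF_eqv {x y : Site d} {k : ℕ} {p q : PP d}
    (h1 : Eqv u (R + (k0 + k + 7) * t) p.1 q.1) (h2 : Eqv u (R + (k0 + k) * t) p.2 q.2)
    (hp : p ∈ AF u R k0 t E x y k) : q ∈ AF u R k0 t E x y k := by
  refine ⟨AC_eqv h1 h2 hp.1, fun j hj hq => hp.2 j hj ?_⟩
  refine AC_eqv ((h1.symm).mono ?_) ((h2.symm).mono ?_) hq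
  · gcongr
  · gcongr

lemma measurableSet_AF {x y : Site d} {k : ℕ} : MeasurableSet (AF u R k0 t E x y k) := by
  refine open2 u _ fun p hp => ?_
  obtain ⟨n1, n2, a, b, ha, hb, hE⟩ := id hp.1
  refine ⟨max a b, fun q h1 h2 => ?_⟩
  refine AF_eqv ((eqv_iff_of_hit ha).2 fun i hi => (h1 i (by omega)).symm)
    ((eqv_iff_of_hit hb).2 fun i hi => (h2 i (by omega)).symm) hp

lemma ni_of_re {l : ℕ} (hl : R ≤ l) {M : MPath d} (h : Nt u R 0 l M) (hRe : M ∈ Re u R l) :
    M ∈ NI u R := by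
  obtain ⟨a, b, ha, hb, H⟩ := h
  obtain rfl : a = 0 := ha.unique (hit_zero M)
  obtain ⟨b', hb', hI⟩ := hRe
  obtain rfl : b' = b := hb'.unique hb
  have hlb : l ≤ b' := by
    have := ha.add_le (Nat.zero_le l) hb
    omega
  refine ⟨fun n hn => (H n (Nat.zero_le _) (by omega)).1 (by omega), fun n hn => ?_⟩
  rcases Nat.lt_or_ge n b' with h1 | h1
  · have := (H n (Nat.zero_le _) h1).2 (by omega)
    push_cast at this
    linarith
  · have h2 : (0 : ℤ) ≤ zt u (shf b' M) (n - b') := by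
      rcases Nat.lt_or_ge (n - b') R with h3 | h3
      · have h4 : shf b' M ∈ FS u R := fun i hi => hI.1 i hi
        rw [zt_FS h4 h3.le]
        exact Int.natCast_nonneg _
      · exact le_trans (Int.natCast_nonneg _) (hI.2 _ h3)
    rw [zt_shift, show b' + (n - b') = n by omega, hb.1] at h2
    have : (R : ℤ) ≤ l := by exact_mod_cast hl
    linarith

/-- **closeness, any walkers, from closeness of natural walkers** -/
lemma close_le (hstat : ∀ z : Site d, MeasurePreserving (shiftEnv z) Q Q)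
    (hR : IsFiniteRangeDependent Q R) (x y : Site d) {n : ℕ} {B : Set (PP d)}
    (hB : ∀ k < n, ∀ q : PP d, q.1 ∈ NS u → q.2 ∈ NS u →
      Up u ((k0 + k + 7) * t) q.1 - Up u ((k0 + k) * t) q.2 - (y - x) ∈ E → q ∈ B) :
    ((mkAnn κ Q 0).prod (mkAnn κ Q 0)) (⋃ k ∈ Finset.range n, AC u R k0 t E x y k)
      * mkAnn κ Q 0 (NI u R) ^ 2 ≤ wF d R κ ^ 2 * ((mkAnn κ Q 0).prod (mkAnn κ Q 0)) B := by
  classical
  set μ := (mkAnn κ Q 0).prod (mkAnn κ Q 0) with hμ
  have hsub1 : (⋃ k ∈ Finset.range n, AC u R k0 t E x y k)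
      ⊆ ⋃ k ∈ Finset.range n, AF u R k0 t E x y k := by
    intro p hp
    rw [Set.mem_iUnion₂] at hp
    obtain ⟨k, hk, hpk⟩ := hp
    have hex : ∃ k, p ∈ AC u R k0 t E x y k := ⟨k, hpk⟩
    refine Set.mem_biUnion (x := Nat.find hex) ?_ ⟨Nat.find_spec hex, fun j hj => Nat.find_min hex hj⟩
    have h1 := Nat.find_min' hex hpk
    rw [Finset.mem_range] at hk
    exact Finset.mem_coe.2 (Finset.mem_range.2 (by omega))
  have hdisj : (↑(Finset.range n) : Set ℕ).PairwiseDisjoint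
      (fun k => AF u R k0 t E x y k ∩ {p : PP d | p.1 ∈ Re u R (R + (k0 + k + 7) * t) ∧
        p.2 ∈ Re u R (R + (k0 + k) * t)}) := by
    intro i _ j _ hij
    rw [Function.onFun, Set.disjoint_left]
    rintro p ⟨h1, _⟩ ⟨h2, _⟩
    rcases lt_or_gt_of_ne hij with h | h
    · exact h2.2 i h h1.1
    · exact h1.2 j h h2.1
  have hres : ∀ k, μ (AF u R k0 t E x y k ∩ {p : PP d | p.1 ∈ Re u R (R + (k0 + k + 7) * t) ∧
        p.2 ∈ Re u R (R + (k0 + k) * t)}) = μ (AF u R k0 t E x y k) * mkAnn κ Q 0 (NI u R) ^ 2 :=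
    fun k => restart2 hstat hR measurableSet_AF
      (fun p hp => ⟨hp.1.1.alv, hp.1.2.1.alv⟩) (fun p q h1 h2 hp => AF_eqv h1 h2 hp)
  have hm : MeasurableSet (toMeasurable μ B) := measurableSet_toMeasurable μ B
  calc μ (⋃ k ∈ Finset.range n, AC u R k0 t E x y k) * mkAnn κ Q 0 (NI u R) ^ 2
      ≤ (∑ k ∈ Finset.range n, μ (AF u R k0 t E x y k)) * mkAnn κ Q 0 (NI u R) ^ 2 := by
        gcongr
        exact (measure_mono hsub1).trans (measure_biUnion_finset_le _ _)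
    _ = ∑ k ∈ Finset.range n, μ (AF u R k0 t E x y k ∩ {p : PP d |
          p.1 ∈ Re u R (R + (k0 + k + 7) * t) ∧ p.2 ∈ Re u R (R + (k0 + k) * t)}) := by
        rw [Finset.sum_mul]
        exact Finset.sum_congr rfl fun k _ => (hres k).symm
    _ = μ (⋃ k ∈ Finset.range n, (AF u R k0 t E x y k ∩ {p : PP d |
          p.1 ∈ Re u R (R + (k0 + k + 7) * t) ∧ p.2 ∈ Re u R (R + (k0 + k) * t)})) := by
        refine (measure_biUnion_finset hdisj fun k _ => ?_).symm
        exact measurableSet_AF.inter ((measurable_fst (measurableSet_re _)).inter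
          (measurable_snd (measurableSet_re _)))
    _ ≤ μ {p | p.1 ∈ FS u R ∧ p.2 ∈ FS u R ∧ (shf R p.1, shf R p.2) ∈ toMeasurable μ B} := by
        refine measure_mono ?_
        intro p hp
        rw [Set.mem_iUnion₂] at hp
        obtain ⟨k, hk, ⟨⟨⟨n1, n2, a, b, ha, hb, hE⟩, -⟩, r1, r2⟩⟩ := hp
        rw [Finset.mem_range] at hk
        have i1 := ni_of_re (by omega) n1 r1
        have i2 := ni_of_re (by omega) n2 r2
        rw [NI_eq] at i1 i2
        refine ⟨i1.1, i2.1, subset_toMeasurable _ _ (hB k hk _ i1.2 i2.2 ?_)⟩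
        simp only
        rw [pos_eq_up i1.1 x ha, pos_eq_up i2.1 y hb] at hE
        convert! hE using 1
        abel
    _ = wF d R κ ^ 2 * μ (toMeasurable μ B) := forced2 hstat hR hm
    _ = wF d R κ ^ 2 * μ B := by rw [measure_toMeasurable]

lemma ue_subset (ht : R ≤ t) (ht1 : 1 ≤ t) {x y : Site d} (hx : lev u x = l0)
    (hy : lev u y = l0) :
    {p : PP d | ((x, p.1), (y, p.2)) ∈ (gd u R l0 k0 t N E).gr.UE}
      ⊆ ⋃ k ∈ Finset.range (N - 6), AC u R k0 t E x y k := by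
  set g := gd u R l0 k0 t N E with hgdef
  have hg : g.Ok := gd_ok ht ht1
  rintro p ⟨k, hk, h1, h2, h3, h4⟩
  have hk' : k + 7 ≤ N := hk
  refine Set.mem_biUnion (x := k) (Finset.mem_coe.2 (Finset.mem_range.2 (by omega))) ?_
  have n1 : Nt u R 0 (g.L (k + 7)) p.1 := (GD.alive_iff (g := g) hg hx (k + 7)).1 h1
  have n2 : Nt u R 0 (g.L k) p.2 := (GD.alive_iff (g := g) hg hy k).1 h2
  obtain ⟨a, ha⟩ := n1.alv
  obtain ⟨b, hb⟩ := n2.alv
  have ea : g.gr.U (k + 7) (x, p.1) = pos x p.1 a := by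
    unfold Grid.U
    rw [GD.tau_of_hit (g := g) hx (show Hit g.u (g.L (k + 7)) p.1 a from ha),
      ENat.toNat_natCast]
    rfl
  have eb : g.gr.U k (y, p.2) = pos y p.2 b := by
    unfold Grid.U
    rw [GD.tau_of_hit (g := g) hy (show Hit g.u (g.L k) p.2 b from hb), ENat.toNat_natCast]
    rfl
  have h5 : g.gr.U (k + 7) (x, p.1) - g.gr.U k (y, p.2) - 0 ∈ E := h4
  rw [ea, eb, sub_zero] at h5
  have hL : g.L (k + 7) = R + (k0 + k + 7) * t := by
    change R + (k0 + (k + 7)) * t = _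
    ring_nf
  rw [hL] at n1 ha
  exact ⟨n1, n2, a, b, ha, hb, h5⟩

end Crest.Agent.R154.KB424
end

-- ▼ part R154/KB_424
section

/-! Row 154, B4 (helper424): **KB from the trunk input**, final statement. -/

set_option autoImplicit false
set_option linter.unusedVariables false
set_option linter.unusedSectionVars false

open MeasureTheory ProbabilityTheory Filter Set
open scoped ENNReal Topology

namespace Crest.Agent.R154.KB424

open Crest.ProbabilityR.RandomEnvironment Crest.Agent.R154.Q561 Crest.Agent.R154.Ren263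
open Crest.Agent.R154.Mk561 Crest.Agent.R154.B6I Crest.Agent.R154.Cont
open Crest.Agent.R154.Flux132 (lev)

variable {d : ℕ} {u : Step d} {R : ℕ} {κ : ℝ} {Q : Measure (Environment d)}
  [IsProbabilityMeasure Q] {l0 : ℤ} {k0 t N : ℕ} {E : Set (Site d)}

lemma card_pairs (n : ℕ) : ((Finset.range n ×ˢ Finset.range n).filter
    (fun p : ℕ × ℕ => p.1 ≤ p.2 + 2 ∧ p.2 ≤ p.1 + 2)).card ≤ 5 * n := by
  have h : ((Finset.range n ×ˢ Finset.range n).filter
      (fun p : ℕ × ℕ => p.1 ≤ p.2 + 2 ∧ p.2 ≤ p.1 + 2)).card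
      ≤ (Finset.range n ×ˢ Finset.range 5).card := by
    refine Finset.card_le_card_of_injOn (fun p => (p.1, p.2 + 2 - p.1)) ?_ ?_
    · rintro ⟨a, b⟩ hp
      simp only [Finset.coe_filter, Finset.mem_product, Finset.mem_range, Set.mem_ofPred_eq] at hp
      simp only [Finset.coe_product, Finset.coe_range, Set.mem_prod, Set.mem_Iio]
      omega
    · rintro ⟨a, b⟩ hp ⟨a', b'⟩ hp' h
      simp only [Finset.coe_filter, Finset.mem_product, Finset.mem_range, Set.mem_ofPred_eq]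
        at hp hp'
      simp only [Prod.mk.injEq] at h ⊢
      omega
  refine h.trans ?_
  rw [Finset.card_product, Finset.card_range, Finset.card_range, mul_comm]

/-- the contact inequality in the marked frame -/
lemma contact_le (hstat : ∀ z : Site d, MeasurePreserving (shiftEnv z) Q Q)
    (hR : IsFiniteRangeDependent Q R) (hfrc : R = 0 ∨ 0 < kf d κ) {c₀ lam : ℝ≥0∞} (hc : c₀ ≠ 0)
    (hc' : c₀ ≠ ⊤) (hl : lam ≠ 0) (hl' : lam ≠ ⊤)
    (hML : ∀ᵐ ω ∂Q, ∀ (z : Site d) (e : Step d),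
      c₀ * ENNReal.ofReal ((reg κ (ω z)).1 e) ≤ mw κ (ω z) (e, false))
    (ht : R ≤ t) (ht1 : 1 ≤ t) {x y : Site d} (hx : lev u x = l0) (hy : lev u y = l0)
    {ng bd ue : ℝ≥0∞}
    (hng : ∀ x, lev u x = l0 → mkAnn κ Q 0 {M | (gd u R l0 k0 t N E).gr.NG (x, M)} ≤ ng)
    (hbd : ∀ x, lev u x = l0 → ∀ i, mkAnn κ Q 0 {M | (x, M) ∈ (gd u R l0 k0 t N E).gr.Bad i} ≤ bd)
    (hue : ∀ x y, lev u x = l0 → lev u y = l0 → ((mkAnn κ Q 0).prod (mkAnn κ Q 0))
      {p : PP d | ((x, p.1), (y, p.2)) ∈ (gd u R l0 k0 t N E).gr.UE} ≤ ue) :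
    ((mkAnn κ Q 0).prod (mkAnn κ Q 0))
        {p : PP d | ((x, p.1), (y, p.2)) ∈ (gd u R l0 k0 t N E).gr.CC}
      ≤ 2 * (ng + 5 * (cU d κ * lam) + (c₀ * (GD.hK d R κ * lam))⁻¹ * ue)
        + (5 * (N - 6) : ℕ) * bd ^ 2 := by
  set g := gd u R l0 k0 t N E with hgdef
  have hg : g.Ok := gd_ok ht ht1
  have hOk := GD.ok hg
  have key := Grid.contact_inequality hOk (Q := Q) (P₁ := smP κ x) (P₂ := smP κ y)
    (k1p_smP u hR κ x y) (k1p_smP u hR κ y x) (G := Gp κ) (C₀ := cU d κ) (c₀ := c₀)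
    (h₀ := GD.hK d R κ) (lam := lam) hc hc' (GD.hK_ne_zero hfrc) GD.hK_ne_top hl hl'
    (Filter.Eventually.of_forall fun ω => mu_smP u κ x ω)
    (Filter.Eventually.of_forall fun ω => mu_smP u κ y ω)
    (by filter_upwards [hML] with ω hω; exact ml_smP u κ x ω hω)
    (by filter_upwards [hML] with ω hω; exact ml_smP u κ y ω hω)
    (Filter.Eventually.of_forall fun ω k a z h1 h2 h3 y' => GD.harnack hg κ ω k a z h1 h2 h3 y')
  have mCC : MeasurableSet g.gr.CC := by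
    have m1 : MeasurableSet {p : SMPath d × SMPath d | g.gr.Gd p.1} :=
      measurable_fst (Grid.measurableSet_Gd hOk)
    have m2 : MeasurableSet {p : SMPath d × SMPath d | g.gr.Gd p.2} :=
      measurable_snd (Grid.measurableSet_Gd hOk)
    have m3 := Grid.measurableSet_JS hOk 4
    have m4 := Grid.measurableSet_JS hOk (g.gr.M - 2)
    have m5 : MeasurableSet {p : SMPath d × SMPath d | g.gr.JS 4 p.2 p.1} := measurable_swap m3
    have m6 : MeasurableSet {p : SMPath d × SMPath d | g.gr.JS (g.gr.M - 2) p.2 p.1} :=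
      measurable_swap m4
    exact m1.inter (m2.inter (m3.compl.inter (m4.inter (m5.compl.inter m6))))
  have mUE := Grid.measurableSet_UE hOk
  rw [ind_apply_smP hstat x y mCC, ind_apply_smP hstat x y mUE, ind_apply_smP hstat y x mUE,
    bind_apply_smP hstat x (Grid.measurableSet_NG hOk),
    bind_apply_smP hstat y (Grid.measurableSet_NG hOk)] at key
  refine key.trans (add_le_add ?_ ?_)
  · rw [two_mul]
    refine add_le_add (add_le_add (add_le_add (hng x hx) le_rfl) ?_)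
      (add_le_add (add_le_add (hng y hy) le_rfl) ?_)
    · exact mul_le_mul' le_rfl (hue x y hx hy)
    · exact mul_le_mul' le_rfl (hue y x hy hx)
  · have hterm : ∀ p ∈ (Finset.range (g.gr.M - 6) ×ˢ Finset.range (g.gr.M - 6)).filter
          (fun p => p.1 ≤ p.2 + 2 ∧ p.2 ≤ p.1 + 2),
          (Q.bind (smP κ x)) (g.gr.Bad p.1) * (Q.bind (smP κ y)) (g.gr.Bad p.2) ≤ bd ^ 2 := by
      intro p hp
      simp only [Finset.mem_filter, Finset.mem_product, Finset.mem_range] at hp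
      rw [bind_apply_smP hstat x (Grid.measurableSet_Bad hOk (by omega)),
        bind_apply_smP hstat y (Grid.measurableSet_Bad hOk (by omega)), pow_two]
      exact mul_le_mul' (hbd x hx _) (hbd y hy _)
    refine (Finset.sum_le_card_nsmul _ _ _ hterm).trans ?_
    rw [nsmul_eq_mul]
    gcongr
    exact card_pairs (N - 6)

/-! ### the main theorem -/

/-- natural up to `m` without contact -/
def SN (u : Step d) (R m : ℕ) (s : SP u) : Set (PP d) :=
  {p | (Nt u R 0 m p.1 ∧ Nt u R 0 m p.2) ∧ NoC R 0 m ((s, p) : Om u)}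

lemma sn_eq (hstat : ∀ z : Site d, MeasurePreserving (shiftEnv z) Q Q)
    (hR : IsFiniteRangeDependent Q R) (m : ℕ) (s : SP u) :
    PSm κ Q s.1.1 s.1.2 (SN u R m s) = ((mkAnn κ Q 0).prod (mkAnn κ Q 0)) (SN u R m s) := by
  have hdt : Dt u m (SN u R m s) := (dt_nt (Nat.zero_le m)).inter (dt_noC (Nat.zero_le m) s)
  rw [PS_eq_PI_set hR s (j := m) (fun p hp => ⟨hp.1.1.alv, hp.1.2.alv⟩) hdt (fun p hp => hp.2)]
  unfold PIm
  rw [mkAnn_stat hstat κ s.1.1, mkAnn_stat hstat κ s.1.2]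

lemma sn_subset {m : ℕ} (ht : R ≤ t) (ht1 : 1 ≤ t) (h6 : R + (k0 + 6) * t ≤ m) (h6N : 6 ≤ N)
    (hN : 2 * m ≤ R + (k0 + (N - 2)) * t) (s : SP u) :
    SN u R m s ⊆ SN u R (2 * m) s ∪ ({p | p.1 ∈ {M : MPath d | Nt u R 0 m M} \ NJ u R} ∪
      ({p | p.2 ∈ {M : MPath d | Nt u R 0 m M} \ NJ u R} ∪
      ({p : PP d | ((s.1.1, p.1), (s.1.2, p.2)) ∈ (gd u R (lev u s.1.1) k0 t N E).gr.CC} ∪
      ({p | p.1 ∈ {M | (gd u R (lev u s.1.1) k0 t N E).gr.NG (s.1.1, M)}} ∪
       {p | p.2 ∈ {M | (gd u R (lev u s.1.1) k0 t N E).gr.NG (s.1.2, M)}})))) := by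
  rintro p ⟨⟨h1, h2⟩, h3⟩
  by_cases hJ1 : p.1 ∈ NJ u R
  swap
  · exact Or.inr (Or.inl ⟨h1, hJ1⟩)
  by_cases hJ2 : p.2 ∈ NJ u R
  swap
  · exact Or.inr (Or.inr (Or.inl ⟨h2, hJ2⟩))
  by_cases hC : NoC R 0 (2 * m) ((s, p) : Om u)
  · exact Or.inl ⟨⟨hJ1 _, hJ2 _⟩, hC⟩
  rcases GD.incl (g := gd u R (lev u s.1.1) k0 t N E) (gd_ok ht ht1) h6 h6N hN s rfl p (hJ1 _)
    (hJ2 _) h3 hC with h | h | h
  · exact Or.inr (Or.inr (Or.inr (Or.inl h)))
  · exact Or.inr (Or.inr (Or.inr (Or.inr (Or.inl h))))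
  · exact Or.inr (Or.inr (Or.inr (Or.inr (Or.inr h))))


lemma sq_add_le (a b : ℝ≥0∞) : (a + b) ^ 2 ≤ 4 * (a ^ 2 + b ^ 2) := by
  rcases le_total a b with h | h
  · calc (a + b) ^ 2 ≤ (b + b) ^ 2 := by gcongr
      _ = 4 * (0 + b ^ 2) := by ring
      _ ≤ 4 * (a ^ 2 + b ^ 2) := by gcongr; exact zero_le
  · calc (a + b) ^ 2 ≤ (a + a) ^ 2 := by gcongr
      _ = 4 * (a ^ 2 + 0) := by ring
      _ ≤ 4 * (a ^ 2 + b ^ 2) := by gcongr; exact zero_le

/-- **KB, in `ℝ≥0∞`.** -/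
theorem KB_enn (hstat : ∀ z : Site d, MeasurePreserving (shiftEnv z) Q Q)
    (hR : IsFiniteRangeDependent Q R) (hfrc : R = 0 ∨ 0 < kf d κ) {c₀ : ℝ≥0∞} (hc : c₀ ≠ 0)
    (hc' : c₀ ≠ ⊤)
    (hML : ∀ᵐ ω ∂Q, ∀ (z : Site d) (e : Step d),
      c₀ * ENNReal.ofReal ((reg κ (ω z)).1 e) ≤ mw κ (ω z) (e, false))
    (hp : mkAnn κ Q 0 (NS u) ≠ 0) (hT : Trunk u κ Q) (ε : ℝ≥0∞) (hε : ε ≠ 0) :
    ∃ m₀ : ℕ, ∀ m ≥ m₀, ∀ s : SP u, PSm κ Q s.1.1 s.1.2 (SN u R m s) ≤
      PSm κ Q s.1.1 s.1.2 (SN u R (2 * m) s) + ε := by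
  rcases eq_or_ne ε ⊤ with hεt | hεt
  · exact ⟨0, fun m _ s => by rw [hεt]; simp⟩
  set P := mkAnn κ Q 0 (NS u) with hP
  have hPt : P ≠ ⊤ := measure_ne_top _ _
  set C₀ := cU d κ with hC₀
  have hC₀t : C₀ ≠ ⊤ := cU_ne_top κ
  set lam : ℝ≥0∞ := (ε / 20) / (C₀ + 1) with hlam
  have h20 : ε / 20 ≠ 0 := (ENNReal.div_pos hε (by norm_num)).ne'
  have h20t : ε / 20 ≠ ⊤ := ENNReal.div_ne_top hεt (by norm_num)
  have hC1 : C₀ + 1 ≠ 0 := by simp
  have hC1t : C₀ + 1 ≠ ⊤ := ENNReal.add_ne_top.2 ⟨hC₀t, ENNReal.one_ne_top⟩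
  have hl : lam ≠ 0 := (ENNReal.div_pos h20 hC1t).ne'
  have hl' : lam ≠ ⊤ := ENNReal.div_ne_top h20t hC1
  have hClam : C₀ * lam ≤ ε / 20 := by
    calc C₀ * lam ≤ (C₀ + 1) * lam := by gcongr; exact le_self_add
      _ = ε / 20 := ENNReal.mul_div_cancel hC1 hC1t
  set K₁ := (c₀ * (GD.hK d R κ * lam))⁻¹ with hK₁
  have hK₁t : K₁ ≠ ⊤ := by
    rw [hK₁, ne_eq, ENNReal.inv_eq_top]
    simp only [mul_eq_zero, not_or]
    exact ⟨hc, GD.hK_ne_zero hfrc, hl⟩
  have hP2 : (P ^ 2)⁻¹ ≠ ⊤ := ENNReal.inv_ne_top.2 (pow_ne_zero _ hp)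
  set A : ℝ≥0∞ := 134 + 2 * (K₁ * (P ^ 2)⁻¹) with hA
  have hA0 : A ≠ 0 := by
    rw [hA]; simp
  have hAt : A ≠ ⊤ := by
    rw [hA]
    exact ENNReal.add_ne_top.2 ⟨by norm_num, ENNReal.mul_ne_top (by norm_num)
      (ENNReal.mul_ne_top hK₁t hP2)⟩
  have hε2 : ε / 2 ≠ 0 := (ENNReal.div_pos hε (by norm_num)).ne'
  have hε2t : ε / 2 ≠ ⊤ := ENNReal.div_ne_top hεt (by norm_num)
  set ε₂ : ℝ≥0∞ := (ε / 2) / A with hε₂
  have hε₂0 : ε₂ ≠ 0 := (ENNReal.div_pos hε2 hAt).ne'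
  have hAε : A * ε₂ = ε / 2 := ENNReal.mul_div_cancel hA0 hAt
  obtain ⟨K₀, hK₀⟩ := hT ε₂ hε₂0
  set K := max K₀ 12 with hK
  have hK12 : 12 ≤ K := le_max_right _ _
  obtain ⟨T₀, hT₀⟩ := hK₀ K (le_max_left _ _)
  have hK0 : (K : ℝ≥0∞) ≠ 0 := by
    simp only [ne_eq, Nat.cast_eq_zero]; omega
  have hKt : (K : ℝ≥0∞) ≠ ⊤ := ENNReal.natCast_ne_top K
  set δ : ℝ≥0∞ := min (ε₂ / K) 1 with hδ
  have hδ0 : 0 < δ := lt_min (ENNReal.div_pos hε₂0 hKt) one_pos
  have hKδ : (K : ℝ≥0∞) * δ ≤ ε₂ := by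
    calc (K : ℝ≥0∞) * δ ≤ K * (ε₂ / K) := by gcongr; exact min_le_left _ _
      _ = ε₂ := ENNReal.mul_div_cancel hK0 hKt
  have hδε : δ ≤ ε₂ := by
    calc δ = 1 * δ := (one_mul _).symm
      _ ≤ K * δ := by
        gcongr
        exact_mod_cast (by omega : 1 ≤ K)
      _ ≤ ε₂ := hKδ
  have hδ1 : δ ≤ 1 := min_le_right _ _
  obtain ⟨n₁, hn₁⟩ := Filter.eventually_atTop.1
    ((tendsto_order.1 (tendsto_eta (u := u) (R := R) κ Q)).2 δ hδ0)
  set T₁ := max T₀ (max n₁ (max R K)) with hT₁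
  refine ⟨R + K * T₁ + n₁, fun m hm s => ?_⟩
  set t := (m - R) / K with htdef
  have hKpos : 0 < K := by omega
  have htT : T₁ ≤ t := by
    rw [htdef, Nat.le_div_iff_mul_le hKpos, mul_comm]
    omega
  have ht0 : T₀ ≤ t := (le_max_left _ _).trans htT
  have htn : n₁ ≤ t := ((le_max_left _ _).trans (le_max_right _ _)).trans htT
  have htR : R ≤ t :=
    (((le_max_left _ _).trans (le_max_right _ _)).trans (le_max_right _ _)).trans htT
  have htK : K ≤ t :=
    (((le_max_right _ _).trans (le_max_right _ _)).trans (le_max_right _ _)).trans htT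
  have ht1 : 1 ≤ t := by omega
  have hdiv1 : K * t ≤ m - R := Nat.mul_div_le _ _
  have hdiv2 : m - R < K * (t + 1) := Nat.lt_mul_div_succ _ hKpos
  obtain ⟨E, w, hw, hbad, hpi, hcut⟩ := hT₀ t ht0
  set k0 := K - 6 with hk0
  set N := K + 11 with hN
  have e6 : R + (k0 + 6) * t ≤ m := by
    rw [hk0, show K - 6 + 6 = K by omega]; omega
  have eN : 2 * m ≤ R + (k0 + (N - 2)) * t := by
    rw [hk0, hN, show K - 6 + (K + 11 - 2) = 2 * K + 3 by omega]
    have h1 : (2 * K + 3) * t = 2 * (K * t) + 3 * t := by ring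
    have h2 : K * (t + 1) = K * t + K := by ring
    rw [h1]
    rw [h2] at hdiv2
    omega
  -- the three inputs
  have hL1 : n₁ ≤ R + (k0 + 1) * t := by
    have : 1 * t ≤ (k0 + 1) * t := Nat.mul_le_mul_right _ (by omega)
    omega
  have heta1 : eta κ Q u R (R + (k0 + 1) * t) ≤ δ := (hn₁ _ hL1).le
  have hetam : eta κ Q u R m ≤ ε₂ := ((hn₁ m (by omega)).le).trans hδε
  have hng : ∀ x, lev u x = lev u s.1.1 →
      mkAnn κ Q 0 {M | (gd u R (lev u s.1.1) k0 t N E).gr.NG (x, M)} ≤ 13 * ε₂ := by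
    intro x hx
    refine (ng_le hstat hR htR ht1 hx).trans ?_
    have hsum : ∑ j ∈ Finset.range N, mkAnn κ Q 0 {M | M ∈ NS u ∧ NoCutW u ((k0 + j) * t) t M}
        ≤ 12 * ε₂ := by
      have h1 : (K : ℝ≥0∞) * ∑ j ∈ Finset.range N,
          mkAnn κ Q 0 {M | M ∈ NS u ∧ NoCutW u ((k0 + j) * t) t M} ≤ K * (12 * ε₂) := by
        rw [Finset.mul_sum]
        calc ∑ j ∈ Finset.range N, (K : ℝ≥0∞) *
              mkAnn κ Q 0 {M | M ∈ NS u ∧ NoCutW u ((k0 + j) * t) t M}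
            ≤ ∑ _j ∈ Finset.range N, ε₂ := Finset.sum_le_sum fun j _ => hcut _
          _ = (N : ℝ≥0∞) * ε₂ := by simp
          _ ≤ ((K * 12 : ℕ) : ℝ≥0∞) * ε₂ := by
              gcongr
              omega
          _ = K * (12 * ε₂) := by push_cast; ring
      exact (ENNReal.mul_le_mul_iff_right hK0 hKt).1 h1
    calc eta κ Q u R (R + (k0 + 1) * t) + ∑ j ∈ Finset.range N,
          mkAnn κ Q 0 {M | M ∈ NS u ∧ NoCutW u ((k0 + j) * t) t M}
        ≤ ε₂ + 12 * ε₂ := add_le_add (heta1.trans hδε) hsum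
      _ = 13 * ε₂ := by ring
  have hbd : ∀ x, lev u x = lev u s.1.1 → ∀ i,
      mkAnn κ Q 0 {M | (x, M) ∈ (gd u R (lev u s.1.1) k0 t N E).gr.Bad i} ≤ δ + w := by
    intro x hx i
    exact (bad_le hstat hR htR ht1 (by omega) hx i).trans (add_le_add heta1 (hbad _))
  have hue : ∀ x y, lev u x = lev u s.1.1 → lev u y = lev u s.1.1 →
      ((mkAnn κ Q 0).prod (mkAnn κ Q 0))
        {p : PP d | ((x, p.1), (y, p.2)) ∈ (gd u R (lev u s.1.1) k0 t N E).gr.UE}
        ≤ ε₂ * (P ^ 2)⁻¹ := by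
    intro x y hx hy
    refine (measure_mono (ue_subset htR ht1 hx hy)).trans ?_
    have h1 := close_le (κ := κ) (Q := Q) (k0 := k0) (t := t) (E := E) hstat hR x y (n := N - 6)
      (B := {p | p.1 ∈ NS u ∧ p.2 ∈ NS u ∧ ∃ k, K ≤ 2 * k ∧ k ≤ 3 * K ∧
        Up u ((k + 7) * t) p.1 - Up u (k * t) p.2 - (y - x) ∈ E}) (by
        intro k hk q h1 h2 h3
        exact ⟨h1, h2, k0 + k, by omega, by omega, h3⟩)
    rw [q_eq hstat hR, mul_pow] at h1
    have hwF : wF d R κ ^ 2 ≠ 0 := by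
      refine pow_ne_zero _ ?_
      unfold wF
      rcases hfrc with rfl | h
      · simp
      · exact pow_ne_zero _ (by simpa using h)
    have hwFt : wF d R κ ^ 2 ≠ ⊤ := ENNReal.pow_ne_top
      (ne_top_of_le_ne_top ENNReal.one_ne_top (wF_le_one u))
    have h2 : wF d R κ ^ 2 * (((mkAnn κ Q 0).prod (mkAnn κ Q 0))
        (⋃ k ∈ Finset.range (N - 6), AC u R k0 t E x y k) * P ^ 2) ≤ wF d R κ ^ 2 * ε₂ := by
      calc wF d R κ ^ 2 * (((mkAnn κ Q 0).prod (mkAnn κ Q 0))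
            (⋃ k ∈ Finset.range (N - 6), AC u R k0 t E x y k) * P ^ 2)
          = ((mkAnn κ Q 0).prod (mkAnn κ Q 0))
            (⋃ k ∈ Finset.range (N - 6), AC u R k0 t E x y k) * (wF d R κ ^ 2 * P ^ 2) := by ring
        _ ≤ _ := h1
        _ ≤ wF d R κ ^ 2 * ε₂ := by gcongr; exact hpi (y - x)
    have h3 := (ENNReal.mul_le_mul_iff_right hwF hwFt).1 h2
    rw [← div_eq_mul_inv, ENNReal.le_div_iff_mul_le (Or.inl (pow_ne_zero _ hp))
      (Or.inl (ENNReal.pow_ne_top hPt))]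
    exact h3
  have hCC := contact_le (N := N) (k0 := k0) (E := E) hstat hR hfrc hc hc' hl hl' hML htR ht1
    (rfl : lev u s.1.1 = lev u s.1.1) (s.2.symm : lev u s.1.2 = lev u s.1.1) hng hbd hue
  -- assembly
  rw [sn_eq hstat hR, sn_eq hstat hR]
  set μ := (mkAnn κ Q 0).prod (mkAnn κ Q 0) with hμ
  have f1 : ∀ B : Set (MPath d), μ {p | p.1 ∈ B} = mkAnn κ Q 0 B := by
    intro B
    have : {p : PP d | p.1 ∈ B} = B ×ˢ Set.univ := by ext p; simp
    rw [this, hμ, Measure.prod_prod, measure_univ, mul_one]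
  have f2 : ∀ B : Set (MPath d), μ {p | p.2 ∈ B} = mkAnn κ Q 0 B := by
    intro B
    have : {p : PP d | p.2 ∈ B} = Set.univ ×ˢ B := by ext p; simp
    rw [this, hμ, Measure.prod_prod, measure_univ, one_mul]
  have hbdsq : ((5 * (N - 6) : ℕ) : ℝ≥0∞) * (δ + w) ^ 2 ≤ 80 * ε₂ := by
    calc ((5 * (N - 6) : ℕ) : ℝ≥0∞) * (δ + w) ^ 2
        ≤ ((10 * K : ℕ) : ℝ≥0∞) * (4 * (δ ^ 2 + w ^ 2)) := by
          refine mul_le_mul' ?_ (sq_add_le δ w)
          exact_mod_cast (by omega : 5 * (N - 6) ≤ 10 * K)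
      _ = 40 * (K * δ * δ + K * w ^ 2) := by push_cast; ring
      _ ≤ 40 * (ε₂ * 1 + ε₂) := by gcongr
      _ = 80 * ε₂ := by ring
  calc μ (SN u R m s)
      ≤ μ (SN u R (2 * m) s) + (μ {p | p.1 ∈ {M : MPath d | Nt u R 0 m M} \ NJ u R} +
        (μ {p | p.2 ∈ {M : MPath d | Nt u R 0 m M} \ NJ u R} +
        (μ {p : PP d | ((s.1.1, p.1), (s.1.2, p.2)) ∈ (gd u R (lev u s.1.1) k0 t N E).gr.CC} +
        (μ {p | p.1 ∈ {M | (gd u R (lev u s.1.1) k0 t N E).gr.NG (s.1.1, M)}} +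
         μ {p | p.2 ∈ {M | (gd u R (lev u s.1.1) k0 t N E).gr.NG (s.1.2, M)}})))) := by
        refine (measure_mono (sn_subset (k0 := k0) (N := N) (E := E) htR ht1 e6 (by omega) eN
          s)).trans ?_
        refine (measure_union_le _ _).trans (add_le_add le_rfl ?_)
        refine (measure_union_le _ _).trans (add_le_add le_rfl ?_)
        refine (measure_union_le _ _).trans (add_le_add le_rfl ?_)
        exact (measure_union_le _ _).trans (add_le_add le_rfl (measure_union_le _ _))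
    _ ≤ μ (SN u R (2 * m) s) + (ε₂ + (ε₂ + ((2 * (13 * ε₂ + 5 * (C₀ * lam) + K₁ * (ε₂ * (P ^ 2)⁻¹))
          + 80 * ε₂) + (13 * ε₂ + 13 * ε₂)))) := by
        rw [f1, f2, f1, f2]
        refine add_le_add le_rfl (add_le_add hetam (add_le_add hetam (add_le_add ?_
          (add_le_add (hng _ rfl) (hng _ s.2.symm)))))
        exact hCC.trans (add_le_add le_rfl hbdsq)
    _ = μ (SN u R (2 * m) s) + (A * ε₂ + 10 * (C₀ * lam)) := by
        rw [hA]; ring
    _ ≤ μ (SN u R (2 * m) s) + (ε / 2 + 10 * (ε / 20)) := by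
        rw [hAε]; gcongr
    _ = μ (SN u R (2 * m) s) + ε := by
        congr 1
        have : 10 * (ε / 20) = ε / 2 := by
          rw [ENNReal.div_eq_inv_mul, ENNReal.div_eq_inv_mul, ← mul_assoc]
          congr 1
          rw [show (20 : ℝ≥0∞) = 10 * 2 by norm_num, ENNReal.mul_inv (by norm_num) (by norm_num),
            ← mul_assoc, ENNReal.mul_inv_cancel (by norm_num) (by norm_num), one_mul]
        rw [this, ENNReal.add_halves]

/-- **KB** (833's field), from the trunk input. -/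
theorem KB_real (hstat : ∀ z : Site d, MeasurePreserving (shiftEnv z) Q Q)
    (hR : IsFiniteRangeDependent Q R) (hfrc : R = 0 ∨ 0 < kf d κ)
    (hell : ∀ᵐ ω ∂Q, ∀ (z : Site d) (e : Step d), kf d κ ≤ (ω z).1 e)
    (hc : ∃ c : ℝ, 0 < c ∧ ∀ᵐ ω ∂Q, ∀ (z : Site d) (e : Step d),
      c * (ω z).1 e ≤ (ω z).1 e - kf d κ)
    (hp : mkAnn κ Q 0 (NS u) ≠ 0) (hT : Trunk u κ Q) :
    ∀ ε > (0 : ℝ), ∃ m₀ : ℕ, ∀ m ≥ m₀, ∀ s : SP u,
      (PSm κ Q s.1.1 s.1.2).real (SN u R m s)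
        - (PSm κ Q s.1.1 s.1.2).real (SN u R (2 * m) s) ≤ ε := by
  intro ε hε
  obtain ⟨c, hc0, hc⟩ := hc
  obtain ⟨m₀, h⟩ := KB_enn (u := u) hstat hR hfrc (c₀ := ENNReal.ofReal c)
    (by simpa using hc0) ENNReal.ofReal_ne_top (by
      filter_upwards [hell, hc] with ω h1 h2 z e
      rw [reg_eq (h1 z), ← ENNReal.ofReal_mul hc0.le]
      unfold mw
      refine ENNReal.ofReal_le_ofReal ?_
      simp only [Bool.false_eq_true, if_false]
      rw [reg_eq (h1 z)]
      exact h2 z e) hp hT (ENNReal.ofReal ε) (by simpa using hε)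
  refine ⟨m₀, fun m hm s => ?_⟩
  have h1 := h m hm s
  have h2 := ENNReal.toReal_mono (ENNReal.add_ne_top.2 ⟨measure_ne_top _ _,
    ENNReal.ofReal_ne_top⟩) h1
  rw [ENNReal.toReal_add (measure_ne_top _ _) ENNReal.ofReal_ne_top,
    ENNReal.toReal_ofReal hε.le] at h2
  simp only [measureReal_def]
  linarith

end Crest.Agent.R154.KB424
end

-- ▼ part R154/KBEnd_424

/-! Row 154, B4 (helper424): 833's literal `KB` from the frame and the trunk input. -/

set_option autoImplicit false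
set_option linter.unusedVariables false
set_option linter.unusedSectionVars false

open MeasureTheory ProbabilityTheory Filter Set
open scoped ENNReal Topology

namespace Crest.Agent.R154.KB424

open Crest.ProbabilityR.RandomEnvironment Crest.Agent.R154.Q561 Crest.Agent.R154.Ren263
open Crest.Agent.R154.Mk561 Crest.Agent.R154.B6I Crest.Agent.R154.Cont

variable {d : ℕ} {u : Step d} {R : ℕ} {κ : ℝ} {Q : Measure (Environment d)}
  [IsProbabilityMeasure Q]

lemma zht_eq (u : Step d) (m : Mark d) : ((Flux132.lev u (stp m) : ℤ) : ℝ) = mht (B2d.dirVec u) m := by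
  rw [RatioR872.lev_stp, Bind263.mht_dirVec]

lemma hgt_eq_zt (u : Step d) (M : MPath d) (n : ℕ) : hgt (mht (B2d.dirVec u)) M n = (zt u M n : ℝ) := by
  unfold Ren263.hgt zt
  push_cast
  exact Finset.sum_congr rfl fun i _ => (zht_eq u (M i)).symm

lemma NS_eq_stay (u : Step d) : NS u = Ren263.Stay (mht (B2d.dirVec u)) := by
  ext M
  simp only [NS, Ren263.Stay, Set.mem_ofPred_eq, hgt_eq_zt]
  refine forall_congr' fun n => ?_
  exact_mod_cast Iff.rfl

/-- lower bound of unforced weights, relative to the row -/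
def Half (κ : ℝ) (Q : Measure (Environment d)) : Prop :=
  ∃ c : ℝ, 0 < c ∧ ∀ᵐ ω ∂Q, ∀ (z : Site d) (e : Step d), c * (ω z).1 e ≤ (ω z).1 e - kf d κ


/-- **KB in the frame, from the trunk input.** -/
theorem kb_frame (F : Bind263.Frame Q κ R) (hA : annealedProb Q 0 (escapeEvent (B2d.dirVec u)) ≠ 0)
    (hc : Half κ Q) (hT : Trunk u κ Q) : B6I.KB u R κ Q := by
  refine KB_of_PS fun ε hε => ?_
  have hp : mkAnn κ Q 0 (NS u) ≠ 0 := by
    rw [NS_eq_stay]
    exact F.hp (B2d.dirVec u) hA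
  exact KB_real F.stat F.fin F.frc F.ell hc hp hT ε hε

/-- **UE with constant `κ'`: the frame with coins `κ'/2` satisfies `Half`.** -/
theorem frame_half {κ' : ℝ} (hκ : 0 < κ')
    (hstat : ∀ z : Site d, MeasurePreserving (shiftEnv z) Q Q)
    (hell : ∀ᵐ ω ∂Q, ∀ (x : Site d) (e : Step d), κ' ≤ (ω x).1 e)
    (hR : IsFiniteRangeDependent Q R) :
    Bind263.Frame Q (κ' / 2) R ∧ kf d (κ' / 2) = κ' / 2 ∧ Half (κ' / 2) Q := by
  have h2 : ∀ᵐ ω ∂Q, ∀ (x : Site d) (e : Step d), κ' / 2 ≤ (ω x).1 e := by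
    filter_upwards [hell] with ω hω x e
    linarith [hω x e]
  have hk := Bind263.kf_eq_of_ell (half_pos hκ) h2
  refine ⟨Bind263.frame_ue hstat (half_pos hκ) h2 hR, hk, 1 / 2, by norm_num, ?_⟩
  filter_upwards [hell] with ω hω z e
  rw [hk]
  linarith [hω z e]

end Crest.Agent.R154.KB424
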