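import Crest.Agent.R154.RatioC_872
import Crest.Agent.R154.Comp_402

-- ▼ part R154/CompW_263
section

/-!
Row 154, block B8 (helper263): THE CHAIN, general form.
* (W) only for heights `>= c u` and up to a deterministic extra cost `w i` (541's (O2));
* (R) up to a deterministic extra cost;
* initial input on a start law which may depend on the final index (ball of radius `η n`).
The proofs `block_tail .. block_exp3` are helper402's (Comp_402) for a signed process.
-/

set_option autoImplicit false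

open MeasureTheory Filter Finset
open scoped ENNReal

namespace Crest.Agent.R154.CompW

open Crest.Agent.R154.KSet
open Crest.Agent.R154.Comp (meas_expmax meas_sub meas_setge expmoment_of_tail lintegral_prod_le
  tail_sum_of_overlap M1 M1_ge Mbar Mbar_ge)

variable {Ω : Type*} {m0 : MeasurableSpace Ω}

/-- (W) for a signed process, one rate -/
structure ProcS (lam u0 : ℝ) (P : Measure Ω) (G : Filtration ℕ m0) (a : ℕ → Ω → ℝ) : Prop where
  meas : ∀ i, Measurable[G i] (a i)
  W : ∀ i : ℕ, ∀ u : ℝ, u0 ≤ u → ∀ B, MeasurableSet[G i] B →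
    P (B ∩ {ω | u ≤ a (i + 2) ω - a (i + 1) ω}) ≤ ENNReal.ofReal (Real.exp (-(lam * u))) * P B

/-- threshold slope of a block. -/
noncomputable def K1 (u0 c : ℝ) : ℝ := 2 * max u0 0 + Real.log (Mbar c) / c + 1

/-- (C1), conditional tail form: `k` consecutive windows. -/
theorem block_tail {lam u0 : ℝ} {P : Measure Ω}
    {G : Filtration ℕ m0} {a : ℕ → Ω → ℝ} (hp : ProcS lam u0 P G a) {c : ℝ} (hc : 0 < c)
    (hlam : lam = 2 * c) (i0 k : ℕ) {v : ℝ} {B : Set Ω} (hB : MeasurableSet[G i0] B) :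
    P (B ∩ {ω | k * max u0 0 + v ≤ a (i0 + 1 + k) ω - a (i0 + 1) ω})
      ≤ ENNReal.ofReal (2 * M1 c ^ k * Real.exp (-(c * v / 2))) * P B := by
  subst hlam
  have hBm : MeasurableSet B := G.le _ _ hB
  have h := tail_sum_of_overlap (P.restrict B) (fun j => G (i0 + j)) (fun j => G.le _)
    (fun i j hij => G.mono (by omega)) k (fun j ω => a (i0 + 1 + (j + 1)) ω - a (i0 + 1 + j) ω)
    (c := c) (s := max u0 0) (M := M1 c) (v := v) hc (M1_ge hc)
    (fun j _ => meas_sub ((hp.meas _).mono (G.mono (by omega)) le_rfl)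
      ((hp.meas _).mono (G.mono (by omega)) le_rfl))
    (fun j _ B' hB' => by
      have hB'm : MeasurableSet B' := G.le _ _ hB'
      refine (expmoment_of_tail (P.restrict B) (K := 1) ?_ hc zero_le_one (B := B')
        (fun w hw => ?_)).trans (le_of_eq rfl)
      · exact meas_sub ((hp.meas _).mono (G.le _) le_rfl) ((hp.meas _).mono (G.le _) le_rfl)
      · have hBB : MeasurableSet[G (i0 + j)] (B' ∩ B) :=
          MeasurableSet.inter hB' (G.mono (by omega) _ hB)
        have h1 := hp.W (i0 + j) (max u0 0 + w)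
          (le_trans (le_max_left _ _) (by linarith)) (B' ∩ B) hBB
        rw [Measure.restrict_apply' hBm, Measure.restrict_apply' hBm]
        have e1 : (B' ∩ {ω | max u0 0 + w ≤ a (i0 + 1 + (j + 1)) ω - a (i0 + 1 + j) ω}) ∩ B
            = (B' ∩ B) ∩ {ω | max u0 0 + w ≤ a (i0 + j + 2) ω - a (i0 + j + 1) ω} := by
          have e2 : i0 + 1 + (j + 1) = i0 + j + 2 := by ring
          have e3 : i0 + 1 + j = i0 + j + 1 := by ring
          rw [e2, e3, Set.inter_right_comm]
        rw [e1]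
        refine h1.trans ?_
        gcongr
        rw [one_mul]
        refine Real.exp_le_exp.2 ?_
        have : 0 ≤ 2 * c * max u0 0 := by positivity
        nlinarith)
  rw [Measure.restrict_apply' hBm, Measure.restrict_apply MeasurableSet.univ, Set.univ_inter] at h
  refine le_trans (le_of_eq ?_) h
  rw [Set.inter_comm]
  congr 1
  ext ω
  simp only [Set.mem_inter_iff, Set.mem_ofPred_eq, and_congr_left_iff]
  intro _
  have : ∑ j ∈ range k, (a (i0 + 1 + (j + 1)) ω - a (i0 + 1 + j) ω)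
      = a (i0 + 1 + k) ω - a (i0 + 1) ω := by
    have := Finset.sum_range_sub (fun j => a (i0 + 1 + j) ω) k
    simpa using this
  rw [this]

/-- exponential moment of a block of `k` windows. -/
theorem block_exp {lam u0 : ℝ} {P : Measure Ω}
    {G : Filtration ℕ m0} {a : ℕ → Ω → ℝ} (hp : ProcS lam u0 P G a) {c : ℝ} (hc : 0 < c)
    (hlam : lam = 2 * (8 * c)) (i0 k : ℕ) (hk : 0 < k) {B : Set Ω} (hB : MeasurableSet[G i0] B) :
    ∫⁻ ω in B, ENNReal.ofReal (Real.exp (2 * c *
        max ((a (i0 + 1 + k) ω - a (i0 + 1) ω) - k * max u0 0) 0)) ∂P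
      ≤ ENNReal.ofReal (Mbar c ^ k) * P B := by
  have hec : Real.exp (-(2 * c)) < 1 := by rw [Real.exp_lt_one_iff]; linarith
  have hG : 0 ≤ (1 - Real.exp (-(2 * c)))⁻¹ := inv_nonneg.2 (by linarith)
  have hM1 := M1_ge (c := 8 * c) (by positivity)
  have h := expmoment_of_tail P (V := fun ω => a (i0 + 1 + k) ω - a (i0 + 1) ω)
    (meas_sub ((hp.meas _).mono (G.le _) le_rfl) ((hp.meas _).mono (G.le _) le_rfl))
    (c := 2 * c) (s := k * max u0 0) (K := 2 * M1 (8 * c) ^ k)
    (by positivity) (by positivity) (B := B)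
    (fun v _ => by
      refine (block_tail hp (c := 8 * c) (by positivity) hlam i0 k (v := v) hB).trans ?_
      gcongr
      linarith)
  refine h.trans ?_
  gcongr
  unfold Mbar
  rw [mul_pow, mul_pow]
  have hM1k : 1 ≤ M1 (8 * c) ^ k := one_le_pow₀ hM1
  have h1 : Real.exp (2 * c) ≤ Real.exp (2 * c) ^ k :=
    le_self_pow₀ (Real.one_le_exp (by linarith)) hk.ne'
  have h2 : (1 + 2 * (1 - Real.exp (-(2 * c)))⁻¹) ≤ (1 + 2 * (1 - Real.exp (-(2 * c)))⁻¹) ^ k :=
    le_self_pow₀ (by linarith) hk.ne'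
  calc Real.exp (2 * c) * (1 + 2 * M1 (8 * c) ^ k * (1 - Real.exp (-(2 * c)))⁻¹)
      ≤ Real.exp (2 * c) * ((1 + 2 * (1 - Real.exp (-(2 * c)))⁻¹) * M1 (8 * c) ^ k) := by
        gcongr
        nlinarith
    _ = Real.exp (2 * c) * (1 + 2 * (1 - Real.exp (-(2 * c)))⁻¹) * M1 (8 * c) ^ k := by ring
    _ ≤ Real.exp (2 * c) ^ k * (1 + 2 * (1 - Real.exp (-(2 * c)))⁻¹) ^ k * M1 (8 * c) ^ k := by
        gcongr

/-- (C2), one block: with (R) at rate `b = c * K1` the exponential moment above `ε k` is `≤ 3`. -/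
theorem block_exp3 {lam u0 : ℝ} {P : Measure Ω}
    {G : Filtration ℕ m0} {a : ℕ → Ω → ℝ} (hp : ProcS lam u0 P G a) {c ε : ℝ} (hc : 0 < c)
    (hlam : lam = 2 * (8 * c)) (hε : 0 < ε) (i0 k : ℕ) (hk : 0 < k)
    (hR : ∀ B, MeasurableSet[G i0] B →
      P (B ∩ {ω | ε * k ≤ a (i0 + 1 + k) ω - a (i0 + 1) ω})
        ≤ ENNReal.ofReal (Real.exp (-((c * K1 u0 c) * k))) * P B) {B : Set Ω} (hB : MeasurableSet[G i0] B) :
    ∫⁻ ω in B, ENNReal.ofReal (Real.exp (c *
        max ((a (i0 + 1 + k) ω - a (i0 + 1) ω) - ε * k) 0)) ∂P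
      ≤ ENNReal.ofReal 3 * P B := by
  have hBm : MeasurableSet B := G.le _ _ hB
  set V : Ω → ℝ := fun ω => a (i0 + 1 + k) ω - a (i0 + 1) ω with hV
  have hVm : Measurable V :=
    meas_sub ((hp.meas _).mono (G.le _) le_rfl) ((hp.meas _).mono (G.le _) le_rfl)
  set U : ℝ := max u0 0 with hU
  have hU0 : 0 ≤ U := le_max_right _ _
  have hlog : 0 ≤ Real.log (Mbar c) := Real.log_nonneg (Mbar_ge hc)
  have hK1 : 0 < K1 u0 c := by
    unfold K1
    have : 0 ≤ Real.log (Mbar c) / c := div_nonneg hlog hc.le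
    positivity
  have hk' : (0 : ℝ) < k := by exact_mod_cast hk
  set E : Set Ω := {ω | ε * k ≤ V ω} with hE
  have hEm : MeasurableSet E := meas_setge hVm _
  have hpt : ∀ ω, ENNReal.ofReal (Real.exp (c * max (V ω - ε * k) 0))
      ≤ 1 + ENNReal.ofReal (Real.exp (c * K1 u0 c * k)) * E.indicator 1 ω
        + ENNReal.ofReal (Real.exp (-(c * K1 u0 c * k) + 2 * c * (k * U)))
          * ENNReal.ofReal (Real.exp (2 * c * max (V ω - k * U) 0)) := by
    intro ω
    by_cases h1 : V ω - ε * k < 0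
    · rw [max_eq_right h1.le, mul_zero, Real.exp_zero, ENNReal.ofReal_one]
      exact le_self_add.trans le_self_add
    · rw [not_lt] at h1
      have hmem : ω ∈ E := by simp only [hE, Set.mem_ofPred_eq]; linarith
      rw [max_eq_left h1, Set.indicator_of_mem hmem]
      simp only [Pi.one_apply, mul_one]
      have hεk : 0 ≤ ε * k := by positivity
      by_cases h2 : V ω ≤ K1 u0 c * k
      · refine le_trans ?_ (le_self_add)
        refine le_trans ?_ le_add_self
        refine ENNReal.ofReal_le_ofReal (Real.exp_le_exp.2 ?_)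
        nlinarith
      · rw [not_le] at h2
        refine le_trans ?_ le_add_self
        rw [← ENNReal.ofReal_mul (Real.exp_pos _).le, ← Real.exp_add]
        refine ENNReal.ofReal_le_ofReal (Real.exp_le_exp.2 ?_)
        have h3 : V ω - k * U ≤ max (V ω - k * U) 0 := le_max_left _ _
        nlinarith
  have hI := block_exp hp hc hlam i0 k hk hB
  have hR' := hR B hB
  have hind : ∫⁻ ω in B, E.indicator 1 ω ∂P = P (B ∩ E) := by
    rw [lintegral_indicator_one hEm, Measure.restrict_apply hEm, Set.inter_comm]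
  calc ∫⁻ ω in B, ENNReal.ofReal (Real.exp (c * max (V ω - ε * k) 0)) ∂P
      ≤ ∫⁻ ω in B, (1 + ENNReal.ofReal (Real.exp (c * K1 u0 c * k)) * E.indicator 1 ω
        + ENNReal.ofReal (Real.exp (-(c * K1 u0 c * k) + 2 * c * (k * U)))
          * ENNReal.ofReal (Real.exp (2 * c * max (V ω - k * U) 0))) ∂P := lintegral_mono hpt
    _ = P B + ENNReal.ofReal (Real.exp (c * K1 u0 c * k)) * P (B ∩ E)
        + ENNReal.ofReal (Real.exp (-(c * K1 u0 c * k) + 2 * c * (k * U)))
          * ∫⁻ ω in B, ENNReal.ofReal (Real.exp (2 * c * max (V ω - k * U) 0)) ∂P := by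
        rw [lintegral_add_right _ ((meas_expmax hVm (2 * c) (k * U)).const_mul _),
          lintegral_add_left measurable_const,
          lintegral_const_mul _ (measurable_one.indicator hEm), hind,
          lintegral_const_mul _ (meas_expmax hVm (2 * c) (k * U))]
        simp
    _ ≤ P B + ENNReal.ofReal (Real.exp (c * K1 u0 c * k))
          * (ENNReal.ofReal (Real.exp (-(c * K1 u0 c * k))) * P B)
        + ENNReal.ofReal (Real.exp (-(c * K1 u0 c * k) + 2 * c * (k * U)))
          * (ENNReal.ofReal (Mbar c ^ k) * P B) := by gcongr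
    _ ≤ ENNReal.ofReal 3 * P B := by
        have e1 : ENNReal.ofReal (Real.exp (c * K1 u0 c * k))
            * (ENNReal.ofReal (Real.exp (-(c * K1 u0 c * k))) * P B) = P B := by
          rw [← mul_assoc, ← ENNReal.ofReal_mul (Real.exp_pos _).le, ← Real.exp_add]
          simp
        have e2 : ENNReal.ofReal (Real.exp (-(c * K1 u0 c * k) + 2 * c * (k * U)))
            * (ENNReal.ofReal (Mbar c ^ k) * P B) ≤ P B := by
          rw [← mul_assoc, ← ENNReal.ofReal_mul (Real.exp_pos _).le]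
          have hMb : Mbar c ^ k = Real.exp (k * Real.log (Mbar c)) := by
            rw [Real.exp_nat_mul, Real.exp_log (lt_of_lt_of_le one_pos (Mbar_ge hc))]
          rw [hMb, ← Real.exp_add]
          have hle : -(c * K1 u0 c * k) + 2 * c * (k * U) + k * Real.log (Mbar c) ≤ 0 := by
            have : c * K1 u0 c = 2 * c * U + Real.log (Mbar c) + c := by
              unfold K1; rw [← hU]; field_simp
            rw [this]
            nlinarith
          calc ENNReal.ofReal (Real.exp (-(c * K1 u0 c * k) + 2 * c * (k * U)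
                + k * Real.log (Mbar c))) * P B ≤ ENNReal.ofReal 1 * P B := by
                gcongr
                exact (Real.exp_le_one_iff).2 hle
            _ = P B := by simp
        rw [e1]
        calc P B + P B + ENNReal.ofReal (Real.exp (-(c * K1 u0 c * k) + 2 * c * (k * U)))
            * (ENNReal.ofReal (Mbar c ^ k) * P B) ≤ P B + P B + P B := by gcongr
          _ = ENNReal.ofReal 3 * P B := by
              rw [show (ENNReal.ofReal 3) = 3 by norm_num]; ring


/-- sum of `N` blocks of `k` windows, signed process -/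
theorem chainS {lam u0 : ℝ} {P : Measure Ω} [IsProbabilityMeasure P]
    {G : Filtration ℕ m0} {a : ℕ → Ω → ℝ} (hp : ProcS lam u0 P G a) {c ε : ℝ} (hc : 0 < c)
    (hlam : lam = 2 * (8 * c)) (hε : 0 < ε) (I k : ℕ) (hI : 1 ≤ I) (hk : 0 < k)
    (hR : ∀ i, I - 1 ≤ i → ∀ B, MeasurableSet[G i] B →
      P (B ∩ {ω | ε * k ≤ a (i + 1 + k) ω - a (i + 1) ω})
        ≤ ENNReal.ofReal (Real.exp (-((c * K1 u0 c) * k))) * P B) (N : ℕ) (v : ℝ) :
    P {ω | N * (ε * k) + v ≤ a (I + N * k) ω - a I ω}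
      ≤ ENNReal.ofReal (2 * 3 ^ N * Real.exp (-(c * v / 2))) := by
  have hT := tail_sum_of_overlap P (fun j => G (I - 1 + j * k)) (fun j => G.le _)
    (fun i j hij => G.mono (Nat.add_le_add_left (Nat.mul_le_mul_right _ hij) _)) N
    (fun j ω => a (I + (j + 1) * k) ω - a (I + j * k) ω)
    (c := c) (s := ε * k) (M := 3) (v := v) hc (by norm_num)
    (fun j _ => meas_sub
      ((hp.meas _).mono (G.mono (by
        have : 1 ≤ k := hk
        have e : (j + 2) * k = (j + 1) * k + k := by ring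
        rw [e]; omega)) le_rfl)
      ((hp.meas _).mono (G.mono (by
        have : 1 ≤ k := hk
        have e : (j + 2) * k = j * k + k + k := by ring
        rw [e]; omega)) le_rfl))
    (fun j _ B hB => by
      have h := block_exp3 hp hc hlam hε (I - 1 + j * k) k hk (hR _ (by omega)) hB
      have e1 : I - 1 + j * k + 1 + k = I + (j + 1) * k := by
        have : (j + 1) * k = j * k + k := by ring
        rw [this]; omega
      have e2 : I - 1 + j * k + 1 = I + j * k := by omega
      rw [e1, e2] at h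
      exact h)
  rw [measure_univ, mul_one] at hT
  refine le_trans (le_of_eq ?_) hT
  congr 1
  ext ω
  simp only [Set.mem_ofPred_eq]
  have : ∑ j ∈ range N, (a (I + (j + 1) * k) ω - a (I + j * k) ω)
      = a (I + N * k) ω - a I ω := by
    have := Finset.sum_range_sub (fun j => a (I + j * k) ω) N
    simpa using this
  rw [this]

theorem min_sub_min_le (x y t : ℝ) (h : y ≤ x) : min x t - min y t ≤ x - y := by
  rcases le_total x t with h1 | h1
  · rw [min_eq_left h1, min_eq_left (h.trans h1)]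
  · rw [min_eq_right h1]
    rcases le_total y t with h2 | h2
    · rw [min_eq_left h2]; linarith
    · rw [min_eq_right h2]; linarith

/-- **(W)**, rate `lam`, threshold `u0`, heights `>= u / c`, deterministic extra cost `w` -/
def WH (P : Measure Ω) (G : Filtration ℕ m0) (a : ℕ → Ω → ℝ) (lam u0 c : ℝ) (w : ℕ → ℝ) : Prop :=
  ∀ i : ℕ, ∀ u : ℝ, u0 ≤ u → u + w i ≤ c * 10 ^ i → ∀ B, MeasurableSet[G i] B →
    P (B ∩ {ω | u + w i ≤ a (i + 2) ω - a (i + 1) ω})
      ≤ ENNReal.ofReal (Real.exp (-(lam * u))) * P B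

/-- **(R)**, ratio `10 ^ k`, loss `ε k` plus the deterministic extra cost `w` -/
def RH (P : Measure Ω) (G : Filtration ℕ m0) (a : ℕ → Ω → ℝ) (ε b : ℝ) (k i1 : ℕ) (w : ℕ → ℝ) :
    Prop :=
  ∀ i : ℕ, i1 ≤ i → ∀ B, MeasurableSet[G i] B →
    P (B ∩ {ω | ε * k + w i ≤ a (i + 1 + k) ω - a (i + 1) ω})
      ≤ ENNReal.ofReal (Real.exp (-(b * k))) * P B

/-- sum of the first `J` extra costs, shifted by one -/
noncomputable def W1 (w : ℕ → ℝ) (j : ℕ) : ℝ := ∑ i ∈ range (j - 1), w i

theorem W1_succ (w : ℕ → ℝ) (j : ℕ) : W1 w (j + 2) = W1 w (j + 1) + w j := by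
  unfold W1
  have e1 : j + 2 - 1 = j + 1 := by omega
  have e2 : j + 1 - 1 = j := by omega
  rw [e1, e2, sum_range_succ]

theorem W1_mono {w : ℕ → ℝ} (hw : ∀ i, 0 ≤ w i) {i j : ℕ} (hij : i ≤ j) : W1 w i ≤ W1 w j := by
  unfold W1
  exact sum_le_sum_of_subset_of_nonneg (range_mono (by omega)) fun i _ _ => hw i

theorem W1_nonneg {w : ℕ → ℝ} (hw : ∀ i, 0 ≤ w i) (j : ℕ) : 0 ≤ W1 w j :=
  sum_nonneg fun i _ => hw i

set_option maxHeartbeats 2000000 in
/-- **THE CHAIN, general form.** -/
theorem chain (P : Measure Ω) [IsProbabilityMeasure P] (G : Filtration ℕ m0)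
    (a : ℕ → ℕ → Ω → ℝ)
    (meas : ∀ n i, Measurable[G i] (a n i))
    (nonneg : ∀ n i ω, 0 ≤ a n i ω)
    (mono : ∀ n ω, Monotone fun i => a n i ω)
    (hW : ∀ lam ε' : ℝ, 0 < lam → 0 < ε' → ∃ u0 c : ℝ, 0 < c ∧ ∃ w : ℕ → ℝ, (∀ i, 0 ≤ w i) ∧
      (∀ J : ℕ, ∑ i ∈ range J, w i ≤ ε' * J + u0) ∧ ∀ n, WH P G (a n) lam u0 c w)
    (hR : ∀ ε b ε' : ℝ, 0 < ε → 0 < b → 0 < ε' → ∃ k0 : ℕ, ∀ k, k0 ≤ k → ∃ i1 : ℕ,
      ∃ w : ℕ → ℝ, (∀ i, 0 ≤ w i) ∧ (∀ J : ℕ, ∑ i ∈ range J, w i ≤ ε' * J + i1) ∧
        ∀ n, RH P G (a n) ε b k i1 w)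
    (init : ∀ b δ' M : ℝ, 0 < b → 0 < δ' → 0 < M → ∃ n1 : ℕ, ∀ n, n1 ≤ n → ∀ J : ℕ,
      (10 : ℝ) ^ J ≤ b * n → P {ω | δ' * n ≤ a n J ω} ≤ ENNReal.ofReal (Real.exp (-(M * n))))
    {δ M : ℝ} (hδ : 0 < δ) (hM : 0 < M) :
    ∃ C : ℝ, ∀ n : ℕ, P {ω | δ * n ≤ a n n ω} ≤ ENNReal.ofReal (C * Real.exp (-(M * n))) := by
  set c0 : ℝ := 8 * (M + 2) / δ with hc0d
  have hc0 : 0 < c0 := by positivity
  obtain ⟨u0, c, hc, w, hw0, hwS, hWn⟩ := hW (2 * (8 * c0)) (δ / 64) (by positivity) (by positivity)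
  set ε : ℝ := δ / 8 with hε
  have hε0 : 0 < ε := by positivity
  have hK1 : 0 < K1 u0 c0 := by
    unfold K1
    have h1 : 0 ≤ Real.log (Mbar c0) := Real.log_nonneg (Mbar_ge hc0)
    have h2 : 0 ≤ Real.log (Mbar c0) / c0 := div_nonneg h1 hc0.le
    have h3 : 0 ≤ max u0 0 := le_max_right _ _
    linarith
  obtain ⟨k0, hk0⟩ := hR ε (c0 * K1 u0 c0) (δ / 64) hε0 (by positivity) (by positivity)
  set k : ℕ := max 1 k0 with hkd
  have hk : 0 < k := lt_of_lt_of_le one_pos (le_max_left _ _)
  have hk' : (1 : ℝ) ≤ k := by exact_mod_cast hk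
  obtain ⟨i1, w', hw0', hwS', hRn⟩ := hk0 k (le_max_right _ _)
  set I : ℕ := i1 + 1 with hI
  -- total extra cost
  set wt : ℕ → ℝ := fun i => w i + w' i with hwt
  have hwt0 : ∀ i, 0 ≤ wt i := fun i => add_nonneg (hw0 i) (hw0' i)
  have hwtS : ∀ J : ℕ, ∑ i ∈ range J, wt i ≤ δ / 32 * J + (u0 + i1) := by
    intro J
    rw [hwt, sum_add_distrib]
    have := hwS J
    have := hwS' J
    linarith
  set u1 : ℝ := max u0 0 with hu1
  have hu1' : u0 ≤ u1 := le_max_left _ _
  have hu10 : 0 ≤ u1 := le_max_right _ _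
  have hwle : ∀ i : ℕ, wt i ≤ δ / 32 * (i + 1) + (u1 + i1) := by
    intro i
    have h1 := hwtS (i + 1)
    rw [sum_range_succ] at h1
    have h2 : 0 ≤ ∑ j ∈ range i, wt j := sum_nonneg fun j _ => hwt0 j
    push_cast at h1
    linarith
  -- starting height
  set A : ℝ := (δ + u1 + i1 + 1) / c + (δ + u1 + i1 + 1) with hA
  have hA1 : 1 ≤ A := by
    have h1 : 0 ≤ (δ + u1 + i1 + 1) / c := by positivity
    have h2 : (0 : ℝ) ≤ i1 := Nat.cast_nonneg _
    rw [hA]; linarith
  set b : ℝ := (1 + 10 * A) * 10 ^ I with hb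
  have hb0 : 0 < b := by positivity
  obtain ⟨n1, hn1⟩ := init b (δ / 4) M hb0 (by positivity) hM
  -- `J n` grows like `log n`
  have hJex : ∀ n : ℕ, ∃ J : ℕ, A * n ≤ (10 : ℝ) ^ J := fun n =>
    (pow_unbounded_of_one_lt (A * n) (by norm_num : (1 : ℝ) < 10)).imp fun _ h => h.le
  classical
  set J : ℕ → ℕ := fun n => Nat.find (hJex n) with hJd
  have hJ1 : ∀ n, A * n ≤ (10 : ℝ) ^ (J n) := fun n => Nat.find_spec (hJex n)
  have hJ2 : ∀ n : ℕ, 1 ≤ n → (10 : ℝ) ^ (J n) ≤ (1 + 10 * A) * n := by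
    intro n hn
    have hn0 : (1 : ℝ) ≤ n := by exact_mod_cast hn
    rcases Nat.eq_zero_or_pos (J n) with h0 | h0
    · rw [h0, pow_zero]
      nlinarith
    · obtain ⟨j, hj⟩ := Nat.exists_eq_succ_of_ne_zero h0.ne'
      have h1 : ¬ A * n ≤ (10 : ℝ) ^ j := Nat.find_min (hJex n) (by
        have : Nat.find (hJex n) = J n := rfl
        omega)
      rw [not_le] at h1
      rw [hj, pow_succ]
      nlinarith
  have hJlog : ∀ n : ℕ, 1 ≤ n → (J n : ℝ) ≤ Real.log (1 + 10 * A) + Real.log n := by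
    intro n hn
    have hn0 : (1 : ℝ) ≤ n := by exact_mod_cast hn
    have h1 := Real.log_le_log (by positivity) (hJ2 n hn)
    rw [Real.log_pow, Real.log_mul (by positivity) (by positivity)] at h1
    have h10 : (1 : ℝ) ≤ Real.log 10 := by
      have h3 : Real.exp 1 < 2.7182818286 := Real.exp_one_lt_d9
      rw [Real.le_log_iff_exp_le (by norm_num)]
      linarith
    have h2 : (0 : ℝ) ≤ J n := Nat.cast_nonneg _
    nlinarith
  -- a threshold for `n`
  have hev : ∀ᶠ n : ℕ in atTop, Real.log (1 + 10 * A) + Real.log n + (I + k + u1 + i1) / (δ / 32)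
      + (I + k) ≤ n := by
    have h1 : Tendsto (fun n : ℕ => Real.log (n : ℝ) / (n : ℝ)) atTop (nhds 0) := by
      have := Real.isLittleO_log_id_atTop.tendsto_div_nhds_zero
      exact this.comp tendsto_natCast_atTop_atTop
    have h2 : ∀ᶠ n : ℕ in atTop, Real.log (n : ℝ) / (n : ℝ) < 1 / 2 :=
      h1.eventually (gt_mem_nhds (by norm_num))
    filter_upwards [h2, eventually_ge_atTop 1,
      (tendsto_natCast_atTop_atTop (R := ℝ)).eventually_ge_atTop
        (2 * (Real.log (1 + 10 * A) + (I + k + u1 + i1) / (δ / 32) + (I + k)))] with n h3 h4 h5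
    have hn0 : (0 : ℝ) < n := by exact_mod_cast h4
    rw [div_lt_iff₀ hn0] at h3
    linarith
  obtain ⟨n2, hn2⟩ := eventually_atTop.1 hev
  set n3 : ℕ := max (max n1 n2) 1 with hn3
  refine ⟨7 + Real.exp (M * n3), fun n => ?_⟩
  by_cases hn : n < n3
  · refine le_trans prob_le_one ?_
    rw [← ENNReal.ofReal_one]
    refine ENNReal.ofReal_le_ofReal ?_
    have h1 : (n : ℝ) ≤ n3 := by exact_mod_cast hn.le
    calc (1 : ℝ) = Real.exp (M * n3) * Real.exp (-(M * n3)) := by
          rw [← Real.exp_add]; simp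
      _ ≤ (7 + Real.exp (M * n3)) * Real.exp (-(M * n)) := by
          gcongr
          linarith
  rw [not_lt] at hn
  have hn1' : n1 ≤ n := (le_max_left _ _).trans ((le_max_left _ _).trans hn)
  have hn2' : n2 ≤ n := (le_max_right _ _).trans ((le_max_left _ _).trans hn)
  have hn0' : 1 ≤ n := (le_max_right _ _).trans hn
  have hn0 : (1 : ℝ) ≤ n := by exact_mod_cast hn0'
  have hbig := hn2 n hn2'
  have hJn := hJlog n hn0'
  -- the truncated process
  set T : ℝ := δ * n with hT
  have hT0 : 0 < T := by positivity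
  set a' : ℕ → Ω → ℝ := fun j ω => min (a n (J n + j) ω) T with ha'
  set G' : Filtration ℕ m0 :=
    { seq := fun j => G (J n + j)
      mono' := fun i j hij => G.mono (by omega)
      le' := fun j => G.le _ } with hG'
  set wJ : ℕ → ℝ := fun i => wt (J n + i) with hwJ
  have hwJ0 : ∀ i, 0 ≤ wJ i := fun i => hwt0 _
  set bb : ℕ → Ω → ℝ := fun j ω => a' j ω - W1 wJ j with hbb
  have hainc : ∀ i j : ℕ, i ≤ j → ∀ ω, a' j ω - a' i ω ≤ a n (J n + j) ω - a n (J n + i) ω := by
    intro i j hij ω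
    exact min_sub_min_le _ _ _ (mono n ω (by omega))
  have ha'T : ∀ j ω, a' j ω ≤ T := fun j ω => min_le_right _ _
  have ha'0 : ∀ j ω, 0 ≤ a' j ω := fun j ω => le_min (nonneg n _ ω) hT0.le
  have hproc : ProcS (2 * (8 * c0)) u1 P G' bb := by
    refine ⟨fun i => ?_, fun i u hu B hB => ?_⟩
    · exact ((meas n (J n + i)).min measurable_const).sub_const _
    · have hw1 : W1 wJ (i + 2) = W1 wJ (i + 1) + wJ i := W1_succ wJ i
      by_cases hun : u + w (J n + i) ≤ T
      · refine le_trans (measure_mono (Set.inter_subset_inter_right B fun ω hω => ?_))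
          (hWn n (J n + i) u (hu1'.trans hu) ?_ B hB)
        · have h1 : u ≤ bb (i + 2) ω - bb (i + 1) ω := hω
          have h2 := hainc (i + 1) (i + 2) (by omega) ω
          simp only [hbb] at h1
          rw [hw1] at h1
          have h3 : w (J n + i) ≤ wJ i := by
            simp only [hwJ, hwt]; linarith [hw0' (J n + i)]
          show u + w (J n + i) ≤ a n (J n + (i + 2)) ω - a n (J n + (i + 1)) ω
          linarith
        · have h1 := hJ1 n
          have h2 : (10 : ℝ) ^ (J n) ≤ 10 ^ (J n + i) := pow_le_pow_right₀ (by norm_num) (by omega)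
          have h3 : T ≤ c * 10 ^ (J n) := by
            have h4 : T ≤ c * (A * n) := by
              rw [hA, hT, add_mul, mul_add, ← mul_assoc, mul_div_cancel₀ _ hc.ne']
              have h5 : (0 : ℝ) ≤ i1 := Nat.cast_nonneg _
              have h6 : 0 ≤ c * ((δ + u1 + i1 + 1) * n) := by positivity
              nlinarith
            exact h4.trans (by gcongr)
          calc u + w (J n + i) ≤ T := hun
            _ ≤ c * 10 ^ (J n) := h3
            _ ≤ c * 10 ^ (J n + i) := by gcongr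
      · have he : {ω | u ≤ bb (i + 2) ω - bb (i + 1) ω} = ∅ := by
          rw [Set.eq_empty_iff_forall_notMem]
          intro ω hω
          have h1 : u ≤ bb (i + 2) ω - bb (i + 1) ω := hω
          simp only [hbb] at h1
          rw [hw1] at h1
          have h2 := ha'T (i + 2) ω
          have h3 := ha'0 (i + 1) ω
          have h4 : w (J n + i) ≤ wJ i := by
            simp only [hwJ, hwt]; linarith [hw0' (J n + i)]
          linarith
        rw [he, Set.inter_empty, measure_empty]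
        exact zero_le
  -- (R) for the blocks
  have hRbb : ∀ i, I - 1 ≤ i → ∀ B, MeasurableSet[G' i] B →
      P (B ∩ {ω | ε * k ≤ bb (i + 1 + k) ω - bb (i + 1) ω})
        ≤ ENNReal.ofReal (Real.exp (-((c0 * K1 u1 c0) * k))) * P B := by
    intro i hi B hB
    have hKu : K1 u1 c0 = K1 u0 c0 := by
      unfold K1
      rw [hu1, max_eq_left (le_max_right u0 0)]
    rw [hKu]
    refine le_trans (measure_mono (Set.inter_subset_inter_right B fun ω hω => ?_))
      (hRn n (J n + i) (by omega) B hB)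
    have h1 : ε * k ≤ bb (i + 1 + k) ω - bb (i + 1) ω := hω
    have h2 := hainc (i + 1) (i + 1 + k) (by omega) ω
    simp only [hbb] at h1
    have h3 : W1 wJ (i + 1) + wJ i ≤ W1 wJ (i + 1 + k) := by
      rw [← W1_succ]
      exact W1_mono hwJ0 (by omega)
    have h4 : w' (J n + i) ≤ wJ i := by
      simp only [hwJ, hwt]; linarith [hw0 (J n + i)]
    have e1 : J n + i + 1 + k = J n + (i + 1 + k) := by ring
    have e2 : J n + i + 1 = J n + (i + 1) := by ring
    show ε * k + w' (J n + i) ≤ a n (J n + i + 1 + k) ω - a n (J n + i + 1) ω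
    rw [e1, e2]
    linarith
  -- number of blocks
  set N : ℕ := n / k + 1 with hN
  have hN1 : n ≤ N * k := by
    have := Nat.lt_div_mul_add hk (a := n)
    have h2 : n < N * k := by rw [hN, add_mul, one_mul]; exact this
    omega
  have hN2 : N * k ≤ n + k := by
    have := Nat.div_mul_le_self n k
    rw [hN, add_mul, one_mul]; omega
  have hN2' : (N : ℝ) * k ≤ n + k := by exact_mod_cast hN2
  have hN3 : (N : ℝ) ≤ n + 1 := by
    have : N ≤ n + 1 := by
      have := Nat.div_le_self n k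
      rw [hN]; omega
    exact_mod_cast this
  have hmain := chainS hproc hc0 rfl hε0 I k (by omega) hk hRbb N (δ / 4 * n)
  -- total extra cost on the way
  have hWtot : W1 wJ (I + N * k) ≤ δ / 4 * n := by
    have h1 : W1 wJ (I + N * k) ≤ ∑ i ∈ range (J n + (I + N * k)), wt i := by
      unfold W1
      have h2 : ∑ i ∈ range (I + N * k - 1), wJ i ≤ ∑ i ∈ range (I + N * k), wJ i :=
        sum_le_sum_of_subset_of_nonneg (range_mono (by omega)) fun i _ _ => hwJ0 i
      refine h2.trans ?_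
      have h4 : ∑ i ∈ range (J n + (I + N * k)), wt i
          = ∑ i ∈ range (J n), wt i + ∑ i ∈ range (I + N * k), wJ i := sum_range_add _ _ _
      rw [h4]
      have h3 : 0 ≤ ∑ i ∈ range (J n), wt i := sum_nonneg fun i _ => hwt0 i
      linarith
    have h2 := hwtS (J n + (I + N * k))
    have h3 : ((J n + (I + N * k) : ℕ) : ℝ) ≤ J n + I + n + k := by
      push_cast
      linarith
    have h4 : δ / 32 * ((J n + (I + N * k) : ℕ) : ℝ) ≤ δ / 32 * (J n + I + n + k) :=
      mul_le_mul_of_nonneg_left h3 (by positivity)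
    have h5 : u1 + i1 ≤ δ / 32 * ((I + k + u1 + i1) / (δ / 32)) := by
      rw [mul_div_cancel₀ _ (by positivity : δ / 32 ≠ 0)]
      have h6 : (0 : ℝ) ≤ I := Nat.cast_nonneg _
      linarith
    have h7 : δ / 32 * (J n + I + k + (I + k + u1 + i1) / (δ / 32)) ≤ δ / 32 * n :=
      mul_le_mul_of_nonneg_left (by linarith) (by positivity)
    have h8 : u0 + i1 ≤ u1 + i1 := by linarith
    have h9 : 0 ≤ δ / 32 * (n : ℝ) := by positivity
    rw [mul_add (δ / 32)] at h7
    have h10 : δ / 32 * (J n + I + n + k) = δ / 32 * (J n + I + k) + δ / 32 * n := by ring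
    rw [h10] at h4
    have h11 : δ / 4 * (n : ℝ) = 8 * (δ / 32 * n) := by ring
    rw [h11]
    linarith
  have hsub : {ω | δ * n ≤ a n n ω} ⊆
      {ω | N * (ε * k) + δ / 4 * n ≤ bb (I + N * k) ω - bb I ω} ∪
      {ω | δ / 4 * n ≤ a n (J n + I) ω} := by
    intro ω hω
    simp only [Set.mem_ofPred_eq, Set.mem_union] at hω ⊢
    by_contra hcon
    rw [not_or, not_le, not_le] at hcon
    have h1 : T ≤ a' (I + N * k) ω := by
      refine le_min ?_ le_rfl
      exact hω.trans (mono n ω (by omega))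
    have h2 : a' I ω ≤ a n (J n + I) ω := min_le_left _ _
    have h3 : 0 ≤ W1 wJ I := W1_nonneg hwJ0 I
    have h4 : (N : ℝ) * (ε * k) ≤ δ / 4 * n := by
      have h5 : (N : ℝ) * (ε * k) = ε * (N * k) := by ring
      rw [h5]
      have hkn : (k : ℝ) ≤ n := by
        have h6 : (0 : ℝ) ≤ I := Nat.cast_nonneg _
        have h7 : 0 ≤ Real.log (1 + 10 * A) := Real.log_nonneg (by linarith)
        have h8 : 0 ≤ Real.log (n : ℝ) := Real.log_nonneg hn0
        have h9 : 0 ≤ (I + k + u1 + i1) / (δ / 32) := by positivity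
        linarith
      calc ε * (N * k) ≤ ε * (n + k) := by gcongr
        _ ≤ ε * (n + n) := by gcongr
        _ = δ / 4 * n := by rw [hε]; ring
    have h10 := hcon.1
    simp only [hbb] at h10
    have h11 := hcon.2
    have hTn : T = δ * n := hT
    nlinarith
  refine (measure_mono hsub).trans ((measure_union_le _ _).trans ?_)
  have hlast := hn1 n hn1' (J n + I) (by
    rw [pow_add, hb]
    calc (10 : ℝ) ^ (J n) * 10 ^ I ≤ ((1 + 10 * A) * n) * 10 ^ I := by
          gcongr
          exact hJ2 n hn0'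
      _ = (1 + 10 * A) * 10 ^ I * n := by ring)
  refine (add_le_add hmain hlast).trans ?_
  have hE : (0 : ℝ) ≤ Real.exp (-(M * n)) := (Real.exp_pos _).le
  rw [← ENNReal.ofReal_add (by positivity) hE]
  refine ENNReal.ofReal_le_ofReal ?_
  have h3 : (3 : ℝ) ^ N ≤ 3 * Real.exp (2 * n) := by
    have h4 : (3 : ℝ) ≤ Real.exp 2 := by
      have := Real.add_one_le_exp (2 : ℝ); linarith
    calc (3 : ℝ) ^ N ≤ 3 ^ (n + 1) := by
          refine pow_le_pow_right₀ (by norm_num) ?_
          exact_mod_cast hN3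
      _ = 3 * 3 ^ n := by ring
      _ ≤ 3 * Real.exp 2 ^ n := by gcongr
      _ = 3 * Real.exp (2 * n) := by rw [← Real.exp_nat_mul]; ring_nf
  have hcδ : c0 * (δ / 4 * n) / 2 = (M + 2) * n := by rw [hc0d]; field_simp; ring
  rw [hcδ]
  calc 2 * 3 ^ N * Real.exp (-((M + 2) * n)) + Real.exp (-(M * n))
      ≤ 2 * (3 * Real.exp (2 * n)) * Real.exp (-((M + 2) * n)) + Real.exp (-(M * n)) := by gcongr
    _ = 7 * Real.exp (-(M * n)) := by
        rw [show (2 : ℝ) * (3 * Real.exp (2 * n)) * Real.exp (-((M + 2) * n))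
          = 6 * (Real.exp (2 * n) * Real.exp (-((M + 2) * n))) by ring, ← Real.exp_add]
        ring_nf
    _ ≤ (7 + Real.exp (M * n3)) * Real.exp (-(M * n)) := by
        gcongr
        linarith [Real.exp_pos (M * n3)]

end Crest.Agent.R154.CompW
end

-- ▼ part R154/RHbind_872

/-! Row 154, B8: hypothesis `hR` of `CompW.chain` from its hypothesis `hW`, for the natural climbs of
a kernel system (`step_R`). -/

set_option autoImplicit false
set_option linter.unusedSectionVars false
set_option linter.deprecated false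

namespace Crest.Agent.R154.RatioR872

open MeasureTheory ProbabilityTheory Set Filter Finset
open scoped ENNReal

namespace KerSys

variable {S : Type*} [Countable S] {Ω : Type*} {m0 : MeasurableSpace Ω} {P : Measure Ω}

/-- filtration at the heights `10^i` -/
def F10 (A : KerSys S P) : Filtration ℕ m0 where
  seq i := A.F (10 ^ i)
  mono' i j hij := A.F.mono (Nat.pow_le_pow_right (by norm_num) hij)
  le' i := A.F.le _


end KerSys

end Crest.Agent.R154.RatioR872
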