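import Crest.Agent.R154.B6Abs_833
import Crest.Agent.R154.KerPair_872
import Crest.Agent.R154.RHbind_872
import Crest.Agent.R154.B6Sys_833

-- ▼ part R154/B6Same_872
section

/-! Row 154, B6 in the same-environment form needed by the step (R): the pair energy built with
`P_same(both natural up to m, some contact)` (not `P_ind`) is small after a natural climb. -/

set_option autoImplicit false
set_option linter.unusedSectionVars false

open MeasureTheory Set Filter Topology
open scoped BigOperators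

namespace Crest.Agent.R154.B6_833

namespace PairSys

variable {S Ω : Type*} [MeasurableSpace S] [mΩ : MeasurableSpace Ω] {A : PairSys S Ω}
  [DiscreteMeasurableSpace S]
  {a : ℕ} {c₁ cₑ p : ℝ} {β h : ℕ → ℝ} {Far : ℕ → Set S} {χ : ℕ → S → ℝ}


/-- natural up to `n`, some contact stage in `(j, n]` -/
def LateG (A : PairSys S Ω) (j n : ℕ) : Set Ω :=
  A.N 0 n ∩ {ω | ∃ l, j < l ∧ l ≤ n ∧ ω ∈ A.cs l}

lemma lateG_subset {n m : ℕ} (r : ℕ) (hm : n + m ≤ 2 ^ r * n) (hn : 0 < n) :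
    A.LateG n (n + m) ⊆ ⋃ t ∈ Finset.Icc 1 r, A.Late (min (2 ^ t * n) (n + m)) := by
  rintro ω ⟨hN, l, hl1, hl2, hcs⟩
  have hex : ∃ t, l ≤ 2 ^ t * n := ⟨r, hl2.trans hm⟩
  classical
  set t := Nat.find hex with ht
  have h1 : l ≤ 2 ^ t * n := Nat.find_spec hex
  have ht0 : t ≠ 0 := by
    intro h0
    rw [h0] at h1
    simp at h1
    omega
  obtain ⟨t', ht'⟩ : ∃ t', t = t' + 1 := ⟨t - 1, by omega⟩
  have h2 : ¬ l ≤ 2 ^ t' * n := Nat.find_min hex (by omega)
  have h3 : t ≤ r := Nat.find_le (hl2.trans hm)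
  have h4 : 2 ^ t * n = 2 * (2 ^ t' * n) := by rw [ht', pow_succ]; ring
  refine mem_biUnion (x := t) (by simp; omega) ?_
  refine ⟨A.N_left 0 _ (n + m) (Nat.zero_le _) (min_le_right _ _) ω hN, l, ?_, ?_, hcs⟩
  · have := min_le_left (2 ^ t * n) (n + m)
    omega
  · exact le_min h1 hl2

lemma lateG_lim (H : A.Hyp a c₁ cₑ β h p Far χ) (r : ℕ) : ∀ ε > (0:ℝ), ∃ n₀ : ℕ, ∀ n ≥ n₀,
    ∀ m, n + m ≤ 2 ^ r * n → ∀ s : S, (A.P s).real (A.LateG n (n + m)) ≤ ε := by
  intro ε hε
  obtain ⟨n₁, hn₁⟩ := late_lim H (ε / (r + 1)) (by positivity)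
  refine ⟨max n₁ 1, fun n hn m hm s => ?_⟩
  have := A.prob s
  have hn1 : n₁ ≤ n := (le_max_left _ _).trans hn
  have hn0 : 0 < n := lt_of_lt_of_le one_pos ((le_max_right _ _).trans hn)
  calc (A.P s).real (A.LateG n (n + m))
      ≤ (A.P s).real (⋃ t ∈ Finset.Icc 1 r, A.Late (min (2 ^ t * n) (n + m))) :=
        measureReal_mono (lateG_subset r hm hn0) (measure_ne_top _ _)
    _ ≤ ∑ t ∈ Finset.Icc 1 r, (A.P s).real (A.Late (min (2 ^ t * n) (n + m))) :=
        measureReal_biUnion_finset_le _ _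
    _ ≤ ∑ t ∈ Finset.Icc 1 r, ε / (r + 1) := by
        refine Finset.sum_le_sum fun t _ => hn₁ _ ?_ s
        refine le_min ?_ (by omega)
        have : 1 ≤ 2 ^ t := Nat.one_le_two_pow
        nlinarith
    _ = r * (ε / (r + 1)) := by simp
    _ ≤ ε := by
        rw [mul_div_assoc', div_le_iff₀ (by positivity)]
        nlinarith


end PairSys

end Crest.Agent.R154.B6_833
end

-- ▼ part R154/LateBind_872

/-! Row 154, B8, step (R): the late contact hypothesis `LateHyp` of `KerPair_872` from the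
hypotheses of B6 (`B6_833.PairSys.Hyp`) for the pair of marked walkers. -/

set_option autoImplicit false
set_option linter.unusedSectionVars false
set_option linter.deprecated false

open MeasureTheory ProbabilityTheory Filter Set
open scoped ENNReal Topology

namespace Crest.Agent.R154.RatioR872

open Crest.ProbabilityR.RandomEnvironment Crest.Agent.R154.Q561 Crest.Agent.R154.Ren263
open Crest.Agent.R154.Mk561
open Crest.Agent.R154.B6I
open Crest.Agent.R154.Flux132 (lev)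

variable {d : ℕ} (u : Step d) (R : ℕ) (κ : ℝ) (Q : Measure (Environment d)) [IsProbabilityMeasure Q]

/-- **`LateHyp` from the hypotheses of B6** -/
theorem lateHyp_of_hyp {a : ℕ} {c₁ cₑ p : ℝ} {β h : ℕ → ℝ} {Far : ℕ → Set (SP u)}
    {χ : ℕ → SP u → ℝ} (H : (B6I.sys u R κ Q).Hyp a c₁ cₑ β h p Far χ) :
    ∃ n0 : ℕ → ℝ≥0∞ → ℕ, LateHyp u R κ Q n0 := by
  have key : ∀ r : ℕ, ∀ ε : ℝ≥0∞, ∃ n0 : ℕ, ε ≠ 0 → ∀ n, n0 ≤ n → ∀ m, n + m ≤ r * n → ∀ s : SP u,
      PSm κ Q s.1.1 s.1.2 (bc u R n (n + m) s) ≤ ε := by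
    intro r ε
    by_cases hε : ε = 0
    · exact ⟨0, fun h => absurd hε h⟩
    by_cases hεt : ε = ∞
    · exact ⟨0, fun _ n _ m _ s => hεt ▸ le_top⟩
    have hε' : 0 < ε.toReal := ENNReal.toReal_pos hε hεt
    obtain ⟨n₀, hn₀⟩ := B6_833.PairSys.lateG_lim H r ε.toReal hε'
    refine ⟨n₀, fun _ n hn m hm s => ?_⟩
    have h1 : n + m ≤ 2 ^ r * n := hm.trans (Nat.mul_le_mul_right _ Nat.lt_two_pow_self.le)
    have h2 := hn₀ n hn m h1 s
    have h3 : bc u R n (n + m) s
        ⊆ {p : PP d | ((s, p) : Om u) ∈ (B6I.sys u R κ Q).LateG n (n + m)} := by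
      rintro p ⟨hp1, hp2⟩
      refine ⟨hp1, ?_⟩
      rw [← B6I.noC_iff (by omega : n ≤ n + m)] at hp2
      push Not at hp2
      exact hp2
    have hm' : MeasurableSet ((B6I.sys u R κ Q).LateG n (n + m)) := by
      refine ((B6I.sys u R κ Q).F_le _ _ ((B6I.sys u R κ Q).N_meas 0 (n + m)
        (Nat.zero_le _))).inter ?_
      exact set_of_mp (Measurable.exists fun l => Measurable.and measurable_const
        (Measurable.and measurable_const (mp_cs R l)))
    rw [Measure.real, B6I.P_apply s hm'] at h2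
    refine (measure_mono h3).trans ?_
    exact (ENNReal.toReal_le_toReal (measure_ne_top _ _) hεt).1 h2
  choose n0 hn0 using key
  exact ⟨n0, fun r ε hε n hn m hm s => hn0 r ε hε n hn m hm s⟩

end Crest.Agent.R154.RatioR872
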