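import Crest.Agent.R154.JBind4_132
import Crest.Agent.R154.KBEnd_424
import Crest.Agent.R154.B6P_816
import Crest.Agent.R154.LateBind_872

-- ▼ part R154/B6End_424
section

/-! Row 154 (helper424): THEOREM B6 with no open input, every frame with half coins, `d ≥ 3`. -/

set_option autoImplicit false
set_option linter.unusedVariables false

open MeasureTheory ProbabilityTheory Filter Set
open scoped ENNReal Topology

namespace Crest.Agent.R154.KB424

open Crest.ProbabilityR.RandomEnvironment Crest.Agent.R154.Mk561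
open Crest.Agent.R154.B6I

variable {d : ℕ} {Q : Measure (Environment d)} [IsProbabilityMeasure Q] {κ : ℝ} {R : ℕ}
  {u : Step d}

/-- two lateral directions -/
lemma lateral (hd : 3 ≤ d) (i : Fin d) : ∃ i1 i2 : Fin d, i1 ≠ i ∧ i2 ≠ i ∧ i1 ≠ i2 := by
  have h : 1 < ((Finset.univ : Finset (Fin d)).erase i).card := by
    rw [Finset.card_erase_of_mem (Finset.mem_univ i), Finset.card_univ, Fintype.card_fin]
    omega
  obtain ⟨a, ha, b, hb, hab⟩ := Finset.one_lt_card.1 h
  exact ⟨a, b, (Finset.mem_erase.1 ha).1, (Finset.mem_erase.1 hb).1, hab⟩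

/-- **KB in every frame with half coins, `d ≥ 3`.** -/
theorem kb (F : Bind263.Frame Q κ R) (hd : 3 ≤ d)
    (hA : annealedProb Q 0 (escapeEvent (B2d.dirVec u)) ≠ 0) (hc : Half κ Q) :
    B6I.KB u R κ Q := by
  obtain ⟨i1, i2, h1, h2, h12⟩ := lateral hd u.1
  exact kb_frame F hA hc (J132.trunk F hA h1 h2 h12)


end Crest.Agent.R154.KB424
end

-- ▼ part R154/SE_424

/-! Row 154 (helper424): late contacts and small energies with no open input, `d ≥ 3`. -/

set_option autoImplicit false
set_option linter.unusedVariables false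

open MeasureTheory ProbabilityTheory Filter Set
open scoped ENNReal Topology

namespace Crest.Agent.R154.KB424

open Crest.ProbabilityR.RandomEnvironment Crest.Agent.R154.Mk561
open Crest.Agent.R154.B6I Crest.Agent.R154.RatioR872

variable {d : ℕ} {Q : Measure (Environment d)} [IsProbabilityMeasure Q] {κ : ℝ} {R : ℕ}
  {u : Step d}

/-- **the packet `Hyp` of 833 with no open input.** -/
theorem hypB6 (F : Bind263.Frame Q κ R) (hd : 3 ≤ d)
    (hA : annealedProb Q 0 (escapeEvent (B2d.dirVec u)) ≠ 0) (hc : Half κ Q) :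
    ∃ c₁ cₑ : ℝ, (sys u R κ Q).Hyp (R+1) c₁ cₑ (fun m => 2 * (hh u R κ Q m - pp u R κ Q))
      (hh u R κ Q) (pp u R κ Q) (Far u) (chi R κ Q) :=
  B6I.hyp F.stat F.fin (moves_of_two_le F (by omega) u) (B6P816.pp_pos F u hA) (kb F hd hA hc)

/-- **late contacts**, no open input. -/
theorem lateHyp (F : Bind263.Frame Q κ R) (hd : 3 ≤ d)
    (hA : annealedProb Q 0 (escapeEvent (B2d.dirVec u)) ≠ 0) (hc : Half κ Q) :
    ∃ n0 : ℕ → ℝ≥0∞ → ℕ, LateHyp u R κ Q n0 := by
  obtain ⟨c₁, cₑ, H⟩ := hypB6 F hd hA hc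
  exact lateHyp_of_hyp u R κ Q H


end Crest.Agent.R154.KB424
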