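import Mathlib
import Crest.Agent.R154.B4Chi_573
import Crest.Agent.R154.B4Soft2_23

-- ▼ part R154/MobW_437
section

/-!
Row 154, TILE, mobility of the unconfined tile, Part A (Mathlib only): from a law `μ` on `ℝ` with
core width `w`, spread at scale `w` and tail width `W` to two windows with conditional medians
`c₁, c₂`: from every point of an interval of length `a` the displacement leads to the own interval
(shifted by `c₁`) and to the neighbour interval (shifted by `c₂`), with explicit probabilities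
(helper437).
-/

set_option autoImplicit false
set_option linter.unusedSectionVars false
set_option linter.unusedVariables false

namespace Crest.Agent.R154.MobW437

open MeasureTheory Filter Set
open scoped ENNReal Topology

variable {μ : Measure ℝ} [IsProbabilityMeasure μ]

/-- conditional median -/
lemma exists_median (W : Set ℝ) (hW : MeasurableSet W) {lo hi : ℝ} (hsub : W ⊆ Icc lo hi)
    (hpos : 0 < μ.real W) :
    ∃ c : ℝ, lo ≤ c ∧ c ≤ hi ∧ μ.real W / 2 ≤ μ.real (W ∩ Iic c) ∧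
      μ.real W / 2 ≤ μ.real (W ∩ Ici c) := by
  set S : Set ℝ := {x | μ.real W / 2 ≤ μ.real (W ∩ Iic x)} with hS
  have hhi : hi ∈ S := by
    have : W ∩ Iic hi = W := inter_eq_left.2 fun y hy => (hsub hy).2
    simp only [hS, mem_ofPred_eq, this]
    linarith
  have hbdd : ∀ x ∈ S, lo ≤ x := by
    intro x hx
    by_contra hlt
    push Not at hlt
    have : W ∩ Iic x = ∅ := by
      ext y
      simp only [mem_inter_iff, mem_Iic, mem_empty_iff_false, iff_false, not_and, not_le]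
      intro hy
      exact hlt.trans_le (hsub hy).1
    simp only [hS, mem_ofPred_eq, this, measureReal_empty] at hx
    linarith
  have hne : S.Nonempty := ⟨hi, hhi⟩
  have hbb : BddBelow S := ⟨lo, hbdd⟩
  have hup : ∀ x ∈ S, ∀ y, x ≤ y → y ∈ S := by
    intro x hx y hxy
    refine le_trans (show μ.real W / 2 ≤ _ from hx) (measureReal_mono ?_)
    exact inter_subset_inter_right _ (Iic_subset_Iic.2 hxy)
  set c := sInf S with hc
  have hclo : lo ≤ c := le_csInf hne hbdd
  have hchi : c ≤ hi := csInf_le hbb hhi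
  refine ⟨c, hclo, hchi, ?_, ?_⟩
  · -- right continuity
    have hlim : Tendsto (fun k : ℕ => μ (W ∩ Iic (c + 1 / ((k : ℝ) + 1)))) atTop
        (𝓝 (μ (⋂ k : ℕ, (W ∩ Iic (c + 1 / ((k : ℝ) + 1)))))) := by
      refine tendsto_measure_iInter_atTop (fun k => (hW.inter measurableSet_Iic).nullMeasurableSet)
        ?_ ⟨0, measure_ne_top _ _⟩
      intro a b hab
      refine inter_subset_inter_right _ (Iic_subset_Iic.2 ?_)
      have : (1 : ℝ) / ((b : ℝ) + 1) ≤ 1 / ((a : ℝ) + 1) := by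
        apply one_div_le_one_div_of_le (by positivity)
        have : (a : ℝ) ≤ b := by exact_mod_cast hab
        linarith
      linarith
    have hI : (⋂ k : ℕ, (W ∩ Iic (c + 1 / ((k : ℝ) + 1)))) = W ∩ Iic c := by
      ext y
      simp only [mem_iInter, mem_inter_iff, mem_Iic]
      constructor
      · intro h
        refine ⟨(h 0).1, ?_⟩
        by_contra hlt
        push Not at hlt
        obtain ⟨k, hk⟩ := exists_nat_one_div_lt (sub_pos.2 hlt)
        have := (h k).2
        linarith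
      · rintro ⟨h1, h2⟩ k
        refine ⟨h1, h2.trans ?_⟩
        have : (0 : ℝ) < 1 / ((k : ℝ) + 1) := by positivity
        linarith
    rw [hI] at hlim
    have hlim' : Tendsto (fun k : ℕ => μ.real (W ∩ Iic (c + 1 / ((k : ℝ) + 1)))) atTop
        (𝓝 (μ.real (W ∩ Iic c))) := by
      simp only [measureReal_def]
      exact (ENNReal.tendsto_toReal (measure_ne_top _ _)).comp hlim
    refine ge_of_tendsto' hlim' fun k => ?_
    have hpos' : (0 : ℝ) < 1 / ((k : ℝ) + 1) := by positivity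
    obtain ⟨x, hx, hxc⟩ := exists_lt_of_csInf_lt hne (show sInf S < c + 1 / ((k : ℝ) + 1) by
      rw [← hc]; linarith)
    exact hup x hx _ hxc.le
  · have hlim : Tendsto (fun k : ℕ => μ (W ∩ Iic (c - 1 / ((k : ℝ) + 1)))) atTop
        (𝓝 (μ (⋃ k : ℕ, (W ∩ Iic (c - 1 / ((k : ℝ) + 1)))))) := by
      refine tendsto_measure_iUnion_atTop ?_
      intro a b hab
      refine inter_subset_inter_right _ (Iic_subset_Iic.2 ?_)
      have : (1 : ℝ) / ((b : ℝ) + 1) ≤ 1 / ((a : ℝ) + 1) := by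
        apply one_div_le_one_div_of_le (by positivity)
        have : (a : ℝ) ≤ b := by exact_mod_cast hab
        linarith
      linarith
    have hU : (⋃ k : ℕ, (W ∩ Iic (c - 1 / ((k : ℝ) + 1)))) = W ∩ Iio c := by
      ext y
      simp only [mem_iUnion, mem_inter_iff, mem_Iic, mem_Iio]
      constructor
      · rintro ⟨k, h1, h2⟩
        refine ⟨h1, lt_of_le_of_lt h2 ?_⟩
        have : (0 : ℝ) < 1 / ((k : ℝ) + 1) := by positivity
        linarith
      · rintro ⟨h1, h2⟩
        obtain ⟨k, hk⟩ := exists_nat_one_div_lt (sub_pos.2 h2)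
        exact ⟨k, h1, by linarith⟩
    rw [hU] at hlim
    have hlim' : Tendsto (fun k : ℕ => μ.real (W ∩ Iic (c - 1 / ((k : ℝ) + 1)))) atTop
        (𝓝 (μ.real (W ∩ Iio c))) := by
      simp only [measureReal_def]
      exact (ENNReal.tendsto_toReal (measure_ne_top _ _)).comp hlim
    have hle : μ.real (W ∩ Iio c) ≤ μ.real W / 2 := by
      refine le_of_tendsto' hlim' fun k => ?_
      have hpos' : (0 : ℝ) < 1 / ((k : ℝ) + 1) := by positivity
      by_contra hlt
      push Not at hlt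
      have hmem : c - 1 / ((k : ℝ) + 1) ∈ S := hlt.le
      have := csInf_le hbb hmem
      rw [← hc] at this
      linarith
    have hsplit : μ.real W = μ.real (W ∩ Iio c) + μ.real (W ∩ Ici c) := by
      have h1 : W = (W ∩ Iio c) ∪ (W ∩ Ici c) := by
        rw [← inter_union_distrib_left, Iio_union_Ici, inter_univ]
      have h2 : Disjoint (W ∩ Iio c) (W ∩ Ici c) := by
        rw [Set.disjoint_left]
        rintro y ⟨_, hy⟩ ⟨_, hy'⟩
        exact absurd (show y < c from hy) (not_lt.2 hy')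
      conv_lhs => rw [h1]
      rw [measureReal_union h2 (hW.inter measurableSet_Ici)]
    linarith

/-- **Landing in a prescribed interval from every point of an interval**: a window of length at
most `a / 2`, drift = conditional median. -/
lemma land_of_window (W : Set ℝ) (hW : MeasurableSet W) {lo a c : ℝ} (ha : 0 < a)
    (hsub : W ⊆ Icc lo (lo + a / 2)) (hlo : lo ≤ c) (hhi : c ≤ lo + a / 2) {p : ℝ}
    (h1 : p ≤ μ.real (W ∩ Iic c)) (h2 : p ≤ μ.real (W ∩ Ici c)) (α z : ℝ)
    (hz : z ∈ Ico α (α + a)) : p ≤ μ.real {y | z + y - c ∈ Ico α (α + a)} := by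
  rcases lt_or_ge z (α + a / 2) with hlt | hge
  · refine h2.trans (measureReal_mono ?_)
    rintro y ⟨hyW, hyc⟩
    have h3 := hsub hyW
    have h4 : c ≤ y := hyc
    simp only [mem_ofPred_eq, mem_Ico]
    constructor
    · linarith [hz.1]
    · linarith [h3.2]
  · refine h1.trans (measureReal_mono ?_)
    rintro y ⟨hyW, hyc⟩
    have h3 := hsub hyW
    have h4 : y ≤ c := hyc
    simp only [mem_ofPred_eq, mem_Ico]
    constructor
    · linarith [h3.1]
    · linarith [hz.2]

/-- pigeonhole over `m` consecutive windows of length `h` -/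
lemma exists_window (x h : ℝ) (hh : 0 ≤ h) (m : ℕ) (hm : 0 < m) {p : ℝ}
    (hp : p ≤ μ.real (Ioc x (x + m * h))) :
    ∃ i : ℕ, i < m ∧ p / m ≤ μ.real (Ioc (x + i * h) (x + (i + 1) * h)) := by
  by_contra hcon
  push Not at hcon
  have hcov : Ioc x (x + m * h) ⊆ ⋃ i ∈ Finset.range m, Ioc (x + i * h) (x + (i + 1) * h) := by
    clear hp hcon hm
    induction m with
    | zero => simp
    | succ m ih =>
      intro y hy
      rcases le_or_gt y (x + m * h) with h1 | h1
      · have := ih ⟨hy.1, h1⟩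
        simp only [mem_iUnion, Finset.mem_range] at this ⊢
        obtain ⟨i, hi, hi'⟩ := this
        exact ⟨i, by omega, hi'⟩
      · simp only [mem_iUnion, Finset.mem_range]
        refine ⟨m, by omega, h1, ?_⟩
        have := hy.2
        push_cast at this
        exact this
  have h1 : μ.real (Ioc x (x + m * h)) ≤
      ∑ i ∈ Finset.range m, μ.real (Ioc (x + i * h) (x + (i + 1) * h)) :=
    (measureReal_mono hcov (measure_ne_top _ _)).trans (measureReal_biUnion_finset_le _ _)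
  have h2 : ∑ i ∈ Finset.range m, μ.real (Ioc (x + i * h) (x + (i + 1) * h)) <
      ∑ i ∈ Finset.range m, p / m := by
    refine Finset.sum_lt_sum_of_nonempty (Finset.nonempty_range_iff.2 hm.ne') fun i hi => ?_
    exact hcon i (Finset.mem_range.1 hi)
  rw [Finset.sum_const, Finset.card_range, nsmul_eq_mul, mul_div_cancel₀ _
    (by exact_mod_cast hm.ne')] at h2
  linarith

/-- pigeonhole over `m` consecutive windows of length `h`, left closed windows -/
lemma exists_window' (x h : ℝ) (hh : 0 ≤ h) (m : ℕ) (hm : 0 < m) {p : ℝ}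
    (hp : p ≤ μ.real (Ico x (x + m * h))) :
    ∃ i : ℕ, i < m ∧ p / m ≤ μ.real (Ico (x + i * h) (x + (i + 1) * h)) := by
  by_contra hcon
  push Not at hcon
  have hcov : Ico x (x + m * h) ⊆ ⋃ i ∈ Finset.range m, Ico (x + i * h) (x + (i + 1) * h) := by
    clear hp hcon hm
    induction m with
    | zero => simp
    | succ m ih =>
      intro y hy
      rcases lt_or_ge y (x + m * h) with h1 | h1
      · have := ih ⟨hy.1, h1⟩
        simp only [mem_iUnion, Finset.mem_range] at this ⊢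
        obtain ⟨i, hi, hi'⟩ := this
        exact ⟨i, by omega, hi'⟩
      · simp only [mem_iUnion, Finset.mem_range]
        refine ⟨m, by omega, h1, ?_⟩
        have := hy.2
        push_cast at this
        exact this
  have h1 : μ.real (Ico x (x + m * h)) ≤
      ∑ i ∈ Finset.range m, μ.real (Ico (x + i * h) (x + (i + 1) * h)) :=
    (measureReal_mono hcov (measure_ne_top _ _)).trans (measureReal_biUnion_finset_le _ _)
  have h2 : ∑ i ∈ Finset.range m, μ.real (Ico (x + i * h) (x + (i + 1) * h)) <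
      ∑ i ∈ Finset.range m, p / m := by
    refine Finset.sum_lt_sum_of_nonempty (Finset.nonempty_range_iff.2 hm.ne') fun i hi => ?_
    exact hcon i (Finset.mem_range.1 hi)
  rw [Finset.sum_const, Finset.card_range, nsmul_eq_mul, mul_div_cancel₀ _
    (by exact_mod_cast hm.ne')] at h2
  linarith

/-- a point of the core window is not far from the centre of the tail window -/
lemma center_dist {y0 y1 r s : ℝ} (h0 : 1 / 2 < μ.real {y | |y - y0| ≤ r})
    (h1 : μ.real {y | s < |y - y1|} ≤ 1 / 2) : |y0 - y1| ≤ r + s := by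
  have hne : ({y | |y - y0| ≤ r} \ {y | s < |y - y1|}).Nonempty := by
    rw [Set.nonempty_iff_ne_empty]
    intro he
    have hsub : {y | |y - y0| ≤ r} ⊆ {y | s < |y - y1|} := sdiff_eq_empty.1 he
    have := measureReal_mono hsub (measure_ne_top μ _)
    linarith
  obtain ⟨y, hy0, hy1⟩ := hne
  simp only [mem_ofPred_eq, not_lt] at hy0 hy1
  have : y0 - y1 = -(y - y0) + (y - y1) := by ring
  rw [this]
  refine (abs_add_le _ _).trans ?_
  rw [abs_neg]
  linarith

set_option maxHeartbeats 1600000 in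
/-- **Two windows.** Core width `w` (centre `y0`), spread at scale `w` around every point, tail
width `W'` (centre `y1`). -/
theorem windows {w W' : ℝ} (hw : 0 < w) (hwW : w ≤ W') (S : ℕ) (hS0 : 0 < S)
    (hS : 9 * W' ≤ 2 ^ S * (w / 20)) (hS' : 2 ^ S * (w / 20) ≤ 18 * W')
    {y0 y1 : ℝ} (core : 49 / 50 ≤ μ.real {y | |y - y0| ≤ 2 * w})
    (spread : ∀ y, 1 / 800 ≤ μ.real {x | w / 20 < |x - y|})
    (far : μ.real {x | 2 * W' < |x - y1|} ≤ 1 / 1600) :
    ∃ c1 c2 a : ℝ, w / 80 ≤ a ∧ a ≤ 9 / 4 * W' ∧ 4 * a ≤ |c2 - c1| ∧ |c2 - c1| ≤ 8 * a ∧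
      |c1 - y0| ≤ 3 * w ∧
      (∀ α z, z ∈ Ico α (α + a) → 1 / 1400 ≤ μ.real {y | z + y - c1 ∈ Ico α (α + a)}) ∧
      (∀ α z, z ∈ Ico α (α + a) →
        1 / (51200 * S) ≤ μ.real {y | z + y - c2 ∈ Ico α (α + a)}) := by
  have hSr : (0 : ℝ) < S := by exact_mod_cast hS0
  -- own window
  have h1 : (49 / 50 : ℝ) ≤ μ.real (Ioc (y0 - 2 * w - w / 160)
      (y0 - 2 * w - w / 160 + (641 : ℕ) * (w / 160))) := by
    refine core.trans (measureReal_mono ?_ (measure_ne_top _ _))
    intro y hy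
    have hy' := abs_le.1 (show |y - y0| ≤ 2 * w from hy)
    constructor
    · linarith [hy'.1]
    · push_cast
      linarith [hy'.2]
  obtain ⟨i, hi, hW1⟩ := exists_window (μ := μ) _ _ (by positivity) 641 (by norm_num) h1
  set lo : ℝ := y0 - 2 * w - w / 160 + i * (w / 160) with hlo
  set W1 : Set ℝ := Ioc lo (y0 - 2 * w - w / 160 + (i + 1) * (w / 160)) with hW1def
  have hi' : (i : ℝ) + 1 ≤ 641 := by exact_mod_cast hi
  have hi0 : (0 : ℝ) ≤ i := Nat.cast_nonneg i
  have hend : y0 - 2 * w - w / 160 + (i + 1) * (w / 160) = lo + w / 160 := by rw [hlo]; ring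
  have hW1p : (1 : ℝ) / 700 ≤ μ.real W1 := by
    refine le_trans ?_ hW1
    norm_num
  have hW1sub : W1 ⊆ Icc lo (lo + w / 160) := by
    rw [hW1def, hend]; exact Ioc_subset_Icc_self
  obtain ⟨c1, hc1lo, hc1hi, hc1a, hc1b⟩ := exists_median (μ := μ) W1 measurableSet_Ioc hW1sub
    (by linarith)
  have hm3 : 0 ≤ (i : ℝ) * (w / 160) := mul_nonneg hi0 (by linarith)
  have hm4 : ((i : ℝ) + 1) * (w / 160) ≤ 641 * (w / 160) :=
    mul_le_mul_of_nonneg_right hi' (by linarith)
  have hlo1 : y0 - 2 * w - w / 160 ≤ lo := by rw [hlo]; linarith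
  have hlo2 : lo + w / 160 ≤ y0 + 2 * w := by rw [← hend]; linarith
  have hc1y : |c1 - y0| ≤ 2 * w + w / 160 := by
    rw [abs_le]; constructor <;> linarith
  have hcd : |y0 - y1| ≤ 2 * w + 2 * W' :=
    center_dist (μ := μ) (by linarith) (by linarith)
  -- annulus around `c1`
  have hfar : μ.real {x | 9 * W' < |x - c1|} ≤ 1 / 1600 := by
    refine le_trans (measureReal_mono ?_ (measure_ne_top _ _)) far
    intro x hx
    simp only [mem_ofPred_eq] at hx ⊢
    have e : x - c1 = (x - y1) + -(c1 - y0) + -(y0 - y1) := by ring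
    have h2 : |x - c1| ≤ |x - y1| + |c1 - y0| + |y0 - y1| := by
      rw [e]
      refine (abs_add_three _ _ _).trans ?_
      rw [abs_neg, abs_neg]
    linarith
  set ρ : ℕ → ℝ := fun j => 2 ^ j * (w / 20) with hρ
  have hρpos : ∀ j, 0 < ρ j := fun j => by simp only [hρ]; positivity
  have hρs : ∀ j, ρ (j + 1) = 2 * ρ j := fun j => by simp only [hρ]; ring
  have hcover : ∀ m : ℕ, {x | w / 20 < |x - c1|} ⊆
      {x | ρ m < |x - c1|} ∪ ⋃ j ∈ Finset.range m, {x | ρ j < |x - c1| ∧ |x - c1| ≤ 2 * ρ j} := by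
    intro m
    induction m with
    | zero =>
      intro x hx
      left
      simpa [hρ] using hx
    | succ m ih =>
      intro x hx
      rcases ih hx with h2 | h2
      · rcases lt_or_ge (ρ (m + 1)) |x - c1| with h3 | h3
        · exact Or.inl h3
        · right
          simp only [mem_iUnion, Finset.mem_range]
          exact ⟨m, by omega, h2, by rw [← hρs]; exact h3⟩
      · right
        simp only [mem_iUnion, Finset.mem_range] at h2 ⊢
        obtain ⟨j, hj, hj'⟩ := h2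
        exact ⟨j, by omega, hj'⟩
  have hann : (1 : ℝ) / 1600 ≤ ∑ j ∈ Finset.range S,
      μ.real {x | ρ j < |x - c1| ∧ |x - c1| ≤ 2 * ρ j} := by
    have h2 := spread c1
    have h3 : μ.real {x | w / 20 < |x - c1|} ≤ μ.real {x | ρ S < |x - c1|} +
        ∑ j ∈ Finset.range S, μ.real {x | ρ j < |x - c1| ∧ |x - c1| ≤ 2 * ρ j} := by
      refine (measureReal_mono (hcover S) (measure_ne_top _ _)).trans ?_
      refine (measureReal_union_le _ _).trans ?_
      gcongr
      exact measureReal_biUnion_finset_le _ _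
    have h4 : μ.real {x | ρ S < |x - c1|} ≤ 1 / 1600 := by
      refine le_trans (measureReal_mono ?_ (measure_ne_top _ _)) hfar
      intro x hx
      simp only [mem_ofPred_eq] at hx ⊢
      exact lt_of_le_of_lt hS hx
    linarith
  obtain ⟨j, hj, hj'⟩ : ∃ j, j < S ∧
      1 / (1600 * S) ≤ μ.real {x | ρ j < |x - c1| ∧ |x - c1| ≤ 2 * ρ j} := by
    by_contra hcon
    push Not at hcon
    have h2 : ∑ j ∈ Finset.range S, μ.real {x | ρ j < |x - c1| ∧ |x - c1| ≤ 2 * ρ j} <
        ∑ j ∈ Finset.range S, (1 : ℝ) / (1600 * S) :=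
      Finset.sum_lt_sum_of_nonempty (Finset.nonempty_range_iff.2 hS0.ne') fun i hi =>
        hcon i (Finset.mem_range.1 hi)
    rw [Finset.sum_const, Finset.card_range, nsmul_eq_mul] at h2
    have h3 : (S : ℝ) * (1 / (1600 * S)) = 1 / 1600 := by field_simp
    rw [h3] at h2
    linarith
  have hρj : ρ j ≤ 9 * W' := by
    have h2 : ρ (j + 1) ≤ 2 ^ S * (w / 20) := by
      simp only [hρ]
      gcongr
      · norm_num
      · omega
    rw [hρs] at h2
    linarith
  have hρj0 : w / 20 ≤ ρ j := by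
    simp only [hρ]
    have : (1 : ℝ) ≤ 2 ^ j := one_le_pow₀ (by norm_num)
    exact le_mul_of_one_le_left (by positivity) this
  set r : ℝ := ρ j with hr
  have hrpos : 0 < r := hρpos j
  -- right window
  obtain ⟨lo2, W2, hW2m, hW2sub, hW2p, hside⟩ : ∃ (lo2 : ℝ) (W2 : Set ℝ), MeasurableSet W2 ∧
      W2 ⊆ Icc lo2 (lo2 + r / 8) ∧ 1 / (25600 * S) ≤ μ.real W2 ∧
      ((c1 + r ≤ lo2 ∧ lo2 + r / 8 ≤ c1 + 2 * r) ∨
        (c1 - 2 * r ≤ lo2 ∧ lo2 + r / 8 ≤ c1 - r)) := by
    have hsplit : {x | r < |x - c1| ∧ |x - c1| ≤ 2 * r} ⊆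
        Ioc (c1 + r) (c1 + r + (8 : ℕ) * (r / 8)) ∪
          Ico (c1 - 2 * r) (c1 - 2 * r + (8 : ℕ) * (r / 8)) := by
      rintro x ⟨hx1, hx2⟩
      push_cast
      rcases le_total 0 (x - c1) with h2 | h2
      · rw [abs_of_nonneg h2] at hx1 hx2
        left
        constructor <;> linarith
      · rw [abs_of_nonpos h2] at hx1 hx2
        right
        constructor <;> linarith
    have h2 := hj'.trans ((measureReal_mono hsplit (measure_ne_top _ _)).trans
      (measureReal_union_le _ _))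
    have e1 : (1 : ℝ) / (1600 * S) = 1 / (3200 * S) + 1 / (3200 * S) := by
      field_simp; norm_num
    have e2 : (1 : ℝ) / (3200 * S) / (8 : ℕ) = 1 / (25600 * S) := by
      push_cast; field_simp; norm_num
    rcases le_or_gt (1 / (3200 * (S : ℝ)))
        (μ.real (Ioc (c1 + r) (c1 + r + (8 : ℕ) * (r / 8)))) with h3 | h3
    · obtain ⟨k, hk, hk'⟩ := exists_window (μ := μ) _ _ (by positivity) 8 (by norm_num) h3
      rw [e2] at hk'
      have hk1 : (k : ℝ) + 1 ≤ 8 := by exact_mod_cast hk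
      have hk0 : (0 : ℝ) ≤ k := Nat.cast_nonneg k
      have he : c1 + r + (k + 1) * (r / 8) = c1 + r + k * (r / 8) + r / 8 := by ring
      have hm1 : 0 ≤ (k : ℝ) * (r / 8) := mul_nonneg hk0 (by linarith)
      have hm2 : ((k : ℝ) + 1) * (r / 8) ≤ 8 * (r / 8) :=
        mul_le_mul_of_nonneg_right hk1 (by linarith)
      refine ⟨c1 + r + k * (r / 8), _, measurableSet_Ioc, ?_, hk', Or.inl ⟨by linarith, by
        rw [← he]; linarith⟩⟩
      rw [he]; exact Ioc_subset_Icc_self
    · have h4 : 1 / (3200 * (S : ℝ)) ≤ μ.real (Ico (c1 - 2 * r) (c1 - 2 * r + (8 : ℕ) * (r / 8))) := by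
        linarith
      obtain ⟨k, hk, hk'⟩ := exists_window' (μ := μ) _ _ (by positivity) 8 (by norm_num) h4
      rw [e2] at hk'
      have hk1 : (k : ℝ) + 1 ≤ 8 := by exact_mod_cast hk
      have hk0 : (0 : ℝ) ≤ k := Nat.cast_nonneg k
      have he : c1 - 2 * r + (k + 1) * (r / 8) = c1 - 2 * r + k * (r / 8) + r / 8 := by ring
      have hm1 : 0 ≤ (k : ℝ) * (r / 8) := mul_nonneg hk0 (by linarith)
      have hm2 : ((k : ℝ) + 1) * (r / 8) ≤ 8 * (r / 8) :=
        mul_le_mul_of_nonneg_right hk1 (by linarith)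
      refine ⟨c1 - 2 * r + k * (r / 8), _, measurableSet_Ico, ?_, hk', Or.inr ⟨by linarith, by
        rw [← he]; linarith⟩⟩
      rw [he]; exact Ico_subset_Icc_self
  have hW2pos : 0 < μ.real W2 := lt_of_lt_of_le (by positivity) hW2p
  obtain ⟨c2, hc2lo, hc2hi, hc2a, hc2b⟩ := exists_median (μ := μ) W2 hW2m hW2sub hW2pos
  have ha2 : r / 4 / 2 = r / 8 := by ring
  have hdist : 4 * (r / 4) ≤ |c2 - c1| ∧ |c2 - c1| ≤ 8 * (r / 4) := by
    rcases hside with ⟨h2, h3⟩ | ⟨h2, h3⟩
    · rw [abs_of_nonneg (by linarith)]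
      constructor <;> linarith
    · rw [abs_of_nonpos (by linarith)]
      constructor <;> linarith
  refine ⟨c1, c2, r / 4, by linarith, by linarith, hdist.1, hdist.2, by linarith, ?_, ?_⟩
  · intro α z hz
    have hsub' : W1 ⊆ Icc lo (lo + r / 4 / 2) := by
      refine hW1sub.trans (Icc_subset_Icc_right ?_)
      rw [ha2]; linarith
    refine land_of_window (μ := μ) W1 measurableSet_Ioc (by linarith) hsub' hc1lo
      (by rw [ha2]; linarith) ?_ ?_ α z hz
    · linarith
    · linarith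
  · intro α z hz
    have e3 : (1 : ℝ) / (51200 * S) = 1 / (25600 * S) / 2 := by field_simp; norm_num
    refine land_of_window (μ := μ) W2 hW2m (by linarith) (by rw [ha2]; exact hW2sub) hc2lo
      (by rw [ha2]; linarith) ?_ ?_ α z hz
    · rw [e3]; linarith
    · rw [e3]; linarith

/-- far cells: tail around `c1` at any larger scale -/
lemma far_of {w W' : ℝ} (hw : 0 < w) (hwW : w ≤ W') {y0 y1 c1 η : ℝ}
    (core : 49 / 50 ≤ μ.real {y | |y - y0| ≤ 2 * w}) (hc : |c1 - y0| ≤ 3 * w)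
    (hη : η ≤ 1 / 2) (far : μ.real {x | 2 * W' < |x - y1|} ≤ η) :
    μ.real {x | 9 * W' < |x - c1|} ≤ η := by
  have hcd : |y0 - y1| ≤ 2 * w + 2 * W' :=
    center_dist (μ := μ) (by linarith) (by linarith)
  refine le_trans (measureReal_mono ?_ (measure_ne_top _ _)) far
  intro x hx
  simp only [mem_ofPred_eq] at hx ⊢
  have e : x - c1 = (x - y1) + -(c1 - y0) + -(y0 - y1) := by ring
  have h2 : |x - c1| ≤ |x - y1| + |c1 - y0| + |y0 - y1| := by
    rw [e]
    refine (abs_add_three _ _ _).trans ?_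
    rw [abs_neg, abs_neg]
  linarith

end Crest.Agent.R154.MobW437
end

-- ▼ part R154/B4Psi_573
section

/-! Row 154, B4 route II: the function `psi = 1 - |chi|^2` and spectral averages (helper573). -/

set_option autoImplicit false
set_option linter.unusedSectionVars false

namespace Crest.Agent.R154.B4

open MeasureTheory ProbabilityTheory Filter
open scoped ENNReal Topology ComplexConjugate

section psi

variable {Ω : Type*} [MeasurableSpace Ω] {P : Measure Ω} [IsProbabilityMeasure P]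

/-- `psi = 1 - |cfr|^2` -/
noncomputable def psi (P : Measure Ω) (Δ : Ω → V) (θ : V) : ℝ := 1 - ‖cfr P Δ θ‖ ^ 2

lemma psi_nonneg (Δ : Ω → V) (θ : V) : 0 ≤ psi P Δ θ := by
  have h := norm_cfr_le (P := P) Δ θ
  have h0 := norm_nonneg (cfr P Δ θ)
  unfold psi; nlinarith


lemma psi_zero (Δ : Ω → V) : psi P Δ 0 = 0 := by
  unfold psi; rw [cfr_zero]; simp

lemma psi_neg (Δ : Ω → V) (θ : V) : psi P Δ (-θ) = psi P Δ θ := by
  unfold psi; rw [cfr_neg, RCLike.norm_conj]

lemma continuous_cfr {Δ : Ω → V} (hΔ : Measurable Δ) : Continuous (cfr P Δ) := by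
  unfold cfr
  refine continuous_of_dominated (bound := fun _ => (1 : ℝ)) ?_ ?_ (integrable_const _) ?_
  · intro θ
    exact (integrable_exp (P := P) hΔ θ).aestronglyMeasurable
  · intro θ
    refine Eventually.of_forall fun ω => ?_
    rw [Complex.norm_exp_ofReal_mul_I]
  · refine Eventually.of_forall fun ω => ?_
    have : Continuous fun θ : V => dt θ (Δ ω) := continuous_dt.comp (continuous_id.prodMk continuous_const)
    fun_prop

lemma continuous_psi {Δ : Ω → V} (hΔ : Measurable Δ) : Continuous (psi P Δ) := by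
  unfold psi
  have := continuous_cfr (P := P) hΔ
  fun_prop

/-- `psi` as an expectation -/
lemma psi_eq {Δ : Ω → V} (hΔ : Measurable Δ) (θ : V) :
    psi P Δ θ = ∫ q, (1 - Real.cos (dt θ (Δ q.1 - Δ q.2))) ∂(P.prod P) := by
  have h := integral_cos_prod_same (P := P) hΔ θ 0
  simp only [dt_zero, Real.cos_zero, one_mul, zero_add] at h
  have hm : Measurable fun q : Ω × Ω => Real.cos (dt θ (Δ q.1 - Δ q.2)) := by
    have : Measurable fun q : Ω × Ω => dt θ (Δ q.1 - Δ q.2) :=
      measurable_dt.comp (measurable_const.prodMk ((hΔ.comp measurable_fst).sub (hΔ.comp measurable_snd)))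
    fun_prop
  have hi : Integrable (fun q : Ω × Ω => Real.cos (dt θ (Δ q.1 - Δ q.2))) (P.prod P) :=
    (integrable_const (1 : ℝ)).mono' hm.aestronglyMeasurable
      (Eventually.of_forall fun q => by rw [Real.norm_eq_abs]; exact Real.abs_cos_le_one _)
  rw [integral_sub (integrable_const _) hi, h, psi]
  simp

lemma one_sub_cos (x : ℝ) : 1 - Real.cos x = 2 * Real.sin (x / 2) ^ 2 := by
  have h := Real.cos_sq (x / 2)
  have h2 := Real.sin_sq_add_cos_sq (x / 2)
  have h3 : 2 * (x / 2) = x := by ring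
  rw [h3] at h
  nlinarith

/-- subadditivity of the square root -/
lemma sqrt_psi_add {Δ : Ω → V} (hΔ : Measurable Δ) (a b : V) :
    Real.sqrt (psi P Δ (a + b)) ≤ Real.sqrt (psi P Δ a) + Real.sqrt (psi P Δ b) := by
  set X : V → Ω × Ω → ℝ := fun θ q => |Real.sin (dt θ (Δ q.1 - Δ q.2) / 2)| with hX
  have hXm : ∀ θ, Measurable (X θ) := by
    intro θ
    have : Measurable fun q : Ω × Ω => dt θ (Δ q.1 - Δ q.2) :=
      measurable_dt.comp (measurable_const.prodMk ((hΔ.comp measurable_fst).sub (hΔ.comp measurable_snd)))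
    simp only [hX]
    fun_prop
  have hX0 : ∀ θ q, 0 ≤ X θ q := fun θ q => abs_nonneg _
  have hX1 : ∀ θ q, X θ q ≤ 1 := fun θ q => Real.abs_sin_le_one _
  have hb : ∀ (f : Ω × Ω → ℝ), Measurable f → (∀ q, |f q| ≤ 4) → Integrable f (P.prod P) :=
    fun f hf hf1 => (integrable_const (4 : ℝ)).mono' hf.aestronglyMeasurable
      (Eventually.of_forall fun q => by rw [Real.norm_eq_abs]; exact hf1 q)
  have hpsi : ∀ θ, psi P Δ θ = 2 * ∫ q, X θ q ^ 2 ∂(P.prod P) := by
    intro θ
    rw [psi_eq hΔ, ← integral_const_mul]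
    refine integral_congr_ae (Eventually.of_forall fun q => ?_)
    simp only [hX, sq_abs]
    exact one_sub_cos _
  have hadd : ∀ q, X (a + b) q ≤ X a q + X b q := by
    intro q
    simp only [hX]
    rw [dt_add_left, add_div, Real.sin_add]
    refine (abs_add_le _ _).trans ?_
    rw [abs_mul, abs_mul]
    have h1 := abs_nonneg (Real.sin (dt a (Δ q.1 - Δ q.2) / 2))
    have h2 := abs_nonneg (Real.sin (dt b (Δ q.1 - Δ q.2) / 2))
    have h3 := Real.abs_cos_le_one (dt a (Δ q.1 - Δ q.2) / 2)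
    have h4 := Real.abs_cos_le_one (dt b (Δ q.1 - Δ q.2) / 2)
    nlinarith [abs_nonneg (Real.cos (dt a (Δ q.1 - Δ q.2) / 2)),
      abs_nonneg (Real.cos (dt b (Δ q.1 - Δ q.2) / 2))]
  have hia : Integrable (fun q => X a q ^ 2) (P.prod P) :=
    hb _ ((hXm a).pow_const 2) fun q => by
      rw [abs_of_nonneg (sq_nonneg _)]; nlinarith [hX0 a q, hX1 a q]
  have hib : Integrable (fun q => X b q ^ 2) (P.prod P) :=
    hb _ ((hXm b).pow_const 2) fun q => by
      rw [abs_of_nonneg (sq_nonneg _)]; nlinarith [hX0 b q, hX1 b q]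
  have hiab : Integrable (fun q => X (a + b) q ^ 2) (P.prod P) :=
    hb _ ((hXm (a + b)).pow_const 2) fun q => by
      rw [abs_of_nonneg (sq_nonneg _)]; nlinarith [hX0 (a + b) q, hX1 (a + b) q]
  have him : Integrable (fun q => X a q * X b q) (P.prod P) :=
    hb _ ((hXm a).mul (hXm b)) fun q => by
      rw [abs_of_nonneg (mul_nonneg (hX0 a q) (hX0 b q))]
      nlinarith [hX0 a q, hX1 a q, hX0 b q, hX1 b q]
  set A := ∫ q, X a q ^ 2 ∂(P.prod P) with hA
  set B := ∫ q, X b q ^ 2 ∂(P.prod P) with hB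
  set M := ∫ q, X a q * X b q ∂(P.prod P) with hM
  have hA0 : 0 ≤ A := integral_nonneg fun q => sq_nonneg _
  have hB0 : 0 ≤ B := integral_nonneg fun q => sq_nonneg _
  -- Cauchy-Schwarz
  have hCS : M ≤ Real.sqrt A * Real.sqrt B := by
    have hquad : ∀ s : ℝ, 0 ≤ A - 2 * s * M + s ^ 2 * B := by
      intro s
      have h1 : ∫ q, (X a q - s * X b q) ^ 2 ∂(P.prod P) = A - 2 * s * M + s ^ 2 * B := by
        have : ∀ q, (X a q - s * X b q) ^ 2 = X a q ^ 2 - (2 * s) * (X a q * X b q)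
            + s ^ 2 * X b q ^ 2 := fun q => by ring
        simp_rw [this]
        have e1 := integral_add (μ := P.prod P) (f := fun q => X a q ^ 2 - 2 * s * (X a q * X b q))
          (g := fun q => s ^ 2 * X b q ^ 2) (hia.sub (him.const_mul _)) (hib.const_mul _)
        have e2 := integral_sub (μ := P.prod P) (f := fun q => X a q ^ 2)
          (g := fun q => 2 * s * (X a q * X b q)) hia (him.const_mul _)
        rw [e1, e2, integral_const_mul, integral_const_mul]
      rw [← h1]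
      exact integral_nonneg fun q => sq_nonneg _
    rcases eq_or_lt_of_le hB0 with hB' | hB'
    · have hM0 : M ≤ 0 := by
        by_contra hcon
        push Not at hcon
        have := hquad ((A + 1) / M)
        rw [← hB'] at this
        have h2 : 2 * ((A + 1) / M) * M = 2 * (A + 1) := by field_simp
        rw [h2] at this
        linarith
      exact hM0.trans (mul_nonneg (Real.sqrt_nonneg _) (Real.sqrt_nonneg _))
    · have := hquad (M / B)
      have h2 : A - 2 * (M / B) * M + (M / B) ^ 2 * B = A - M ^ 2 / B := by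
        field_simp; ring
      rw [h2] at this
      have h3 : M ^ 2 ≤ A * B := by
        have : M ^ 2 / B ≤ A := by linarith
        rwa [div_le_iff₀ hB'] at this
      rw [← Real.sqrt_mul hA0]
      exact Real.le_sqrt_of_sq_le h3
  have hmain : psi P Δ (a + b) ≤ (Real.sqrt (psi P Δ a) + Real.sqrt (psi P Δ b)) ^ 2 := by
    have h1 : ∫ q, X (a + b) q ^ 2 ∂(P.prod P) ≤ A + 2 * M + B := by
      have h2 : ∫ q, X (a + b) q ^ 2 ∂(P.prod P)
          ≤ ∫ q, (X a q ^ 2 + 2 * (X a q * X b q) + X b q ^ 2) ∂(P.prod P) := by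
        refine integral_mono hiab ((hia.add (him.const_mul _)).add hib) fun q => ?_
        have := hadd q
        have h0 := hX0 (a + b) q
        simp only []
        nlinarith [hX0 a q, hX0 b q]
      have e1 := integral_add (μ := P.prod P) (f := fun q => X a q ^ 2 + 2 * (X a q * X b q))
          (g := fun q => X b q ^ 2) (hia.add (him.const_mul _)) hib
      have e2 := integral_add (μ := P.prod P) (f := fun q => X a q ^ 2)
          (g := fun q => 2 * (X a q * X b q)) hia (him.const_mul _)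
      rwa [e1, e2, integral_const_mul] at h2
    rw [add_sq, Real.sq_sqrt (psi_nonneg Δ a), Real.sq_sqrt (psi_nonneg Δ b), hpsi a, hpsi b,
      hpsi (a + b)]
    rw [Real.sqrt_mul (by norm_num), Real.sqrt_mul (by norm_num)]
    have h4 : 2 * (Real.sqrt 2 * Real.sqrt A) * (Real.sqrt 2 * Real.sqrt B)
        = 4 * (Real.sqrt A * Real.sqrt B) := by
      have : Real.sqrt 2 * Real.sqrt 2 = 2 := Real.mul_self_sqrt (by norm_num)
      calc 2 * (Real.sqrt 2 * Real.sqrt A) * (Real.sqrt 2 * Real.sqrt B)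
          = 2 * (Real.sqrt 2 * Real.sqrt 2) * (Real.sqrt A * Real.sqrt B) := by ring
        _ = _ := by rw [this]; ring
    rw [h4]
    linarith
  calc Real.sqrt (psi P Δ (a + b)) ≤ Real.sqrt ((Real.sqrt (psi P Δ a) + Real.sqrt (psi P Δ b)) ^ 2) :=
        Real.sqrt_le_sqrt hmain
    _ = _ := Real.sqrt_sq (add_nonneg (Real.sqrt_nonneg _) (Real.sqrt_nonneg _))

end psi

/-! ### spectral averages -/

section spectral


variable {ν : Measure V}













variable {Ω : Type*} [MeasurableSpace Ω] {P : Measure Ω} [IsProbabilityMeasure P]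



end spectral

end Crest.Agent.R154.B4
end

-- ▼ part R154/MobX_437
section

/-!
Row 154, TILE, mobility of the unconfined tile, Part B: one coordinate of a random vector, its
symmetrisation and `1 - |characteristic function|^2` (helper437).
-/

set_option autoImplicit false
set_option linter.unusedSectionVars false
set_option linter.unusedVariables false

namespace Crest.Agent.R154.MobW437

open MeasureTheory Filter Set Crest.Agent.R154.B4
open scoped ENNReal Topology ComplexConjugate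

variable {Ω : Type*} [MeasurableSpace Ω] {P : Measure Ω} [IsProbabilityMeasure P]

/-- coordinate direction -/
noncomputable def ev (i : Fin 2) : V := Pi.single i 1

lemma dt_ev (i : Fin 2) (t : ℝ) (z : V) : dt (t • ev i) z = t * z i := by
  fin_cases i <;> simp [dt, ev]

lemma norm_ev (i : Fin 2) (t : ℝ) : ‖t • ev i‖ = |t| := by
  rw [norm_smul, Real.norm_eq_abs]
  have : ‖ev i‖ = 1 := by
    unfold ev
    rw [Pi.norm_single]; simp
  rw [this, mul_one]

/-- `1 - |chf|^2` along the coordinate `i` -/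
noncomputable def gg (P : Measure Ω) (Δ : Ω → V) (i : Fin 2) (t : ℝ) : ℝ := psi P Δ (t • ev i)

lemma gg_nonneg (Δ : Ω → V) (i : Fin 2) (t : ℝ) : 0 ≤ gg P Δ i t := psi_nonneg _ _
lemma gg_zero (Δ : Ω → V) (i : Fin 2) : gg P Δ i 0 = 0 := by
  unfold gg; rw [zero_smul]; exact psi_zero _
lemma gg_neg (Δ : Ω → V) (i : Fin 2) (t : ℝ) : gg P Δ i (-t) = gg P Δ i t := by
  unfold gg; rw [neg_smul]; exact psi_neg _ _
lemma gg_abs (Δ : Ω → V) (i : Fin 2) (t : ℝ) : gg P Δ i |t| = gg P Δ i t := by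
  rcases abs_choice t with h | h <;> rw [h]
  exact gg_neg _ _ _
lemma continuous_gg {Δ : Ω → V} (hΔ : Measurable Δ) (i : Fin 2) : Continuous (gg P Δ i) := by
  unfold gg
  exact (continuous_psi hΔ).comp (continuous_id.smul continuous_const)

lemma gg_two {Δ : Ω → V} (hΔ : Measurable Δ) (i : Fin 2) (t : ℝ) :
    gg P Δ i (2 * t) ≤ 4 * gg P Δ i t := by
  have h := sqrt_psi_add (P := P) hΔ (t • ev i) (t • ev i)
  have e : t • ev i + t • ev i = (2 * t) • ev i := by rw [← add_smul]; ring_nf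
  rw [e] at h
  change Real.sqrt (gg P Δ i (2 * t)) ≤ Real.sqrt (gg P Δ i t) + Real.sqrt (gg P Δ i t) at h
  have h1 := Real.sq_sqrt (gg_nonneg (P := P) Δ i (2 * t))
  have h2 := Real.sq_sqrt (gg_nonneg (P := P) Δ i t)
  have h3 := Real.sqrt_nonneg (gg P Δ i (2 * t))
  have h4 := Real.sqrt_nonneg (gg P Δ i t)
  nlinarith

/-- the symmetrised coordinate -/
def Z (Δ : Ω → V) (i : Fin 2) (q : Ω × Ω) : ℝ := Δ q.1 i - Δ q.2 i

lemma measurable_coord {Δ : Ω → V} (hΔ : Measurable Δ) (i : Fin 2) :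
    Measurable fun ω => Δ ω i := (measurable_pi_apply i).comp hΔ

lemma measurable_Z {Δ : Ω → V} (hΔ : Measurable Δ) (i : Fin 2) : Measurable (Z Δ i) :=
  ((measurable_coord hΔ i).comp measurable_fst).sub ((measurable_coord hΔ i).comp measurable_snd)

lemma gg_eq {Δ : Ω → V} (hΔ : Measurable Δ) (i : Fin 2) (t : ℝ) :
    gg P Δ i t = ∫ q, (1 - Real.cos (t * Z Δ i q)) ∂(P.prod P) := by
  unfold gg
  rw [psi_eq hΔ]
  refine integral_congr_ae (Eventually.of_forall fun q => ?_)
  simp only [dt_ev, Z, Pi.sub_apply]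

lemma charFun_Z {Δ : Ω → V} (hΔ : Measurable Δ) (i : Fin 2) (t : ℝ) :
    1 - charFun ((P.prod P).map (Z Δ i)) t = (gg P Δ i t : ℂ) := by
  rw [charFun_apply_real, integral_map (measurable_Z hΔ i).aemeasurable (by fun_prop)]
  have h1 : (fun q : Ω × Ω => Complex.exp (t * (Z Δ i q : ℝ) * Complex.I)) = fun q =>
      Complex.exp ((dt (t • ev i) (Δ q.1) : ℝ) * Complex.I) *
        Complex.exp ((dt (-(t • ev i)) (Δ q.2) : ℝ) * Complex.I) := by
    funext q
    rw [← Complex.exp_add]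
    congr 1
    rw [dt_neg_left, dt_ev, dt_ev]
    simp only [Z]
    push_cast
    ring
  rw [h1, integral_prod_mul (fun ω => Complex.exp ((dt (t • ev i) (Δ ω) : ℝ) * Complex.I))
    (fun ω => Complex.exp ((dt (-(t • ev i)) (Δ ω) : ℝ) * Complex.I))]
  change 1 - cfr P Δ (t • ev i) * cfr P Δ (-(t • ev i)) = _
  rw [cfr_neg, Complex.mul_conj, Complex.normSq_eq_norm_sq]
  unfold gg psi
  push_cast
  ring

/-- tail bound of the symmetrised coordinate -/
lemma tail_Z {Δ : Ω → V} (hΔ : Measurable Δ) (i : Fin 2) {r ε : ℝ} (hr : 0 < r)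
    (h : ∀ t, |t| ≤ 2 / r → gg P Δ i t ≤ ε) :
    (P.prod P).real {q | r < |Z Δ i q|} ≤ 2 * ε := by
  have hp : IsProbabilityMeasure ((P.prod P).map (Z Δ i)) :=
    Measure.isProbabilityMeasure_map (measurable_Z hΔ i).aemeasurable
  have h1 := measureReal_abs_gt_le_integral_charFun (μ := (P.prod P).map (Z Δ i)) hr
  have h2 : ((P.prod P).map (Z Δ i)).real {x | r < |x|} = (P.prod P).real {q | r < |Z Δ i q|} := by
    rw [measureReal_def, measureReal_def, Measure.map_apply (measurable_Z hΔ i)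
      (measurableSet_lt measurable_const measurable_abs)]
    rfl
  rw [h2] at h1
  refine h1.trans ?_
  have hrr : 0 < 2 * r⁻¹ := by positivity
  have h3 : ‖∫ t in (-2 * r⁻¹)..(2 * r⁻¹), 1 - charFun ((P.prod P).map (Z Δ i)) t‖ ≤
      ε * |2 * r⁻¹ - (-2 * r⁻¹)| := by
    refine intervalIntegral.norm_integral_le_of_norm_le_const fun t ht => ?_
    rw [charFun_Z hΔ, Complex.norm_real, Real.norm_eq_abs, abs_of_nonneg (gg_nonneg _ _ _)]
    refine h t ?_
    rw [uIoc_of_le (by linarith)] at ht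
    rw [abs_le, div_eq_mul_inv]
    constructor
    · linarith [ht.1]
    · exact ht.2
  have h4 : |2 * r⁻¹ - (-2 * r⁻¹)| = 4 * r⁻¹ := by
    rw [abs_of_nonneg (by linarith)]; ring
  rw [h4] at h3
  calc 2⁻¹ * r * ‖∫ t in (-2 * r⁻¹)..(2 * r⁻¹), 1 - charFun ((P.prod P).map (Z Δ i)) t‖
      ≤ 2⁻¹ * r * (ε * (4 * r⁻¹)) := by gcongr
    _ = 2 * ε * (r * r⁻¹) := by ring
    _ = 2 * ε := by rw [mul_inv_cancel₀ hr.ne', mul_one]

/-- spread of the symmetrised coordinate -/
lemma spread_Z {Δ : Ω → V} (hΔ : Measurable Δ) (i : Fin 2) {t : ℝ} (ht : 0 < t)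
    (h : 1 / 100 ≤ gg P Δ i t) :
    1 / 400 ≤ (P.prod P).real {q | 1 / t / 10 < |Z Δ i q|} := by
  set A : Set (Ω × Ω) := {q | 1 / t / 10 < |Z Δ i q|} with hA
  have hAm : MeasurableSet A := measurableSet_lt measurable_const (measurable_Z hΔ i).abs
  have h1 : ∀ q, 1 - Real.cos (t * Z Δ i q) ≤ 1 / 200 + A.indicator (fun _ => (2 : ℝ)) q := by
    intro q
    by_cases hq : q ∈ A
    · rw [indicator_of_mem hq]
      have := Real.neg_one_le_cos (t * Z Δ i q)
      linarith
    · rw [indicator_of_notMem hq]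
      have h2 : |Z Δ i q| ≤ 1 / t / 10 := not_lt.1 hq
      have h3 : |t * Z Δ i q| ≤ 1 / 10 := by
        rw [abs_mul, abs_of_pos ht]
        calc t * |Z Δ i q| ≤ t * (1 / t / 10) := by gcongr
          _ = 1 / 10 := by field_simp
      have h4 := Real.one_sub_sq_div_two_le_cos (x := t * Z Δ i q)
      have h5 : (t * Z Δ i q) ^ 2 ≤ (1 / 10) ^ 2 := by
        rw [← sq_abs]
        gcongr
      linarith
  have hm : Measurable fun q : Ω × Ω => Real.cos (t * Z Δ i q) := by
    have := measurable_Z hΔ i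
    fun_prop
  have hi : Integrable (fun q : Ω × Ω => 1 - Real.cos (t * Z Δ i q)) (P.prod P) := by
    refine (integrable_const (1 : ℝ)).sub ((integrable_const (1 : ℝ)).mono' hm.aestronglyMeasurable
      (Eventually.of_forall fun q => by rw [Real.norm_eq_abs]; exact Real.abs_cos_le_one _))
  have hi2 : Integrable (fun q : Ω × Ω => 1 / 200 + A.indicator (fun _ => (2 : ℝ)) q) (P.prod P) :=
    (integrable_const _).add ((integrable_const _).indicator hAm)
  have h2 : gg P Δ i t ≤ 1 / 200 + 2 * (P.prod P).real A := by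
    rw [gg_eq hΔ]
    refine (integral_mono hi hi2 h1).trans ?_
    rw [integral_add (integrable_const _) ((integrable_const _).indicator hAm),
      integral_indicator_const _ hAm]
    simp only [integral_const, smul_eq_mul, measureReal_def, measure_univ, ENNReal.toReal_one]
    linarith
  linarith

/-- a good centre -/
lemma exists_center {Δ : Ω → V} (hΔ : Measurable Δ) (i : Fin 2) (r : ℝ) {ε : ℝ}
    (h : (P.prod P).real {q | r < |Z Δ i q|} ≤ ε) :
    ∃ y, P.real {ω | r < |Δ ω i - y|} ≤ ε := by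
  have hm : MeasurableSet {q | r < |Z Δ i q|} :=
    measurableSet_lt measurable_const (measurable_Z hΔ i).abs
  have e : (P.prod P) {q | r < |Z Δ i q|} = ∫⁻ ω', P {ω | r < |Δ ω i - Δ ω' i|} ∂P := by
    rw [Measure.prod_apply_symm hm]
    rfl
  have hmeas : Measurable fun ω' => P {ω | r < |Δ ω i - Δ ω' i|} := measurable_measure_prodMk_right hm
  obtain ⟨ω', hω'⟩ := exists_le_lintegral (μ := P) hmeas.aemeasurable
  refine ⟨Δ ω' i, ?_⟩
  rw [← e] at hω'
  refine le_trans ?_ h
  exact ENNReal.toReal_mono (measure_ne_top _ _) hω'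

/-- spread around every point -/
lemma spread_point {Δ : Ω → V} (hΔ : Measurable Δ) (i : Fin 2) (r : ℝ) {ε : ℝ}
    (h : ε ≤ (P.prod P).real {q | 2 * r < |Z Δ i q|}) (y : ℝ) :
    ε / 2 ≤ P.real {ω | r < |Δ ω i - y|} := by
  set B : Set Ω := {ω | r < |Δ ω i - y|} with hB
  have hBm : MeasurableSet B :=
    measurableSet_lt measurable_const ((measurable_coord hΔ i).sub_const y).abs
  have hsub : {q : Ω × Ω | 2 * r < |Z Δ i q|} ⊆ (B ×ˢ univ) ∪ (univ ×ˢ B) := by
    intro q hq
    by_contra hcon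
    simp only [mem_union, mem_prod, mem_univ, and_true, true_and, not_or] at hcon
    have h1 : |Δ q.1 i - y| ≤ r := not_lt.1 hcon.1
    have h2 : |Δ q.2 i - y| ≤ r := not_lt.1 hcon.2
    have h3 : Z Δ i q = (Δ q.1 i - y) - (Δ q.2 i - y) := by simp only [Z]; ring
    have h4 : |Z Δ i q| ≤ 2 * r := by
      rw [h3]
      refine (abs_sub _ _).trans ?_
      linarith
    exact absurd (show 2 * r < |Z Δ i q| from hq) (not_lt.2 h4)
  have h1 := (measureReal_mono hsub (measure_ne_top _ _)).trans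
    (measureReal_union_le (μ := P.prod P) (B ×ˢ univ) (univ ×ˢ B))
  have h2 : (P.prod P).real (B ×ˢ (univ : Set Ω)) = P.real B := by
    rw [measureReal_def, Measure.prod_prod, measure_univ, mul_one, measureReal_def]
  have h3 : (P.prod P).real ((univ : Set Ω) ×ˢ B) = P.real B := by
    rw [measureReal_def, Measure.prod_prod, measure_univ, one_mul, measureReal_def]
  rw [h2, h3] at h1
  linarith

/-- **Mobility of one law** (width `w = 1/t`, `t` = edge of `{g ≤ 1/100}`, tail width `W'`). -/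
theorem mob_law {Δ : Ω → V} (hΔ : Measurable Δ) (i : Fin 2) {t t' : ℝ} (ht' : 0 < t')
    (htt : t' ≤ t) (hcore : ∀ s, |s| ≤ t → gg P Δ i s ≤ 1 / 100) (hedge : 1 / 100 ≤ gg P Δ i t)
    (htail : ∀ s, |s| ≤ t' → gg P Δ i s ≤ 1 / 3200) (S : ℕ) (hS0 : 0 < S)
    (hS : 9 * (1 / t') ≤ 2 ^ S * (1 / t / 20)) (hS' : 2 ^ S * (1 / t / 20) ≤ 18 * (1 / t')) :
    ∃ c1 c2 a : ℝ, 1 / t / 80 ≤ a ∧ a ≤ 9 / 4 * (1 / t') ∧ 4 * a ≤ |c2 - c1| ∧
      |c2 - c1| ≤ 8 * a ∧
      (∀ α z, z ∈ Ico α (α + a) → 1 / 1400 ≤ P.real {ω | z + Δ ω i - c1 ∈ Ico α (α + a)}) ∧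
      (∀ α z, z ∈ Ico α (α + a) →
        1 / (51200 * S) ≤ P.real {ω | z + Δ ω i - c2 ∈ Ico α (α + a)}) ∧
      (∀ s η : ℝ, 0 < s → s ≤ t → 0 ≤ η → η ≤ 1 / 4 → (∀ u, |u| ≤ s → gg P Δ i u ≤ η) →
        P.real {ω | 9 * (1 / s) < |Δ ω i - c1|} ≤ 2 * η) := by
  have ht : 0 < t := lt_of_lt_of_le ht' htt
  have hY := measurable_coord hΔ i
  set μ : Measure ℝ := P.map (fun ω => Δ ω i) with hμ
  haveI : IsProbabilityMeasure μ := Measure.isProbabilityMeasure_map hY.aemeasurable
  have hreal : ∀ B : Set ℝ, MeasurableSet B → μ.real B = P.real {ω | Δ ω i ∈ B} := by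
    intro B hB
    rw [measureReal_def, measureReal_def, hμ, Measure.map_apply hY hB]
    rfl
  have hmabs : ∀ (r y : ℝ), MeasurableSet {x : ℝ | r < |x - y|} := fun r y =>
    measurableSet_lt measurable_const (measurable_id.sub_const y).abs
  have hmabs' : ∀ (r y : ℝ), MeasurableSet {x : ℝ | |x - y| ≤ r} := fun r y =>
    measurableSet_le (measurable_id.sub_const y).abs measurable_const
  -- centres
  have hcen : ∀ (s η : ℝ), 0 < s → (∀ u, |u| ≤ s → gg P Δ i u ≤ η) →
      ∃ y, μ.real {x | 2 * (1 / s) < |x - y|} ≤ 2 * η := by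
    intro s η hs h
    have h1 := tail_Z (P := P) hΔ i (r := 2 * (1 / s)) (ε := η) (by positivity) (by
      intro u hu
      refine h u (hu.trans (le_of_eq ?_))
      field_simp)
    obtain ⟨y, hy⟩ := exists_center hΔ i _ h1
    exact ⟨y, by rw [hreal _ (hmabs _ _)]; exact hy⟩
  obtain ⟨y0, hy0⟩ := hcen t (1 / 100) ht hcore
  obtain ⟨y1, hy1⟩ := hcen t' (1 / 3200) ht' htail
  have hcompl : ∀ (r y : ℝ), μ.real {x | |x - y| ≤ r} = 1 - μ.real {x | r < |x - y|} := by
    intro r y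
    have e : {x : ℝ | |x - y| ≤ r} = {x | r < |x - y|}ᶜ := by
      ext x; simp
    rw [e, probReal_compl_eq_one_sub (hmabs r y)]
  have core : 49 / 50 ≤ μ.real {y | |y - y0| ≤ 2 * (1 / t)} := by
    rw [hcompl]; linarith
  have spread : ∀ y, 1 / 800 ≤ μ.real {x | 1 / t / 20 < |x - y|} := by
    intro y
    rw [hreal _ (hmabs _ _)]
    have h1 := spread_Z (P := P) hΔ i ht hedge
    have h2 : (1 : ℝ) / 400 ≤ (P.prod P).real {q | 2 * (1 / t / 20) < |Z Δ i q|} := by
      have e : 2 * (1 / t / 20) = 1 / t / 10 := by ring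
      rw [e]; exact h1
    have h3 := spread_point hΔ i (1 / t / 20) h2 y
    have e : (1 : ℝ) / 400 / 2 = 1 / 800 := by norm_num
    rw [e] at h3
    exact h3
  have hwW : 1 / t ≤ 1 / t' := one_div_le_one_div_of_le ht' htt
  have hwp : 0 < 1 / t := by positivity
  obtain ⟨c1, c2, a, h1, h2, h3, h4, h5, h6, h7⟩ := windows (μ := μ) hwp hwW S hS0 hS hS' core
    spread (hy1.trans (by norm_num))
  have hmz : ∀ (α z c : ℝ), MeasurableSet {y : ℝ | z + y - c ∈ Ico α (α + a)} := by
    intro α z c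
    exact measurableSet_Ico.preimage ((measurable_const.add measurable_id).sub_const c)
  refine ⟨c1, c2, a, h1, h2, h3, h4, ?_, ?_, ?_⟩
  · intro α z hz
    have := h6 α z hz
    rw [hreal _ (hmz _ _ _)] at this
    exact this
  · intro α z hz
    have := h7 α z hz
    rw [hreal _ (hmz _ _ _)] at this
    exact this
  · intro s η hs hst hη0 hη h
    obtain ⟨y2, hy2⟩ := hcen s η hs h
    have := far_of (μ := μ) hwp (one_div_le_one_div_of_le hs hst) core h5 (by linarith) hy2
    rw [hreal _ (hmabs _ _)] at this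
    exact this

end Crest.Agent.R154.MobW437
end

-- ▼ part R154/B4Ann_23
section

/-! Row 154, B4 route II, (S), third part: `LP.ann`. -/

set_option autoImplicit false

namespace Crest.Agent.R154.B4

open MeasureTheory ProbabilityTheory Filter
open scoped ENNReal Topology

variable {Ω : Type*} [mΩ : MeasurableSpace Ω] {P : Measure Ω}

/-- two point masses -/
theorem two_point (α β φ c : ℝ) (hc : 0 ≤ c) (hα : c ≤ α) (hβ : c ≤ β) (hφ : |φ| ≤ Real.pi) :
    ‖(α : ℂ) + β * Complex.exp ((φ : ℝ) * Complex.I)‖ ≤ α + β - c * φ ^ 2 / Real.pi ^ 2 := by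
  have hpi := Real.pi_pos
  set x : ℝ := φ ^ 2 / Real.pi ^ 2 with hx
  have hx1 : x ≤ 1 := by
    rw [hx, div_le_one (by positivity)]
    rw [← sq_abs φ]
    exact pow_le_pow_left₀ (abs_nonneg _) hφ 2
  have hx0 : 0 ≤ x := by positivity
  have h1 : ‖(1 : ℂ) + Complex.exp ((φ : ℝ) * Complex.I)‖ ≤ 2 - x := by
    have hsq : ‖(1 : ℂ) + Complex.exp ((φ : ℝ) * Complex.I)‖ ^ 2 = 2 + 2 * Real.cos φ := by
      rw [← Complex.normSq_eq_norm_sq, Complex.exp_mul_I, Complex.normSq_apply]
      simp only [Complex.add_re, Complex.one_re, Complex.add_im, Complex.one_im, Complex.mul_re,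
        Complex.mul_im, Complex.I_re, Complex.I_im, Complex.cos_ofReal_re, Complex.cos_ofReal_im,
        Complex.sin_ofReal_re, Complex.sin_ofReal_im]
      ring_nf
      have := Real.sin_sq_add_cos_sq φ
      nlinarith [this]
    have hcos := Real.cos_le_one_sub_mul_cos_sq hφ
    have hle : ‖(1 : ℂ) + Complex.exp ((φ : ℝ) * Complex.I)‖ ^ 2 ≤ (2 - x) ^ 2 := by
      rw [hsq]
      have : 2 / Real.pi ^ 2 * φ ^ 2 = 2 * x := by rw [hx]; ring
      rw [this] at hcos
      nlinarith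
    exact le_of_sq_le_sq hle (by linarith)
  have e : (α : ℂ) + β * Complex.exp ((φ : ℝ) * Complex.I) =
      c * (1 + Complex.exp ((φ : ℝ) * Complex.I)) + ((α - c : ℝ) : ℂ) +
        ((β - c : ℝ) : ℂ) * Complex.exp ((φ : ℝ) * Complex.I) := by
    push_cast; ring
  rw [e]
  have hn1 : ‖(c : ℂ) * (1 + Complex.exp ((φ : ℝ) * Complex.I))‖ ≤ c * (2 - x) := by
    rw [norm_mul, Complex.norm_real, Real.norm_of_nonneg hc]
    exact mul_le_mul_of_nonneg_left h1 hc
  have hn2 : ‖((α - c : ℝ) : ℂ)‖ = α - c := by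
    rw [Complex.norm_real, Real.norm_of_nonneg (by linarith)]
  have hn3 : ‖((β - c : ℝ) : ℂ) * Complex.exp ((φ : ℝ) * Complex.I)‖ = β - c := by
    rw [norm_mul, Complex.norm_exp_ofReal_mul_I, mul_one, Complex.norm_real,
      Real.norm_of_nonneg (by linarith)]
  calc _ ≤ ‖(c : ℂ) * (1 + Complex.exp ((φ : ℝ) * Complex.I)) + ((α - c : ℝ) : ℂ)‖ +
        ‖((β - c : ℝ) : ℂ) * Complex.exp ((φ : ℝ) * Complex.I)‖ := norm_add_le _ _
    _ ≤ (‖(c : ℂ) * (1 + Complex.exp ((φ : ℝ) * Complex.I))‖ + ‖((α - c : ℝ) : ℂ)‖) +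
        ‖((β - c : ℝ) : ℂ) * Complex.exp ((φ : ℝ) * Complex.I)‖ := by
        gcongr; exact norm_add_le _ _
    _ ≤ (c * (2 - x) + (α - c)) + (β - c) := by rw [hn2, hn3]; linarith
    _ = _ := by rw [hx]; ring

namespace LP

/-- the first step: at level `m0` -/
theorem first_step [IsProbabilityMeasure P] (L : LP P) (c : ℝ) (hc : 0 ≤ c)
    (hB : ∀ i, c ≤ P.real (L.B i ∩ L.C L.m0)) (θ : V) (j : Fin 3) (hj : j ≠ 0)
    (hθ : |dt θ (vv j)| ≤ Real.pi) :
    ‖∫ ω in L.C L.m0, ex θ (L.U L.m0 ω) ∂P‖ ≤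
      P.real (L.C L.m0) - c * (dt θ (vv j)) ^ 2 / Real.pi ^ 2 := by
  set S : Set Ω := (L.B 0 ∪ L.B j) with hS
  have hB0m : MeasurableSet (L.B 0) := L.meas_top (L.B_meas 0)
  have hBjm : MeasurableSet (L.B j) := L.meas_top (L.B_meas j)
  have hSm : MeasurableSet S := hB0m.union hBjm
  have hCm := L.C_meas L.m0
  have hdis : Disjoint (L.B 0 ∩ L.C L.m0) (L.B j ∩ L.C L.m0) :=
    (L.B_disj 0 j hj.symm).mono Set.inter_subset_left Set.inter_subset_left
  have hI : Integrable (fun ω => ex θ (L.U L.m0 ω)) P :=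
    integrable_of_norm_le_one ((measurable_ex θ).comp (L.U_measurable _)) fun ω => (norm_ex _ _).le
  have hsplit : ∫ ω in L.C L.m0, ex θ (L.U L.m0 ω) ∂P =
      (∫ ω in L.B 0 ∩ L.C L.m0, ex θ (L.U L.m0 ω) ∂P) +
      (∫ ω in L.B j ∩ L.C L.m0, ex θ (L.U L.m0 ω) ∂P) +
      ∫ ω in L.C L.m0 \ S, ex θ (L.U L.m0 ω) ∂P := by
    rw [← setIntegral_union hdis (hBjm.inter hCm) hI.integrableOn hI.integrableOn]
    have e : L.B 0 ∩ L.C L.m0 ∪ L.B j ∩ L.C L.m0 = L.C L.m0 ∩ S := by
      rw [hS]; ext ω; simp only [Set.mem_union, Set.mem_inter_iff]; tauto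
    rw [e, integral_inter_add_sdiff hSm hI.integrableOn]
  have hval : ∀ i : Fin 3, ∫ ω in L.B i ∩ L.C L.m0, ex θ (L.U L.m0 ω) ∂P =
      (P.real (L.B i ∩ L.C L.m0) : ℂ) * ex θ (vv i) := by
    intro i
    have : ∫ ω in L.B i ∩ L.C L.m0, ex θ (L.U L.m0 ω) ∂P =
        ∫ _ω in L.B i ∩ L.C L.m0, ex θ (vv i) ∂P := by
      apply setIntegral_congr_fun ((L.meas_top (L.B_meas i)).inter hCm)
      intro ω hω
      simp only [L.B_val i ω hω.1]
    rw [this, setIntegral_const]
    simp
  have hrest : ‖∫ ω in L.C L.m0 \ S, ex θ (L.U L.m0 ω) ∂P‖ ≤ P.real (L.C L.m0 \ S) := by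
    have := norm_setIntegral_le_of_norm_le_const (μ := P) (s := L.C L.m0 \ S) (C := 1)
      (f := fun ω => ex θ (L.U L.m0 ω)) (measure_lt_top _ _) (fun ω _ => (norm_ex _ _).le)
    simpa using this
  have hmeasure : P.real (L.C L.m0) = P.real (L.B 0 ∩ L.C L.m0) + P.real (L.B j ∩ L.C L.m0) +
      P.real (L.C L.m0 \ S) := by
    rw [← measureReal_union hdis (hBjm.inter hCm) (measure_ne_top _ _) (measure_ne_top _ _)]
    have e : L.B 0 ∩ L.C L.m0 ∪ L.B j ∩ L.C L.m0 = L.C L.m0 ∩ S := by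
      rw [hS]; ext ω; simp only [Set.mem_union, Set.mem_inter_iff]; tauto
    rw [e]
    exact (measureReal_inter_add_sdiff hSm (measure_ne_top _ _)).symm
  have hv0 : ex θ (vv 0) = 1 := by
    have : vv 0 = 0 := by
      ext i; fin_cases i <;> simp [vv]
    rw [this, ex_zero]
  rw [hsplit, hval 0, hval j, hv0, mul_one]
  have h2 := two_point (P.real (L.B 0 ∩ L.C L.m0)) (P.real (L.B j ∩ L.C L.m0))
    (dt θ (vv j)) c hc (hB 0) (hB j) hθ
  calc _ ≤ ‖(P.real (L.B 0 ∩ L.C L.m0) : ℂ) + (P.real (L.B j ∩ L.C L.m0) : ℂ) * ex θ (vv j)‖ +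
        ‖∫ ω in L.C L.m0 \ S, ex θ (L.U L.m0 ω) ∂P‖ := norm_add_le _ _
    _ ≤ (P.real (L.B 0 ∩ L.C L.m0) + P.real (L.B j ∩ L.C L.m0) -
          c * (dt θ (vv j)) ^ 2 / Real.pi ^ 2) + P.real (L.C L.m0 \ S) := add_le_add h2 hrest
    _ = _ := by rw [hmeasure]; ring

theorem chi_step [IsProbabilityMeasure P] (L : LP P) (c : ℝ) (hc : 0 ≤ c)
    (hB : ∀ i, c ≤ P.real (L.B i ∩ L.C L.m0)) (θ : V) (j : Fin 3) (hj : j ≠ 0)
    (hθ : |dt θ (vv j)| ≤ Real.pi) (N t : ℕ) (hN : 0 < N) (b : ℝ) (hb : 0 ≤ b)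
    (ht : N * L.m0 ≤ t) (hprev : ∀ k, k ≤ N → ‖L.chi (t - k * L.m0) θ‖ ≤ b) :
    ‖L.chi t θ‖ ≤ (1 - c * (dt θ (vv j)) ^ 2 / Real.pi ^ 2) * b +
      P.real (L.NoC L.m0 L.m0 N) := by
  have hI : Integrable (fun ω => ex θ (L.U t ω)) P :=
    integrable_of_norm_le_one ((measurable_ex θ).comp (L.U_measurable _)) fun ω => (norm_ex _ _).le
  have hterm : ∀ i, i < N → ∫ ω in L.J L.m0 L.m0 i, ex θ (L.U t ω) ∂P =
      (∫ ω in L.J L.m0 L.m0 i, ex θ (L.U (L.m0 + i * L.m0) ω) ∂P) *
        L.chi (t - (i + 1) * L.m0) θ := by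
    intro i hi
    have hle : (i + 1) * L.m0 ≤ t := (Nat.mul_le_mul_right _ hi).trans ht
    have h1 := L.renJ L.m0 L.m0 i (fun ω => ex θ (L.U (L.m0 + i * L.m0) ω))
      (fun ω => ex θ (L.U (t - (i + 1) * L.m0) ω))
      ((measurable_ex θ).comp (L.U_meas _)) ((measurable_ex θ).comp (L.U_measurable _))
    rw [L.chi_eq, ← h1]
    congr 1
    ext ω
    rw [← ex_add, ← L.U_add]
    congr 2
    rw [add_mul, one_mul]
    rw [add_mul, one_mul] at hle
    omega
  have hJ : ∀ i, ‖∫ ω in L.J L.m0 L.m0 i, ex θ (L.U (L.m0 + i * L.m0) ω) ∂P‖ ≤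
      P.real (L.J L.m0 L.m0 i) := by
    intro i
    have := norm_setIntegral_le_of_norm_le_const (μ := P) (s := L.J L.m0 L.m0 i) (C := 1)
      (f := fun ω => ex θ (L.U (L.m0 + i * L.m0) ω)) (measure_lt_top _ _)
      (fun ω _ => (norm_ex _ _).le)
    simpa using this
  have hJ0 : ‖∫ ω in L.J L.m0 L.m0 0, ex θ (L.U (L.m0 + 0 * L.m0) ω) ∂P‖ ≤
      P.real (L.J L.m0 L.m0 0) - c * (dt θ (vv j)) ^ 2 / Real.pi ^ 2 := by
    have e : L.J L.m0 L.m0 0 = L.C L.m0 := by
      ext ω; rw [mem_J_iff]; simp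
    rw [e]
    simp only [zero_mul, add_zero]
    exact L.first_step c hc hB θ j hj hθ
  have hsum : ∑ i ∈ Finset.range N, P.real (L.J L.m0 L.m0 i) ≤ 1 := by
    rw [← measureReal_biUnion_finset (fun i _ k _ h => L.J_disj _ _ h)
      (fun i _ => L.meas_J _ _ i) (fun i _ => measure_ne_top _ _)]
    exact measureReal_le_one
  have hno : ‖∫ ω in L.NoC L.m0 L.m0 N, ex θ (L.U t ω) ∂P‖ ≤ P.real (L.NoC L.m0 L.m0 N) := by
    have := norm_setIntegral_le_of_norm_le_const (μ := P) (s := L.NoC L.m0 L.m0 N) (C := 1)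
      (f := fun ω => ex θ (L.U t ω)) (measure_lt_top _ _) (fun ω _ => (norm_ex _ _).le)
    simpa using this
  rw [L.chi_eq, L.integral_decomp L.m0 L.m0 N _ hI]
  have hb1 : ‖∑ i ∈ Finset.range N, ∫ ω in L.J L.m0 L.m0 i, ex θ (L.U t ω) ∂P‖ ≤
      ∑ i ∈ Finset.range N, (P.real (L.J L.m0 L.m0 i) -
        if i = 0 then c * (dt θ (vv j)) ^ 2 / Real.pi ^ 2 else 0) * b := by
    refine (norm_sum_le _ _).trans (Finset.sum_le_sum fun i hi => ?_)
    have hi' := Finset.mem_range.1 hi
    rw [hterm i hi', norm_mul]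
    refine mul_le_mul ?_ (hprev (i + 1) hi') (norm_nonneg _) ?_
    · by_cases h0 : i = 0
      · subst h0; simpa using hJ0
      · simp only [h0, if_false, sub_zero]; exact hJ i
    · by_cases h0 : i = 0
      · subst h0
        simp only [if_true]
        exact (norm_nonneg _).trans hJ0
      · simp only [h0, if_false, sub_zero]; exact measureReal_nonneg
  have hb2 : ∑ i ∈ Finset.range N, (P.real (L.J L.m0 L.m0 i) -
        if i = 0 then c * (dt θ (vv j)) ^ 2 / Real.pi ^ 2 else 0) * b ≤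
      (1 - c * (dt θ (vv j)) ^ 2 / Real.pi ^ 2) * b := by
    rw [← Finset.sum_mul, Finset.sum_sub_distrib]
    apply mul_le_mul_of_nonneg_right _ hb
    rw [Finset.sum_ite_eq' (Finset.range N) 0]
    simp only [Finset.mem_range, hN, if_true]
    linarith
  calc _ ≤ ‖∑ i ∈ Finset.range N, ∫ ω in L.J L.m0 L.m0 i, ex θ (L.U t ω) ∂P‖ +
        ‖∫ ω in L.NoC L.m0 L.m0 N, ex θ (L.U t ω) ∂P‖ := norm_add_le _ _
    _ ≤ _ := add_le_add (hb1.trans hb2) hno

/-- there is a coordinate in which `θ` is large -/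
theorem exists_coord (θ : V) (δ : ℝ) (h1 : δ / 2 ≤ ‖θ‖) (h2 : ‖θ‖ ≤ δ) :
    ∃ j : Fin 3, j ≠ 0 ∧ δ / 2 ≤ |dt θ (vv j)| ∧ |dt θ (vv j)| ≤ δ := by
  have e1 : dt θ (vv 1) = θ 0 := by simp [dt, vv]
  have e2 : dt θ (vv 2) = θ 1 := by simp [dt, vv]
  have hn0 : |θ 0| ≤ ‖θ‖ := norm_le_pi_norm θ 0
  have hn1 : |θ 1| ≤ ‖θ‖ := norm_le_pi_norm θ 1
  by_cases h : δ / 2 ≤ |θ 0|
  · exact ⟨1, by decide, by rw [e1]; exact h, by rw [e1]; exact hn0.trans h2⟩
  · refine ⟨2, by decide, ?_, by rw [e2]; exact hn1.trans h2⟩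
    rw [e2]
    by_contra hc
    push Not at h hc
    have : ‖θ‖ < δ / 2 := by
      rw [pi_norm_lt_iff (lt_of_le_of_lt (abs_nonneg _) h)]
      intro i
      fin_cases i
      · exact h
      · exact hc
    linarith

theorem ann [IsProbabilityMeasure P] (L : LP P) : L.ANN := by
  intro δ hδ hδ1 η hη
  have hpi := Real.pi_pos
  have hpi3 := Real.pi_gt_three
  -- uniform lower bound for the masses
  obtain ⟨c, hc, hc1, hB⟩ : ∃ c : ℝ, 0 < c ∧ c ≤ 1 ∧ ∀ i, c ≤ P.real (L.B i ∩ L.C L.m0) := by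
    have hpos : ∀ i, 0 < P.real (L.B i ∩ L.C L.m0) := fun i =>
      ENNReal.toReal_pos (L.B_pos i).ne' (measure_ne_top _ _)
    refine ⟨min (P.real (L.B 0 ∩ L.C L.m0)) (min (P.real (L.B 1 ∩ L.C L.m0))
      (P.real (L.B 2 ∩ L.C L.m0))), ?_, ?_, ?_⟩
    · exact lt_min (hpos 0) (lt_min (hpos 1) (hpos 2))
    · exact (min_le_left _ _).trans measureReal_le_one
    · intro i
      fin_cases i
      · exact min_le_left _ _
      · exact (min_le_right _ _).trans (min_le_left _ _)
      · exact (min_le_right _ _).trans (min_le_right _ _)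
  set c0 : ℝ := c * (δ / 2) ^ 2 / Real.pi ^ 2 with hc0
  have hc0pos : 0 < c0 := by positivity
  have hc0le : c0 ≤ 1 := by
    rw [hc0, div_le_one (by positivity)]
    have h1 : (δ / 2) ^ 2 ≤ 1 := by nlinarith
    have h2 : (1 : ℝ) ≤ Real.pi ^ 2 := by nlinarith
    nlinarith [mul_le_mul hc1 h1 (by positivity) (by norm_num : (0:ℝ) ≤ 1)]
  have hind : ∀ n : ℕ, ∃ t₀ : ℕ, ∀ t, t₀ ≤ t → ∀ θ : V, δ / 2 ≤ ‖θ‖ → ‖θ‖ ≤ δ →
      ‖L.chi t θ‖ ≤ (1 - c0 / 2) ^ n := by
    intro n
    induction n with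
    | zero =>
      refine ⟨0, fun t _ θ _ _ => ?_⟩
      rw [pow_zero]; exact L.norm_chi_le t θ
    | succ n ih =>
      obtain ⟨t₀, h0⟩ := ih
      have hbn : 0 < (1 - c0 / 2) ^ n := pow_pos (by linarith) n
      obtain ⟨N, hN, hcut⟩ := L.gridTight L.m0 L.m0_pos (c0 / 2 * (1 - c0 / 2) ^ n)
        (by positivity)
      refine ⟨t₀ + N * L.m0, fun t ht θ hθ1 hθ2 => ?_⟩
      obtain ⟨j, hj, hj1, hj2⟩ := exists_coord θ δ hθ1 hθ2
      have hstep := L.chi_step c hc.le hB θ j hj (by linarith) N t hN ((1 - c0 / 2) ^ n) hbn.le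
        (by omega) (fun k hk => h0 _ (by
          have : k * L.m0 ≤ N * L.m0 := Nat.mul_le_mul_right _ hk
          omega) θ hθ1 hθ2)
      have hx : c0 ≤ c * (dt θ (vv j)) ^ 2 / Real.pi ^ 2 := by
        rw [hc0]
        apply div_le_div_of_nonneg_right _ (by positivity)
        apply mul_le_mul_of_nonneg_left _ hc.le
        rw [← sq_abs (dt θ (vv j))]
        exact pow_le_pow_left₀ (by positivity) hj1 2
      have hno : P.real (L.NoC L.m0 L.m0 N) ≤ c0 / 2 * (1 - c0 / 2) ^ n := hcut L.m0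
      calc ‖L.chi t θ‖ ≤ (1 - c * (dt θ (vv j)) ^ 2 / Real.pi ^ 2) * (1 - c0 / 2) ^ n +
            P.real (L.NoC L.m0 L.m0 N) := hstep
        _ ≤ (1 - c0) * (1 - c0 / 2) ^ n + c0 / 2 * (1 - c0 / 2) ^ n :=
            add_le_add (mul_le_mul_of_nonneg_right (by linarith) hbn.le) hno
        _ = _ := by ring
  obtain ⟨n, hn⟩ := exists_pow_lt_of_lt_one hη (show 1 - c0 / 2 < 1 by linarith)
  obtain ⟨t₀, ht₀⟩ := hind n
  exact ⟨t₀, fun t ht θ h1 h2 => (ht₀ t ht θ h1 h2).trans hn.le⟩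

end LP

end Crest.Agent.R154.B4
end

-- ▼ part R154/MobL_437

/-!
Row 154, TILE, mobility of the unconfined tile, Part C: the level process `LP` of 573.
`tl L i l` = edge of `{1 - |chf|² ≤ 1/100}` for the coordinate `i` of `U l`, `wl = 1 / tl` = width,
`Sl L i l` = number of dyadic shells between `wl l` and `wl (128 l)`.
Every level `l ≥ l₀` is mobile: own cell with probability `≥ 1/1400`, right cell with probability
`≥ 1/(51200 Sl)`; tails `P(|Y - c₁| > 9 wl (n l)) ≤ 6/(100 n)`; `Σ_{k<J} Sl (2^k) = O(J)` (helper437).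
-/

set_option autoImplicit false
set_option linter.unusedSectionVars false
set_option linter.unusedVariables false

namespace Crest.Agent.R154.MobW437

open MeasureTheory Filter Set Crest.Agent.R154.B4
open scoped ENNReal Topology ComplexConjugate

variable {Ω : Type*} [mΩ : MeasurableSpace Ω] {P : Measure Ω}

/-- admissible edges -/
def edgeSet (L : LP P) (i : Fin 2) (l : ℕ) : Set ℝ :=
  {t | 0 ≤ t ∧ t ≤ 1 ∧ ∀ s, |s| ≤ t → gg P (L.U l) i s ≤ 1 / 100}

/-- the edge -/
noncomputable def tl (L : LP P) (i : Fin 2) (l : ℕ) : ℝ := sSup (edgeSet L i l)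

/-- the width -/
noncomputable def wl (L : LP P) (i : Fin 2) (l : ℕ) : ℝ := 1 / tl L i l

/-- number of dyadic shells -/
noncomputable def Sl (L : LP P) (i : Fin 2) (l : ℕ) : ℕ :=
  ⌈Real.logb 2 (180 * (wl L i (128 * l) / wl L i l))⌉₊

variable [IsProbabilityMeasure P]

lemma meas_U (L : LP P) (l : ℕ) : Measurable (L.U l) := (L.U_meas l).mono (L.F_le l) le_rfl

lemma edge_bdd (L : LP P) (i : Fin 2) (l : ℕ) : BddAbove (edgeSet L i l) := ⟨1, fun _ h => h.2.1⟩

lemma zero_mem_edge (L : LP P) (i : Fin 2) (l : ℕ) : (0 : ℝ) ∈ edgeSet L i l := by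
  refine ⟨le_rfl, zero_le_one, fun s hs => ?_⟩
  have : s = 0 := abs_eq_zero.1 (le_antisymm hs (abs_nonneg _))
  rw [this, gg_zero]; norm_num

lemma tl_nonneg (L : LP P) (i : Fin 2) (l : ℕ) : 0 ≤ tl L i l :=
  le_csSup (edge_bdd L i l) (zero_mem_edge L i l)

lemma tl_le_one (L : LP P) (i : Fin 2) (l : ℕ) : tl L i l ≤ 1 :=
  csSup_le ⟨0, zero_mem_edge L i l⟩ fun _ h => h.2.1

lemma tl_pos (L : LP P) (i : Fin 2) (l : ℕ) : 0 < tl L i l := by
  have hc := (continuous_gg (P := P) (meas_U L l) i).continuousAt (x := 0)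
  have h1 : ∀ᶠ s in 𝓝 (0 : ℝ), gg P (L.U l) i s < 1 / 100 := by
    refine hc.eventually_lt continuousAt_const ?_
    rw [gg_zero]; norm_num
  obtain ⟨δ, hδ, hδ'⟩ := Metric.eventually_nhds_iff.1 h1
  have hmem : min (δ / 2) 1 ∈ edgeSet L i l := by
    refine ⟨by positivity, min_le_right _ _, fun s hs => (hδ' ?_).le⟩
    rw [Real.dist_eq, sub_zero]
    exact lt_of_le_of_lt (hs.trans (min_le_left _ _)) (by linarith)
  exact lt_of_lt_of_le (by positivity) (le_csSup (edge_bdd L i l) hmem)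

lemma gg_le_of_abs_le (L : LP P) (i : Fin 2) (l : ℕ) (s : ℝ) (hs : |s| ≤ tl L i l) :
    gg P (L.U l) i s ≤ 1 / 100 := by
  have hpos := tl_pos L i l
  have hcl : IsClosed {s | gg P (L.U l) i s ≤ 1 / 100} :=
    isClosed_le (continuous_gg (P := P) (meas_U L l) i) continuous_const
  have hsub : Ioo (-tl L i l) (tl L i l) ⊆ {s | gg P (L.U l) i s ≤ 1 / 100} := by
    intro x hx
    have hx' : |x| < tl L i l := abs_lt.2 hx
    obtain ⟨t, ht, hxt⟩ := exists_lt_of_lt_csSup ⟨0, zero_mem_edge L i l⟩ hx'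
    exact ht.2.2 x hxt.le
  have h2 := hcl.closure_subset_iff.2 hsub
  rw [closure_Ioo (by linarith)] at h2
  exact h2 (abs_le.1 hs)

lemma le_tl {L : LP P} {i : Fin 2} {l : ℕ} {t : ℝ} (h0 : 0 ≤ t) (h1 : t ≤ 1)
    (h : ∀ s, |s| ≤ t → gg P (L.U l) i s ≤ 1 / 100) : t ≤ tl L i l :=
  le_csSup (edge_bdd L i l) ⟨h0, h1, h⟩

lemma edge_eq (L : LP P) (i : Fin 2) (l : ℕ) (h1 : tl L i l < 1) :
    1 / 100 ≤ gg P (L.U l) i (tl L i l) := by
  by_contra hlt
  push Not at hlt
  have hc := (continuous_gg (P := P) (meas_U L l) i).continuousAt (x := tl L i l)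
  have h2 : ∀ᶠ s in 𝓝 (tl L i l), gg P (L.U l) i s < 1 / 100 :=
    hc.eventually_lt continuousAt_const hlt
  obtain ⟨δ, hδ, hδ'⟩ := Metric.eventually_nhds_iff.1 h2
  have hpos := tl_pos L i l
  have h3 : min (tl L i l + δ / 2) 1 ≤ tl L i l := by
    refine le_tl (by positivity) (min_le_right _ _) fun s hs => ?_
    rcases le_or_gt |s| (tl L i l) with h4 | h4
    · exact gg_le_of_abs_le L i l s h4
    · rw [← gg_abs]
      refine (hδ' ?_).le
      have h5 := hs.trans (min_le_left _ _)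
      rw [Real.dist_eq, abs_of_pos (by linarith)]
      linarith
  rcases min_le_iff.1 h3 with h4 | h4 <;> linarith

lemma chi_cfr (L : LP P) (l : ℕ) (θ : V) : L.chi l θ = cfr P (L.U l) θ := rfl

lemma tl_small (L : LP P) (i : Fin 2) {δ : ℝ} (hδ : 0 < δ) (hδ1 : δ ≤ 1) :
    ∃ l0, ∀ l, l0 ≤ l → tl L i l < δ := by
  obtain ⟨l0, h0⟩ := L.ann δ hδ hδ1 (1 / 2) (by norm_num)
  refine ⟨l0, fun l hl => ?_⟩
  by_contra hcon
  push Not at hcon
  have h1 := h0 l hl (δ • ev i) (by rw [norm_ev, abs_of_pos hδ]; linarith)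
    (by rw [norm_ev, abs_of_pos hδ])
  have h2 := gg_le_of_abs_le L i l δ (by rw [abs_of_pos hδ]; exact hcon)
  unfold gg psi at h2
  rw [← chi_cfr] at h2
  have h3 := norm_nonneg (L.chi l (δ • ev i))
  nlinarith

/-- `1 - |chf|²` of the displacement over `l` levels is `≤ 3/(100 n)` up to the edge of `n l` -/
def Nf (L : LP P) (i : Fin 2) (n l : ℕ) : Prop :=
  ∀ u, |u| ≤ tl L i (n * l) → gg P (L.U l) i u ≤ 3 / (100 * n)

lemma norm_cfr_le_one (L : LP P) (l : ℕ) (θ : V) : ‖L.chi l θ‖ ≤ 1 := by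
  rw [chi_cfr]; exact norm_cfr_le _ _

lemma nfold (L : LP P) (i : Fin 2) (n : ℕ) (hn : 1 ≤ n) : ∃ l0, ∀ l, l0 ≤ l → Nf L i n l := by
  have hnr : (1 : ℝ) ≤ n := by exact_mod_cast hn
  obtain ⟨δ, hδ, hδ'⟩ := L.t1 (1 / (400 * n)) (by positivity)
  obtain ⟨l0, hl0⟩ := tl_small L i (δ := min δ 1) (by positivity) (min_le_right _ _)
  refine ⟨l0, fun l hl u hu => ?_⟩
  have hl' : l0 ≤ n * l := hl.trans (Nat.le_mul_of_pos_left l hn)
  have huδ : ‖u • ev i‖ ≤ δ := by
    rw [norm_ev]
    exact hu.trans ((hl0 _ hl').le.trans (min_le_left _ _))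
  have hind : ∀ k : ℕ, ‖L.chi (k * l) (u • ev i) - L.chi l (u • ev i) ^ k‖ ≤ k * (1 / (400 * n)) := by
    intro k
    induction k with
    | zero =>
      have : L.chi (0 * l) (u • ev i) = 1 := by
        rw [zero_mul, chi_cfr]
        unfold cfr
        simp [L.U_zero, dt]
      rw [this]; simp
    | succ k ih =>
      have e1 : (k + 1) * l = k * l + l := by ring
      rw [e1, pow_succ]
      have h1 := (hδ' (k * l) l (u • ev i) huδ).1
      have h2 : L.chi (k * l + l) (u • ev i) - L.chi l (u • ev i) ^ k * L.chi l (u • ev i) =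
          (L.chi (k * l + l) (u • ev i) - L.chi (k * l) (u • ev i) * L.chi l (u • ev i)) +
          (L.chi (k * l) (u • ev i) - L.chi l (u • ev i) ^ k) * L.chi l (u • ev i) := by ring
      rw [h2]
      refine (norm_add_le _ _).trans ?_
      rw [norm_mul]
      have h3 := norm_cfr_le_one L l (u • ev i)
      have h4 : ‖L.chi (k * l) (u • ev i) - L.chi l (u • ev i) ^ k‖ * ‖L.chi l (u • ev i)‖ ≤
          (k * (1 / (400 * n))) * 1 := by
        gcongr
      push_cast
      linarith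
  have h1 := hind n
  have e2 : (n : ℝ) * (1 / (400 * n)) = 1 / 400 := by field_simp
  rw [e2] at h1
  have h2 := gg_le_of_abs_le L i (n * l) u hu
  unfold gg psi at h2
  rw [← chi_cfr] at h2
  set y := ‖L.chi (n * l) (u • ev i)‖ with hy
  have hy1 : y ≤ 1 := norm_cfr_le_one L _ _
  have hy0 : 0 ≤ y := norm_nonneg _
  have hy2 : 99 / 100 ≤ y := by nlinarith
  set x := ‖L.chi l (u • ev i)‖ with hx
  have hx1 : x ≤ 1 := norm_cfr_le_one L _ _
  have hx0 : 0 ≤ x := norm_nonneg _
  have h3 : y - 1 / 400 ≤ x ^ n := by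
    have h4 : y ≤ ‖L.chi (n * l) (u • ev i) - L.chi l (u • ev i) ^ n‖ +
        ‖L.chi l (u • ev i) ^ n‖ := by
      rw [hy]
      have := norm_add_le (L.chi (n * l) (u • ev i) - L.chi l (u • ev i) ^ n)
        (L.chi l (u • ev i) ^ n)
      rwa [sub_add_cancel] at this
    rw [norm_pow] at h4
    linarith
  have hs : gg P (L.U l) i u = 1 - x ^ 2 := by
    unfold gg psi
    rw [← chi_cfr]
  rw [hs]
  set s := 1 - x ^ 2 with hsdef
  have hs0 : 0 ≤ s := by nlinarith
  have hs1 : s ≤ 1 := by nlinarith [sq_nonneg x]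
  have h5 : (975 / 1000 : ℝ) ≤ (1 - s) ^ n := by
    have e : (1 - s) ^ n = (x ^ n) ^ 2 := by rw [hsdef]; ring
    rw [e]
    have h6 : (98775 / 100000 : ℝ) ≤ x ^ n := by
      have h7 : (395 / 400 : ℝ) ≤ x ^ n := by linarith
      nlinarith
    nlinarith
  have h6 : (1 - s) ^ n * (1 + s) ^ n ≤ 1 := by
    rw [← mul_pow]
    refine pow_le_one₀ ?_ ?_
    · nlinarith
    · nlinarith
  have h7 : 1 + (n : ℝ) * s ≤ (1 + s) ^ n := one_add_mul_le_pow (by linarith) n
  have h8 : (975 / 1000 : ℝ) * (1 + n * s) ≤ 1 := by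
    calc (975 / 1000 : ℝ) * (1 + n * s) ≤ (1 - s) ^ n * (1 + s) ^ n := by
          gcongr
      _ ≤ 1 := h6
  rw [le_div_iff₀ (by positivity)]
  nlinarith

lemma tl_mono_of_Nf {L : LP P} {i : Fin 2} {n l : ℕ} (hn : 3 ≤ n) (h : Nf L i n l) :
    tl L i (n * l) ≤ tl L i l := by
  refine le_tl (tl_nonneg _ _ _) (tl_le_one _ _ _) fun s hs => (h s hs).trans ?_
  have : (3 : ℝ) ≤ n := by exact_mod_cast hn
  rw [div_le_div_iff₀ (by positivity) (by norm_num)]
  linarith

lemma wl_pos (L : LP P) (i : Fin 2) (l : ℕ) : 0 < wl L i l := by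
  have := tl_pos L i l
  unfold wl; positivity

lemma one_le_wl (L : LP P) (i : Fin 2) (l : ℕ) : 1 ≤ wl L i l := by
  unfold wl
  rw [le_div_iff₀ (tl_pos L i l), one_mul]
  exact tl_le_one L i l

/-- the widths grow by a factor at least `4` over seven octaves -/
lemma four_wl_le (L : LP P) (i : Fin 2) : ∃ l0, ∀ l, l0 ≤ l → 4 * wl L i l ≤ wl L i (128 * l) := by
  obtain ⟨l1, h1⟩ := nfold L i 128 (by norm_num)
  obtain ⟨l2, h2⟩ := tl_small L i (δ := 1 / 4) (by norm_num) (by norm_num)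
  refine ⟨max l1 l2, fun l hl => ?_⟩
  have hN := h1 l ((le_max_left _ _).trans hl)
  have hl2 : l2 ≤ 128 * l := by
    have := (le_max_right l1 l2).trans hl
    omega
  have h3 := h2 _ hl2
  have h4 : 4 * tl L i (128 * l) ≤ tl L i l := by
    refine le_tl (by have := tl_nonneg L i (128 * l); positivity) (by linarith) fun s hs => ?_
    have h5 := hN (s / 4) (by
      rw [abs_div, abs_of_pos (by norm_num : (0 : ℝ) < 4)]
      linarith)
    have h6 := gg_two (P := P) (meas_U L l) i (s / 4)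
    have h7 := gg_two (P := P) (meas_U L l) i (2 * (s / 4))
    have e : 2 * (2 * (s / 4)) = s := by ring
    rw [e] at h7
    push_cast at h5
    norm_num at h5
    linarith
  unfold wl
  have hp1 := tl_pos L i l
  have hp2 := tl_pos L i (128 * l)
  rw [mul_one_div, div_le_div_iff₀ hp1 hp2]
  linarith

/-- **Mobility of every level `l ≥ l₀`**, with tails up to multiple `n`. -/
theorem mob (L : LP P) (i : Fin 2) (n : ℕ) : ∃ l0, ∀ l, l0 ≤ l →
    1 ≤ Sl L i l ∧ wl L i l ≤ wl L i (128 * l) ∧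
    ∃ c1 c2 a : ℝ, wl L i l / 80 ≤ a ∧ a ≤ 9 / 4 * wl L i (128 * l) ∧ 4 * a ≤ |c2 - c1| ∧
      |c2 - c1| ≤ 8 * a ∧
      (∀ α z, z ∈ Ico α (α + a) → 1 / 1400 ≤ P.real {ω | z + L.U l ω i - c1 ∈ Ico α (α + a)}) ∧
      (∀ α z, z ∈ Ico α (α + a) →
        1 / (51200 * (Sl L i l : ℝ)) ≤ P.real {ω | z + L.U l ω i - c2 ∈ Ico α (α + a)}) ∧
      (∀ m : ℕ, 3 ≤ m → m ≤ n →
        P.real {ω | 9 * wl L i (m * l) < |L.U l ω i - c1|} ≤ 6 / (100 * m)) := by
  -- common threshold
  have hex : ∀ N : ℕ, ∃ l0, ∀ l, l0 ≤ l → ∀ m, 1 ≤ m → m ≤ N → Nf L i m l := by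
    intro N
    induction N with
    | zero => exact ⟨0, fun l _ m h1 h2 => by omega⟩
    | succ N ih =>
      obtain ⟨l1, h1⟩ := ih
      obtain ⟨l2, h2⟩ := nfold L i (N + 1) (by omega)
      refine ⟨max l1 l2, fun l hl m hm1 hm2 => ?_⟩
      rcases Nat.lt_or_ge N m with h3 | h3
      · have : m = N + 1 := by omega
        rw [this]; exact h2 l ((le_max_right _ _).trans hl)
      · exact h1 l ((le_max_left _ _).trans hl) m hm1 h3
  obtain ⟨l1, h1⟩ := hex (max n 128)
  obtain ⟨l2, h2⟩ := tl_small L i (δ := 1) (by norm_num) le_rfl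
  refine ⟨max l1 l2, fun l hl => ?_⟩
  have hN : ∀ m, 1 ≤ m → m ≤ max n 128 → Nf L i m l := h1 l ((le_max_left _ _).trans hl)
  have h128 := hN 128 (by norm_num) (le_max_right _ _)
  have hedge := edge_eq L i l (h2 l ((le_max_right _ _).trans hl))
  have hp := tl_pos L i l
  have hp' := tl_pos L i (128 * l)
  have hmono := tl_mono_of_Nf (by norm_num) h128
  have hratio : (1 : ℝ) ≤ wl L i (128 * l) / wl L i l := by
    rw [one_le_div (wl_pos L i l)]
    unfold wl
    exact one_div_le_one_div_of_le hp' hmono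
  have hR0 : (0 : ℝ) < 180 * (wl L i (128 * l) / wl L i l) := by positivity
  have hR : (180 : ℝ) ≤ 180 * (wl L i (128 * l) / wl L i l) := by linarith
  set R : ℝ := 180 * (wl L i (128 * l) / wl L i l) with hRdef
  have hlog : 0 < Real.logb 2 R := Real.logb_pos (by norm_num) (by linarith)
  have hS1 : 1 ≤ Sl L i l := Nat.one_le_iff_ne_zero.2 (Nat.ceil_pos.2 hlog).ne'
  have hS2 : R ≤ 2 ^ Sl L i l := by
    have h3 : Real.logb 2 R ≤ (Sl L i l : ℝ) := Nat.le_ceil _
    rw [Real.logb_le_iff_le_rpow (by norm_num) hR0, Real.rpow_natCast] at h3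
    exact h3
  have hS3 : (2 : ℝ) ^ Sl L i l ≤ 2 * R := by
    have h3 : (Sl L i l : ℝ) < Real.logb 2 R + 1 := Nat.ceil_lt_add_one hlog.le
    have h4 : (Sl L i l : ℝ) - 1 < Real.logb 2 R := by linarith
    rw [Real.lt_logb_iff_rpow_lt (by norm_num) hR0, Real.rpow_sub (by norm_num),
      Real.rpow_natCast, Real.rpow_one] at h4
    rw [div_lt_iff₀ (by norm_num)] at h4
    linarith
  have hRR : R = 180 * (tl L i l / tl L i (128 * l)) := by
    rw [hRdef]; unfold wl; field_simp
  have hS : 9 * (1 / tl L i (128 * l)) ≤ 2 ^ Sl L i l * (1 / tl L i l / 20) := by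
    calc 9 * (1 / tl L i (128 * l)) = R * (1 / tl L i l / 20) := by
          rw [hRR]; field_simp; norm_num
      _ ≤ 2 ^ Sl L i l * (1 / tl L i l / 20) := by gcongr
  have hS' : 2 ^ Sl L i l * (1 / tl L i l / 20) ≤ 18 * (1 / tl L i (128 * l)) := by
    calc 2 ^ Sl L i l * (1 / tl L i l / 20) ≤ (2 * R) * (1 / tl L i l / 20) := by gcongr
      _ = 18 * (1 / tl L i (128 * l)) := by
          rw [hRR]; field_simp; norm_num
  obtain ⟨c1, c2, a, g1, g2, g3, g4, g5, g6, g7⟩ := mob_law (P := P) (meas_U L l) i hp' hmono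
    (gg_le_of_abs_le L i l) hedge (fun s hs => (h128 s hs).trans (by norm_num)) (Sl L i l)
    (by omega) hS hS'
  refine ⟨hS1, ?_, c1, c2, a, g1, g2, g3, g4, g5, g6, ?_⟩
  · unfold wl
    exact one_div_le_one_div_of_le hp' hmono
  · intro m hm3 hmn
    have hm := hN m (by omega) (hmn.trans (le_max_left _ _))
    have hm3' : (3 : ℝ) ≤ m := by exact_mod_cast hm3
    have h3 := g7 (tl L i (m * l)) (3 / (100 * m)) (tl_pos _ _ _) (tl_mono_of_Nf hm3 hm)
      (by positivity) (by rw [div_le_div_iff₀ (by positivity) (by norm_num)]; linarith) hm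
    unfold wl
    refine h3.trans (le_of_eq ?_)
    ring

/-- ratios of widths over finitely many octaves: telescoping -/
lemma telescope (f : ℕ → ℝ) (m J : ℕ) :
    ∑ k ∈ Finset.range J, (f (k + m) - f k) =
      ∑ j ∈ Finset.range m, f (J + j) - ∑ j ∈ Finset.range m, f j := by
  induction J with
  | zero => simp
  | succ J ih =>
    rw [Finset.sum_range_succ, ih]
    have h1 : ∑ j ∈ Finset.range m, f (J + 1 + j) = ∑ j ∈ Finset.range m, f (J + j) +
        (f (J + m) - f J) := by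
      have h2 := Finset.sum_range_succ (fun j => f (J + j)) m
      have h3 := Finset.sum_range_succ' (fun j => f (J + j)) m
      simp only [add_zero] at h3
      have h4 : ∑ j ∈ Finset.range m, f (J + 1 + j) = ∑ j ∈ Finset.range m, f (J + (j + 1)) := by
        refine Finset.sum_congr rfl fun j _ => ?_
        congr 1; omega
      rw [h4]
      linarith
    rw [h1]
    ring

/-- **Sum over octaves**: `Sl` (given polynomial growth of the widths). -/
theorem sum_Sl (L : LP P) (i : Fin 2) {C : ℝ} (hC : 0 ≤ C)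
    (hg : ∀ k : ℕ, Real.logb 2 (wl L i (2 ^ k)) ≤ C * (k + 1)) :
    ∃ C' : ℝ, ∀ J : ℕ, ∑ k ∈ Finset.range J, (Sl L i (2 ^ k) : ℝ) ≤ C' * (J + 1) := by
  set f : ℕ → ℝ := fun k => Real.logb 2 (wl L i (2 ^ k)) with hf
  have hf0 : ∀ k, 0 ≤ f k := fun k => Real.logb_nonneg (by norm_num) (one_le_wl L i _)
  obtain ⟨l0, hl0⟩ := mob L i 0
  obtain ⟨B, hB⟩ : ∃ B : ℝ, 0 ≤ B ∧ ∀ k < l0, (Sl L i (2 ^ k) : ℝ) ≤ B := by
    refine ⟨∑ k ∈ Finset.range l0, (Sl L i (2 ^ k) : ℝ), by positivity, fun k hk => ?_⟩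
    exact Finset.single_le_sum (f := fun k => (Sl L i (2 ^ k) : ℝ)) (fun _ _ => by positivity)
      (Finset.mem_range.2 hk)
  have h180 : Real.logb 2 180 ≤ 8 := by
    rw [Real.logb_le_iff_le_rpow (by norm_num) (by norm_num)]
    norm_num
  have hS : ∀ k, (Sl L i (2 ^ k) : ℝ) ≤ 9 + (f (k + 7) - f k) + if k < l0 then B + f k else 0 := by
    intro k
    split_ifs with hk
    · have := hB.2 k hk
      have h1 := hf0 (k + 7)
      linarith
    · have hlk : l0 ≤ 2 ^ k := (not_lt.1 hk).trans (Nat.lt_two_pow_self (n := k)).le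
      obtain ⟨-, hmono, -⟩ := hl0 (2 ^ k) hlk
      have e : 128 * 2 ^ k = 2 ^ (k + 7) := by rw [pow_add]; norm_num; ring
      rw [e] at hmono
      unfold Sl
      rw [e]
      have hr : 1 ≤ wl L i (2 ^ (k + 7)) / wl L i (2 ^ k) := by
        rw [one_le_div (wl_pos L i _)]; exact hmono
      have h1 : 0 ≤ Real.logb 2 (180 * (wl L i (2 ^ (k + 7)) / wl L i (2 ^ k))) :=
        Real.logb_nonneg (by norm_num) (by linarith)
      refine (Nat.ceil_lt_add_one h1).le.trans ?_
      rw [Real.logb_mul (by norm_num) (by positivity),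
        Real.logb_div (wl_pos L i _).ne' (wl_pos L i _).ne']
      simp only [hf]
      linarith
  refine ⟨9 + 7 * C * 8 + (B + C * (l0 + 1)) * (l0 + 1), fun J => ?_⟩
  have h1 : ∑ k ∈ Finset.range J, (Sl L i (2 ^ k) : ℝ) ≤
      9 * J + ∑ k ∈ Finset.range J, (f (k + 7) - f k) +
        ∑ k ∈ Finset.range J, (if k < l0 then B + f k else 0) := by
    refine (Finset.sum_le_sum fun k _ => hS k).trans (le_of_eq ?_)
    rw [Finset.sum_add_distrib, Finset.sum_add_distrib]
    simp only [Finset.sum_const, Finset.card_range, nsmul_eq_mul]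
    ring
  rw [telescope] at h1
  have h2 : ∑ j ∈ Finset.range 7, f (J + j) ≤ 7 * (C * (J + 8)) := by
    have : ∀ j ∈ Finset.range 7, f (J + j) ≤ C * (J + 8) := by
      intro j hj
      have h3 := hg (J + j)
      have h4 : (j : ℝ) ≤ 7 := by exact_mod_cast (Finset.mem_range.1 hj).le
      refine h3.trans (mul_le_mul_of_nonneg_left ?_ hC)
      push_cast
      linarith
    refine (Finset.sum_le_sum this).trans (le_of_eq ?_)
    simp
  have h3 : 0 ≤ ∑ j ∈ Finset.range 7, f j := Finset.sum_nonneg fun j _ => hf0 j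
  have h4 : ∑ k ∈ Finset.range J, (if k < l0 then B + f k else 0) ≤
      (B + C * (l0 + 1)) * (l0 + 1) := by
    calc ∑ k ∈ Finset.range J, (if k < l0 then B + f k else 0)
        ≤ ∑ k ∈ Finset.range (max J l0), (if k < l0 then B + f k else 0) := by
          refine Finset.sum_le_sum_of_subset_of_nonneg
            (Finset.range_subset_range.2 (le_max_left _ _)) fun k _ _ => ?_
          split_ifs
          · have := hf0 k
            have := hB.1
            positivity
          · exact le_rfl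
      _ = ∑ k ∈ Finset.range l0, (B + f k) := by
          rw [← Finset.sum_filter]
          congr 1
          ext k
          simp only [Finset.mem_filter, Finset.mem_range]
          constructor
          · exact fun h => h.2
          · exact fun h => ⟨lt_of_lt_of_le h (le_max_right _ _), h⟩
      _ ≤ ∑ k ∈ Finset.range l0, (B + C * (l0 + 1)) := by
          refine Finset.sum_le_sum fun k hk => ?_
          have h5 := hg k
          have h6 : (k : ℝ) ≤ l0 := by exact_mod_cast (Finset.mem_range.1 hk).le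
          have h7 : C * ((k : ℝ) + 1) ≤ C * (l0 + 1) := by gcongr
          simp only [hf]
          linarith
      _ = (B + C * (l0 + 1)) * l0 := by
          rw [Finset.sum_const, Finset.card_range, nsmul_eq_mul]; ring
      _ ≤ (B + C * (l0 + 1)) * (l0 + 1) := by
          have : 0 ≤ B + C * ((l0 : ℝ) + 1) := by
            have := hB.1
            positivity
          nlinarith
  have hBC : 0 ≤ (B + C * ((l0 : ℝ) + 1)) * (l0 + 1) := by
    have := hB.1
    positivity
  have hJ : (0 : ℝ) ≤ J := Nat.cast_nonneg J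
  nlinarith [mul_nonneg hBC hJ, mul_nonneg hC hJ]

/-- growth of the widths from a linear tail bound of the symmetrised displacement -/
lemma wl_le_of_tail (L : LP P) (i : Fin 2) (l : ℕ) {K : ℝ} (hK : 0 < K)
    (h : (P.prod P).real {q | K < |Z (L.U l) i q|} ≤ 1 / 400) :
    wl L i l ≤ max 1 (10 * K) := by
  have hΔ := meas_U L l
  have h1 : min 1 (1 / (10 * K)) ≤ tl L i l := by
    refine le_tl (by positivity) (min_le_left _ _) fun s hs => ?_
    have hs' : |s| ≤ 1 / (10 * K) := hs.trans (min_le_right _ _)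
    set A : Set (Ω × Ω) := {q | K < |Z (L.U l) i q|} with hA
    have hAm : MeasurableSet A := measurableSet_lt measurable_const (measurable_Z hΔ i).abs
    have h1 : ∀ q, 1 - Real.cos (s * Z (L.U l) i q) ≤ 1 / 200 + A.indicator (fun _ => (2 : ℝ)) q := by
      intro q
      by_cases hq : q ∈ A
      · rw [indicator_of_mem hq]
        have := Real.neg_one_le_cos (s * Z (L.U l) i q)
        linarith
      · rw [indicator_of_notMem hq]
        have h2 : |Z (L.U l) i q| ≤ K := not_lt.1 hq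
        have h3 : |s * Z (L.U l) i q| ≤ 1 / 10 := by
          rw [abs_mul]
          calc |s| * |Z (L.U l) i q| ≤ 1 / (10 * K) * K := by gcongr
            _ = 1 / 10 := by field_simp
        have h4 := Real.one_sub_sq_div_two_le_cos (x := s * Z (L.U l) i q)
        have h5 : (s * Z (L.U l) i q) ^ 2 ≤ (1 / 10) ^ 2 := by
          rw [← sq_abs]
          gcongr
        linarith
    have hm : Measurable fun q : Ω × Ω => Real.cos (s * Z (L.U l) i q) := by
      have := measurable_Z hΔ i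
      fun_prop
    have hi : Integrable (fun q : Ω × Ω => 1 - Real.cos (s * Z (L.U l) i q)) (P.prod P) := by
      refine (integrable_const (1 : ℝ)).sub ((integrable_const (1 : ℝ)).mono' hm.aestronglyMeasurable
        (Eventually.of_forall fun q => by rw [Real.norm_eq_abs]; exact Real.abs_cos_le_one _))
    have hi2 : Integrable (fun q : Ω × Ω => 1 / 200 + A.indicator (fun _ => (2 : ℝ)) q) (P.prod P) :=
      (integrable_const _).add ((integrable_const _).indicator hAm)
    have h2 : gg P (L.U l) i s ≤ 1 / 200 + 2 * (P.prod P).real A := by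
      rw [gg_eq hΔ]
      refine (integral_mono hi hi2 h1).trans ?_
      rw [integral_add (integrable_const _) ((integrable_const _).indicator hAm),
        integral_indicator_const _ hAm]
      simp only [integral_const, smul_eq_mul, measureReal_def, measure_univ, ENNReal.toReal_one]
      linarith
    linarith
  unfold wl
  rcases min_choice (1 : ℝ) (1 / (10 * K)) with h2 | h2
  · rw [h2] at h1
    refine le_max_of_le_left ?_
    rw [div_le_iff₀ (tl_pos L i l)]
    linarith
  · rw [h2] at h1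
    refine le_max_of_le_right ?_
    rw [div_le_iff₀ (tl_pos L i l)]
    rw [div_le_iff₀ (by positivity)] at h1
    linarith

end Crest.Agent.R154.MobW437
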