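import Crest.Agent.R154.KerInst_872
import Crest.Agent.R154.KerP_561
import Crest.Agent.R154.RatioA_872
import Crest.Agent.R154.MobL_437
import Crest.Agent.R154.D2Asm_244

-- ▼ part R154/Bd_736
section

/-! Row 154, HOME MASS (263 #36390), binder of 903's `nonhome`: quenched probability `Bd` of a natural
climb having a cut level with a displacement outside the home set `HD`. -/

set_option autoImplicit false
set_option linter.unusedSectionVars false
set_option linter.deprecated false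

namespace Crest.Agent.R154.Bd736

open MeasureTheory ProbabilityTheory Set Filter Crest.ProbabilityR.RandomEnvironment
open Crest.Agent.R154.Ren263 hiding lev
open Crest.Agent.R154.Mk561 Crest.Agent.R154.Q561 Crest.Agent.R154.RatioR872
open Crest.Agent.R154.Flux132 (lev lev_add lev_neg lev_zero)
open Crest.Agent.R154.Bind263 (Frame)
open Crest.Agent.R154.B4Inst797 (Hit Nt Nat0 D0 zh natLaw hit_unique)
open scoped ENNReal

variable {d : ℕ}

section sets

variable (u : Step d) (R : ℕ) (HD : Set (Site d))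

/-- natural climb to the level `c`, hit at time `n`, with a cut time `m` (natural up to the first hit
of its level at time `m`, natural afterwards) at a displacement outside `HD` -/
def BdP (x : Site d) (c : ℤ) (n : ℕ) : Set (MPath d) :=
  {M | M ∈ ClM u R x c n ∧ ∃ m ≤ n, M ∈ ClM u R x (lev u (pos x M m)) m ∧
    Ren263.shift m M ∈ ClM u R (pos x M m) c (n - m) ∧ pos x M m - x ∉ HD}

/-- natural climb to the level `c` with a non home cut level -/
def BdS (x : Site d) (c : ℤ) : Set (MPath d) := ⋃ n, BdP u R HD x c n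

lemma det_BdP (x : Site d) (c : ℤ) (n : ℕ) : Det n (BdP u R HD x c n) := by
  intro s s' h
  have hp : ∀ i ≤ n, pos x s i = pos x s' i := fun i hi => pos_congr x h hi
  unfold BdP
  simp only [mem_setOf_eq]
  refine and_congr (det_ClM u R x c n s s' h) ?_
  refine exists_congr fun m => and_congr_right fun hm => ?_
  rw [hp m hm]
  refine and_congr ?_ (and_congr ?_ Iff.rfl)
  · exact det_ClM u R x _ m s s' fun i hi => h i (lt_of_lt_of_le hi hm)
  · exact det_ClM u R _ c (n - m) _ _ fun i hi => h (m + i) (by omega)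

lemma meas_BdP (x : Site d) (c : ℤ) (n : ℕ) : MeasurableSet (BdP u R HD x c n) :=
  (det_BdP u R HD x c n).measurableSet

lemma meas_BdS (x : Site d) (c : ℤ) : MeasurableSet (BdS u R HD x c) :=
  MeasurableSet.iUnion fun n => meas_BdP u R HD x c n

lemma disj_BdP (x : Site d) (c : ℤ) :
    Pairwise (Function.onFun Disjoint fun n => BdP u R HD x c n) := by
  intro m m' hne
  rw [Function.onFun, Set.disjoint_left]
  intro M h h'
  exact hne (ClM_unique u R h.1 h'.1)


lemma BdP_shift (x z : Site d) (c : ℤ) (n : ℕ) :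
    BdP u R HD (x + z) (c + lev u z) n = BdP u R HD x c n := by
  have e : ∀ (M : MPath d) (m : ℕ), pos (x + z) M m = pos x M m + z := fun M m => pos_add x z M m
  ext M
  unfold BdP
  simp only [mem_setOf_eq, e, lev_add, ClM_shift]
  refine and_congr Iff.rfl ?_
  refine exists_congr fun m => and_congr_right fun _ => and_congr Iff.rfl (and_congr Iff.rfl ?_)
  rw [add_sub_add_right_eq_sub]

lemma BdS_shift (x z : Site d) (c : ℤ) :
    BdS u R HD (x + z) (c + lev u z) = BdS u R HD x c := by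
  unfold BdS
  simp_rw [BdP_shift]

end sets

section kernel

variable (u : Step d) (R : ℕ) (κ : ℝ) (HD : Set (Site d))

/-- quenched probability, from `x`, of a natural climb to the level `c` having a cut level with a
displacement outside `HD` -/
noncomputable def Bd (c : ℤ) (ω : Environment d) (x : Site d) : ℝ≥0∞ :=
  mkLaw κ ω x (BdS u R HD x c)

lemma Bd_eq_tsum (c : ℤ) (ω : Environment d) (x : Site d) :
    Bd u R κ HD c ω x = ∑' n, mkLaw κ ω x (BdP u R HD x c n) :=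
  measure_iUnion (disj_BdP u R HD x c) fun n => meas_BdP u R HD x c n


lemma measurable_Bd (c : ℤ) (x : Site d) : Measurable fun ω => Bd u R κ HD c ω x :=
  measurable_mk_apply κ x (meas_BdS u R HD x c)

lemma locOn_Bd (c : ℤ) (x : Site d) :
    LocOn {z | lev u x + R ≤ lev u z ∧ lev u z < c} fun ω => Bd u R κ HD c ω x := by
  intro ω ω' h
  simp only [Bd_eq_tsum]
  refine tsum_congr fun n => ?_
  exact mk_local_det κ h x (det_BdP u R HD x c n) fun M hM => ClM_read u R x c n hM.1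

lemma mkLaw_ClY_ClA (ω : Environment d) (x : Site d) (b c : ℤ) (m : ℕ) (y : Site d) :
    mkLaw κ ω x (ClY u R x b m y ∩ Ren263.shift m ⁻¹' ClA u R y c)
      = mkLaw κ ω x (ClY u R x b m y) * mkLaw κ ω y (ClA u R y c) := by
  rw [markov_det κ ω x (det_ClY u R x b m y) (meas_ClA u R y c)]
  rw [setLIntegral_congr_fun (meas_ClY u R x b m y)
    (g := fun _ => mkLaw κ ω y (ClA u R y c))]
  · rw [setLIntegral_const, mul_comm]
  · intro M hM
    have : pos x M m = y := hM.2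
    simp only [this]

open Classical in
/-- **(1)** the non home part of the climbs to `b` which go on to `c` is at most `Bd` -/
theorem le_Bd {b c : ℤ} (hbc : b ≤ c) (ω : Environment d) (x : Site d) :
    ∑' y, (if y - x ∈ HD then 0 else gk u R κ b ω x y) * ∑' z, gk u R κ c ω y z
      ≤ Bd u R κ HD c ω x := by
  have h1 : ∀ y, (if y - x ∈ HD then 0 else gk u R κ b ω x y) * ∑' z, gk u R κ c ω y z
      = ∑' m, mkLaw κ ω x
        ({M | y - x ∉ HD} ∩ (ClY u R x b m y ∩ Ren263.shift m ⁻¹' ClA u R y c)) := by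
    intro y
    rw [tsum_gk]
    by_cases h : y - x ∈ HD
    · simp [h]
    · simp only [h, if_false, not_false_eq_true, setOf_true, univ_inter]
      rw [gk_eq_tsum, ← ENNReal.tsum_mul_right]
      exact tsum_congr fun m => (mkLaw_ClY_ClA u R κ ω x b c m y).symm
  simp_rw [h1]
  rw [← ENNReal.tsum_prod]
  rw [← measure_iUnion (f := fun p : Site d × ℕ =>
    {M : MPath d | p.1 - x ∉ HD} ∩ (ClY u R x b p.2 p.1 ∩ Ren263.shift p.2 ⁻¹' ClA u R p.1 c))]
  · refine measure_mono ?_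
    refine iUnion_subset fun p => ?_
    rintro M ⟨hM0, hM1, hM2⟩
    obtain ⟨m', hm'⟩ := mem_iUnion.1 hM2
    have hy : pos x M p.2 = p.1 := hM1.2
    have hlev : lev u (pos x M p.2) = b := hM1.1.1
    refine mem_iUnion.2 ⟨p.2 + m', ?_, p.2, by omega, ?_, ?_, ?_⟩
    · refine ClM_comp u R hbc hM1.1 ?_
      rw [hy]
      exact hm'
    · rw [hlev]; exact hM1.1
    · rw [hy, Nat.add_sub_cancel_left]; exact hm'
    · rw [hy]; exact hM0
  · intro p q hpq
    rw [Function.onFun, Set.disjoint_left]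
    rintro M ⟨_, hM, _⟩ ⟨_, hM', _⟩
    have h2 := ClM_unique u R hM.1 hM'.1
    have h3 : p.1 = q.1 := by rw [← hM.2, ← hM'.2, h2]
    exact hpq (Prod.ext h3 h2)
  · intro p
    by_cases h : p.1 - x ∈ HD
    · simp [h]
    · simp only [h, not_false_eq_true, setOf_true, univ_inter]
      exact (meas_ClY u R x b p.2 p.1).inter
        (Ren263.measurable_shift p.2 (meas_ClA u R p.1 c))

end kernel

section annealed

variable {Q : Measure (Environment d)} [IsProbabilityMeasure Q] {κ : ℝ} {R : ℕ}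

/-- a natural climb up to the first hit of level `l` -/
lemma ClM_hit {u : Step d} {x : Site d} {l n : ℕ} {M : MPath d}
    (h : M ∈ ClM u R x (lev u x + l) n) : Hit u l n M ∧ Nt u R n M := by
  obtain ⟨h1, h2, h3, h4⟩ := h
  refine ⟨⟨?_, fun i hi => ?_⟩, fun i hiR hin => h3 i hin hiR, fun i hRi hin => ?_⟩
  · rw [lev_pos_eq] at h1; linarith
  · have := h2 i hi; rw [lev_pos_eq] at this; linarith
  · have := h4 i hRi hin; rw [lev_pos_eq] at this; linarith

/-- a path natural to level `l` at time `n`, natural from there on, is natural -/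
lemma nat_of_ClM {u : Step d} {x : Site d} {l n : ℕ} {M : MPath d}
    (h : M ∈ ClM u R x (lev u x + l) n) (h2 : Ren263.shift n M ∈ Nat0 u R) : M ∈ Nat0 u R := by
  obtain ⟨h3, h4⟩ := ClM_hit h
  refine B4Inst797.D0_inter (m := l) ⟨fun k hk => ?_, fun hk => absurd h3 (hk n)⟩ ?_
  · rw [hit_unique hk h3]; exact h4
  · rw [B4Inst797.th_eq h3]; exact h2

/-- the bad event of the walk from `0` -/
def BadC (u : Step d) (R : ℕ) (HD : Set (Site d)) (n : ℕ) : Set (MPath d) :=
  {s | ∃ l ≤ n, ∃ m, Hit u l m s ∧ Ren263.shift m s ∈ Nat0 u R ∧ pos 0 s m ∉ HD}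

lemma lev_pos_nonneg {u : Step d} {x : Site d} {m : ℕ} {M : MPath d}
    (h : M ∈ ClM u R x (lev u (pos x M m)) m) : ∃ l : ℕ, lev u (pos x M m) = lev u x + l := by
  rcases Nat.eq_zero_or_pos m with h0 | h0
  · subst h0
    exact ⟨0, by simp [pos_zero]⟩
  · have := h.2.1 0 h0
    rw [pos_zero] at this
    obtain ⟨l, hl⟩ := Int.eq_ofNat_of_zero_le (by linarith : 0 ≤ lev u (pos x M m) - lev u x)
    exact ⟨l, by linarith⟩

lemma BdP_bad {u : Step d} {HD : Set (Site d)} {n k : ℕ} {s : MPath d}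
    (h : s ∈ BdP u R HD 0 n k) (h2 : Ren263.shift k s ∈ Nat0 u R) :
    s ∈ Nat0 u R ∩ BadC u R HD n := by
  obtain ⟨h1, m, hm, h3, h4, h5⟩ := h
  have h1' : s ∈ ClM u R 0 (lev u (0 : Site d) + (n : ℕ)) k := by
    rw [lev_zero, zero_add]; exact h1
  refine ⟨nat_of_ClM h1' h2, ?_⟩
  obtain ⟨l, hl⟩ := lev_pos_nonneg h3
  rw [hl] at h3
  have h6 := (ClM_hit h3).1
  -- level `l ≤ n`
  have hln : l ≤ n := by
    rcases Nat.eq_zero_or_pos (k - m) with h0 | h0
    · have := h4.1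
      rw [h0, pos_zero, hl, lev_zero] at this
      have : (l : ℤ) = n := by linarith
      exact_mod_cast this.le
    · have := h4.2.1 0 h0
      rw [pos_zero, hl, lev_zero] at this
      have : (l : ℤ) < n := by linarith
      exact_mod_cast this.le
  refine ⟨l, hln, m, h6, ?_, ?_⟩
  · obtain ⟨j, rfl⟩ := Nat.exists_eq_add_of_le hln
    have h7 : Ren263.shift m s ∈ ClM u R (pos 0 s m) (lev u (pos 0 s m) + (j : ℕ)) (k - m) := by
      have e : lev u (pos 0 s m) + (j : ℕ) = ((l + j : ℕ) : ℤ) := by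
        rw [hl, lev_zero]; push_cast; ring
      rw [e]; exact h4
    refine nat_of_ClM h7 ?_
    have e : Ren263.shift (k - m) (Ren263.shift m s) = Ren263.shift k s := by
      rw [shift_shift, Nat.add_sub_cancel' hm]
    rw [e]; exact h2
  · rwa [sub_zero] at h5

/-- **(3)** annealed bound, no factor lost: fresh continuation at the level `n` -/
theorem ann_Bd (F : Frame Q κ R) (u : Step d) (HD : Set (Site d))
    (hc : mkAnn κ Q 0 (Nat0 u R) ≠ 0) (n : ℕ) :
    mkAnn κ Q 0 (BdS u R HD 0 n) ≤ natLaw κ Q u R (BadC u R HD n) := by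
  have hN := B4Inst797.measurableSet_Nat0 (d := d) u R
  have hfr : ∀ k, mkAnn κ Q 0 (BdP u R HD 0 n k ∩ Ren263.shift k ⁻¹' (Nat0 u R))
      = mkAnn κ Q 0 (BdP u R HD 0 n k) * mkAnn κ Q 0 (Nat0 u R) := by
    intro k
    refine B4Inst797.fresh F u (det_BdP u R HD 0 n k) ?_ hN (B4Inst797.nat_subset_RH u R)
    intro s hs i hi
    have h1 : s ∈ ClM u R 0 (lev u (0 : Site d) + (n : ℕ)) k := by
      rw [lev_zero, zero_add]; exact hs.1
    have h2 := (ClM_hit h1).1
    rw [h2.1]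
    exact h2.2 i hi
  have h1 : mkAnn κ Q 0 (BdS u R HD 0 n) * mkAnn κ Q 0 (Nat0 u R)
      ≤ mkAnn κ Q 0 (Nat0 u R ∩ BadC u R HD n) := by
    have e : mkAnn κ Q 0 (BdS u R HD 0 n) * mkAnn κ Q 0 (Nat0 u R)
        = mkAnn κ Q 0 (⋃ k, BdP u R HD 0 n k ∩ Ren263.shift k ⁻¹' (Nat0 u R)) := by
      rw [measure_iUnion, BdS, measure_iUnion (disj_BdP u R HD 0 n)
        (fun k => meas_BdP u R HD 0 n k), ← ENNReal.tsum_mul_right]
      · exact tsum_congr fun k => (hfr k).symm
      · intro k k' hkk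
        exact (disj_BdP u R HD 0 n hkk).mono inter_subset_left inter_subset_left
      · intro k
        exact (meas_BdP u R HD 0 n k).inter (Ren263.measurable_shift k hN)
    rw [e]
    refine measure_mono (iUnion_subset fun k => ?_)
    rintro s ⟨hs1, hs2⟩
    exact BdP_bad hs1 hs2
  rw [B4Inst797.natLaw_apply]
  have hfin : mkAnn κ Q 0 (Nat0 u R) ≠ ∞ := measure_ne_top _ _
  calc mkAnn κ Q 0 (BdS u R HD 0 n)
      = (mkAnn κ Q 0 (Nat0 u R))⁻¹ *
        (mkAnn κ Q 0 (BdS u R HD 0 n) * mkAnn κ Q 0 (Nat0 u R)) := by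
        rw [mul_comm (mkAnn κ Q 0 (BdS u R HD 0 n)), ← mul_assoc,
          ENNReal.inv_mul_cancel hc hfin, one_mul]
    _ ≤ _ := by gcongr

/-- **(3)** -/
theorem lint_Bd (F : Frame Q κ R) (u : Step d) (HD : Set (Site d))
    (hc : mkAnn κ Q 0 (Nat0 u R) ≠ 0) {a c : ℕ} (hac : a ≤ c) {x : Site d} (hx : lev u x = a) :
    ∫⁻ ω, Bd u R κ HD c ω x ∂Q ≤ natLaw κ Q u R (BadC u R HD (c - a)) := by
  have e1 : ∫⁻ ω, Bd u R κ HD c ω x ∂Q = mkAnn κ Q x (BdS u R HD x c) :=
    (mkAnn_apply κ Q x (meas_BdS u R HD x c)).symm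
  have e2 : BdS u R HD x (c : ℤ) = BdS u R HD 0 ((c - a : ℕ) : ℤ) := by
    have h2 := BdS_shift u R HD 0 x ((c - a : ℕ) : ℤ)
    rw [zero_add, hx] at h2
    rw [← h2]
    congr 1
    push_cast [Nat.cast_sub hac]
    ring
  rw [e1, e2, mkAnn_stat F.stat κ x]
  exact ann_Bd F u HD hc (c - a)

/-- the bad event in the letters of the level process `lp` -/
lemma BadC_subset (u : Step d) (i1 i2 : Fin d) (i : Fin 2) (cc : ℤ → ℝ) (D : ℝ) (n : ℕ) :
    BadC u R {z | |B4Inst797.lat i1 i2 z i - cc (lev u z)| ≤ D} n ⊆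
      {s | ∃ l ≤ n, s ∈ B4Inst797.th u l ⁻¹' (Nat0 u R) ∧
        D < |B4Inst797.UU u i1 i2 l s i - cc l|} := by
  rintro s ⟨l, hl, m, h1, h2, h3⟩
  obtain ⟨e1, e2⟩ := B4Inst797.hit_eq i1 i2 h1
  refine ⟨l, hl, ?_, ?_⟩
  · change B4Inst797.th u l s ∈ Nat0 u R
    rw [e1]; exact h2
  · rw [e2]
    simp only [mem_setOf_eq, not_le] at h3
    rw [lev_pos_eq, lev_zero, zero_add, h1.1] at h3
    exact h3

end annealed

end Crest.Agent.R154.Bd736
end

-- ▼ part R154/HomeDefs_736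
section

/-! Row 154, HOME doc (263): the common letters `rp`, `Hm`, `Jp`, `TailH`, `JumpTail`. -/

set_option autoImplicit false
set_option linter.unusedSectionVars false
set_option linter.deprecated false

namespace Crest.Agent.R154.Home736

open MeasureTheory ProbabilityTheory Set Filter
open Crest.Agent.R154.RatioR872 Crest.Agent.R154.RatioR872.KerSys
open scoped ENNReal

variable {S : Type*} [Countable S] {Ω : Type*} {m0 : MeasurableSpace Ω} {P : Measure Ω}



/-- jump relation -/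
def Jp (φ : S → ℝ) (Δ : ℝ) : S → S → Prop := fun x y => Δ ≤ φ y - φ x

open Classical in
/-- **home tail** (doc HOME) -/
def TailH (A : KerSys S P) (φ : S → ℝ) (N : ℕ) (D : ℝ) (ν : ℝ≥0∞) : Prop :=
  ∀ a c : ℕ, a ≤ c → c ≤ a + N → ∃ Bd : S → Ω → ℝ≥0∞, (∀ x, Measurable[A.H a] (Bd x)) ∧
    (∀ x ∈ A.L a, ∫⁻ ω, Bd x ω ∂P ≤ ν) ∧ ∀ b, a ≤ b → b ≤ c → ∀ᵐ ω ∂P, ∀ x ∈ A.L a,
      ∑' y, (if |φ y - φ x| ≤ D then 0 else A.G a b ω x y) * A.N b c ω y ≤ Bd x ω

open Classical in
/-- **jump tail** (doc HOME) -/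
def JumpTail (A : KerSys S P) (φ : S → ℝ) (n : ℕ) (Δ : ℝ) (π : ℝ≥0∞) : Prop :=
  ∀ a : ℕ, ∀ x ∈ A.L a, π ≤ ∫⁻ ω, ∑' y, (if Δ ≤ φ y - φ x then A.G a (a + n) ω x y else 0) ∂P

end Crest.Agent.R154.Home736
end

-- ▼ part R154/HomeTail_775
section

/-!
Row 154, HOME MASS (263 #36390), home tail (half of HM6): for the level process `LP` of 573,
`P(∃ cut level l ≤ N, |U_l - c_l| > 18 wl (n N)) ≤ ν` for deterministic centres `c_l`
(Ottaviani at the first bad cut level; helper775).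
-/

set_option autoImplicit false
set_option linter.unusedSectionVars false
set_option linter.unusedVariables false

namespace Crest.Agent.R154.HomeTail775

open MeasureTheory Filter Set Crest.Agent.R154.B4 Crest.Agent.R154.MobW437
open scoped ENNReal Topology

variable {Ω : Type*} [mΩ : MeasurableSpace Ω] {P : Measure Ω}

/-- law of (displacement at a cut level, path after it) is a product -/
lemma joint_law [IsProbabilityMeasure P] (L : LP P) (i : Fin 2) (l : ℕ) :
    (P.restrict (L.C l)).map (fun ω => (L.U l ω i, L.θ l ω)) =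
      ((P.restrict (L.C l)).map (fun ω => L.U l ω i)).prod P := by
  have hU : Measurable (fun ω => L.U l ω i) := (measurable_pi_apply i).comp (meas_U L l)
  have hθ := L.θ_meas l
  symm
  refine Measure.prod_eq fun s t hs ht => ?_
  rw [Measure.map_apply (hU.prodMk hθ) (hs.prod ht), Measure.map_apply hU hs,
    Measure.restrict_apply ((hU.prodMk hθ) (hs.prod ht)), Measure.restrict_apply (hU hs)]
  have hA : MeasurableSet[L.F l] ((fun ω => L.U l ω i) ⁻¹' s) :=
    (measurable_pi_apply i).comp (L.U_meas l) hs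
  rw [← L.ren l _ t hA ht]
  congr 1
  ext ω
  simp only [mem_inter_iff, mem_preimage, mem_prod]
  tauto

/-- at every level `l ≤ N` there is a centre for the displacement after `l` -/
lemma exists_centre [IsProbabilityMeasure P] (L : LP P) (i : Fin 2) {l m : ℕ} {cN r e : ℝ}
    (he : P.real {ω | r < |L.U (l + m) ω i - cN|} ≤ e) :
    ∃ x : ℝ, P.real {ω | r < |x + L.U m ω i - cN|} ≤ e / L.p := by
  have hUm : Measurable (fun ω => L.U m ω i) := (measurable_pi_apply i).comp (meas_U L m)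
  have hU : Measurable (fun ω => L.U l ω i) := (measurable_pi_apply i).comp (meas_U L l)
  have hθ := L.θ_meas l
  have hp := L.p_pos
  have he0 : 0 ≤ e := measureReal_nonneg.trans he
  -- mass of the cut level
  have hC : ENNReal.ofReal L.p ≤ P (L.C l) := by
    have := L.cut l univ MeasurableSet.univ
    simpa using this
  set μ1 : Measure ℝ := (P.restrict (L.C l)).map (fun ω => L.U l ω i) with hμ1
  have hμ1u : μ1 univ = P (L.C l) := by
    rw [hμ1, Measure.map_apply hU MeasurableSet.univ, preimage_univ, Measure.restrict_apply_univ]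
  have hμ1fin : IsFiniteMeasure μ1 := ⟨by rw [hμ1u]; exact measure_lt_top _ _⟩
  have hμ10 : μ1 ≠ 0 := by
    intro h
    have : μ1 univ = 0 := by rw [h]; rfl
    rw [hμ1u] at this
    rw [this] at hC
    exact absurd hC (by simpa using hp)
  set S : Set (ℝ × Ω) := {q | r < |q.1 + L.U m q.2 i - cN|} with hS
  have hSm : MeasurableSet S :=
    measurableSet_lt measurable_const
      ((measurable_fst.add (hUm.comp measurable_snd)).sub_const cN).abs
  -- first moment
  have hint : ∫⁻ x, P {ω | r < |x + L.U m ω i - cN|} ∂μ1 ≤ ENNReal.ofReal e := by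
    have h1 : ∫⁻ x, P {ω | r < |x + L.U m ω i - cN|} ∂μ1 = (μ1.prod P) S := by
      rw [Measure.prod_apply hSm]
      rfl
    rw [h1, hμ1, ← joint_law L i l, Measure.map_apply (hU.prodMk hθ) hSm]
    refine (Measure.restrict_apply_le _ _).trans ?_
    have h2 : (fun ω => (L.U l ω i, L.θ l ω)) ⁻¹' S = {ω | r < |L.U (l + m) ω i - cN|} := by
      ext ω
      simp only [hS, mem_preimage, mem_ofPred_eq, L.U_add l m ω, Pi.add_apply]
    rw [h2]
    exact (ENNReal.le_ofReal_iff_toReal_le (measure_ne_top _ _) he0).2 he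
  obtain ⟨x, hx⟩ := exists_le_laverage (μ := μ1) hμ10
    (f := fun x => P {ω | r < |x + L.U m ω i - cN|})
    (measurable_measure_prodMk_left hSm).aemeasurable
  refine ⟨x, ?_⟩
  have h3 : P {ω | r < |x + L.U m ω i - cN|} ≤ ENNReal.ofReal (e / L.p) := by
    refine hx.trans ?_
    rw [laverage_eq, hμ1u, ENNReal.ofReal_div_of_pos hp]
    exact ENNReal.div_le_div hint hC
  exact ENNReal.toReal_le_of_le_ofReal (by positivity) h3

/-- **Ottaviani at cut levels.** -/
theorem ottaviani [IsProbabilityMeasure P] (L : LP P) (i : Fin 2) {N : ℕ} {cN r e : ℝ}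
    (he : P.real {ω | r < |L.U N ω i - cN|} ≤ e) (hep : 2 * e ≤ L.p) :
    ∃ c : ℕ → ℝ, P.real {ω | ∃ l ≤ N, ω ∈ L.C l ∧ 2 * r < |L.U l ω i - c l|} ≤ 2 * e := by
  have hp := L.p_pos
  have he0 : 0 ≤ e := measureReal_nonneg.trans he
  have hx : ∀ l : ℕ, ∃ x : ℝ, l ≤ N → P.real {ω | r < |x + L.U (N - l) ω i - cN|} ≤ e / L.p := by
    intro l
    by_cases hl : l ≤ N
    · obtain ⟨x, hx⟩ := exists_centre L i (l := l) (m := N - l) (cN := cN) (r := r) (e := e)
        (by rw [Nat.add_sub_cancel' hl]; exact he)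
      exact ⟨x, fun _ => hx⟩
    · exact ⟨0, fun h => absurd h hl⟩
  choose c hc using hx
  refine ⟨c, ?_⟩
  set A : ℕ → Set Ω := fun l => {ω | 2 * r < |L.U l ω i - c l|} with hA
  set B : ℕ → Set Ω := fun l => {ω | |c l + L.U (N - l) ω i - cN| ≤ r} with hB
  set A' : ℕ → Set Ω := fun l => A l ∩ ⋂ j ∈ Finset.range l, (A j ∩ L.D j (l - j))ᶜ with hA'
  have hAF : ∀ l, MeasurableSet[L.F l] (A l) := by
    intro l
    have hset : MeasurableSet {y : ℝ | 2 * r < |y - c l|} :=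
      measurableSet_lt measurable_const ((measurable_id.sub_const (c l)).abs)
    exact (measurable_pi_apply i).comp (L.U_meas l) hset
  have hA'F : ∀ l, MeasurableSet[L.F l] (A' l) := by
    intro l
    refine MeasurableSet.inter (hAF l) ?_
    refine Finset.measurableSet_biInter _ fun j hj => ?_
    have hjl : j ≤ l := (Finset.mem_range.1 hj).le
    refine MeasurableSet.compl (MeasurableSet.inter (L.F_mono hjl _ (hAF j)) ?_)
    have := L.D_meas j (l - j)
    rwa [Nat.add_sub_cancel' hjl] at this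
  have hBm : ∀ l, MeasurableSet (B l) := fun l =>
    measurableSet_le ((((measurable_pi_apply i).comp (meas_U L (N - l))).const_add (c l)).sub_const
      cN).abs measurable_const
  -- the bad set is covered by the first bad cut levels
  have hcov : {ω | ∃ l ≤ N, ω ∈ L.C l ∧ 2 * r < |L.U l ω i - c l|} ⊆
      ⋃ l ∈ Finset.range (N + 1), (A' l ∩ L.C l) := by
    rintro ω ⟨l, hl, hCl, hAl⟩
    have hex : ∃ l, l ≤ N ∧ ω ∈ L.C l ∧ ω ∈ A l := ⟨l, hl, hCl, hAl⟩
    classical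
    obtain ⟨h1, h2, h3⟩ := Nat.find_spec hex
    set l0 := Nat.find hex with hl0
    refine mem_biUnion (x := l0) (Finset.mem_coe.2 (Finset.mem_range.2 (by omega))) ?_
    refine ⟨⟨h3, ?_⟩, h2⟩
    refine mem_iInter₂.2 fun j hj => ?_
    have hj' : j < l0 := Finset.mem_range.1 hj
    intro ⟨hj1, hj2⟩
    have hjC : ω ∈ L.C j := by
      refine L.D_inter j (l0 - j) ⟨hj2, ?_⟩
      rw [Nat.add_sub_cancel' hj'.le]
      exact h2
    exact Nat.find_min hex hj' ⟨by omega, hjC, hj1⟩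
  -- disjointness
  have hdisj : Set.PairwiseDisjoint (↑(Finset.range (N + 1)) : Set ℕ)
      (fun l => A' l ∩ L.C l ∩ L.θ l ⁻¹' B l) := by
    have key : ∀ j l : ℕ, j < l → Disjoint (A' j ∩ L.C j) (A' l ∩ L.C l) := by
      intro j l hjl
      rw [Set.disjoint_left]
      rintro ω ⟨⟨h1, _⟩, h2⟩ ⟨⟨_, h3⟩, _⟩
      have := mem_iInter₂.1 h3 j (Finset.mem_range.2 hjl)
      exact this ⟨h1, L.C_sub_D j (l - j) h2⟩
    intro j _ l _ hjl
    rcases lt_or_gt_of_ne hjl with h | h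
    · exact (key j l h).mono inter_subset_left inter_subset_left
    · exact ((key l j h).mono inter_subset_left inter_subset_left).symm
  have hsub : ∀ l ∈ Finset.range (N + 1), A' l ∩ L.C l ∩ L.θ l ⁻¹' B l ⊆
      {ω | r < |L.U N ω i - cN|} := by
    intro l hl ω hω
    have hlN : l ≤ N := by have := Finset.mem_range.1 hl; omega
    obtain ⟨⟨⟨h1, _⟩, _⟩, h2⟩ := hω
    have h3 : L.U N ω i = L.U l ω i + L.U (N - l) (L.θ l ω) i := by
      have := L.U_add l (N - l) ω
      rw [Nat.add_sub_cancel' hlN] at this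
      rw [this, Pi.add_apply]
    have h1' : 2 * r < |L.U l ω i - c l| := h1
    have h2' : |c l + L.U (N - l) (L.θ l ω) i - cN| ≤ r := h2
    show r < |L.U N ω i - cN|
    have h4 : L.U l ω i - c l = (L.U N ω i - cN) - (c l + L.U (N - l) (L.θ l ω) i - cN) := by
      rw [h3]; ring
    rw [h4] at h1'
    have h5 := abs_sub (L.U N ω i - cN) (c l + L.U (N - l) (L.θ l ω) i - cN)
    linarith
  have hBp : ∀ l ∈ Finset.range (N + 1), (1 / 2 : ℝ) ≤ P.real (B l) := by
    intro l hl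
    have hlN : l ≤ N := by have := Finset.mem_range.1 hl; omega
    have h1 := hc l hlN
    have h2 : (B l)ᶜ = {ω | r < |c l + L.U (N - l) ω i - cN|} := by
      ext ω; simp [hB]
    have h3 : P.real (B l) = 1 - P.real (B l)ᶜ := by
      rw [probReal_compl_eq_one_sub (hBm l)]; ring
    rw [h3, h2]
    have h4 : e / L.p ≤ 1 / 2 := by
      rw [div_le_iff₀ hp]; linarith
    linarith
  -- sum up
  have hren : ∀ l, P.real (A' l ∩ L.C l ∩ L.θ l ⁻¹' B l) = P.real (A' l ∩ L.C l) * P.real (B l) := by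
    intro l
    rw [measureReal_def, L.ren l _ _ (hA'F l) (hBm l), ENNReal.toReal_mul]
    rfl
  have hsum : ∑ l ∈ Finset.range (N + 1), P.real (A' l ∩ L.C l ∩ L.θ l ⁻¹' B l) ≤ e := by
    rw [← measureReal_biUnion_finset hdisj (fun l _ => ?_)]
    · refine le_trans (measureReal_mono ?_ (measure_ne_top _ _)) he
      exact iUnion₂_subset fun l hl => hsub l hl
    · exact ((L.F_le l _ (hA'F l)).inter (L.C_meas l)).inter (L.θ_meas l (hBm l))
  calc P.real {ω | ∃ l ≤ N, ω ∈ L.C l ∧ 2 * r < |L.U l ω i - c l|}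
      ≤ P.real (⋃ l ∈ Finset.range (N + 1), (A' l ∩ L.C l)) :=
        measureReal_mono hcov (measure_ne_top _ _)
    _ ≤ ∑ l ∈ Finset.range (N + 1), P.real (A' l ∩ L.C l) := measureReal_biUnion_finset_le _ _
    _ ≤ ∑ l ∈ Finset.range (N + 1), 2 * P.real (A' l ∩ L.C l ∩ L.θ l ⁻¹' B l) := by
        refine Finset.sum_le_sum fun l hl => ?_
        rw [hren l]
        have h1 := hBp l hl
        have h2 : 0 ≤ P.real (A' l ∩ L.C l) := measureReal_nonneg
        nlinarith
    _ = 2 * ∑ l ∈ Finset.range (N + 1), P.real (A' l ∩ L.C l ∩ L.θ l ⁻¹' B l) := by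
        rw [Finset.mul_sum]
    _ ≤ 2 * e := by linarith


end Crest.Agent.R154.HomeTail775
end

-- ▼ part R154/HomeLin_775
section

/-!
Row 154, HOME MASS (263 #36390), home tail with ONE LINEAR centre (431 #37341):
`P(∃ cut level l ≤ N, |U_l - α l| > 180 wl (n N)) ≤ ν` for one real `α` (helper775).
-/

set_option autoImplicit false
set_option linter.unusedSectionVars false
set_option linter.unusedVariables false

namespace Crest.Agent.R154.HomeLin775

open MeasureTheory Filter Set Crest.Agent.R154.B4 Crest.Agent.R154.MobW437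
open scoped ENNReal Topology

/-- quasi-additive functions on `[0,N]` are close to linear (431) -/
lemma shear {N : ℕ} (hN : 1 ≤ N) {g : ℕ → ℝ} {δ : ℝ}
    (hg : ∀ l m, l + m ≤ N → |g (l + m) - g l - g m| ≤ δ) :
    ∀ l ≤ N, |g l - (g N / N) * l| ≤ 3 * δ := by
  have hNr : (0 : ℝ) < N := by exact_mod_cast hN
  set α : ℝ := g N / N with hα
  set h : ℕ → ℝ := fun l => g l - α * l with hh
  have hδ : 0 ≤ δ := (abs_nonneg _).trans (hg 0 0 (by omega))
  have hadd : ∀ l m, l + m ≤ N → |h (l + m) - h l - h m| ≤ δ := by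
    intro l m hlm
    have e : h (l + m) - h l - h m = g (l + m) - g l - g m := by
      simp only [hh]; push_cast; ring
    rw [e]; exact hg l m hlm
  have hN0 : h N = 0 := by
    simp only [hh, hα]; field_simp; ring
  obtain ⟨k, hk, hmax⟩ := Finset.exists_max_image (Finset.range (N + 1)) (fun l => |h l|)
    ⟨0, by simp⟩
  have hkN : k ≤ N := by have := Finset.mem_range.1 hk; omega
  have hM : ∀ l ≤ N, |h l| ≤ |h k| := fun l hl => hmax l (Finset.mem_range.2 (by omega))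
  have hdouble : ∀ m, 2 * m ≤ N → 2 * |h m| ≤ |h k| + δ := by
    intro m hm
    have h1 := hadd m m (by omega)
    have h2 := hM (m + m) (by omega)
    have h3 : 2 * h m = h (m + m) - (h (m + m) - h m - h m) := by ring
    have h4 : |2 * h m| ≤ |h (m + m)| + |h (m + m) - h m - h m| := by
      rw [h3]; exact abs_sub _ _
    rw [abs_mul, abs_two] at h4
    linarith
  have hk3 : |h k| ≤ 3 * δ := by
    rcases Nat.lt_or_ge N (2 * k) with h2 | h2
    · have h3 := hadd k (N - k) (by omega)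
      rw [Nat.add_sub_cancel' hkN, hN0] at h3
      have h4 : h k = -h (N - k) - (0 - h k - h (N - k)) := by ring
      have h5 : |h k| ≤ |h (N - k)| + |0 - h k - h (N - k)| := by
        calc |h k| = |-h (N - k) - (0 - h k - h (N - k))| := by rw [← h4]
          _ ≤ |-h (N - k)| + |0 - h k - h (N - k)| := abs_sub _ _
          _ = _ := by rw [abs_neg]
      have h6 := hdouble (N - k) (by omega)
      linarith
    · have h3 := hdouble k h2
      linarith
  intro l hl
  exact (hM l hl).trans hk3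

variable {Ω : Type*} [mΩ : MeasurableSpace Ω] {P : Measure Ω}

/-- the centres of `ottaviani` are quasi-additive -/
lemma quasi_add [IsProbabilityMeasure P] (L : LP P) (i : Fin 2) {N : ℕ} {D e : ℝ} {c : ℕ → ℝ}
    (hc : P.real {ω | ∃ l ≤ N, ω ∈ L.C l ∧ D < |L.U l ω i - c l|} ≤ e)
    (hep : 3 * e < L.p ^ 2) (l m : ℕ) (hlm : l + m ≤ N) :
    |c (l + m) - c l - c m| ≤ 3 * D := by
  have hp := L.p_pos
  have hC : ∀ j, L.p ≤ P.real (L.C j) := by
    intro j
    have h1 : ENNReal.ofReal L.p ≤ P (L.C j) := by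
      have := L.cut j univ MeasurableSet.univ
      simpa using this
    exact (ENNReal.ofReal_le_iff_le_toReal (measure_ne_top _ _)).1 h1
  set Bd : ℕ → Set Ω := fun j => {ω | D < |L.U j ω i - c j|} with hBd
  have hBm : ∀ j, MeasurableSet (Bd j) := fun j =>
    measurableSet_lt measurable_const
      ((((measurable_pi_apply i).comp (meas_U L j)).sub_const (c j)).abs)
  have hBe : ∀ j, j ≤ N → P.real (L.C j ∩ Bd j) ≤ e := by
    intro j hj
    have hsub : L.C j ∩ Bd j ⊆ {ω | ∃ l ≤ N, ω ∈ L.C l ∧ D < |L.U l ω i - c l|} := by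
      intro ω hω
      exact ⟨j, hj, hω.1, hω.2⟩
    exact (measureReal_mono hsub (measure_ne_top _ _)).trans hc
  have hren : ∀ B, MeasurableSet B →
      P.real (L.C l ∩ L.θ l ⁻¹' B) = P.real (L.C l) * P.real B := by
    intro B hB
    have := L.ren l univ B MeasurableSet.univ hB
    rw [univ_inter] at this
    rw [measureReal_def, this, ENNReal.toReal_mul]
    rfl
  -- the three bad events
  have h1 : P.real (L.C l ∩ Bd l) ≤ e := hBe l (by omega)
  have h2 : P.real (L.C l ∩ L.θ l ⁻¹' (L.C m ∩ Bd m)) ≤ e := by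
    rw [hren _ ((L.C_meas m).inter (hBm m))]
    have h3 := hBe m (by omega)
    have h4 : P.real (L.C l) ≤ 1 := measureReal_le_one
    have h5 : 0 ≤ P.real (L.C m ∩ Bd m) := measureReal_nonneg
    nlinarith [measureReal_nonneg (μ := P) (s := L.C l)]
  have h3 : P.real (L.C (l + m) ∩ Bd (l + m)) ≤ e := hBe (l + m) hlm
  have h4 : L.p ^ 2 ≤ P.real (L.C l ∩ L.θ l ⁻¹' L.C m) := by
    rw [hren _ (L.C_meas m), sq]
    exact mul_le_mul (hC l) (hC m) hp.le measureReal_nonneg
  -- a good point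
  have h5 : ∃ ω, ω ∈ L.C l ∩ L.θ l ⁻¹' L.C m ∧
      ω ∉ (L.C l ∩ Bd l) ∪ (L.C l ∩ L.θ l ⁻¹' (L.C m ∩ Bd m)) ∪ (L.C (l + m) ∩ Bd (l + m)) := by
    by_contra hcon
    push Not at hcon
    have h6 : P.real (L.C l ∩ L.θ l ⁻¹' L.C m) ≤ e + e + e := by
      refine (measureReal_mono hcon (measure_ne_top _ _)).trans ?_
      refine (measureReal_union_le _ _).trans (add_le_add ?_ h3)
      exact (measureReal_union_le _ _).trans (add_le_add h1 h2)
    linarith
  obtain ⟨ω, ⟨hω1, hω2⟩, hω3⟩ := h5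
  simp only [mem_union, not_or] at hω3
  obtain ⟨⟨n1, n2⟩, n3⟩ := hω3
  have hω2' : L.θ l ω ∈ L.C m := hω2
  have b1 : |L.U l ω i - c l| ≤ D := by
    by_contra h; exact n1 ⟨hω1, not_le.1 h⟩
  have b2 : |L.U m (L.θ l ω) i - c m| ≤ D := by
    by_contra h; exact n2 ⟨hω1, hω2', not_le.1 h⟩
  have b3 : |L.U (l + m) ω i - c (l + m)| ≤ D := by
    by_contra h; exact n3 ⟨(L.C_add l m ω).2 hω2', not_le.1 h⟩
  have e1 : L.U (l + m) ω i = L.U l ω i + L.U m (L.θ l ω) i := by
    rw [L.U_add l m ω, Pi.add_apply]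
  have e2 : c (l + m) - c l - c m =
      (L.U l ω i - c l) + (L.U m (L.θ l ω) i - c m) - (L.U (l + m) ω i - c (l + m)) := by
    rw [e1]; ring
  rw [e2]
  calc |(L.U l ω i - c l) + (L.U m (L.θ l ω) i - c m) - (L.U (l + m) ω i - c (l + m))|
      ≤ |(L.U l ω i - c l) + (L.U m (L.θ l ω) i - c m)| + |L.U (l + m) ω i - c (l + m)| :=
        abs_sub _ _
    _ ≤ |L.U l ω i - c l| + |L.U m (L.θ l ω) i - c m| + |L.U (l + m) ω i - c (l + m)| := by
        gcongr; exact abs_add_le _ _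
    _ ≤ 3 * D := by linarith


end Crest.Agent.R154.HomeLin775
end

-- ▼ part R154/TailH_736
section

/-! Row 154, HOME doc (263), HM6a/HM6c: `TailH` on the kernel systems of the natural climbs. -/

set_option autoImplicit false
set_option linter.unusedSectionVars false
set_option linter.deprecated false

namespace Crest.Agent.R154.Home736

open MeasureTheory ProbabilityTheory Set Filter Crest.ProbabilityR.RandomEnvironment
open Crest.Agent.R154.Mk561 Crest.Agent.R154.Q561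
open Crest.Agent.R154.RatioR872 Crest.Agent.R154.RatioR872.KerSys Crest.Agent.R154.Bd736
open Crest.Agent.R154.Flux132 (lev lev_add lev_neg lev_zero)
open Crest.Agent.R154.Bind263 (Frame)
open Crest.Agent.R154.B4Inst797 (Nat0 natLaw lat lat_add UU lp)
open Crest.Agent.R154.MobW437 (wl)
open Crest.Agent.R154.D2Asm244 (kT)
open scoped ENNReal

variable {d : ℕ} {Q : Measure (Environment d)} [IsProbabilityMeasure Q] {κ : ℝ} {R : ℕ}

/-- the sheared lateral coordinate (431) -/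
def ph (u : Step d) (i1 i2 : Fin d) (i : Fin 2) (α : ℝ) (x : Site d) : ℝ :=
  lat i1 i2 x i - α * (lev u x : ℝ)

lemma ph_sub (u : Step d) (i1 i2 : Fin d) (i : Fin 2) (α : ℝ) (x y : Site d) :
    ph u i1 i2 i α y - ph u i1 i2 i α x = ph u i1 i2 i α (y - x) := by
  have h1 : lat i1 i2 y = lat i1 i2 (y - x) + lat i1 i2 x := by
    rw [← lat_add, sub_add_cancel]
  have h2 : lev u y = lev u (y - x) + lev u x := by rw [← lev_add, sub_add_cancel]
  unfold ph
  rw [h1, h2, Pi.add_apply]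
  push_cast
  ring

/-- home displacements -/
def HD (u : Step d) (i1 i2 : Fin d) (i : Fin 2) (α D : ℝ) : Set (Site d) :=
  {z | |ph u i1 i2 i α z| ≤ D}

/-- **TailH** from the tail of the level process -/
theorem tailH_of (F : Frame Q κ R) (u : Step d) (i1 i2 : Fin d) (i : Fin 2)
    (hc : mkAnn κ Q 0 (Nat0 u R) ≠ 0) (K : ℕ → ℕ → Site d → Site d → ℝ≥0∞) (hK) {α D : ℝ} {N : ℕ}
    {ν : ℝ≥0∞}
    (hbad : natLaw κ Q u R {s | ∃ l ≤ N, s ∈ B4Inst797.th u l ⁻¹' (Nat0 u R) ∧
      D < |UU u i1 i2 l s i - α * l|} ≤ ν) :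
    TailH (kerSys u R κ Q F.stat F.fin K hK) (ph u i1 i2 i α) N D ν := by
  classical
  intro a c hac hcN
  refine ⟨fun x ω => if lev u x = a then Bd u R κ (HD u i1 i2 i α D) c ω x else 0, fun x => ?_,
    fun x hx => ?_, fun b hab hbc => Eventually.of_forall fun ω x hx => ?_⟩
  · by_cases h : lev u x = a
    · simp only [h, if_true]
      refine measurable_coord (measurable_Bd u R κ _ c x) ?_
      refine (locOn_Bd u R κ _ c x).mono fun z hz => ?_
      have := hz.1
      rw [h] at this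
      exact this
    · simp only [h, if_false]
      exact @measurable_const _ _ _ (coordSigmaAlgebra _) _
  · have h : lev u x = a := hx
    simp only [h, if_true]
    refine (lint_Bd F u _ hc hac h).trans (le_trans (measure_mono ?_) hbad)
    refine (BadC_subset (R := R) u i1 i2 i (fun l => α * l) D (c - a)).trans ?_
    rintro s ⟨l, hl, h1, h2⟩
    exact ⟨l, by omega, h1, by simpa using h2⟩
  · have h : lev u x = a := hx
    simp only [h, if_true]
    refine le_trans (ENNReal.tsum_le_tsum fun y => ?_)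
      (le_Bd u R κ (HD u i1 i2 i α D) (b := b) (c := c) (by exact_mod_cast hbc) ω x)
    refine mul_le_mul' ?_ ?_
    · change (if |ph u i1 i2 i α y - ph u i1 i2 i α x| ≤ D then 0
        else (if lev u x = (a : ℤ) then gk u R κ b ω x y else 0)) ≤ _
      rw [ph_sub, if_pos h]
      exact le_of_eq rfl
    · unfold KerSys.N
      refine ENNReal.tsum_le_tsum fun z => ?_
      change (if lev u y = (b : ℤ) then gk u R κ c ω y z else 0) ≤ _
      split_ifs
      · exact le_rfl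
      · exact zero_le




end Crest.Agent.R154.Home736
end

-- ▼ part R154/TailPow_736

/-! Row 154, HOME doc (263), J4 and J5 of 199 #37787: home tails at two scales with ONE slope. -/

set_option autoImplicit false
set_option linter.unusedSectionVars false
set_option linter.deprecated false

namespace Crest.Agent.R154.Home736

open MeasureTheory ProbabilityTheory Set Filter Crest.ProbabilityR.RandomEnvironment
open Crest.Agent.R154.Mk561 Crest.Agent.R154.Q561
open Crest.Agent.R154.RatioR872 Crest.Agent.R154.RatioR872.KerSys Crest.Agent.R154.Bd736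
open Crest.Agent.R154.Flux132 (lev lev_add lev_neg lev_zero)
open Crest.Agent.R154.Bind263 (Frame)
open Crest.Agent.R154.B4Inst797 (Nat0 natLaw lat lat_add UU lp)
open Crest.Agent.R154.MobW437 (wl meas_U)
open Crest.Agent.R154.D2Asm244 (kT)
open Crest.Agent.R154.B4 (LP)
open scoped ENNReal

section level

variable {Ω : Type*} [mΩ : MeasurableSpace Ω] {P : Measure Ω}

/-- (J4) home tail for every multiple `n ≥ n0` -/
theorem home_tail_all [IsProbabilityMeasure P] (L : LP P) (i : Fin 2) {ν : ℝ} (hν : 0 < ν) :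
    ∃ n0 : ℕ, ∀ n, n0 ≤ n → ∃ l0 : ℕ, ∀ N, l0 ≤ N → ∃ c : ℕ → ℝ,
      P.real {ω | ∃ l ≤ N, ω ∈ L.C l ∧ 18 * wl L i (n * N) < |L.U l ω i - c l|} ≤ ν := by
  have hp := L.p_pos
  obtain ⟨n0, hn0⟩ := exists_nat_gt (12 / (100 * min L.p ν))
  refine ⟨max n0 3, fun n hn => ?_⟩
  have hmin : 0 < min L.p ν := lt_min hp hν
  have hn3 : 3 ≤ n := (le_max_right _ _).trans hn
  have hnr : (0 : ℝ) < n := by exact_mod_cast (by omega : 0 < n)
  have hn1 : 12 / (100 * min L.p ν) ≤ n :=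
    hn0.le.trans (by exact_mod_cast (le_max_left _ _).trans hn)
  have h12 : 2 * (6 / (100 * (n : ℝ))) ≤ min L.p ν := by
    rw [div_le_iff₀ (by positivity)] at hn1
    rw [show 2 * (6 / (100 * (n : ℝ))) = 12 / (100 * n) by ring, div_le_iff₀ (by positivity)]
    linarith
  obtain ⟨l0, hl0⟩ := MobW437.mob L i n
  refine ⟨l0, fun N hN => ?_⟩
  obtain ⟨-, -, c1, c2, a, -, -, -, -, -, -, htail⟩ := hl0 N hN
  have h1 := htail n hn3 le_rfl
  obtain ⟨c, hc⟩ := HomeTail775.ottaviani L i (N := N) (cN := c1) (r := 9 * wl L i (n * N))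
    (e := 6 / (100 * n)) h1 (h12.trans (min_le_left _ _))
  refine ⟨c, ?_⟩
  have e1 : (2 : ℝ) * (9 * wl L i (n * N)) = 18 * wl L i (n * N) := by ring
  rw [e1] at hc
  exact hc.trans (h12.trans (min_le_right _ _))

/-- (J4) home tail with one linear centre for every multiple `n ≥ n0` -/
theorem home_lin_all [IsProbabilityMeasure P] (L : LP P) (i : Fin 2) {ν : ℝ} (hν : 0 < ν) :
    ∃ n0 : ℕ, ∀ n, n0 ≤ n → ∃ l0 : ℕ, ∀ N, l0 ≤ N → ∃ α : ℝ,
      P.real {ω | ∃ l ≤ N, ω ∈ L.C l ∧ 180 * wl L i (n * N) < |L.U l ω i - α * l|} ≤ ν := by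
  have hp := L.p_pos
  set ν' : ℝ := min ν (L.p ^ 2 / 4) with hν'
  have hν'0 : 0 < ν' := lt_min hν (by positivity)
  obtain ⟨n0, h0⟩ := home_tail_all L i hν'0
  refine ⟨n0, fun n hn => ?_⟩
  obtain ⟨l0, hl0⟩ := h0 n hn
  refine ⟨max l0 1, fun N hN => ?_⟩
  obtain ⟨c, hc⟩ := hl0 N ((le_max_left _ _).trans hN)
  have hN1 : 1 ≤ N := (le_max_right _ _).trans hN
  have hep : 3 * ν' < L.p ^ 2 := by
    have h1 : ν' ≤ L.p ^ 2 / 4 := min_le_right _ _
    have h2 : 0 < L.p ^ 2 := by positivity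
    linarith
  have hq := HomeLin775.quasi_add L i hc hep
  have hs := HomeLin775.shear hN1 hq
  refine ⟨c N / N, le_trans (measureReal_mono ?_ (measure_ne_top _ _)) (hc.trans (min_le_left _ _))⟩
  rintro ω ⟨l, hl, hCl, hlt⟩
  refine ⟨l, hl, hCl, ?_⟩
  have h1 := hs l hl
  have h2 : L.U l ω i - c N / N * l = (L.U l ω i - c l) + (c l - c N / N * l) := by ring
  rw [h2] at hlt
  have h3 := abs_add_le (L.U l ω i - c l) (c l - c N / N * l)
  linarith

/-- (J5) the slope of the long window serves the short window -/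
theorem shear_two [IsProbabilityMeasure P] (L : LP P) (i : Fin 2) {N z : ℕ} (hzN : z ≤ N)
    {α α' D D' ν ν' : ℝ}
    (h : P.real {ω | ∃ l ≤ N, ω ∈ L.C l ∧ D < |L.U l ω i - α * l|} ≤ ν)
    (h' : P.real {ω | ∃ l ≤ z, ω ∈ L.C l ∧ D' < |L.U l ω i - α' * l|} ≤ ν')
    (hp : ν + ν' < L.p) :
    P.real {ω | ∃ l ≤ z, ω ∈ L.C l ∧ D + 2 * D' < |L.U l ω i - α * l|} ≤ ν' := by
  have hC : L.p ≤ P.real (L.C z) := by
    have h1 : ENNReal.ofReal L.p ≤ P (L.C z) := by
      have := L.cut z univ MeasurableSet.univ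
      simpa using this
    exact (ENNReal.ofReal_le_iff_le_toReal (measure_ne_top _ _)).1 h1
  -- a good point
  obtain ⟨ω, hω, h1, h2⟩ : ∃ ω, ω ∈ L.C z ∧ |L.U z ω i - α * z| ≤ D ∧
      |L.U z ω i - α' * z| ≤ D' := by
    by_contra hcon
    push Not at hcon
    have hsub : L.C z ⊆ {ω | ∃ l ≤ N, ω ∈ L.C l ∧ D < |L.U l ω i - α * l|} ∪
        {ω | ∃ l ≤ z, ω ∈ L.C l ∧ D' < |L.U l ω i - α' * l|} := by
      intro ω hω
      by_cases h1 : |L.U z ω i - α * z| ≤ D
      · exact Or.inr ⟨z, le_rfl, hω, hcon ω hω h1⟩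
      · exact Or.inl ⟨z, hzN, hω, not_le.1 h1⟩
    have h3 := (measureReal_mono hsub (measure_ne_top P _)).trans (measureReal_union_le _ _)
    linarith
  have hz : |α - α'| * z ≤ D + D' := by
    have e : (α - α') * z = (L.U z ω i - α' * z) - (L.U z ω i - α * z) := by ring
    have h3 : |(α - α') * z| ≤ D' + D := by
      rw [e]; exact (abs_sub _ _).trans (add_le_add h2 h1)
    rw [abs_mul, abs_of_nonneg (Nat.cast_nonneg z : (0 : ℝ) ≤ z)] at h3
    linarith
  refine le_trans (measureReal_mono ?_ (measure_ne_top _ _)) h'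
  rintro ω' ⟨l, hl, hCl, hlt⟩
  refine ⟨l, hl, hCl, ?_⟩
  have hlz : |α - α'| * l ≤ |α - α'| * z := by
    gcongr
  have e : L.U l ω' i - α * l = (L.U l ω' i - α' * l) - (α - α') * l := by ring
  have h3 : |L.U l ω' i - α * l| ≤ |L.U l ω' i - α' * l| + |(α - α') * l| := by
    rw [e]; exact abs_sub _ _
  rw [abs_mul, abs_of_nonneg (Nat.cast_nonneg l : (0 : ℝ) ≤ l)] at h3
  linarith

/-- (J4 + J5), level process form -/
theorem home_pow [IsProbabilityMeasure P] (L : LP P) (i : Fin 2) {ν : ℝ} (hν : 0 < ν) :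
    ∃ a0 : ℕ, ∀ a, a0 ≤ a → ∃ α : ℕ → ℝ, (∃ n0 : ℕ, ∀ n, n0 ≤ n →
        P.real {ω | ∃ l ≤ 2 ^ (n - a), ω ∈ L.C l ∧
          180 * wl L i (2 ^ n) < |L.U l ω i - α n * l|} ≤ ν) ∧
      ∀ ν' : ℝ, 0 < ν' → ∃ b0 : ℕ, ∀ b, b0 ≤ b → ∃ n1 : ℕ, ∀ n, n1 ≤ n →
        P.real {ω | ∃ l ≤ 2 ^ (n - b), ω ∈ L.C l ∧
          540 * wl L i (2 ^ n) < |L.U l ω i - α n * l|} ≤ ν' := by
  have hp := L.p_pos
  have hν0 : 0 < min ν (L.p / 4) := lt_min hν (by positivity)
  obtain ⟨m0, h0⟩ := home_lin_all L i hν0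
  obtain ⟨a0, ha0⟩ : ∃ a0 : ℕ, m0 ≤ 2 ^ a0 := ⟨m0, Nat.lt_two_pow_self.le⟩
  refine ⟨a0, fun a ha => ?_⟩
  obtain ⟨l0, hl0⟩ := h0 (2 ^ a) (ha0.trans (Nat.pow_le_pow_right (by norm_num) ha))
  obtain ⟨q, hq⟩ : ∃ q : ℕ, l0 ≤ 2 ^ q := ⟨l0, Nat.lt_two_pow_self.le⟩
  have hmain : ∀ n, a + q ≤ n → ∃ α : ℝ,
      P.real {ω | ∃ l ≤ 2 ^ (n - a), ω ∈ L.C l ∧
          180 * wl L i (2 ^ n) < |L.U l ω i - α * l|} ≤ min ν (L.p / 4) := by
    intro n hn
    obtain ⟨α, hα⟩ := hl0 (2 ^ (n - a)) (hq.trans (Nat.pow_le_pow_right (by norm_num) (by omega)))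
    have e : 2 ^ a * 2 ^ (n - a) = 2 ^ n := by
      rw [← pow_add]; congr 1; omega
    rw [e] at hα
    exact ⟨α, hα⟩
  classical
  set α : ℕ → ℝ := fun n => if h : a + q ≤ n then Classical.choose (hmain n h) else 0 with hαdef
  have hα : ∀ n, a + q ≤ n → P.real {ω | ∃ l ≤ 2 ^ (n - a), ω ∈ L.C l ∧
          180 * wl L i (2 ^ n) < |L.U l ω i - α n * l|} ≤ min ν (L.p / 4) := by
    intro n hn
    have := Classical.choose_spec (hmain n hn)
    simp only [hαdef, dif_pos hn]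
    exact this
  refine ⟨α, ⟨a + q, fun n hn => (hα n hn).trans (min_le_left _ _)⟩, fun ν' hν' => ?_⟩
  have hν'0 : 0 < min ν' (L.p / 4) := lt_min hν' (by positivity)
  obtain ⟨m1, h1⟩ := home_lin_all L i hν'0
  obtain ⟨b0, hb0⟩ : ∃ b0 : ℕ, m1 ≤ 2 ^ b0 := ⟨m1, Nat.lt_two_pow_self.le⟩
  refine ⟨max a b0, fun b hb => ?_⟩
  obtain ⟨l1, hl1⟩ := h1 (2 ^ b)
    (hb0.trans (Nat.pow_le_pow_right (by norm_num) ((le_max_right _ _).trans hb)))
  obtain ⟨q1, hq1⟩ : ∃ q : ℕ, l1 ≤ 2 ^ q := ⟨l1, Nat.lt_two_pow_self.le⟩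
  refine ⟨max (a + q) (b + q1), fun n hn => ?_⟩
  have hn1 : a + q ≤ n := (le_max_left _ _).trans hn
  have hn2 : b + q1 ≤ n := (le_max_right _ _).trans hn
  obtain ⟨α', hα'⟩ := hl1 (2 ^ (n - b)) (hq1.trans (Nat.pow_le_pow_right (by norm_num) (by omega)))
  have e : 2 ^ b * 2 ^ (n - b) = 2 ^ n := by
    rw [← pow_add]; congr 1; omega
  rw [e] at hα'
  have hab : a ≤ b := (le_max_left _ _).trans hb
  have h2 := shear_two L i (N := 2 ^ (n - a)) (z := 2 ^ (n - b))
    (Nat.pow_le_pow_right (by norm_num) (by omega)) (hα n hn1) hα' (by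
      have h3 : min ν (L.p / 4) ≤ L.p / 4 := min_le_right _ _
      have h4 : min ν' (L.p / 4) ≤ L.p / 4 := min_le_right _ _
      linarith)
  have e2 : 180 * wl L i (2 ^ n) + 2 * (180 * wl L i (2 ^ n)) = 540 * wl L i (2 ^ n) := by ring
  rw [e2] at h2
  exact h2.trans (min_le_left _ _)

end level

variable {d : ℕ} {Q : Measure (Environment d)} [IsProbabilityMeasure Q] {κ : ℝ} {R : ℕ}

/-- `TailH` from a real tail on `lp` -/
lemma tailH_real (F : Frame Q κ R) (u : Step d) {i1 i2 : Fin d} (h1 : i1 ≠ u.1)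
    (h2 : i2 ≠ u.1) (h12 : i1 ≠ i2) (hc : mkAnn κ Q 0 (Nat0 u R) ≠ 0) (i : Fin 2)
    (K : ℕ → ℕ → Site d → Site d → ℝ≥0∞) (hK) {ν α D : ℝ} {N : ℕ}
    (h : (natLaw κ Q u R).real {ω | ∃ l ≤ N, ω ∈ (lp F u h1 h2 h12 hc).C l ∧
        D < |(lp F u h1 h2 h12 hc).U l ω i - α * l|} ≤ ν) :
    TailH (kerSys u R κ Q F.stat F.fin K hK) (ph u i1 i2 i α) N D (ENNReal.ofReal ν) := by
  have := B4Inst797.natLaw_isProb (κ := κ) (Q := Q) (R := R) (u := u) hc
  refine tailH_of F u i1 i2 i hc K hK ?_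
  have e : natLaw κ Q u R {s | ∃ l ≤ N, s ∈ B4Inst797.th u l ⁻¹' (Nat0 u R) ∧
      D < |UU u i1 i2 l s i - α * l|}
      = ENNReal.ofReal ((natLaw κ Q u R).real {ω | ∃ l ≤ N, ω ∈ (lp F u h1 h2 h12 hc).C l ∧
        D < |(lp F u h1 h2 h12 hc).U l ω i - α * l|}) := by
    rw [Measure.real, ENNReal.ofReal_toReal (measure_ne_top _ _)]
    rfl
  rw [e]
  exact ENNReal.ofReal_le_ofReal h

/-- **(J4 + J5)**: home tails of the epoch scale `2^(n-a)` and of the diversification scale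
`2^(n-b)` with the same slope -/
theorem tail_pow (F : Frame Q κ R) (u : Step d) {i1 i2 : Fin d} (h1 : i1 ≠ u.1)
    (h2 : i2 ≠ u.1) (h12 : i1 ≠ i2) (hc : mkAnn κ Q 0 (Nat0 u R) ≠ 0) (i : Fin 2)
    (K : ℕ → ℕ → Site d → Site d → ℝ≥0∞) (hK) {ν : ℝ} (hν : 0 < ν) :
    ∃ a0 : ℕ, ∀ a, a0 ≤ a → ∃ α : ℕ → ℝ, (∃ n0 : ℕ, ∀ n, n0 ≤ n →
        TailH (kerSys u R κ Q F.stat F.fin K hK) (ph u i1 i2 i (α n)) (2 ^ (n - a))
          (180 * wl (lp F u h1 h2 h12 hc) i (2 ^ n)) (ENNReal.ofReal ν)) ∧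
      ∀ ν' : ℝ, 0 < ν' → ∃ b0 : ℕ, ∀ b, b0 ≤ b → ∃ n1 : ℕ, ∀ n, n1 ≤ n →
        TailH (kerSys u R κ Q F.stat F.fin K hK) (ph u i1 i2 i (α n)) (2 ^ (n - b))
          (540 * wl (lp F u h1 h2 h12 hc) i (2 ^ n)) (ENNReal.ofReal ν') := by
  have := B4Inst797.natLaw_isProb (κ := κ) (Q := Q) (R := R) (u := u) hc
  obtain ⟨a0, h⟩ := home_pow (lp F u h1 h2 h12 hc) i hν
  refine ⟨a0, fun a ha => ?_⟩
  obtain ⟨α, ⟨n0, h3⟩, h4⟩ := h a ha
  refine ⟨α, ⟨n0, fun n hn => tailH_real F u h1 h2 h12 hc i K hK (h3 n hn)⟩, fun ν' hν' => ?_⟩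
  obtain ⟨b0, h5⟩ := h4 ν' hν'
  refine ⟨b0, fun b hb => ?_⟩
  obtain ⟨n1, h6⟩ := h5 b hb
  exact ⟨n1, fun n hn => tailH_real F u h1 h2 h12 hc i K hK (h6 n hn)⟩

/-- `tail_pow` on `kT` -/
theorem tail_pow_kT (F : Frame Q κ R) (u : Step d) {i1 i2 : Fin d} (h1 : i1 ≠ u.1)
    (h2 : i2 ≠ u.1) (h12 : i1 ≠ i2) (hc : mkAnn κ Q 0 (Nat0 u R) ≠ 0) (i : Fin 2)
    {ν : ℝ} (hν : 0 < ν) :
    ∃ a0 : ℕ, ∀ a, a0 ≤ a → ∃ α : ℕ → ℝ, (∃ n0 : ℕ, ∀ n, n0 ≤ n →
        TailH (kT u R κ Q F.stat F.fin) (ph u i1 i2 i (α n)) (2 ^ (n - a))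
          (180 * wl (lp F u h1 h2 h12 hc) i (2 ^ n)) (ENNReal.ofReal ν)) ∧
      ∀ ν' : ℝ, 0 < ν' → ∃ b0 : ℕ, ∀ b, b0 ≤ b → ∃ n1 : ℕ, ∀ n, n1 ≤ n →
        TailH (kT u R κ Q F.stat F.fin) (ph u i1 i2 i (α n)) (2 ^ (n - b))
          (540 * wl (lp F u h1 h2 h12 hc) i (2 ^ n)) (ENNReal.ofReal ν') :=
  tail_pow F u h1 h2 h12 hc i _ _ hν

end Crest.Agent.R154.Home736
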