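import Crest.Agent.R154.MobL_437
import Crest.Agent.R154.KerPair_872
import Crest.Agent.R154.TailPow_736
import Crest.Agent.R154.HomeDoc_74
import Crest.Agent.R154.Home_903
import Crest.Agent.R154.Rate_582
import Crest.Agent.R154.RateT_582
import Crest.Agent.R154.SE_424

-- ▼ part R154/Jump_719
section

/-!
# Row 154, HM6: an irregular octave gives a jump, around every centre

`spread`: `P(|U l i - c| > wl l / 20) ≥ 1/800` for every `c`.
`jump_Sl`: `Sl > A₀` ⇒ jump over `128 l` levels of size `2 ^ A₀ * wl l / 3600`.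
`jump_wl`: `wl (M l) > B wl l` ⇒ jump over `M l` levels of size `B * wl l / 20`.
`move`: upper quantile over `l` levels: `P(|U l i - c₁| > 9 wl (m l)) ≤ 6 / (100 m)`.
`one_side` : one side of the centre has half of the mass of the jump.
-/

set_option autoImplicit false
set_option linter.unusedSectionVars false
set_option linter.unusedVariables false

namespace Crest.Agent.R154.Jump719

open MeasureTheory Filter Set Crest.Agent.R154.B4 Crest.Agent.R154.MobW437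
open scoped ENNReal Topology ComplexConjugate

variable {Ω : Type*} [mΩ : MeasurableSpace Ω] {P : Measure Ω} [IsProbabilityMeasure P]

/-- **spread of one level** around every centre -/
theorem spread (L : LP P) (i : Fin 2) : ∃ l0, ∀ l, l0 ≤ l → ∀ c : ℝ,
    1 / 800 ≤ P.real {ω | wl L i l / 20 < |L.U l ω i - c|} := by
  obtain ⟨l0, h0⟩ := tl_small L i (δ := 1) (by norm_num) le_rfl
  refine ⟨l0, fun l hl c => ?_⟩
  have hedge := edge_eq L i l (h0 l hl)
  have h1 := spread_Z (P := P) (meas_U L l) i (tl_pos L i l) hedge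
  have e : 2 * (wl L i l / 20) = 1 / tl L i l / 10 := by unfold wl; ring
  have h2 := spread_point (P := P) (meas_U L l) i (wl L i l / 20) (ε := 1 / 400)
    (by rw [e]; exact h1) c
  calc (1 / 800 : ℝ) = 1 / 400 / 2 := by norm_num
    _ ≤ _ := h2

/-- `Sl > A₀` ⇒ jump over `128 l` levels -/
theorem jump_Sl (L : LP P) (i : Fin 2) : ∃ l0, ∀ l, l0 ≤ l → ∀ A₀ : ℕ, A₀ < Sl L i l → ∀ c : ℝ,
    1 / 800 ≤ P.real {ω | 2 ^ A₀ / 3600 * wl L i l < |L.U (128 * l) ω i - c|} := by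
  obtain ⟨l0, h0⟩ := spread L i
  refine ⟨l0, fun l hl A₀ hA c => ?_⟩
  have hw := wl_pos L i l
  have hw' := wl_pos L i (128 * l)
  have hR : (0 : ℝ) < 180 * (wl L i (128 * l) / wl L i l) := by positivity
  have h1 : (A₀ : ℝ) < Real.logb 2 (180 * (wl L i (128 * l) / wl L i l)) := by
    unfold Sl at hA
    exact Nat.lt_ceil.1 hA
  have h2 : (2 : ℝ) ^ A₀ < 180 * (wl L i (128 * l) / wl L i l) := by
    rw [Real.lt_logb_iff_rpow_lt (by norm_num) hR, Real.rpow_natCast] at h1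
    exact h1
  have h3 : 2 ^ A₀ / 3600 * wl L i l ≤ wl L i (128 * l) / 20 := by
    have h4 : (2 : ℝ) ^ A₀ * wl L i l < 180 * wl L i (128 * l) := by
      have h5 := mul_lt_mul_of_pos_right h2 hw
      have e : 180 * (wl L i (128 * l) / wl L i l) * wl L i l = 180 * wl L i (128 * l) := by
        field_simp
      rw [e] at h5
      exact h5
    linarith
  refine (h0 (128 * l) (by omega) c).trans (measureReal_mono ?_ (measure_ne_top _ _))
  intro ω hω
  exact lt_of_le_of_lt h3 hω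

/-- fast growth ⇒ jump over `M l` levels -/
theorem jump_wl (L : LP P) (i : Fin 2) : ∃ l0, ∀ l, l0 ≤ l → ∀ (M : ℕ) (B : ℝ), 1 ≤ M →
    B * wl L i l < wl L i (M * l) → ∀ c : ℝ,
    1 / 800 ≤ P.real {ω | B / 20 * wl L i l < |L.U (M * l) ω i - c|} := by
  obtain ⟨l0, h0⟩ := spread L i
  refine ⟨l0, fun l hl M B hM hB c => ?_⟩
  refine (h0 (M * l) (hl.trans (Nat.le_mul_of_pos_left l hM)) c).trans
    (measureReal_mono ?_ (measure_ne_top _ _))
  intro ω hω
  have hω' : wl L i (M * l) / 20 < |L.U (M * l) ω i - c| := hω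
  show B / 20 * wl L i l < |L.U (M * l) ω i - c|
  linarith

/-- **HM6**: a non-regular octave gives a jump (`128 l` or `M l` levels) around every centre. -/
theorem jump_of_irr (L : LP P) (i : Fin 2) : ∃ l0, ∀ l, l0 ≤ l → ∀ (A₀ M : ℕ) (B : ℝ), 1 ≤ M →
    ¬ (Sl L i l ≤ A₀ ∧ wl L i (M * l) ≤ B * wl L i l) →
    (∀ c : ℝ, 1 / 800 ≤ P.real {ω | 2 ^ A₀ / 3600 * wl L i l < |L.U (128 * l) ω i - c|}) ∨
    (∀ c : ℝ, 1 / 800 ≤ P.real {ω | B / 20 * wl L i l < |L.U (M * l) ω i - c|}) := by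
  obtain ⟨l1, h1⟩ := jump_Sl L i
  obtain ⟨l2, h2⟩ := jump_wl L i
  refine ⟨max l1 l2, fun l hl A₀ M B hM h => ?_⟩
  by_cases hS : Sl L i l ≤ A₀
  · right
    have hB : B * wl L i l < wl L i (M * l) := by
      by_contra hcon
      exact h ⟨hS, not_lt.1 hcon⟩
    exact h2 l ((le_max_right _ _).trans hl) M B hM hB
  · left
    exact h1 l ((le_max_left _ _).trans hl) A₀ (not_le.1 hS)

/-- one of the two sides has half of the mass -/
theorem one_side {Δ : Ω → V} (hΔ : Measurable Δ) (i : Fin 2) {r c π : ℝ}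
    (h : π ≤ P.real {ω | r < |Δ ω i - c|}) :
    π / 2 ≤ P.real {ω | c + r < Δ ω i} ∨ π / 2 ≤ P.real {ω | Δ ω i < c - r} := by
  by_contra hcon
  push Not at hcon
  have hsub : {ω | r < |Δ ω i - c|} ⊆ {ω | c + r < Δ ω i} ∪ {ω | Δ ω i < c - r} := by
    intro ω hω
    rcases lt_abs.1 (show r < |Δ ω i - c| from hω) with h1 | h1
    · exact Or.inl (by show c + r < Δ ω i; linarith)
    · exact Or.inr (by show Δ ω i < c - r; linarith)
  have h1 := (measureReal_mono hsub (measure_ne_top _ _)).trans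
    (measureReal_union_le (μ := P) _ _)
  linarith [hcon.1, hcon.2]



end Crest.Agent.R154.Jump719
end

-- ▼ part R154/JumpK_618
section

/-! Row 154, d >= 3, home-mass route (263 #36390), HM4, kernel side (helper618): natural climbs
marked by their exit displacement; first moment (translation invariance) and second moment (same
environment = independent environments before the first contact); robust jump on a `KerSys`. -/

set_option autoImplicit false
set_option linter.unusedSectionVars false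
set_option linter.deprecated false

namespace Crest.Agent.R154.JumpK618

open MeasureTheory ProbabilityTheory Set Filter Crest.ProbabilityR.RandomEnvironment
open Crest.Agent.R154.Mk561 Crest.Agent.R154.Q561
open Crest.Agent.R154.Flux132 (lev)
open Crest.Agent.R154.B6I (Hit bf Alv Eqv Nt zt SP PP Om NoC tip th Al Dt PSm PIm ct)
open Crest.Agent.R154.RatioR872
open scoped ENNReal

variable {d : ℕ}

/-! ### the marked climbs -/

/-- natural climb from `x` to level `b` with exit displacement in `D` -/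
def ClD (u : Step d) (R : ℕ) (D : Set (Site d)) (x : Site d) (b : ℤ) : Set (MPath d) :=
  {M | ∃ m, M ∈ ClM u R x b m ∧ pos x M m - x ∈ D}

section sets

variable (u : Step d) (R : ℕ)

lemma ClD_sub (D : Set (Site d)) (x : Site d) (b : ℤ) : ClD u R D x b ⊆ ClA u R x b := by
  rintro M ⟨m, hm, _⟩
  exact mem_iUnion.2 ⟨m, hm⟩

lemma ClD_eq (D : Set (Site d)) (x : Site d) (b : ℤ) :
    ClD u R D x b = ⋃ y, (open Classical in if y - x ∈ D then Cl u R x b y else ∅) := by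
  ext M
  simp only [ClD, mem_setOf_eq, mem_iUnion]
  constructor
  · rintro ⟨m, hm, hD⟩
    refine ⟨pos x M m, ?_⟩
    rw [if_pos hD]
    exact mem_iUnion.2 ⟨m, hm, rfl⟩
  · rintro ⟨y, hy⟩
    by_cases h : y - x ∈ D
    · rw [if_pos h] at hy
      obtain ⟨m, hm, hmy⟩ := mem_iUnion.1 hy
      refine ⟨m, hm, ?_⟩
      rw [hmy]; exact h
    · rw [if_neg h] at hy
      exact absurd hy (notMem_empty _)

lemma meas_ClD (D : Set (Site d)) (x : Site d) (b : ℤ) : MeasurableSet (ClD u R D x b) := by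
  rw [ClD_eq]
  refine MeasurableSet.iUnion fun y => ?_
  split_ifs
  · exact meas_Cl u R x b y
  · exact MeasurableSet.empty

lemma ClD_shift (D : Set (Site d)) (x z : Site d) (b : ℤ) :
    ClD u R D (x + z) (b + lev u z) = ClD u R D x b := by
  ext M
  simp only [ClD, mem_setOf_eq, ClM_shift]
  refine exists_congr fun m => and_congr Iff.rfl ?_
  have : pos (x + z) M m - (x + z) = pos x M m - x := by
    rw [pos_add]; abel
  rw [this]

end sets

section kernel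

variable (u : Step d) (R : ℕ) (κ : ℝ)

/-- quenched mass, from `x`, of the natural climb to level `b` with exit displacement in `D` -/
noncomputable def Nd (D : Set (Site d)) (b : ℤ) (ω : Environment d) (x : Site d) : ℝ≥0∞ :=
  open Classical in ∑' y, if y - x ∈ D then gk u R κ b ω x y else 0

lemma Nd_eq (D : Set (Site d)) (b : ℤ) (ω : Environment d) (x : Site d) :
    Nd u R κ D b ω x = mkLaw κ ω x (ClD u R D x b) := by
  classical
  rw [ClD_eq, measure_iUnion]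
  · unfold Nd
    refine tsum_congr fun y => ?_
    split_ifs
    · rfl
    · simp
  · intro y y' hne
    have h := disj_Cl u R x b hne
    rw [Function.onFun] at h ⊢
    split_ifs
    · exact h
    · exact disjoint_bot_right
    · exact disjoint_bot_left
    · exact disjoint_bot_left
  · intro y
    split_ifs
    · exact meas_Cl u R x b y
    · exact MeasurableSet.empty







variable (Q : Measure (Environment d)) [IsProbabilityMeasure Q]

/-- annealed probability of the natural climb of height `n` with exit displacement in `D` -/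
noncomputable def hD (D : Set (Site d)) (n : ℕ) : ℝ≥0∞ := mkAnn κ Q 0 (ClD u R D 0 n)



lemma ann_ClD (hstat : ∀ z : Site d, MeasurePreserving (shiftEnv z) Q Q) (D : Set (Site d))
    {a b : ℕ} (hab : a ≤ b) {x : Site d} (hx : lev u x = a) :
    mkAnn κ Q x (ClD u R D x b) = hD u R κ Q D (b - a) := by
  rw [mkAnn_stat hstat κ x, hD]
  congr 1
  have h2 := ClD_shift u R D 0 x ((b - a : ℕ) : ℤ)
  rw [zero_add, hx] at h2
  rw [← h2]
  congr 1
  push_cast [Nat.cast_sub hab]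
  ring

/-- **first moment** -/
lemma first_mark (hstat : ∀ z : Site d, MeasurePreserving (shiftEnv z) Q Q) (D : Set (Site d))
    {a b : ℕ} (hab : a ≤ b) {x : Site d} (hx : lev u x = a) :
    ∫⁻ ω, Nd u R κ D b ω x ∂Q = hD u R κ Q D (b - a) := by
  simp_rw [Nd_eq]
  rw [← mkAnn_apply κ Q x (meas_ClD u R D x b), ann_ClD u R κ Q hstat D hab hx]

lemma mem_ClD_iff (D : Set (Site d)) {x : Site d} {n : ℕ} {M : MPath d} :
    M ∈ ClD u R D x (lev u x + n) ↔ ∃ m, (Hit u n M m ∧ Nt u R 0 n M) ∧ pos x M m - x ∈ D := by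
  simp only [ClD, mem_setOf_eq, mem_ClM_iff]

lemma dt_ClD (D D' : Set (Site d)) {x x' : Site d} {n : ℕ} :
    Dt u n (ClD u R D x (lev u x + n) ×ˢ ClD u R D' x' (lev u x' + n) : Set (PP d)) := by
  rintro p q h1 h2 ⟨hp1, hp2⟩
  rw [mem_ClD_iff] at hp1 hp2
  obtain ⟨m, ⟨a1, a2⟩, a3⟩ := hp1
  obtain ⟨m', ⟨b1, b2⟩, b3⟩ := hp2
  refine ⟨?_, ?_⟩
  · rw [mem_ClD_iff]
    refine ⟨m, ⟨h1.hit a1, h1.nt (Nat.zero_le n) a2⟩, ?_⟩
    rw [← pos_congr x (h1.agree a1) le_rfl]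
    exact a3
  · rw [mem_ClD_iff]
    refine ⟨m', ⟨h2.hit b1, h2.nt (Nat.zero_le n) b2⟩, ?_⟩
    rw [← pos_congr x' (h2.agree b1) le_rfl]
    exact b3

/-- **second moment of the marked climbs** -/
lemma second_mark (hstat : ∀ z : Site d, MeasurePreserving (shiftEnv z) Q Q)
    (hR : IsFiniteRangeDependent Q R) (D D' : Set (Site d)) (a b : ℕ) (x x' : Site d)
    (hab : a ≤ b) (hx : lev u x = a) (hx' : lev u x' = a) :
    ∫⁻ ω, Nd u R κ D b ω x * Nd u R κ D' b ω x' ∂Q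
      ≤ hD u R κ Q D (b - a) * hD u R κ Q D' (b - a) + Kc u R κ Q a b x x' := by
  classical
  have hs : lev u x = lev u x' := hx.trans hx'.symm
  set s : SP u := ⟨(x, x'), hs⟩ with hsd
  set n := b - a with hn'
  have hbx : (b : ℤ) = lev u x + n := by rw [hx, hn']; push_cast [Nat.cast_sub hab]; ring
  have hbx' : (b : ℤ) = lev u x' + n := by rw [hx', hn']; push_cast [Nat.cast_sub hab]; ring
  set E : Set (PP d) := ClD u R D x b ×ˢ ClD u R D' x' b with hE
  have hDt : Dt u n E := by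
    have h0 := dt_ClD u R D D' (x := x) (x' := x') (n := n)
    rw [← hbx, ← hbx'] at h0
    exact h0
  have hEb : E ⊆ both u R n := by
    rintro p ⟨h1, h2⟩
    have g1 := ClD_sub u R D x b h1
    have g2 := ClD_sub u R D' x' b h2
    rw [ClA_eq' u R hx hab] at g1
    rw [ClA_eq' u R hx' hab] at g2
    exact ⟨g1, g2⟩
  simp_rw [Nd_eq]
  have e1 : ∫⁻ ω, mkLaw κ ω x (ClD u R D x b) * mkLaw κ ω x' (ClD u R D' x' b) ∂Q
      = PSm κ Q x x' E := (B6I.PSm_prod κ Q x x' (meas_ClD u R D x b) (meas_ClD u R D' x' b)).symm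
  have e2 : E ⊆ (E ∩ {p | NoC R 0 n ((s, p) : Om u)}) ∪ bc u R 0 n s := by
    intro p hp
    by_cases h : NoC R 0 n ((s, p) : Om u)
    · exact Or.inl ⟨hp, h⟩
    · exact Or.inr ⟨hEb hp, h⟩
  have e3 : PSm κ Q x x' (E ∩ {p | NoC R 0 n ((s, p) : Om u)})
      = PIm κ Q x x' (E ∩ {p | NoC R 0 n ((s, p) : Om u)}) :=
    B6I.PS_eq_PI_set (κ := κ) hR s (fun p hp => both_al p (hEb hp.1))
      (hDt.inter (B6I.dt_noC (Nat.zero_le n) s)) (fun p hp => hp.2)
  have e4 : PIm κ Q x x' E = hD u R κ Q D n * hD u R κ Q D' n := by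
    rw [hE, B6I.PIm, Measure.prod_prod, ann_ClD u R κ Q hstat D hab hx,
      ann_ClD u R κ Q hstat D' hab hx']
  rw [e1]
  calc PSm κ Q x x' E
      ≤ PSm κ Q x x' (E ∩ {p | NoC R 0 n ((s, p) : Om u)})
        + PSm κ Q x x' (bc u R 0 n s) := (measure_mono e2).trans (measure_union_le _ _)
    _ ≤ hD u R κ Q D n * hD u R κ Q D' n + Kc u R κ Q a b x x' := by
        refine add_le_add ?_ ?_
        · rw [e3, ← e4]
          exact measure_mono inter_subset_left
        · unfold Kc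
          rw [dif_pos hs]

end kernel

/-! ### the abstract robust jump -/

section jump

variable {S : Type*} [Countable S] {Ω : Type*} {m0 : MeasurableSpace Ω} {P : Measure Ω}
variable (A : KerSys S P)

/-- a marked mass of the climbs from `b` to `c`: measurable in the rows read by the climbs, with
the two moment properties. -/
structure Marked (b c : ℕ) (J : Ω → S → ℝ≥0∞) (π : ℝ≥0∞) : Prop where
  measH : ∀ x ∈ A.L b, Measurable[A.H b] fun ω => J ω x
  measF : ∀ x ∈ A.L b, Measurable[A.F c] fun ω => J ω x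
  le_one : ∀ ω x, J ω x ≤ 1
  first : ∀ x ∈ A.L b, ∫⁻ ω, J ω x ∂P = π
  second : ∀ x ∈ A.L b, ∀ x' ∈ A.L b, ∫⁻ ω, J ω x * J ω x' ∂P ≤ π ^ 2 + A.K b c x x'

variable {A}

/-- marked mass of a weight at level `b` -/
noncomputable def Xm (w : Ω → S → ℝ≥0∞) (J : Ω → S → ℝ≥0∞) (ω : Ω) : ℝ≥0∞ :=
  ∑' x, w ω x * J ω x

lemma Xm_le_tot {w : Ω → S → ℝ≥0∞} {J : Ω → S → ℝ≥0∞} (hJ : ∀ ω x, J ω x ≤ 1) (ω : Ω) :
    Xm w J ω ≤ KerSys.tot w ω := by
  unfold Xm KerSys.tot
  refine ENNReal.tsum_le_tsum fun x => ?_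
  calc w ω x * J ω x ≤ w ω x * 1 := by gcongr; exact hJ ω x
    _ = w ω x := mul_one _

lemma meas_term {b : ℕ} {w : Ω → S → ℝ≥0∞} (hw : A.Wt b w) {J : Ω → S → ℝ≥0∞}
    {m : MeasurableSpace Ω} (hm : A.F b ≤ m)
    (hJ : ∀ x ∈ A.L b, Measurable[m] fun ω => J ω x) (x : S) :
    Measurable[m] fun ω => w ω x * J ω x := by
  by_cases hx : x ∈ A.L b
  · exact ((hw.meas x).mono hm le_rfl).mul (hJ x hx)
  · have : (fun ω => w ω x * J ω x) = fun _ => 0 := by
      funext ω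
      rw [hw.supp ω x hx, zero_mul]
    rw [this]
    exact @measurable_const _ _ _ m _

lemma meas_Xm {b : ℕ} {w : Ω → S → ℝ≥0∞} (hw : A.Wt b w) {J : Ω → S → ℝ≥0∞}
    {m : MeasurableSpace Ω} (hm : A.F b ≤ m)
    (hJ : ∀ x ∈ A.L b, Measurable[m] fun ω => J ω x) : Measurable[m] (Xm w J) := by
  unfold Xm
  exact Measurable.ennreal_tsum fun x => meas_term hw hm hJ x

lemma xm_first {b c : ℕ} {J : Ω → S → ℝ≥0∞} {π : ℝ≥0∞} (hJ : Marked A b c J π)
    {w : Ω → S → ℝ≥0∞} (hw : A.Wt b w) {φ : Ω → ℝ≥0∞} (hφ : Measurable[A.F b] φ) :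
    ∫⁻ ω, φ ω * Xm w J ω ∂P = π * ∫⁻ ω, φ ω * KerSys.tot w ω ∂P := by
  have hφ0 : Measurable φ := hφ.mono (A.F.le b) le_rfl
  have h1 : ∀ ω, φ ω * Xm w J ω = ∑' x, φ ω * (w ω x * J ω x) := by
    intro ω
    rw [Xm, ← ENNReal.tsum_mul_left]
  have h2 : ∀ ω, φ ω * KerSys.tot w ω = ∑' x, φ ω * w ω x := by
    intro ω
    rw [KerSys.tot, ← ENNReal.tsum_mul_left]
  have hJ0 : ∀ x ∈ A.L b, Measurable fun ω => J ω x :=
    fun x hx => (hJ.measH x hx).mono (A.H_le b) le_rfl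
  simp_rw [h1, h2]
  rw [lintegral_tsum, lintegral_tsum, ← ENNReal.tsum_mul_left]
  · refine tsum_congr fun x => ?_
    by_cases hx : x ∈ A.L b
    · have hm1 : Measurable[A.F b] fun ω => φ ω * w ω x := hφ.mul (hw.meas x)
      have e : ∀ ω, φ ω * (w ω x * J ω x) = (φ ω * w ω x) * J ω x := fun ω => by ring
      simp_rw [e]
      rw [A.indep_mul hm1 (hJ.measH x hx), hJ.first x hx, mul_comm]
    · simp [hw.supp _ x hx]
  · intro x
    exact (hφ0.mul ((hw.meas x).mono (A.F.le b) le_rfl)).aemeasurable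
  · intro x
    exact (hφ0.mul (meas_term hw (A.F.le b) hJ0 x)).aemeasurable

lemma xm_second {b c : ℕ} {J : Ω → S → ℝ≥0∞} {π : ℝ≥0∞} (hJ : Marked A b c J π)
    {w : Ω → S → ℝ≥0∞} (hw : A.Wt b w) {φ : Ω → ℝ≥0∞} (hφ : Measurable[A.F b] φ) :
    ∫⁻ ω, φ ω * Xm w J ω ^ 2 ∂P
      ≤ π ^ 2 * ∫⁻ ω, φ ω * KerSys.tot w ω ^ 2 ∂P + ∫⁻ ω, φ ω * A.energy b c w ω ∂P := by
  have hφ0 : Measurable φ := hφ.mono (A.F.le b) le_rfl
  have hw0 : ∀ x, Measurable fun ω => w ω x := fun x => (hw.meas x).mono (A.F.le b) le_rfl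
  have hJ0 : ∀ x ∈ A.L b, Measurable fun ω => J ω x :=
    fun x hx => (hJ.measH x hx).mono (A.H_le b) le_rfl
  have hwJ : ∀ x, Measurable fun ω => w ω x * J ω x :=
    fun x => meas_term hw (A.F.le b) hJ0 x
  have h1 : ∀ ω, φ ω * Xm w J ω ^ 2
      = ∑' x, ∑' x', φ ω * ((w ω x * J ω x) * (w ω x' * J ω x')) := by
    intro ω
    rw [Xm, sq, ← ENNReal.tsum_mul_right, ← ENNReal.tsum_mul_left]
    refine tsum_congr fun x => ?_
    rw [← ENNReal.tsum_mul_left, ← ENNReal.tsum_mul_left]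
  have h2 : ∀ ω, φ ω * KerSys.tot w ω ^ 2 = ∑' x, ∑' x', (φ ω * w ω x * w ω x') := by
    intro ω
    rw [KerSys.tot, sq, ← ENNReal.tsum_mul_right, ← ENNReal.tsum_mul_left]
    refine tsum_congr fun x => ?_
    rw [← ENNReal.tsum_mul_left, ← ENNReal.tsum_mul_left]
    exact tsum_congr fun x' => by ring
  have h3 : ∀ ω, φ ω * A.energy b c w ω
      = ∑' x, ∑' x', (φ ω * w ω x * w ω x') * A.K b c x x' := by
    intro ω
    rw [KerSys.energy, ← ENNReal.tsum_mul_left]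
    refine tsum_congr fun x => ?_
    rw [← ENNReal.tsum_mul_left]
    exact tsum_congr fun x' => by ring
  have hm2 : ∀ x x', Measurable fun ω => φ ω * w ω x * w ω x' :=
    fun x x' => (hφ0.mul (hw0 x)).mul (hw0 x')
  have hm3 : ∀ x x', Measurable fun ω =>
      φ ω * ((w ω x * J ω x) * (w ω x' * J ω x')) :=
    fun x x' => hφ0.mul ((hwJ x).mul (hwJ x'))
  have hm4 : ∀ x x', Measurable fun ω => (φ ω * w ω x * w ω x') * A.K b c x x' :=
    fun x x' => (hm2 x x').mul_const _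
  have hF2 : ∀ x x', Measurable[A.F b] fun ω => φ ω * w ω x * w ω x' :=
    fun x x' => (hφ.mul (hw.meas x)).mul (hw.meas x')
  simp_rw [h1, h2, h3]
  rw [lintegral_tsum (fun x => (Measurable.tsum fun x' => hm3 x x').aemeasurable),
    lintegral_tsum (fun x => (Measurable.tsum fun x' => hm2 x x').aemeasurable),
    lintegral_tsum (fun x => (Measurable.tsum fun x' => hm4 x x').aemeasurable),
    ← ENNReal.tsum_mul_left, ← ENNReal.tsum_add]
  refine ENNReal.tsum_le_tsum fun x => ?_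
  rw [lintegral_tsum (fun x' => (hm3 x x').aemeasurable),
    lintegral_tsum (fun x' => (hm2 x x').aemeasurable),
    lintegral_tsum (fun x' => (hm4 x x').aemeasurable),
    ← ENNReal.tsum_mul_left, ← ENNReal.tsum_add]
  refine ENNReal.tsum_le_tsum fun x' => ?_
  by_cases hx : x ∈ A.L b
  · by_cases hx' : x' ∈ A.L b
    · have e : ∀ ω, φ ω * ((w ω x * J ω x) * (w ω x' * J ω x'))
          = (φ ω * w ω x * w ω x') * (J ω x * J ω x') := fun ω => by ring
      simp_rw [e]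
      have hJJ : Measurable[A.H b] fun ω => J ω x * J ω x' :=
        (hJ.measH x hx).mul (hJ.measH x' hx')
      rw [A.indep_mul (hF2 x x') hJJ, lintegral_mul_const _ (hm2 x x')]
      calc (∫⁻ ω, φ ω * w ω x * w ω x' ∂P) * ∫⁻ ω, J ω x * J ω x' ∂P
          ≤ (∫⁻ ω, φ ω * w ω x * w ω x' ∂P) * (π ^ 2 + A.K b c x x') := by
            gcongr
            exact hJ.second x hx x' hx'
        _ = _ := by ring
    · simp [hw.supp _ x' hx']
  · simp [hw.supp _ x hx]

/-- variance (lower deviations) of the marked mass -/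
lemma xm_variance [IsProbabilityMeasure P] {a b c : ℕ} (hab : a ≤ b) (hbc : b ≤ c)
    {J : Ω → S → ℝ≥0∞} {π : ℝ≥0∞} (hJ : Marked A b c J π) {w : Ω → S → ℝ≥0∞} (hw : A.Wt a w)
    (hw1 : ∀ ω, KerSys.tot w ω ≤ 1)
    {φ : Ω → ℝ≥0∞} (hφ : Measurable[A.F a] φ) (hφ1 : ∀ ω, φ ω ≤ 1) {ε : ℝ≥0∞}
    (hε : ∀ x ∈ A.L a, ∀ x' ∈ A.L a,
      ∑' z, ∑' z', (∫⁻ ω, A.G a b ω x z * A.G a b ω x' z' ∂P) * A.K b c z z' ≤ ε)
    (hπ : π ≠ ∞) :
    ∫⁻ ω, φ ω * (π * KerSys.tot (A.push a b w) ω - Xm (A.push a b w) J ω) ^ 2 ∂P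
      ≤ ε * ∫⁻ ω, φ ω ∂P := by
  set ρ := A.push a b w with hρ
  have hρW : A.Wt b ρ := hw.push hab
  set s : Ω → ℝ≥0∞ := KerSys.tot ρ with hs
  set m : Ω → ℝ≥0∞ := Xm ρ J with hm
  have hsm : Measurable[A.F b] s := hρW.meas_tot
  have hJ0 : ∀ x ∈ A.L b, Measurable fun ω => J ω x :=
    fun x hx => (hJ.measH x hx).mono (A.H_le b) le_rfl
  have hm0' : Measurable m := meas_Xm hρW (A.F.le b) hJ0
  have hs1 : ∀ ω, s ω ≤ 1 := fun ω => (A.tot_push_le hab w ω).trans (hw1 ω)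
  have hm1 : ∀ ω, m ω ≤ 1 := fun ω => (Xm_le_tot hJ.le_one ω).trans (hs1 ω)
  have hφb : Measurable[A.F b] φ := hφ.mono (A.F.mono hab) le_rfl
  have hφ0 : Measurable φ := hφ.mono (A.F.le a) le_rfl
  have hs0 : Measurable s := hsm.mono (A.F.le b) le_rfl
  have hA1 : Measurable fun ω => φ ω * s ω * m ω := (hφ0.mul hs0).mul hm0'
  have hA2 : Measurable fun ω => 2 * π * (φ ω * s ω * m ω) := hA1.const_mul _
  have hA3 : Measurable fun ω => φ ω * m ω ^ 2 := hφ0.mul (hm0'.pow_const 2)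
  have hA4 : Measurable fun ω => φ ω * s ω ^ 2 := hφ0.mul (hs0.pow_const 2)
  have e1 : ∫⁻ ω, (φ ω * s ω) * m ω ∂P = π * ∫⁻ ω, (φ ω * s ω) * s ω ∂P :=
    xm_first hJ hρW (hφb.mul hsm)
  have e2 := xm_second hJ hρW hφb
  have e3 : ∫⁻ ω, φ ω * A.energy b c ρ ω ∂P ≤ ε * ∫⁻ ω, φ ω * KerSys.tot w ω ^ 2 ∂P :=
    KerSys.energy_push hab hw hφ hε
  have e4 : ∫⁻ ω, φ ω * KerSys.tot w ω ^ 2 ∂P ≤ ∫⁻ ω, φ ω ∂P := by
    refine lintegral_mono fun ω => ?_
    calc φ ω * KerSys.tot w ω ^ 2 ≤ φ ω * 1 ^ 2 := by gcongr; exact hw1 ω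
      _ = φ ω := by simp
  have hfin : ∫⁻ ω, φ ω * s ω ^ 2 ∂P ≠ ∞ := by
    refine ne_top_of_le_ne_top ENNReal.one_ne_top ?_
    calc ∫⁻ ω, φ ω * s ω ^ 2 ∂P ≤ ∫⁻ _, 1 ∂P := by
          refine lintegral_mono fun ω => ?_
          calc φ ω * s ω ^ 2 ≤ 1 * 1 ^ 2 := by gcongr; exact hφ1 ω; exact hs1 ω
            _ = 1 := by simp
      _ = 1 := by simp
  have key : 2 * (π ^ 2 * ∫⁻ ω, φ ω * s ω ^ 2 ∂P) + ∫⁻ ω, φ ω * (π * s ω - m ω) ^ 2 ∂P
      ≤ 2 * (π ^ 2 * ∫⁻ ω, φ ω * s ω ^ 2 ∂P) + ε * ∫⁻ ω, φ ω ∂P := by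
    calc 2 * (π ^ 2 * ∫⁻ ω, φ ω * s ω ^ 2 ∂P) + ∫⁻ ω, φ ω * (π * s ω - m ω) ^ 2 ∂P
        = ∫⁻ ω, (2 * π * ((φ ω * s ω) * m ω) + φ ω * (π * s ω - m ω) ^ 2) ∂P := by
          rw [lintegral_add_left hA2, lintegral_const_mul _ hA1, e1]
          congr 1
          have : ∀ ω, φ ω * s ω * s ω = φ ω * s ω ^ 2 := fun ω => by ring
          simp_rw [this]
          ring
      _ ≤ ∫⁻ ω, (φ ω * m ω ^ 2 + π ^ 2 * (φ ω * s ω ^ 2)) ∂P := by
          refine lintegral_mono fun ω => ?_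
          have h1 := KerSys.two_mul_add_sq_le (a := m ω) (b := π * s ω)
            (ne_top_of_le_ne_top ENNReal.one_ne_top (hm1 ω))
            (ENNReal.mul_ne_top hπ (ne_top_of_le_ne_top ENNReal.one_ne_top (hs1 ω)))
          calc 2 * π * (φ ω * s ω * m ω) + φ ω * (π * s ω - m ω) ^ 2
              = φ ω * (2 * (m ω * (π * s ω)) + (π * s ω - m ω) ^ 2) := by ring
            _ ≤ φ ω * (m ω ^ 2 + (π * s ω) ^ 2) := by gcongr
            _ = _ := by ring
      _ = ∫⁻ ω, φ ω * m ω ^ 2 ∂P + π ^ 2 * ∫⁻ ω, φ ω * s ω ^ 2 ∂P := by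
          rw [lintegral_add_left hA3, lintegral_const_mul _ hA4]
      _ ≤ (π ^ 2 * ∫⁻ ω, φ ω * s ω ^ 2 ∂P + ε * ∫⁻ ω, φ ω ∂P)
          + π ^ 2 * ∫⁻ ω, φ ω * s ω ^ 2 ∂P := by
          gcongr
          refine e2.trans ?_
          gcongr
          exact e3.trans (by gcongr)
      _ = _ := by ring
  refine (ENNReal.add_le_add_iff_left ?_).1 key
  exact ENNReal.mul_ne_top (by simp) (ENNReal.mul_ne_top (ENNReal.pow_ne_top hπ) hfin)

/-- **robust jump**: off (conditional) probability `4 ε / (π t)²`, a mass `≥ t` of the law pushed to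
level `b` makes a marked climb from `b` to `c` with mass `≥ π t / 2`. -/
lemma jump [IsProbabilityMeasure P] {a b c : ℕ} (hab : a ≤ b) (hbc : b ≤ c)
    {J : Ω → S → ℝ≥0∞} {π : ℝ≥0∞} (hJ : Marked A b c J π) {w : Ω → S → ℝ≥0∞} (hw : A.Wt a w)
    (hw1 : ∀ ω, KerSys.tot w ω ≤ 1) {ε : ℝ≥0∞}
    (hε : ∀ x ∈ A.L a, ∀ x' ∈ A.L a,
      ∑' z, ∑' z', (∫⁻ ω, A.G a b ω x z * A.G a b ω x' z' ∂P) * A.K b c z z' ≤ ε)
    (hπ0 : π ≠ 0) (hπ : π ≠ ∞) {t : ℝ≥0∞} (ht0 : t ≠ 0) (ht : t ≠ ∞)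
    {B : Set Ω} (hB : MeasurableSet[A.F a] B) :
    P (B ∩ {ω | t ≤ KerSys.tot (A.push a b w) ω ∧ Xm (A.push a b w) J ω < π * t / 2})
      ≤ 4 * ε / (π * t) ^ 2 * P B := by
  have hB0 : MeasurableSet B := A.F.le a _ hB
  have hφ : Measurable[A.F a] (B.indicator (1 : Ω → ℝ≥0∞)) :=
    (@measurable_one _ _ _ (A.F a) _).indicator hB
  have hv := xm_variance hab hbc hJ hw hw1 hφ (fun ω => by
    by_cases h : ω ∈ B <;> simp [h]) hε hπ
  set s : Ω → ℝ≥0∞ := KerSys.tot (A.push a b w) with hs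
  set m : Ω → ℝ≥0∞ := Xm (A.push a b w) J with hm
  have hsm : Measurable s := ((hw.push hab).meas_tot).mono (A.F.le b) le_rfl
  have hJ0 : ∀ x ∈ A.L b, Measurable fun ω => J ω x :=
    fun x hx => (hJ.measH x hx).mono (A.H_le b) le_rfl
  have hmm : Measurable m := meas_Xm (hw.push hab) (A.F.le b) hJ0
  set E : Set Ω := {ω | t ≤ s ω ∧ m ω < π * t / 2} with hE
  have hEm : MeasurableSet E :=
    (measurableSet_le measurable_const hsm).inter (measurableSet_lt hmm measurable_const)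
  rw [lintegral_indicator_one hB0] at hv
  set q : ℝ≥0∞ := π * t with hq
  have hq0 : q ≠ 0 := mul_ne_zero hπ0 ht0
  have hqt : q ≠ ∞ := ENNReal.mul_ne_top hπ ht
  have l1 : (q / 2) ^ 2 * P (B ∩ E) ≤ ε * P B := by
    refine le_trans ?_ hv
    rw [← lintegral_indicator_one (hB0.inter hEm),
      ← lintegral_const_mul _ (measurable_one.indicator (hB0.inter hEm))]
    refine lintegral_mono fun ω => ?_
    by_cases h1 : ω ∈ B ∩ E
    · rw [indicator_of_mem h1, indicator_of_mem h1.1]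
      simp only [Pi.one_apply, one_mul, mul_one]
      have h2 : t ≤ s ω := h1.2.1
      have h3 : m ω < q / 2 := h1.2.2
      have h4 : q / 2 + m ω ≤ π * s ω := by
        calc q / 2 + m ω ≤ q / 2 + q / 2 := by gcongr
          _ = q := ENNReal.add_halves q
          _ ≤ π * s ω := by rw [hq]; gcongr
      have h5 : q / 2 ≤ π * s ω - m ω :=
        ENNReal.le_sub_of_add_le_right (ne_top_of_lt h3) h4
      gcongr
    · rw [indicator_of_notMem h1]
      simp
  have hq2 : q ^ 2 ≠ 0 := pow_ne_zero _ hq0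
  have hq2t : q ^ 2 ≠ ∞ := ENNReal.pow_ne_top hqt
  have h16 : 4 * (q / 2) ^ 2 = q ^ 2 := by
    have h2 : 2 * (q / 2) = q := ENNReal.mul_div_cancel (by norm_num) (by norm_num)
    calc 4 * (q / 2) ^ 2 = (2 * (q / 2)) ^ 2 := by ring
      _ = q ^ 2 := by rw [h2]
  calc P (B ∩ E) = (q ^ 2)⁻¹ * (q ^ 2 * P (B ∩ E)) := by
        rw [← mul_assoc, ENNReal.inv_mul_cancel hq2 hq2t, one_mul]
    _ = (q ^ 2)⁻¹ * (4 * ((q / 2) ^ 2 * P (B ∩ E))) := by
        rw [← h16]; ring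
    _ ≤ (q ^ 2)⁻¹ * (4 * (ε * P B)) := by gcongr
    _ = 4 * ε / q ^ 2 * P B := by
        rw [ENNReal.div_eq_inv_mul]; ring

end jump

/-! ### the marked climbs of the kernel system `kS` -/

section inst

variable (u : Step d) (R : ℕ) (κ : ℝ) (Q : Measure (Environment d)) [IsProbabilityMeasure Q]




end inst

end Crest.Agent.R154.JumpK618
end

-- ▼ part R154/TailDoc_736
section

/-! Row 154, HOME doc (263), HM6: `TailH` and `JumpTail` of the contract file `HomeDoc_74` on the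
kernel systems of the natural climbs. -/

set_option autoImplicit false
set_option linter.unusedSectionVars false
set_option linter.deprecated false

namespace Crest.Agent.R154.Home736

open MeasureTheory ProbabilityTheory Set Filter Crest.ProbabilityR.RandomEnvironment
open Crest.Agent.R154.Mk561 Crest.Agent.R154.Q561
open Crest.Agent.R154.RatioR872 Crest.Agent.R154.RatioR872.KerSys Crest.Agent.R154.Bd736
open Crest.Agent.R154.Flux132 (lev lev_add lev_neg lev_zero)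
open Crest.Agent.R154.Bind263 (Frame)
open Crest.Agent.R154.B4Inst797 (Nat0 natLaw lat lat_add UU lp Hit)
open Crest.Agent.R154.MobW437 (wl Sl meas_U)
open Crest.Agent.R154.D2Asm244 (kT)
open Crest.Agent.R154.B4 (LP)
open scoped ENNReal


variable {d : ℕ} {Q : Measure (Environment d)} [IsProbabilityMeasure Q] {κ : ℝ} {R : ℕ}

/-- the lateral coordinate as a real function -/
def latR (i1 i2 : Fin d) (i : Fin 2) (x : Site d) : ℝ := lat i1 i2 x i

/-- the level as a real function -/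
def levR (u : Step d) (x : Site d) : ℝ := (lev u x : ℝ)




/-- the natural path hits the level `n` with displacement in `D`: it is a marked climb -/
lemma hD_ge (F : Frame Q κ R) (u : Step d) (hc : mkAnn κ Q 0 (Nat0 u R) ≠ 0) (D : Set (Site d))
    (n : ℕ) {E : Set (MPath d)} (hE : ∀ s ∈ E, ∀ m, Hit u n m s → pos 0 s m ∈ D) {π : ℝ≥0∞}
    (h : π ≤ natLaw κ Q u R E) :
    π * mkAnn κ Q 0 (Nat0 u R) ≤ JumpK618.hD u R κ Q D n := by
  have hfin : mkAnn κ Q 0 (Nat0 u R) ≠ ∞ := measure_ne_top _ _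
  have h1 : π * mkAnn κ Q 0 (Nat0 u R) ≤ mkAnn κ Q 0 (Nat0 u R ∩ E) := by
    calc π * mkAnn κ Q 0 (Nat0 u R)
        ≤ natLaw κ Q u R E * mkAnn κ Q 0 (Nat0 u R) := by gcongr
      _ = mkAnn κ Q 0 (Nat0 u R ∩ E) := by
        rw [B4Inst797.natLaw_apply, mul_comm, ← mul_assoc, ENNReal.mul_inv_cancel hc hfin, one_mul]
  refine h1.trans ?_
  calc mkAnn κ Q 0 (Nat0 u R ∩ E)
      ≤ mkAnn κ Q 0 (JumpK618.ClD u R D 0 n ∪ (Nat0 u R ∩ {s | ∀ m, ¬ Hit u n m s})) := by
        refine measure_mono fun s hs => ?_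
        by_cases hex : ∃ m, Hit u n m s
        · obtain ⟨m, hm⟩ := hex
          refine Or.inl ⟨m, nat_hit_mem u hs.1 hm, ?_⟩
          rw [sub_zero]
          exact hE s hs.2 m hm
        · exact Or.inr ⟨hs.1, fun m hm => hex ⟨m, hm⟩⟩
    _ ≤ mkAnn κ Q 0 (JumpK618.ClD u R D 0 n) + mkAnn κ Q 0 (Nat0 u R ∩ {s | ∀ m, ¬ Hit u n m s}) :=
        measure_union_le _ _
    _ = JumpK618.hD u R κ Q D n := by
        rw [B4Inst797.nat_hit F u n, add_zero]; rfl

/-- **JumpTail** on the kernel systems, from a tail of the natural law -/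
theorem jumpTail_of (F : Frame Q κ R) (u : Step d) (hc : mkAnn κ Q 0 (Nat0 u R) ≠ 0)
    (K : ℕ → ℕ → Site d → Site d → ℝ≥0∞) (hK) {φ : Site d → ℝ}
    (hφ : ∀ x y, φ y - φ x = φ (y - x)) {n : ℕ} {Δ : ℝ} {π : ℝ≥0∞} {E : Set (MPath d)}
    (hE : ∀ s ∈ E, ∀ m, Hit u n m s → Δ ≤ φ (pos 0 s m)) (h : π ≤ natLaw κ Q u R E) :
    Doc74.JumpTail (kerSys u R κ Q F.stat F.fin K hK) φ n Δ (π * mkAnn κ Q 0 (Nat0 u R)) := by
  classical
  intro a x hx
  have hx' : lev u x = a := hx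
  have e : ∀ ω, ∑' y, (if Doc74.Jp φ Δ x y then
      (kerSys u R κ Q F.stat F.fin K hK).G a (a + n) ω x y else 0)
      = JumpK618.Nd u R κ {z | Δ ≤ φ z} ((a + n : ℕ) : ℤ) ω x := by
    intro ω
    unfold JumpK618.Nd
    refine tsum_congr fun y => ?_
    have e1 : (kerSys u R κ Q F.stat F.fin K hK).G a (a + n) ω x y
        = gk u R κ ((a + n : ℕ) : ℤ) ω x y := by
      change (if lev u x = (a : ℤ) then gk u R κ ((a + n : ℕ) : ℤ) ω x y else 0) = _
      rw [if_pos hx']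
    rw [e1]
    by_cases h4 : Δ ≤ φ y - φ x
    · have h5 : Doc74.Jp φ Δ x y := h4
      have h6 : y - x ∈ {z | Δ ≤ φ z} := by rw [hφ] at h4; exact h4
      rw [if_pos h5, if_pos h6]
    · have h5 : ¬ Doc74.Jp φ Δ x y := h4
      have h6 : y - x ∉ {z | Δ ≤ φ z} := by rw [hφ] at h4; exact h4
      rw [if_neg h5, if_neg h6]
  have e2 : ∫⁻ ω, ∑' y, (if Doc74.Jp φ Δ x y then
      (kerSys u R κ Q F.stat F.fin K hK).G a (a + n) ω x y else 0) ∂Q
      = ∫⁻ ω, JumpK618.Nd u R κ {z | Δ ≤ φ z} ((a + n : ℕ) : ℤ) ω x ∂Q :=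
    lintegral_congr e
  refine le_trans ?_ (le_of_eq e2.symm)
  rw [JumpK618.first_mark u R κ Q F.stat {z | Δ ≤ φ z} (a := a) (b := a + n) (by omega) hx',
    Nat.add_sub_cancel_left]
  exact hD_ge F u hc _ n hE h

lemma phd_sub (u : Step d) (i1 i2 : Fin d) (i : Fin 2) (α : ℝ) (x y : Site d) :
    Doc74.ph (latR i1 i2 i) (levR u) α y - Doc74.ph (latR i1 i2 i) (levR u) α x
      = Doc74.ph (latR i1 i2 i) (levR u) α (y - x) := ph_sub u i1 i2 i α x y

lemma phn_sub (u : Step d) (i1 i2 : Fin d) (i : Fin 2) (α : ℝ) (x y : Site d) :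
    Doc74.ph (fun x => - latR i1 i2 i x) (levR u) (-α) y
        - Doc74.ph (fun x => - latR i1 i2 i x) (levR u) (-α) x
      = Doc74.ph (fun x => - latR i1 i2 i x) (levR u) (-α) (y - x) := by
  rw [Doc74.ph_neg, Doc74.ph_neg, Doc74.ph_neg, ← phd_sub]
  ring

/-- one side of the centre `α n` -/
theorem jumpTail_side (F : Frame Q κ R) (u : Step d) {i1 i2 : Fin d} (h1 : i1 ≠ u.1)
    (h2 : i2 ≠ u.1) (h12 : i1 ≠ i2) (hc : mkAnn κ Q 0 (Nat0 u R) ≠ 0) (i : Fin 2)
    (K : ℕ → ℕ → Site d → Site d → ℝ≥0∞) (hK) {n : ℕ} {r π : ℝ}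
    (h : ∀ c : ℝ, π ≤ (natLaw κ Q u R).real
      {ω | r < |(lp F u h1 h2 h12 hc).U n ω i - c|}) (α : ℝ) :
    Doc74.JumpTail (kerSys u R κ Q F.stat F.fin K hK) (Doc74.ph (latR i1 i2 i) (levR u) α) n r
        (ENNReal.ofReal (π / 2) * mkAnn κ Q 0 (Nat0 u R)) ∨
      Doc74.JumpTail (kerSys u R κ Q F.stat F.fin K hK)
        (Doc74.ph (fun x => - latR i1 i2 i x) (levR u) (-α)) n r
        (ENNReal.ofReal (π / 2) * mkAnn κ Q 0 (Nat0 u R)) := by
  have := B4Inst797.natLaw_isProb (κ := κ) (Q := Q) (R := R) (u := u) hc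
  have hval : ∀ s m, Hit u n m s →
      (lp F u h1 h2 h12 hc).U n s i = latR i1 i2 i (pos 0 s m) ∧
      levR u (pos 0 s m) = n := by
    intro s m hm
    refine ⟨?_, ?_⟩
    · change UU u i1 i2 n s i = _
      rw [(B4Inst797.hit_eq i1 i2 hm).2]; rfl
    · unfold levR
      rw [lev_pos_eq, lev_zero, zero_add, hm.1]
      simp
  have hreal : ∀ {E : Set (MPath d)} {π' : ℝ}, π' ≤ (natLaw κ Q u R).real E →
      ENNReal.ofReal π' ≤ natLaw κ Q u R E := by
    intro E π' h'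
    rw [← ENNReal.ofReal_toReal (measure_ne_top (natLaw κ Q u R) E)]
    exact ENNReal.ofReal_le_ofReal h'
  rcases Jump719.one_side (P := natLaw κ Q u R) (meas_U (lp F u h1 h2 h12 hc) n) i (h (α * n))
    with h3 | h3
  · left
    refine jumpTail_of F u hc K hK (phd_sub u i1 i2 i α) ?_ (hreal h3)
    intro s hs m hm
    obtain ⟨e1, e2⟩ := hval s m hm
    have hs' : α * n + r < (lp F u h1 h2 h12 hc).U n s i := hs
    unfold Doc74.ph
    rw [e2, ← e1]
    linarith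
  · right
    refine jumpTail_of F u hc K hK (phn_sub u i1 i2 i α) ?_ (hreal h3)
    intro s hs m hm
    obtain ⟨e1, e2⟩ := hval s m hm
    have hs' : (lp F u h1 h2 h12 hc).U n s i < α * n - r := hs
    rw [Doc74.ph_neg]
    unfold Doc74.ph
    rw [e2, ← e1]
    linarith

/-- **(HM6b/c)** an irregular octave gives `JumpTail`, for every slope, on one of the two sides,
over `128 l` or `M l` levels, with a universal `π` -/
theorem jumpTail_irr (F : Frame Q κ R) (u : Step d) {i1 i2 : Fin d} (h1 : i1 ≠ u.1)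
    (h2 : i2 ≠ u.1) (h12 : i1 ≠ i2) (hc : mkAnn κ Q 0 (Nat0 u R) ≠ 0) (i : Fin 2)
    (K : ℕ → ℕ → Site d → Site d → ℝ≥0∞) (hK) :
    ∃ π : ℝ≥0∞, π ≠ 0 ∧ π ≤ 1 ∧ ∃ l0 : ℕ, ∀ l, l0 ≤ l → ∀ (A₀ M : ℕ) (B : ℝ), 1 ≤ M →
      ¬ (Sl (lp F u h1 h2 h12 hc) i l ≤ A₀ ∧
        wl (lp F u h1 h2 h12 hc) i (M * l) ≤ B * wl (lp F u h1 h2 h12 hc) i l) →
      (∀ α : ℝ, Doc74.JumpTail (kerSys u R κ Q F.stat F.fin K hK)
            (Doc74.ph (latR i1 i2 i) (levR u) α) (128 * l)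
            (2 ^ A₀ / 3600 * wl (lp F u h1 h2 h12 hc) i l) π ∨
          Doc74.JumpTail (kerSys u R κ Q F.stat F.fin K hK)
            (Doc74.ph (fun x => - latR i1 i2 i x) (levR u) (-α)) (128 * l)
            (2 ^ A₀ / 3600 * wl (lp F u h1 h2 h12 hc) i l) π) ∨
      (∀ α : ℝ, Doc74.JumpTail (kerSys u R κ Q F.stat F.fin K hK)
            (Doc74.ph (latR i1 i2 i) (levR u) α) (M * l)
            (B / 20 * wl (lp F u h1 h2 h12 hc) i l) π ∨
          Doc74.JumpTail (kerSys u R κ Q F.stat F.fin K hK)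
            (Doc74.ph (fun x => - latR i1 i2 i x) (levR u) (-α)) (M * l)
            (B / 20 * wl (lp F u h1 h2 h12 hc) i l) π) := by
  have := B4Inst797.natLaw_isProb (κ := κ) (Q := Q) (R := R) (u := u) hc
  obtain ⟨l0, hl0⟩ := Jump719.jump_of_irr (lp F u h1 h2 h12 hc) i
  refine ⟨ENNReal.ofReal (1 / 800 / 2) * mkAnn κ Q 0 (Nat0 u R), mul_ne_zero ?_ hc, ?_, l0,
    fun l hl A₀ M B hM hirr => ?_⟩
  · simp only [ne_eq, ENNReal.ofReal_eq_zero, not_le]; norm_num
  · calc ENNReal.ofReal (1 / 800 / 2) * mkAnn κ Q 0 (Nat0 u R) ≤ 1 * 1 := by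
          gcongr
          · rw [← ENNReal.ofReal_one]; exact ENNReal.ofReal_le_ofReal (by norm_num)
          · exact prob_le_one
      _ = 1 := one_mul 1
  · rcases hl0 l hl A₀ M B hM hirr with h3 | h3
    · exact Or.inl fun α => jumpTail_side F u h1 h2 h12 hc i K hK h3 α
    · exact Or.inr fun α => jumpTail_side F u h1 h2 h12 hc i K hK h3 α

end Crest.Agent.R154.Home736
end

-- ▼ part R154/JumpA_872
section

/-!
Row 154, `d ≥ 3` (helper872), route 263 #36390, HM4: THE ROBUST JUMP on an abstract `KerSys`.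

From ANY law at level `a`: diversify for `s` levels (home part), then one natural climb of `n`
levels with a displacement mark; the jump mass is `≥ e^{-x₁ (1 + log (1/δ))}` off probability `δ`.
Second moment with the late pair energy (any kernel `Kf`).
-/

set_option autoImplicit false
set_option linter.unusedSectionVars false
set_option linter.deprecated false
set_option linter.unusedVariables false

namespace Crest.Agent.R154.Jump872

open MeasureTheory ProbabilityTheory Set Filter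
open Crest.Agent.R154.RatioR872 Crest.Agent.R154.RatioR872.KerSys
open Crest.Agent.R154.Home903 Crest.Agent.R154.Rate582
open scoped ENNReal Classical

variable {S : Type*} [Countable S] {Ω : Type*} {m0 : MeasurableSpace Ω} {P : Measure Ω}
variable {A : KerSys S P}

/-- energy of a weight for a pair kernel `Kf` -/
noncomputable def en (Kf : S → S → ℝ≥0∞) (w : Ω → S → ℝ≥0∞) (ω : Ω) : ℝ≥0∞ :=
  ∑' x, ∑' x', w ω x * w ω x' * Kf x x'

/-- energy after a climb, any pair kernel -/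
lemma en_push {a b : ℕ} (hab : a ≤ b) {w : Ω → S → ℝ≥0∞} (hw : A.Wt a w) (Kf : S → S → ℝ≥0∞)
    {φ : Ω → ℝ≥0∞} (hφ : Measurable[A.F a] φ) {ε : ℝ≥0∞}
    (hε : ∀ x ∈ A.L a, ∀ x' ∈ A.L a,
      ∑' z, ∑' z', (∫⁻ ω, A.G a b ω x z * A.G a b ω x' z' ∂P) * Kf z z' ≤ ε) :
    ∫⁻ ω, φ ω * en Kf (A.push a b w) ω ∂P ≤ ε * ∫⁻ ω, φ ω * tot w ω ^ 2 ∂P := by
  have hφ0 : Measurable φ := hφ.mono (A.F.le a) le_rfl
  have hw0 : ∀ x, Measurable fun ω => w ω x := fun x => (hw.meas x).mono (A.F.le a) le_rfl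
  have hG0 : ∀ x z, Measurable fun ω => A.G a b ω x z :=
    fun x z => (A.measH a b x z hab).mono (A.H_le a) le_rfl
  have h1 : ∀ ω, φ ω * en Kf (A.push a b w) ω
      = ∑' x, ∑' x', ∑' z, ∑' z', ((φ ω * w ω x * w ω x') * (A.G a b ω x z * A.G a b ω x' z'))
        * Kf z z' := by
    intro ω
    have e1 : ∀ z z', A.push a b w ω z * A.push a b w ω z' * Kf z z'
        = ∑' x, ∑' x', (w ω x * w ω x') * (A.G a b ω x z * A.G a b ω x' z') * Kf z z' := by
      intro z z'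
      unfold push
      rw [← ENNReal.tsum_mul_right, ← ENNReal.tsum_mul_right]
      refine tsum_congr fun x => ?_
      rw [← ENNReal.tsum_mul_left, ← ENNReal.tsum_mul_right]
      exact tsum_congr fun x' => by ring
    rw [en]
    simp_rw [e1]
    have e2 : ∑' z, ∑' z', ∑' x, ∑' x', (w ω x * w ω x') * (A.G a b ω x z * A.G a b ω x' z')
          * Kf z z'
        = ∑' x, ∑' x', ∑' z, ∑' z', (w ω x * w ω x') * (A.G a b ω x z * A.G a b ω x' z')
          * Kf z z' := by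
      calc _ = ∑' z, ∑' x, ∑' z', ∑' x', (w ω x * w ω x') * (A.G a b ω x z * A.G a b ω x' z')
          * Kf z z' := tsum_congr fun z => ENNReal.tsum_comm
        _ = ∑' x, ∑' z, ∑' z', ∑' x', (w ω x * w ω x') * (A.G a b ω x z * A.G a b ω x' z')
          * Kf z z' := ENNReal.tsum_comm
        _ = ∑' x, ∑' z, ∑' x', ∑' z', (w ω x * w ω x') * (A.G a b ω x z * A.G a b ω x' z')
          * Kf z z' := tsum_congr fun x => tsum_congr fun z => ENNReal.tsum_comm
        _ = _ := tsum_congr fun x => ENNReal.tsum_comm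
    rw [e2, ← ENNReal.tsum_mul_left]
    refine tsum_congr fun x => ?_
    rw [← ENNReal.tsum_mul_left]
    refine tsum_congr fun x' => ?_
    rw [← ENNReal.tsum_mul_left]
    refine tsum_congr fun z => ?_
    rw [← ENNReal.tsum_mul_left]
    exact tsum_congr fun z' => by ring
  have h2 : ∀ ω, φ ω * tot w ω ^ 2 = ∑' x, ∑' x', (φ ω * w ω x * w ω x') := by
    intro ω
    rw [tot, sq, ← ENNReal.tsum_mul_right, ← ENNReal.tsum_mul_left]
    refine tsum_congr fun x => ?_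
    rw [← ENNReal.tsum_mul_left, ← ENNReal.tsum_mul_left]
    exact tsum_congr fun x' => by ring
  have hm2 : ∀ x x', Measurable fun ω => φ ω * w ω x * w ω x' :=
    fun x x' => (hφ0.mul (hw0 x)).mul (hw0 x')
  have hm4 : ∀ x x' z z', Measurable fun ω => ((φ ω * w ω x * w ω x') *
      (A.G a b ω x z * A.G a b ω x' z')) * Kf z z' :=
    fun x x' z z' => ((hm2 x x').mul ((hG0 x z).mul (hG0 x' z'))).mul_const _
  simp_rw [h1, h2]
  rw [lintegral_tsum (fun x => (Measurable.tsum fun x' => Measurable.tsum fun z =>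
      Measurable.tsum fun z' => hm4 x x' z z').aemeasurable),
    lintegral_tsum (fun x => (Measurable.tsum fun x' => hm2 x x').aemeasurable),
    ← ENNReal.tsum_mul_left]
  refine ENNReal.tsum_le_tsum fun x => ?_
  rw [lintegral_tsum (fun x' => (Measurable.tsum fun z =>
      Measurable.tsum fun z' => hm4 x x' z z').aemeasurable),
    lintegral_tsum (fun x' => (hm2 x x').aemeasurable), ← ENNReal.tsum_mul_left]
  refine ENNReal.tsum_le_tsum fun x' => ?_
  by_cases hx : x ∈ A.L a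
  · by_cases hx' : x' ∈ A.L a
    · rw [lintegral_tsum (fun z => (Measurable.tsum fun z' => hm4 x x' z z').aemeasurable)]
      have h5 : ∀ z, ∫⁻ ω, ∑' z', ((φ ω * w ω x * w ω x') *
          (A.G a b ω x z * A.G a b ω x' z')) * Kf z z' ∂P
          = ∑' z', (∫⁻ ω, φ ω * w ω x * w ω x' ∂P) *
            ((∫⁻ ω, A.G a b ω x z * A.G a b ω x' z' ∂P) * Kf z z') := by
        intro z
        rw [lintegral_tsum (fun z' => (hm4 x x' z z').aemeasurable)]
        refine tsum_congr fun z' => ?_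
        have hk1 : Measurable fun ω => (φ ω * w ω x * w ω x') *
            (A.G a b ω x z * A.G a b ω x' z') := (hm2 x x').mul ((hG0 x z).mul (hG0 x' z'))
        have hk2 : Measurable[A.F a] fun ω => φ ω * w ω x * w ω x' :=
          (hφ.mul (hw.meas x)).mul (hw.meas x')
        have hk3 : Measurable[A.H a] fun ω => A.G a b ω x z * A.G a b ω x' z' :=
          (A.measH a b x z hab).mul (A.measH a b x' z' hab)
        rw [lintegral_mul_const _ hk1, A.indep_mul hk2 hk3, mul_assoc]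
      simp_rw [h5, ENNReal.tsum_mul_left]
      rw [mul_comm]
      gcongr
      exact hε x hx x' hx'
    · simp [hw.supp _ x' hx']
  · simp [hw.supp _ x hx]

/-- **variance of a test of the fresh rows** -/
lemma var_test {b : ℕ} {ρ : Ω → S → ℝ≥0∞} (hρ : A.Wt b ρ) (hρ1 : ∀ ω, tot ρ ω ≤ 1)
    {J : S → Ω → ℝ≥0∞} (hJ : ∀ x, Measurable[A.H b] (J x)) (hJ1 : ∀ x ω, J x ω ≤ 1)
    [IsProbabilityMeasure P] {Kf : S → S → ℝ≥0∞}
    (hK : ∀ x ∈ A.L b, ∀ x' ∈ A.L b,
      ∫⁻ ω, J x ω * J x' ω ∂P ≤ (∫⁻ ω, J x ω ∂P) * (∫⁻ ω, J x' ω ∂P) + Kf x x')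
    {φ : Ω → ℝ≥0∞} (hφ : Measurable[A.F b] φ) (hfin : ∫⁻ ω, φ ω * tot ρ ω ^ 2 ∂P ≠ ∞) :
    ∫⁻ ω, φ ω * ((∑' x, ρ ω x * ∫⁻ ω', J x ω' ∂P) - ∑' x, ρ ω x * J x ω) ^ 2 ∂P
      ≤ ∫⁻ ω, φ ω * en Kf ρ ω ∂P := by
  set m : S → ℝ≥0∞ := fun x => ∫⁻ ω', J x ω' ∂P with hm
  set M : Ω → ℝ≥0∞ := fun ω => ∑' x, ρ ω x * m x with hM
  set X : Ω → ℝ≥0∞ := fun ω => ∑' x, ρ ω x * J x ω with hX
  have hφ0 : Measurable φ := hφ.mono (A.F.le b) le_rfl
  have hρ0 : ∀ x, Measurable fun ω => ρ ω x := fun x => (hρ.meas x).mono (A.F.le b) le_rfl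
  have hJ0 : ∀ x, Measurable (J x) := fun x => (hJ x).mono (A.H_le b) le_rfl
  have hm1 : ∀ x, m x ≤ 1 := fun x => by
    calc m x ≤ ∫⁻ _, 1 ∂P := lintegral_mono fun ω => hJ1 x ω
      _ = 1 := by simp
  have hMt : ∀ ω, M ω ≤ tot ρ ω := fun ω => by
    refine ENNReal.tsum_le_tsum fun x => ?_
    calc ρ ω x * m x ≤ ρ ω x * 1 := by gcongr; exact hm1 x
      _ = _ := mul_one _
  have hXt : ∀ ω, X ω ≤ tot ρ ω := fun ω => by
    refine ENNReal.tsum_le_tsum fun x => ?_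
    calc ρ ω x * J x ω ≤ ρ ω x * 1 := by gcongr; exact hJ1 x ω
      _ = _ := mul_one _
  have hMF : Measurable[A.F b] M := Measurable.ennreal_tsum fun x => (hρ.meas x).mul_const _
  have hM0 : Measurable M := hMF.mono (A.F.le b) le_rfl
  have hX0 : Measurable X := Measurable.ennreal_tsum fun x => (hρ0 x).mul (hJ0 x)
  -- mixed moment
  have e1 : ∫⁻ ω, φ ω * M ω * X ω ∂P = ∫⁻ ω, φ ω * M ω ^ 2 ∂P := by
    have h1 : ∀ ω, φ ω * M ω * X ω = ∑' x, (φ ω * M ω * ρ ω x) * J x ω := fun ω => by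
      rw [hX, ← ENNReal.tsum_mul_left]
      exact tsum_congr fun x => by ring
    have h2 : ∀ ω, φ ω * M ω ^ 2 = ∑' x, (φ ω * M ω * ρ ω x) * m x := fun ω => by
      calc φ ω * M ω ^ 2 = (φ ω * M ω) * ∑' x, ρ ω x * m x := by rw [sq]; ring
        _ = _ := by
          rw [← ENNReal.tsum_mul_left]
          exact tsum_congr fun x => by ring
    simp_rw [h1, h2]
    have g1 : ∀ x, Measurable fun ω => φ ω * M ω * ρ ω x * J x ω :=
      fun x => ((hφ0.mul hM0).mul (hρ0 x)).mul (hJ0 x)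
    have g2 : ∀ x, Measurable fun ω => φ ω * M ω * ρ ω x * m x :=
      fun x => ((hφ0.mul hM0).mul (hρ0 x)).mul_const _
    rw [lintegral_tsum (fun x => (g1 x).aemeasurable),
      lintegral_tsum (fun x => (g2 x).aemeasurable)]
    refine tsum_congr fun x => ?_
    have hk1 : Measurable[A.F b] fun ω => φ ω * M ω * ρ ω x := (hφ.mul hMF).mul (hρ.meas x)
    have hk2 : Measurable fun ω => φ ω * M ω * ρ ω x := (hφ0.mul hM0).mul (hρ0 x)
    rw [A.indep_mul hk1 (hJ x), lintegral_mul_const _ hk2]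
  -- second moment
  have e2 : ∫⁻ ω, φ ω * X ω ^ 2 ∂P
      ≤ ∫⁻ ω, φ ω * M ω ^ 2 ∂P + ∫⁻ ω, φ ω * en Kf ρ ω ∂P := by
    have h1 : ∀ ω, φ ω * X ω ^ 2
        = ∑' x, ∑' x', (φ ω * ρ ω x * ρ ω x') * (J x ω * J x' ω) := by
      intro ω
      rw [hX, sq, ← ENNReal.tsum_mul_right, ← ENNReal.tsum_mul_left]
      refine tsum_congr fun x => ?_
      rw [← ENNReal.tsum_mul_left, ← ENNReal.tsum_mul_left]
      exact tsum_congr fun x' => by ring
    have h2 : ∀ ω, φ ω * M ω ^ 2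
        = ∑' x, ∑' x', (φ ω * ρ ω x * ρ ω x') * (m x * m x') := by
      intro ω
      rw [hM, sq, ← ENNReal.tsum_mul_right, ← ENNReal.tsum_mul_left]
      refine tsum_congr fun x => ?_
      rw [← ENNReal.tsum_mul_left, ← ENNReal.tsum_mul_left]
      exact tsum_congr fun x' => by ring
    have h3 : ∀ ω, φ ω * en Kf ρ ω
        = ∑' x, ∑' x', (φ ω * ρ ω x * ρ ω x') * Kf x x' := by
      intro ω
      rw [en, ← ENNReal.tsum_mul_left]
      refine tsum_congr fun x => ?_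
      rw [← ENNReal.tsum_mul_left]
      exact tsum_congr fun x' => by ring
    have hm2 : ∀ x x', Measurable fun ω => φ ω * ρ ω x * ρ ω x' :=
      fun x x' => (hφ0.mul (hρ0 x)).mul (hρ0 x')
    have hm3 : ∀ x x', Measurable fun ω => (φ ω * ρ ω x * ρ ω x') * (J x ω * J x' ω) :=
      fun x x' => (hm2 x x').mul ((hJ0 x).mul (hJ0 x'))
    have hm4 : ∀ x x', Measurable fun ω => (φ ω * ρ ω x * ρ ω x') * (m x * m x') :=
      fun x x' => (hm2 x x').mul_const _
    have hm5 : ∀ x x', Measurable fun ω => (φ ω * ρ ω x * ρ ω x') * Kf x x' :=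
      fun x x' => (hm2 x x').mul_const _
    simp_rw [h1, h2, h3]
    rw [lintegral_tsum (fun x => (Measurable.tsum fun x' => hm3 x x').aemeasurable),
      lintegral_tsum (fun x => (Measurable.tsum fun x' => hm4 x x').aemeasurable),
      lintegral_tsum (fun x => (Measurable.tsum fun x' => hm5 x x').aemeasurable),
      ← ENNReal.tsum_add]
    refine ENNReal.tsum_le_tsum fun x => ?_
    rw [lintegral_tsum (fun x' => (hm3 x x').aemeasurable),
      lintegral_tsum (fun x' => (hm4 x x').aemeasurable),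
      lintegral_tsum (fun x' => (hm5 x x').aemeasurable), ← ENNReal.tsum_add]
    refine ENNReal.tsum_le_tsum fun x' => ?_
    have hk1 : Measurable[A.F b] fun ω => φ ω * ρ ω x * ρ ω x' :=
      (hφ.mul (hρ.meas x)).mul (hρ.meas x')
    have hk2 : Measurable[A.H b] fun ω => J x ω * J x' ω := (hJ x).mul (hJ x')
    rw [A.indep_mul hk1 hk2,
      lintegral_mul_const _ (hm2 x x'), lintegral_mul_const _ (hm2 x x'), ← mul_add]
    by_cases hx : x ∈ A.L b
    · by_cases hx' : x' ∈ A.L b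
      · exact mul_le_mul_right (hK x hx x' hx') _
      · simp [hρ.supp _ x' hx']
    · simp [hρ.supp _ x hx]
  have hfinM : ∫⁻ ω, φ ω * M ω ^ 2 ∂P ≠ ∞ := by
    refine ne_top_of_le_ne_top hfin (lintegral_mono fun ω => ?_)
    gcongr
    exact hMt ω
  have hA1 : Measurable fun ω => φ ω * M ω * X ω := (hφ0.mul hM0).mul hX0
  have hA2 : Measurable fun ω => 2 * (φ ω * M ω * X ω) := hA1.const_mul _
  have hA3 : Measurable fun ω => φ ω * X ω ^ 2 := hφ0.mul (hX0.pow_const 2)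
  have key : 2 * ∫⁻ ω, φ ω * M ω ^ 2 ∂P + ∫⁻ ω, φ ω * (M ω - X ω) ^ 2 ∂P
      ≤ 2 * ∫⁻ ω, φ ω * M ω ^ 2 ∂P + ∫⁻ ω, φ ω * en Kf ρ ω ∂P := by
    calc 2 * ∫⁻ ω, φ ω * M ω ^ 2 ∂P + ∫⁻ ω, φ ω * (M ω - X ω) ^ 2 ∂P
        = ∫⁻ ω, (2 * (φ ω * M ω * X ω) + φ ω * (M ω - X ω) ^ 2) ∂P := by
          rw [lintegral_add_left hA2, lintegral_const_mul _ hA1, e1]
      _ ≤ ∫⁻ ω, (φ ω * X ω ^ 2 + φ ω * M ω ^ 2) ∂P := by
          refine lintegral_mono fun ω => ?_
          have h1 := two_mul_add_sq_le (a := X ω) (b := M ω)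
            (ne_top_of_le_ne_top ENNReal.one_ne_top ((hXt ω).trans (hρ1 ω)))
            (ne_top_of_le_ne_top ENNReal.one_ne_top ((hMt ω).trans (hρ1 ω)))
          calc 2 * (φ ω * M ω * X ω) + φ ω * (M ω - X ω) ^ 2
              = φ ω * (2 * (X ω * M ω) + (M ω - X ω) ^ 2) := by ring
            _ ≤ φ ω * (X ω ^ 2 + M ω ^ 2) := by gcongr
            _ = _ := by ring
      _ = ∫⁻ ω, φ ω * X ω ^ 2 ∂P + ∫⁻ ω, φ ω * M ω ^ 2 ∂P := lintegral_add_left hA3 _
      _ ≤ (∫⁻ ω, φ ω * M ω ^ 2 ∂P + ∫⁻ ω, φ ω * en Kf ρ ω ∂P) + ∫⁻ ω, φ ω * M ω ^ 2 ∂P := by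
          gcongr
      _ = _ := by ring
  exact (ENNReal.add_le_add_iff_left (ENNReal.mul_ne_top (by simp) hfinM)).1 key

/-- the marked mass of one site -/
noncomputable def mk (A : KerSys S P) (D : S → S → Prop) (b c : ℕ) (x : S) (ω : Ω) : ℝ≥0∞ :=
  ∑' y, (if D x y then A.G b c ω x y else 0)

lemma mk_meas {D : S → S → Prop} {b c : ℕ} (hbc : b ≤ c) (x : S) :
    Measurable[A.H b] (mk A D b c x) := by
  unfold mk
  refine Measurable.ennreal_tsum fun y => ?_
  by_cases h : D x y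
  · simpa [h] using A.measH b c x y hbc
  · simp [h]

lemma mk_le {D : S → S → Prop} {b c : ℕ} (hbc : b ≤ c) (x : S) (ω : Ω) : mk A D b c x ω ≤ 1 := by
  refine le_trans (ENNReal.tsum_le_tsum fun y => ?_) (A.mass b c ω x hbc)
  by_cases h : D x y <;> simp [h]

/-- composition of marked pushes -/
lemma tot_rpush_comp {D1 D2 D : S → S → Prop} (hD : ∀ x y z, D1 x y → D2 y z → D x z)
    {a b c : ℕ} (hab : a ≤ b) (hbc : b ≤ c) (w : Ω → S → ℝ≥0∞) :
    ∀ᵐ ω ∂P, ∑' y, rpush A D1 a b w ω y * mk A D2 b c y ω ≤ tot (rpush A D a c w) ω := by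
  filter_upwards [A.comp a b c hab hbc] with ω hω
  rw [tot_rpush]
  have e : ∀ y, rpush A D1 a b w ω y * mk A D2 b c y ω
      = ∑' x, w ω x * ((if D1 x y then A.G a b ω x y else 0) * mk A D2 b c y ω) := by
    intro y
    unfold rpush
    rw [← ENNReal.tsum_mul_right]
    exact tsum_congr fun x => by ring
  simp_rw [e]
  rw [ENNReal.tsum_comm]
  refine ENNReal.tsum_le_tsum fun x => ?_
  rw [ENNReal.tsum_mul_left]
  refine mul_le_mul_right ?_ _
  unfold mk
  simp_rw [← ENNReal.tsum_mul_left]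
  rw [ENNReal.tsum_comm]
  refine ENNReal.tsum_le_tsum fun z => ?_
  by_cases hz : D x z
  · simp only [hz, if_true]
    refine le_trans (ENNReal.tsum_le_tsum fun y => ?_) (hω x z)
    by_cases h1 : D1 x y
    · by_cases h2 : D2 y z
      · simp [h1, h2]
      · simp [h2]
    · simp [h1]
  · simp only [hz, if_false, nonpos_iff_eq_zero]
    rw [ENNReal.tsum_eq_zero]
    intro y
    by_cases h1 : D1 x y
    · by_cases h2 : D2 y z
      · exact absurd (hD x y z h1 h2) hz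
      · simp [h2]
    · simp [h1]

/-- **THE ROBUST JUMP, abstract**: off probability `q + 4ε/(π θ)²` the jump mass is
`≥ (π/2) θ tot w`. -/
theorem jump_abs [IsProbabilityMeasure P] {a b c : ℕ} (hab : a ≤ b) (hbc : b ≤ c)
    {w : Ω → S → ℝ≥0∞} (hw : A.Wt a w) (hw1 : ∀ ω, tot w ω ≤ 1)
    {D1 D2 D : S → S → Prop} (hD : ∀ x y z, D1 x y → D2 y z → D x z)
    {Kf : S → S → ℝ≥0∞}
    (hK : ∀ x ∈ A.L b, ∀ x' ∈ A.L b,
      ∫⁻ ω, mk A D2 b c x ω * mk A D2 b c x' ω ∂P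
        ≤ (∫⁻ ω, mk A D2 b c x ω ∂P) * (∫⁻ ω, mk A D2 b c x' ω ∂P) + Kf x x')
    {ε : ℝ≥0∞} (hε : ∀ x ∈ A.L a, ∀ x' ∈ A.L a,
      ∑' z, ∑' z', (∫⁻ ω, A.G a b ω x z * A.G a b ω x' z' ∂P) * Kf z z' ≤ ε)
    {π θ q : ℝ≥0∞} (hπ0 : π ≠ 0) (hπ1 : π ≤ 1) (hθ0 : θ ≠ 0) (hθ1 : θ ≠ ∞)
    (hmean : ∀ x ∈ A.L b, π ≤ ∫⁻ ω, mk A D2 b c x ω ∂P)
    {B : Set Ω} (hB : MeasurableSet[A.F a] B)
    (hhome : P (B ∩ {ω | tot (rpush A D1 a b w) ω < θ * tot w ω}) ≤ q * P B) :
    P (B ∩ {ω | tot (rpush A D a c w) ω < π / 2 * θ * tot w ω})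
      ≤ (q + 4 * ε / (π * θ) ^ 2) * P B := by
  set ρ := rpush A D1 a b w with hρdef
  have hρ : A.Wt b ρ := rpush_wt hab hw
  have hρpush : ∀ ω x, ρ ω x ≤ A.push a b w ω x := fun ω x => by
    refine ENNReal.tsum_le_tsum fun y => ?_
    by_cases h : D1 y x <;> simp [h]
  have hρt : ∀ ω, tot ρ ω ≤ tot w ω := fun ω =>
    (tot_rpush_le D1 a b w ω).trans (A.tot_push_le hab w ω)
  have hρ1 : ∀ ω, tot ρ ω ≤ 1 := fun ω => (hρt ω).trans (hw1 ω)
  set J : S → Ω → ℝ≥0∞ := fun x ω => mk A D2 b c x ω with hJdef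
  have hJm : ∀ x, Measurable[A.H b] (J x) := fun x => mk_meas hbc x
  have hJ1 : ∀ x ω, J x ω ≤ 1 := fun x ω => mk_le hbc x ω
  set M : Ω → ℝ≥0∞ := fun ω => ∑' x, ρ ω x * ∫⁻ ω', J x ω' ∂P with hM
  set X : Ω → ℝ≥0∞ := fun ω => ∑' x, ρ ω x * J x ω with hX
  -- normalisation
  set B' : Set Ω := B ∩ {ω | tot w ω ≠ 0} with hB'
  have hB'F : MeasurableSet[A.F a] B' :=
    hB.inter ((hw.meas_tot (measurableSet_singleton 0)).compl)
  have hB'0 : MeasurableSet B' := A.F.le a _ hB'F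
  have htt : ∀ ω, tot w ω ≠ ∞ := fun ω => ne_top_of_le_ne_top ENNReal.one_ne_top (hw1 ω)
  set φ : Ω → ℝ≥0∞ := B'.indicator fun ω => (tot w ω ^ 2)⁻¹ with hφdef
  have hφF : Measurable[A.F a] φ := ((hw.meas_tot.pow_const 2).inv).indicator hB'F
  have hφb : Measurable[A.F b] φ := hφF.mono (A.F.mono hab) le_rfl
  have hφt : ∫⁻ ω, φ ω * tot w ω ^ 2 ∂P = P B' := by
    rw [← lintegral_indicator_one hB'0]
    refine lintegral_congr fun ω => ?_
    by_cases hω : ω ∈ B'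
    · simp only [hφdef, indicator_of_mem hω, Pi.one_apply]
      exact ENNReal.inv_mul_cancel (pow_ne_zero 2 hω.2) (ENNReal.pow_ne_top (htt ω))
    · simp [hφdef, indicator_of_notMem hω]
  have hfin : ∫⁻ ω, φ ω * tot ρ ω ^ 2 ∂P ≠ ∞ := by
    refine ne_top_of_le_ne_top (measure_ne_top P B') (hφt ▸ lintegral_mono fun ω => ?_)
    gcongr
    exact hρt ω
  have hv := var_test hρ hρ1 hJm hJ1 hK hφb hfin
  have hen : ∫⁻ ω, φ ω * en Kf ρ ω ∂P ≤ ε * P B := by
    calc ∫⁻ ω, φ ω * en Kf ρ ω ∂P ≤ ∫⁻ ω, φ ω * en Kf (A.push a b w) ω ∂P := by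
          refine lintegral_mono fun ω => mul_le_mul_right ?_ _
          refine ENNReal.tsum_le_tsum fun x => ENNReal.tsum_le_tsum fun x' => ?_
          gcongr
          · exact hρpush ω x
          · exact hρpush ω x'
      _ ≤ ε * ∫⁻ ω, φ ω * tot w ω ^ 2 ∂P := en_push hab hw Kf hφF hε
      _ ≤ ε * P B := by rw [hφt]; gcongr; exact inter_subset_left
  -- Chebyshev
  have hXm : Measurable X := Measurable.ennreal_tsum fun x =>
    ((hρ.meas x).mono (A.F.le b) le_rfl).mul ((hJm x).mono (A.H_le b) le_rfl)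
  have hρm : Measurable fun ω => tot ρ ω := (hρ.meas_tot).mono (A.F.le b) le_rfl
  have hwm : Measurable fun ω => tot w ω := (hw.meas_tot).mono (A.F.le a) le_rfl
  set E : Set Ω := {ω | θ * tot w ω ≤ tot ρ ω ∧ X ω < π / 2 * θ * tot w ω} with hE
  have hEm : MeasurableSet E :=
    (measurableSet_le (hwm.const_mul _) hρm).inter (measurableSet_lt hXm (hwm.const_mul _))
  have hπt : π ≠ ∞ := ne_top_of_le_ne_top ENNReal.one_ne_top hπ1
  have l1 : (π * θ) ^ 2 / 4 * P (B' ∩ E) ≤ ε * P B := by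
    refine le_trans ?_ (hv.trans hen)
    rw [← lintegral_indicator_one (hB'0.inter hEm),
      ← lintegral_const_mul _ (measurable_one.indicator (hB'0.inter hEm))]
    refine lintegral_mono fun ω => ?_
    by_cases hω : ω ∈ B' ∩ E
    · rw [indicator_of_mem hω]
      simp only [Pi.one_apply, mul_one, hφdef, indicator_of_mem hω.1]
      have hMge : π * tot ρ ω ≤ M ω := by
        rw [tot, ← ENNReal.tsum_mul_left]
        refine ENNReal.tsum_le_tsum fun x => ?_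
        by_cases hx : x ∈ A.L b
        · rw [mul_comm]
          gcongr
          exact hmean x hx
        · simp [hρ.supp _ x hx]
      have h2 : π * (θ * tot w ω) ≤ M ω := (mul_le_mul_right hω.2.1 π).trans hMge
      have h3 : X ω ≤ π * (θ * tot w ω) / 2 := by
        refine hω.2.2.le.trans (le_of_eq ?_)
        rw [ENNReal.div_eq_inv_mul, ENNReal.div_eq_inv_mul]
        ring
      have h4 : π * (θ * tot w ω) / 2 ≤ M ω - X ω := by
        have hzt : π * (θ * tot w ω) ≠ ∞ :=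
          ENNReal.mul_ne_top hπt (ENNReal.mul_ne_top hθ1 (htt ω))
        refine ENNReal.le_sub_of_add_le_right
          (ne_top_of_le_ne_top (ENNReal.div_ne_top hzt (by norm_num)) h3) ?_
        calc π * (θ * tot w ω) / 2 + X ω
            ≤ π * (θ * tot w ω) / 2 + π * (θ * tot w ω) / 2 := by gcongr
          _ = π * (θ * tot w ω) := ENNReal.add_halves _
          _ ≤ M ω := h2
      calc (π * θ) ^ 2 / 4 = (tot w ω ^ 2)⁻¹ * (π * (θ * tot w ω) / 2) ^ 2 := by
            have h5 : (π * (θ * tot w ω) / 2) ^ 2 = (π * θ) ^ 2 / 4 * tot w ω ^ 2 := by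
              rw [ENNReal.div_eq_inv_mul, ENNReal.div_eq_inv_mul]
              have : ((2:ℝ≥0∞)⁻¹) ^ 2 = 4⁻¹ := by
                rw [← ENNReal.inv_pow]; norm_num
              rw [← this]
              ring
            rw [h5, mul_comm ((π * θ) ^ 2 / 4), ← mul_assoc,
              ENNReal.inv_mul_cancel (pow_ne_zero 2 hω.1.2) (ENNReal.pow_ne_top (htt ω)), one_mul]
        _ ≤ _ := by gcongr
    · rw [indicator_of_notMem hω]
      simp
  have hπθ0 : (π * θ) ^ 2 ≠ 0 := pow_ne_zero 2 (mul_ne_zero hπ0 hθ0)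
  have hπθt : (π * θ) ^ 2 ≠ ∞ := ENNReal.pow_ne_top (ENNReal.mul_ne_top hπt hθ1)
  have l2 : P (B' ∩ E) ≤ 4 * ε / (π * θ) ^ 2 * P B := by
    rw [← ENNReal.mul_div_right_comm, ENNReal.le_div_iff_mul_le (Or.inl hπθ0) (Or.inl hπθt)]
    calc P (B' ∩ E) * (π * θ) ^ 2 = 4 * ((π * θ) ^ 2 / 4 * P (B' ∩ E)) := by
          rw [← mul_assoc, ENNReal.mul_div_cancel (by norm_num) (by norm_num), mul_comm]
      _ ≤ 4 * (ε * P B) := by gcongr
      _ = _ := by ring
  -- union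
  have hsub : (B ∩ {ω | tot (rpush A D a c w) ω < π / 2 * θ * tot w ω} : Set Ω)
      ≤ᵐ[P] ((B ∩ {ω | tot ρ ω < θ * tot w ω}) ∪ (B' ∩ E) : Set Ω) := by
    filter_upwards [tot_rpush_comp hD hab hbc w] with ω hω h
    have h' : ω ∈ (B ∩ {ω | tot (rpush A D a c w) ω < π / 2 * θ * tot w ω} : Set Ω) := h
    obtain ⟨h1, h2⟩ := h'
    change ω ∈ ((B ∩ {ω | tot ρ ω < θ * tot w ω}) ∪ (B' ∩ E) : Set Ω)
    have h0 : tot w ω ≠ 0 := by
      intro h0
      simp only [Set.mem_setOf_eq, h0, mul_zero, not_lt_zero] at h2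
    by_cases h3 : tot ρ ω < θ * tot w ω
    · exact Or.inl ⟨h1, h3⟩
    · exact Or.inr ⟨⟨h1, h0⟩, not_lt.1 h3, lt_of_le_of_lt hω h2⟩
  refine (measure_mono_ae hsub).trans ((measure_union_le _ _).trans ?_)
  rw [add_mul]
  exact add_le_add hhome l2

end Crest.Agent.R154.Jump872
end

-- ▼ part R154/JumpB_872

/-!
Row 154, `d ≥ 3`, `κ > 0` (helper872), route 263 #36390: **HM4 = `Doc74.JUMP (kT ..)`, no open
input.**
-/

set_option autoImplicit false
set_option linter.unusedSectionVars false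
set_option linter.deprecated false
set_option linter.unusedVariables false

namespace Crest.Agent.R154.Jump872

open MeasureTheory ProbabilityTheory Set Filter
open Crest.Agent.R154.RatioR872 Crest.Agent.R154.RatioR872.KerSys
open Crest.Agent.R154.Home903 Crest.Agent.R154.Rate582 Crest.Agent.R154.Doc74
open scoped ENNReal Classical

section abs

variable {S : Type*} [Countable S] {Ω : Type*} {m0 : MeasurableSpace Ω} {P : Measure Ω}

/-- **JUMP, abstract**: from a lower bound of the annealed masses, the exponential rate of the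
quenched masses and the late pair energies. -/
theorem jUMP_of [IsProbabilityMeasure P] (A : KerSys S P)
    {p : ℝ≥0∞} (hp0 : p ≠ 0) (hp1 : p ≠ ∞) (hp : ∀ n, p ≤ A.h n)
    {lam0 C : ℝ} (hlam : 0 < lam0) (hC : 1 ≤ C)
    (hrate : ∀ (n : ℕ) (x : ℝ), 0 ≤ x →
      TL A n (ENNReal.ofReal (Real.exp (-x))) (ENNReal.ofReal (C * Real.exp (-lam0 * x))))
    (Kf : ℕ → ℕ → S → S → ℝ≥0∞)
    (hK : ∀ (b c : ℕ), b ≤ c → ∀ (D : S → S → Prop), ∀ x ∈ A.L b, ∀ x' ∈ A.L b,
      ∫⁻ ω, mk A D b c x ω * mk A D b c x' ω ∂P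
        ≤ (∫⁻ ω, mk A D b c x ω ∂P) * (∫⁻ ω, mk A D b c x' ω ∂P) + Kf b c x x')
    (hlate : ∀ (r : ℕ) (ε : ℝ≥0∞), ε ≠ 0 → ∃ s0 : ℕ, ∀ s, s0 ≤ s → ∀ n, s + n ≤ r * s →
      ∀ a, ∀ x ∈ A.L a, ∀ x' ∈ A.L a,
        ∑' z, ∑' z', (∫⁻ ω, A.G a (a + s) ω x z * A.G a (a + s) ω x' z' ∂P)
          * Kf (a + s) (a + (s + n)) z z' ≤ ε) :
    JUMP A := by
  intro π hπ0 hπ1
  have hπt : π ≠ ∞ := ne_top_of_le_ne_top ENNReal.one_ne_top hπ1
  set πr : ℝ := π.toReal with hπr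
  have hπr0 : 0 < πr := ENNReal.toReal_pos hπ0 hπt
  have hπr1 : πr ≤ 1 := by
    rw [hπr, ← ENNReal.toReal_one]
    exact ENNReal.toReal_mono ENNReal.one_ne_top hπ1
  have hC0 : 0 < C := by linarith
  have hl1 : 0 ≤ Real.log (4 / πr) := Real.log_nonneg (by
    rw [le_div_iff₀ hπr0]; linarith)
  have hl2 : 0 ≤ Real.log (4 * C) := Real.log_nonneg (by linarith)
  refine ⟨Real.log (4 / πr) + Real.log (4 * C) / lam0 + 1 / lam0, by positivity,
    fun δ hδ0 hδ1 => ?_⟩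
  set x1 : ℝ := Real.log (4 / πr) + Real.log (4 * C) / lam0 + 1 / lam0 with hx1
  set lD : ℝ := Real.log (1 / δ) with hlD
  have hlD0 : 0 ≤ lD := Real.log_nonneg (by rw [le_div_iff₀ hδ0]; linarith)
  set x : ℝ := (Real.log (4 * C) + lD) / lam0 with hx
  have hx0 : 0 ≤ x := by positivity
  set θr : ℝ := Real.exp (-x) / 2 with hθr
  have hθr0 : 0 < θr := by positivity
  set θ : ℝ≥0∞ := ENNReal.ofReal θr with hθ
  have hθ0 : θ ≠ 0 := (ENNReal.ofReal_pos.2 hθr0).ne'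
  have hθt : θ ≠ ∞ := ENNReal.ofReal_ne_top
  set δ4 : ℝ≥0∞ := ENNReal.ofReal (δ / 4) with hδ4
  have hδ40 : δ4 ≠ 0 := (ENNReal.ofReal_pos.2 (by positivity)).ne'
  have hδ4t : δ4 ≠ ∞ := ENNReal.ofReal_ne_top
  have hq1 : C * Real.exp (-lam0 * x) = δ / 4 := by
    have e1 : -lam0 * x = -(Real.log (4 * C) + lD) := by
      rw [hx]; field_simp
    rw [e1, neg_add, Real.exp_add, Real.exp_neg, Real.exp_log (by positivity), hlD,
      one_div, Real.log_inv, neg_neg, Real.exp_log hδ0]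
    field_simp
  refine ⟨δ4 * θ * p, mul_ne_zero (mul_ne_zero hδ40 hθ0) hp0, fun r => ?_⟩
  set ε : ℝ≥0∞ := δ4 * (π * θ) ^ 2 / 4 with hεdef
  have hπθ0 : (π * θ) ^ 2 ≠ 0 := pow_ne_zero 2 (mul_ne_zero hπ0 hθ0)
  have hπθt : (π * θ) ^ 2 ≠ ∞ := ENNReal.pow_ne_top (ENNReal.mul_ne_top hπt hθt)
  have hε0 : ε ≠ 0 := (ENNReal.div_pos (mul_ne_zero hδ40 hπθ0) (by norm_num)).ne'
  obtain ⟨s0, hs0⟩ := hlate r ε hε0
  refine ⟨s0, fun s hs n hn φ Δ hjt hth a w B hB hw hw1 => ?_⟩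
  have hab : a ≤ a + s := Nat.le_add_right _ _
  have hbc : a + s ≤ a + (s + n) := by omega
  -- home part
  have hhome : P (B ∩ {ω | tot (rpush A (Hm φ Δ) a (a + s) w) ω < θ * tot w ω})
      ≤ (δ4 + δ4) * P B := by
    obtain ⟨Bd, g1, g2, g3⟩ := hth a (a + s) hab le_rfl
    set Bd' : S → Ω → ℝ≥0∞ := fun x => if x ∈ A.L a then Bd x else fun _ => ∞ with hBd'
    set B' : Set Ω := B ∩ {ω | tot w ω ≠ 0} with hB'
    have hB'F : MeasurableSet[A.F a] B' :=
      hB.inter ((hw.meas_tot (measurableSet_singleton 0)).compl)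
    have h1 := home_norm (A := A) (a := a) (c := a + s) (D := fun _ => Hm φ Δ) hw hB'F
      (fun ω hω => hω.2) (fun ω _ => ne_top_of_le_ne_top ENNReal.one_ne_top (hw1 ω)) hθ0 hθt
      (Bd := Bd') (ν := δ4 * θ * p) (p := p)
      (fun x => by
        by_cases hx : x ∈ A.L a
        · simpa [hBd', hx] using g1 x
        · simp [hBd', hx])
      (fun x hx => by simpa [hBd', hx] using g2 x hx)
      (fun b e1 e2 => by
        filter_upwards [g3 b e1 e2] with ω hω x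
        by_cases hx : x ∈ A.L a
        · simpa [hBd', hx] using hω x hx
        · simp [hBd', hx])
      hp0 hp1 (fun n _ => hp n)
    have h2 := hrate s x hx0 a w hw hw1 B hB
    rw [hq1] at h2
    have h3 : δ4 * θ * p / p / θ = δ4 := by
      rw [ENNReal.mul_div_cancel_right hp0 hp1, ENNReal.mul_div_cancel_right hθ0 hθt]
    rw [h3] at h1
    have h4 : B ∩ {ω | tot (rpush A (Hm φ Δ) a (a + s) w) ω < θ * tot w ω}
        ⊆ B' ∩ {ω | ∃ b, a ≤ b ∧ b ≤ a + s ∧ tot (rpush A (Hm φ Δ) a b w) ω < θ * tot w ω} := by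
      rintro ω ⟨e1, e2⟩
      have e2' : tot (rpush A (Hm φ Δ) a (a + s) w) ω < θ * tot w ω := e2
      refine ⟨⟨e1, fun h0 => ?_⟩, a + s, hab, le_rfl, e2'⟩
      rw [h0, mul_zero] at e2'
      exact absurd e2' not_lt_zero
    have h5 : B' ∩ {ω | tot (A.push a (a + s) w) ω < 2 * (θ * tot w ω)}
        ⊆ B ∩ Bad A a s w (ENNReal.ofReal (Real.exp (-x))) := by
      rintro ω ⟨e1, e2⟩
      refine ⟨e1.1, e1.2, ?_⟩
      have e2' : tot (A.push a (a + s) w) ω < 2 * (θ * tot w ω) := e2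
      refine e2'.le.trans (le_of_eq ?_)
      rw [← mul_assoc]
      congr 1
      rw [hθ, hθr, show (2:ℝ≥0∞) = ENNReal.ofReal 2 by simp, ← ENNReal.ofReal_mul (by norm_num)]
      congr 1
      ring
    refine (measure_mono h4).trans (h1.trans ?_)
    rw [add_mul]
    refine add_le_add ((measure_mono h5).trans h2) ?_
    gcongr
    exact inter_subset_left
  have hmean : ∀ x ∈ A.L (a + s), π ≤ ∫⁻ ω, mk A (Jp φ (2 * Δ)) (a + s) (a + (s + n)) x ω ∂P := by
    intro x hx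
    have := hjt (a + s) x hx
    rw [add_assoc] at this
    exact this
  have hmain := jump_abs (A := A) hab hbc hw hw1 (D1 := Hm φ Δ) (D2 := Jp φ (2 * Δ))
    (D := Jp φ Δ) (fun x y z h1 h2 => by
      have h := Hm_Jp h1 h2
      rwa [show 2 * Δ - Δ = Δ by ring] at h)
    (hK (a + s) (a + (s + n)) hbc (Jp φ (2 * Δ))) (hs0 s hs n hn a) hπ0 hπ1 hθ0 hθt hmean hB hhome
  have hlast : 4 * ε / (π * θ) ^ 2 = δ4 := by
    rw [hεdef, ENNReal.mul_div_cancel (by norm_num) (by norm_num),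
      ENNReal.mul_div_cancel_right hπθ0 hπθt]
  rw [hlast] at hmain
  have hsum : δ4 + δ4 + δ4 ≤ ENNReal.ofReal δ := by
    rw [hδ4, ← ENNReal.ofReal_add (by positivity) (by positivity),
      ← ENNReal.ofReal_add (by positivity) (by positivity)]
    exact ENNReal.ofReal_le_ofReal (by linarith)
  refine le_trans (measure_mono ?_) (hmain.trans (mul_le_mul_left hsum _))
  rintro ω ⟨e1, e2⟩
  have e2' : tot (rpush A (Jp φ Δ) a (a + (s + n)) w) ω
    < ENNReal.ofReal (Real.exp (-(x1 * (1 + lD)))) * tot w ω := e2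
  refine ⟨e1, ?_⟩
  change tot (rpush A (Jp φ Δ) a (a + (s + n)) w) ω < π / 2 * θ * tot w ω
  refine lt_of_lt_of_le e2' (mul_le_mul_left ?_ _)
  have e3 : π / 2 * θ = ENNReal.ofReal (πr / 2 * θr) := by
    rw [ENNReal.ofReal_mul (by positivity), ENNReal.ofReal_div_of_pos (by norm_num), hπr,
      ENNReal.ofReal_toReal hπt]
    simp [hθ]
  rw [e3]
  refine ENNReal.ofReal_le_ofReal ?_
  have e4 : πr / 2 * θr = Real.exp (-(Real.log (4 / πr) + x)) := by
    rw [neg_add, Real.exp_add, Real.exp_neg, Real.exp_log (by positivity), hθr]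
    field_simp
    norm_num
  rw [e4]
  refine Real.exp_le_exp.2 (neg_le_neg ?_)
  rw [hx, hx1, add_div]
  have e5 : 0 ≤ (Real.log (4 / πr) + Real.log (4 * C) / lam0) * lD :=
    mul_nonneg (by positivity) hlD0
  have e6 : 0 ≤ 1 / lam0 := by positivity
  have e7 : lD / lam0 = 1 / lam0 * lD := by ring
  nlinarith

end abs

section inst

open Crest.ProbabilityR.RandomEnvironment Crest.Agent.R154.Q561 Crest.Agent.R154.Ren263
open Crest.Agent.R154.Mk561 Crest.Agent.R154.JumpK618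
open Crest.Agent.R154.Flux132 (lev)
open Crest.Agent.R154.D2Asm244 (kT)

variable {d : ℕ} {Q : Measure (Environment d)} [IsProbabilityMeasure Q] {κ : ℝ} {R : ℕ}

/-- **HM4**: the robust jump, no open input (`κ > 0`). -/
theorem jUMP_kT (F : Bind263.Frame Q κ R) (hd : 3 ≤ d) (u : Step d)
    (hA : annealedProb Q 0 (escapeEvent (B2d.dirVec u)) ≠ 0) (hHalf : KB424.Half κ Q)
    (hk : 0 < kf d κ) : JUMP (kT u R κ Q F.stat F.fin) := by
  obtain ⟨p, hp0, hp⟩ := exists_p F u hA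
  obtain ⟨lam0, C, hl, hC, hrate⟩ := RateT582.rate_real F u hA hk
  obtain ⟨n0, hL⟩ := KB424.lateHyp F hd hA hHalf
  have hG : ∀ (a b : ℕ) (ω : Environment d) (x y : Site d), lev u x = a →
      (kT u R κ Q F.stat F.fin).G a b ω x y = gk u R κ b ω x y := by
    intro a b ω x y hx
    change (if lev u x = a then gk u R κ b ω x y else 0) = _
    rw [if_pos hx]
  refine jUMP_of (kT u R κ Q F.stat F.fin) hp0 ?_ hp hl hC hrate (Kc u R κ Q) ?_ ?_
  · exact ne_top_of_le_ne_top ENNReal.one_ne_top ((hp 0).trans (D2Asm244.h_le F u 0))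
  · intro b c hbc D x hx x' hx'
    have hx0 : lev u x = b := hx
    have hx0' : lev u x' = b := hx'
    have e : ∀ z : Site d, lev u z = b → ∀ ω,
        mk (kT u R κ Q F.stat F.fin) D b c z ω = Nd u R κ {v | D z (z + v)} c ω z := by
      intro z hz ω
      unfold mk Nd
      refine tsum_congr fun y => ?_
      have e1 : y - z ∈ {v : Site d | D z (z + v)} ↔ D z y := by
        change D z (z + (y - z)) ↔ D z y
        rw [add_sub_cancel]
      rw [hG b c ω z y hz]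
      by_cases h : D z y
      · rw [if_pos h, if_pos (e1.2 h)]
      · rw [if_neg h, if_neg (fun h' => h (e1.1 h'))]
    simp_rw [e x hx0, e x' hx0']
    rw [first_mark u R κ Q F.stat _ hbc hx0, first_mark u R κ Q F.stat _ hbc hx0']
    exact second_mark u R κ Q F.stat F.fin _ _ b c x x' hbc hx0 hx0'
  · intro r ε hε
    refine ⟨n0 r ε, fun s hs n hn a x hx x' hx' => ?_⟩
    have hx0 : lev u x = a := hx
    have hx0' : lev u x' = a := hx'
    have e : ∀ z z' : Site d, (∫⁻ ω, (kT u R κ Q F.stat F.fin).G a (a + s) ω x z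
        * (kT u R κ Q F.stat F.fin).G a (a + s) ω x' z' ∂Q)
        = ∫⁻ ω, gk u R κ (a + s : ℕ) ω x z * gk u R κ (a + s : ℕ) ω x' z' ∂Q := by
      intro z z'
      refine lintegral_congr fun ω => ?_
      rw [hG a (a + s) ω x z hx0, hG a (a + s) ω x' z' hx0']
    simp_rw [e]
    refine (energy_le u R κ Q F.fin (by omega : a + s ≤ a + (s + n)) hx0 hx0').trans ?_
    have := hL r ε hε s hs n hn ⟨(x, x'), hx0.trans hx0'.symm⟩
    rwa [show a + (s + n) - a = s + n by omega]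

end inst

end Crest.Agent.R154.Jump872
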