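import Mathlib
import Crest.Agent.R154.B4LP_573
import Crest.Agent.R154.InitK_272
import Crest.Agent.R154.TileInst2_333

-- ▼ part R154/Shear_284
section

/-!
Row 154, TILE: shear lemma (ham sandwich for two laws separated by a vertical strip).  Two finite
measures, one with first coordinate `≥ a`, the other with first coordinate `≤ -a`: there are a slope
`s` and a shift `d` such that `Y - s X` has median `d` under both.  Mathlib only.
-/

set_option autoImplicit false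

namespace Crest.Agent.R154.Shear284

open MeasureTheory Set Filter
open scoped Topology

variable {Ω : Type*} [MeasurableSpace Ω]

lemma closed_ge (μ : Measure Ω) [IsFiniteMeasure μ] {Z : Ω → ℝ} (hZ : Measurable Z) {m e : ℝ}
    (h : ∀ δ : ℝ, 0 < δ → m ≤ μ.real {ω | e - δ ≤ Z ω}) : m ≤ μ.real {ω | e ≤ Z ω} := by
  have h1 : Tendsto (fun k : ℕ => μ.real {ω | e - 1 / ((k : ℝ) + 1) ≤ Z ω}) atTop
      (𝓝 (μ.real {ω | e ≤ Z ω})) := by
    have h2 : {ω | e ≤ Z ω} = ⋂ k : ℕ, {ω | e - 1 / ((k : ℝ) + 1) ≤ Z ω} := by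
      ext ω
      simp only [mem_ofPred_eq, mem_iInter]
      constructor
      · intro h k
        have : 0 < 1 / ((k : ℝ) + 1) := by positivity
        linarith
      · intro h
        refine le_of_forall_pos_le_add fun ε hε => ?_
        obtain ⟨k, hk⟩ := exists_nat_one_div_lt hε
        have := h k
        linarith
    rw [h2]
    have h3 := tendsto_measure_iInter_atTop (μ := μ)
      (s := fun k : ℕ => {ω | e - 1 / ((k : ℝ) + 1) ≤ Z ω})
      (fun k => (measurableSet_le measurable_const hZ).nullMeasurableSet)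
      (fun i j hij ω hω => by
        simp only [mem_ofPred_eq] at hω ⊢
        have : 1 / ((j : ℝ) + 1) ≤ 1 / ((i : ℝ) + 1) := by
          apply one_div_le_one_div_of_le (by positivity)
          have : (i : ℝ) ≤ j := by exact_mod_cast hij
          linarith
        linarith) ⟨0, measure_ne_top _ _⟩
    exact (ENNReal.tendsto_toReal (measure_ne_top _ _)).comp h3
  exact ge_of_tendsto' h1 fun k => h _ (by positivity)

lemma closed_le (μ : Measure Ω) [IsFiniteMeasure μ] {Z : Ω → ℝ} (hZ : Measurable Z) {m e : ℝ}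
    (h : ∀ δ : ℝ, 0 < δ → m ≤ μ.real {ω | Z ω ≤ e + δ}) : m ≤ μ.real {ω | Z ω ≤ e} := by
  have := closed_ge μ (Z := fun ω => -Z ω) hZ.neg (m := m) (e := -e) (fun δ hδ => by
    refine (h δ hδ).trans (measureReal_mono ?_)
    intro ω hω
    simp only [mem_ofPred_eq] at hω ⊢
    linarith)
  refine this.trans (measureReal_mono ?_)
  intro ω hω
  simp only [mem_ofPred_eq] at hω ⊢
  linarith

lemma ae_full (μ : Measure Ω) [IsFiniteMeasure μ] {p : Ω → Prop} (h : ∀ᵐ ω ∂μ, p ω) :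
    μ.real {ω | p ω} = μ.real univ := by
  apply measureReal_congr
  filter_upwards [h] with ω hω
  exact propext ⟨fun _ => trivial, fun _ => hω⟩

lemma ae_empty (μ : Measure Ω) [IsFiniteMeasure μ] {p : Ω → Prop} (h : ∀ᵐ ω ∂μ, ¬ p ω) :
    μ.real {ω | p ω} = 0 := by
  have : μ {ω | p ω} = 0 := by
    rw [ae_iff] at h
    simpa using h
  simp [Measure.real, this]

lemma half_of_lt (μ : Measure Ω) [IsFiniteMeasure μ] {S T : Set Ω} (hS : MeasurableSet S)
    (h : μ.real S < μ.real univ / 2) (hT : Sᶜ ⊆ T) : μ.real univ / 2 ≤ μ.real T := by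
  have h1 : μ.real Sᶜ = μ.real univ - μ.real S := measureReal_compl hS
  have h2 := measureReal_mono (μ := μ) hT
  linarith

lemma median (μ : Measure Ω) [IsFiniteMeasure μ] (h0 : 0 < μ.real univ) {Z : Ω → ℝ}
    (hZ : Measurable Z) {M : ℝ} (hM : ∀ᵐ ω ∂μ, |Z ω| ≤ M) :
    ∃ d : ℝ, |d| ≤ M ∧ μ.real univ / 2 ≤ μ.real {ω | d ≤ Z ω} ∧
      μ.real univ / 2 ≤ μ.real {ω | Z ω ≤ d} := by
  set A : Set ℝ := {t | μ.real univ / 2 ≤ μ.real {ω | t ≤ Z ω}} with hA
  have h1 : -M ∈ A := by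
    have : μ.real {ω | -M ≤ Z ω} = μ.real univ := by
      apply ae_full
      filter_upwards [hM] with ω hω
      exact (abs_le.1 hω).1
    simp only [hA, mem_ofPred_eq, this]
    linarith
  have h2 : ∀ t ∈ A, t ≤ M := by
    intro t ht
    by_contra hc
    push Not at hc
    have : μ.real {ω | t ≤ Z ω} = 0 := by
      apply ae_empty
      filter_upwards [hM] with ω hω
      have := (abs_le.1 hω).2
      push Not
      linarith
    simp only [hA, mem_ofPred_eq, this] at ht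
    linarith
  have hbdd : BddAbove A := ⟨M, h2⟩
  set d := sSup A with hd
  have hd1 : -M ≤ d := le_csSup hbdd h1
  have hd2 : d ≤ M := csSup_le ⟨_, h1⟩ h2
  refine ⟨d, abs_le.2 ⟨hd1, hd2⟩, ?_, ?_⟩
  · apply closed_ge μ hZ
    intro δ hδ
    obtain ⟨t, ht, ht'⟩ := exists_lt_of_lt_csSup ⟨_, h1⟩ (show d - δ < sSup A by linarith)
    refine (show μ.real univ / 2 ≤ μ.real {ω | t ≤ Z ω} from ht).trans (measureReal_mono ?_)
    intro ω hω
    simp only [mem_ofPred_eq] at hω ⊢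
    linarith
  · apply closed_le μ hZ
    intro δ hδ
    have h3 : d + δ ∉ A := fun h => by
      have := le_csSup hbdd h
      linarith
    simp only [hA, mem_ofPred_eq, not_le] at h3
    refine half_of_lt μ (measurableSet_le measurable_const hZ) h3 ?_
    intro ω hω
    simp only [mem_compl_iff, mem_ofPred_eq, not_le] at hω ⊢
    exact hω.le

lemma lim_ge (μ : Measure Ω) [IsFiniteMeasure μ] {X Y : Ω → ℝ} (hX : Measurable X)
    (hY : Measurable Y) {A m : ℝ} (hXA : ∀ᵐ ω ∂μ, |X ω| ≤ A) {s e : ℕ → ℝ} {s₀ e₀ : ℝ}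
    (hs : Tendsto s atTop (𝓝 s₀)) (he : Tendsto e atTop (𝓝 e₀))
    (h : ∀ k, m ≤ μ.real {ω | e k ≤ Y ω - s k * X ω}) :
    m ≤ μ.real {ω | e₀ ≤ Y ω - s₀ * X ω} := by
  apply closed_ge μ (Z := fun ω => Y ω - s₀ * X ω) (hY.sub (hX.const_mul s₀))
  intro δ hδ
  have h1 : Tendsto (fun k => (e₀ - e k) + |s k - s₀| * A) atTop (𝓝 ((e₀ - e₀) + |s₀ - s₀| * A)) :=
    (tendsto_const_nhds.sub he).add (((hs.sub_const s₀).abs).mul_const A)
  simp only [sub_self, abs_zero, zero_mul, add_zero] at h1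
  obtain ⟨k, hk⟩ := (h1.eventually (gt_mem_nhds hδ)).exists
  refine (h k).trans ?_
  refine ENNReal.toReal_mono (measure_ne_top _ _) (measure_mono_ae ?_)
  filter_upwards [hXA] with ω hω h2
  have h3 : -(|s k - s₀| * A) ≤ (s k - s₀) * X ω := by
    have h4 : |(s k - s₀) * X ω| ≤ |s k - s₀| * A := by
      rw [abs_mul]
      exact mul_le_mul_of_nonneg_left hω (abs_nonneg _)
    exact (abs_le.1 h4).1
  change e₀ - δ ≤ Y ω - s₀ * X ω
  have h5 : e k ≤ Y ω - s k * X ω := h2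
  nlinarith

lemma lim_le (μ : Measure Ω) [IsFiniteMeasure μ] {X Y : Ω → ℝ} (hX : Measurable X)
    (hY : Measurable Y) {A m : ℝ} (hXA : ∀ᵐ ω ∂μ, |X ω| ≤ A) {s e : ℕ → ℝ} {s₀ e₀ : ℝ}
    (hs : Tendsto s atTop (𝓝 s₀)) (he : Tendsto e atTop (𝓝 e₀))
    (h : ∀ k, m ≤ μ.real {ω | Y ω - s k * X ω ≤ e k}) :
    m ≤ μ.real {ω | Y ω - s₀ * X ω ≤ e₀} := by
  have := lim_ge μ (X := fun ω => -X ω) (Y := fun ω => -Y ω) hX.neg hY.neg (A := A) (m := m)
    (by simpa using hXA) (s := s) (e := fun k => - e k) (s₀ := s₀) (e₀ := -e₀) hs he.neg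
    (fun k => (h k).trans (measureReal_mono (fun ω hω => by
      simp only [mem_ofPred_eq] at hω ⊢
      linarith)))
  refine this.trans (measureReal_mono ?_)
  intro ω hω
  simp only [mem_ofPred_eq] at hω ⊢
  linarith

/-- **Shear lemma.** -/
theorem shear (μ ν : Measure Ω) [IsFiniteMeasure μ] [IsFiniteMeasure ν]
    (hμ0 : 0 < μ.real univ) (hν0 : 0 < ν.real univ) {X Y : Ω → ℝ} (hX : Measurable X)
    (hY : Measurable Y) {a A W : ℝ} (ha : 0 < a) (hW : 0 ≤ W)
    (hμ : ∀ᵐ ω ∂μ, (a ≤ X ω ∧ X ω ≤ A) ∧ |Y ω| ≤ W)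
    (hν : ∀ᵐ ω ∂ν, (a ≤ -X ω ∧ -X ω ≤ A) ∧ |Y ω| ≤ W) :
    ∃ s d : ℝ, |s| ≤ W / a ∧ |d| ≤ W + (W / a + 1) * A ∧
      μ.real univ / 2 ≤ μ.real {ω | d ≤ Y ω - s * X ω} ∧
      μ.real univ / 2 ≤ μ.real {ω | Y ω - s * X ω ≤ d} ∧
      ν.real univ / 2 ≤ ν.real {ω | d ≤ Y ω - s * X ω} ∧
      ν.real univ / 2 ≤ ν.real {ω | Y ω - s * X ω ≤ d} := by
  have hA0 : a ≤ A := by
    by_contra hc
    push Not at hc
    have : μ.real {ω : Ω | True} = 0 := by
      apply ae_empty
      filter_upwards [hμ] with ω hω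
      exact fun _ => by linarith [hω.1.1, hω.1.2]
    simp only [ofPred_true] at this
    linarith
  set M := W + (W / a + 1) * A with hMdef
  have hWa : 0 ≤ W / a := by positivity
  have hZm : ∀ s : ℝ, Measurable fun ω => Y ω - s * X ω := fun s => hY.sub (hX.const_mul s)
  have hbμ : ∀ s : ℝ, |s| ≤ W / a + 1 → ∀ᵐ ω ∂μ, |Y ω - s * X ω| ≤ M := by
    intro s hs
    filter_upwards [hμ] with ω hω
    have h1 : |s * X ω| ≤ (W / a + 1) * A := by
      rw [abs_mul]
      apply mul_le_mul hs _ (abs_nonneg _) (by linarith)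
      rw [abs_of_nonneg (by linarith [hω.1.1])]
      exact hω.1.2
    have h2 := abs_sub (Y ω) (s * X ω)
    linarith [hω.2]
  have hbν : ∀ s : ℝ, |s| ≤ W / a + 1 → ∀ᵐ ω ∂ν, |Y ω - s * X ω| ≤ M := by
    intro s hs
    filter_upwards [hν] with ω hω
    have h1 : |s * X ω| ≤ (W / a + 1) * A := by
      rw [abs_mul]
      apply mul_le_mul hs _ (abs_nonneg _) (by linarith)
      rw [← abs_neg, abs_of_nonneg (by linarith [hω.1.1])]
      exact hω.1.2
    have h2 := abs_sub (Y ω) (s * X ω)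
    linarith [hω.2]
  set B : Set ℝ := {s | ∃ d : ℝ, μ.real univ / 2 ≤ μ.real {ω | d ≤ Y ω - s * X ω} ∧
    ν.real univ / 2 ≤ ν.real {ω | Y ω - s * X ω ≤ d}} with hB
  have hB1 : -(W / a) ∈ B := by
    refine ⟨0, ?_, ?_⟩
    · have : μ.real {ω | 0 ≤ Y ω - -(W / a) * X ω} = μ.real univ := by
        apply ae_full
        filter_upwards [hμ] with ω hω
        have h1 : W ≤ W / a * X ω := by
          have := mul_le_mul_of_nonneg_left hω.1.1 hWa
          rwa [div_mul_cancel₀ _ ha.ne'] at this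
        have := (abs_le.1 hω.2).1
        linarith
      rw [this]; linarith
    · have : ν.real {ω | Y ω - -(W / a) * X ω ≤ 0} = ν.real univ := by
        apply ae_full
        filter_upwards [hν] with ω hω
        have h1 : W ≤ W / a * (-X ω) := by
          have := mul_le_mul_of_nonneg_left hω.1.1 hWa
          rwa [div_mul_cancel₀ _ ha.ne'] at this
        have := (abs_le.1 hω.2).2
        linarith
      rw [this]; linarith
  have hB2 : ∀ s ∈ B, s ≤ W / a := by
    rintro s ⟨d, hd1, hd2⟩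
    by_contra hc
    push Not at hc
    have hs : W < s * a := by rwa [div_lt_iff₀ ha] at hc
    have hs0 : 0 < s := lt_of_le_of_lt hWa hc
    have h1 : d ≤ W - s * a := by
      by_contra h
      push Not at h
      have : μ.real {ω | d ≤ Y ω - s * X ω} = 0 := by
        apply ae_empty
        filter_upwards [hμ] with ω hω
        have h3 := mul_le_mul_of_nonneg_left hω.1.1 hs0.le
        have := (abs_le.1 hω.2).2
        push Not
        linarith
      linarith
    have h2 : s * a - W ≤ d := by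
      by_contra h
      push Not at h
      have : ν.real {ω | Y ω - s * X ω ≤ d} = 0 := by
        apply ae_empty
        filter_upwards [hν] with ω hω
        have h3 := mul_le_mul_of_nonneg_left hω.1.1 hs0.le
        have := (abs_le.1 hω.2).1
        push Not
        linarith
      linarith
    linarith
  have hbdd : BddAbove B := ⟨_, hB2⟩
  set s₀ := sSup B with hs₀
  have hs1 : -(W / a) ≤ s₀ := le_csSup hbdd hB1
  have hs2 : s₀ ≤ W / a := csSup_le ⟨_, hB1⟩ hB2
  have hAX : ∀ᵐ ω ∂μ, |X ω| ≤ A := by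
    filter_upwards [hμ] with ω hω
    rw [abs_of_nonneg (by linarith [hω.1.1])]
    exact hω.1.2
  have hAX' : ∀ᵐ ω ∂ν, |X ω| ≤ A := by
    filter_upwards [hν] with ω hω
    rw [← abs_neg, abs_of_nonneg (by linarith [hω.1.1])]
    exact hω.1.2
  -- points of `B`
  have hE : ∀ s ∈ B, |s| ≤ W / a + 1 → ∃ e : ℝ, |e| ≤ M ∧
      μ.real univ / 2 ≤ μ.real {ω | e ≤ Y ω - s * X ω} ∧
      ν.real univ / 2 ≤ ν.real {ω | e ≤ Y ω - s * X ω} ∧
      ν.real univ / 2 ≤ ν.real {ω | Y ω - s * X ω ≤ e} := by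
    rintro s ⟨d, hd1, hd2⟩ hs
    obtain ⟨m, hm1, hm2, hm3⟩ := median ν hν0 (hZm s) (hbν s hs)
    rcases le_or_gt m d with hmd | hmd
    · refine ⟨m, hm1, hd1.trans (measureReal_mono ?_), hm2, hm3⟩
      intro ω hω
      simp only [mem_ofPred_eq] at hω ⊢
      linarith
    · refine ⟨d, ?_, hd1, hm2.trans (measureReal_mono ?_), hd2⟩
      · rw [abs_le]
        refine ⟨?_, hmd.le.trans (abs_le.1 hm1).2⟩
        by_contra hc
        push Not at hc
        have : ν.real {ω | Y ω - s * X ω ≤ d} = 0 := by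
          apply ae_empty
          filter_upwards [hbν s hs] with ω hω
          have := (abs_le.1 hω).1
          push Not
          linarith
        linarith
      · intro ω hω
        simp only [mem_ofPred_eq] at hω ⊢
        linarith
  -- points outside `B`
  have hD : ∀ s : ℝ, s ∉ B → |s| ≤ W / a + 1 → ∃ d : ℝ, |d| ≤ M ∧
      μ.real univ / 2 ≤ μ.real {ω | d ≤ Y ω - s * X ω} ∧
      μ.real univ / 2 ≤ μ.real {ω | Y ω - s * X ω ≤ d} ∧
      ν.real univ / 2 ≤ ν.real {ω | d ≤ Y ω - s * X ω} := by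
    intro s hsB hs
    obtain ⟨m, hm1, hm2, hm3⟩ := median μ hμ0 (hZm s) (hbμ s hs)
    refine ⟨m, hm1, hm2, hm3, ?_⟩
    have h1 : ν.real {ω | Y ω - s * X ω ≤ m} < ν.real univ / 2 := by
      by_contra hc
      push Not at hc
      exact hsB ⟨m, hm2, hc⟩
    refine half_of_lt ν (measurableSet_le (hZm s) measurable_const) h1 ?_
    intro ω hω
    simp only [mem_compl_iff, mem_ofPred_eq, not_le] at hω ⊢
    exact hω.le
  -- limit from below
  have hlow : ∃ e : ℝ, |e| ≤ M ∧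
      μ.real univ / 2 ≤ μ.real {ω | e ≤ Y ω - s₀ * X ω} ∧
      ν.real univ / 2 ≤ ν.real {ω | e ≤ Y ω - s₀ * X ω} ∧
      ν.real univ / 2 ≤ ν.real {ω | Y ω - s₀ * X ω ≤ e} := by
    have h1 : ∀ k : ℕ, ∃ s ∈ B, s₀ - 1 / ((k : ℝ) + 1) < s ∧ s ≤ s₀ := by
      intro k
      have : 0 < 1 / ((k : ℝ) + 1) := by positivity
      obtain ⟨t, ht, ht'⟩ := exists_lt_of_lt_csSup ⟨_, hB1⟩
        (show s₀ - 1 / ((k : ℝ) + 1) < sSup B by linarith)
      exact ⟨t, ht, ht', le_csSup hbdd ht⟩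
    choose s hsB hs3 hs4 using h1
    have hs5 : ∀ k, |s k| ≤ W / a + 1 := by
      intro k
      have h2 : 1 / ((k : ℝ) + 1) ≤ 1 := by
        rw [div_le_one (by positivity)]
        have : (0 : ℝ) ≤ k := Nat.cast_nonneg k
        linarith
      rw [abs_le]
      exact ⟨by linarith [hs3 k], by linarith [hs4 k]⟩
    have hs6 : Tendsto s atTop (𝓝 s₀) := by
      have h3 : Tendsto (fun k : ℕ => s₀ - 1 / ((k : ℝ) + 1)) atTop (𝓝 (s₀ - 0)) :=
        tendsto_const_nhds.sub tendsto_one_div_add_atTop_nhds_zero_nat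
      rw [sub_zero] at h3
      exact tendsto_of_tendsto_of_tendsto_of_le_of_le h3 tendsto_const_nhds
        (fun k => (hs3 k).le) hs4
    choose e he1 he2 he3 he4 using fun k => hE (s k) (hsB k) (hs5 k)
    obtain ⟨e₀, he₀, φ, hφ, hlim⟩ := isCompact_Icc.tendsto_subseq
      (fun k => (show e k ∈ Icc (-M) M from abs_le.1 (he1 k)))
    have hs7 := hs6.comp hφ.tendsto_atTop
    refine ⟨e₀, abs_le.2 he₀, ?_, ?_, ?_⟩
    · exact lim_ge μ hX hY hAX hs7 hlim fun k => he2 (φ k)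
    · exact lim_ge ν hX hY hAX' hs7 hlim fun k => he3 (φ k)
    · exact lim_le ν hX hY hAX' hs7 hlim fun k => he4 (φ k)
  -- limit from above
  have hupp : ∃ e : ℝ, |e| ≤ M ∧
      μ.real univ / 2 ≤ μ.real {ω | e ≤ Y ω - s₀ * X ω} ∧
      μ.real univ / 2 ≤ μ.real {ω | Y ω - s₀ * X ω ≤ e} ∧
      ν.real univ / 2 ≤ ν.real {ω | e ≤ Y ω - s₀ * X ω} := by
    set s : ℕ → ℝ := fun k => s₀ + 1 / ((k : ℝ) + 1) with hs
    have hsB : ∀ k, s k ∉ B := by
      intro k h
      have h1 := le_csSup hbdd h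
      have : 0 < 1 / ((k : ℝ) + 1) := by positivity
      have h2 : s k = s₀ + 1 / ((k : ℝ) + 1) := rfl
      linarith
    have hs5 : ∀ k, |s k| ≤ W / a + 1 := by
      intro k
      have h2 : 1 / ((k : ℝ) + 1) ≤ 1 := by
        rw [div_le_one (by positivity)]
        have : (0 : ℝ) ≤ k := Nat.cast_nonneg k
        linarith
      have h3 : 0 < 1 / ((k : ℝ) + 1) := by positivity
      have h4 : s k = s₀ + 1 / ((k : ℝ) + 1) := rfl
      rw [abs_le]
      exact ⟨by linarith, by linarith⟩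
    have hs6 : Tendsto s atTop (𝓝 s₀) := by
      have h3 : Tendsto (fun k : ℕ => s₀ + 1 / ((k : ℝ) + 1)) atTop (𝓝 (s₀ + 0)) :=
        tendsto_const_nhds.add tendsto_one_div_add_atTop_nhds_zero_nat
      rw [add_zero] at h3
      exact h3
    choose e he1 he2 he3 he4 using fun k => hD (s k) (hsB k) (hs5 k)
    obtain ⟨e₀, he₀, φ, hφ, hlim⟩ := isCompact_Icc.tendsto_subseq
      (fun k => (show e k ∈ Icc (-M) M from abs_le.1 (he1 k)))
    have hs7 := hs6.comp hφ.tendsto_atTop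
    refine ⟨e₀, abs_le.2 he₀, ?_, ?_, ?_⟩
    · exact lim_ge μ hX hY hAX hs7 hlim fun k => he2 (φ k)
    · exact lim_le μ hX hY hAX hs7 hlim fun k => he3 (φ k)
    · exact lim_ge ν hX hY hAX' hs7 hlim fun k => he4 (φ k)
  obtain ⟨e, he1, he2, he3, he4⟩ := hlow
  obtain ⟨d, hd1, hd2, hd3, hd4⟩ := hupp
  have hsabs : |s₀| ≤ W / a := abs_le.2 ⟨hs1, hs2⟩
  rcases le_or_gt e d with hed | hed
  · refine ⟨s₀, d, hsabs, hd1, hd2, hd3, hd4, he4.trans (measureReal_mono ?_)⟩
    intro ω hω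
    simp only [mem_ofPred_eq] at hω ⊢
    linarith
  · refine ⟨s₀, e, hsabs, he1, he2, hd3.trans (measureReal_mono ?_), he3, he4⟩
    intro ω hω
    simp only [mem_ofPred_eq] at hω ⊢
    linarith

end Crest.Agent.R154.Shear284
end

-- ▼ part R154/Steer2_284
section

/-!
Row 154, TILE: steering of the level process (573's `LP`) in TWO lateral coordinates at once, with no
hypothesis on the joint law.  `steerG` is the general form (finitely many regions, one piece for each);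
`mobility2` = pieces obtained from a one dimensional mobility by the shear lemma.
-/

set_option autoImplicit false
set_option linter.unusedSectionVars false

namespace Crest.Agent.R154.Steer284

open MeasureTheory ProbabilityTheory Filter Crest.Agent.R154.B4
open scoped ENNReal Topology

variable {Ω : Type*} [mΩ : MeasurableSpace Ω] {P : Measure Ω}

/-- position after `j` pieces of height `n`, in the frame moving with `c` -/
noncomputable def TT (L : LP P) (ψ : V → ℝ × ℝ) (c y : ℝ × ℝ) (n j : ℕ) (ω : Ω) : ℝ × ℝ :=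
  y + ψ (L.U (j * n) ω) - (j : ℝ) • c

/-- the steering event: at the time `j` the position is in `R i` for some `i`, and the next increment
is in `B i` -/
def EE {ι : Type*} (L : LP P) (ψ : V → ℝ × ℝ) (R B : ι → Set (ℝ × ℝ)) (c y : ℝ × ℝ) (n k : ℕ) :
    Set Ω :=
  {ω | ∀ j < k, ∃ i, TT L ψ c y n j ω ∈ R i ∧ TT L ψ c y n (j + 1) ω - TT L ψ c y n j ω ∈ B i}

lemma measurable_TT (L : LP P) {ψ : V → ℝ × ℝ} (hψ : Measurable ψ) (c y : ℝ × ℝ) {n j k : ℕ}
    (hj : j ≤ k) : Measurable[L.F (k * n)] (TT L ψ c y n j) := by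
  have h1 : Measurable[L.F (k * n)] (L.U (j * n)) :=
    (L.U_meas (j * n)).mono (L.F_mono (Nat.mul_le_mul_right n hj)) le_rfl
  exact ((hψ.comp h1).const_add y).sub_const _

lemma measurableSet_EE {ι : Type*} [Countable ι] (L : LP P) {ψ : V → ℝ × ℝ}
    (hψ : Measurable ψ) {R B : ι → Set (ℝ × ℝ)}
    (hR : ∀ i, MeasurableSet (R i)) (hB : ∀ i, MeasurableSet (B i)) (c y : ℝ × ℝ) (n k : ℕ) :
    MeasurableSet[L.F (k * n)] (EE L ψ R B c y n k) := by
  have : EE L ψ R B c y n k = ⋂ j, ⋂ _ : j < k, ⋃ i,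
      ((TT L ψ c y n j) ⁻¹' (R i) ∩
        (fun ω => TT L ψ c y n (j + 1) ω - TT L ψ c y n j ω) ⁻¹' (B i)) := by
    ext ω; simp [EE]
  rw [this]
  refine MeasurableSet.iInter fun j => MeasurableSet.iInter fun hj =>
    MeasurableSet.iUnion fun i => ?_
  have h1 := measurable_TT L hψ c y (n := n) hj.le
  have h2 := measurable_TT L hψ c y (n := n) (j := j + 1) (k := k) hj
  exact (h1 (hR i)).inter ((h2.sub h1) (hB i))

/-- **steering, general form** -/
theorem steerG {ι : Type*} [Countable ι] [IsProbabilityMeasure P] (L : LP P)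
    {ψ : V → ℝ × ℝ} (hψ : Measurable ψ) (hadd : ∀ x y, ψ (x + y) = ψ x + ψ y)
    {R B : ι → Set (ℝ × ℝ)} (hR : ∀ i, MeasurableSet (R i)) (hB : ∀ i, MeasurableSet (B i)) (hcov : ∀ v, ∃ i, v ∈ R i)
    (hdis : Pairwise fun i j => Disjoint (R i) (R j)) {c : ℝ × ℝ} {n : ℕ} {p₀ : ℝ} (hp₀ : 0 ≤ p₀)
    (h : ∀ i, ENNReal.ofReal p₀ ≤ P {ω | ψ (L.U n ω) - c ∈ B i}) (y : ℝ × ℝ) (k : ℕ) :
    ENNReal.ofReal ((L.p * p₀) ^ k) ≤ P (EE L ψ R B c y n k ∩ L.C (k * n)) := by
  induction k with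
  | zero =>
    have h : P (L.C 0) = 1 := (prob_compl_eq_zero_iff (L.C_meas 0)).1 L.C_zero
    have e : EE L ψ R B c y n 0 = Set.univ := by ext ω; simp [EE]
    simp only [pow_zero, zero_mul, ENNReal.ofReal_one, e, Set.univ_inter]
    exact h.ge
  | succ k ih =>
    set l := k * n with hl
    have hT := measurable_TT L hψ c y (n := n) (le_refl k)
    have hE := measurableSet_EE L hψ hR hB c y n k
    set A : ι → Set Ω := fun i => EE L ψ R B c y n k ∩ (TT L ψ c y n k) ⁻¹' (R i) with hA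
    have hAm : ∀ i, MeasurableSet[L.F l] (A i) := fun i =>
      MeasurableSet.inter hE (hT (hR i))
    have hUn : Measurable[L.F n] fun ω => ψ (L.U n ω) - c := (hψ.comp (L.U_meas n)).sub_const c
    set D : ι → Set Ω := fun i => {ω | ψ (L.U n ω) - c ∈ B i} with hD
    have hDm : ∀ i, MeasurableSet[L.F n] (D i) := fun i => hUn (hB i)
    have hq : ∀ i, ENNReal.ofReal (L.p * p₀) ≤ P (D i ∩ L.C n) := fun i => by
      rw [ENNReal.ofReal_mul L.p_pos.le]
      exact (mul_le_mul_right (h i) _).trans (L.cut n (D i) (hDm i))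
    have hDm' : ∀ i, MeasurableSet (D i ∩ L.C n) := fun i =>
      (L.F_le n _ (hDm i)).inter (L.C_meas n)
    have r := fun i => L.ren l (A i) (D i ∩ L.C n) (hAm i) (hDm' i)
    have hkl : (k + 1) * n = l + n := by rw [hl]; ring
    have hstep : ∀ ω, TT L ψ c y n (k + 1) ω - TT L ψ c y n k ω = ψ (L.U n (L.θ l ω)) - c := by
      intro ω
      unfold TT
      rw [hkl, L.U_add, hadd]
      ext
      · simp only [Prod.fst_sub, Prod.fst_add, Prod.smul_fst, smul_eq_mul]
        push_cast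
        ring
      · simp only [Prod.snd_sub, Prod.snd_add, Prod.smul_snd, smul_eq_mul]
        push_cast
        ring
    have hsub : (⋃ i, (A i ∩ L.C l ∩ L.θ l ⁻¹' (D i ∩ L.C n))) ⊆
        EE L ψ R B c y n (k + 1) ∩ L.C ((k + 1) * n) := by
      intro ω hω
      obtain ⟨i, ⟨⟨h3, h4⟩, h5⟩, h6, h7⟩ := Set.mem_iUnion.1 hω
      refine ⟨fun j hj => ?_, ?_⟩
      · rcases Nat.lt_succ_iff_lt_or_eq.1 hj with hj | rfl
        · exact h3 j hj
        · refine ⟨i, h4, ?_⟩
          rw [hstep]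
          exact h6
      · rw [hkl, L.C_add]; exact h7
    have hm : ∀ i, MeasurableSet (A i ∩ L.C l ∩ L.θ l ⁻¹' (D i ∩ L.C n)) := fun i =>
      (((L.F_le l) _ (hAm i)).inter (L.C_meas l)).inter (L.θ_meas l (hDm' i))
    have hdisj : Pairwise fun i j => Disjoint (A i ∩ L.C l ∩ L.θ l ⁻¹' (D i ∩ L.C n))
        (A j ∩ L.C l ∩ L.θ l ⁻¹' (D j ∩ L.C n)) := by
      intro i j hij
      rw [Set.disjoint_left]
      intro ω h h'
      exact Set.disjoint_left.1 (hdis hij) h.1.1.2 h'.1.1.2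
    have hsplit : P (EE L ψ R B c y n k ∩ L.C l) ≤ ∑' i, P (A i ∩ L.C l) := by
      refine (measure_mono ?_).trans (measure_iUnion_le _)
      rintro ω ⟨h3, h4⟩
      obtain ⟨i, hi⟩ := hcov (TT L ψ c y n k ω)
      exact Set.mem_iUnion.2 ⟨i, ⟨h3, hi⟩, h4⟩
    calc ENNReal.ofReal ((L.p * p₀) ^ (k + 1))
        = ENNReal.ofReal ((L.p * p₀) ^ k) * ENNReal.ofReal (L.p * p₀) := by
          rw [pow_succ, ENNReal.ofReal_mul (pow_nonneg (mul_nonneg L.p_pos.le hp₀) k)]
      _ ≤ P (EE L ψ R B c y n k ∩ L.C l) * ENNReal.ofReal (L.p * p₀) := mul_le_mul_left ih _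
      _ ≤ (∑' i, P (A i ∩ L.C l)) * ENNReal.ofReal (L.p * p₀) :=
          mul_le_mul_left hsplit _
      _ = ∑' i, P (A i ∩ L.C l) * ENNReal.ofReal (L.p * p₀) := ENNReal.tsum_mul_right.symm
      _ ≤ ∑' i, P (A i ∩ L.C l) * P (D i ∩ L.C n) :=
          ENNReal.tsum_le_tsum fun i => mul_le_mul_right (hq i) _
      _ = ∑' i, P (A i ∩ L.C l ∩ L.θ l ⁻¹' (D i ∩ L.C n)) := by
          simp_rw [r]
      _ = P (⋃ i, (A i ∩ L.C l ∩ L.θ l ⁻¹' (D i ∩ L.C n))) :=
          (measure_iUnion hdisj hm).symm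
      _ ≤ _ := measure_mono hsub

/-- the four quadrants -/
def RR (i : Bool × Bool) : Set (ℝ × ℝ) :=
  {v | (if i.1 then v.1 ≤ 0 else 0 < v.1) ∧ (if i.2 then v.2 ≤ 0 else 0 < v.2)}

/-- the four pieces: the first coordinate moves by `[a, A]` and the second by `[0, W]`, both towards
the origin -/
def BB (a A W : ℝ) (i : Bool × Bool) : Set (ℝ × ℝ) :=
  {v | (if i.1 then a ≤ v.1 ∧ v.1 ≤ A else a ≤ -v.1 ∧ -v.1 ≤ A) ∧
    (if i.2 then 0 ≤ v.2 ∧ v.2 ≤ W else 0 ≤ -v.2 ∧ -v.2 ≤ W)}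

lemma RR_meas (i : Bool × Bool) : MeasurableSet (RR i) := by
  unfold RR
  refine MeasurableSet.inter (s₁ := {v : ℝ × ℝ | if i.1 then v.1 ≤ 0 else 0 < v.1})
    (s₂ := {v : ℝ × ℝ | if i.2 then v.2 ≤ 0 else 0 < v.2}) ?_ ?_
  · cases i.1
    · simpa using measurableSet_lt measurable_const measurable_fst
    · simpa using measurableSet_le measurable_fst measurable_const
  · cases i.2
    · simpa using measurableSet_lt measurable_const measurable_snd
    · simpa using measurableSet_le measurable_snd measurable_const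

lemma mIcc {f : ℝ × ℝ → ℝ} (hf : Measurable f) (a A : ℝ) :
    MeasurableSet {v | a ≤ f v ∧ f v ≤ A} :=
  (measurableSet_le measurable_const hf).inter (measurableSet_le hf measurable_const)

lemma BB_meas (a A W : ℝ) (i : Bool × Bool) : MeasurableSet (BB a A W i) := by
  unfold BB
  refine MeasurableSet.inter
    (s₁ := {v : ℝ × ℝ | if i.1 then a ≤ v.1 ∧ v.1 ≤ A else a ≤ -v.1 ∧ -v.1 ≤ A})
    (s₂ := {v : ℝ × ℝ | if i.2 then 0 ≤ v.2 ∧ v.2 ≤ W else 0 ≤ -v.2 ∧ -v.2 ≤ W}) ?_ ?_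
  · cases i.1
    · simp only [Bool.false_eq_true, if_false]
      exact mIcc measurable_fst.neg a A
    · simp only [if_true]
      exact mIcc measurable_fst a A
  · cases i.2
    · simp only [Bool.false_eq_true, if_false]
      exact mIcc measurable_snd.neg 0 W
    · simp only [if_true]
      exact mIcc measurable_snd 0 W

lemma RR_cov (v : ℝ × ℝ) : ∃ i, v ∈ RR i := by
  refine ⟨(decide (v.1 ≤ 0), decide (v.2 ≤ 0)), ?_⟩
  simp only [RR, Set.mem_ofPred_eq, decide_eq_true_eq]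
  constructor
  · split_ifs with h
    · exact h
    · exact not_le.1 h
  · split_ifs with h
    · exact h
    · exact not_le.1 h

lemma RR_dis : Pairwise fun i j => Disjoint (RR i) (RR j) := by
  intro i j hij
  rw [Set.disjoint_left]
  rintro v ⟨h1, h2⟩ ⟨h3, h4⟩
  apply hij
  ext
  · cases hi : i.1 <;> cases hj : j.1 <;> simp_all <;> linarith
  · cases hi : i.2 <;> cases hj : j.2 <;> simp_all <;> linarith

/-- positions under steering -/
lemma bound_of_EE {L : LP P} {ψ : V → ℝ × ℝ} {a A W : ℝ} (ha : 0 < a) {c y : ℝ × ℝ}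
    (h0 : ψ 0 = 0) {n k : ℕ} {ω : Ω} (h : ω ∈ EE L ψ RR (BB a A W) c y n k) (hy : |y.2| ≤ W) :
    ∀ j ≤ k, |(TT L ψ c y n j ω).1| ≤ max (|y.1| - j * a) A ∧ |(TT L ψ c y n j ω).2| ≤ W := by
  intro j
  induction j with
  | zero => intro _; simp [TT, L.U_zero, h0, hy]
  | succ j ih =>
    intro hj
    obtain ⟨h1, h1'⟩ := ih (by omega)
    obtain ⟨i, ⟨h2, h3⟩, h4, h5⟩ := h j (by omega)
    set x := TT L ψ c y n j ω
    set x' := TT L ψ c y n (j + 1) ω
    simp only [Prod.fst_sub, Prod.snd_sub] at h4 h5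
    push_cast
    constructor
    · cases hi : i.1
      · simp only [hi, Bool.false_eq_true, if_false] at h2 h4
        rcases le_total x'.1 0 with h6 | h6
        · rw [abs_of_nonpos h6]
          refine le_max_of_le_right ?_; linarith
        · rw [abs_of_nonneg h6]
          rw [abs_of_pos h2] at h1
          rcases le_max_iff.1 h1 with h7 | h7
          · refine le_max_of_le_left ?_; linarith
          · refine le_max_of_le_right ?_; linarith
      · simp only [hi, if_true] at h2 h4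
        rcases le_total x'.1 0 with h6 | h6
        · rw [abs_of_nonpos h6]
          rw [abs_of_nonpos h2] at h1
          rcases le_max_iff.1 h1 with h7 | h7
          · refine le_max_of_le_left ?_; linarith
          · refine le_max_of_le_right ?_; linarith
        · rw [abs_of_nonneg h6]
          refine le_max_of_le_right ?_; linarith
    · obtain ⟨h8, h9⟩ := abs_le.1 h1'
      cases hi : i.2
      · simp only [hi, Bool.false_eq_true, if_false] at h3 h5
        rw [abs_le]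
        constructor <;> linarith
      · simp only [hi, if_true] at h3 h5
        rw [abs_le]
        constructor <;> linarith

/-- **Mobility in two lateral coordinates.**  From the mass of the two pieces of the first coordinate
(with the second coordinate in ONE window, no other hypothesis on the joint law) there is a shear
`φ₂ - s φ₁` and a drift such that from every start the walk is steered in both coordinates. -/
theorem mobility2 [IsProbabilityMeasure P] (L : LP P) {φ₁ φ₂ : V → ℝ} (hφ₁ : Measurable φ₁)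
    (hφ₂ : Measurable φ₂) (hadd₁ : ∀ x y, φ₁ (x + y) = φ₁ x + φ₁ y)
    (hadd₂ : ∀ x y, φ₂ (x + y) = φ₂ x + φ₂ y) {a A W c₁ v₂ g : ℝ} (ha : 0 < a) (hW : 0 ≤ W)
    (hg : 0 < g) (n : ℕ)
    (h₁ : g ≤ P.real {ω | (a ≤ φ₁ (L.U n ω) - c₁ ∧ φ₁ (L.U n ω) - c₁ ≤ A) ∧
      |φ₂ (L.U n ω) - v₂| ≤ W})
    (h₂ : g ≤ P.real {ω | (a ≤ -(φ₁ (L.U n ω) - c₁) ∧ -(φ₁ (L.U n ω) - c₁) ≤ A) ∧
      |φ₂ (L.U n ω) - v₂| ≤ W}) :
    ∃ s c₂ : ℝ, |s| ≤ W / a ∧ ∀ (y₁ y₂ : ℝ) (k : ℕ), |y₁| ≤ A + k * a →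
      |y₂| ≤ 2 * (W + (W / a + 1) * A) →
      ENNReal.ofReal ((L.p * (g / 2)) ^ k) ≤
        P ({ω | |y₁ + φ₁ (L.U (k * n) ω) - k * c₁| ≤ A ∧
          |y₂ + (φ₂ (L.U (k * n) ω) - s * φ₁ (L.U (k * n) ω)) - k * c₂| ≤
            2 * (W + (W / a + 1) * A)} ∩ L.C (k * n)) := by
  set X : Ω → ℝ := fun ω => φ₁ (L.U n ω) - c₁ with hX
  set Y : Ω → ℝ := fun ω => φ₂ (L.U n ω) - v₂ with hY
  have hUm : Measurable (L.U n) := (L.U_meas n).mono (L.F_le n) le_rfl
  have hXm : Measurable X := (hφ₁.comp hUm).sub_const _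
  have hYm : Measurable Y := (hφ₂.comp hUm).sub_const _
  set E₁ : Set Ω := {ω | (a ≤ X ω ∧ X ω ≤ A) ∧ |Y ω| ≤ W} with hE₁
  set E₂ : Set Ω := {ω | (a ≤ -X ω ∧ -X ω ≤ A) ∧ |Y ω| ≤ W} with hE₂
  have hE₁m : MeasurableSet E₁ :=
    ((measurableSet_le measurable_const hXm).inter (measurableSet_le hXm measurable_const)).inter
      (measurableSet_le hYm.abs measurable_const)
  have hE₂m : MeasurableSet E₂ :=
    ((measurableSet_le measurable_const hXm.neg).inter
      (measurableSet_le (f := fun ω => -X ω) hXm.neg measurable_const)).inter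
      (measurableSet_le hYm.abs measurable_const)
  have hu₁ : (P.restrict E₁).real Set.univ = P.real E₁ := by
    simp [Measure.real]
  have hu₂ : (P.restrict E₂).real Set.univ = P.real E₂ := by
    simp [Measure.real]
  have hr : ∀ (E S : Set Ω), MeasurableSet S → (P.restrict E).real S = P.real (S ∩ E) := by
    intro E S hS
    simp [Measure.real, Measure.restrict_apply hS]
  obtain ⟨s, d, hs, hd, k1, k2, k3, k4⟩ := Shear284.shear (P.restrict E₁) (P.restrict E₂)
    (by rw [hu₁]; linarith) (by rw [hu₂]; linarith) hXm hYm ha hW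
    (ae_restrict_mem hE₁m) (ae_restrict_mem hE₂m)
  have hZm : Measurable fun ω => Y ω - s * X ω := hYm.sub (hXm.const_mul s)
  rw [hu₁, hr _ _ (measurableSet_le measurable_const hZm)] at k1
  rw [hu₁, hr _ _ (measurableSet_le hZm measurable_const)] at k2
  rw [hu₂, hr _ _ (measurableSet_le measurable_const hZm)] at k3
  rw [hu₂, hr _ _ (measurableSet_le hZm measurable_const)] at k4
  set W' := 2 * (W + (W / a + 1) * A) with hW'
  have hA0 : a ≤ A := by
    by_contra hc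
    push Not at hc
    have : E₁ = ∅ := by
      ext ω
      simp only [hE₁, Set.mem_ofPred_eq, Set.mem_empty_iff_false, iff_false]
      rintro ⟨⟨h5, h6⟩, -⟩
      linarith
    rw [this] at k1
    have h1' : g ≤ P.real E₁ := h₁
    rw [this] at h1'
    simp at h1'
    linarith
  have hWa : 0 ≤ W / a := by positivity
  have hZb : ∀ ω, |X ω| ≤ A → |Y ω| ≤ W → |Y ω - s * X ω - d| ≤ W' := by
    intro ω h5 h6
    have h7 : |s * X ω| ≤ W / a * A := by
      rw [abs_mul]
      exact mul_le_mul hs h5 (abs_nonneg _) hWa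
    have h8 := abs_sub (Y ω - s * X ω) d
    have h9 := abs_sub (Y ω) (s * X ω)
    have : 0 ≤ A := ha.le.trans hA0
    nlinarith
  set c₂ := v₂ - s * c₁ + d with hc₂
  refine ⟨s, c₂, hs, fun y₁ y₂ k hy₁ hy₂ => ?_⟩
  set ψ : V → ℝ × ℝ := fun v => (φ₁ v, φ₂ v - s * φ₁ v) with hψ
  have hψm : Measurable ψ := hφ₁.prodMk (hφ₂.sub (hφ₁.const_mul s))
  have hψa : ∀ x y, ψ (x + y) = ψ x + ψ y := by
    intro x y
    ext
    · simp [hψ, hadd₁]
    · simp only [hψ, hadd₁, hadd₂, Prod.mk_add_mk]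
      ring
  have hψ0 : ψ 0 = 0 := by
    have := hψa 0 0
    simpa using this
  have hZe : ∀ ω, φ₂ (L.U n ω) - s * φ₁ (L.U n ω) - c₂ = Y ω - s * X ω - d := by
    intro ω
    simp only [hX, hY, hc₂]
    ring
  have hpiece : ∀ i : Bool × Bool,
      ENNReal.ofReal (g / 2) ≤ P {ω | ψ (L.U n ω) - (c₁, c₂) ∈ BB a A W' i} := by
    intro i
    have key : ∀ S : Set Ω, g / 2 ≤ P.real S → S ⊆ {ω | ψ (L.U n ω) - (c₁, c₂) ∈ BB a A W' i} →
        ENNReal.ofReal (g / 2) ≤ P {ω | ψ (L.U n ω) - (c₁, c₂) ∈ BB a A W' i} := by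
      intro S hS hsub
      refine (ENNReal.ofReal_le_ofReal hS).trans ?_
      rw [Measure.real, ENNReal.ofReal_toReal (measure_ne_top _ _)]
      exact measure_mono hsub
    obtain ⟨i1, i2⟩ := i
    cases i1 <;> cases i2
    · refine key _ (le_trans (by linarith) k4) ?_
      rintro ω ⟨h5, ⟨h6, h7⟩, h8⟩
      have h9 : Y ω - s * X ω ≤ d := h5
      have h10 := hZb ω (by rw [← abs_neg, abs_of_nonneg (by linarith)]; exact h7) h8
      have h11 := (abs_le.1 h10).1
      have h12 := hZe ω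
      refine ⟨?_, ?_⟩
      · simp only [Bool.false_eq_true, if_false, hψ, Prod.fst_sub]
        exact ⟨h6, h7⟩
      · simp only [Bool.false_eq_true, if_false, hψ, Prod.snd_sub]
        rw [h12]
        constructor <;> linarith
    · refine key _ (le_trans (by linarith) k3) ?_
      rintro ω ⟨h5, ⟨h6, h7⟩, h8⟩
      have h9 : d ≤ Y ω - s * X ω := h5
      have h10 := hZb ω (by rw [← abs_neg, abs_of_nonneg (by linarith)]; exact h7) h8
      have h11 := (abs_le.1 h10).2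
      have h12 := hZe ω
      refine ⟨?_, ?_⟩
      · simp only [Bool.false_eq_true, if_false, hψ, Prod.fst_sub]
        exact ⟨h6, h7⟩
      · simp only [if_true, hψ, Prod.snd_sub]
        rw [h12]
        constructor <;> linarith
    · refine key _ (le_trans (by linarith) k2) ?_
      rintro ω ⟨h5, ⟨h6, h7⟩, h8⟩
      have h9 : Y ω - s * X ω ≤ d := h5
      have h10 := hZb ω (by rw [abs_of_nonneg (by linarith)]; exact h7) h8
      have h11 := (abs_le.1 h10).1
      have h12 := hZe ω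
      refine ⟨?_, ?_⟩
      · simp only [if_true, hψ, Prod.fst_sub]
        exact ⟨h6, h7⟩
      · simp only [Bool.false_eq_true, if_false, hψ, Prod.snd_sub]
        rw [h12]
        constructor <;> linarith
    · refine key _ (le_trans (by linarith) k1) ?_
      rintro ω ⟨h5, ⟨h6, h7⟩, h8⟩
      have h9 : d ≤ Y ω - s * X ω := h5
      have h10 := hZb ω (by rw [abs_of_nonneg (by linarith)]; exact h7) h8
      have h11 := (abs_le.1 h10).2
      have h12 := hZe ω
      refine ⟨?_, ?_⟩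
      · simp only [if_true, hψ, Prod.fst_sub]
        exact ⟨h6, h7⟩
      · simp only [if_true, hψ, Prod.snd_sub]
        rw [h12]
        constructor <;> linarith
  refine (steerG L hψm hψa RR_meas (BB_meas a A W') RR_cov RR_dis (by positivity) hpiece
    (y₁, y₂) k).trans (measure_mono ?_)
  rintro ω ⟨h5, h6⟩
  refine ⟨?_, h6⟩
  obtain ⟨h7, h8⟩ := bound_of_EE ha hψ0 h5 hy₂ k le_rfl
  simp only [TT, hψ, Prod.fst_sub, Prod.snd_sub, Prod.fst_add, Prod.snd_add, Prod.smul_fst,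
    Prod.smul_snd, smul_eq_mul] at h7 h8
  refine ⟨h7.trans (max_le ?_ le_rfl), h8⟩
  linarith

end Crest.Agent.R154.Steer284
end

-- ▼ part R154/InitY_272

/-!
Row 154, block B8 (helper272): **small heights** with sub-kernels (killed climbs), any index type of
cells, started from admissible laws at the level `0` (no first climb).
-/

set_option autoImplicit false
set_option linter.unusedSectionVars false
set_option linter.unusedVariables false

namespace Crest.Agent.R154.InitY272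

open MeasureTheory ProbabilityTheory Crest.Agent.R154.Perc272 Crest.Agent.R154.Gen272
open Crest.Agent.R154.RatioR872 Crest.Agent.R154.TileInst748 Crest.Agent.R154.Init272
open scoped ENNReal NNReal

section inst

variable {S : Type*} [Countable S] {Ω : Type*} [m0 : MeasurableSpace Ω] {P : Measure Ω}
  {X : Type*}

/-- admissible sub-kernels of the layers `k N`. -/
structure SubKerX (A : KerSys S P) (N : ℕ) (kk : ℕ → X → Ω → S → S → ℝ≥0∞) : Prop where
  le : ∀ k x ω y z, kk k x ω y z ≤ A.G (k * N) ((k + 1) * N) ω y z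
  measF : ∀ k x y z, Measurable[A.F ((k + 1) * N)] fun ω => kk k x ω y z
  measH : ∀ k x y z, Measurable[A.H (k * N)] fun ω => kk k x ω y z

lemma lvm (N : ℕ) : Monotone fun k : ℕ => k * N := fun a b h => Nat.mul_le_mul_right N h

lemma lv_le (k N : ℕ) : k * N ≤ (k + 1) * N := Nat.mul_le_mul_right N (Nat.le_succ k)

lemma SubKerX.mass {A : KerSys S P} {N : ℕ} {kk : ℕ → X → Ω → S → S → ℝ≥0∞}
    (h : SubKerX A N kk) (k : ℕ) (x : X) (ω : Ω) (y : S) : ∑' z, kk k x ω y z ≤ 1 :=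
  (ENNReal.tsum_le_tsum fun z => h.le k x ω y z).trans (A.mass _ _ ω y (lv_le k N))

variable (A : KerSys S P) (N : ℕ) (sh : Equiv.Perm X) (Cell : ℕ → X → Set S)
  (En : ℕ → S → S → ℝ≥0∞) (kL kR : ℕ → X → Ω → S → S → ℝ≥0∞) (κ γ : ℝ≥0∞)

/-- good tile (layer `k`, cell `x`). -/
def goodY (k : ℕ) (x : X) (lam : S → ℝ≥0∞) : Set Ω :=
  {ω | okM (Cell (k+1) x) (En (k+1)) κ γ lam (kL k x ω) ∧
    okM (Cell (k+1) (sh x)) (En (k+1)) κ γ lam (kR k x ω)}

/-- **The deterministic inputs.** -/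
structure InputsY (q : ℝ≥0∞) : Prop where
  subL : SubKerX A N kL
  subR : SubKerX A N kR
  nonempty : ∀ k x, (clsM (Cell k x) (En k) κ).Nonempty
  kset : ∀ k (K : Finset X) (lam : X → S → ℝ≥0∞), (∀ x, lam x ∈ clsM (Cell k x) (En k) κ) →
    P {ω | ∀ x ∈ K, ω ∉ goodY sh Cell En kL kR κ γ k x (lam x)} ≤ q ^ K.card

open Classical in
/-- **The tile system.** -/
noncomputable def tilesY [IsProbabilityMeasure P] (hγ : γ ≠ 0) {q : ℝ≥0∞}
    (H : InputsY A N sh Cell En kL kR κ γ q) :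
    TSys P (FL A (fun k => k * N) (lvm N)) X (S → ℝ≥0∞) q where
  sh := sh
  cls k x := clsM (Cell k x) (En k) κ
  dflt k x := (H.nonempty k x).some
  dflt_mem k x := (H.nonempty k x).some_mem
  good k x lam := goodY sh Cell En kL kR κ γ k x lam
  outL k x lam ω := outM (Cell (k+1) x) lam (kL k x ω)
  outR k x lam ω := outM (Cell (k+1) (sh x)) lam (kR k x ω)
  outL_mem k x lam ω hlam hω :=
    out_mem _ _ hγ (le_of_eq hlam.1) (H.subL.mass k x ω) hω.1
  outR_mem k x lam ω hlam hω :=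
    out_mem _ _ hγ (le_of_eq hlam.1) (H.subR.mass k x ω) hω.2
  good_meas k x f hf := by
    have hl : ∀ y, Measurable[A.F ((k + 1) * N)] fun ω => f ω y := fun y =>
      (measurable_pi_apply y).comp (hf.mono (A.F.mono (lv_le k N)) le_rfl)
    have h1 := @meas_ok S _ Ω (A.F ((k + 1) * N)) f (kL k x) (Cell (k+1) x) (En (k+1)) κ γ
      hl (H.subL.measF k x)
    have h2 := @meas_ok S _ Ω (A.F ((k + 1) * N)) f (kR k x) (Cell (k+1) (sh x)) (En (k+1))
      κ γ hl (H.subR.measF k x)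
    exact MeasurableSet.inter h1 h2
  outL_meas k x f hf := by
    have hl : ∀ y, Measurable[A.F ((k + 1) * N)] fun ω => f ω y := fun y =>
      (measurable_pi_apply y).comp (hf.mono (A.F.mono (lv_le k N)) le_rfl)
    exact @meas_out S _ Ω (A.F ((k + 1) * N)) f (kL k x) (Cell (k+1) x)
      hl (H.subL.measF k x)
  outR_meas k x f hf := by
    have hl : ∀ y, Measurable[A.F ((k + 1) * N)] fun ω => f ω y := fun y =>
      (measurable_pi_apply y).comp (hf.mono (A.F.mono (lv_le k N)) le_rfl)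
    exact @meas_out S _ Ω (A.F ((k + 1) * N)) f (kR k x) (Cell (k+1) (sh x))
      hl (H.subR.measF k x)
  kset k K f hf hfc B hB := by
    have hm : ∀ x, MeasurableSet[MeasurableSpace.pi.prod (A.H (k * N))]
        {p : (S → ℝ≥0∞) × Ω | p.2 ∉ goodY sh Cell En kL kR κ γ k x p.1} := by
      intro x
      have hl : ∀ y, @Measurable ((S → ℝ≥0∞) × Ω) ℝ≥0∞ (MeasurableSpace.pi.prod (A.H (k * N))) _
          fun p => p.1 y := fun y =>
        (measurable_pi_apply y).comp (@measurable_fst (S → ℝ≥0∞) Ω MeasurableSpace.pi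
          (A.H (k * N)))
      have hg : ∀ y z, @Measurable ((S → ℝ≥0∞) × Ω) ℝ≥0∞
          (MeasurableSpace.pi.prod (A.H (k * N))) _ fun p => kL k x p.2 y z := fun y z =>
        (H.subL.measH k x y z).comp (@measurable_snd (S → ℝ≥0∞) Ω MeasurableSpace.pi
          (A.H (k * N)))
      have hg' : ∀ y z, @Measurable ((S → ℝ≥0∞) × Ω) ℝ≥0∞
          (MeasurableSpace.pi.prod (A.H (k * N))) _ fun p => kR k x p.2 y z := fun y z =>
        (H.subR.measH k x y z).comp (@measurable_snd (S → ℝ≥0∞) Ω MeasurableSpace.pi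
          (A.H (k * N)))
      have h1 := @meas_ok S _ ((S → ℝ≥0∞) × Ω) (MeasurableSpace.pi.prod (A.H (k * N)))
        (fun p => p.1) (fun p => kL k x p.2) (Cell (k+1) x) (En (k+1)) κ γ hl hg
      have h2 := @meas_ok S _ ((S → ℝ≥0∞) × Ω) (MeasurableSpace.pi.prod (A.H (k * N)))
        (fun p => p.1) (fun p => kR k x p.2) (Cell (k+1) (sh x)) (En (k+1)) κ γ hl hg'
      exact (MeasurableSet.inter h1 h2).compl
    exact kset_randX (m1 := A.F (k * N)) (m2 := A.H (k * N)) P (A.F.le _)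
      (A.H_le _) (A.indep _) (fun x => {p | p.2 ∉ goodY sh Cell En kL kR κ γ k x p.1}) hm
      (fun x => clsM (Cell k x) (En k) κ) K (q ^ K.card)
      (fun lam hlam => H.kset k K lam hlam) f hf hfc B hB

variable {A N sh Cell En kL kR κ γ}

/-- the deterministic start: wet cells `Src`, laws `lam0`. -/
noncomputable def confY [IsProbabilityMeasure P] (hγ : γ ≠ 0) {q : ℝ≥0∞}
    (H : InputsY A N sh Cell En kL kR κ γ q) (lam0 : X → S → ℝ≥0∞)
    (h0 : ∀ x, lam0 x ∈ clsM (Cell 0 x) (En 0) κ) (Src : Set X) :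
    Conf (tilesY A N sh Cell En kL kR κ γ hγ H) 0 where
  A x := {_ω | x ∈ Src}
  f x _ω := lam0 x
  A_meas x := MeasurableSet.const _
  f_meas x := measurable_const
  f_mem x _ω := h0 x

end inst

section mass

variable {S : Type*} [Countable S] {Ω : Type*} [m0 : MeasurableSpace Ω] {P : Measure Ω}
  [IsProbabilityMeasure P] {X : Type*} {A : KerSys S P} {N : ℕ} {sh : Equiv.Perm X}
  {Cell : ℕ → X → Set S} {En : ℕ → S → S → ℝ≥0∞} {kL kR : ℕ → X → Ω → S → S → ℝ≥0∞}
  {κ γ : ℝ≥0∞}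

theorem mass_of_wetY (hγ : γ ≠ 0) {q : ℝ≥0∞} (H : InputsY A N sh Cell En kL kR κ γ q)
    (lam0 : X → S → ℝ≥0∞) (h0 : ∀ x, lam0 x ∈ clsM (Cell 0 x) (En 0) κ) (Src : Set X) :
    ∀ᵐ ω ∂P, ∀ j x, ω ∈ (tilesY A N sh Cell En kL kR κ γ hγ H).wet
        (confY hγ H lam0 h0 Src) (j + 1) x →
      ∃ x' ∈ Src, γ ^ (j + 1) ≤ ∑' z, lam0 x' z * A.N 0 ((j + 1) * N) ω z := by
  classical
  have hcomp : ∀ᵐ ω ∂P, ∀ j : ℕ, ∀ x y, ∑' w, A.G 0 (j * N) ω x w *
      A.G (j * N) ((j + 1) * N) ω w y ≤ A.G 0 ((j + 1) * N) ω x y := by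
    rw [ae_all_iff]
    intro j
    exact A.comp 0 (j * N) ((j + 1) * N) (Nat.zero_le _) (lv_le j N)
  filter_upwards [hcomp] with ω hω j x hw
  set T := tilesY A N sh Cell En kL kR κ γ hγ H with hT
  set c := confY hγ H lam0 h0 Src with hc
  -- one step of the invariant
  have hstep : ∀ (s : ℕ) (x' : X) (lam o : S → ℝ≥0∞) (y : S),
      ((s = 0 ∧ lam = lam0 x') ∨
        (1 ≤ s ∧ ∀ y, γ ^ s * lam y ≤ ∑' z, lam0 x' z * A.G 0 (s * N) ω z y)) →
      γ * o y ≤ ∑' w, lam w * A.G (s * N) ((s + 1) * N) ω w y →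
      γ ^ (s + 1) * o y ≤ ∑' z, lam0 x' z * A.G 0 ((s + 1) * N) ω z y := by
    intro s x' lam o y h2 hout
    rcases h2 with ⟨rfl, rfl⟩ | ⟨hs, h2⟩
    · rw [zero_add, pow_one]
      simpa only [zero_mul, zero_add] using hout
    · calc γ ^ (s + 1) * o y = γ ^ s * (γ * o y) := by rw [pow_succ]; ring
        _ ≤ γ ^ s * ∑' w, lam w * A.G (s * N) ((s + 1) * N) ω w y := by gcongr
        _ = ∑' w, (γ ^ s * lam w) * A.G (s * N) ((s + 1) * N) ω w y := by
            rw [← ENNReal.tsum_mul_left]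
            exact tsum_congr fun w => by ring
        _ ≤ ∑' w, (∑' z, lam0 x' z * A.G 0 (s * N) ω z w) * A.G (s * N) ((s + 1) * N) ω w y :=
            ENNReal.tsum_le_tsum fun w => by gcongr; exact h2 w
        _ = ∑' z, lam0 x' z * ∑' w, A.G 0 (s * N) ω z w * A.G (s * N) ((s + 1) * N) ω w y := by
            simp_rw [← ENNReal.tsum_mul_right, ← ENNReal.tsum_mul_left]
            rw [ENNReal.tsum_comm]
            refine tsum_congr fun z => tsum_congr fun w => ?_
            ring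
        _ ≤ ∑' z, lam0 x' z * A.G 0 ((s + 1) * N) ω z y :=
            ENNReal.tsum_le_tsum fun z => by gcongr; exact hω s z y
  have hinv := T.inv_of_wet c (ω := ω) (fun s x lam => ∑' y, lam y = 1 ∧ ∃ x' ∈ Src,
      ((s = 0 ∧ lam = lam0 x') ∨
        (1 ≤ s ∧ ∀ y, γ ^ s * lam y ≤ ∑' z, lam0 x' z * A.G 0 (s * N) ω z y))) (by
    intro x hx
    exact ⟨(h0 x).1, x, hx, Or.inl ⟨rfl, rfl⟩⟩) (by
    rintro s x lam ⟨h1, x', hx', h2⟩ hg
    rw [zero_add] at hg
    have hg' : ω ∈ goodY sh Cell En kL kR κ γ s x lam := hg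
    have e : T.outL (0 + s) x lam ω = outM (Cell (s+1) x) lam (kL s x ω) := by
      rw [zero_add]; rfl
    rw [e]
    refine ⟨(out_mem _ _ hγ (le_of_eq h1) (H.subL.mass s x ω) hg'.1).1, x', hx',
      Or.inr ⟨by omega, fun y => ?_⟩⟩
    refine hstep s x' lam _ y h2 ((mul_out_le _ _ hγ (le_of_eq h1)
      (H.subL.mass s x ω) hg'.1 y).trans (ENNReal.tsum_le_tsum fun w => ?_))
    gcongr
    exact H.subL.le s x ω w y) (by
    rintro s x lam ⟨h1, x', hx', h2⟩ hg
    rw [zero_add] at hg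
    have hg' : ω ∈ goodY sh Cell En kL kR κ γ s x lam := hg
    have e : T.outR (0 + s) x lam ω = outM (Cell (s+1) (sh x)) lam (kR s x ω) := by
      rw [zero_add]; rfl
    rw [e]
    refine ⟨(out_mem _ _ hγ (le_of_eq h1) (H.subR.mass s x ω) hg'.2).1, x', hx',
      Or.inr ⟨by omega, fun y => ?_⟩⟩
    refine hstep s x' lam _ y h2 ((mul_out_le _ _ hγ (le_of_eq h1)
      (H.subR.mass s x ω) hg'.2 y).trans (ENNReal.tsum_le_tsum fun w => ?_))
    gcongr
    exact H.subR.le s x ω w y) hw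
  obtain ⟨h1, x', hx', h2⟩ := hinv
  refine ⟨x', hx', ?_⟩
  rcases h2 with ⟨h2, -⟩ | ⟨-, h2⟩
  · omega
  calc γ ^ (j + 1) = ∑' y, γ ^ (j + 1) * T.state c (j + 1) x ω y := by
        rw [ENNReal.tsum_mul_left, h1, mul_one]
    _ ≤ ∑' y, ∑' z, lam0 x' z * A.G 0 ((j + 1) * N) ω z y := ENNReal.tsum_le_tsum h2
    _ = ∑' z, lam0 x' z * A.N 0 ((j + 1) * N) ω z := by
        rw [ENNReal.tsum_comm]
        exact tsum_congr fun z => ENNReal.tsum_mul_left

/-- **Bound from rows of wet cells.** -/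
theorem init_boundY (hγ : γ ≠ 0) {q : ℝ≥0∞} (H : InputsY A N sh Cell En kL kR κ γ q)
    (hq0 : q ≠ 0) (hq : q ≤ ((1 / 48 : ℝ≥0) : ℝ≥0∞)) {ι : Type*} [DecidableEq ι]
    (x : ι → X) (n : ι → ℕ) (h : ℕ) (I : Finset ι) (hn : ∀ s ∈ I, 1 ≤ n s)
    (hinj : Set.InjOn (fun p : ι × ℤ => (sh ^ p.2) (x p.1))
      {p | p.1 ∈ I ∧ 0 ≤ p.2 ∧ p.2 < n p.1 + h})
    (lam0 : X → S → ℝ≥0∞) (h0 : ∀ x, lam0 x ∈ clsM (Cell 0 x) (En 0) κ)
    (μ : S → ℝ≥0∞) (w : ℝ≥0∞)
    (hw : ∀ s ∈ I, ∀ y : ℕ, y < n s → ∀ z, w * lam0 ((sh ^ y) (x s)) z ≤ μ z) :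
    P {ω | A.Sh μ ((h + 1) * N) ω < w * γ ^ (h + 1)} ≤
      ∏ s ∈ I, (2 * (12 * q) ^ n s) := by
  classical
  set Src : Set X := {z | ∃ s ∈ I, ∃ y : ℕ, y < n s ∧ z = (sh ^ y) (x s)} with hSrc
  set T := tilesY A N sh Cell En kL kR κ γ hγ H with hT
  set c := confY hγ H lam0 h0 Src with hc
  have hdead := T.dead_le c hq0 hq x n h I hn hinj Set.univ MeasurableSet.univ
  rw [measure_univ, one_mul] at hdead
  refine le_trans (measure_mono_ae ?_) hdead
  filter_upwards [mass_of_wetY (A := A) (N := N) (sh := sh) (Cell := Cell) (En := En)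
    (kL := kL) (kR := kR) hγ H lam0 h0 Src] with ω hω
  intro (hlt : A.Sh μ ((h + 1) * N) ω < w * γ ^ (h + 1))
  refine ⟨Set.mem_univ _, fun s hs => ?_⟩
  rw [Set.eq_empty_iff_forall_notMem]
  intro y hy
  have hwet := T.wet_of_cl c (x s) (n s) ω (fun y hy => ⟨s, hs, y, hy, rfl⟩) (h + 1) y hy
  obtain ⟨x', ⟨s', hs', y', hy', rfl⟩, hN⟩ := hω h _ hwet
  refine absurd hlt (not_lt.2 ?_)
  calc w * γ ^ (h + 1)
      ≤ w * ∑' z, lam0 ((sh ^ y') (x s')) z * A.N 0 ((h + 1) * N) ω z := by gcongr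
    _ = ∑' z, (w * lam0 ((sh ^ y') (x s')) z) * A.N 0 ((h + 1) * N) ω z := by
        rw [← ENNReal.tsum_mul_left]
        exact tsum_congr fun z => by ring
    _ ≤ ∑' z, μ z * A.N 0 ((h + 1) * N) ω z :=
        ENNReal.tsum_le_tsum fun z => by gcongr; exact hw s' hs' y' hy' z
    _ = A.Sh μ ((h + 1) * N) ω := by
        unfold KerSys.Sh
        rw [KerSys.tot_push]

end mass

/-! ### The final arithmetic -/

section final

variable {S : Type*} [Countable S] {Ω : Type*} [m0 : MeasurableSpace Ω] {P : Measure Ω}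
  [IsProbabilityMeasure P]

/-- **LITERAL INPUT of (init)**: one tile system on `ℤ × ℤ` (first coordinate: plane, second: cell of
a row) for the pair `(b, δ')`, started at the level `0`. -/
def InitTilesY (A : KerSys S P) (μ : ℕ → S → ℝ≥0∞) (b δ' : ℝ) : Prop :=
  ∃ (N : ℕ) (m ρ : ℝ) (κ γ : ℝ≥0∞) (Cell : ℕ → ℤ × ℤ → Set S)
    (En : ℕ → S → S → ℝ≥0∞) (kL kR : ℕ → ℤ × ℤ → Ω → S → S → ℝ≥0∞) (lam0 : ℤ × ℤ → S → ℝ≥0∞)
    (n0 : ℕ),
    0 < N ∧ 0 ≤ m ∧ 4 * m * b ≤ δ' * N ∧ ENNReal.ofReal (Real.exp (-m)) ≤ γ ∧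
    InputsY A N shZ Cell En kL kR κ γ ((1 / 96 : ℝ≥0) : ℝ≥0∞) ∧
    (∀ x, lam0 x ∈ clsM (Cell 0 x) (En 0) κ) ∧
    0 < ρ ∧ ∀ n, n0 ≤ n → ∀ s y : ℕ, (s : ℝ) ≤ ρ * n → (y : ℝ) ≤ ρ * n →
      ∀ z, lam0 ((s : ℤ), (y : ℤ)) z ≠ 0 → ENNReal.ofReal (Real.exp (-(δ' * n / 4))) ≤ μ n z

/-- **(init)** of `CompW.chain`. -/
theorem init_of_tilesY (A : KerSys S P) (μ : ℕ → S → ℝ≥0∞) (hμ : ∀ n, A.Start (μ n))
    (a : ℕ → ℕ → Ω → ℝ)
    (ha : ∀ n i, ∀ᵐ ω ∂P, a n i ω = - Real.log (A.Sh (μ n) (10 ^ i) ω).toReal)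
    (hT : ∀ b δ' : ℝ, 0 < b → 0 < δ' → InitTilesY A μ b δ') :
    ∀ b δ' M : ℝ, 0 < b → 0 < δ' → 0 < M → ∃ n1 : ℕ, ∀ n, n1 ≤ n → ∀ J : ℕ,
      (10 : ℝ) ^ J ≤ b * n →
      P {ω | δ' * n ≤ a n J ω} ≤ ENNReal.ofReal (Real.exp (-(M * n))) := by
  classical
  intro b δ' M hb hδ hM
  obtain ⟨N, m, ρ, κ, γ, Cell, En, kL, kR, lam0, n0, hN, hm, hmb, hγ, H, hlam0, hρ, hμw⟩ :=
    hT b δ' hb hδ
  have hγne : γ ≠ 0 := by
    intro h
    rw [h] at hγ
    have := le_zero_iff.1 hγ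
    rw [ENNReal.ofReal_eq_zero] at this
    exact absurd this (not_le.2 (Real.exp_pos _))
  obtain ⟨n1, hn1⟩ := exists_nat_ge (max (max (2 / ρ) (8 * M / ρ ^ 2)) (8 * m / δ') + 1)
  refine ⟨max n0 n1, fun n hn J hJ => ?_⟩
  have hnn0 : n0 ≤ n := (le_max_left _ _).trans hn
  have hnn1 : max (max (2 / ρ) (8 * M / ρ ^ 2)) (8 * m / δ') + 1 ≤ (n : ℝ) :=
    hn1.trans (by exact_mod_cast (le_max_right _ _).trans hn)
  have i1 : 2 / ρ ≤ n := by
    have := (le_max_left (2 / ρ) (8 * M / ρ ^ 2)).trans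
      (le_max_left _ (8 * m / δ'))
    linarith
  have i2 : 8 * M / ρ ^ 2 ≤ n := by
    have := (le_max_right (2 / ρ) (8 * M / ρ ^ 2)).trans
      (le_max_left _ (8 * m / δ'))
    linarith
  have i3 : 8 * m / δ' ≤ n := by
    have := le_max_right (max (2 / ρ) (8 * M / ρ ^ 2)) (8 * m / δ')
    linarith
  have hnpos : (0 : ℝ) < n := by
    have := (le_max_left (2 / ρ) (8 * M / ρ ^ 2)).trans
      (le_max_left _ (8 * m / δ'))
    have h2 : 0 < 2 / ρ := by positivity
    linarith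
  have i1' : 2 ≤ ρ * n := by
    rw [div_le_iff₀ hρ] at i1
    linarith
  have i2' : 8 * M ≤ ρ ^ 2 * n := by
    rw [div_le_iff₀ (by positivity)] at i2
    linarith
  have i3' : 8 * m ≤ δ' * n := by
    rw [div_le_iff₀ hδ] at i3
    linarith
  set r : ℕ := ⌊ρ * n⌋₊ with hr
  have hr1 : (r : ℝ) ≤ ρ * n := Nat.floor_le (by positivity)
  have hr2 : ρ * n < r + 1 := Nat.lt_floor_add_one _
  have hr3 : ρ * n / 2 ≤ r := by linarith
  have hrpos : 1 ≤ r := by
    have : (1 : ℝ) ≤ r := by linarith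
    exact_mod_cast this
  set h : ℕ := ⌈b * n / N⌉₊ with hh
  have hNr : (0 : ℝ) < N := by exact_mod_cast hN
  have hh1 : b * n / N ≤ h := Nat.le_ceil _
  have hh2 : (h : ℝ) < b * n / N + 1 := Nat.ceil_lt_add_one (by positivity)
  have hq48 : ((1 / 96 : ℝ≥0) : ℝ≥0∞) ≤ ((1 / 48 : ℝ≥0) : ℝ≥0∞) := by
    refine ENNReal.coe_le_coe.2 ?_
    rw [← NNReal.coe_le_coe]
    push_cast
    norm_num
  have hbound := init_boundY (A := A) (N := N) (sh := shZ) (Cell := Cell) (En := En)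
    (kL := kL) (kR := kR) hγne H (by norm_num) hq48
    (fun s : ℕ => ((s : ℤ), (0 : ℤ))) (fun _ => r) h (Finset.range r) (fun _ _ => hrpos) (by
      rintro ⟨s, y⟩ hy ⟨s', y'⟩ hy' heq
      have h1 : (0 : ℤ) ≤ y := hy.2.1
      have h2 : (0 : ℤ) ≤ y' := hy'.2.1
      simp only at heq
      rw [shZ_zpow y h1, shZ_zpow y' h2] at heq
      simp only [Prod.mk.injEq, Nat.cast_inj, zero_add] at heq
      rw [heq.1, heq.2]) lam0 hlam0
    (μ n) (ENNReal.ofReal (Real.exp (-(δ' * n / 4)))) (by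
      intro s hs y hy z
      rw [shZ_pow, zero_add]
      rw [Finset.mem_range] at hs
      have e1 : (s : ℝ) ≤ r := by exact_mod_cast hs.le
      have e2 : (y : ℝ) ≤ r := by exact_mod_cast hy.le
      have h5 := hlam0 ((s : ℤ), (y : ℤ))
      by_cases hz : lam0 ((s : ℤ), (y : ℤ)) z = 0
      · rw [hz, mul_zero]
        exact zero_le
      · refine le_trans ?_ (hμw n hnn0 s y (e1.trans hr1) (e2.trans hr1) z hz)
        have h6 : lam0 ((s : ℤ), (y : ℤ)) z ≤ 1 := by
          rw [← h5.1]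
          exact ENNReal.le_tsum z
        calc ENNReal.ofReal (Real.exp (-(δ' * n / 4))) * lam0 ((s : ℤ), (y : ℤ)) z
            ≤ ENNReal.ofReal (Real.exp (-(δ' * n / 4))) * 1 := by gcongr
          _ = _ := mul_one _)
  refine le_trans (measure_mono_ae ?_) (hbound.trans ?_)
  · filter_upwards [ha n J] with ω hω
    intro (hle : δ' * n ≤ a n J ω)
    change A.Sh (μ n) ((h + 1) * N) ω < _
    rw [hω] at hle
    have ht : A.Sh (μ n) (10 ^ J) ω ≠ ∞ :=
      ne_top_of_le_ne_top ENNReal.one_ne_top (KerSys.Sh_le_one (hμ n) _ ω)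
    have hδn : 0 < δ' * n := by positivity
    have hpos : 0 < (A.Sh (μ n) (10 ^ J) ω).toReal := by
      by_contra hcon
      have h0 : (A.Sh (μ n) (10 ^ J) ω).toReal = 0 :=
        le_antisymm (not_lt.1 hcon) ENNReal.toReal_nonneg
      rw [h0, Real.log_zero] at hle
      linarith
    have h1 : (A.Sh (μ n) (10 ^ J) ω).toReal ≤ Real.exp (-(δ' * n)) := by
      rw [← Real.exp_log hpos]
      apply Real.exp_le_exp.2
      linarith
    have h2 : A.Sh (μ n) ((h + 1) * N) ω ≤ ENNReal.ofReal (Real.exp (-(δ' * n))) := by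
      refine (KerSys.Sh_anti (?_ : 10 ^ J ≤ (h + 1) * N) ω).trans ?_
      · have e1 : ((10 ^ J : ℕ) : ℝ) ≤ ((h + 1) * N : ℕ) := by
          push_cast
          refine hJ.trans ?_
          rw [div_le_iff₀ hNr] at hh1
          have : (h : ℝ) * N ≤ ((h : ℝ) + 1) * N := by nlinarith
          linarith
        exact_mod_cast e1
      · rw [← ENNReal.ofReal_toReal ht]
        exact ENNReal.ofReal_le_ofReal h1
    refine lt_of_le_of_lt h2 ?_
    have h3 : ENNReal.ofReal (Real.exp (-(δ' * n / 4))) *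
        ENNReal.ofReal (Real.exp (-m)) ^ (h + 1) ≤
        ENNReal.ofReal (Real.exp (-(δ' * n / 4))) * γ ^ (h + 1) :=
      mul_le_mul' le_rfl (pow_le_pow_left' hγ _)
    refine lt_of_lt_of_le ?_ h3
    rw [← ENNReal.ofReal_pow (Real.exp_pos _).le, ← ENNReal.ofReal_mul (Real.exp_pos _).le,
      ← Real.exp_nat_mul, ← Real.exp_add]
    refine (ENNReal.ofReal_lt_ofReal_iff (Real.exp_pos _)).2 (Real.exp_lt_exp.2 ?_)
    have e3 : m * ((h : ℝ) + 1) ≤ δ' * n / 4 + δ' * n / 4 := by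
      have e4 : m * ((h : ℝ) + 1) ≤ m * (b * n / N + 2) :=
        mul_le_mul_of_nonneg_left (by linarith) hm
      have e5 : m * (b * n / N) ≤ δ' * n / 4 := by
        rw [mul_div_assoc', div_le_iff₀ hNr]
        have := mul_le_mul_of_nonneg_right hmb hnpos.le
        nlinarith
      have e6 : m * 2 ≤ δ' * n / 4 := by linarith
      linarith
    push_cast
    nlinarith
  · rw [Finset.prod_const, Finset.card_range]
    have e1 : (2 : ℝ≥0∞) * (12 * ((1 / 96 : ℝ≥0) : ℝ≥0∞)) ^ r ≤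
        ENNReal.ofReal (Real.exp (-((r : ℝ) / 2))) := by
      have e24 : (12 : ℝ≥0∞) * ((1 / 96 : ℝ≥0) : ℝ≥0∞) = ENNReal.ofReal (1 / 8) := by
        have : (12 : ℝ≥0∞) = ((12 : ℝ≥0) : ℝ≥0∞) := by simp
        rw [this, ← ENNReal.coe_mul, ENNReal.ofReal, ENNReal.coe_inj, ← NNReal.coe_inj,
          Real.coe_toNNReal _ (by norm_num)]
        push_cast
        norm_num
      rw [e24, ← ENNReal.ofReal_pow (by norm_num)]
      have e2 : (2 : ℝ≥0∞) = ENNReal.ofReal 2 := by simp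
      rw [e2, ← ENNReal.ofReal_mul (by norm_num)]
      apply ENNReal.ofReal_le_ofReal
      have e3 : (2 : ℝ) * (1 / 8) ^ r ≤ (1 / 2) ^ r := by
        have e4 : ((1 : ℝ) / 8) ^ r = (1 / 2) ^ r * (1 / 4) ^ r := by
          rw [← mul_pow]; norm_num
        have e5 : ((1 : ℝ) / 4) ^ r ≤ 1 / 4 := by
          calc ((1 : ℝ) / 4) ^ r ≤ (1 / 4) ^ 1 :=
                pow_le_pow_of_le_one (by norm_num) (by norm_num) hrpos
            _ = 1 / 4 := pow_one _
        have e6 : (0 : ℝ) < (1 / 2) ^ r := by positivity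
        rw [e4]
        nlinarith
      refine e3.trans ?_
      have e7 : (1 : ℝ) / 2 ≤ Real.exp (-(1 / 2)) := by
        have := Real.add_one_le_exp (-(1 / 2 : ℝ))
        linarith
      calc ((1 : ℝ) / 2) ^ r ≤ Real.exp (-(1 / 2)) ^ r :=
            pow_le_pow_left₀ (by norm_num) e7 r
        _ = Real.exp (-((r : ℝ) / 2)) := by
            rw [← Real.exp_nat_mul]
            congr 1
            ring
    refine (pow_le_pow_left' e1 r).trans ?_
    rw [← ENNReal.ofReal_pow (Real.exp_pos _).le, ← Real.exp_nat_mul]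
    apply ENNReal.ofReal_le_ofReal
    apply Real.exp_le_exp.2
    have e8 : (ρ * n / 2) ^ 2 ≤ (r : ℝ) ^ 2 := pow_le_pow_left₀ (by positivity) hr3 2
    have e9 : 8 * M * n ≤ ρ ^ 2 * n * n := by
      exact mul_le_mul_of_nonneg_right i2' hnpos.le
    nlinarith

end final

end Crest.Agent.R154.InitY272
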