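import Crest.Agent.R154.GenPair_850

/-!
Row 154, block B7 in the frame (range `R`, general walk spaces): the K-set bounds (K2), (K3) of
helper740 by the exploration theorem of helper850 (least loaded cell, trimmed test walkers).
A test is a walker of a walk space `W` (a pair of walkers is one walker of a product walk space),
with law `law l`, decision time `τ l` and payoff `u l`.
-/

set_option autoImplicit false
set_option linter.unusedSectionVars false

namespace Crest.Agent.R154

open MeasureTheory ProbabilityTheory Crest.ProbabilityR.RandomEnvironment Finset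
open scoped ENNReal

variable {d : ℕ} {Ω : Type} [MeasurableSpace Ω]

namespace WalkSpace

variable (W : WalkSpace d Ω)







lemma measurableSet_lt {S T : Ω → ℕ∞} (hS : W.IsStop S) (hT : W.IsStop T) :
    MeasurableSet {X | S X < T X} := by
  have : {X | S X < T X} = ⋃ n : ℕ, {X | S X = n ∧ ∀ i ≤ n, T X ≠ (i : ℕ)} := by
    ext X
    simp only [Set.mem_ofPred_eq, Set.mem_iUnion]
    constructor
    · intro h
      obtain ⟨n, hn⟩ := ENat.ne_top_iff_exists.1 (ne_top_of_lt h)
      refine ⟨n, hn.symm, fun i hi he => ?_⟩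
      rw [← hn, he] at h
      have : n < i := by exact_mod_cast h
      omega
    · rintro ⟨n, hn, hi⟩
      by_contra hlt
      rw [not_lt, hn] at hlt
      obtain ⟨m, hm⟩ := ENat.ne_top_iff_exists.1 (lt_of_le_of_lt hlt (ENat.natCast_lt_top n)).ne
      rw [← hm] at hlt
      exact hi m (by exact_mod_cast hlt) hm.symm
  rw [this]
  refine MeasurableSet.iUnion fun n => W.measurableSet_of_hist n _ fun X Y h hX => ?_
  refine ⟨hS X Y n h hX.1, fun i hi he => hX.2 i hi ?_⟩
  exact hT Y X i (W.mono X Y hi h).symm he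


end WalkSpace

open WalkSpace

/-- A contact rule at range `R`: `con V X` is the first time at which the walker `X` may use a row
dependent on the rows of `V`, `tr X t` is the set of sites used by `X` before `t`. -/
structure Con (W : WalkSpace d Ω) (R : ℕ) where
  /-- first contact with `V` -/
  con : Set (Site d) → Ω → ℕ∞
  /-- trace -/
  tr : Ω → ℕ∞ → Set (Site d)
  isStop : ∀ V, W.IsStop (con V)
  far : ∀ V X (n : ℕ), (n : ℕ∞) ≤ con V X → W.read X n ⊆ far R V
  anti : ∀ {V V' : Set (Site d)}, V ⊆ V' → ∀ X, con V' X ≤ con V X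
  union : ∀ {V V' : Set (Site d)} {X : Ω} {t : ℕ∞}, con (V ∪ V') X < t → con V X < t ∨ con V' X < t
  empty : ∀ X, con ∅ X = ⊤
  tr_mono : ∀ X {s t : ℕ∞}, s ≤ t → tr X s ⊆ tr X t
  tr_zero : ∀ X, tr X 0 = ∅
  tr_read : ∀ X (n : ℕ), W.read X n ⊆ tr X n
  tr_congr : ∀ {n : ℕ} {X Y : Ω}, W.hist n X = W.hist n Y → ∀ {t : ℕ∞}, t ≤ (n + 1 : ℕ) →
    tr X t = tr Y t
  single : ∀ (X Y : Ω) (t t' : ℕ∞), con (tr X t) Y < t' ↔ ∃ n j : ℕ,
    (n : ℕ∞) < t' ∧ (j : ℕ∞) < t ∧ con (tr X ((j + 1 : ℕ) : ℕ∞)) Y ≤ n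




namespace WalkSpace

variable (W : WalkSpace d Ω)



end WalkSpace



namespace KExp

/-- first time of a predicate of times. -/
noncomputable def fst (p : ℕ → Prop) : ℕ∞ := ⨅ n : {n : ℕ // p n}, ((n : ℕ) : ℕ∞)

lemma fst_le {p : ℕ → Prop} {n : ℕ} (h : p n) : fst p ≤ n :=
  iInf_le (fun n : {n : ℕ // p n} => ((n : ℕ) : ℕ∞)) ⟨n, h⟩

lemma not_of_lt_fst {p : ℕ → Prop} {n : ℕ} (h : (n : ℕ∞) < fst p) : ¬ p n :=
  fun hp => absurd (fst_le hp) (not_le.2 h)

lemma fst_exists {p : ℕ → Prop} {t : ℕ∞} (h : fst p < t) : ∃ n : ℕ, (n : ℕ∞) < t ∧ p n := by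
  unfold fst at h
  rw [iInf_lt_iff] at h
  obtain ⟨n, hn⟩ := h
  exact ⟨n, hn, n.2⟩

lemma fst_eq_of {p q : ℕ → Prop} {n : ℕ} (hpq : ∀ i ≤ n, (p i ↔ q i)) (h : fst p = n) :
    fst q = n := by
  have hp : p n := by
    by_contra hn
    have : ((n + 1 : ℕ) : ℕ∞) ≤ fst p := by
      refine le_iInf fun m => ?_
      have h1 : (n : ℕ∞) ≤ m := h ▸ fst_le m.2
      have h2 : n ≤ m := by exact_mod_cast h1
      have h3 : n ≠ m := fun e => hn (by rw [e]; exact m.2)
      have : n + 1 ≤ m := by omega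
      exact_mod_cast this
    rw [h] at this
    have : n + 1 ≤ n := by exact_mod_cast this
    omega
  refine le_antisymm (fst_le ((hpq n le_rfl).1 hp)) ?_
  refine le_iInf fun m => ?_
  by_contra hlt
  rw [not_le] at hlt
  have hlt' : (m : ℕ) < n := by exact_mod_cast hlt
  have h1 : fst p ≤ (m : ℕ) := fst_le ((hpq m hlt'.le).2 m.2)
  rw [h] at h1
  have : n ≤ (m : ℕ) := by exact_mod_cast h1
  omega

lemma isStop_fst (W : WalkSpace d Ω) {p : ℕ → Ω → Prop}
    (hp : ∀ n X Y, W.hist n X = W.hist n Y → (p n X ↔ p n Y)) :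
    W.IsStop (fun X => fst (fun n => p n X)) := by
  intro X Y n h hn
  exact fst_eq_of (fun i hi => hp i X Y (W.mono X Y hi h)) hn

lemma isStop_min (W : WalkSpace d Ω) {S T : Ω → ℕ∞} (hS : W.IsStop S) (hT : W.IsStop T) :
    W.IsStop (fun X => min (S X) (T X)) := by
  intro X Y n h hn
  have key : ∀ Z : Ω, min (S Z) (T Z) = n ↔ (S Z = n ∧ ∀ i < n, T Z ≠ (i : ℕ)) ∨
      (T Z = n ∧ ∀ i < n, S Z ≠ (i : ℕ)) := by
    intro Z
    constructor
    · intro hm
      rcases le_total (S Z) (T Z) with hle | hle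
      · rw [min_eq_left hle] at hm
        refine Or.inl ⟨hm, fun i hi he => ?_⟩
        rw [hm, he] at hle
        have : n ≤ i := by exact_mod_cast hle
        omega
      · rw [min_eq_right hle] at hm
        refine Or.inr ⟨hm, fun i hi he => ?_⟩
        rw [hm, he] at hle
        have : n ≤ i := by exact_mod_cast hle
        omega
    · rintro (⟨h1, h2⟩ | ⟨h1, h2⟩)
      · rw [h1]
        refine min_eq_left ?_
        by_contra hlt
        rw [not_le] at hlt
        obtain ⟨m, hm⟩ := ENat.ne_top_iff_exists.1 (ne_top_of_lt hlt)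
        rw [← hm] at hlt
        exact h2 m (by exact_mod_cast hlt) hm.symm
      · rw [h1]
        refine min_eq_right ?_
        by_contra hlt
        rw [not_le] at hlt
        obtain ⟨m, hm⟩ := ENat.ne_top_iff_exists.1 (ne_top_of_lt hlt)
        rw [← hm] at hlt
        exact h2 m (by exact_mod_cast hlt) hm.symm
  have hiff : ∀ U : Ω → ℕ∞, W.IsStop U → ∀ i ≤ n, (U X = i ↔ U Y = i) := by
    intro U hU i hi
    have hi' := W.mono X Y hi h
    exact ⟨fun e => hU X Y i hi' e, fun e => hU Y X i hi'.symm e⟩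
  have h1 := (key X).1 hn
  refine (key Y).2 ?_
  rcases h1 with ⟨h1, h2⟩ | ⟨h1, h2⟩
  · exact Or.inl ⟨(hiff S hS n le_rfl).1 h1, fun i hi he => h2 i hi ((hiff T hT i hi.le).2 he)⟩
  · exact Or.inr ⟨(hiff T hT n le_rfl).1 h1, fun i hi he => h2 i hi ((hiff S hS i hi.le).2 he)⟩

variable {ι : Type} [Fintype ι] [DecidableEq ι] [Nonempty ι]

/-- contact probability of the test `l` with the set `V` (annealed, before its decision time). -/
noncomputable def cc {W : WalkSpace d Ω} {R : ℕ} (K : Con W R) (Q : Measure (Environment d))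
    (law : ι → Kernel (Environment d) Ω) (τ : ι → Ω → ℕ∞) (l : ι) (V : Set (Site d)) : ℝ≥0∞ :=
  (Q.bind (law l)) {X | K.con V X < τ l X}

section cc

variable {W : WalkSpace d Ω} {R : ℕ} (K : Con W R) (Q : Measure (Environment d))
  (law : ι → Kernel (Environment d) Ω) (τ : ι → Ω → ℕ∞)

lemma cc_mono (l : ι) {V V' : Set (Site d)} (h : V ⊆ V') :
    cc K Q law τ l V ≤ cc K Q law τ l V' :=
  measure_mono fun _ hX => (K.anti h _).trans_lt hX

lemma cc_union (l : ι) (V V' : Set (Site d)) :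
    cc K Q law τ l (V ∪ V') ≤ cc K Q law τ l V + cc K Q law τ l V' := by
  refine (measure_mono fun X hX => ?_).trans (measure_union_le _ _)
  exact K.union hX

lemma cc_empty (l : ι) : cc K Q law τ l ∅ = 0 := by
  unfold cc
  have : {X | K.con (∅ : Set (Site d)) X < τ l X} = ∅ := by
    ext X
    simp [K.empty]
  rw [this, measure_empty]

/-- least loaded cell of `rem`. -/
noncomputable def lead (f : ι → ℝ≥0∞) (rem : Finset ι) : ι :=
  if h : rem.Nonempty then (rem.exists_min_image f h).choose else Classical.arbitrary ι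

lemma lead_mem (f : ι → ℝ≥0∞) {rem : Finset ι} (h : rem.Nonempty) : lead f rem ∈ rem := by
  unfold lead; rw [dif_pos h]
  exact (rem.exists_min_image f h).choose_spec.1

lemma card_mul_lead_le (f : ι → ℝ≥0∞) (rem : Finset ι) :
    rem.card * f (lead f rem) ≤ ∑ l ∈ rem, f l := by
  rcases rem.eq_empty_or_nonempty with h | h
  · subst h; simp
  · have hl : ∀ l ∈ rem, f (lead f rem) ≤ f l := by
      unfold lead; rw [dif_pos h]
      exact (rem.exists_min_image f h).choose_spec.2
    calc (rem.card : ℝ≥0∞) * f (lead f rem) = ∑ _l ∈ rem, f (lead f rem) := by simp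
      _ ≤ ∑ l ∈ rem, f l := Finset.sum_le_sum hl

/-- trimming time: before the capacity (with respect to the cells `C`) exceeds `th`. -/
noncomputable def trim (th : ℝ≥0∞) (C : Finset ι) (X : Ω) : ℕ∞ :=
  fst fun n => th < ∑ l ∈ C, cc K Q law τ l (K.tr X ((n + 1 : ℕ) : ℕ∞))

lemma isStop_trim (th : ℝ≥0∞) (C : Finset ι) : W.IsStop (trim K Q law τ th C) := by
  refine isStop_fst W fun n X Y h => ?_
  rw [K.tr_congr h le_rfl]

lemma load_before_trim (th : ℝ≥0∞) (C : Finset ι) (X : Ω) {t : ℕ∞}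
    (ht : t ≤ trim K Q law τ th C X) (htop : t < ⊤) :
    ∑ l ∈ C, cc K Q law τ l (K.tr X t) ≤ th := by
  obtain ⟨n, rfl⟩ := ENat.ne_top_iff_exists.1 htop.ne
  rcases n with _ | n
  · have : K.tr X ((0 : ℕ) : ℕ∞) = ∅ := by exact_mod_cast K.tr_zero X
    rw [this]
    simp [cc_empty]
  · have h1 : (n : ℕ∞) < trim K Q law τ th C X := by
      refine lt_of_lt_of_le ?_ ht
      exact_mod_cast Nat.lt_succ_self n
    exact not_lt.1 (not_of_lt_fst h1)

lemma trim_lt_imp (th : ℝ≥0∞) {C C' : Finset ι} (hC : C ⊆ C') {X : Ω} {t : ℕ∞}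
    (h : trim K Q law τ th C X < t) :
    th < ∑ l ∈ C', cc K Q law τ l (K.tr X t) := by
  obtain ⟨n, hn, hp⟩ := fst_exists h
  refine lt_of_lt_of_le hp ?_
  have hle : ((n + 1 : ℕ) : ℕ∞) ≤ t := by
    have := Order.add_one_le_of_lt hn
    exact_mod_cast this
  calc ∑ l ∈ C, cc K Q law τ l (K.tr X ((n + 1 : ℕ) : ℕ∞))
      ≤ ∑ l ∈ C', cc K Q law τ l (K.tr X ((n + 1 : ℕ) : ℕ∞)) :=
        Finset.sum_le_sum_of_subset hC
    _ ≤ ∑ l ∈ C', cc K Q law τ l (K.tr X t) :=
        Finset.sum_le_sum fun l _ => cc_mono K Q law τ l (K.tr_mono X hle)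

end cc

/-! ### (K3): one test per cell -/

section K3

variable {W : WalkSpace d Ω} {R : ℕ} (K : Con W R) (Q : Measure (Environment d))
  (law : ι → Kernel (Environment d) Ω) (τ : ι → Ω → ℕ∞) (u : ι → Ω → ℝ≥0∞) (th : ℝ≥0∞)

/-- states: explored set, remaining cells, accumulated payoff. -/
abbrev St (d : ℕ) (ι : Type) : Type := Set (Site d) × Finset ι × ℝ≥0∞

/-- the next cell. -/
noncomputable def cell (s : St d ι) : ι := lead (fun l => cc K Q law τ l s.1) s.2.1

/-- stopping time of the next test. -/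
noncomputable def stp (s : St d ι) (X : Ω) : ℕ∞ :=
  min (τ (cell K Q law τ s) X) (min (K.con s.1 X)
    (trim K Q law τ th (s.2.1.erase (cell K Q law τ s)) X))

/-- payoff of the next test. -/
noncomputable def pay (s : St d ι) (X : Ω) : ℝ≥0∞ :=
  open Classical in
  if τ (cell K Q law τ s) X = stp K Q law τ th s X then u (cell K Q law τ s) X else 1

/-- the exploration of (K3). -/
noncomputable def exp3 : GExplorer d Ω (St d ι) where
  rows s := s.1
  law s := law (cell K Q law τ s)
  stop s := stp K Q law τ th s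
  next s X := (s.1 ∪ K.tr X (stp K Q law τ th s X), s.2.1.erase (cell K Q law τ s),
    s.2.2 * pay K Q law τ u th s X)

lemma isStop_stp (hτ : ∀ l, W.IsStop (τ l)) (s : St d ι) :
    W.IsStop (stp K Q law τ th s) :=
  isStop_min W (hτ _) (isStop_min W (K.isStop _) (isStop_trim K Q law τ th _))

lemma exp3_valid (hτ : ∀ l, W.IsStop (τ l)) (hu : ∀ l, W.DetBy (τ l) (u l))
    (hr : ∀ l, W.ReadsOnly Q (law l)) :
    (exp3 K Q law τ u th).Valid W Q R where
  isStop s := isStop_stp K Q law τ th hτ s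
  det s := by
    intro X Y n h hn
    have hS : W.IsStop (stp K Q law τ th s) := isStop_stp K Q law τ th hτ s
    have hX : stp K Q law τ th s X = n := hn
    have hY : stp K Q law τ th s Y = n := hS X Y n h hX
    have hpos : K.tr X (n : ℕ∞) = K.tr Y (n : ℕ∞) := K.tr_congr h (by exact_mod_cast Nat.le_succ n)
    have hpay : pay K Q law τ u th s X = pay K Q law τ u th s Y := by
      unfold pay
      rw [hX, hY]
      by_cases hc : τ (cell K Q law τ s) X = n
      · have hc' : τ (cell K Q law τ s) Y = n := hτ _ X Y n h hc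
        rw [if_pos hc, if_pos hc']
        exact hu _ X Y n h hc
      · have hc' : ¬ τ (cell K Q law τ s) Y = n := fun e => hc (hτ _ Y X n h.symm e)
        rw [if_neg hc, if_neg hc']
    simp only [exp3, hX, hY, hpos, hpay]
  far s := by
    intro X n hn
    have hX : stp K Q law τ th s X = n := hn
    refine K.far s.1 X n ?_
    rw [← hX]
    exact (min_le_right _ _).trans (min_le_left _ _)
  rows_next s := by
    intro X n hn z hz
    have hX : stp K Q law τ th s X = n := hn
    rcases hz with hz | hz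
    · exact Or.inl hz
    · refine Or.inr ?_
      show z ∈ K.tr X (stp K Q law τ th s X)
      rw [hX]
      exact K.tr_read X n hz
  reads s := hr _

/-- quenched side: if every cell has quenched payoff at least `ε`, the value is at least `ε^m`. -/
lemma exp3_q_ge (hτ : ∀ l, W.IsStop (τ l)) (hu1 : ∀ l X, u l X ≤ 1) (hu0 : ∀ l X, τ l X = ⊤ → u l X = 0)
    {ω : Environment d} {ε : ℝ≥0∞} (hε : ∀ l, ε ≤ ∫⁻ X, u l X ∂(law l ω)) (m : ℕ) :
    ∀ s : St d ι, m ≤ s.2.1.card →
      s.2.2 * ε ^ m ≤ (exp3 K Q law τ u th).qVal (fun s => s.2.2) ω m s := by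
  induction m with
  | zero => intro s _; simp [GExplorer.qVal]
  | succ m ih =>
    intro s hs
    have hne : s.2.1.Nonempty := by
      rw [← Finset.card_pos]; omega
    have hmem : cell K Q law τ s ∈ s.2.1 := lead_mem _ hne
    have hcard : (s.2.1.erase (cell K Q law τ s)).card = s.2.1.card - 1 :=
      Finset.card_erase_of_mem hmem
    set S : Set Ω := {X | stp K Q law τ th s X < ⊤} with hS
    have hstep : ∀ X ∈ S, u (cell K Q law τ s) X ≤ pay K Q law τ u th s X := by
      intro X _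
      unfold pay
      split_ifs with h
      · exact le_rfl
      · exact hu1 _ _
    have hout : ∀ X, X ∉ S → u (cell K Q law τ s) X = 0 := by
      intro X hX
      have : stp K Q law τ th s X = ⊤ := by
        simpa [hS] using hX
      refine hu0 _ _ ?_
      have h1 : stp K Q law τ th s X ≤ τ (cell K Q law τ s) X := min_le_left _ _
      rw [this] at h1
      exact top_le_iff.1 h1
    have hSm : MeasurableSet S := W.measurableSet_stop_lt (isStop_stp K Q law τ th hτ s)
    have hint : ∫⁻ X, u (cell K Q law τ s) X ∂(law (cell K Q law τ s) ω)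
        ≤ ∫⁻ X in S, u (cell K Q law τ s) X ∂(law (cell K Q law τ s) ω) := by
      rw [← lintegral_add_compl _ hSm]
      have h0 : ∫⁻ X in Sᶜ, u (cell K Q law τ s) X ∂(law (cell K Q law τ s) ω) = 0 := by
        rw [setLIntegral_congr_fun hSm.compl (g := fun _ => 0) (fun X hX => hout X hX)]
        simp
      rw [h0, add_zero]
    calc s.2.2 * ε ^ (m + 1)
        = (s.2.2 * ε ^ m) * ε := by ring
      _ ≤ (s.2.2 * ε ^ m) * ∫⁻ X, u (cell K Q law τ s) X ∂(law (cell K Q law τ s) ω) := by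
          gcongr; exact hε _
      _ ≤ (s.2.2 * ε ^ m)
          * ∫⁻ X in S, u (cell K Q law τ s) X ∂(law (cell K Q law τ s) ω) := by gcongr
      _ ≤ ∫⁻ X in S, (s.2.2 * ε ^ m) * u (cell K Q law τ s) X
            ∂(law (cell K Q law τ s) ω) := lintegral_const_mul_le _ _
      _ ≤ ∫⁻ X in S, (exp3 K Q law τ u th).qVal (fun s => s.2.2) ω m
            ((exp3 K Q law τ u th).next s X) ∂(law (cell K Q law τ s) ω) := by
          refine setLIntegral_mono' ?_ fun X hX => ?_
          · exact hSm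
          · refine le_trans ?_ (ih _ (by
              show m ≤ (s.2.1.erase (cell K Q law τ s)).card
              omega))
            show s.2.2 * ε ^ m * u (cell K Q law τ s) X
              ≤ s.2.2 * pay K Q law τ u th s X * ε ^ m
            calc s.2.2 * ε ^ m * u (cell K Q law τ s) X
                ≤ s.2.2 * ε ^ m * pay K Q law τ u th s X := by
                  gcongr; exact hstep X hX
              _ = _ := by ring

/-- annealed side. -/
lemma exp3_a_le [IsProbabilityMeasure Q] [∀ l, IsMarkovKernel (law l)]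
    (hτ : ∀ l, W.IsStop (τ l)) (hum : ∀ l, Measurable (u l)) (hu1 : ∀ l X, u l X ≤ 1)
    {δ η κ' : ℝ≥0∞} (hfin : δ + η + κ' ≠ ⊤)
    (hδ : ∀ l, ∫⁻ X, u l X ∂(Q.bind (law l)) ≤ δ)
    (hκ : ∀ l, (Q.bind (law l)) {X | th < ∑ l' ∈ (univ : Finset ι).erase l,
      cc K Q law τ l' (K.tr X (τ l X))} ≤ κ') (m : ℕ) :
    ∀ s : St d ι, s.2.2 ≤ 1 → m ≤ s.2.1.card →
      (0 < m → (∑ l ∈ s.2.1, cc K Q law τ l s.1) + (m - 1 : ℕ) * th
        ≤ η * (s.2.1.card - m + 1 : ℕ)) →
      (exp3 K Q law τ u th).aVal (fun s => s.2.2) Q m s ≤ s.2.2 * (δ + η + κ') ^ m := by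
  induction m with
  | zero => intro s _ _ _; simp [GExplorer.aVal]
  | succ m ih =>
    intro s hacc1 hs hload
    have hacc : s.2.2 ≠ ⊤ := ne_top_of_le_ne_top ENNReal.one_ne_top hacc1
    have hpay1 : ∀ X, pay K Q law τ u th s X ≤ 1 := by
      intro X
      unfold pay
      split_ifs
      · exact hu1 _ _
      · exact le_rfl
    have hne : s.2.1.Nonempty := by
      rw [← Finset.card_pos]; omega
    have hmem : cell K Q law τ s ∈ s.2.1 := lead_mem _ hne
    have hcard : (s.2.1.erase (cell K Q law τ s)).card = s.2.1.card - 1 :=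
      Finset.card_erase_of_mem hmem
    set S : Set Ω := {X | stp K Q law τ th s X < ⊤} with hS
    have hSm : MeasurableSet S := W.measurableSet_stop_lt (isStop_stp K Q law τ th hτ s)
    set l := cell K Q law τ s with hl
    -- load of the least loaded cell
    have hlead : cc K Q law τ l s.1 ≤ η := by
      have h1 := card_mul_lead_le (fun l => cc K Q law τ l s.1) s.2.1
      have h2 : (s.2.1.card : ℝ≥0∞) * cc K Q law τ l s.1 ≤ s.2.1.card * η := by
        calc (s.2.1.card : ℝ≥0∞) * cc K Q law τ l s.1 ≤ ∑ l ∈ s.2.1, cc K Q law τ l s.1 := h1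
          _ ≤ (∑ l ∈ s.2.1, cc K Q law τ l s.1) + (m + 1 - 1 : ℕ) * th := le_self_add
          _ ≤ η * (s.2.1.card - (m + 1) + 1 : ℕ) := hload (Nat.succ_pos m)
          _ ≤ η * (s.2.1.card : ℕ) := by
              gcongr
              omega
          _ = s.2.1.card * η := mul_comm _ _
      have h3 : (s.2.1.card : ℝ≥0∞) ≠ 0 := by
        simpa using hne.ne_empty
      exact (ENNReal.mul_le_mul_iff_right h3 (ENNReal.natCast_ne_top _)).1 h2
    -- one step
    have hpay : ∫⁻ X in S, pay K Q law τ u th s X ∂(Q.bind (law l)) ≤ δ + η + κ' := by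
      have hpt : ∀ X, pay K Q law τ u th s X ≤ u l X
          + {X | K.con s.1 X < τ l X}.indicator 1 X
          + {X | th < ∑ l' ∈ (univ : Finset ι).erase l,
              cc K Q law τ l' (K.tr X (τ l X))}.indicator 1 X := by
        intro X
        unfold pay
        split_ifs with h
        · exact le_self_add.trans le_self_add
        · have hlt : stp K Q law τ th s X < τ l X := lt_of_le_of_ne (min_le_left _ _) (Ne.symm h)
          have hlt2 : min (K.con s.1 X)
              (trim K Q law τ th (s.2.1.erase (cell K Q law τ s)) X) < τ l X := by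
            rcases min_lt_iff.1 hlt with h' | h'
            · exact absurd h' (lt_irrefl _)
            · exact h'
          rcases min_lt_iff.1 hlt2 with h' | h'
          · rw [Set.indicator_of_mem (show X ∈ {X | K.con s.1 X < τ l X} from h')]
            exact le_trans (by simp) le_self_add
          · have h'' := trim_lt_imp K Q law τ th
              (Finset.erase_subset_erase l (Finset.subset_univ s.2.1)) h'
            rw [Set.indicator_of_mem (show X ∈ {X | th < ∑ l' ∈ (univ : Finset ι).erase l,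
              cc K Q law τ l' (K.tr X (τ l X))} from h'')]
            exact le_trans (by simp) le_add_self
      have hmc : MeasurableSet {X | K.con s.1 X < τ l X} :=
        W.measurableSet_lt (K.isStop s.1) (hτ l)
      calc ∫⁻ X in S, pay K Q law τ u th s X ∂(Q.bind (law l))
          ≤ ∫⁻ X, (u l X + {X | K.con s.1 X < τ l X}.indicator 1 X
          + {X | th < ∑ l' ∈ (univ : Finset ι).erase l,
              cc K Q law τ l' (K.tr X (τ l X))}.indicator 1 X) ∂(Q.bind (law l)) :=
            (setLIntegral_le_lintegral _ _).trans (lintegral_mono hpt)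
        _ ≤ δ + η + κ' := by
            have e1 : ∫⁻ X, (u l X + {X | K.con s.1 X < τ l X}.indicator 1 X)
                ∂(Q.bind (law l)) ≤ δ + η := by
              rw [lintegral_add_left (f := u l) (hum l), lintegral_indicator_one hmc]
              exact add_le_add (hδ l) hlead
            rw [lintegral_add_left (f := fun X => u l X
              + {X | K.con s.1 X < τ l X}.indicator 1 X)
              ((hum l).add (measurable_one.indicator hmc))]
            refine add_le_add e1 ?_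
            exact (lintegral_indicator_one_le _).trans (hκ l)
    calc (exp3 K Q law τ u th).aVal (fun s => s.2.2) Q (m + 1) s
        = ∫⁻ X in S, (exp3 K Q law τ u th).aVal (fun s => s.2.2) Q m
            ((exp3 K Q law τ u th).next s X) ∂(Q.bind (law l)) := rfl
      _ ≤ ∫⁻ X in S, s.2.2 * (δ + η + κ') ^ m * pay K Q law τ u th s X
            ∂(Q.bind (law l)) := by
          refine setLIntegral_mono' hSm fun X hX => ?_
          refine (ih _ (mul_le_one' hacc1 (hpay1 X)) (by
              show m ≤ (s.2.1.erase l).card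
              omega) ?_).trans (le_of_eq ?_)
          · intro hm
            show (∑ l' ∈ s.2.1.erase l, cc K Q law τ l' (s.1 ∪ K.tr X
              (stp K Q law τ th s X))) + (m - 1 : ℕ) * th
                ≤ η * ((s.2.1.erase l).card - m + 1 : ℕ)
            have h1 : ∑ l' ∈ s.2.1.erase l, cc K Q law τ l' (s.1 ∪ K.tr X
                (stp K Q law τ th s X))
                ≤ (∑ l' ∈ s.2.1, cc K Q law τ l' s.1) + th := by
              calc ∑ l' ∈ s.2.1.erase l, cc K Q law τ l' (s.1 ∪ K.tr X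
                    (stp K Q law τ th s X))
                  ≤ ∑ l' ∈ s.2.1.erase l, (cc K Q law τ l' s.1
                    + cc K Q law τ l' (K.tr X (stp K Q law τ th s X))) :=
                    Finset.sum_le_sum fun l' _ => cc_union K Q law τ l' _ _
                _ = (∑ l' ∈ s.2.1.erase l, cc K Q law τ l' s.1)
                    + ∑ l' ∈ s.2.1.erase l, cc K Q law τ l'
                      (K.tr X (stp K Q law τ th s X)) := Finset.sum_add_distrib
                _ ≤ _ := by
                    refine add_le_add (Finset.sum_le_sum_of_subset (Finset.erase_subset _ _)) ?_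
                    exact load_before_trim K Q law τ th _ X
                      ((min_le_right _ _).trans (min_le_right _ _)) hX
            have h2 : (s.2.1.erase l).card - m + 1 = s.2.1.card - (m + 1) + 1 := by
              rw [hcard]; omega
            rw [h2]
            refine le_trans ?_ (hload (Nat.succ_pos m))
            calc (∑ l' ∈ s.2.1.erase l, cc K Q law τ l' (s.1 ∪ K.tr X
                  (stp K Q law τ th s X))) + (m - 1 : ℕ) * th
                ≤ (∑ l' ∈ s.2.1, cc K Q law τ l' s.1) + th + (m - 1 : ℕ) * th := by gcongr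
              _ = (∑ l' ∈ s.2.1, cc K Q law τ l' s.1) + (m + 1 - 1 : ℕ) * th := by
                  have : ((m + 1 - 1 : ℕ) : ℝ≥0∞) = 1 + ((m - 1 : ℕ) : ℝ≥0∞) := by
                    have : m + 1 - 1 = 1 + (m - 1) := by omega
                    rw [this]; push_cast; ring
                  rw [this]; ring
          · show s.2.2 * pay K Q law τ u th s X * (δ + η + κ') ^ m = _
            ring
      _ = s.2.2 * (δ + η + κ') ^ m * ∫⁻ X in S, pay K Q law τ u th s X
            ∂(Q.bind (law l)) := lintegral_const_mul' _ _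
              (ENNReal.mul_ne_top hacc (ENNReal.pow_ne_top hfin))
      _ ≤ s.2.2 * (δ + η + κ') ^ m * (δ + η + κ') := by gcongr
      _ = s.2.2 * (δ + η + κ') ^ (m + 1) := by ring

/-- **(K3)**, conditional on an explored past `V0`, range `R`: each of the `card ι` tests has
annealed payoff at most `δ`; the quenched payoffs are all at least `ε` with small probability. -/
theorem K3_le [IsProbabilityMeasure Q] [∀ l, IsMarkovKernel (law l)] (hQ : IndepAt R Q)
    (hτ : ∀ l, W.IsStop (τ l)) (hu : ∀ l, W.DetBy (τ l) (u l)) (hum : ∀ l, Measurable (u l))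
    (hu1 : ∀ l X, u l X ≤ 1) (hu0 : ∀ l X, τ l X = ⊤ → u l X = 0)
    (hr : ∀ l, W.ReadsOnly Q (law l)) {δ η κ' ε : ℝ≥0∞} (hfin : δ + η + κ' ≠ ⊤)
    (hδ : ∀ l, ∫⁻ X, u l X ∂(Q.bind (law l)) ≤ δ)
    (hκ : ∀ l, (Q.bind (law l)) {X | th < ∑ l' ∈ (univ : Finset ι).erase l,
      cc K Q law τ l' (K.tr X (τ l X))} ≤ κ')
    (V0 : Set (Site d)) {m : ℕ} (hm : m ≤ Fintype.card ι)
    (hload : 0 < m → (∑ l, cc K Q law τ l V0) + (m - 1 : ℕ) * th
      ≤ η * (Fintype.card ι - m + 1 : ℕ))
    {Φ : Environment d → ℝ≥0∞} (hΦ : Measurable[coordSigmaAlgebra V0] Φ) :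
    ε ^ m * ∫⁻ ω in {ω | ∀ l, ε ≤ ∫⁻ X, u l X ∂(law l ω)}, Φ ω ∂Q
      ≤ (∫⁻ ω, Φ ω ∂Q) * (δ + η + κ') ^ m := by
  have hE : MeasurableSet {ω | ∀ l, ε ≤ ∫⁻ X, u l X ∂(law l ω)} := by
    have : {ω | ∀ l, ε ≤ ∫⁻ X, u l X ∂(law l ω)}
        = ⋂ l, {ω | ε ≤ ∫⁻ X, u l X ∂(law l ω)} := by
      ext ω; simp
    rw [this]
    exact MeasurableSet.iInter fun l =>
      measurableSet_le measurable_const ((hum l).lintegral_kernel)
  have hΦ' : Measurable Φ := hΦ.mono (coordSigmaAlgebra_le _) le_rfl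
  have hv := exp3_valid K Q law τ u th hτ hu hr
  set s0 : St d ι := (V0, univ, 1) with hs0
  have hexp := GExplorer.explore _ hv hQ (fun s => s.2.2) m s0 Φ hΦ
  calc ε ^ m * ∫⁻ ω in {ω | ∀ l, ε ≤ ∫⁻ X, u l X ∂(law l ω)}, Φ ω ∂Q
      = ∫⁻ ω in {ω | ∀ l, ε ≤ ∫⁻ X, u l X ∂(law l ω)}, ε ^ m * Φ ω ∂Q :=
        (lintegral_const_mul _ hΦ').symm
    _ ≤ ∫⁻ ω in {ω | ∀ l, ε ≤ ∫⁻ X, u l X ∂(law l ω)},
          Φ ω * (exp3 K Q law τ u th).qVal (fun s => s.2.2) ω m s0 ∂Q := by
        refine setLIntegral_mono' hE fun ω hω => ?_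
        have h := exp3_q_ge K Q law τ u th hτ hu1 hu0 hω m s0 (by
          rw [hs0]; simpa using hm)
        rw [hs0, one_mul] at h
        rw [mul_comm]
        gcongr
    _ ≤ ∫⁻ ω, Φ ω * (exp3 K Q law τ u th).qVal (fun s => s.2.2) ω m s0 ∂Q :=
        setLIntegral_le_lintegral _ _
    _ = (∫⁻ ω, Φ ω ∂Q) * (exp3 K Q law τ u th).aVal (fun s => s.2.2) Q m s0 := hexp
    _ ≤ (∫⁻ ω, Φ ω ∂Q) * (δ + η + κ') ^ m := by
        gcongr
        have h := exp3_a_le K Q law τ u th hτ hum hu1 hfin hδ hκ m s0 le_rfl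
          (by rw [hs0]; simpa using hm) (by rw [hs0]; simpa using hload)
        rwa [hs0, one_mul] at h

end K3

/-! ### Markov inequality for the capacities -/

section Markov

variable {W : WalkSpace d Ω} {R : ℕ} (K : Con W R) (Q : Measure (Environment d))
  (law : ι → Kernel (Environment d) Ω) (τ : ι → Ω → ℕ∞)

/-- the contact set of two paths. -/
def meet (l l' : ι) : Set (Ω × Ω) :=
  {p | K.con (K.tr p.1 (τ l p.1)) p.2 < τ l' p.2}

lemma mem_meet_iff {l l' : ι} {p : Ω × Ω} : p ∈ meet K τ l l' ↔ ∃ n j : ℕ,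
    (n : ℕ∞) < τ l' p.2 ∧ (j : ℕ∞) < τ l p.1 ∧ K.con (K.tr p.1 ((j + 1 : ℕ) : ℕ∞)) p.2 ≤ n :=
  K.single p.1 p.2 (τ l p.1) (τ l' p.2)

lemma measurableSet_meet (hτ : ∀ l, W.IsStop (τ l)) (l l' : ι) :
    MeasurableSet (meet K τ l l') := by
  have key : ∀ (t : ℕ∞) (n : ℕ), (n : ℕ∞) < t ↔ ∀ i ≤ n, t ≠ (i : ℕ) := by
    intro t n
    constructor
    · intro h i hi he
      rw [he] at h
      have : n < i := by exact_mod_cast h
      omega
    · intro h
      by_contra hlt
      rw [not_lt] at hlt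
      obtain ⟨m, hm⟩ := ENat.ne_top_iff_exists.1 (lt_of_le_of_lt hlt (ENat.natCast_lt_top n)).ne
      rw [← hm] at hlt
      exact h m (by exact_mod_cast hlt) hm.symm
  have key2 : ∀ (t : ℕ∞) (n : ℕ), t ≤ (n : ℕ∞) ↔ ∃ i ≤ n, t = (i : ℕ) := by
    intro t n
    constructor
    · intro h
      obtain ⟨m, hm⟩ := ENat.ne_top_iff_exists.1 (lt_of_le_of_lt h (ENat.natCast_lt_top n)).ne
      rw [← hm] at h
      exact ⟨m, by exact_mod_cast h, hm.symm⟩
    · rintro ⟨i, hi, rfl⟩
      exact_mod_cast hi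
  have : meet K τ l l' = ⋃ n : ℕ, ⋃ j : ℕ, {p : Ω × Ω | (∀ i ≤ n, τ l' p.2 ≠ (i : ℕ)) ∧
      (∀ i ≤ j, τ l p.1 ≠ (i : ℕ)) ∧
      ∃ i ≤ n, K.con (K.tr p.1 ((j + 1 : ℕ) : ℕ∞)) p.2 = (i : ℕ)} := by
    ext p
    rw [mem_meet_iff]
    simp only [Set.mem_iUnion, Set.mem_ofPred_eq, key, key2]
  rw [this]
  refine MeasurableSet.iUnion fun n => MeasurableSet.iUnion fun j => ?_
  refine W.measurableSet_of_hist_pair (max n j) _ fun p q h1 h2 hp => ?_
  obtain ⟨ha, hb, i, hi, hc⟩ := hp
  refine ⟨fun i hi he => ha i hi ?_, fun i hi he => hb i hi ?_, i, hi, ?_⟩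
  · exact hτ l' _ _ i (W.mono _ _ (hi.trans (le_max_left _ _)) h2.symm) he
  · exact hτ l _ _ i (W.mono _ _ (hi.trans (le_max_right _ _)) h1.symm) he
  · rw [K.tr_congr (W.mono _ _ (le_max_right n j) h1) le_rfl] at hc
    exact K.isStop _ _ _ i (W.mono _ _ (hi.trans (le_max_left _ _)) h2) hc

/-- capacities as a section of the independent pair. -/
lemma cc_eq_section (l l' : ι) (X : Ω) :
    cc K Q law τ l' (K.tr X (τ l X)) = (Q.bind (law l')) (Prod.mk X ⁻¹' meet K τ l l') :=
  rfl

lemma measurable_cc [IsProbabilityMeasure Q] [∀ l, IsMarkovKernel (law l)]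
    (hτ : ∀ l, W.IsStop (τ l)) (l l' : ι) :
    Measurable fun X => cc K Q law τ l' (K.tr X (τ l X)) := by
  simp only [cc_eq_section]
  have : IsProbabilityMeasure (Q.bind (law l')) := inferInstance
  exact measurable_measure_prodMk_left (measurableSet_meet K τ hτ l l')

/-- Markov: the capacity exceeds `th` with probability at most (pair contacts)/`th`. -/
lemma capacity_le [IsProbabilityMeasure Q] [∀ l, IsMarkovKernel (law l)]
    (hτ : ∀ l, W.IsStop (τ l)) {th κ : ℝ≥0∞} (hth : th ≠ 0) (hth' : th ≠ ⊤) (l : ι)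
    (C : Finset ι)
    (hκ : ∑ l' ∈ C, ((Q.bind (law l)).prod (Q.bind (law l'))) (meet K τ l l') ≤ κ) :
    (Q.bind (law l)) {X | th < ∑ l' ∈ C, cc K Q law τ l' (K.tr X (τ l X))} ≤ κ / th := by
  have : ∀ l', IsProbabilityMeasure (Q.bind (law l')) := fun l' => inferInstance
  have hm : Measurable fun X => ∑ l' ∈ C, cc K Q law τ l' (K.tr X (τ l X)) :=
    Finset.measurable_sum _ fun l' _ => measurable_cc K Q law τ hτ l l'
  calc (Q.bind (law l)) {X | th < ∑ l' ∈ C, cc K Q law τ l' (K.tr X (τ l X))}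
      ≤ (Q.bind (law l)) {X | th ≤ ∑ l' ∈ C, cc K Q law τ l' (K.tr X (τ l X))} :=
        measure_mono fun X hX => (le_of_lt (show th < _ from hX) : _)
    _ ≤ (∫⁻ X, ∑ l' ∈ C, cc K Q law τ l' (K.tr X (τ l X)) ∂(Q.bind (law l))) / th :=
        meas_ge_le_lintegral_div hm.aemeasurable hth hth'
    _ = (∑ l' ∈ C, ((Q.bind (law l)).prod (Q.bind (law l'))) (meet K τ l l')) / th := by
        rw [lintegral_finsetSum _ fun l' _ => measurable_cc K Q law τ hτ l l']
        congr 1
        refine Finset.sum_congr rfl fun l' _ => ?_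
        rw [Measure.prod_apply (measurableSet_meet K τ hτ l l')]
        rfl
    _ ≤ κ / th := by gcongr

end Markov

/-! ### (K2): tests until the first success -/

section K2

variable {W : WalkSpace d Ω} {R : ℕ} (K : Con W R) (Q : Measure (Environment d))
  (law : ι → Kernel (Environment d) Ω) (τ : ι → Ω → ℕ∞) (G : ι → Set Ω) (th : ℝ≥0∞) (H : ℕ)

/-- the next cell: the least loaded one. -/
noncomputable def cell2 (V : Set (Site d)) : ι := lead (fun l => cc K Q law τ l V) univ

/-- stopping time of the next test (with horizon `H`). -/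
noncomputable def stp2 (V : Set (Site d)) (X : Ω) : ℕ∞ :=
  min (min (τ (cell2 K Q law τ V) X) (min (K.con V X)
    (trim K Q law τ th univ X))) H

/-- success of the next test. -/
def succ2 (V : Set (Site d)) : Set Ω :=
  {X | X ∈ G (cell2 K Q law τ V) ∧
    τ (cell2 K Q law τ V) X = stp2 K Q law τ th H V X}

open Classical in
/-- the exploration of (K2): the second component of the state is "already a success". -/
noncomputable def exp2 : GExplorer d Ω (Set (Site d) × Prop) where
  rows s := s.1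
  law s := law (cell2 K Q law τ s.1)
  stop s := stp2 K Q law τ th H s.1
  next s X := (s.1 ∪ K.tr X (stp2 K Q law τ th H s.1 X),
    s.2 ∨ X ∈ succ2 K Q law τ G th H s.1)

lemma stp2_lt_top (V : Set (Site d)) (X : Ω) : stp2 K Q law τ th H V X < ⊤ :=
  lt_of_le_of_lt (min_le_right _ _) (ENat.natCast_lt_top H)

lemma isStop_stp2 (hτ : ∀ l, W.IsStop (τ l)) (V : Set (Site d)) :
    W.IsStop (stp2 K Q law τ th H V) :=
  W.isStop_min_nat (isStop_min W (hτ _)
    (isStop_min W (K.isStop _) (isStop_trim K Q law τ th _))) H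

lemma exp2_valid (hτ : ∀ l, W.IsStop (τ l)) (hG : ∀ l, W.DetBy (τ l) (fun X => X ∈ G l))
    (hr : ∀ l, W.ReadsOnly Q (law l)) :
    (exp2 K Q law τ G th H).Valid W Q R where
  isStop s := isStop_stp2 K Q law τ th H hτ s.1
  det s := by
    intro X Y n h hn
    have hS : W.IsStop (stp2 K Q law τ th H s.1) := isStop_stp2 K Q law τ th H hτ s.1
    have hX : stp2 K Q law τ th H s.1 X = n := hn
    have hY : stp2 K Q law τ th H s.1 Y = n := hS X Y n h hX
    have hpos : K.tr X (n : ℕ∞) = K.tr Y (n : ℕ∞) := K.tr_congr h (by exact_mod_cast Nat.le_succ n)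
    have hsucc : (X ∈ succ2 K Q law τ G th H s.1) = (Y ∈ succ2 K Q law τ G th H s.1) := by
      simp only [succ2, Set.mem_ofPred_eq, hX, hY]
      by_cases hc : τ (cell2 K Q law τ s.1) X = n
      · have hc' : τ (cell2 K Q law τ s.1) Y = n := hτ _ X Y n h hc
        have := hG _ X Y n h hc
        simp only [hc, hc', and_true]
        exact this
      · have hc' : ¬ τ (cell2 K Q law τ s.1) Y = n := fun e => hc (hτ _ Y X n h.symm e)
        simp only [hc, hc', and_false]
    simp only [exp2, hX, hY, hpos, hsucc]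
  far s := by
    intro X n hn
    have hX : stp2 K Q law τ th H s.1 X = n := hn
    refine K.far s.1 X n ?_
    rw [← hX]
    exact ((min_le_left _ _).trans (min_le_right _ _)).trans (min_le_left _ _)
  rows_next s := by
    intro X n hn z hz
    have hX : stp2 K Q law τ th H s.1 X = n := hn
    rcases hz with hz | hz
    · exact Or.inl hz
    · refine Or.inr ?_
      show z ∈ K.tr X (stp2 K Q law τ th H s.1 X)
      rw [hX]
      exact K.tr_read X n hz
  reads s := hr _

open Classical in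
/-- final value: no success. -/
noncomputable def fin2 (s : Set (Site d) × Prop) : ℝ≥0∞ := if s.2 then 0 else 1

/-- quenched side: if every test has success probability at most `θ`. -/
lemma exp2_q_ge [∀ l, IsMarkovKernel (law l)] (hGm : ∀ l, MeasurableSet (G l))
    {ω : Environment d} {θ : ℝ≥0∞} (hθ : ∀ l, (law l ω) (G l) ≤ θ) (N : ℕ) :
    ∀ V : Set (Site d), (1 - θ) ^ N ≤ (exp2 K Q law τ G th H).qVal fin2 ω N (V, False) := by
  induction N with
  | zero => intro V; simp [GExplorer.qVal, fin2]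
  | succ N ih =>
    intro V
    set l := cell2 K Q law τ V with hl
    have huniv : {X | stp2 K Q law τ th H V X < ⊤} = Set.univ := by
      ext X; simp [stp2_lt_top K Q law τ th H V X]
    have hcomp : 1 - θ ≤ (law l ω) (G l)ᶜ := by
      rw [prob_compl_eq_one_sub (hGm l)]
      exact tsub_le_tsub_left (hθ l) 1
    calc (1 - θ) ^ (N + 1) = (1 - θ) ^ N * (1 - θ) := by ring
      _ ≤ (1 - θ) ^ N * (law l ω) (G l)ᶜ := by gcongr
      _ = ∫⁻ _ in (G l)ᶜ, (1 - θ) ^ N ∂(law l ω) := by rw [setLIntegral_const]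
      _ ≤ ∫⁻ X in (G l)ᶜ, (exp2 K Q law τ G th H).qVal fin2 ω N
            ((exp2 K Q law τ G th H).next (V, False) X) ∂(law l ω) := by
          refine setLIntegral_mono' (hGm l).compl fun X hX => ?_
          have hns : ¬ X ∈ succ2 K Q law τ G th H V := fun h => hX h.1
          have : (exp2 K Q law τ G th H).next (V, False) X
              = (V ∪ K.tr X (stp2 K Q law τ th H V X), False) := by
            simp [exp2, hns]
          rw [this]
          exact ih _
      _ ≤ ∫⁻ X, (exp2 K Q law τ G th H).qVal fin2 ω N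
            ((exp2 K Q law τ G th H).next (V, False) X) ∂(law l ω) :=
          setLIntegral_le_lintegral _ _
      _ = (exp2 K Q law τ G th H).qVal fin2 ω (N + 1) (V, False) := by
          show _ = ∫⁻ X in {X | stp2 K Q law τ th H V X < ⊤}, _ ∂_
          rw [huniv, Measure.restrict_univ]
          rfl

/-- after a success the value is zero. -/
lemma exp2_a_true (N : ℕ) : ∀ V : Set (Site d),
    (exp2 K Q law τ G th H).aVal fin2 Q N (V, True) = 0 := by
  induction N with
  | zero => intro V; simp [GExplorer.aVal, fin2]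
  | succ N ih =>
    intro V
    show ∫⁻ X in {X | stp2 K Q law τ th H V X < ⊤},
      (exp2 K Q law τ G th H).aVal fin2 Q N
        ((exp2 K Q law τ G th H).next (V, True) X) ∂_ = 0
    have : ∀ X, (exp2 K Q law τ G th H).next (V, True) X
        = (V ∪ K.tr X (stp2 K Q law τ th H V X), True) := by
      intro X; simp [exp2]
    simp [this, ih]

/-- annealed side. -/
lemma exp2_a_le [IsProbabilityMeasure Q] [∀ l, IsMarkovKernel (law l)]
    (hτ : ∀ l, W.IsStop (τ l)) (hGm : ∀ l, MeasurableSet (G l)) {β η κ' : ℝ≥0∞}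
    (hβ : ∀ l, (Q.bind (law l)) (G l ∩ {X | τ l X ≤ H})ᶜ + η + κ' ≤ β)
    (hκ : ∀ l, (Q.bind (law l)) {X | th < ∑ l' ∈ (univ : Finset ι),
      cc K Q law τ l' (K.tr X (τ l X))} ≤ κ') (N : ℕ) :
    ∀ V : Set (Site d),
      (0 < N → (∑ l, cc K Q law τ l V) + (N - 1 : ℕ) * th ≤ η * (Fintype.card ι : ℕ)) →
      (exp2 K Q law τ G th H).aVal fin2 Q N (V, False) ≤ β ^ N := by
  induction N with
  | zero => intro V _; simp [GExplorer.aVal, fin2]
  | succ N ih =>
    intro V hload
    set l := cell2 K Q law τ V with hl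
    have hlead : cc K Q law τ l V ≤ η := by
      have h1 := card_mul_lead_le (fun l => cc K Q law τ l V) (univ : Finset ι)
      have h2 : (Fintype.card ι : ℝ≥0∞) * cc K Q law τ l V ≤ Fintype.card ι * η := by
        calc (Fintype.card ι : ℝ≥0∞) * cc K Q law τ l V
            ≤ ∑ l, cc K Q law τ l V := h1
          _ ≤ (∑ l, cc K Q law τ l V) + (N + 1 - 1 : ℕ) * th := le_self_add
          _ ≤ η * (Fintype.card ι : ℕ) := hload (Nat.succ_pos N)
          _ = _ := mul_comm _ _
      have h3 : (Fintype.card ι : ℝ≥0∞) ≠ 0 := by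
        simp [Fintype.card_ne_zero]
      exact (ENNReal.mul_le_mul_iff_right h3 (ENNReal.natCast_ne_top _)).1 h2
    set A : Set Ω := (G l ∩ {X | τ l X ≤ H})ᶜ ∪ {X | K.con V X < τ l X}
      ∪ {X | th < ∑ l' ∈ (univ : Finset ι), cc K Q law τ l' (K.tr X (τ l X))} with hA
    have hAle : (Q.bind (law l)) A ≤ β := by
      refine le_trans ?_ (hβ l)
      refine (measure_union_le _ _).trans (add_le_add ?_ (hκ l))
      exact (measure_union_le _ _).trans (add_le_add le_rfl hlead)
    have hsuc : ∀ X, X ∉ A → X ∈ succ2 K Q law τ G th H V := by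
      intro X hX
      simp only [hA, Set.mem_union, not_or, Set.mem_compl_iff, not_not] at hX
      obtain ⟨⟨⟨h1, h2⟩, h3⟩, h4⟩ := hX
      refine ⟨h1, ?_⟩
      have h2' : τ l X ≤ H := h2
      have h3' : τ l X ≤ K.con V X := not_lt.1 h3
      have h4' : τ l X ≤ trim K Q law τ th univ X := by
        by_contra hlt
        rw [not_le] at hlt
        exact h4 (trim_lt_imp K Q law τ th (Finset.Subset.refl _) hlt)
      show τ l X = min (min (τ l X) (min (K.con V X)
        (trim K Q law τ th univ X))) H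
      rw [min_eq_left (le_min h3' h4'), min_eq_left h2']
    have hAm : MeasurableSet A := by
      have hτm : MeasurableSet {X | τ l X ≤ H} := by
        refine W.measurableSet_of_hist H _ fun X Y h hX => ?_
        have hX' : τ l X ≤ H := hX
        obtain ⟨n, hn⟩ := ENat.ne_top_iff_exists.1 (lt_of_le_of_lt hX' (ENat.natCast_lt_top H)).ne
        have hn' : n ≤ H := by
          rw [← hn] at hX'; exact_mod_cast hX'
        show τ l Y ≤ H
        rw [hτ l X Y n (W.mono _ _ hn' h) hn.symm]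
        exact_mod_cast hn'
      refine MeasurableSet.union (MeasurableSet.union ((hGm l).inter hτm).compl
        (W.measurableSet_lt (K.isStop V) (hτ l))) ?_
      exact measurableSet_lt measurable_const
        (Finset.measurable_sum _ fun l' _ => measurable_cc K Q law τ hτ l l')
    calc (exp2 K Q law τ G th H).aVal fin2 Q (N + 1) (V, False)
        ≤ ∫⁻ X, (exp2 K Q law τ G th H).aVal fin2 Q N
            ((exp2 K Q law τ G th H).next (V, False) X) ∂(Q.bind (law l)) :=
          setLIntegral_le_lintegral _ _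
      _ ≤ ∫⁻ X, A.indicator (fun _ => β ^ N) X ∂(Q.bind (law l)) := by
          refine lintegral_mono fun X => ?_
          by_cases hX : X ∈ A
          · rw [Set.indicator_of_mem hX]
            by_cases hs : X ∈ succ2 K Q law τ G th H V
            · have : (exp2 K Q law τ G th H).next (V, False) X
                  = (V ∪ K.tr X (stp2 K Q law τ th H V X), True) := by
                simp [exp2, hs]
              rw [this, exp2_a_true]
              exact zero_le
            · have : (exp2 K Q law τ G th H).next (V, False) X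
                  = (V ∪ K.tr X (stp2 K Q law τ th H V X), False) := by
                simp [exp2, hs]
              rw [this]
              refine ih _ fun hN => le_trans ?_ (hload (Nat.succ_pos N))
              calc (∑ l, cc K Q law τ l (V ∪ K.tr X (stp2 K Q law τ th H V X)))
                    + (N - 1 : ℕ) * th
                  ≤ (∑ l, (cc K Q law τ l V
                      + cc K Q law τ l (K.tr X (stp2 K Q law τ th H V X))))
                    + (N - 1 : ℕ) * th := by
                    gcongr with i _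
                    exact cc_union K Q law τ i _ _
                _ = (∑ l, cc K Q law τ l V)
                    + (∑ l, cc K Q law τ l (K.tr X (stp2 K Q law τ th H V X)))
                    + (N - 1 : ℕ) * th := by rw [Finset.sum_add_distrib]
                _ ≤ (∑ l, cc K Q law τ l V) + th + (N - 1 : ℕ) * th := by
                    gcongr
                    exact load_before_trim K Q law τ th _ X
                      (((min_le_left _ _).trans (min_le_right _ _)).trans (min_le_right _ _))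
                      (stp2_lt_top K Q law τ th H V X)
                _ = (∑ l, cc K Q law τ l V) + (N + 1 - 1 : ℕ) * th := by
                    have : ((N + 1 - 1 : ℕ) : ℝ≥0∞) = 1 + ((N - 1 : ℕ) : ℝ≥0∞) := by
                      have : N + 1 - 1 = 1 + (N - 1) := by omega
                      rw [this]; push_cast; ring
                    rw [this]; ring
          · rw [Set.indicator_of_notMem hX]
            have hs := hsuc X hX
            have : (exp2 K Q law τ G th H).next (V, False) X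
                = (V ∪ K.tr X (stp2 K Q law τ th H V X), True) := by
              simp [exp2, hs]
            rw [this, exp2_a_true]
      _ = β ^ N * (Q.bind (law l)) A := by rw [lintegral_indicator_const hAm]
      _ ≤ β ^ N * β := by gcongr
      _ = β ^ (N + 1) := by ring

/-- **(K2)**, conditional on an explored past `V0`, range `R`, with horizon. -/
theorem K2_hor [IsProbabilityMeasure Q] [∀ l, IsMarkovKernel (law l)] (hQ : IndepAt R Q)
    (hτ : ∀ l, W.IsStop (τ l)) (hG : ∀ l, W.DetBy (τ l) (fun X => X ∈ G l))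
    (hGm : ∀ l, MeasurableSet (G l)) (hr : ∀ l, W.ReadsOnly Q (law l)) {β η κ' θ : ℝ≥0∞}
    (hβ : ∀ l, (Q.bind (law l)) (G l ∩ {X | τ l X ≤ H})ᶜ + η + κ' ≤ β)
    (hκ : ∀ l, (Q.bind (law l)) {X | th < ∑ l' ∈ (univ : Finset ι),
      cc K Q law τ l' (K.tr X (τ l X))} ≤ κ')
    (V0 : Set (Site d)) (N : ℕ)
    (hload : 0 < N → (∑ l, cc K Q law τ l V0) + (N - 1 : ℕ) * th
      ≤ η * (Fintype.card ι : ℕ))
    {Φ : Environment d → ℝ≥0∞} (hΦ : Measurable[coordSigmaAlgebra V0] Φ) :
    (1 - θ) ^ N * ∫⁻ ω in {ω | ∀ l, (law l ω) (G l) ≤ θ}, Φ ω ∂Q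
      ≤ (∫⁻ ω, Φ ω ∂Q) * β ^ N := by
  have hE : MeasurableSet {ω | ∀ l, (law l ω) (G l) ≤ θ} := by
    have : {ω | ∀ l, (law l ω) (G l) ≤ θ} = ⋂ l, {ω | (law l ω) (G l) ≤ θ} := by
      ext ω; simp
    rw [this]
    exact MeasurableSet.iInter fun l =>
      measurableSet_le ((law l).measurable_coe (hGm l)) measurable_const
  have hΦ' : Measurable Φ := hΦ.mono (coordSigmaAlgebra_le _) le_rfl
  have hv := exp2_valid K Q law τ G th H hτ hG hr
  have hexp := GExplorer.explore _ hv hQ fin2 N (V0, False) Φ hΦ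
  calc (1 - θ) ^ N * ∫⁻ ω in {ω | ∀ l, (law l ω) (G l) ≤ θ}, Φ ω ∂Q
      = ∫⁻ ω in {ω | ∀ l, (law l ω) (G l) ≤ θ}, (1 - θ) ^ N * Φ ω ∂Q :=
        (lintegral_const_mul _ hΦ').symm
    _ ≤ ∫⁻ ω in {ω | ∀ l, (law l ω) (G l) ≤ θ},
          Φ ω * (exp2 K Q law τ G th H).qVal fin2 ω N (V0, False) ∂Q := by
        refine setLIntegral_mono' hE fun ω hω => ?_
        rw [mul_comm]
        gcongr
        exact exp2_q_ge K Q law τ G th H hGm hω N V0
    _ ≤ ∫⁻ ω, Φ ω * (exp2 K Q law τ G th H).qVal fin2 ω N (V0, False) ∂Q :=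
        setLIntegral_le_lintegral _ _
    _ = (∫⁻ ω, Φ ω ∂Q) * (exp2 K Q law τ G th H).aVal fin2 Q N (V0, False) := hexp
    _ ≤ (∫⁻ ω, Φ ω ∂Q) * β ^ N := by
        gcongr
        exact exp2_a_le K Q law τ G th H hτ hGm hβ hκ N V0 hload

end K2

/-! ### Final forms -/

section Final

variable {W : WalkSpace d Ω} {R : ℕ} (K : Con W R) (Q : Measure (Environment d))
  (law : ι → Kernel (Environment d) Ω) (τ : ι → Ω → ℕ∞)

lemma exists_horizon [IsProbabilityMeasure Q] [∀ l, IsMarkovKernel (law l)] (G : ι → Set Ω)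
    (hGτ : ∀ l X, X ∈ G l → τ l X < ⊤) {g g' : ℝ≥0∞} (hgg : g' < g)
    (hg : ∀ l, g ≤ (Q.bind (law l)) (G l)) :
    ∃ H : ℕ, ∀ l, g' ≤ (Q.bind (law l)) (G l ∩ {X | τ l X ≤ H}) := by
  have h1 : ∀ l, ∃ H : ℕ, g' ≤ (Q.bind (law l)) (G l ∩ {X | τ l X ≤ H}) := by
    intro l
    have hU : G l = ⋃ H : ℕ, (G l ∩ {X | τ l X ≤ H}) := by
      ext X
      simp only [Set.mem_iUnion, Set.mem_inter_iff, Set.mem_ofPred_eq]
      constructor
      · intro hX
        obtain ⟨n, hn⟩ := ENat.ne_top_iff_exists.1 (hGτ l X hX).ne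
        exact ⟨n, hX, hn.symm.le⟩
      · rintro ⟨H, hX, -⟩
        exact hX
    have hmono : Monotone fun H : ℕ => G l ∩ {X | τ l X ≤ H} := by
      intro a b hab X hX
      exact ⟨hX.1, le_trans (show τ l X ≤ (a : ℕ∞) from hX.2) (by exact_mod_cast hab)⟩
    have ht := tendsto_measure_iUnion_atTop (μ := Q.bind (law l)) hmono
    rw [← hU] at ht
    have hlt : g' < (Q.bind (law l)) (G l) := lt_of_lt_of_le hgg (hg l)
    obtain ⟨H, hH⟩ := ((tendsto_order.1 ht).1 g' hlt).exists
    exact ⟨H, hH.le⟩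
  choose f hf using h1
  refine ⟨univ.sup f, fun l => (hf l).trans (measure_mono fun X hX => ⟨hX.1, ?_⟩)⟩
  refine le_trans (show τ l X ≤ (f l : ℕ∞) from hX.2) ?_
  exact_mod_cast Finset.le_sup (f := f) (Finset.mem_univ l)

/-- **(K2)**: `card ι` tests of annealed success probability `≥ 8 x` with pairwise contacts
(sum over the other test, itself included) at most `κ`: all quenched success probabilities are
`≤ 2 x` with (conditional) probability at most `(1 - 2 x)^N`, `N ~ x² card ι / (4 κ)`. -/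
theorem K2_le [IsProbabilityMeasure Q] [∀ l, IsMarkovKernel (law l)] (hQ : IndepAt R Q)
    (hτ : ∀ l, W.IsStop (τ l)) (G : ι → Set Ω) (hG : ∀ l, W.DetBy (τ l) (fun X => X ∈ G l))
    (hGm : ∀ l, MeasurableSet (G l)) (hGτ : ∀ l X, X ∈ G l → τ l X < ⊤)
    (hr : ∀ l, W.ReadsOnly Q (law l)) {x κ : ℝ≥0∞} (hx0 : x ≠ 0) (hx : 8 * x ≤ 1)
    (hg : ∀ l, 8 * x ≤ (Q.bind (law l)) (G l)) (hκ0 : κ ≠ 0) (hκt : κ ≠ ⊤)
    (hκ : ∀ l, ∑ l', ((Q.bind (law l)).prod (Q.bind (law l'))) (meet K τ l l') ≤ κ)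
    (V0 : Set (Site d)) (hV0 : 2 * ∑ l, cc K Q law τ l V0 ≤ x * (Fintype.card ι : ℕ))
    (N : ℕ) (hN : 2 * (N * κ) ≤ x ^ 2 * (Fintype.card ι : ℕ))
    {Φ : Environment d → ℝ≥0∞} (hΦ : Measurable[coordSigmaAlgebra V0] Φ) :
    ∫⁻ ω in {ω | ∀ l, (law l ω) (G l) ≤ 2 * x}, Φ ω ∂Q
      ≤ (∫⁻ ω, Φ ω ∂Q) * (1 - 2 * x) ^ N := by
  have hxt : x ≠ ⊤ := by
    rintro rfl
    simp at hx
  obtain ⟨H, hH⟩ := exists_horizon Q law τ G hGτ (g := 8 * x) (g' := 7 * x) (by
    exact (ENNReal.mul_lt_mul_iff_left hx0 hxt).2 (by norm_num)) hg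
  set th : ℝ≥0∞ := κ / x with hth
  have hth0 : th ≠ 0 := (ENNReal.div_pos hκ0 hxt).ne'
  have htht : th ≠ ⊤ := ENNReal.div_ne_top hκt hx0
  have hcap : ∀ l, (Q.bind (law l)) {X | th < ∑ l' ∈ (univ : Finset ι),
      cc K Q law τ l' (K.tr X (τ l X))} ≤ x := by
    intro l
    refine (capacity_le K Q law τ hτ hth0 htht l univ (hκ l)).trans (le_of_eq ?_)
    rw [hth, ENNReal.div_div_cancel hκ0 hκt]
  have hβ : ∀ l, (Q.bind (law l)) (G l ∩ {X | τ l X ≤ H})ᶜ + x + x ≤ 1 - 4 * x := by
    intro l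
    have hτm : MeasurableSet {X | τ l X ≤ H} := by
      refine W.measurableSet_of_hist H _ fun X Y h hX => ?_
      have hX' : τ l X ≤ H := hX
      obtain ⟨n, hn⟩ := ENat.ne_top_iff_exists.1 (lt_of_le_of_lt hX' (ENat.natCast_lt_top H)).ne
      have hn' : n ≤ H := by
        rw [← hn] at hX'; exact_mod_cast hX'
      show τ l Y ≤ H
      rw [hτ l X Y n (W.mono _ _ hn' h) hn.symm]
      exact_mod_cast hn'
    rw [prob_compl_eq_one_sub ((hGm l).inter hτm)]
    refine ENNReal.le_sub_of_add_le_right (ENNReal.mul_ne_top (by norm_num) hxt) ?_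
    have h7 : 7 * x ≤ 1 := le_trans (by gcongr; norm_num) hx
    calc 1 - (Q.bind (law l)) (G l ∩ {X | τ l X ≤ H}) + x + x + 4 * x
        ≤ 1 - 7 * x + x + x + 4 * x := by
          gcongr
          exact hH l
      _ = (1 - 7 * x) + 6 * x := by ring
      _ ≤ (1 - 7 * x) + 7 * x := by gcongr; norm_num
      _ = 1 := tsub_add_cancel_of_le h7
  have hload : 0 < N → (∑ l, cc K Q law τ l V0) + (N - 1 : ℕ) * th
      ≤ x * (Fintype.card ι : ℕ) := by
    intro _
    have h1 : 2 * ((N : ℝ≥0∞) * th) ≤ x * (Fintype.card ι : ℕ) := by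
      rw [hth]
      calc 2 * ((N : ℝ≥0∞) * (κ / x)) = (2 * (N * κ)) / x := by
            rw [div_eq_mul_inv, div_eq_mul_inv]; ring
        _ ≤ (x ^ 2 * (Fintype.card ι : ℕ)) / x := by gcongr
        _ = x * (Fintype.card ι : ℕ) * (x * x⁻¹) := by rw [div_eq_mul_inv]; ring
        _ = x * (Fintype.card ι : ℕ) := by rw [ENNReal.mul_inv_cancel hx0 hxt, mul_one]
    have h2 : 2 * ((∑ l, cc K Q law τ l V0) + (N - 1 : ℕ) * th)
        ≤ 2 * (x * (Fintype.card ι : ℕ)) := by
      calc 2 * ((∑ l, cc K Q law τ l V0) + (N - 1 : ℕ) * th)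
          ≤ 2 * ((∑ l, cc K Q law τ l V0) + (N : ℕ) * th) := by
            gcongr
            omega
        _ = 2 * (∑ l, cc K Q law τ l V0) + 2 * ((N : ℝ≥0∞) * th) := by ring
        _ ≤ x * (Fintype.card ι : ℕ) + x * (Fintype.card ι : ℕ) := add_le_add hV0 h1
        _ = 2 * (x * (Fintype.card ι : ℕ)) := by ring
    exact (ENNReal.mul_le_mul_iff_right (by norm_num) (by norm_num)).1 h2
  have hmain := K2_hor K Q law τ G th H hQ hτ hG hGm hr (θ := 2 * x) hβ hcap V0 N hload hΦ
  have h2x : 2 * x ≤ 1 := le_trans (by gcongr; norm_num) hx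
  have hsq : (1 - 4 * x) ≤ (1 - 2 * x) * (1 - 2 * x) := by
    refine tsub_le_iff_right.2 ?_
    obtain ⟨y, hy⟩ : ∃ y, y = 1 - 2 * x := ⟨_, rfl⟩
    have hy1 : y + 2 * x = 1 := by rw [hy]; exact tsub_add_cancel_of_le h2x
    rw [← hy]
    calc (1 : ℝ≥0∞) = (y + 2 * x) * (y + 2 * x) := by rw [hy1]; ring
      _ = y * y + 2 * x * (y + (y + 2 * x)) := by ring
      _ ≤ y * y + 2 * x * (1 + 1) := by
          gcongr
          · rw [← hy1]; exact le_self_add
          · exact hy1.le
      _ = y * y + 4 * x := by ring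
  have hpos : (1 - 2 * x) ^ N ≠ 0 := by
    refine pow_ne_zero _ ?_
    rw [Ne, tsub_eq_zero_iff_le, not_le]
    refine lt_of_lt_of_le ?_ hx
    exact (ENNReal.mul_lt_mul_iff_left hx0 hxt).2 (by norm_num)
  have htop : (1 - 2 * x) ^ N ≠ ⊤ := ENNReal.pow_ne_top (ne_top_of_le_ne_top
    ENNReal.one_ne_top tsub_le_self)
  refine (ENNReal.mul_le_mul_iff_right hpos htop).1 ?_
  calc (1 - 2 * x) ^ N * ∫⁻ ω in {ω | ∀ l, (law l ω) (G l) ≤ 2 * x}, Φ ω ∂Q
      ≤ (∫⁻ ω, Φ ω ∂Q) * (1 - 4 * x) ^ N := hmain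
    _ ≤ (∫⁻ ω, Φ ω ∂Q) * ((1 - 2 * x) * (1 - 2 * x)) ^ N := by gcongr
    _ = (1 - 2 * x) ^ N * ((∫⁻ ω, Φ ω ∂Q) * (1 - 2 * x) ^ N) := by rw [mul_pow]; ring

/-- **(K3)**: payoffs of annealed mean `≤ δ`, contacts with the other tests at most `κ` in total:
all quenched payoffs are `≥ ε` with (conditional) probability at most
`((δ + η + 2 κ / η) / ε) ^ ((card ι + 1) / 2)`. -/
theorem K3_half [IsProbabilityMeasure Q] [∀ l, IsMarkovKernel (law l)] (hQ : IndepAt R Q)
    (hτ : ∀ l, W.IsStop (τ l)) (u : ι → Ω → ℝ≥0∞) (hu : ∀ l, W.DetBy (τ l) (u l))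
    (hum : ∀ l, Measurable (u l)) (hu1 : ∀ l X, u l X ≤ 1)
    (hu0 : ∀ l X, τ l X = ⊤ → u l X = 0) (hr : ∀ l, W.ReadsOnly Q (law l))
    {δ η κ ε : ℝ≥0∞} (hδt : δ ≠ ⊤) (hη0 : η ≠ 0) (hηt : η ≠ ⊤) (hκt : κ ≠ ⊤)
    (hδ : ∀ l, ∫⁻ X, u l X ∂(Q.bind (law l)) ≤ δ)
    (hκ : ∀ l, ∑ l' ∈ univ.erase l,
      ((Q.bind (law l)).prod (Q.bind (law l'))) (meet K τ l l') ≤ κ)
    (V0 : Set (Site d)) (hV0 : 4 * ∑ l, cc K Q law τ l V0 ≤ η * (Fintype.card ι : ℕ))
    {Φ : Environment d → ℝ≥0∞} (hΦ : Measurable[coordSigmaAlgebra V0] Φ) :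
    ε ^ ((Fintype.card ι + 1) / 2) * ∫⁻ ω in {ω | ∀ l, ε ≤ ∫⁻ X, u l X ∂(law l ω)}, Φ ω ∂Q
      ≤ (∫⁻ ω, Φ ω ∂Q) * (δ + η + κ / (η / 2)) ^ ((Fintype.card ι + 1) / 2) := by
  have hth0 : η / 2 ≠ 0 := (ENNReal.div_pos hη0 (by norm_num)).ne'
  have htht : η / 2 ≠ ⊤ := ENNReal.div_ne_top hηt (by norm_num)
  have hk : 0 < Fintype.card ι := Fintype.card_pos
  refine K3_le K Q law τ u (η / 2) hQ hτ hu hum hu1 hu0 hr
    (ENNReal.add_ne_top.2 ⟨ENNReal.add_ne_top.2 ⟨hδt, hηt⟩, ENNReal.div_ne_top hκt hth0⟩) hδ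
    (fun l => capacity_le K Q law τ hτ hth0 htht l _ (hκ l)) V0 (by omega) (fun _ => ?_) hΦ
  set k := Fintype.card ι with hkdef
  set m := (k + 1) / 2 with hm
  have h1 : 4 * ((∑ l, cc K Q law τ l V0) + (m - 1 : ℕ) * (η / 2))
      ≤ 4 * (η * (k - m + 1 : ℕ)) := by
    have h2 : 2 * (η / 2) = η := ENNReal.mul_div_cancel (by norm_num) (by norm_num)
    calc 4 * ((∑ l, cc K Q law τ l V0) + (m - 1 : ℕ) * (η / 2))
        = 4 * (∑ l, cc K Q law τ l V0) + (m - 1 : ℕ) * (2 * (2 * (η / 2))) := by ring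
      _ ≤ η * (k : ℕ) + (m - 1 : ℕ) * (2 * η) := by
          rw [h2]
          gcongr
      _ = η * ((k + 2 * (m - 1) : ℕ) : ℝ≥0∞) := by push_cast; ring
      _ ≤ η * ((4 * (k - m + 1) : ℕ) : ℝ≥0∞) := by
          gcongr
          omega
      _ = 4 * (η * (k - m + 1 : ℕ)) := by push_cast; ring
  exact (ENNReal.mul_le_mul_iff_right (by norm_num) (by norm_num)).1 h1

end Final

end KExp

end Crest.Agent.R154
namespace Crest.Agent.R154.Con
end Crest.Agent.R154.Con
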