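import Crest.Agent.R154.KSGoal_480
import Crest.Agent.R154.TileInst_748

/-! Row 154, B8, TILE, (KS): facts on the killed kernels `gz`, and the final form `KSf` of the K-set
bound from its two halves `KSm`, `KSe` (helper333). -/

set_option autoImplicit false
set_option linter.unusedSectionVars false
set_option linter.deprecated false
set_option linter.unusedVariables false

namespace Crest.Agent.R154.KS480

open MeasureTheory ProbabilityTheory Set Filter Crest.ProbabilityR.RandomEnvironment
open Crest.Agent.R154.Ren263 (Det)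
open Crest.Agent.R154.Mk561 Crest.Agent.R154.Q561
open Crest.Agent.R154.Flux132 (lev)
open Crest.Agent.R154.RatioR872 Crest.Agent.R154.Tile872
open Crest.Agent.R154.TileInst748
open scoped ENNReal

variable {d : ℕ}

/-! ### the killed kernel -/

section ker

variable (u : Step d) (R : ℕ) (κ : ℝ) (Q : Measure (Environment d)) (s : ℝ≥0∞) (b : ℤ)

/-- good with exit site `z` at time `m` -/
def goodY (T : Set (Site d)) (x : Site d) (m : ℕ) (z : Site d) : Set (MPath d) :=
  {M | M ∈ goodM u R κ Q s b T x m ∧ pos x M m = z}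

lemma CyF_congr {M M' : MPath d} {n m : ℕ} (h : ∀ i < m, M i = M' i) (hn : n < m) :
    CyF M n = CyF M' n := by
  unfold CyF
  ext W
  simp only [mem_setOf_eq]
  rw [h n hn]
  refine and_congr ?_ Iff.rfl
  refine forall_congr' fun i => forall_congr' fun hi => ?_
  rw [h i (hi.trans hn)]

lemma dp_congr (T : Set (Site d)) (x : Site d) {M M' : MPath d} {n m : ℕ}
    (h : ∀ i < m, M i = M' i) (hn : n < m) :
    dp u R κ Q s b T x M n ↔ dp u R κ Q s b T x M' n := by
  unfold dp
  rw [CyF_congr h hn]

lemma det_succM (T : Set (Site d)) (x : Site d) (m : ℕ) : Det m (succM u R b T x m) := by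
  intro W W' h
  have hp : pos x W m = pos x W' m := pos_congr x h le_rfl
  unfold succM
  simp only [mem_setOf_eq]
  rw [det_ClM u R x b m W W' h, hp]

lemma det_goodM (T : Set (Site d)) (x : Site d) (m : ℕ) :
    Det m (goodM u R κ Q s b T x m) := by
  intro W W' h
  unfold goodM
  simp only [mem_setOf_eq]
  rw [det_succM u R b T x m W W' h]
  refine and_congr Iff.rfl (forall_congr' fun i => forall_congr' fun hi => ?_)
  rw [dp_congr u R κ Q s b T x h hi]

lemma det_goodY (T : Set (Site d)) (x : Site d) (m : ℕ) (z : Site d) :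
    Det m (goodY u R κ Q s b T x m z) := by
  intro W W' h
  have hp : pos x W m = pos x W' m := pos_congr x h le_rfl
  unfold goodY
  simp only [mem_setOf_eq]
  rw [det_goodM u R κ Q s b T x m W W' h, hp]


lemma meas_goodY (T : Set (Site d)) (x : Site d) (m : ℕ) (z : Site d) :
    MeasurableSet (goodY u R κ Q s b T x m z) := (det_goodY u R κ Q s b T x m z).measurableSet


lemma meas_succ (T : Set (Site d)) (x : Site d) : MeasurableSet (succ u R b T x) :=
  MeasurableSet.iUnion fun m => (det_succM u R b T x m).measurableSet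


lemma goodY_subset (T : Set (Site d)) (x : Site d) (m : ℕ) (z : Site d) :
    goodY u R κ Q s b T x m z ⊆ ClY u R x b m z := fun _ h => ⟨h.1.1.1, h.2⟩

lemma goodY_empty {T : Set (Site d)} (x : Site d) (m : ℕ) {z : Site d} (hz : z ∉ T) :
    goodY u R κ Q s b T x m z = ∅ := by
  ext M
  simp only [mem_empty_iff_false, iff_false]
  rintro ⟨h1, h2⟩
  exact hz (h2 ▸ h1.1.2)

lemma disj_goodY (T : Set (Site d)) (x z : Site d) :
    Pairwise (Function.onFun Disjoint fun m => goodY u R κ Q s b T x m z) := by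
  intro m m' hne
  exact (disj_ClY u R x b z hne).mono (goodY_subset u R κ Q s b T x m z)
    (goodY_subset u R κ Q s b T x m' z)

/-- good with exit site `z` -/
def goodZ (T : Set (Site d)) (x z : Site d) : Set (MPath d) := ⋃ m, goodY u R κ Q s b T x m z

lemma goodZ_subset (T : Set (Site d)) (x z : Site d) :
    goodZ u R κ Q s b T x z ⊆ Cl u R x b z :=
  iUnion_mono fun m => goodY_subset u R κ Q s b T x m z

lemma meas_goodZ (T : Set (Site d)) (x z : Site d) :
    MeasurableSet (goodZ u R κ Q s b T x z) :=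
  MeasurableSet.iUnion fun m => meas_goodY u R κ Q s b T x m z

lemma disj_goodZ (T : Set (Site d)) (x : Site d) :
    Pairwise (Function.onFun Disjoint fun z => goodZ u R κ Q s b T x z) := by
  intro z z' hne
  exact (disj_Cl u R x b hne).mono (goodZ_subset u R κ Q s b T x z)
    (goodZ_subset u R κ Q s b T x z')

lemma iUnion_goodZ (T : Set (Site d)) (x : Site d) :
    ⋃ z, goodZ u R κ Q s b T x z = good u R κ Q s b T x := by
  ext M
  simp only [goodZ, good, goodY, mem_iUnion, mem_setOf_eq]
  constructor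
  · rintro ⟨z, m, h, _⟩; exact ⟨m, h⟩
  · rintro ⟨m, h⟩; exact ⟨_, m, h, rfl⟩

lemma gz_eq (T : Set (Site d)) (ω : Environment d) (x z : Site d) :
    gz u R κ Q s b T ω x z = mkLaw κ ω x (goodZ u R κ Q s b T x z) := rfl

/-- the killed kernel is below the kernel of the natural climbs -/
lemma gz_le_gk (T : Set (Site d)) (ω : Environment d) (x z : Site d) :
    gz u R κ Q s b T ω x z ≤ gk u R κ b ω x z :=
  measure_mono (goodZ_subset u R κ Q s b T x z)

lemma gz_notMem {T : Set (Site d)} (ω : Environment d) (x : Site d) {z : Site d} (hz : z ∉ T) :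
    gz u R κ Q s b T ω x z = 0 := by
  rw [gz_eq]
  have : goodZ u R κ Q s b T x z = ∅ := by
    unfold goodZ
    simp only [goodY_empty u R κ Q s b x _ hz, iUnion_empty]
  rw [this, measure_empty]


lemma tsum_gz (T : Set (Site d)) (ω : Environment d) (x : Site d) :
    ∑' z, gz u R κ Q s b T ω x z = gg u R κ Q s b T ω x := by
  unfold gg
  rw [← iUnion_goodZ, measure_iUnion (disj_goodZ u R κ Q s b T x)
    fun z => meas_goodZ u R κ Q s b T x z]
  rfl

lemma gz_eq_tsum (T : Set (Site d)) (ω : Environment d) (x z : Site d) :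
    gz u R κ Q s b T ω x z = ∑' m, mkLaw κ ω x (goodY u R κ Q s b T x m z) :=
  measure_iUnion (disj_goodY u R κ Q s b T x z) fun m => meas_goodY u R κ Q s b T x m z

lemma measurable_gz (T : Set (Site d)) (x z : Site d) :
    Measurable fun ω => gz u R κ Q s b T ω x z :=
  measurable_mk_apply κ x (meas_goodZ u R κ Q s b T x z)



lemma locOn_gz (T : Set (Site d)) (x z : Site d) :
    LocOn {y | lev u x + R ≤ lev u y ∧ lev u y < b} fun ω => gz u R κ Q s b T ω x z := by
  intro ω ω' h
  simp only [gz_eq_tsum]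
  refine tsum_congr fun m => ?_
  exact mk_local_det κ h x (det_goodY u R κ Q s b T x m z) fun M hM =>
    ClM_read u R x b m (goodY_subset u R κ Q s b T x m z hM).1


/-! ### masses and exit weights -/

lemma outd_le (T : Set (Site d)) (w : Site d → ℝ≥0∞) (ω : Environment d) (z : Site d) :
    outd u R κ Q s b T w ω z ≤ outm u R κ univ b T w ω z := by
  unfold outd outm
  by_cases hz : z ∈ T
  · rw [indicator_of_mem hz]
    refine ENNReal.tsum_le_tsum fun x => ?_
    gcongr
    refine measure_mono fun M hM => ?_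
    obtain ⟨m, hm⟩ := mem_iUnion.1 hM
    exact mem_iUnion.2 ⟨m, ⟨hm.1.1.1, fun _ _ => mem_univ _⟩, hm.2⟩
  · rw [indicator_of_notMem hz]
    simp [gz_notMem u R κ Q s b ω _ hz]

lemma outd_notMem {T : Set (Site d)} (w : Site d → ℝ≥0∞) (ω : Environment d) {z : Site d}
    (hz : z ∉ T) : outd u R κ Q s b T w ω z = 0 := by
  unfold outd
  simp [gz_notMem u R κ Q s b ω _ hz]

lemma tsum_outd (T : Set (Site d)) (w : Site d → ℝ≥0∞) (ω : Environment d) :
    ∑' z, outd u R κ Q s b T w ω z = Fd u R κ Q s b T w ω := by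
  unfold outd Fd
  rw [ENNReal.tsum_comm]
  refine tsum_congr fun x => ?_
  rw [ENNReal.tsum_mul_left, tsum_gz]






end ker

section good

variable (u : Step d) (R : ℕ) (κ : ℝ) (Q : Measure (Environment d)) [IsProbabilityMeasure Q]
  (s : ℝ≥0∞)



/-- the killed move in 748's letters -/
lemma pushM_gz {b : ℤ} (T : Set (Site d)) (w : Site d → ℝ≥0∞) (ω : Environment d) (z : Site d) :
    pushM T w (gz u R κ Q s b T ω) z = outd u R κ Q s b T w ω z := by
  classical
  unfold pushM
  split_ifs with hz
  · rfl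
  · exact (outd_notMem u R κ Q s b w ω hz).symm

lemma massM_gz {b : ℤ} (T : Set (Site d)) (w : Site d → ℝ≥0∞) (ω : Environment d) :
    massM T w (gz u R κ Q s b T ω) = Fd u R κ Q s b T w ω := by
  unfold massM
  simp_rw [pushM_gz]
  exact tsum_outd u R κ Q s b T w ω

lemma enM_gz {b c : ℕ} (T : Set (Site d)) (w : Site d → ℝ≥0∞) (ω : Environment d) :
    enM T (Kc u R κ Q b c) w (gz u R κ Q s b T ω) = en u R κ Q b c (outd u R κ Q s b T w ω) := by
  unfold enM en
  simp_rw [pushM_gz]

/-- **good killed move = 748's `okM` for the killed kernel** -/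
lemma okM_of_GoodD {b c : ℕ} {T : Set (Site d)} {γ κ₁ : ℝ≥0∞} {w : Site d → ℝ≥0∞}
    {ω : Environment d} (h : ω ∈ GoodD u R κ Q s b c T γ κ₁ w) :
    okM T (Kc u R κ Q b c) κ₁ γ w (gz u R κ Q s b T ω) := by
  obtain ⟨h1, h2⟩ := h
  refine ⟨?_, ?_⟩
  · rw [massM_gz]; exact h1
  · rw [enM_gz, massM_gz]
    refine h2.trans ?_
    gcongr


end good

/-! ### the killed kernel of a layer in 872's kernel system -/

section layer

variable (u : Step d) (R : ℕ) (κ : ℝ) (Q : Measure (Environment d)) [IsProbabilityMeasure Q]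
  (s : ℝ≥0∞)
variable (hstat : ∀ z : Site d, MeasurePreserving (shiftEnv z) Q Q)
variable (hR : IsFiniteRangeDependent Q R)

open Classical in
/-- killed kernel from level `a` to level `b`, target `T` -/
noncomputable def kD (a b : ℕ) (T : Set (Site d)) (ω : Environment d) (x z : Site d) : ℝ≥0∞ :=
  if lev u x = a then gz u R κ Q s b T ω x z else 0

lemma kD_le (a b : ℕ) (T : Set (Site d)) (ω : Environment d) (x z : Site d) :
    kD u R κ Q s a b T ω x z ≤ (kS u R κ Q hstat hR).G a b ω x z := by
  unfold kD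
  simp only [kS, kerSys]
  split_ifs with h
  · exact gz_le_gk u R κ Q s b T ω x z
  · exact le_rfl

lemma measF_kD (a b : ℕ) (T : Set (Site d)) (x z : Site d) :
    Measurable[(kS u R κ Q hstat hR).F b] fun ω => kD u R κ Q s a b T ω x z := by
  unfold kD
  by_cases h : lev u x = a
  · simp only [h, if_true]
    refine measurable_coord (measurable_gz u R κ Q s b T x z) ?_
    exact (locOn_gz u R κ Q s b T x z).mono fun y hy => hy.2
  · simp only [h, if_false]
    exact @measurable_const _ _ _ ((kS u R κ Q hstat hR).F b) _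

lemma measH_kD (a b : ℕ) (T : Set (Site d)) (x z : Site d) :
    Measurable[(kS u R κ Q hstat hR).H a] fun ω => kD u R κ Q s a b T ω x z := by
  unfold kD
  by_cases h : lev u x = a
  · simp only [h, if_true]
    refine measurable_coord (measurable_gz u R κ Q s b T x z) ?_
    refine (locOn_gz u R κ Q s b T x z).mono fun y hy => ?_
    have := hy.1
    rw [h] at this
    exact this
  · simp only [h, if_false]
    exact @measurable_const _ _ _ ((kS u R κ Q hstat hR).H a) _

variable {u R κ Q s}

lemma pushM_kD {a b : ℕ} (T : Set (Site d)) {w : Site d → ℝ≥0∞}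
    (hw : ∀ x, lev u x ≠ a → w x = 0) (ω : Environment d) (z : Site d) :
    pushM T w (kD u R κ Q s a b T ω) z = outd u R κ Q s b T w ω z := by
  rw [← pushM_gz]
  unfold pushM
  split_ifs with hz
  · refine tsum_congr fun x => ?_
    by_cases hx : lev u x = a
    · simp [kD, hx]
    · simp [hw x hx]
  · rfl

/-- **good killed move = 748's `okM` for the layer kernel** -/
lemma okM_kD_of_GoodD {a b c : ℕ} {T : Set (Site d)} {γ κ₁ : ℝ≥0∞} {w : Site d → ℝ≥0∞}
    (hw : ∀ x, lev u x ≠ a → w x = 0) {ω : Environment d}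
    (h : ω ∈ GoodD u R κ Q s b c T γ κ₁ w) :
    okM T (Kc u R κ Q b c) κ₁ γ w (kD u R κ Q s a b T ω) := by
  have e : ∀ z, pushM T w (kD u R κ Q s a b T ω) z = pushM T w (gz u R κ Q s b T ω) z := by
    intro z
    rw [pushM_kD T hw, pushM_gz]
  have h' := okM_of_GoodD u R κ Q s h
  unfold okM massM enM at h' ⊢
  simp_rw [e]
  exact h'

end layer

/-! ### union over the four types of bad tiles -/

/-- union bound over types: K-set bounds with rate `r ^ 4` for four families give the rate `4 r`
for their union. -/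
lemma union_types {Ω : Type*} [MeasurableSpace Ω] (P : Measure Ω) {ι : Type*} (K : Finset ι)
    (B : Fin 4 → ι → Set Ω) {r : ℝ≥0∞} (hr : r ≤ 1)
    (h : ∀ j, ∀ K' ⊆ K, P {ω | ∀ l ∈ K', ω ∈ B j l} ≤ (r ^ 4) ^ K'.card) :
    P {ω | ∀ l ∈ K, ∃ j, ω ∈ B j l} ≤ (4 * r) ^ K.card := by
  classical
  have hsub : {ω | ∀ l ∈ K, ∃ j, ω ∈ B j l}
      ⊆ ⋃ t : K → Fin 4, {ω | ∀ l : K, ω ∈ B (t l) l} := by
    intro ω hω
    choose f hf using fun l : K => hω l.1 l.2
    exact mem_iUnion.2 ⟨f, fun l => hf l⟩
  have hone : ∀ t : K → Fin 4, P {ω | ∀ l : K, ω ∈ B (t l) l} ≤ r ^ K.card := by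
    intro t
    -- the most frequent type
    have hsum : ∑ j : Fin 4, (K.attach.filter fun l => t l = j).card = K.card := by
      rw [← Finset.card_eq_sum_card_fiberwise (f := t) (s := K.attach) (t := Finset.univ)
        (fun x _ => Finset.mem_coe.2 (Finset.mem_univ _)), Finset.card_attach]
    obtain ⟨j, hj⟩ : ∃ j : Fin 4, K.card ≤ 4 * (K.attach.filter fun l => t l = j).card := by
      by_contra hcon
      push Not at hcon
      have h0 := hcon 0
      have h1 := hcon 1
      have h2 := hcon 2
      have h3 := hcon 3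
      rw [Fin.sum_univ_four] at hsum
      omega
    set K' : Finset ι := (K.attach.filter fun l => t l = j).map (Function.Embedding.subtype _)
      with hK'
    have hK'K : K' ⊆ K := by
      intro l hl
      rw [hK', Finset.mem_map] at hl
      obtain ⟨l', _, rfl⟩ := hl
      exact l'.2
    have hcard : K'.card = (K.attach.filter fun l => t l = j).card := by
      rw [hK', Finset.card_map]
    calc P {ω | ∀ l : K, ω ∈ B (t l) l} ≤ P {ω | ∀ l ∈ K', ω ∈ B j l} := by
          refine measure_mono fun ω hω l hl => ?_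
          rw [hK', Finset.mem_map] at hl
          obtain ⟨l', hl', rfl⟩ := hl
          have := (Finset.mem_filter.1 hl').2
          have h2 := hω l'
          rw [this] at h2
          exact h2
      _ ≤ (r ^ 4) ^ K'.card := h j K' hK'K
      _ = r ^ (4 * K'.card) := by rw [← pow_mul]
      _ ≤ r ^ K.card := pow_le_pow_right_of_le_one' hr (by rw [hcard]; exact hj)
  calc P {ω | ∀ l ∈ K, ∃ j, ω ∈ B j l}
      ≤ P (⋃ t : K → Fin 4, {ω | ∀ l : K, ω ∈ B (t l) l}) := measure_mono hsub
    _ ≤ ∑ t : K → Fin 4, P {ω | ∀ l : K, ω ∈ B (t l) l} := measure_iUnion_fintype_le _ _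
    _ ≤ ∑ _t : K → Fin 4, r ^ K.card := Finset.sum_le_sum fun t _ => hone t
    _ = (4 * r) ^ K.card := by
        rw [Finset.sum_const, Finset.card_univ, Fintype.card_fun, Fintype.card_fin,
          Fintype.card_coe, nsmul_eq_mul, mul_pow]
        push_cast
        rfl

section final

variable (u : Step d) (R : ℕ) (κ : ℝ) (Q : Measure (Environment d)) [IsProbabilityMeasure Q]

lemma ROW.mono {s : ℝ≥0∞} {b : ℤ} {ι : Type*} {S T : ι → Set (Site d)} {κx κx' : ℝ≥0∞}
    (h : ROW u R κ Q s b S T κx) (hle : κx ≤ κx') : ROW u R κ Q s b S T κx' :=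
  fun l x hx K hl => (h l x hx K hl).trans hle

lemma ExitE.mono {a b c : ℕ} {ε ε' : ℝ≥0∞} (h : ExitE u R κ Q a b c ε) (hle : ε ≤ ε') :
    ExitE u R κ Q a b c ε' := fun x x' hx hx' => (h x x' hx hx').trans hle

/-- **(KS)** from its two halves with rate `r ^ 4`. -/
theorem KSf_of {g s γ κ₁ κx ε r : ℝ≥0∞} (hr : r ≤ 1)
    (hm : KSm u R κ Q g s γ κ₁ κx (r ^ 4)) (he : KSe u R κ Q s γ κ₁ κx ε (r ^ 4)) :
    KSf u R κ Q g s γ κ₁ κx ε (4 * r) := by
  classical
  intro a b c hab hbc ι S T T' hS hg hg' hrow hrow' hE w K hw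
  set B : Fin 4 → ι → Set (Environment d) := fun j l =>
    if j = 0 then {ω | Fd u R κ Q s b (T l) (w l) ω < γ}
    else if j = 1 then {ω | κ₁ * γ ^ 2 < en u R κ Q b c (outd u R κ Q s b (T l) (w l) ω)}
    else if j = 2 then {ω | Fd u R κ Q s b (T' l) (w l) ω < γ}
    else {ω | κ₁ * γ ^ 2 < en u R κ Q b c (outd u R κ Q s b (T' l) (w l) ω)} with hB
  refine le_trans (measure_mono ?_) (union_types Q K B hr ?_)
  · intro ω hω l hl
    have h1 := hω l hl
    by_contra hcon
    push Not at hcon
    have c0 := hcon 0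
    have c1 := hcon 1
    have c2 := hcon 2
    have c3 := hcon 3
    simp only [hB, Fin.isValue, if_true, one_ne_zero, if_false, mem_setOf_eq, not_lt,
      Fin.reduceEq] at c0 c1 c2 c3
    exact h1 ⟨⟨c0, c1⟩, ⟨c2, c3⟩⟩
  · intro j K' hK'
    have hw' : ∀ l ∈ K', w l ∈ Cls u R κ Q (S l) a b κ₁ := fun l hl => hw l (hK' hl)
    fin_cases j
    · exact hm a b hab ι S T hS hg hrow w K' hw'
    · exact he a b c hab hbc ι S T hS hrow hE w K' hw'
    · exact hm a b hab ι S T' hS hg' hrow' w K' hw'
    · exact he a b c hab hbc ι S T' hS hrow' hE w K' hw'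


end final

end Crest.Agent.R154.KS480
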