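import Crest.Agent.R154.MkWS_850

/-! Row 154, B0d: walk spaces with the Markov property; quenched strong Markov property of one and
two walkers; annealed fresh restart (same environment, range `R`). -/

set_option autoImplicit false
set_option linter.deprecated false

namespace Crest.Agent.R154

open MeasureTheory ProbabilityTheory Crest.ProbabilityR.RandomEnvironment
open scoped ENNReal

variable {d : ℕ}

/-! ### functions of the environment measurable up to null sets -/

/-- `f` is a.e. equal to a function of the rows in `V`. -/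
def AEM (Q : Measure (Environment d)) (V : Set (Site d)) (f : Environment d → ℝ≥0∞) : Prop :=
  ∃ g : Environment d → ℝ≥0∞, Measurable[coordSigmaAlgebra V] g ∧ f =ᵐ[Q] g

namespace AEM

variable {Q : Measure (Environment d)} {U V : Set (Site d)} {f g : Environment d → ℝ≥0∞}

lemma mono (h : AEM Q U f) (hUV : U ⊆ V) : AEM Q V f := by
  obtain ⟨k, hk, hf⟩ := h
  exact ⟨k, hk.mono (coordSigmaAlgebra_mono hUV) le_rfl, hf⟩

lemma const (c : ℝ≥0∞) : AEM Q V (fun _ => c) := ⟨fun _ => c, measurable_const, Filter.EventuallyEq.rfl⟩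

lemma mul (hf : AEM Q V f) (hg : AEM Q V g) : AEM Q V (fun ω => f ω * g ω) := by
  obtain ⟨k, hk, hf⟩ := hf
  obtain ⟨l, hl, hg⟩ := hg
  exact ⟨fun ω => k ω * l ω, hk.mul hl, hf.mul hg⟩

lemma add (hf : AEM Q V f) (hg : AEM Q V g) : AEM Q V (fun ω => f ω + g ω) := by
  obtain ⟨k, hk, hf⟩ := hf
  obtain ⟨l, hl, hg⟩ := hg
  exact ⟨fun ω => k ω + l ω, hk.add hl, hf.add hg⟩

lemma sub (hf : AEM Q V f) (hg : AEM Q V g) : AEM Q V (fun ω => f ω - g ω) := by
  obtain ⟨k, hk, hf⟩ := hf
  obtain ⟨l, hl, hg⟩ := hg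
  exact ⟨fun ω => k ω - l ω, hk.sub hl, hf.sub hg⟩

lemma congr (hf : AEM Q V f) (h : ∀ ω, g ω = f ω) : AEM Q V g := by
  have : g = f := funext h
  rw [this]; exact hf

lemma tsum {ι : Type*} [Countable ι] {F : ι → Environment d → ℝ≥0∞} (h : ∀ i, AEM Q V (F i)) :
    AEM Q V (fun ω => ∑' i, F i ω) := by
  choose k hk hf using h
  refine ⟨fun ω => ∑' i, k i ω, Measurable.ennreal_tsum hk, ?_⟩
  filter_upwards [ae_all_iff.2 hf] with ω hω
  exact tsum_congr hω



lemma const_mul (c : ℝ≥0∞) (hf : AEM Q V f) : AEM Q V (fun ω => c * f ω) := (const c).mul hf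


end AEM

/-! ### spaces with finite histories and read sites -/

/-- a space with countable histories and read sites. -/
structure HistSpace (d : ℕ) (E : Type) [mE : MeasurableSpace E] where
  /-- histories -/
  H : ℕ → Type
  countH : ∀ n, Countable (H n)
  /-- history -/
  hist : ∀ n, E → H n
  mono : ∀ {m n : ℕ} (X Y : E), m ≤ n → hist n X = hist n Y → hist m X = hist m Y
  gen : mE
    = MeasurableSpace.generateFrom {s | ∃ (X : E) (n : ℕ), s = {Y | hist n Y = hist n X}}
  /-- read sites -/
  read : E → ℕ → Set (Site d)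
  read_det : ∀ (n : ℕ) (X Y : E), hist n X = hist n Y → read X n = read Y n
  read_mono : ∀ (X : E) {m n : ℕ}, m ≤ n → read X m ⊆ read X n

namespace HistSpace

variable {E : Type} [MeasurableSpace E] (S : HistSpace d E)

instance (n : ℕ) : Countable (S.H n) := S.countH n

/-- cylinder -/
def cyl (X : E) (n : ℕ) : Set E := {Y | S.hist n Y = S.hist n X}

lemma measurableSet_cyl (X : E) (n : ℕ) : MeasurableSet (S.cyl X n) := by
  have h : MeasurableSet[MeasurableSpace.generateFrom
      {s | ∃ (X : E) (n : ℕ), s = {Y | S.hist n Y = S.hist n X}}] (S.cyl X n) :=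
    MeasurableSpace.measurableSet_generateFrom ⟨X, n, rfl⟩
  rwa [← S.gen] at h

/-- determined by the history at time `n`. -/
def Det (n : ℕ) (A : Set E) : Prop := ∀ X Y, S.hist n X = S.hist n Y → X ∈ A → Y ∈ A

lemma Det.mono' {n m : ℕ} (hnm : n ≤ m) {A : Set E} (h : S.Det n A) : S.Det m A :=
  fun X Y hXY => h X Y (S.mono X Y hnm hXY)

/-- decomposition of a determined set. -/
lemma det_eq_iUnion {n : ℕ} {A : Set E} (hA : S.Det n A) :
    A = ⋃ h : {h : S.H n // ∃ X ∈ A, S.hist n X = h}, {Y | S.hist n Y = h.1} := by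
  ext X
  simp only [Set.mem_iUnion, Subtype.exists, Set.mem_ofPred_eq]
  constructor
  · intro hX
    exact ⟨S.hist n X, ⟨X, hX, rfl⟩, rfl⟩
  · rintro ⟨h, ⟨Y, hY, rfl⟩, hX⟩
    exact hA Y X hX.symm hY

lemma Det.measurableSet {n : ℕ} {A : Set E} (hA : S.Det n A) : MeasurableSet A := by
  rw [S.det_eq_iUnion hA]
  refine MeasurableSet.iUnion fun h => ?_
  obtain ⟨h, X, hX, rfl⟩ := h
  exact S.measurableSet_cyl X n












section reading

variable {Q : Measure (Environment d)} {K : Kernel (Environment d) E}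





end reading

end HistSpace

namespace WalkSpace

variable {Ω : Type} [MeasurableSpace Ω] (W : WalkSpace d Ω)

/-- one walker as a history space. -/
def hs : HistSpace d Ω where
  H := W.H
  countH := W.countH
  hist := W.hist
  mono := W.mono
  gen := W.gen
  read := W.read
  read_det := W.read_det
  read_mono := W.read_mono


/-- a pair of walkers as a history space. -/
def hs2 [Nonempty Ω] : HistSpace d (Ω × Ω) where
  H n := W.H n × W.H n
  countH n := inferInstance
  hist n p := (W.hist n p.1, W.hist n p.2)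
  mono := by
    intro m n X Y hmn h
    obtain ⟨h1, h2⟩ := Prod.ext_iff.1 h
    exact Prod.ext (W.mono _ _ hmn h1) (W.mono _ _ hmn h2)
  gen := by
    set C : Set (Set (Ω × Ω)) := {s | ∃ (X : Ω × Ω) (n : ℕ),
      s = {Y | (W.hist n Y.1, W.hist n Y.2) = (W.hist n X.1, W.hist n X.2)}} with hC
    apply le_antisymm
    · refine (le_of_eq W.gen_prod).trans ?_
      refine MeasurableSpace.generateFrom_le ?_
      rintro _ ⟨_, ⟨γ, n, rfl⟩, _, ⟨δ, m, rfl⟩, rfl⟩
      have : ({Y | W.hist n Y = W.hist n γ} ×ˢ {Y | W.hist m Y = W.hist m δ} : Set (Ω × Ω))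
          = ⋃ h : {h : W.H (max n m) × W.H (max n m) //
              W.hist n (W.ext _ h.1) = W.hist n γ ∧ W.hist m (W.ext _ h.2) = W.hist m δ},
              {Y : Ω × Ω | (W.hist (max n m) Y.1, W.hist (max n m) Y.2) = h.1} := by
        ext Y
        simp only [Set.mem_prod, Set.mem_ofPred_eq, Set.mem_iUnion, Subtype.exists]
        constructor
        · rintro ⟨h1, h2⟩
          refine ⟨(W.hist _ Y.1, W.hist _ Y.2), ⟨?_, ?_⟩, rfl⟩
          · rw [← h1]
            exact W.mono _ _ (le_max_left n m) (W.hist_ext _ _)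
          · rw [← h2]
            exact W.mono _ _ (le_max_right n m) (W.hist_ext _ _)
        · rintro ⟨h, ⟨h1, h2⟩, hY⟩
          subst hY
          refine ⟨?_, ?_⟩
          · rw [← h1]
            exact (W.mono _ _ (le_max_left n m) (W.hist_ext _ _)).symm
          · rw [← h2]
            exact (W.mono _ _ (le_max_right n m) (W.hist_ext _ _)).symm
      beta_reduce
      rw [this]
      refine MeasurableSet.iUnion fun h => MeasurableSpace.measurableSet_generateFrom ?_
      refine ⟨(W.ext _ h.1.1, W.ext _ h.1.2), max n m, ?_⟩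
      simp only [W.hist_ext]
    · refine MeasurableSpace.generateFrom_le ?_
      rintro _ ⟨X, n, rfl⟩
      have : {Y : Ω × Ω | (W.hist n Y.1, W.hist n Y.2) = (W.hist n X.1, W.hist n X.2)}
          = W.cyl X.1 n ×ˢ W.cyl X.2 n := by
        ext Y
        simp only [Set.mem_ofPred_eq, Prod.mk.injEq, Set.mem_prod, cyl]
      rw [this]
      exact (W.measurableSet_cyl _ _).prod (W.measurableSet_cyl _ _)
  read p n := W.read p.1 n ∪ W.read p.2 n
  read_det := by
    intro n X Y h
    obtain ⟨h1, h2⟩ := Prod.ext_iff.1 h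
    rw [W.read_det n _ _ h1, W.read_det n _ _ h2]
  read_mono := fun X _ _ h => Set.union_subset_union (W.read_mono _ h) (W.read_mono _ h)


/-! ### pieces of a stopping time -/









end WalkSpace

/-! ### Markov walk spaces -/

/-- shift and quenched laws with the Markov property. -/
structure MarkovWS {Ω : Type} [MeasurableSpace Ω] (W : WalkSpace d Ω) where
  /-- shift -/
  sh : ℕ → Ω → Ω
  meas_sh : ∀ n, Measurable (sh n)
  /-- quenched laws -/
  P : Site d → Kernel (Environment d) Ω
  prob : ∀ x, IsMarkovKernel (P x)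
  markov : ∀ (ω : Environment d) (x : Site d) (γ : Ω) (n : ℕ) (B : Set Ω), MeasurableSet B →
    P x ω (W.cyl γ n ∩ sh n ⁻¹' B) = P x ω (W.cyl γ n) * P (W.pos γ n) ω B
  pos_sh : ∀ n X k, W.pos (sh n X) k = W.pos X (n + k)
  reads : ∀ (Q : Measure (Environment d)) x, W.ReadsOnly Q (P x)

namespace MarkovWS

open WalkSpace

variable {Ω : Type} [MeasurableSpace Ω] {W : WalkSpace d Ω} (M : MarkovWS W)

instance (x : Site d) : IsMarkovKernel (M.P x) := M.prob x






section annealed

variable {Q : Measure (Environment d)} {R : ℕ}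





end annealed

end MarkovWS

end Crest.Agent.R154
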