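import Crest.Agent.R154.TileMass_872
import Crest.Agent.R154.StartLP_872
import Crest.Agent.R154.TileInst2_333
import Crest.Agent.R154.KSFin_333
import Crest.Agent.R154.KExp_402
import Crest.Agent.R154.ContA_424
import Crest.Agent.R154.Restart_850
import Crest.Agent.R154.ContW_424
import Crest.Agent.R154.KSGoal_480
import Crest.Agent.R154.Dip_402

-- ▼ part R154/TileReg_872
section

/-! Row 154, B8, TILE: the regular tile system on the natural climbs (helper872).  From 480's K-set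
bound `KSf`, the geometric input `ROW` for the strips and 437's mobility data at the height `N`:
`WindowK299.TileSys`. -/

set_option autoImplicit false
set_option linter.unusedSectionVars false
set_option linter.deprecated false
set_option linter.unusedVariables false

namespace Crest.Agent.R154.TileReg872

open MeasureTheory ProbabilityTheory Set Filter Crest.ProbabilityR.RandomEnvironment
open Crest.Agent.R154.Ren263 (Det)
open Crest.Agent.R154.Mk561 Crest.Agent.R154.Q561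
open Crest.Agent.R154.Flux132 (lev)
open Crest.Agent.R154.Fin804 (lev_add)
open Crest.Agent.R154.B6I (SP PP Om NoC tip th Al Dt PSm PIm ct)
open Crest.Agent.R154.RatioR872 Crest.Agent.R154.Tile872 Crest.Agent.R154.KS480
open Crest.Agent.R154.TileInst748 (clsM okM massM enM pushM outM single tsum_single meas_ok out_mem
  FN gL succ0 good0)
open Crest.Agent.R154.B4Inst797 (Nat0 natLaw UU lat natLaw_apply lp natLaw_isProb nat_ne_zero)
open Crest.Agent.R154.MobW437 (wl)
open scoped ENNReal Topology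

variable {d : ℕ}
variable {Q : Measure (Environment d)} [IsProbabilityMeasure Q] {κ : ℝ} {R : ℕ}

/-! ### small things -/

lemma ofReal_le_of_real {Ω : Type*} [MeasurableSpace Ω] {μ : Measure Ω} [IsFiniteMeasure μ]
    {A : Set Ω} {c : ℝ} (h : c ≤ μ.real A) : ENNReal.ofReal c ≤ μ A :=
  ENNReal.ofReal_le_of_le_toReal h

lemma le_ofReal_of_real {Ω : Type*} [MeasurableSpace Ω] {μ : Measure Ω} [IsFiniteMeasure μ]
    {A : Set Ω} {c : ℝ} (h : μ.real A ≤ c) : μ A ≤ ENNReal.ofReal c := by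
  rw [← ENNReal.ofReal_toReal (measure_ne_top μ A)]
  exact ENNReal.ofReal_le_ofReal h

/-- small exit energies from the late contact hypothesis -/
lemma exitE_of_late {u : Step d} {n0 : ℕ → ℝ≥0∞ → ℕ} (hR : IsFiniteRangeDependent Q R)
    (hL : LateHyp u R κ Q n0) {r : ℕ} {ε : ℝ≥0∞} (hε : ε ≠ 0) {n : ℕ} (hn : n0 r ε ≤ n) {a c : ℕ}
    (h1 : a + n ≤ c) (h2 : c ≤ a + r * n) : ExitE u R κ Q a (a + n) c ε := by
  intro x x' hx hx'
  refine (energy_le u R κ Q hR h1 hx hx').trans ?_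
  obtain ⟨m, rfl⟩ := Nat.exists_eq_add_of_le h1
  have := hL r ε hε n hn m (by omega) ⟨(x, x'), hx.trans hx'.symm⟩
  rwa [show a + n + m - a = n + m by omega]

/-! ### the first climb into a strip -/

section start

variable {u : Step d} {i1 i2 : Fin d}

/-- **first climb**: at every height `N ≥ N0` and every width `a ≥ wl N / 80` there is a shift `sh`
such that from every site `z` the natural `N`-climb reaches well every strip whose left end is within
`a / 8` of `lat z + sh`. -/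
theorem start_core (F : Bind263.Frame Q κ R) (h1 : i1 ≠ u.1) (h2 : i2 ≠ u.1) (h12 : i1 ≠ i2)
    (hA : annealedProb Q 0 (escapeEvent (B2d.dirVec u)) ≠ 0) (i : Fin 2) {q κ₁ : ℝ≥0∞}
    (hq : q ≠ 0) (hq1 : q ≤ 1) (hκ0 : κ₁ ≠ 0) (hκt : κ₁ ≠ ∞) {n0 : ℕ → ℝ≥0∞ → ℕ}
    (hL : LateHyp u R κ Q n0) :
    ∃ γ₀ : ℝ≥0∞, γ₀ ≠ 0 ∧ γ₀ ≤ 1 ∧ ∃ N0 : ℕ, ∀ N, N0 ≤ N → ∀ a : ℝ,
      wl (lp F u h1 h2 h12 (nat_ne_zero F u hA)) i N / 80 ≤ a →
      ∃ sh : ℝ, ∀ (ℓ : ℕ) (z : Site d) (t : ℝ), lev u z = ℓ → |t - (lat i1 i2 z i + sh)| ≤ a / 8 →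
        Q {ω | okM (strip u i1 i2 i a (ℓ + N) t) (Kc u R κ Q (ℓ + N) (ℓ + N + N)) κ₁ γ₀ (single z)
          ((kS u R κ Q F.stat F.fin).G ℓ (ℓ + N) ω)}ᶜ ≤ q := by
  have hc := nat_ne_zero F u hA
  haveI : IsProbabilityMeasure (natLaw κ Q u R) := natLaw_isProb hc
  set g : ℝ≥0∞ := mkAnn κ Q 0 (Nat0 u R) * ENNReal.ofReal (1 / 700) with hg
  have hg0 : g ≠ 0 := mul_ne_zero hc (by simp)
  have hg1 : g ≤ 1 := by
    calc g ≤ 1 * 1 := mul_le_mul' prob_le_one (by
          rw [← ENNReal.ofReal_one]; exact ENNReal.ofReal_le_ofReal (by norm_num))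
      _ = 1 := one_mul 1
  obtain ⟨γ₀, hγ0, hγ1, δ, hδ0, ε, hε0, H⟩ := start2 F u hA hq hq1 hκ0 hκt hg0 hg1
  -- a real `δ`
  obtain ⟨δr, hδr, hδr'⟩ : ∃ δr : ℝ, 0 < δr ∧ ENNReal.ofReal δr ≤ δ := by
    rcases eq_or_ne δ ∞ with h | h
    · exact ⟨1, one_pos, by rw [h]; exact le_top⟩
    · exact ⟨δ.toReal, ENNReal.toReal_pos hδ0 h, by rw [ENNReal.ofReal_toReal h]⟩
  obtain ⟨n, hn1, N1, hN1⟩ := StartLP872.start_data (lp F u h1 h2 h12 hc) i hδr
  refine ⟨γ₀, hγ0, hγ1, N1 + n * (n0 (2 * n) ε) + n + n0 2 ε, fun N hN a ha => ?_⟩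
  set l := N / n with hl
  have hnl : n * l ≤ N := Nat.mul_div_le N n
  have hNn : n ≤ N := by omega
  have hl1 : 1 ≤ l := (Nat.one_le_div_iff (by omega)).2 hNn
  have hl2 : n0 (2 * n) ε ≤ l := by
    rw [hl, Nat.le_div_iff_mul_le (by omega), mul_comm]
    omega
  have hNl : N < n * (l + 1) := by
    have := Nat.lt_mul_div_succ N (show 0 < n by omega)
    rwa [← hl] at this
  have hN2 : N ≤ 2 * n * l := by nlinarith
  have hlN : l ≤ N := (Nat.le_mul_of_pos_left l (by omega)).trans hnl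
  obtain ⟨⟨v, hv⟩, s0, hs0⟩ := hN1 N (by omega) l hnl a ha
  refine ⟨v + s0 - a / 4, fun ℓ z t hz ht => ?_⟩
  have ht' := abs_le.1 ht
  set T : Set (Site d) :=
    {y | lev u y = (ℓ + l : ℕ) ∧ |lat i1 i2 y i - lat i1 i2 z i - v| ≤ a / 8} with hT
  refine H ℓ (ℓ + l) (ℓ + N) (ℓ + N + N) z T (strip u i1 i2 i a (ℓ + N) t) (by omega) (by omega) hz
    (fun x hx => hx.1) ?_ ?_ ?_ ?_
  · refine (out_le u i1 i2 i F hz hc (r := a / 8) (v := v) (δ := ENNReal.ofReal δr) ?_).trans hδr'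
    exact le_ofReal_of_real hv
  · exact exitE_of_late F.fin hL hε0 hl2 (by omega) (by omega)
  · intro x hx
    have e : ℓ + l + (N - l) = ℓ + N := by omega
    have h3 := strip_ge u i1 i2 i F (x := x) (ℓ := ℓ + l) (n := N - l) hx.1 (a := a) (t := t)
      (g := ENNReal.ofReal (1 / 700)) hc ?_
    · rw [e] at h3
      exact h3
    · refine (ofReal_le_of_real hs0).trans (measure_mono ?_)
      intro s hs
      have hs' : UU u i1 i2 (N - l) s i ∈ Ico s0 (s0 + a / 2) := hs
      have hx2 := abs_le.1 hx.2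
      simp only [mem_setOf_eq, mem_Ico] at hs' ⊢
      constructor
      · linarith [ht'.1, ht'.2, hs'.1, hs'.2, hx2.1, hx2.2]
      · linarith [ht'.1, ht'.2, hs'.1, hs'.2, hx2.1, hx2.2]
  · exact exitE_of_late F.fin hL hε0 (n := N) (r := 2) (by omega) (by omega) (by omega)

end start

/-! ### the classes are not empty -/

section nonempty

variable {u : Step d} {i1 i2 : Fin d}

lemma cls_nonempty (F : Bind263.Frame Q κ R) (h1 : i1 ≠ u.1) (h2 : i2 ≠ u.1) (h12 : i1 ≠ i2)
    (i : Fin 2) {q κ₁ γ₀ : ℝ≥0∞} (hq1 : q < 1) (hγ0 : γ₀ ≠ 0) {N : ℕ} {a sh : ℝ} (ha : 8 ≤ a)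
    (H : ∀ (ℓ : ℕ) (z : Site d) (t : ℝ), lev u z = ℓ → |t - (lat i1 i2 z i + sh)| ≤ a / 8 →
        Q {ω | okM (strip u i1 i2 i a (ℓ + N) t) (Kc u R κ Q (ℓ + N) (ℓ + N + N)) κ₁ γ₀ (single z)
          ((kS u R κ Q F.stat F.fin).G ℓ (ℓ + N) ω)}ᶜ ≤ q) (ℓ : ℕ) (t : ℝ) :
    (clsM (strip u i1 i2 i a ℓ t) (Kc u R κ Q ℓ (ℓ + N)) κ₁).Nonempty := by
  classical
  obtain ⟨z, hz, hz'⟩ := exists_site h1 h2 h12 i (ℓ : ℤ) (round (t - sh))
  have hr := abs_sub_round (t - sh)
  have h3 := H ℓ z t hz (by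
    rw [hz']
    have e : t - ((round (t - sh) : ℝ) + sh) = t - sh - (round (t - sh) : ℝ) := by ring
    rw [e]
    linarith)
  obtain ⟨ω, hω⟩ : ∃ ω, okM (strip u i1 i2 i a (ℓ + N) t) (Kc u R κ Q (ℓ + N) (ℓ + N + N)) κ₁ γ₀
      (single z) ((kS u R κ Q F.stat F.fin).G ℓ (ℓ + N) ω) := by
    by_contra hcon
    push Not at hcon
    have he : {ω | okM (strip u i1 i2 i a (ℓ + N) t) (Kc u R κ Q (ℓ + N) (ℓ + N + N)) κ₁ γ₀
      (single z) ((kS u R κ Q F.stat F.fin).G ℓ (ℓ + N) ω)}ᶜ = univ := by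
      ext ω; simp [hcon ω]
    rw [he, measure_univ] at h3
    exact absurd h3 (not_le.2 hq1)
  have h4 := out_mem (strip u i1 i2 i a (ℓ + N) t) (Kc u R κ Q (ℓ + N) (ℓ + N + N)) hγ0
    (le_of_eq (tsum_single z))
    (fun y => (kS u R κ Q F.stat F.fin).mass ℓ (ℓ + N) ω y (by omega)) hω
  set lam' := outM (strip u i1 i2 i a (ℓ + N) t) (single z)
    ((kS u R κ Q F.stat F.fin).G ℓ (ℓ + N) ω) with hlam'
  obtain ⟨e, he, he'⟩ := exists_site h1 h2 h12 i (N : ℤ) 0
  refine ⟨fun y => lam' (y + e), ?_, ?_, ?_⟩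
  · rw [← h4.1]
    exact (Equiv.addRight e).tsum_eq lam'
  · intro y hy
    refine h4.2.1 _ fun hcon => hy ?_
    obtain ⟨g1, g2⟩ := hcon
    refine ⟨?_, ?_⟩
    · rw [lev_add, he] at g1
      push_cast at g1
      linarith
    · rw [B4Inst797.lat_add] at g2
      simp only [Pi.add_apply, he', Int.cast_zero, add_zero] at g2
      exact g2
  · refine le_trans (le_of_eq ?_) h4.2.2
    have e1 : ∀ y y', Kc u R κ Q ℓ (ℓ + N) y y' = Kc u R κ Q (ℓ + N) (ℓ + N + N) (y + e) (y' + e) :=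
      fun y y' => (Kc_trans F.stat u y y' e (by omega)).symm
    simp only [e1]
    calc ∑' y, ∑' y', lam' (y + e) * lam' (y' + e) * Kc u R κ Q (ℓ + N) (ℓ + N + N) (y + e) (y' + e)
        = ∑' y, ∑' y', lam' (y + e) * lam' y' * Kc u R κ Q (ℓ + N) (ℓ + N + N) (y + e) y' := by
          refine tsum_congr fun y => ?_
          exact (Equiv.addRight e).tsum_eq
            (fun y' => lam' (y + e) * lam' y' * Kc u R κ Q (ℓ + N) (ℓ + N + N) (y + e) y')
      _ = _ := (Equiv.addRight e).tsum_eq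
            (fun y => ∑' y', lam' y * lam' y' * Kc u R κ Q (ℓ + N) (ℓ + N + N) y y')

end nonempty

/-! ### the tile system -/

section tile

variable {u : Step d} {i1 i2 : Fin d}

/-- **(ROW) for the strips**, own and right targets (output of helper12 / 424 / 923) -/
def RowStrips (u : Step d) (i1 i2 : Fin d) (R : ℕ) (κ : ℝ) (Q : Measure (Environment d))
    [IsProbabilityMeasure Q] (i : Fin 2) (s : ℝ≥0∞) (N : ℕ) (a c1 c2 : ℝ) (κx : ℝ≥0∞) : Prop :=
  ∀ (ℓ : ℕ) (t : ℝ),
    ROW u R κ Q s (ℓ + N : ℕ) (fun x : ℤ => strip u i1 i2 i a ℓ (t + x * (c2 - c1)))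
      (fun x : ℤ => strip u i1 i2 i a (ℓ + N) (t + c1 + x * (c2 - c1))) κx ∧
    ROW u R κ Q s (ℓ + N : ℕ) (fun x : ℤ => strip u i1 i2 i a ℓ (t + x * (c2 - c1)))
      (fun x : ℤ => strip u i1 i2 i a (ℓ + N) (t + c1 + (x + 1) * (c2 - c1))) κx

/-- mass of the success event from a strip -/
lemma succ_ge (F : Bind263.Frame Q κ R) (hc : mkAnn κ Q 0 (Nat0 u R) ≠ 0) {i : Fin 2} {N : ℕ}
    {a c : ℝ} {g : ℝ≥0∞}
    (hm : ∀ α z, z ∈ Ico α (α + a) →
      g ≤ natLaw κ Q u R {s | z + UU u i1 i2 N s i - c ∈ Ico α (α + a)})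
    {ℓ : ℕ} {t : ℝ} {x : Site d} (hx : x ∈ strip u i1 i2 i a ℓ t) {t' : ℝ} (ht' : t' = t + c) :
    mkAnn κ Q 0 (Nat0 u R) * g
      ≤ mkAnn κ Q x (succ u R (ℓ + N : ℕ) (strip u i1 i2 i a (ℓ + N) t') x) := by
  have h1 := strip_ge u i1 i2 i F (x := x) (ℓ := ℓ) (n := N) hx.1 (a := a) (t := t') (g := g) hc ?_
  · refine h1.trans (le_of_eq ?_)
    rw [MobNat927.lint_gT F u x, ← mkAnn_stat F.stat κ x]
    congr 1
    unfold CfT CfM succ succM
    simp
  · refine (hm t (lat i1 i2 x i) hx.2).trans (measure_mono ?_)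
    intro s hs
    simp only [mem_setOf_eq, mem_Ico, ht'] at hs ⊢
    constructor
    · linarith [hs.1]
    · linarith [hs.2]

/-- **THE REGULAR TILE SYSTEM** -/
theorem tileSys_reg (F : Bind263.Frame Q κ R) (h1 : i1 ≠ u.1) (h2 : i2 ≠ u.1) (h12 : i1 ≠ i2)
    (hA : annealedProb Q 0 (escapeEvent (B2d.dirVec u)) ≠ 0) (i : Fin 2)
    {n0 : ℕ → ℝ≥0∞ → ℕ} (hL : LateHyp u R κ Q n0)
    {g s γ κ₁ κx ε q θ : ℝ≥0∞} (hγ0 : γ ≠ 0) (hγ1 : γ ≤ 1) (hκ0 : κ₁ ≠ 0) (hκt : κ₁ ≠ ∞)
    (hε0 : ε ≠ 0) (hq0 : q ≠ 0) (hKS : KSf u R κ Q g s γ κ₁ κx ε q)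
    (hq : 54 * q ≤ 1) (hθ1 : θ ≤ 1) (hθ : 27 * q ≤ θ ^ 2) :
    ∃ γ₀ : ℝ≥0∞, γ₀ ≠ 0 ∧ γ₀ ≤ 1 ∧ ∃ N0 : ℕ, ∀ N, N0 ≤ N → ∀ (c1 c2 a : ℝ) (g' : ℝ≥0∞),
      wl (lp F u h1 h2 h12 (nat_ne_zero F u hA)) i N / 80 ≤ a →
      g ≤ mkAnn κ Q 0 (Nat0 u R) * g' →
      (∀ α z, z ∈ Ico α (α + a) →
        g' ≤ natLaw κ Q u R {s | z + UU u i1 i2 N s i - c1 ∈ Ico α (α + a)}) →
      (∀ α z, z ∈ Ico α (α + a) →
        g' ≤ natLaw κ Q u R {s | z + UU u i1 i2 N s i - c2 ∈ Ico α (α + a)}) →
      RowStrips u i1 i2 R κ Q i s N a c1 c2 κx →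
      WindowK299.TileSys (kS u R κ Q F.stat F.fin) N γ₀ γ θ := by
  have hc := nat_ne_zero F u hA
  haveI : IsProbabilityMeasure (natLaw κ Q u R) := natLaw_isProb hc
  have hq1 : q < 1 := by
    by_contra hcon
    rw [not_lt] at hcon
    have h3 : (54 : ℝ≥0∞) ≤ 1 := by
      calc (54 : ℝ≥0∞) = 54 * 1 := (mul_one _).symm
        _ ≤ 54 * q := by gcongr
        _ ≤ 1 := hq
    norm_num at h3
  obtain ⟨γ₀, hγ00, hγ01, N1, HN1⟩ :=
    start_core F h1 h2 h12 hA i hq0 hq1.le hκ0 hκt hL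
  obtain ⟨N2, HN2⟩ := StartLP872.wl_large (lp F u h1 h2 h12 hc) i 640 (by norm_num)
  refine ⟨γ₀, hγ00, hγ01, N1 + N2 + n0 2 ε, fun N hN c1 c2 a g' ha hg hm1 hm2 hrow => ?_⟩
  obtain ⟨sh, hsh⟩ := HN1 N (by omega) a ha
  have ha8 : 8 ≤ a := by
    have := HN2 N (by omega)
    linarith
  set A := kS u R κ Q F.stat F.fin with hAd
  have hne := cls_nonempty F h1 h2 h12 i hq1 hγ00 ha8 hsh
  set D := c2 - c1 with hD
  refine TileInst2.tileSys (κ := κ₁) A N hγ0 hγ00 hγ1 hq hθ1 hθ fun L z hz => ?_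
  have hz' : lev u z = L := hz
  set α : ℝ := lat i1 i2 z i + sh - c1 with hα
  -- the grid
  set Cell : ℕ → ℤ → Set (Site d) := fun k x =>
    strip u i1 i2 i a (L + k * N) (α + k * c1 + x * D) with hCell
  set En : ℕ → Site d → Site d → ℝ≥0∞ := fun k => Kc u R κ Q (L + k * N) (L + (k + 1) * N) with hEn
  refine ⟨Cell, En, fun k x ω => kD u R κ Q s (L + k * N) (L + (k + 1) * N) (Cell (k + 1) x) ω,
    fun k x ω => kD u R κ Q s (L + k * N) (L + (k + 1) * N) (Cell (k + 1) (x + 1)) ω, ?_⟩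
  have hlv : ∀ k : ℕ, L + k * N + N = L + (k + 1) * N := fun k => by ring
  constructor
  · exact ⟨fun k x ω y z => kD_le u R κ Q s F.stat F.fin _ _ _ ω y z,
      fun k x y z => measF_kD u R κ Q s F.stat F.fin _ _ _ y z,
      fun k x y z => measH_kD u R κ Q s F.stat F.fin _ _ _ y z⟩
  · exact ⟨fun k x ω y z => kD_le u R κ Q s F.stat F.fin _ _ _ ω y z,
      fun k x y z => measF_kD u R κ Q s F.stat F.fin _ _ _ y z,
      fun k x y z => measH_kD u R κ Q s F.stat F.fin _ _ _ y z⟩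
  · intro k x
    have h3 := hne (L + k * N) (α + k * c1 + x * D)
    rw [hlv k] at h3
    exact h3
  · intro k K lam hlam
    set b := L + k * N + N with hb
    have hbe : L + (k + 1) * N = b := (hlv k).symm
    have hbe2 : L + (k + 1 + 1) * N = b + N := by rw [hb]; ring
    set t : ℝ := α + k * c1 with ht
    obtain ⟨r1, r2⟩ := hrow (L + k * N) t
    have hcell0 : ∀ x, Cell k x = strip u i1 i2 i a (L + k * N) (t + x * D) := fun x => rfl
    have hcell1 : ∀ x : ℤ, Cell (k + 1) x = strip u i1 i2 i a b (t + c1 + x * D) := by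
      intro x
      simp only [hCell]
      rw [hbe]
      congr 1
      push_cast
      rw [ht]; ring
    have hcell2 : ∀ x : ℤ, Cell (k + 1) (x + 1) = strip u i1 i2 i a b (t + c1 + (x + 1) * D) := by
      intro x
      rw [hcell1 (x + 1)]
      congr 1
      push_cast
      ring
    have hE : ExitE u R κ Q (L + k * N) b (b + N) ε := by
      rw [hb]
      exact exitE_of_late F.fin hL hε0 (n := N) (r := 2) (by omega) (by omega) (by omega)
    have hw : ∀ x ∈ K, lam x ∈ Cls u R κ Q (strip u i1 i2 i a (L + k * N) (t + x * D))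
        (L + k * N) b κ₁ := by
      intro x _
      have h3 := hlam x
      rw [hcell0] at h3
      simp only [hEn] at h3
      rw [hbe] at h3
      exact h3
    have h4 := hKS (L + k * N) b (b + N) (by omega) (by omega) ℤ
      (fun x => strip u i1 i2 i a (L + k * N) (t + x * D))
      (fun x => strip u i1 i2 i a b (t + c1 + x * D))
      (fun x => strip u i1 i2 i a b (t + c1 + (x + 1) * D))
      (fun x y hy => hy.1)
      (fun x y hy => hg.trans (succ_ge F hc hm1 hy (by ring)))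
      (fun x y hy => hg.trans (succ_ge F hc hm2 hy (by rw [hD]; ring)))
      r1 r2 hE lam K hw
    refine le_trans (measure_mono ?_) h4
    intro ω hω x hx hcon
    refine hω x hx ?_
    have hsupp : ∀ y, lev u y ≠ (L + k * N : ℕ) → lam x y = 0 :=
      fun y hy => (hw x hx).2.1 y fun h => hy h.1
    have g1 := okM_kD_of_GoodD hsupp hcon.1
    have g2 := okM_kD_of_GoodD hsupp hcon.2
    refine ⟨?_, ?_⟩
    · change okM (Cell (k + 1) x) (Kc u R κ Q (L + (k + 1) * N) (L + (k + 1 + 1) * N)) κ₁ γ (lam x)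
        (kD u R κ Q s (L + k * N) (L + (k + 1) * N) (Cell (k + 1) x) ω)
      rw [hcell1, hbe, hbe2]
      exact g1
    · change okM (Cell (k + 1) (x + 1)) (Kc u R κ Q (L + (k + 1) * N) (L + (k + 1 + 1) * N)) κ₁ γ
        (lam x) (kD u R κ Q s (L + k * N) (L + (k + 1) * N) (Cell (k + 1) (x + 1)) ω)
      rw [hcell2, hbe, hbe2]
      exact g2
  · -- start
    have h3 := hsh L z (α + c1) hz' (by
      rw [hα]
      have e : lat i1 i2 z i + sh - c1 + c1 - (lat i1 i2 z i + sh) = 0 := by ring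
      rw [e, abs_zero]
      linarith)
    refine le_trans (measure_mono ?_) h3
    intro ω hω hcon
    refine hω ⟨0, ?_⟩
    have hcell : Cell 1 0 = strip u i1 i2 i a (L + N) (α + c1) := by
      simp only [hCell]
      congr 1
      · ring
      · push_cast; ring
    change okM (Cell 1 0) (Kc u R κ Q (L + 1 * N) (L + (1 + 1) * N)) κ₁ γ₀ (single z)
      (A.G (L + 0 * N) (L + (0 + 1) * N) ω)
    have e1 : L + 1 * N = L + N := by ring
    have e2 : L + (1 + 1) * N = L + N + N := by ring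
    have e3 : L + 0 * N = L := by ring
    rw [hcell, e1, e2, e3]
    exact hcon

end tile

end Crest.Agent.R154.TileReg872
end

-- ▼ part R154/ConKap_402
section

/-!
Row 154: the read-read contact of helper424 (`Cont.kap`, `Cont.rows`) as a contact rule for the
K-set bounds of `KExp_402`.
-/

set_option autoImplicit false
set_option linter.unusedSectionVars false

namespace Crest.Agent.R154

open MeasureTheory ProbabilityTheory Crest.ProbabilityR.RandomEnvironment
open scoped ENNReal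

variable {d : ℕ} {Ω : Type} [MeasurableSpace Ω]

/-- read-read contact (helper424). -/
noncomputable def Con.kapCon {W : WalkSpace d Ω} {rd : Ω → ℕ → Prop} (hW : Cont.RdSpace W rd)
    (R : ℕ) : Con W R where
  con V X := Cont.kap W rd R V X
  tr X t := Cont.rows W rd X t
  isStop V := Cont.isStop_kap hW.det V
  far V X n hn := by
    intro z hz
    obtain ⟨i, hi, h1, rfl⟩ := (hW.read_iff X n z).1 hz
    by_contra hcon
    have h2 : Cont.kap W rd R V X ≤ i := Cont.ft_le ⟨h1, hcon⟩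
    have h3 : n ≤ i := by exact_mod_cast hn.trans h2
    omega
  anti h X := Cont.kap_anti h X
  union {V V' X t} h := by
    obtain ⟨n, hn, hr, a, ha, hR⟩ := Cont.kap_lt_iff.1 h
    rcases ha with ha | ha
    · exact Or.inl (Cont.kap_lt_iff.2 ⟨n, hn, hr, a, ha, hR⟩)
    · exact Or.inr (Cont.kap_lt_iff.2 ⟨n, hn, hr, a, ha, hR⟩)
  empty X := by
    by_contra h
    obtain ⟨n, -, -, a, ha, -⟩ := Cont.kap_lt_iff.1 (lt_top_iff_ne_top.2 h)
    exact ha
  tr_mono X {_ _} h := Cont.rows_mono h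
  tr_zero X := by ext z; simp [Cont.rows]
  tr_read X n := by
    intro z hz
    obtain ⟨i, hi, h1, h2⟩ := (hW.read_iff X n z).1 hz
    exact ⟨i, by exact_mod_cast hi, h1, h2⟩
  tr_congr {n X Y} h {t} ht := by
    have key : ∀ X Y : Ω, W.hist n X = W.hist n Y → Cont.rows W rd X t ⊆ Cont.rows W rd Y t := by
      intro X Y h z ⟨i, hi, h1, h2⟩
      have hin : i ≤ n := by
        have : i < n + 1 := by exact_mod_cast hi.trans_le ht
        omega
      have h' := W.mono X Y hin h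
      exact ⟨i, hi, (hW.det i X Y h').1 h1, by rw [← W.pos_det i X Y h']; exact h2⟩
    exact Set.Subset.antisymm (key X Y h) (key Y X h.symm)
  single X Y t t' := by
    constructor
    · intro h
      obtain ⟨n, hn, hr, a, ⟨j, hj, h1, h2⟩, hR⟩ := Cont.kap_lt_iff.1 h
      refine ⟨n, j, hn, hj, ?_⟩
      have h3 : Cont.kap W rd R (Cont.rows W rd X ((j + 1 : ℕ) : ℕ∞)) Y < ((n + 1 : ℕ) : ℕ∞) :=
        Cont.kap_lt_iff.2 ⟨n, by exact_mod_cast Nat.lt_succ_self n, hr, a,
          ⟨j, by exact_mod_cast Nat.lt_succ_self j, h1, h2⟩, hR⟩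
      obtain ⟨m, hm⟩ := ENat.ne_top_iff_exists.1 h3.ne_top
      change Cont.kap W rd R (Cont.rows W rd X ((j + 1 : ℕ) : ℕ∞)) Y ≤ (n : ℕ∞)
      rw [← hm] at h3 ⊢
      have : m < n + 1 := by exact_mod_cast h3
      have : m ≤ n := by omega
      exact_mod_cast this
    · rintro ⟨n, j, hn, hj, hc⟩
      refine ((Cont.kap_anti (Cont.rows_mono ?_) Y).trans hc).trans_lt hn
      have := Order.add_one_le_of_lt hj
      exact_mod_cast this

@[simp] lemma Con.kapCon_con {W : WalkSpace d Ω} {rd : Ω → ℕ → Prop} (hW : Cont.RdSpace W rd)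
    (R : ℕ) (V : Set (Site d)) (X : Ω) : (Con.kapCon hW R).con V X = Cont.kap W rd R V X := rfl

@[simp] lemma Con.kapCon_tr {W : WalkSpace d Ω} {rd : Ω → ℕ → Prop} (hW : Cont.RdSpace W rd)
    (R : ℕ) (X : Ω) (t : ℕ∞) : (Con.kapCon hW R).tr X t = Cont.rows W rd X t := rfl

/-- the contact set of two tests is read-read contact. -/
lemma mem_meet_kapCon {ι : Type} {W : WalkSpace d Ω} {rd : Ω → ℕ → Prop}
    (hW : Cont.RdSpace W rd) (R : ℕ) (τ : ι → Ω → ℕ∞) (l l' : ι) (p : Ω × Ω) :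
    p ∈ KExp.meet (Con.kapCon hW R) τ l l' ↔
      ∃ n j : ℕ, (n : ℕ∞) < τ l' p.2 ∧ (j : ℕ∞) < τ l p.1 ∧ rd p.2 n ∧ rd p.1 j ∧
        ∀ i, |W.pos p.1 j i - W.pos p.2 n i| ≤ (R : ℤ) := by
  show Cont.kap W rd R (Cont.rows W rd p.1 (τ l p.1)) p.2 < τ l' p.2 ↔ _
  rw [Cont.kap_lt_iff]
  constructor
  · rintro ⟨n, hn, hr, a, ⟨j, hj, h1, rfl⟩, hR⟩
    exact ⟨n, j, hn, hj, hr, h1, hR⟩
  · rintro ⟨n, j, hn, hj, hr, h1, hR⟩
    exact ⟨n, hn, hr, _, ⟨j, hj, h1, rfl⟩, hR⟩

end Crest.Agent.R154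
end

-- ▼ part R154/ProdWS_850
section

/-! Row 154, B7 (helper850): stopped walk spaces, frozen walkers, product walk spaces (pair tests
of the K-set bounds). -/

set_option autoImplicit false
set_option linter.unusedVariables false
set_option linter.unusedSectionVars false

namespace Crest.Agent.R154

open MeasureTheory ProbabilityTheory Crest.ProbabilityR.RandomEnvironment
open scoped ENNReal

variable {d : ℕ} {Ω : Type} [MeasurableSpace Ω]

namespace WalkSpace

variable (W : WalkSpace d Ω)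

lemma stop_congr {S : Ω → ℕ∞} (hS : W.IsStop S) {n : ℕ} {X Y : Ω} (h : W.hist n X = W.hist n Y)
    (hn : S X ≤ n) : S Y = S X := by
  obtain ⟨m, hm⟩ := ENat.ne_top_iff_exists.1 (lt_of_le_of_lt hn (ENat.natCast_lt_top n)).ne
  rw [← hm] at hn ⊢
  exact hS X Y m (W.mono X Y (by exact_mod_cast hn) h) hm.symm

lemma le_stop_congr {S : Ω → ℕ∞} (hS : W.IsStop S) {n m : ℕ} {X Y : Ω}
    (h : W.hist n X = W.hist n Y) (hmn : m ≤ n) (hm : (m : ℕ∞) ≤ S X) : (m : ℕ∞) ≤ S Y := by
  by_contra hlt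
  rw [not_le] at hlt
  have h1 : S X = S Y := W.stop_congr hS h.symm (hlt.le.trans (by exact_mod_cast hmn))
  rw [h1] at hm
  exact absurd hm (not_le.2 hlt)

/-- **the stopped walk space**: the rows read after the stopping time are not counted. -/
def stopped (S : Ω → ℕ∞) (hS : W.IsStop S) : WalkSpace d Ω where
  H := W.H
  countH := W.countH
  hist := W.hist
  ext := W.ext
  hist_ext := W.hist_ext
  mono := W.mono
  gen := W.gen
  pos := W.pos
  pos_det := W.pos_det
  read X n := {z | ∃ m : ℕ, m ≤ n ∧ (m : ℕ∞) ≤ S X ∧ z ∈ W.read X m}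
  read_det := by
    intro n X Y h
    have key : ∀ X Y : Ω, W.hist n X = W.hist n Y →
        {z | ∃ m : ℕ, m ≤ n ∧ (m : ℕ∞) ≤ S X ∧ z ∈ W.read X m}
          ⊆ {z | ∃ m : ℕ, m ≤ n ∧ (m : ℕ∞) ≤ S Y ∧ z ∈ W.read Y m} := by
      rintro X Y h z ⟨m, hm, hmS, hz⟩
      exact ⟨m, hm, W.le_stop_congr hS h hm hmS, by rw [← W.read_det m X Y (W.mono X Y hm h)]; exact hz⟩
    exact Set.Subset.antisymm (key X Y h) (key Y X h.symm)
  read_sub := by
    rintro X n z ⟨m, hm, _, hz⟩
    obtain ⟨i, hi, rfl⟩ := W.read_sub X m hz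
    exact ⟨i, by omega, rfl⟩
  read_mono := by
    rintro X m n hmn z ⟨k, hk, hkS, hz⟩
    exact ⟨k, by omega, hkS, hz⟩

variable {W}




variable (W)

open Classical in
/-- **the frozen walker**. -/
noncomputable def frz (S : Ω → ℕ∞) (X : Ω) : Ω :=
  if S X = ⊤ then X else W.ext (S X).toNat (W.hist (S X).toNat X)

lemma frz_top {S : Ω → ℕ∞} {X : Ω} (h : S X = ⊤) : W.frz S X = X := by
  unfold frz; rw [if_pos h]

lemma frz_coe {S : Ω → ℕ∞} {X : Ω} {n : ℕ} (h : S X = n) : W.frz S X = W.ext n (W.hist n X) := by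
  unfold frz
  rw [if_neg (by rw [h]; exact ENat.natCast_ne_top n), h]
  rfl

lemma hist_frz {S : Ω → ℕ∞} {X : Ω} {n : ℕ} (h : (n : ℕ∞) ≤ S X) :
    W.hist n (W.frz S X) = W.hist n X := by
  by_cases ht : S X = ⊤
  · rw [W.frz_top ht]
  · obtain ⟨m, hm⟩ := ENat.ne_top_iff_exists.1 ht
    rw [W.frz_coe hm.symm]
    rw [← hm] at h
    exact W.mono _ _ (by exact_mod_cast h) (W.hist_ext m _)

lemma stop_frz {S : Ω → ℕ∞} (hS : W.IsStop S) (X : Ω) : S (W.frz S X) = S X := by
  by_cases ht : S X = ⊤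
  · rw [W.frz_top ht]
  · obtain ⟨m, hm⟩ := ENat.ne_top_iff_exists.1 ht
    rw [← hm]
    exact hS X _ m (W.hist_frz hm.le).symm hm.symm

lemma frz_det {S : Ω → ℕ∞} (hS : W.IsStop S) {X Y : Ω} {n : ℕ}
    (h : W.hist n X = W.hist n Y) : W.hist n (W.frz S X) = W.hist n (W.frz S Y) := by
  rcases le_total (S X) (n : ℕ∞) with h1 | h1
  · have h2 := W.stop_congr hS h h1
    obtain ⟨m, hm⟩ := ENat.ne_top_iff_exists.1 (lt_of_le_of_lt h1 (ENat.natCast_lt_top n)).ne
    rw [W.frz_coe hm.symm, W.frz_coe (h2.trans hm.symm)]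
    rw [← hm] at h1
    rw [W.mono X Y (by exact_mod_cast h1) h]
  · rw [W.hist_frz h1, W.hist_frz (W.le_stop_congr hS h le_rfl h1), h]

lemma measurable_frz {S : Ω → ℕ∞} (hS : W.IsStop S) : Measurable (W.frz S) := by
  have : @Measurable Ω Ω _ (MeasurableSpace.generateFrom
      {s | ∃ (X : Ω) (n : ℕ), s = {Y | W.hist n Y = W.hist n X}}) (W.frz S) := by
    refine measurable_generateFrom ?_
    rintro _ ⟨X, n, rfl⟩
    refine W.measurableSet_of_hist n _ fun Y Z h hY => ?_
    exact (W.frz_det hS h).symm.trans hY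
  rwa [← W.gen] at this

lemma frz_eq_of {S : Ω → ℕ∞} (hS : W.IsStop S) {X Y : Ω} {n : ℕ}
    (h : W.hist n X = W.hist n Y) (hn : S X = n) : W.frz S X = W.frz S Y := by
  rw [W.frz_coe hn, W.frz_coe (hS X Y n h hn), h]


/-- **the frozen law reads only the rows read before the stopping time.** -/
theorem readsOnly_frz {S : Ω → ℕ∞} (hS : W.IsStop S) {Q : Measure (Environment d)}
    {P : Kernel (Environment d) Ω} (hP : W.ReadsOnly Q P) :
    (W.stopped S hS).ReadsOnly Q (P.map (W.frz S)) := by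
  intro γ n
  change AEM Q ((W.stopped S hS).read γ n) (fun ω => (P.map (W.frz S)) ω ((W.stopped S hS).cyl γ n))
  -- the stopping time `min S n`
  set A : Set Ω := {X | W.hist n (W.frz S X) = W.hist n γ} with hA
  have hval : ∀ ω, (P.map (W.frz S)) ω ((W.stopped S hS).cyl γ n) = P ω A := by
    intro ω
    rw [Kernel.map_apply' _ (W.measurable_frz hS) _ ((W.stopped S hS).measurableSet_cyl γ n)]
    rfl
  -- pieces
  let ι := Σ m : ℕ, {h : W.H m // m ≤ n ∧ ∃ X ∈ A, W.hist m X = h ∧ (m : ℕ∞) = min (S X) n}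
  have : Countable ι := inferInstance
  have hAU : A = ⋃ p : ι, W.hcyl p.1 p.2.1 := by
    ext X
    simp only [Set.mem_iUnion]
    constructor
    · intro hX
      obtain ⟨m, hm⟩ := ENat.ne_top_iff_exists.1
        (lt_of_le_of_lt (min_le_right (S X) (n : ℕ∞)) (ENat.natCast_lt_top n)).ne
      have hmn : m ≤ n := by
        have : (m : ℕ∞) ≤ n := hm ▸ min_le_right _ _
        exact_mod_cast this
      exact ⟨⟨m, W.hist m X, hmn, X, hX, rfl, hm⟩, rfl⟩
    · rintro ⟨⟨m, h, hmn, Y, hY, rfl, hm⟩, hX⟩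
      change W.hist m X = W.hist m Y at hX
      change W.hist n (W.frz S X) = W.hist n γ
      rw [← (show W.hist n (W.frz S Y) = W.hist n γ from hY)]
      rcases le_total (S Y) (n : ℕ∞) with h1 | h1
      · rw [min_eq_left h1] at hm
        rw [W.frz_eq_of hS hX.symm hm.symm]
      · rw [min_eq_right h1] at hm
        have : m = n := by exact_mod_cast hm
        subst this
        exact W.frz_det hS hX
  have hdisj : Pairwise (Function.onFun Disjoint fun p : ι => W.hcyl p.1 p.2.1) := by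
    rintro ⟨m, h, hmn, Y, hY, rfl, hm⟩ ⟨m', h', hmn', Y', hY', rfl, hm'⟩ hne
    rw [Function.onFun, Set.disjoint_left]
    intro X hX hX'
    change W.hist m X = W.hist m Y at hX
    change W.hist m' X = W.hist m' Y' at hX'
    have key : ∀ (m : ℕ) (Y : Ω), m ≤ n → (m : ℕ∞) = min (S Y) n → W.hist m X = W.hist m Y →
        (m : ℕ∞) = min (S X) n := by
      intro m Y hmn hm hX
      rcases le_total (S Y) (n : ℕ∞) with h1 | h1
      · rw [min_eq_left h1] at hm
        have h2 := hS Y X m hX.symm hm.symm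
        rw [h2, min_eq_left (by exact_mod_cast hmn)]
      · rw [min_eq_right h1] at hm
        have : m = n := by exact_mod_cast hm
        subst this
        rw [min_eq_right (W.le_stop_congr hS hX.symm le_rfl h1)]
    have e : m = m' := by
      have := (key m Y hmn hm hX).trans (key m' Y' hmn' hm' hX').symm
      exact_mod_cast this
    subst e
    refine hne ?_
    congr 1
    exact Subtype.ext (hX.symm.trans hX')
  refine (AEM.tsum (F := fun (p : ι) ω => P ω (W.hcyl p.1 p.2.1)) fun p => ?_).congr fun ω => ?_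
  · obtain ⟨m, h, hmn, Y, hY, rfl, hm⟩ := p
    have hr : W.read Y m ⊆ (W.stopped S hS).read γ n := by
      have hY' : W.hist n (W.frz S Y) = W.hist n γ := hY
      rw [← (W.stopped S hS).read_det n _ _ hY']
      intro z hz
      have hle : (m : ℕ∞) ≤ S Y := hm ▸ min_le_left _ _
      refine ⟨m, hmn, by rw [W.stop_frz hS]; exact hle, ?_⟩
      rw [W.read_det m _ _ (W.hist_frz hle)]
      exact hz
    exact AEM.mono (hP Y m) hr
  · exact (hval ω).trans ((congrArg (fun s => P ω s) hAU).trans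
      (measure_iUnion hdisj fun p => W.measurableSet_hcyl _ _))

end WalkSpace

/-! ### product -/

section prod

variable {A B : Type} [MeasurableSpace A] [MeasurableSpace B]

/-- **the product walk space** (interleaved histories). -/
def prodWS [Nonempty A] [Nonempty B] (W₁ : WalkSpace d A) (W₂ : WalkSpace d B) :
    WalkSpace d (A × B) where
  H n := W₁.H ((n + 1) / 2) × W₂.H (n / 2)
  countH n := inferInstance
  hist n p := (W₁.hist ((n + 1) / 2) p.1, W₂.hist (n / 2) p.2)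
  ext n h := (W₁.ext _ h.1, W₂.ext _ h.2)
  hist_ext n h := Prod.ext (W₁.hist_ext _ _) (W₂.hist_ext _ _)
  mono := by
    intro m n X Y hmn h
    obtain ⟨h1, h2⟩ := Prod.ext_iff.1 h
    exact Prod.ext (W₁.mono _ _ (by omega) h1) (W₂.mono _ _ (by omega) h2)
  gen := by
    apply le_antisymm
    · have hg : (inferInstance : MeasurableSpace (A × B)) =
          MeasurableSpace.generateFrom (Set.image2 (· ×ˢ ·) W₁.cyls W₂.cyls) :=
        (generateFrom_eq_prod W₁.gen.symm W₂.gen.symm W₁.isCountablySpanning_cyls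
          W₂.isCountablySpanning_cyls).symm
      refine (le_of_eq hg).trans ?_
      refine MeasurableSpace.generateFrom_le ?_
      rintro _ ⟨_, ⟨γ, n, rfl⟩, _, ⟨δ, m, rfl⟩, rfl⟩
      set N : ℕ := 2 * max n m with hN
      have hn : n ≤ (N + 1) / 2 := by have := le_max_left n m; omega
      have hm : m ≤ N / 2 := by have := le_max_right n m; omega
      have : ({Y | W₁.hist n Y = W₁.hist n γ} ×ˢ {Y | W₂.hist m Y = W₂.hist m δ} : Set (A × B))
          = ⋃ h : {h : W₁.H ((N + 1) / 2) × W₂.H (N / 2) //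
              W₁.hist n (W₁.ext _ h.1) = W₁.hist n γ ∧ W₂.hist m (W₂.ext _ h.2) = W₂.hist m δ},
              {Y : A × B | (W₁.hist ((N + 1) / 2) Y.1, W₂.hist (N / 2) Y.2) = h.1} := by
        ext Y
        simp only [Set.mem_prod, Set.mem_ofPred_eq, Set.mem_iUnion, Subtype.exists]
        constructor
        · rintro ⟨h1, h2⟩
          refine ⟨(W₁.hist _ Y.1, W₂.hist _ Y.2), ⟨?_, ?_⟩, rfl⟩
          · rw [← h1]
            exact W₁.mono _ _ hn (W₁.hist_ext _ _)
          · rw [← h2]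
            exact W₂.mono _ _ hm (W₂.hist_ext _ _)
        · rintro ⟨h, ⟨h1, h2⟩, hY⟩
          subst hY
          refine ⟨?_, ?_⟩
          · rw [← h1]
            exact (W₁.mono _ _ hn (W₁.hist_ext _ _)).symm
          · rw [← h2]
            exact (W₂.mono _ _ hm (W₂.hist_ext _ _)).symm
      beta_reduce
      rw [this]
      refine MeasurableSet.iUnion fun h => MeasurableSpace.measurableSet_generateFrom ?_
      refine ⟨(W₁.ext _ h.1.1, W₂.ext _ h.1.2), N, ?_⟩
      simp only [WalkSpace.hist_ext]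
    · refine MeasurableSpace.generateFrom_le ?_
      rintro _ ⟨X, n, rfl⟩
      have : {Y : A × B | (W₁.hist ((n + 1) / 2) Y.1, W₂.hist (n / 2) Y.2)
            = (W₁.hist ((n + 1) / 2) X.1, W₂.hist (n / 2) X.2)}
          = W₁.cyl X.1 ((n + 1) / 2) ×ˢ W₂.cyl X.2 (n / 2) := by
        ext Y
        simp only [Set.mem_ofPred_eq, Prod.mk.injEq, Set.mem_prod, WalkSpace.cyl]
      rw [this]
      exact (W₁.measurableSet_cyl _ _).prod (W₂.measurableSet_cyl _ _)
  pos p n := if n % 2 = 0 then W₁.pos p.1 (n / 2) else W₂.pos p.2 (n / 2)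
  pos_det := by
    intro n X Y h
    obtain ⟨h1, h2⟩ := Prod.ext_iff.1 h
    beta_reduce
    split_ifs with hn
    · exact W₁.pos_det _ _ _ (W₁.mono _ _ (by omega) h1)
    · exact W₂.pos_det _ _ _ h2
  read p n := W₁.read p.1 ((n + 1) / 2) ∪ W₂.read p.2 (n / 2)
  read_det := by
    intro n X Y h
    obtain ⟨h1, h2⟩ := Prod.ext_iff.1 h
    rw [W₁.read_det _ _ _ h1, W₂.read_det _ _ _ h2]
  read_sub := by
    rintro X n z (hz | hz)
    · obtain ⟨i, hi, rfl⟩ := W₁.read_sub _ _ hz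
      refine ⟨2 * i, by omega, ?_⟩
      rw [if_pos (by omega)]
      congr 1
      omega
    · obtain ⟨i, hi, rfl⟩ := W₂.read_sub _ _ hz
      refine ⟨2 * i + 1, by omega, ?_⟩
      rw [if_neg (by omega)]
      congr 1
      omega
  read_mono := fun X m n h => Set.union_subset_union (W₁.read_mono _ (by omega))
    (W₂.read_mono _ (by omega))

variable [Nonempty A] [Nonempty B] {W₁ : WalkSpace d A} {W₂ : WalkSpace d B}


lemma prodWS_hist_eq {n : ℕ} {p q : A × B} :
    (prodWS W₁ W₂).hist n p = (prodWS W₁ W₂).hist n q ↔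
      W₁.hist ((n + 1) / 2) p.1 = W₁.hist ((n + 1) / 2) q.1 ∧
        W₂.hist (n / 2) p.2 = W₂.hist (n / 2) q.2 := Prod.ext_iff

lemma prodWS_cyl (γ : A × B) (n : ℕ) :
    (prodWS W₁ W₂).cyl γ n = W₁.cyl γ.1 ((n + 1) / 2) ×ˢ W₂.cyl γ.2 (n / 2) := by
  ext Y
  exact prodWS_hist_eq

theorem readsOnly_prod {Q : Measure (Environment d)} {P₁ : Kernel (Environment d) A}
    {P₂ : Kernel (Environment d) B} [IsSFiniteKernel P₁] [IsSFiniteKernel P₂]
    (h₁ : W₁.ReadsOnly Q P₁) (h₂ : W₂.ReadsOnly Q P₂) :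
    (prodWS W₁ W₂).ReadsOnly Q (P₁ ×ₖ P₂) := by
  intro γ n
  have h1 : AEM Q (W₁.read γ.1 ((n + 1) / 2)) (fun ω => P₁ ω (W₁.cyl γ.1 ((n + 1) / 2))) :=
    h₁ γ.1 _
  have h2 : AEM Q (W₂.read γ.2 (n / 2)) (fun ω => P₂ ω (W₂.cyl γ.2 (n / 2))) := h₂ γ.2 _
  refine ((h1.mono Set.subset_union_left).mul (h2.mono Set.subset_union_right)).congr fun ω => ?_
  rw [prodWS_cyl, Kernel.prod_apply, Measure.prod_prod]

/-- reading times of the product. -/
def rdP (rd₁ : A → ℕ → Prop) (rd₂ : B → ℕ → Prop) (p : A × B) (n : ℕ) : Prop :=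
  if n % 2 = 0 then rd₁ p.1 (n / 2) else rd₂ p.2 (n / 2)

lemma rdSpace_prod {rd₁ : A → ℕ → Prop} {rd₂ : B → ℕ → Prop} (h₁ : Cont.RdSpace W₁ rd₁)
    (h₂ : Cont.RdSpace W₂ rd₂) : Cont.RdSpace (prodWS W₁ W₂) (rdP rd₁ rd₂) where
  det := by
    intro n X Y h
    obtain ⟨h1, h2⟩ := prodWS_hist_eq.1 h
    unfold rdP
    split_ifs with hn
    · exact h₁.det _ _ _ (W₁.mono _ _ (by omega) h1)
    · exact h₂.det _ _ _ h2
  read_iff X n z := by
    change (z ∈ W₁.read X.1 ((n + 1) / 2) ∪ W₂.read X.2 (n / 2)) ↔ ∃ i, i < n ∧ rdP rd₁ rd₂ X i ∧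
      (if i % 2 = 0 then W₁.pos X.1 (i / 2) else W₂.pos X.2 (i / 2)) = z
    rw [Set.mem_union, h₁.read_iff, h₂.read_iff]
    constructor
    · rintro (⟨i, hi, hr, hz⟩ | ⟨i, hi, hr, hz⟩)
      · refine ⟨2 * i, by omega, ?_, ?_⟩
        · unfold rdP
          rw [if_pos (by omega)]
          have : 2 * i / 2 = i := by omega
          rw [this]; exact hr
        · rw [if_pos (by omega)]
          have : 2 * i / 2 = i := by omega
          rw [this]; exact hz
      · refine ⟨2 * i + 1, by omega, ?_, ?_⟩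
        · unfold rdP
          rw [if_neg (by omega)]
          have : (2 * i + 1) / 2 = i := by omega
          rw [this]; exact hr
        · rw [if_neg (by omega)]
          have : (2 * i + 1) / 2 = i := by omega
          rw [this]; exact hz
    · rintro ⟨i, hi, hr, hz⟩
      unfold rdP at hr
      split_ifs at hr hz with h
      · exact Or.inl ⟨i / 2, by omega, hr, hz⟩
      · exact Or.inr ⟨i / 2, by omega, hr, hz⟩

end prod

/-! ### reading times of the stopped space -/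

/-- reading times before the stopping time. -/
def rdS (S : Ω → ℕ∞) (rd : Ω → ℕ → Prop) (X : Ω) (i : ℕ) : Prop := rd X i ∧ (i : ℕ∞) < S X

lemma rdSpace_stopped {W : WalkSpace d Ω} {rd : Ω → ℕ → Prop} {S : Ω → ℕ∞} (hS : W.IsStop S)
    (h : Cont.RdSpace W rd) : Cont.RdSpace (W.stopped S hS) (rdS S rd) where
  det := by
    intro n X Y hXY
    have h1 := h.det n X Y hXY
    have h2 := Cont.pdet_lt_stop hS n X Y hXY
    unfold rdS
    simp only [h1, h2]
  read_iff X n z := by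
    constructor
    · rintro ⟨m, hm, hmS, hz⟩
      obtain ⟨i, hi, hr, hz⟩ := (h.read_iff X m z).1 hz
      refine ⟨i, by omega, ⟨hr, lt_of_lt_of_le ?_ hmS⟩, hz⟩
      exact_mod_cast hi
    · rintro ⟨i, hi, ⟨hr, hiS⟩, hz⟩
      refine ⟨i + 1, by omega, ?_, (h.read_iff X (i + 1) z).2 ⟨i, Nat.lt_succ_self i, hr, hz⟩⟩
      have := Order.add_one_le_of_lt hiS
      exact_mod_cast this

/-! ### labels (helper402's `WalkSpace.lab` is the version used in `PairK3_402`) -/

namespace Lab850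

section lab

variable {ι : Type} [Countable ι] [MeasurableSpace ι] [MeasurableSingletonClass ι]

/-- walkers with a label. -/
def labWS (ι : Type) [Countable ι] [MeasurableSpace ι] [MeasurableSingletonClass ι]
    (W : WalkSpace d Ω) : WalkSpace d (ι × Ω) where
  H n := ι × W.H n
  countH n := inferInstance
  hist n p := (p.1, W.hist n p.2)
  ext n h := (h.1, W.ext n h.2)
  hist_ext n h := Prod.ext rfl (W.hist_ext n h.2)
  mono := by
    intro m n X Y hmn h
    obtain ⟨h1, h2⟩ := Prod.ext_iff.1 h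
    exact Prod.ext h1 (W.mono _ _ hmn h2)
  gen := by
    apply le_antisymm
    · set G : MeasurableSpace (ι × Ω) := MeasurableSpace.generateFrom
        {s | ∃ (X : ι × Ω) (n : ℕ), s = {Y : ι × Ω | (Y.1, W.hist n Y.2) = (X.1, W.hist n X.2)}}
        with hG
      have h1 : @Measurable (ι × Ω) ι G _ Prod.fst := by
        refine @measurable_to_countable' ι (ι × Ω) _ _ G Prod.fst fun l => ?_
        have : (Prod.fst ⁻¹' {l} : Set (ι × Ω)) = ⋃ h : W.H 0,
            {Y : ι × Ω | (Y.1, W.hist 0 Y.2) = (l, W.hist 0 (W.ext 0 h))} := by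
          ext Y
          simp only [Set.mem_preimage, Set.mem_singleton_iff, Set.mem_iUnion, Set.mem_ofPred_eq,
            Prod.mk.injEq, W.hist_ext, exists_and_left, exists_eq', and_true]
        rw [this]
        exact MeasurableSet.iUnion fun h =>
          MeasurableSpace.measurableSet_generateFrom ⟨(l, W.ext 0 h), 0, rfl⟩
      have h2 : @Measurable (ι × Ω) Ω G _ Prod.snd := by
        have h3 : @Measurable (ι × Ω) Ω G (MeasurableSpace.generateFrom
            {s | ∃ (X : Ω) (n : ℕ), s = {Y | W.hist n Y = W.hist n X}}) Prod.snd := by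
          refine @measurable_generateFrom (ι × Ω) Ω G _ _ ?_
          rintro _ ⟨X, n, rfl⟩
          have : (Prod.snd ⁻¹' {Y | W.hist n Y = W.hist n X} : Set (ι × Ω)) = ⋃ l : ι,
              {Y : ι × Ω | (Y.1, W.hist n Y.2) = (l, W.hist n X)} := by
            ext Y
            simp only [Set.mem_preimage, Set.mem_iUnion, Set.mem_ofPred_eq,
              Prod.mk.injEq, exists_and_right, exists_eq', true_and]
          rw [this]
          exact MeasurableSet.iUnion fun l =>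
            MeasurableSpace.measurableSet_generateFrom ⟨(l, X), n, rfl⟩
        rwa [← W.gen] at h3
      exact sup_le (measurable_iff_comap_le.1 h1) (measurable_iff_comap_le.1 h2)
    · refine MeasurableSpace.generateFrom_le ?_
      rintro _ ⟨X, n, rfl⟩
      have : {Y : ι × Ω | (Y.1, W.hist n Y.2) = (X.1, W.hist n X.2)}
          = {X.1} ×ˢ W.cyl X.2 n := by
        ext Y
        simp only [Set.mem_ofPred_eq, Prod.mk.injEq, Set.mem_prod, WalkSpace.cyl,
          Set.mem_singleton_iff]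
      rw [this]
      exact (measurableSet_singleton _).prod (W.measurableSet_cyl _ _)
  pos p n := W.pos p.2 n
  pos_det := by
    intro n X Y h
    obtain ⟨h1, h2⟩ := Prod.ext_iff.1 h
    exact W.pos_det n _ _ h2
  read p n := W.read p.2 n
  read_det := by
    intro n X Y h
    obtain ⟨h1, h2⟩ := Prod.ext_iff.1 h
    exact W.read_det n _ _ h2
  read_sub := fun X n => W.read_sub X.2 n
  read_mono := fun X m n h => W.read_mono X.2 h

variable {W : WalkSpace d Ω}

lemma labWS_hist_eq {n : ℕ} {p q : ι × Ω} :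
    (labWS ι W).hist n p = (labWS ι W).hist n q ↔ p.1 = q.1 ∧ W.hist n p.2 = W.hist n q.2 :=
  Prod.ext_iff

/-- stopping time of labelled walkers. -/
def labS (S : ι → Ω → ℕ∞) (p : ι × Ω) : ℕ∞ := S p.1 p.2

lemma isStop_lab {S : ι → Ω → ℕ∞} (hS : ∀ l, W.IsStop (S l)) : (labWS ι W).IsStop (labS S) := by
  intro X Y n h hn
  obtain ⟨h1, h2⟩ := labWS_hist_eq.1 h
  have hn' : S X.1 X.2 = n := hn
  change S Y.1 Y.2 = n
  rw [← h1]
  exact hS _ _ _ n h2 hn'

lemma rdSpace_lab {rd : Ω → ℕ → Prop} (hW : Cont.RdSpace W rd) :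
    Cont.RdSpace (labWS ι W) (fun p n => rd p.2 n) where
  det := by
    intro n X Y h
    exact hW.det n _ _ (labWS_hist_eq.1 h).2
  read_iff X n z := hW.read_iff X.2 n z

/-- the frozen walker with its label. -/
noncomputable def frzL (W : WalkSpace d Ω) (S : ι → Ω → ℕ∞) (l : ι) (X : Ω) : ι × Ω :=
  (l, W.frz (S l) X)

lemma frzL_eq (S : ι → Ω → ℕ∞) (l : ι) (X : Ω) :
    frzL W S l X = (labWS ι W).frz (labS S) (l, X) := by
  by_cases ht : S l X = ⊤
  · rw [WalkSpace.frz_top _ (show labS S (l, X) = ⊤ from ht)]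
    unfold frzL
    rw [W.frz_top ht]
  · obtain ⟨m, hm⟩ := ENat.ne_top_iff_exists.1 ht
    rw [WalkSpace.frz_coe _ (show labS S (l, X) = m from hm.symm)]
    unfold frzL
    rw [W.frz_coe hm.symm]
    rfl

lemma measurable_frzL {S : ι → Ω → ℕ∞} (hS : ∀ l, W.IsStop (S l)) (l : ι) :
    Measurable (frzL W S l) :=
  measurable_const.prodMk (W.measurable_frz (hS l))

lemma readsOnly_lab {Q : Measure (Environment d)} {P : Kernel (Environment d) Ω}
    (hP : W.ReadsOnly Q P) (l : ι) : (labWS ι W).ReadsOnly Q (P.map (Prod.mk l)) := by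
  intro γ n
  have hm : Measurable (Prod.mk l : Ω → ι × Ω) := measurable_const.prodMk measurable_id
  change AEM Q (W.read γ.2 n) _
  have hval : ∀ ω, (P.map (Prod.mk l)) ω ((labWS ι W).cyl γ n)
      = P ω (Prod.mk l ⁻¹' (labWS ι W).cyl γ n) := fun ω =>
    Kernel.map_apply' _ hm _ ((labWS ι W).measurableSet_cyl γ n)
  by_cases hl : γ.1 = l
  · have h1 : AEM Q (W.read γ.2 n) (fun ω => P ω (W.cyl γ.2 n)) := hP γ.2 n
    refine h1.congr fun ω => ?_
    rw [hval]
    congr 1
    ext X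
    change (labWS ι W).hist n (l, X) = (labWS ι W).hist n γ ↔ W.hist n X = W.hist n γ.2
    rw [labWS_hist_eq]
    simp [hl]
  · refine (AEM.const (Q := Q) (V := W.read γ.2 n) 0).congr fun ω => ?_
    rw [hval]
    have : (Prod.mk l ⁻¹' (labWS ι W).cyl γ n : Set Ω) = ∅ := by
      ext X
      simp only [Set.mem_preimage, Set.mem_empty_iff_false, iff_false]
      intro h
      exact hl ((labWS_hist_eq.1 h).1).symm
    rw [this, measure_empty]

/-- the labelled, stopped walk space. -/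
noncomputable def lsWS (W : WalkSpace d Ω) {S : ι → Ω → ℕ∞} (hS : ∀ l, W.IsStop (S l)) :
    WalkSpace d (ι × Ω) := (labWS ι W).stopped (labS S) (isStop_lab hS)

lemma readsOnly_frzL {S : ι → Ω → ℕ∞} (hS : ∀ l, W.IsStop (S l)) {Q : Measure (Environment d)}
    {P : Kernel (Environment d) Ω} (hP : W.ReadsOnly Q P) (l : ι) :
    (lsWS W hS).ReadsOnly Q (P.map (frzL W S l)) := by
  have h := (labWS ι W).readsOnly_frz (isStop_lab hS) (readsOnly_lab hP l)
  have e : (P.map (Prod.mk l)).map ((labWS ι W).frz (labS S)) = P.map (frzL W S l) := by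
    ext ω s hs
    have hm : Measurable (Prod.mk l : Ω → ι × Ω) := measurable_const.prodMk measurable_id
    have hf := (labWS ι W).measurable_frz (isStop_lab hS)
    rw [Kernel.map_apply' _ hf _ hs, Kernel.map_apply' _ hm _ (hf hs),
      Kernel.map_apply' _ (measurable_frzL hS l) _ hs]
    congr 1
    ext X
    simp only [Set.mem_preimage, frzL_eq]
  rw [e] at h
  exact h

end lab

end Lab850

/-! ### decision time of a pair -/

section pT

variable {A B : Type} [MeasurableSpace A] [MeasurableSpace B] [Nonempty A] [Nonempty B]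
  {W₁ : WalkSpace d A} {W₂ : WalkSpace d B} {S₁ : A → ℕ∞} {S₂ : B → ℕ∞}

/-- decision time of a pair. -/
noncomputable def pT (S₁ : A → ℕ∞) (S₂ : B → ℕ∞) (p : A × B) : ℕ∞ :=
  KExp.fst fun n => S₁ p.1 ≤ (((n + 1) / 2 : ℕ) : ℕ∞) ∧ S₂ p.2 ≤ ((n / 2 : ℕ) : ℕ∞)

lemma isStop_pT (h₁ : W₁.IsStop S₁) (h₂ : W₂.IsStop S₂) :
    (prodWS W₁ W₂).IsStop (pT S₁ S₂) := by
  refine KExp.isStop_fst (prodWS W₁ W₂) (p := fun n p =>
    S₁ p.1 ≤ (((n + 1) / 2 : ℕ) : ℕ∞) ∧ S₂ p.2 ≤ ((n / 2 : ℕ) : ℕ∞)) fun n X Y h => ?_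
  obtain ⟨h1, h2⟩ := prodWS_hist_eq.1 h
  exact and_congr (Cont.pdet_stop_le h₁ _ _ _ h1) (Cont.pdet_stop_le h₂ _ _ _ h2)

lemma pT_spec {p : A × B} {n : ℕ} (h : pT S₁ S₂ p = n) :
    S₁ p.1 ≤ (((n + 1) / 2 : ℕ) : ℕ∞) ∧ S₂ p.2 ≤ ((n / 2 : ℕ) : ℕ∞) := by
  have h1 : pT S₁ S₂ p < ((n + 1 : ℕ) : ℕ∞) := by
    rw [h]; exact_mod_cast Nat.lt_succ_self n
  obtain ⟨m, hm, hp⟩ := KExp.fst_exists h1
  have h2 : pT S₁ S₂ p ≤ m := KExp.fst_le hp
  rw [h] at h2
  have h3 : n ≤ m := by exact_mod_cast h2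
  have h4 : m < n + 1 := by exact_mod_cast hm
  have : m = n := by omega
  subst this
  exact hp

lemma pT_lt_top {p : A × B} : pT S₁ S₂ p < ⊤ ↔ S₁ p.1 < ⊤ ∧ S₂ p.2 < ⊤ := by
  constructor
  · intro h
    obtain ⟨n, hn⟩ := ENat.ne_top_iff_exists.1 h.ne
    obtain ⟨h1, h2⟩ := pT_spec hn.symm
    exact ⟨lt_of_le_of_lt h1 (ENat.natCast_lt_top _), lt_of_le_of_lt h2 (ENat.natCast_lt_top _)⟩
  · rintro ⟨h1, h2⟩
    obtain ⟨a, ha⟩ := ENat.ne_top_iff_exists.1 h1.ne
    obtain ⟨b, hb⟩ := ENat.ne_top_iff_exists.1 h2.ne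
    refine lt_of_le_of_lt (KExp.fst_le (n := 2 * (a + b)) ⟨?_, ?_⟩) (ENat.natCast_lt_top _)
    · rw [← ha]
      have : a ≤ (2 * (a + b) + 1) / 2 := by omega
      exact_mod_cast this
    · rw [← hb]
      have : b ≤ (2 * (a + b)) / 2 := by omega
      exact_mod_cast this

lemma detBy_pT {α : Type*} {F : A × B → α}
    (hF : ∀ (p q : A × B) (a b : ℕ), S₁ p.1 = a → S₂ p.2 = b → W₁.hist a p.1 = W₁.hist a q.1 →
      W₂.hist b p.2 = W₂.hist b q.2 → F p = F q) :
    (prodWS W₁ W₂).DetBy (pT S₁ S₂) F := by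
  intro X Y n h hn
  obtain ⟨h1, h2⟩ := pT_spec hn
  obtain ⟨h3, h4⟩ := prodWS_hist_eq.1 h
  obtain ⟨a, ha⟩ := ENat.ne_top_iff_exists.1 (lt_of_le_of_lt h1 (ENat.natCast_lt_top _)).ne
  obtain ⟨b, hb⟩ := ENat.ne_top_iff_exists.1 (lt_of_le_of_lt h2 (ENat.natCast_lt_top _)).ne
  rw [← ha] at h1
  rw [← hb] at h2
  exact hF X Y a b ha.symm hb.symm (W₁.mono _ _ (by exact_mod_cast h1) h3)
    (W₂.mono _ _ (by exact_mod_cast h2) h4)

variable {rd₁ : A → ℕ → Prop} {rd₂ : B → ℕ → Prop} {R : ℕ}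



end pT

end Crest.Agent.R154
end

-- ▼ part R154/PairK3_402
section

/-!
Row 154, (KS), energy half: the K-set bound of `KExp_402` for PAIR tests (two walkers of the same
law in the same environment, both stopped at their own decision time), on helper850's product of
labelled stopped walk spaces.
-/

set_option autoImplicit false
set_option linter.unusedSectionVars false
set_option linter.unusedVariables false

namespace Crest.Agent.R154.PairK3

open MeasureTheory ProbabilityTheory Crest.ProbabilityR.RandomEnvironment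
open Crest.Agent.R154.Lab850
open scoped ENNReal

variable {d : ℕ} {Ω : Type} [MeasurableSpace Ω] [Nonempty Ω]
  {ι : Type} [Fintype ι] [DecidableEq ι] [Nonempty ι] [MeasurableSpace ι]
  [MeasurableSingletonClass ι]
  {W : WalkSpace d Ω} {rd : Ω → ℕ → Prop}
  {τ : ι → Ω → ℕ∞}

/-- product of two labelled stopped walk spaces -/
noncomputable def PW (hτ : ∀ l, W.IsStop (τ l)) : WalkSpace d ((ι × Ω) × (ι × Ω)) :=
  prodWS (lsWS W hτ) (lsWS W hτ)

/-- reading times of the labelled walker -/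
def rdL (ι : Type) (rd : Ω → ℕ → Prop) (p : ι × Ω) (n : ℕ) : Prop := rd p.2 n

/-- reading times of the pair -/
def rdPr (τ : ι → Ω → ℕ∞) (rd : Ω → ℕ → Prop) : (ι × Ω) × (ι × Ω) → ℕ → Prop :=
  rdP (rdS (labS τ) (rdL ι rd)) (rdS (labS τ) (rdL ι rd))

lemma rdSpace_PW (hW : Cont.RdSpace W rd) (hτ : ∀ l, W.IsStop (τ l)) :
    Cont.RdSpace (PW hτ) (rdPr τ rd) :=
  rdSpace_prod (rdSpace_stopped (isStop_lab hτ) (rdSpace_lab hW))
    (rdSpace_stopped (isStop_lab hτ) (rdSpace_lab hW))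

/-- law of the pair of frozen walkers -/
noncomputable def PL (W : WalkSpace d Ω) (τ : ι → Ω → ℕ∞) (law : ι → Kernel (Environment d) Ω)
    (l : ι) : Kernel (Environment d) ((ι × Ω) × (ι × Ω)) :=
  ((law l).map (frzL W τ l)) ×ₖ ((law l).map (frzL W τ l))

/-- decision time of the pair -/
noncomputable def PT (τ : ι → Ω → ℕ∞) : (ι × Ω) × (ι × Ω) → ℕ∞ := pT (labS τ) (labS τ)

open Classical in
/-- payoff of the pair -/
noncomputable def PU (v : ι → Ω → Ω → ℝ≥0∞) (l : ι) (p : (ι × Ω) × (ι × Ω)) : ℝ≥0∞ :=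
  if p.1.1 = l ∧ p.2.1 = l then v l p.1.2 p.2.2 else 0

/-- assumptions on the payoffs: measurable, `≤ 1`, decided at the two decision times, zero if one
of them is infinite. -/
structure Pay (W : WalkSpace d Ω) (τ : ι → Ω → ℕ∞) (v : ι → Ω → Ω → ℝ≥0∞) : Prop where
  meas : ∀ l, Measurable (Function.uncurry (v l))
  le_one : ∀ l X Y, v l X Y ≤ 1
  top : ∀ l X Y, τ l X = ⊤ ∨ τ l Y = ⊤ → v l X Y = 0
  det : ∀ l (X X' Y Y' : Ω) (m n : ℕ), τ l X = m → τ l Y = n → W.hist m X = W.hist m X' →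
    W.hist n Y = W.hist n Y' → v l X Y = v l X' Y'

section basic

variable {v : ι → Ω → Ω → ℝ≥0∞}

lemma measurable_PU (hv : Pay W τ v) (l : ι) : Measurable (PU v l) := by
  classical
  unfold PU
  refine Measurable.ite ?_ ?_ measurable_const
  · exact (measurableSet_eq_fun (measurable_fst.comp measurable_fst) measurable_const).inter
      (measurableSet_eq_fun (measurable_fst.comp measurable_snd) measurable_const)
  · exact (hv.meas l).comp ((measurable_snd.comp measurable_fst).prodMk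
      (measurable_snd.comp measurable_snd))

lemma PU_frz (hτ : ∀ l, W.IsStop (τ l)) (hv : Pay W τ v) (l : ι) (X Y : Ω) :
    PU v l (frzL W τ l X, frzL W τ l Y) = v l X Y := by
  classical
  unfold PU frzL
  simp only [and_self, if_true]
  by_cases hX : τ l X = ⊤
  · rw [hv.top l X Y (Or.inl hX), hv.top l _ _ (Or.inl (by rw [W.stop_frz (hτ l)]; exact hX))]
  by_cases hY : τ l Y = ⊤
  · rw [hv.top l X Y (Or.inr hY), hv.top l _ _ (Or.inr (by rw [W.stop_frz (hτ l)]; exact hY))]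
  obtain ⟨m, hm⟩ := ENat.ne_top_iff_exists.1 hX
  obtain ⟨n, hn⟩ := ENat.ne_top_iff_exists.1 hY
  exact (hv.det l X _ Y _ m n hm.symm hn.symm (W.hist_frz hm.le).symm (W.hist_frz hn.le).symm).symm

variable {law : ι → Kernel (Environment d) Ω} [∀ l, IsMarkovKernel (law l)]

lemma markov_frz (hτ : ∀ l, W.IsStop (τ l)) (l : ι) :
    IsMarkovKernel ((law l).map (frzL W τ l)) :=
  Kernel.IsMarkovKernel.map _ (measurable_frzL hτ l)

lemma lintegral_PL (hτ : ∀ l, W.IsStop (τ l)) (hv : Pay W τ v) (l : ι) (ω : Environment d) :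
    ∫⁻ p, PU v l p ∂(PL W τ law l ω) = ∫⁻ X, ∫⁻ Y, v l X Y ∂(law l ω) ∂(law l ω) := by
  have := markov_frz (law := law) hτ l
  have hm := measurable_PU hv l
  have hf := measurable_frzL (W := W) hτ l
  unfold PL
  rw [Kernel.prod_apply, lintegral_prod _ hm.aemeasurable, Kernel.map_apply _ hf,
    lintegral_map ?_ hf]
  · refine lintegral_congr fun X => ?_
    rw [lintegral_map ?_ hf]
    · exact lintegral_congr fun Y => PU_frz hτ hv l X Y
    · exact hm.comp measurable_prodMk_left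
  · have : IsProbabilityMeasure (((law l ω)).map (frzL W τ l)) :=
      Measure.isProbabilityMeasure_map hf.aemeasurable
    exact hm.lintegral_prod_right'

end basic

/-! ### contacts -/

section contact

variable {law : ι → Kernel (Environment d) Ω} [∀ l, IsMarkovKernel (law l)]

/-- contact set in the labelled space -/
def B0 (hW : Cont.RdSpace W rd) (R : ℕ) (τ : ι → Ω → ℕ∞) (l l' : ι) :
    Set ((ι × Ω) × (ι × Ω)) :=
  KExp.meet (Con.kapCon (rdSpace_lab (ι := ι) hW) R) (fun _ : ι => labS τ) l l'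

lemma mem_B0 (hW : Cont.RdSpace W rd) (R : ℕ) (τ : ι → Ω → ℕ∞) (l l' : ι) (p p' : ι × Ω) :
    (p, p') ∈ B0 hW R τ l l' ↔ ∃ n j : ℕ, (n : ℕ∞) < τ p'.1 p'.2 ∧ (j : ℕ∞) < τ p.1 p.2 ∧
      rd p'.2 n ∧ rd p.2 j ∧ ∀ i, |W.pos p.2 j i - W.pos p'.2 n i| ≤ (R : ℤ) :=
  mem_meet_kapCon _ R _ l l' _

lemma meas_B0 (hW : Cont.RdSpace W rd) (R : ℕ) (hτ : ∀ l, W.IsStop (τ l)) (l l' : ι) :
    MeasurableSet (B0 hW R τ l l') :=
  KExp.measurableSet_meet _ _ (fun _ => isStop_lab hτ) l l'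

lemma meet_subset (hW : Cont.RdSpace W rd) (R : ℕ) (hτ : ∀ l, W.IsStop (τ l)) (l l' : ι) :
    KExp.meet (Con.kapCon (rdSpace_PW hW hτ) R) (fun _ : ι => PT τ) l l' ⊆
      (Prod.map Prod.fst Prod.fst ⁻¹' B0 hW R τ l l' ∪
        Prod.map Prod.fst Prod.snd ⁻¹' B0 hW R τ l l') ∪
      (Prod.map Prod.snd Prod.fst ⁻¹' B0 hW R τ l l' ∪
        Prod.map Prod.snd Prod.snd ⁻¹' B0 hW R τ l l') := by
  rintro ⟨P, P'⟩ h
  obtain ⟨n, j, hn, hj, h1, h2, h3⟩ := (mem_meet_kapCon _ R _ l l' _).1 h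
  change rdP (rdS (labS τ) (rdL ι rd)) (rdS (labS τ) (rdL ι rd)) P' n at h1
  change rdP (rdS (labS τ) (rdL ι rd)) (rdS (labS τ) (rdL ι rd)) P j at h2
  change ∀ i, |(if j % 2 = 0 then W.pos P.1.2 (j / 2) else W.pos P.2.2 (j / 2)) i
    - (if n % 2 = 0 then W.pos P'.1.2 (n / 2) else W.pos P'.2.2 (n / 2)) i| ≤ (R : ℤ) at h3
  unfold rdP at h1 h2
  by_cases hj2 : j % 2 = 0 <;> by_cases hn2 : n % 2 = 0 <;>
    simp only [hj2, hn2, if_true, if_false] at h1 h2 h3
  · exact Or.inl (Or.inl ((mem_B0 hW R τ l l' P.1 P'.1).2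
      ⟨n / 2, j / 2, h1.2, h2.2, h1.1, h2.1, h3⟩))
  · exact Or.inl (Or.inr ((mem_B0 hW R τ l l' P.1 P'.2).2
      ⟨n / 2, j / 2, h1.2, h2.2, h1.1, h2.1, h3⟩))
  · exact Or.inr (Or.inl ((mem_B0 hW R τ l l' P.2 P'.1).2
      ⟨n / 2, j / 2, h1.2, h2.2, h1.1, h2.1, h3⟩))
  · exact Or.inr (Or.inr ((mem_B0 hW R τ l l' P.2 P'.2).2
      ⟨n / 2, j / 2, h1.2, h2.2, h1.1, h2.1, h3⟩))

lemma preimage_B0 (hW : Cont.RdSpace W rd) (R : ℕ) (hτ : ∀ l, W.IsStop (τ l)) (l l' : ι) :
    Prod.map (frzL W τ l) (frzL W τ l') ⁻¹' B0 hW R τ l l'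
      = KExp.meet (Con.kapCon hW R) τ l l' := by
  ext ⟨X, Y⟩
  rw [Set.mem_preimage, mem_meet_kapCon]
  change (frzL W τ l X, frzL W τ l' Y) ∈ B0 hW R τ l l' ↔ _
  rw [mem_B0]
  have hr : ∀ (k : ι) (Z : Ω) (n : ℕ), (n : ℕ∞) < τ k Z →
      (rd (W.frz (τ k) Z) n ↔ rd Z n) ∧ W.pos (W.frz (τ k) Z) n = W.pos Z n := by
    intro k Z n hn
    have h := W.hist_frz hn.le
    exact ⟨hW.det n _ _ h, W.pos_det n _ _ h⟩
  change (∃ n j : ℕ, (n : ℕ∞) < τ l' (W.frz (τ l') Y) ∧ (j : ℕ∞) < τ l (W.frz (τ l) X) ∧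
      rd (W.frz (τ l') Y) n ∧ rd (W.frz (τ l) X) j ∧
      ∀ i, |W.pos (W.frz (τ l) X) j i - W.pos (W.frz (τ l') Y) n i| ≤ (R : ℤ)) ↔ _
  rw [W.stop_frz (hτ l'), W.stop_frz (hτ l)]
  refine exists_congr fun n => exists_congr fun j => ?_
  constructor
  · rintro ⟨h1, h2, h3, h4, h5⟩
    obtain ⟨a1, a2⟩ := hr l' Y n h1
    obtain ⟨b1, b2⟩ := hr l X j h2
    rw [a2, b2] at h5
    exact ⟨h1, h2, a1.1 h3, b1.1 h4, h5⟩
  · rintro ⟨h1, h2, h3, h4, h5⟩
    obtain ⟨a1, a2⟩ := hr l' Y n h1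
    obtain ⟨b1, b2⟩ := hr l X j h2
    refine ⟨h1, h2, a1.2 h3, b1.2 h4, ?_⟩
    rw [a2, b2]
    exact h5

variable (Q : Measure (Environment d)) [IsProbabilityMeasure Q]

lemma fst_PL (hτ : ∀ l, W.IsStop (τ l)) (l : ι) :
    (Q.bind (PL W τ law l)).map Prod.fst = (Q.bind (law l)).map (frzL W τ l) := by
  have := markov_frz (law := law) hτ l
  have hf := measurable_frzL (W := W) hτ l
  refine Measure.ext fun A hA => ?_
  rw [Measure.map_apply measurable_fst hA, Measure.map_apply hf hA,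
    Measure.bind_apply (measurable_fst hA) (Kernel.measurable _).aemeasurable,
    Measure.bind_apply (hf hA) (Kernel.measurable _).aemeasurable]
  refine lintegral_congr fun ω => ?_
  unfold PL
  have : (Prod.fst : (ι × Ω) × (ι × Ω) → ι × Ω) ⁻¹' A = A ×ˢ Set.univ := by
    ext p; simp
  rw [Kernel.prod_apply, this, Measure.prod_prod, measure_univ, mul_one,
    Kernel.map_apply' _ hf _ hA]

lemma snd_PL (hτ : ∀ l, W.IsStop (τ l)) (l : ι) :
    (Q.bind (PL W τ law l)).map Prod.snd = (Q.bind (law l)).map (frzL W τ l) := by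
  have := markov_frz (law := law) hτ l
  have hf := measurable_frzL (W := W) hτ l
  refine Measure.ext fun A hA => ?_
  rw [Measure.map_apply measurable_snd hA, Measure.map_apply hf hA,
    Measure.bind_apply (measurable_snd hA) (Kernel.measurable _).aemeasurable,
    Measure.bind_apply (hf hA) (Kernel.measurable _).aemeasurable]
  refine lintegral_congr fun ω => ?_
  unfold PL
  have : (Prod.snd : (ι × Ω) × (ι × Ω) → ι × Ω) ⁻¹' A = Set.univ ×ˢ A := by
    ext p; simp
  rw [Kernel.prod_apply, this, Measure.prod_prod, measure_univ, one_mul,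
    Kernel.map_apply' _ hf _ hA]

instance prob_bind (l : ι) : IsProbabilityMeasure (Q.bind (law l)) := by
  refine ⟨?_⟩
  rw [Measure.bind_apply MeasurableSet.univ (Kernel.measurable _).aemeasurable]
  simp

lemma markov_PL (hτ : ∀ l, W.IsStop (τ l)) (l : ι) : IsMarkovKernel (PL W τ law l) := by
  have := markov_frz (law := law) hτ l
  unfold PL
  infer_instance

lemma meas_side (hW : Cont.RdSpace W rd) (R : ℕ) (hτ : ∀ l, W.IsStop (τ l)) (l l' : ι)
    {f g : (ι × Ω) × (ι × Ω) → ι × Ω} (hf : Measurable f) (hg : Measurable g)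
    (hf' : (Q.bind (PL W τ law l)).map f = (Q.bind (law l)).map (frzL W τ l))
    (hg' : (Q.bind (PL W τ law l')).map g = (Q.bind (law l')).map (frzL W τ l')) :
    ((Q.bind (PL W τ law l)).prod (Q.bind (PL W τ law l'))) (Prod.map f g ⁻¹' B0 hW R τ l l')
      = ((Q.bind (law l)).prod (Q.bind (law l'))) (KExp.meet (Con.kapCon hW R) τ l l') := by
  have h1 : ∀ l, IsMarkovKernel (PL W τ law l) := markov_PL hτ
  have h2 : ∀ l, IsProbabilityMeasure (Q.bind (PL W τ law l)) := fun l => by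
    refine ⟨?_⟩
    rw [Measure.bind_apply MeasurableSet.univ (Kernel.measurable _).aemeasurable]
    simp
  have hB := meas_B0 hW R hτ l l'
  have e1 := Measure.map_prod_map (Q.bind (PL W τ law l)) (Q.bind (PL W τ law l')) hf hg
  have e2 := Measure.map_prod_map (Q.bind (law l)) (Q.bind (law l'))
    (measurable_frzL (W := W) hτ l) (measurable_frzL (W := W) hτ l')
  rw [← Measure.map_apply (hf.prodMap hg) hB, ← e1, hf', hg', e2,
    Measure.map_apply ((measurable_frzL hτ l).prodMap (measurable_frzL hτ l')) hB,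
    preimage_B0 hW R hτ l l']

lemma meet_le (hW : Cont.RdSpace W rd) (R : ℕ) (hτ : ∀ l, W.IsStop (τ l)) (l l' : ι) :
    ((Q.bind (PL W τ law l)).prod (Q.bind (PL W τ law l')))
        (KExp.meet (Con.kapCon (rdSpace_PW hW hτ) R) (fun _ : ι => PT τ) l l')
      ≤ 4 * ((Q.bind (law l)).prod (Q.bind (law l'))) (KExp.meet (Con.kapCon hW R) τ l l') := by
  refine (measure_mono (meet_subset hW R hτ l l')).trans ?_
  refine (measure_union_le _ _).trans ?_
  refine (add_le_add (measure_union_le _ _) (measure_union_le _ _)).trans ?_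
  rw [meas_side Q hW R hτ l l' measurable_fst measurable_fst (fst_PL Q hτ l) (fst_PL Q hτ l'),
    meas_side Q hW R hτ l l' measurable_fst measurable_snd (fst_PL Q hτ l) (snd_PL Q hτ l'),
    meas_side Q hW R hτ l l' measurable_snd measurable_fst (snd_PL Q hτ l) (fst_PL Q hτ l'),
    meas_side Q hW R hτ l l' measurable_snd measurable_snd (snd_PL Q hτ l) (snd_PL Q hτ l')]
  refine le_of_eq ?_
  ring

/-- **K-set bound for pair tests.** -/
theorem main (hW : Cont.RdSpace W rd) {R : ℕ} (hQ : IndepAt R Q)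
    (hτ : ∀ l, W.IsStop (τ l)) (hr : ∀ l, W.ReadsOnly Q (law l))
    {v : ι → Ω → Ω → ℝ≥0∞} (hv : Pay W τ v) {δ η κ ε : ℝ≥0∞} (hδt : δ ≠ ⊤) (hη0 : η ≠ 0)
    (hηt : η ≠ ⊤) (hκt : κ ≠ ⊤)
    (hδ : ∀ l, ∫⁻ ω, ∫⁻ X, ∫⁻ Y, v l X Y ∂(law l ω) ∂(law l ω) ∂Q ≤ δ)
    (hκ : ∀ l, ∑ l' ∈ Finset.univ.erase l,
      ((Q.bind (law l)).prod (Q.bind (law l'))) (KExp.meet (Con.kapCon hW R) τ l l') ≤ κ) :
    ε ^ ((Fintype.card ι + 1) / 2)
        * Q {ω | ∀ l, ε ≤ ∫⁻ X, ∫⁻ Y, v l X Y ∂(law l ω) ∂(law l ω)}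
      ≤ (δ + η + 4 * κ / (η / 2)) ^ ((Fintype.card ι + 1) / 2) := by
  have h1 : ∀ l, IsMarkovKernel (PL W τ law l) := markov_PL hτ
  have hro : ∀ l, (PW hτ).ReadsOnly Q (PL W τ law l) := fun l => by
    have := markov_frz (law := law) hτ l
    exact readsOnly_prod (readsOnly_frzL hτ (hr l) l) (readsOnly_frzL hτ (hr l) l)
  have hT : (PW hτ).IsStop (PT τ) := isStop_pT (W₁ := lsWS W hτ) (W₂ := lsWS W hτ)
    (isStop_lab hτ) (isStop_lab hτ)
  have hdet : ∀ l, (PW hτ).DetBy (PT τ) (PU v l) := by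
    classical
    intro l
    refine detBy_pT (W₁ := lsWS W hτ) (W₂ := lsWS W hτ) ?_
    intro p q a b ha hb h1 h2
    obtain ⟨e1, e2⟩ := labWS_hist_eq.1 (show (labWS ι W).hist a p.1 = (labWS ι W).hist a q.1 from h1)
    obtain ⟨e3, e4⟩ := labWS_hist_eq.1 (show (labWS ι W).hist b p.2 = (labWS ι W).hist b q.2 from h2)
    unfold PU
    rw [← e1, ← e3]
    by_cases hl : p.1.1 = l ∧ p.2.1 = l
    · rw [if_pos hl, if_pos hl]
      have ha' : τ p.1.1 p.1.2 = a := ha
      have hb' : τ p.2.1 p.2.2 = b := hb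
      rw [hl.1] at ha'
      rw [hl.2] at hb'
      exact hv.det l _ _ _ _ a b ha' hb' e2 e4
    · rw [if_neg hl, if_neg hl]
  have hint : ∀ l ω, ∫⁻ p, PU v l p ∂(PL W τ law l ω)
      = ∫⁻ X, ∫⁻ Y, v l X Y ∂(law l ω) ∂(law l ω) := fun l ω => lintegral_PL hτ hv l ω
  have key := KExp.K3_half (Con.kapCon (rdSpace_PW hW hτ) R) Q (PL W τ law) (fun _ : ι => PT τ) hQ
    (fun _ => hT) (PU v) hdet (measurable_PU hv) (fun l p => by
      classical
      unfold PU
      split_ifs
      · exact hv.le_one _ _ _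
      · exact zero_le) (fun l p hp => by
      classical
      unfold PU
      split_ifs with hl
      · refine hv.top _ _ _ ?_
        by_contra hcon
        push Not at hcon
        have h3 : PT τ p < ⊤ := pT_lt_top.2 ⟨by
          rw [labS, hl.1]; exact lt_top_iff_ne_top.2 hcon.1, by
          rw [labS, hl.2]; exact lt_top_iff_ne_top.2 hcon.2⟩
        exact h3.ne hp
      · rfl) hro (δ := δ) (η := η) (κ := 4 * κ) (ε := ε) hδt hη0 hηt
    (ENNReal.mul_ne_top (by norm_num) hκt) (fun l => by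
      rw [Measure.lintegral_bind (Kernel.measurable _).aemeasurable
        (measurable_PU hv l).aemeasurable]
      refine le_trans (le_of_eq ?_) (hδ l)
      exact lintegral_congr fun ω => hint l ω) (fun l => by
      calc _ ≤ ∑ l' ∈ Finset.univ.erase l, 4 * ((Q.bind (law l)).prod (Q.bind (law l')))
            (KExp.meet (Con.kapCon hW R) τ l l') :=
            Finset.sum_le_sum fun l' _ => meet_le Q hW R hτ l l'
        _ = 4 * ∑ l' ∈ Finset.univ.erase l, ((Q.bind (law l)).prod (Q.bind (law l')))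
            (KExp.meet (Con.kapCon hW R) τ l l') := by rw [Finset.mul_sum]
        _ ≤ 4 * κ := by gcongr; exact hκ l)
    ∅ (by simp [KExp.cc_empty]) (Φ := fun _ => 1) measurable_const
  simp only [hint, lintegral_const, Measure.restrict_apply MeasurableSet.univ, Set.univ_inter,
    one_mul, measure_univ] at key
  exact key

end contact

end Crest.Agent.R154.PairK3
end

-- ▼ part R154/KSLaw_480
section

/-! Row 154, B8, TILE, (KS): the tests as stopped walkers of the flagged walk space (helper480). -/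

set_option autoImplicit false
set_option linter.unusedSectionVars false
set_option linter.deprecated false

namespace Crest.Agent.R154.KS480

open MeasureTheory ProbabilityTheory Set Filter Crest.ProbabilityR.RandomEnvironment
open Crest.Agent.R154.Ren263 (Det)
open Crest.Agent.R154.Mk561 Crest.Agent.R154.Q561
open Crest.Agent.R154.Flux132 (lev)
open Crest.Agent.R154.RatioR872
open Crest.Agent.R154.Cont (fWS fHist fHist_eq_iff rdM rdSpace_fWS)
open scoped ENNReal

variable {d : ℕ}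

/-! ### start laws -/

/-- the measure with weights `w` -/
noncomputable def nu (w : Site d → ℝ≥0∞) : Measure (Site d) :=
  Measure.sum fun x => w x • Measure.dirac x

lemma nu_apply (w : Site d → ℝ≥0∞) (x : Site d) : nu w {x} = w x := by
  classical
  unfold nu
  rw [Measure.sum_apply _ (measurableSet_singleton x), tsum_eq_single x]
  · simp
  · intro y hy
    simp [hy]

lemma nu_univ (w : Site d → ℝ≥0∞) : nu w univ = ∑' x, w x := by
  unfold nu
  rw [Measure.sum_apply _ MeasurableSet.univ]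
  simp

lemma nu_prob {w : Site d → ℝ≥0∞} (hw : ∑' x, w x = 1) : IsProbabilityMeasure (nu w) :=
  ⟨by rw [nu_univ, hw]⟩

lemma smK_nu (κ : ℝ) (w : Site d → ℝ≥0∞) (ω : Environment d) {A : Set (SMPath d)}
    (hA : MeasurableSet A) :
    smK κ (nu w) ω A = ∑' x, w x * mkLaw κ ω x {M | (x, M) ∈ A} := by
  rw [smK_apply κ (nu w) ω hA]
  refine tsum_congr fun x => ?_
  rw [nu_apply, mul_comm]
  rfl

lemma readsOnly_smKf (u₀ : Step d) (Q : Measure (Environment d)) (κ : ℝ)
    (μ : Measure (Site d)) : (fWS u₀).ReadsOnly Q (smK κ μ) := by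
  intro γ n
  obtain ⟨f, hf, hfe⟩ := Cont.readsOnly_smP u₀ Q κ γ.1 γ n
  refine ⟨fun ω => f ω * μ {γ.1}, hf.mul_const _, ?_⟩
  filter_upwards [hfe] with ω hω
  rw [← hω]
  have hm := (fWS u₀).measurableSet_cyl γ n
  rw [smK_apply κ μ ω hm, tsum_eq_single γ.1]
  · congr 1
    rw [smP_apply, smLaw, Measure.map_apply measurable_prodMk_left hm]
  · intro x hx
    have : (fun M : MPath d => (x, M)) ⁻¹' ((fWS u₀).cyl γ n) = ∅ := by
      ext M
      simp only [Set.mem_preimage, Set.mem_empty_iff_false, iff_false]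
      intro h
      have h' : fHist n (x, M) = fHist n γ := h
      rw [fHist_eq_iff] at h'
      exact hx h'.1
    rw [this]
    simp

/-- annealed law -/
lemma bind_smK (κ : ℝ) (Q : Measure (Environment d)) (w : Site d → ℝ≥0∞) {A : Set (SMPath d)}
    (hA : MeasurableSet A) :
    (Q.bind (smK κ (nu w))) A = ∑' x, w x * mkAnn κ Q x {M | (x, M) ∈ A} := by
  rw [Measure.bind_apply hA (Kernel.measurable _).aemeasurable]
  simp only [smK_nu κ w _ hA]
  have hm : ∀ x : Site d, MeasurableSet {M : MPath d | (x, M) ∈ A} := fun x =>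
    measurable_prodMk_left hA
  rw [lintegral_tsum fun x => ((measurable_mk_apply κ x (hm x)).const_mul _).aemeasurable]
  refine tsum_congr fun x => ?_
  rw [lintegral_const_mul _ (measurable_mk_apply κ x (hm x)), mkAnn_apply κ Q x (hm x)]

lemma bind_smK_eq (κ : ℝ) (Q : Measure (Environment d)) (w : Site d → ℝ≥0∞) :
    Q.bind (smK κ (nu w)) = Measure.sum fun x => w x • (mkAnn κ Q x).map (Prod.mk x) := by
  refine Measure.ext fun A hA => ?_
  rw [bind_smK κ Q w hA, Measure.sum_apply _ hA]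
  refine tsum_congr fun x => ?_
  rw [Measure.smul_apply, Measure.map_apply measurable_prodMk_left hA]
  rfl

lemma lintegral_bind_smK (κ : ℝ) (Q : Measure (Environment d)) (w : Site d → ℝ≥0∞)
    {f : SMPath d → ℝ≥0∞} (hf : Measurable f) :
    ∫⁻ X, f X ∂(Q.bind (smK κ (nu w))) = ∑' x, w x * ∫⁻ M, f (x, M) ∂(mkAnn κ Q x) := by
  rw [bind_smK_eq, lintegral_sum_measure]
  refine tsum_congr fun x => ?_
  rw [lintegral_smul_measure, lintegral_map hf measurable_prodMk_left]
  rfl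

/-- independent pair of annealed laws -/
lemma prod_bind_smK (κ : ℝ) (Q : Measure (Environment d)) [IsProbabilityMeasure Q]
    {w w' : Site d → ℝ≥0∞} (hw' : ∑' x, w' x = 1)
    {A : Set (SMPath d × SMPath d)} (hA : MeasurableSet A) :
    ((Q.bind (smK κ (nu w))).prod (Q.bind (smK κ (nu w')))) A
      = ∑' x, ∑' x', w x * w' x' * ((mkAnn κ Q x).prod (mkAnn κ Q x'))
          {p | ((x, p.1), (x', p.2)) ∈ A} := by
  have := nu_prob hw'
  have hP : IsProbabilityMeasure (Q.bind (smK κ (nu w'))) := inferInstance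
  rw [Measure.prod_apply hA, lintegral_bind_smK κ Q w (measurable_measure_prodMk_left hA)]
  refine tsum_congr fun x => ?_
  have hm1 : Measurable fun M : MPath d => ((x, M) : SMPath d) := measurable_prodMk_left
  have e1 : ∀ M : MPath d, (Q.bind (smK κ (nu w'))) (Prod.mk ((x, M) : SMPath d) ⁻¹' A)
      = ∑' x', w' x' * mkAnn κ Q x' {M' | ((x, M), (x', M')) ∈ A} := by
    intro M
    rw [bind_smK κ Q w' (measurable_prodMk_left hA)]
    rfl
  have hA2 : ∀ x' : Site d, MeasurableSet {p : MPath d × MPath d | ((x, p.1), (x', p.2)) ∈ A} := by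
    intro x'
    exact ((measurable_prodMk_left.comp measurable_fst).prodMk
      (measurable_prodMk_left.comp measurable_snd)) hA
  simp_rw [e1]
  rw [lintegral_tsum fun x' => Measurable.aemeasurable ?_, ← ENNReal.tsum_mul_left]
  · refine tsum_congr fun x' => ?_
    have hm : Measurable fun M : MPath d => mkAnn κ Q x' {M' | ((x, M), (x', M')) ∈ A} :=
      measurable_measure_prodMk_left (hA2 x')
    rw [lintegral_const_mul _ hm, Measure.prod_apply (hA2 x'), mul_assoc]
    rfl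
  · exact (measurable_measure_prodMk_left (hA2 x')).const_mul _

end Crest.Agent.R154.KS480
end

-- ▼ part R154/KSTest_480
section

/-! Row 154, B8, TILE, (KS): the killed climb as a stopped test, its annealed success probability
and its contacts (helper480). -/

set_option autoImplicit false
set_option linter.unusedSectionVars false
set_option linter.deprecated false

namespace Crest.Agent.R154.KS480

open MeasureTheory ProbabilityTheory Set Filter Crest.ProbabilityR.RandomEnvironment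
open Crest.Agent.R154.Ren263 (Det)
open Crest.Agent.R154.Mk561 Crest.Agent.R154.Q561
open Crest.Agent.R154.Flux132 (lev)
open Crest.Agent.R154.RatioR872
open Crest.Agent.R154.Cont (fWS fHist fHist_eq_iff rdM rdSpace_fWS)
open Crest.Agent.R154.B6I (Hit bf Alv Eqv Nt zt SP PP Om NoC tip th Al Dt PSm PIm ct)
open scoped ENNReal

variable {d : ℕ}

/-! ### `fst` -/

lemma fst_eq {p : ℕ → Prop} {m : ℕ} (h : p m) (h' : ∀ i < m, ¬ p i) : KExp.fst p = m := by
  refine le_antisymm (KExp.fst_le h) (le_iInf fun n => ?_)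
  have : m ≤ n.1 := by
    by_contra hlt
    exact h' n.1 (by omega) n.2
  exact_mod_cast this

lemma lt_fst_iff {p : ℕ → Prop} {n : ℕ} : (n : ℕ∞) < KExp.fst p ↔ ∀ i ≤ n, ¬ p i := by
  constructor
  · intro h i hi
    exact KExp.not_of_lt_fst (lt_of_le_of_lt (by exact_mod_cast hi) h)
  · intro h
    have h1 : ((n + 1 : ℕ) : ℕ∞) ≤ KExp.fst p := by
      refine le_iInf fun m => ?_
      have : n + 1 ≤ m.1 := by
        by_contra hlt
        exact h m.1 (by omega) m.2
      exact_mod_cast this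
    refine lt_of_lt_of_le ?_ h1
    exact_mod_cast Nat.lt_succ_self n

section test

variable (u : Step d) (R : ℕ) (κ : ℝ) (Q : Measure (Environment d)) (s : ℝ≥0∞) (b : ℤ)
  (T : Set (Site d))

/-- decision time on marked paths with start -/
noncomputable def tauS (X : SMPath d) : ℕ∞ := tau u R κ Q s b T X.1 X.2

/-- success without dip -/
def goodS : Set (SMPath d) := {X | X.2 ∈ good u R κ Q s b T X.1}

/-- first hit of level `b` -/
noncomputable def tb (X : SMPath d) : ℕ∞ := KExp.fst fun n => b ≤ lev u (pos X.1 X.2 n)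

lemma CyF_congr' {M M' : MPath d} {n : ℕ} (h : ∀ i < n, M i = M' i) (hf : (M n).2 = (M' n).2) :
    CyF M n = CyF M' n := by
  ext Y
  simp only [CyF, mem_setOf_eq, hf]
  refine and_congr ?_ Iff.rfl
  exact forall_congr' fun i => forall_congr' fun hi => by rw [h i hi]

lemma dp_congr' {x : Site d} {M M' : MPath d} {n : ℕ} (h : ∀ i < n, M i = M' i)
    (hf : (M n).2 = (M' n).2) :
    dp u R κ Q s b T x M n ↔ dp u R κ Q s b T x M' n := by
  unfold dp
  rw [CyF_congr' h hf]

lemma isStop_tauS (u₀ : Step d) : (fWS u₀).IsStop (tauS u R κ Q s b T) := by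
  intro X Y n h hn
  have h' : fHist n X = fHist n Y := h
  rw [fHist_eq_iff] at h'
  obtain ⟨h1, h2, h3⟩ := h'
  refine KExp.fst_eq_of (fun i hi => ?_) hn
  rw [h1, pos_congr Y.1 h2 hi]
  refine or_congr Iff.rfl (dp_congr' u R κ Q s b T (fun j hj => h2 j (by omega)) ?_)
  rcases Nat.lt_or_ge i n with h4 | h4
  · rw [h2 i h4]
  · obtain rfl : i = n := by omega
    exact h3

lemma isStop_tb (u₀ : Step d) : (fWS u₀).IsStop (tb u b) := by
  intro X Y n h hn
  have h' : fHist n X = fHist n Y := h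
  rw [fHist_eq_iff] at h'
  obtain ⟨h1, h2, h3⟩ := h'
  refine KExp.fst_eq_of (fun i hi => ?_) hn
  rw [h1, pos_congr Y.1 h2 hi]

lemma det_succM' (x : Site d) (m : ℕ) : Det m (succM u R b T x m) := by
  intro M M' h
  unfold succM
  simp only [mem_setOf_eq]
  rw [det_ClM u R x b m M M' h, pos_congr x h le_rfl]

lemma det_goodM' (x : Site d) (m : ℕ) : Det m (goodM u R κ Q s b T x m) := by
  intro M M' h
  unfold goodM
  simp only [mem_setOf_eq]
  rw [det_succM' u R b T x m M M' h]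
  refine and_congr Iff.rfl (forall_congr' fun i => forall_congr' fun hi => not_congr ?_)
  exact dp_congr' u R κ Q s b T (fun j hj => h j (by omega)) (by rw [h i hi])

lemma meas_succ' (x : Site d) : MeasurableSet (succ u R b T x) :=
  MeasurableSet.iUnion fun m => (det_succM' u R b T x m).measurableSet

lemma meas_good' (x : Site d) : MeasurableSet (good u R κ Q s b T x) :=
  MeasurableSet.iUnion fun m => (det_goodM' u R κ Q s b T x m).measurableSet

lemma tb_of_ClM {x : Site d} {m : ℕ} {M : MPath d} (h : M ∈ ClM u R x b m) :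
    tb u b (x, M) = m :=
  fst_eq h.1.ge fun i hi => not_le.2 (h.2.1 i hi)

lemma tau_of_goodM {x : Site d} {m : ℕ} {M : MPath d} (h : M ∈ goodM u R κ Q s b T x m) :
    tau u R κ Q s b T x M = m :=
  fst_eq (Or.inl h.1.1.1.ge) fun i hi => by
    rintro (h1 | h1)
    · exact absurd (h.1.1.2.1 i hi) (not_lt.2 h1)
    · exact h.2 i hi h1

lemma lt_tau_iff {x : Site d} {M : MPath d} {i : ℕ} : (i : ℕ∞) < tau u R κ Q s b T x M ↔
    (i : ℕ∞) < tb u b (x, M) ∧ ∀ j ≤ i, ¬ dp u R κ Q s b T x M j := by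
  unfold tau tb
  rw [lt_fst_iff, lt_fst_iff, ← forall₂_and]
  exact forall₂_congr fun j _ => not_or

lemma goodS_tau {X : SMPath d} (h : X ∈ goodS u R κ Q s b T) :
    tauS u R κ Q s b T X < ⊤ := by
  obtain ⟨m, hm⟩ := mem_iUnion.1 h
  have := tau_of_goodM u R κ Q s b T hm
  unfold tauS
  rw [this]
  exact ENat.natCast_lt_top m

lemma detBy_goodS (u₀ : Step d) :
    (fWS u₀).DetBy (tauS u R κ Q s b T) (fun X => X ∈ goodS u R κ Q s b T) := by
  have key : ∀ X Y : SMPath d, ∀ n : ℕ, fHist n X = fHist n Y → tauS u R κ Q s b T X = n →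
      X ∈ goodS u R κ Q s b T → Y ∈ goodS u R κ Q s b T := by
    intro X Y n h hn hX
    obtain ⟨m, hm⟩ := mem_iUnion.1 hX
    have h1 := tau_of_goodM u R κ Q s b T hm
    unfold tauS at hn
    rw [h1] at hn
    have hmn : m = n := by exact_mod_cast hn
    subst hmn
    rw [fHist_eq_iff] at h
    refine mem_iUnion.2 ⟨m, ?_⟩
    have h2 := (det_goodM' u R κ Q s b T X.1 m X.2 Y.2 h.2.1).1 hm
    rw [h.1] at h2
    exact h2
  intro X Y n h hn
  have hnY := isStop_tauS u R κ Q s b T u₀ X Y n h hn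
  exact propext ⟨key X Y n h hn, key Y X n h.symm hnY⟩

lemma measurable_goodS : MeasurableSet (goodS u R κ Q s b T) := by
  have : goodS u R κ Q s b T = ⋃ x : Site d, ({x} ×ˢ good u R κ Q s b T x : Set (SMPath d)) := by
    ext X
    simp only [goodS, mem_setOf_eq, mem_iUnion, mem_prod, mem_singleton_iff]
    constructor
    · intro h; exact ⟨X.1, rfl, h⟩
    · rintro ⟨x, hx, h⟩; rw [hx]; exact h
  rw [this]
  exact MeasurableSet.iUnion fun x => (measurableSet_singleton x).prod (meas_good' u R κ Q s b T x)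

/-! ### fixed start: comparison with `Dip_402` -/

/-- annealed law with start -/
noncomputable def mu (x : Site d) : Measure (SMPath d) := (mkAnn κ Q x).map (Prod.mk x)

/-- success on paths with start -/
def succS : Set (SMPath d) := {X | X.2 ∈ succ u R b T X.1}

lemma meas_succS : MeasurableSet (succS u R b T) := by
  have : succS u R b T = ⋃ x : Site d, ({x} ×ˢ succ u R b T x : Set (SMPath d)) := by
    ext X
    simp only [succS, mem_setOf_eq, mem_iUnion, mem_prod, mem_singleton_iff]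
    constructor
    · intro h; exact ⟨X.1, rfl, h⟩
    · rintro ⟨x, hx, h⟩; rw [hx]; exact h
  rw [this]
  exact MeasurableSet.iUnion fun x => (measurableSet_singleton x).prod (meas_succ' u R b T x)

lemma mu_apply (x : Site d) {A : Set (SMPath d)} (hA : MeasurableSet A) :
    mu κ Q x A = mkAnn κ Q x {M | (x, M) ∈ A} := by
  unfold mu
  rw [Measure.map_apply measurable_prodMk_left hA]
  rfl

lemma mem_cyl_iff (u₀ : Step d) {x : Site d} {M M' : MPath d} {n : ℕ} :
    ((x, M') : SMPath d) ∈ (fWS u₀).cyl (x, M) n ↔ M' ∈ CyF M n := by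
  change fHist n (x, M') = fHist n (x, M) ↔ _
  rw [fHist_eq_iff]
  simp [CyF]

lemma low_iff (u₀ : Step d) (x : Site d) (M : MPath d) (n : ℕ) :
    Dip.low (fWS u₀) (mu κ Q x) (succS u R b T) s n (x, M) ↔ dp u R κ Q s b T x M n := by
  unfold Dip.low dp
  have hc := (fWS u₀).measurableSet_cyl ((x, M) : SMPath d) n
  rw [mu_apply κ Q x ((meas_succS u R b T).inter hc), mu_apply κ Q x hc]
  have e1 : {M' | ((x, M') : SMPath d) ∈ succS u R b T ∩ (fWS u₀).cyl (x, M) n}
      = succ u R b T x ∩ CyF M n := by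
    ext M'
    simp only [mem_setOf_eq, mem_inter_iff, mem_cyl_iff]
    rfl
  have e2 : {M' | ((x, M') : SMPath d) ∈ (fWS u₀).cyl (x, M) n} = CyF M n := by
    ext M'
    simp only [mem_setOf_eq, mem_cyl_iff]
  rw [e1, e2]

lemma lt_dip_iff (u₀ : Step d) (x : Site d) (M : MPath d) (n : ℕ) :
    (n : ℕ∞) < Dip.dip (fWS u₀) (mu κ Q x) (succS u R b T) s (x, M)
      ↔ ∀ j ≤ n, ¬ dp u R κ Q s b T x M j := by
  unfold Dip.dip
  rw [lt_fst_iff]
  exact forall₂_congr fun j _ => not_congr (low_iff u R κ Q s b T u₀ x M j)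

variable [IsProbabilityMeasure Q]

instance (x : Site d) : IsProbabilityMeasure (mu κ Q x) :=
  Measure.isProbabilityMeasure_map measurable_prodMk_left.aemeasurable

/-- **killing costs at most `s`** -/
lemma succ_le_good (x : Site d) :
    mkAnn κ Q x (succ u R b T x) ≤ mkAnn κ Q x (good u R κ Q s b T x) + s := by
  have h := Dip.le_sG (fWS u) (mu κ Q x) (succS u R b T) s (τ := tb u b) (by
    intro X hX
    obtain ⟨m, hm⟩ := mem_iUnion.1 hX
    have := tb_of_ClM u R b hm.1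
    change tb u b (X.1, X.2) < ⊤
    rw [this]
    exact ENat.natCast_lt_top m)
  have hm2 := Dip.measurableSet_sG (fWS u) (mu κ Q x) (succS u R b T) s
    (isStop_tb u b u) (meas_succS u R b T)
  rw [mu_apply κ Q x (meas_succS u R b T), mu_apply κ Q x hm2] at h
  refine h.trans (add_le_add (measure_mono ?_) le_rfl)
  rintro M ⟨h1, h2⟩
  obtain ⟨m, hm⟩ := mem_iUnion.1 h1
  have e := tb_of_ClM u R b hm.1
  change tb u b (x, M) ≤ _ at h2
  rw [e] at h2
  refine mem_iUnion.2 ⟨m, hm, fun i hi => ?_⟩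
  have h3 : (i : ℕ∞) < Dip.dip (fWS u) (mu κ Q x) (succS u R b T) s (x, M) :=
    lt_of_lt_of_le (by exact_mod_cast hi) h2
  exact (lt_dip_iff u R κ Q s b T u x M i).1 h3 i le_rfl

/-- **one sided comparison**: contact of the killed walker with `V` -/
lemma kap_le (V : Set (Site d)) (x : Site d) :
    s * mkAnn κ Q x {M | Cont.kap (fWS u) rdM R V (x, M) < tau u R κ Q s b T x M}
      ≤ mkAnn κ Q x (succ u R b T x ∩ {M | Cont.kap (fWS u) rdM R V (x, M) < tb u b (x, M)}) := by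
  classical
  set W := fWS (d := d) u with hW
  set k : SMPath d → ℕ∞ := Cont.kap W rdM R V with hk
  have hkS : W.IsStop k := Cont.isStop_kap (rdSpace_fWS u).det V
  have htb : W.IsStop (tb u b) := isStop_tb u b u
  have hdip := Dip.isStop_dip W (mu κ Q x) (succS u R b T) s
  set F : SMPath d → ℝ≥0∞ := fun X => if k X < tb u b X then 1 else 0 with hF
  have hFd : W.DetBy k F := by
    intro X Y n h hn
    have hnY := hkS X Y n h hn
    have h' : fHist n X = fHist n Y := h
    rw [fHist_eq_iff] at h'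
    obtain ⟨h1, h2, h3⟩ := h'
    have : (k X < tb u b X) ↔ (k Y < tb u b Y) := by
      rw [hn, hnY]
      unfold tb
      rw [lt_fst_iff, lt_fst_iff]
      refine forall₂_congr fun i hi => ?_
      rw [h1, pos_congr Y.1 h2 hi]
    simp only [hF, this]
  have hmb : MeasurableSet {X | k X < tb u b X} := W.measurableSet_lt hkS htb
  have hmd : MeasurableSet {X | k X < Dip.dip W (mu κ Q x) (succS u R b T) s X} :=
    W.measurableSet_lt hkS hdip
  have h := Dip.mass_before_dip W (mu κ Q x) (succS u R b T) s hkS hFd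
  have e : ∀ ν : Measure (SMPath d),
      ∫⁻ X in {X | k X < Dip.dip W (mu κ Q x) (succS u R b T) s X}, F X ∂ν
        = ν ({X | k X < tb u b X} ∩ {X | k X < Dip.dip W (mu κ Q x) (succS u R b T) s X}) := by
    intro ν
    have : F = {X | k X < tb u b X}.indicator 1 := by
      funext X
      simp only [hF, indicator, mem_setOf_eq, Pi.one_apply]
    rw [this, lintegral_indicator_one hmb, Measure.restrict_apply hmb]
  rw [e, e, Measure.restrict_apply (hmb.inter hmd), mu_apply κ Q x (hmb.inter hmd),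
    mu_apply κ Q x ((hmb.inter hmd).inter (meas_succS u R b T))] at h
  refine le_trans (mul_le_mul' le_rfl (measure_mono ?_)) (h.trans (measure_mono ?_))
  · intro M hM
    have hM' : k (x, M) < tau u R κ Q s b T x M := hM
    obtain ⟨n, hn⟩ := ENat.ne_top_iff_exists.1 (ne_top_of_lt hM')
    rw [← hn] at hM'
    have h2 := (lt_tau_iff u R κ Q s b T).1 hM'
    refine ⟨?_, ?_⟩
    · show k (x, M) < tb u b (x, M)
      rw [← hn]; exact h2.1
    · show k (x, M) < Dip.dip W (mu κ Q x) (succS u R b T) s (x, M)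
      rw [← hn]
      exact (lt_dip_iff u R κ Q s b T u x M n).2 h2.2
  · rintro M ⟨⟨h1, _⟩, h3⟩
    exact ⟨h3, h1⟩

end test

end Crest.Agent.R154.KS480
end

-- ▼ part R154/KSCt_480
section

/-! Row 154, B8, TILE, (KS): contacts of two killed climbs, comparison with the pair energy
(helper480). -/

set_option autoImplicit false
set_option linter.unusedSectionVars false
set_option linter.deprecated false

namespace Crest.Agent.R154.KS480

open MeasureTheory ProbabilityTheory Set Filter Crest.ProbabilityR.RandomEnvironment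
open Crest.Agent.R154.Ren263 (Det)
open Crest.Agent.R154.Mk561 Crest.Agent.R154.Q561
open Crest.Agent.R154.Flux132 (lev)
open Crest.Agent.R154.RatioR872 Crest.Agent.R154.Tile872
open Crest.Agent.R154.Cont (fWS fHist fHist_eq_iff rdM rdSpace_fWS)
open Crest.Agent.R154.B6I (Hit bf Alv Eqv Nt zt SP PP Om NoC tip th Al Dt PSm PIm ct)
open scoped ENNReal

variable {d : ℕ}

/-- contact set with time sets `A`, `B` -/
def ctS (R : ℕ) (x x' : Site d) (A B : ℕ → Set (MPath d)) : Set (MPath d × MPath d) :=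
  {p | ∃ i j : ℕ, p.1 ∈ A i ∧ p.2 ∈ B j ∧ (p.1 i).2 = false ∧ (p.2 j).2 = false ∧
    ∀ c, |pos x p.1 i c - pos x' p.2 j c| ≤ (R : ℤ)}

lemma meas_flag (i : ℕ) : MeasurableSet {M : MPath d | (M i).2 = false} := by
  have : Det (i + 1) {M : MPath d | (M i).2 = false} := by
    intro M M' h
    simp only [mem_setOf_eq]
    rw [h i (Nat.lt_succ_self i)]
  exact this.measurableSet

lemma measurable_pos (x : Site d) (i : ℕ) : Measurable fun M : MPath d => pos x M i := by
  refine measurable_to_countable' fun z => ?_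
  have : Det i ((fun M : MPath d => pos x M i) ⁻¹' {z}) := by
    intro M M' h
    simp only [mem_preimage, mem_singleton_iff]
    rw [pos_congr x h le_rfl]
  exact this.measurableSet

lemma meas_ctS (R : ℕ) (x x' : Site d) {A B : ℕ → Set (MPath d)} (hA : ∀ i, MeasurableSet (A i))
    (hB : ∀ i, MeasurableSet (B i)) : MeasurableSet (ctS R x x' A B) := by
  have : ctS R x x' A B = ⋃ i : ℕ, ⋃ j : ℕ, (((A i ∩ {M | (M i).2 = false}) ×ˢ
      (B j ∩ {M | (M j).2 = false})) ∩
      (fun p : MPath d × MPath d => (pos x p.1 i, pos x' p.2 j)) ⁻¹'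
        {q : Site d × Site d | ∀ c, |q.1 c - q.2 c| ≤ (R : ℤ)}) := by
    ext p
    simp only [ctS, mem_setOf_eq, mem_iUnion, mem_inter_iff, mem_prod, mem_preimage]
    constructor
    · rintro ⟨i, j, h1, h2, h3, h4, h5⟩
      exact ⟨i, j, ⟨⟨h1, h3⟩, h2, h4⟩, h5⟩
    · rintro ⟨i, j, ⟨⟨h1, h3⟩, h2, h4⟩, h5⟩
      exact ⟨i, j, h1, h2, h3, h4, h5⟩
  rw [this]
  refine MeasurableSet.iUnion fun i => MeasurableSet.iUnion fun j => ?_
  refine (((hA i).inter (meas_flag i)).prod ((hB j).inter (meas_flag j))).inter ?_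
  have hm : Measurable fun p : MPath d × MPath d => (pos x p.1 i, pos x' p.2 j) :=
    ((measurable_pos x i).comp measurable_fst).prodMk ((measurable_pos x' j).comp measurable_snd)
  exact hm (Set.to_countable _).measurableSet

section ct

variable (u : Step d) (R : ℕ) (κ : ℝ) (Q : Measure (Environment d)) (s : ℝ≥0∞) (b : ℤ)

lemma meas_lt_tau (T : Set (Site d)) (x : Site d) (i : ℕ) :
    MeasurableSet {M : MPath d | (i : ℕ∞) < tau u R κ Q s b T x M} := by
  have : Det (i + 1) {M : MPath d | (i : ℕ∞) < tau u R κ Q s b T x M} := by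
    intro M M' h
    simp only [mem_setOf_eq]
    unfold tau
    rw [lt_fst_iff, lt_fst_iff]
    refine forall₂_congr fun j hj => not_congr (or_congr ?_ ?_)
    · rw [pos_congr x (fun k hk => h k (by omega) : ∀ k < j, M k = M' k) le_rfl]
    · exact dp_congr' u R κ Q s b T (fun k hk => h k (by omega)) (by rw [h j (by omega)])
  exact this.measurableSet

lemma meas_lt_tb (x : Site d) (i : ℕ) :
    MeasurableSet {M : MPath d | (i : ℕ∞) < tb u b (x, M)} := by
  have : Det (i + 1) {M : MPath d | (i : ℕ∞) < tb u b (x, M)} := by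
    intro M M' h
    simp only [mem_setOf_eq]
    unfold tb
    rw [lt_fst_iff, lt_fst_iff]
    refine forall₂_congr fun j hj => not_congr ?_
    rw [pos_congr x (fun k hk => h k (by omega) : ∀ k < j, M k = M' k) le_rfl]
  exact this.measurableSet

/-- contact set of killed walkers -/
def ct0 (T T' : Set (Site d)) (x x' : Site d) : Set (MPath d × MPath d) :=
  ctS R x x' (fun i => {M | (i : ℕ∞) < tau u R κ Q s b T x M})
    (fun j => {M | (j : ℕ∞) < tau u R κ Q s b T' x' M})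

/-- second walker natural with exit in the target, contact before level `b` -/
def ct1 (T T' : Set (Site d)) (x x' : Site d) : Set (MPath d × MPath d) :=
  ctS R x x' (fun i => {M | (i : ℕ∞) < tau u R κ Q s b T x M})
    (fun j => {M | (j : ℕ∞) < tb u b (x', M)} ∩ succ u R b T' x')

/-- both walkers natural with exit in the target, contact before level `b` -/
def ct2 (T T' : Set (Site d)) (x x' : Site d) : Set (MPath d × MPath d) :=
  ctS R x x' (fun i => {M | (i : ℕ∞) < tb u b (x, M)} ∩ succ u R b T x)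
    (fun j => {M | (j : ℕ∞) < tb u b (x', M)} ∩ succ u R b T' x')

lemma mt_eq (T T' : Set (Site d)) (x x' : Site d) :
    mt u R κ Q s b T T' x x'
      = ((mkAnn κ Q x).prod (mkAnn κ Q x')) (ct0 u R κ Q s b T T' x x') := rfl

variable [IsProbabilityMeasure Q]

lemma step1 (T T' : Set (Site d)) (x x' : Site d) :
    s * ((mkAnn κ Q x).prod (mkAnn κ Q x')) (ct0 u R κ Q s b T T' x x')
      ≤ ((mkAnn κ Q x).prod (mkAnn κ Q x')) (ct1 u R κ Q s b T T' x x') := by
  have hm0 : MeasurableSet (ct0 u R κ Q s b T T' x x') :=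
    meas_ctS R x x' (fun i => meas_lt_tau u R κ Q s b T x i)
      (fun i => meas_lt_tau u R κ Q s b T' x' i)
  have hm1 : MeasurableSet (ct1 u R κ Q s b T T' x x') :=
    meas_ctS R x x' (fun i => meas_lt_tau u R κ Q s b T x i)
      (fun i => (meas_lt_tb u b x' i).inter (meas_succ' u R b T' x'))
  rw [Measure.prod_apply hm0, Measure.prod_apply hm1, ← lintegral_const_mul _
    (measurable_measure_prodMk_left hm0)]
  refine lintegral_mono fun M => ?_
  have h := kap_le u R κ Q s b T' (Cont.rows (fWS u) rdM (x, M) (tau u R κ Q s b T x M)) x'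
  refine le_trans (le_of_eq ?_) (h.trans (measure_mono ?_))
  · congr 2
    ext M'
    simp only [mem_preimage, mem_setOf_eq]
    rw [Cont.kap_lt_iff]
    constructor
    · rintro ⟨i, j, h1, h2, h3, h4, h5⟩
      exact ⟨j, h2, h4, pos x M i, ⟨i, h1, h3, rfl⟩, h5⟩
    · rintro ⟨j, h2, h4, a, ⟨i, h1, h3, rfl⟩, h5⟩
      exact ⟨i, j, h1, h2, h3, h4, h5⟩
  · rintro M' ⟨h1, h2⟩
    have h2' := Cont.kap_lt_iff.1 h2
    obtain ⟨j, h3, h4, a, ⟨i, h5, h6, rfl⟩, h7⟩ := h2'
    exact ⟨i, j, h5, ⟨h3, h1⟩, h6, h4, h7⟩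

lemma step2 (T T' : Set (Site d)) (x x' : Site d) :
    s * ((mkAnn κ Q x).prod (mkAnn κ Q x')) (ct1 u R κ Q s b T T' x x')
      ≤ ((mkAnn κ Q x).prod (mkAnn κ Q x')) (ct2 u R b T T' x x') := by
  have hm1 : MeasurableSet (ct1 u R κ Q s b T T' x x') :=
    meas_ctS R x x' (fun i => meas_lt_tau u R κ Q s b T x i)
      (fun i => (meas_lt_tb u b x' i).inter (meas_succ' u R b T' x'))
  have hm2 : MeasurableSet (ct2 u R b T T' x x') :=
    meas_ctS R x x' (fun i => (meas_lt_tb u b x i).inter (meas_succ' u R b T x))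
      (fun i => (meas_lt_tb u b x' i).inter (meas_succ' u R b T' x'))
  rw [Measure.prod_apply_symm hm1, Measure.prod_apply_symm hm2, ← lintegral_const_mul _
    (measurable_measure_prodMk_right hm1)]
  refine lintegral_mono fun M' => ?_
  by_cases hM' : M' ∈ succ u R b T' x'
  swap
  · have : (fun M => (M, M')) ⁻¹' ct1 u R κ Q s b T T' x x' = ∅ := by
      rw [eq_empty_iff_forall_notMem]
      rintro M ⟨i, j, h1, h2, _⟩
      exact hM' h2.2
    rw [this]
    simp
  have h := kap_le u R κ Q s b T (Cont.rows (fWS u) rdM (x', M') (tb u b (x', M'))) x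
  refine le_trans (mul_le_mul' le_rfl (measure_mono ?_)) (h.trans (measure_mono ?_))
  · rintro M ⟨i, j, h1, h2, h3, h4, h5⟩
    refine Cont.kap_lt_iff.2 ⟨i, h1, h3, pos x' M' j, ⟨j, h2.1, h4, rfl⟩, fun c => ?_⟩
    rw [abs_sub_comm]
    exact h5 c
  · rintro M ⟨h1, h2⟩
    have h2' := Cont.kap_lt_iff.1 h2
    obtain ⟨i, h3, h4, a, ⟨j, h5, h6, rfl⟩, h7⟩ := h2'
    refine ⟨i, j, ⟨h3, h1⟩, ⟨h5, hM'⟩, h4, h6, fun c => ?_⟩
    have := h7 c
    rw [abs_sub_comm] at this
    exact this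

/-- **two sided comparison** -/
lemma mt_le (T T' : Set (Site d)) (x x' : Site d) :
    s ^ 2 * mt u R κ Q s b T T' x x'
      ≤ ((mkAnn κ Q x).prod (mkAnn κ Q x')) (ct2 u R b T T' x x') := by
  rw [mt_eq, sq, mul_assoc]
  exact (mul_le_mul' le_rfl (step1 u R κ Q s b T T' x x')).trans (step2 u R κ Q s b T T' x x')

end ct

section nat

variable (u : Step d) (R : ℕ) (κ : ℝ) (Q : Measure (Environment d)) [IsProbabilityMeasure Q]

lemma bf_of_lt_tb {x : Site d} {n i : ℕ} {M : MPath d}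
    (h : (i : ℕ∞) < tb u (lev u x + n) (x, M)) : bf u n M i := by
  intro k hk
  have h1 := (lt_fst_iff.1 h) k hk
  simp only [not_le] at h1
  rw [B6I.lev_pos] at h1
  omega

lemma ct2_sub {x x' : Site d} {n : ℕ} (hs : lev u x = lev u x') (T T' : Set (Site d)) :
    ct2 u R (lev u x + n) T T' x x' ⊆ bc u R 0 n (⟨(x, x'), hs⟩ : SP u) := by
  rintro p ⟨i, j, ⟨h1, h2⟩, ⟨h3, h4⟩, h5, h6, h7⟩
  have hN : Nt u R 0 n p.1 := by
    obtain ⟨m, hm⟩ := mem_iUnion.1 h2
    exact ((mem_ClM_iff u R).1 hm.1).2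
  have hN' : Nt u R 0 n p.2 := by
    obtain ⟨m, hm⟩ := mem_iUnion.1 h4
    have hm1 := hm.1
    rw [hs] at hm1
    exact ((mem_ClM_iff u R).1 hm1).2
  refine ⟨⟨hN, hN'⟩, fun hcon => ?_⟩
  have h3' : bf u n p.2 j := bf_of_lt_tb u (x := x') (by rw [← hs]; exact h3)
  have h8 := hcon i j (bf_of_lt_tb u h1) h3' ⟨h5, h6, h7⟩
  have h9 := h8.1 0 (Nat.zero_le _)
  simp at h9

/-- contacts of natural climbs in independent environments, averaged over `w × w`, are at most the
energy -/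
lemma avg_bc (hstat : ∀ z : Site d, MeasurePreserving (shiftEnv z) Q Q)
    (hR : IsFiniteRangeDependent Q R) {a b : ℕ}
    {w : Site d → ℝ≥0∞} (hw1 : ∑' x, w x = 1) (hw : ∀ x, lev u x ≠ a → w x = 0) :
    ∑' x, ∑' x', w x * w x' * (if h : lev u x = lev u x' then
        PIm κ Q x x' (bc u R 0 (b - a) ⟨(x, x'), h⟩) else 0)
      ≤ en u R κ Q a b w := by
  classical
  set n := b - a with hnd
  -- the common no contact part
  set c : Site d → Site d → ℝ≥0∞ := fun x x' => if h : lev u x = lev u x' then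
    PSm κ Q x x' (both u R n ∩ {p | NoC R 0 n ((⟨(x, x'), h⟩, p) : Om u)}) else 0 with hc
  have hn1 : hn u R κ Q n ≤ 1 := by
    unfold RatioR872.hn
    exact prob_le_one
  have hcle : ∑' x, ∑' x', w x * w x' * c x x' ≤ 1 := by
    calc ∑' x, ∑' x', w x * w x' * c x x' ≤ ∑' x, ∑' x', w x * w x' * 1 := by
          refine ENNReal.tsum_le_tsum fun x => ENNReal.tsum_le_tsum fun x' => ?_
          gcongr
          simp only [hc]
          split_ifs
          · exact prob_le_one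
          · exact zero_le_one
      _ = 1 := by
          simp only [mul_one]
          simp_rw [ENNReal.tsum_mul_left, hw1, mul_one]
          exact hw1
  have key : ∀ x x' (h : lev u x = lev u x'),
      PIm κ Q x x' (bc u R 0 n ⟨(x, x'), h⟩) + c x x' = hn u R κ Q n ^ 2 ∧
      PSm κ Q x x' (bc u R 0 n ⟨(x, x'), h⟩) + c x x' = PSm κ Q x x' (both u R n) := by
    intro x x' h
    set t : SP u := ⟨(x, x'), h⟩ with ht
    have hmN : MeasurableSet (both u R n ∩ {p | NoC R 0 n ((t, p) : Om u)}) :=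
      B6I.measurableSet_of_dt (fun p hp => both_al p hp.1)
        ((dt_both u R n).inter (B6I.dt_noC (Nat.zero_le n) t))
    have e2 : both u R n = bc u R 0 n t ∪ (both u R n ∩ {p | NoC R 0 n ((t, p) : Om u)}) := by
      ext p
      constructor
      · intro hp
        by_cases h : NoC R 0 n ((t, p) : Om u)
        · exact Or.inr ⟨hp, h⟩
        · exact Or.inl ⟨hp, h⟩
      · rintro (hp | hp)
        · exact hp.1
        · exact hp.1
    have hdis : Disjoint (bc u R 0 n t) (both u R n ∩ {p | NoC R 0 n ((t, p) : Om u)}) := by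
      rw [Set.disjoint_left]
      rintro p hp hq
      exact hp.2 hq.2
    have e3 : PSm κ Q x x' (both u R n ∩ {p | NoC R 0 n ((t, p) : Om u)})
        = PIm κ Q x x' (both u R n ∩ {p | NoC R 0 n ((t, p) : Om u)}) :=
      B6I.PS_eq_PI_set (κ := κ) hR t (fun p hp => both_al p hp.1)
        ((dt_both u R n).inter (B6I.dt_noC (Nat.zero_le n) t)) (fun p hp => hp.2)
    have e4 : PIm κ Q x x' (both u R n) = hn u R κ Q n ^ 2 := by
      have : both u R n = {M : MPath d | Nt u R 0 n M} ×ˢ {M : MPath d | Nt u R 0 n M} := rfl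
      rw [this, B6I.PIm, Measure.prod_prod, hn_eq_Nt u R κ Q hstat, hn_eq_Nt u R κ Q hstat, sq]
    have ec : c x x' = PSm κ Q x x' (both u R n ∩ {p | NoC R 0 n ((t, p) : Om u)}) := by
      simp only [hc, dif_pos h]
      rfl
    constructor
    · rw [ec, e3, ← measure_union hdis hmN, ← e2, e4]
    · rw [ec, ← measure_union hdis hmN, ← e2]
  -- Cauchy-Schwarz
  have hCS : hn u R κ Q n ^ 2 ≤ ∑' x, ∑' x', w x * w x' * (if lev u x = lev u x' then
      PSm κ Q x x' (both u R n) else 0) := by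
    set f : Environment d → ℝ≥0∞ := fun ω => ∑' x, w x * mkLaw κ ω x {M | Nt u R 0 n M} with hf
    have hfm : Measurable f := Measurable.ennreal_tsum fun x =>
      (measurable_mk_apply κ x (meas_Nt u R n)).const_mul _
    have h1 : ∫⁻ ω, f ω ∂Q = hn u R κ Q n := by
      simp only [hf]
      rw [lintegral_tsum fun x => ((measurable_mk_apply κ x (meas_Nt u R n)).const_mul _).aemeasurable]
      have : ∀ x, ∫⁻ ω, w x * mkLaw κ ω x {M | Nt u R 0 n M} ∂Q = w x * hn u R κ Q n := by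
        intro x
        rw [lintegral_const_mul _ (measurable_mk_apply κ x (meas_Nt u R n)),
          ← mkAnn_apply κ Q x (meas_Nt u R n), hn_eq_Nt u R κ Q hstat]
      simp_rw [this]
      rw [ENNReal.tsum_mul_right, hw1, one_mul]
    have h2 : ∫⁻ ω, f ω * f ω ∂Q ≤ ∑' x, ∑' x', w x * w x' * (if lev u x = lev u x' then
        PSm κ Q x x' (both u R n) else 0) := by
      have e1 : ∀ ω, f ω * f ω = ∑' x, ∑' x', (w x * w x') *
          (mkLaw κ ω x {M | Nt u R 0 n M} * mkLaw κ ω x' {M | Nt u R 0 n M}) := by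
        intro ω
        simp only [hf]
        rw [← ENNReal.tsum_mul_right]
        refine tsum_congr fun x => ?_
        rw [← ENNReal.tsum_mul_left]
        exact tsum_congr fun x' => by ring
      simp_rw [e1]
      have hm : ∀ x x', Measurable fun ω : Environment d => (w x * w x') *
          (mkLaw κ ω x {M | Nt u R 0 n M} * mkLaw κ ω x' {M | Nt u R 0 n M}) := fun x x' =>
        ((measurable_mk_apply κ x (meas_Nt u R n)).mul
          (measurable_mk_apply κ x' (meas_Nt u R n))).const_mul _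
      rw [lintegral_tsum fun x => (Measurable.ennreal_tsum fun x' => hm x x').aemeasurable]
      refine ENNReal.tsum_le_tsum fun x => ?_
      rw [lintegral_tsum fun x' => (hm x x').aemeasurable]
      refine ENNReal.tsum_le_tsum fun x' => ?_
      by_cases hx : lev u x = a
      · by_cases hx' : lev u x' = a
        · have hk : Measurable fun ω : Environment d =>
              mkLaw κ ω x {M | Nt u R 0 n M} * mkLaw κ ω x' {M | Nt u R 0 n M} :=
            (measurable_mk_apply κ x (meas_Nt u R n)).mul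
              (measurable_mk_apply κ x' (meas_Nt u R n))
          rw [if_pos (hx.trans hx'.symm), lintegral_const_mul _ hk,
            ← B6I.PSm_prod κ Q x x' (meas_Nt u R n) (meas_Nt u R n)]
          rfl
        · simp [hw x' hx']
      · simp [hw x hx]
    refine le_trans ?_ h2
    rw [← h1, sq]
    have := ENNReal.lintegral_mul_le_Lp_mul_Lq Q (p := 2) (q := 2)
      (by constructor <;> norm_num) hfm.aemeasurable (aemeasurable_const (b := (1 : ℝ≥0∞)))
    simp only [Pi.mul_apply, mul_one, ENNReal.one_rpow, lintegral_const, measure_univ] at this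
    have h4 : ∫⁻ ω, f ω ∂Q ≤ (∫⁻ ω, f ω ^ (2 : ℝ) ∂Q) ^ ((1 : ℝ) / 2) := this
    have h5 : (∫⁻ ω, f ω ∂Q) * (∫⁻ ω, f ω ∂Q) ≤ ∫⁻ ω, f ω ^ (2 : ℝ) ∂Q := by
      calc (∫⁻ ω, f ω ∂Q) * (∫⁻ ω, f ω ∂Q)
          ≤ (∫⁻ ω, f ω ^ (2 : ℝ) ∂Q) ^ ((1 : ℝ) / 2) * (∫⁻ ω, f ω ^ (2 : ℝ) ∂Q) ^ ((1 : ℝ) / 2) :=
            mul_le_mul' h4 h4
        _ = ∫⁻ ω, f ω ^ (2 : ℝ) ∂Q := by
            rw [← ENNReal.rpow_add_of_nonneg _ _ (by norm_num) (by norm_num)]
            norm_num
    refine h5.trans (le_of_eq (lintegral_congr fun ω => ?_))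
    rw [ENNReal.rpow_two, sq]
  have hsum1 : (∑' x, ∑' x', w x * w x' * (if h : lev u x = lev u x' then
      PIm κ Q x x' (bc u R 0 n ⟨(x, x'), h⟩) else 0)) + ∑' x, ∑' x', w x * w x' * c x x'
      = hn u R κ Q n ^ 2 := by
    rw [← ENNReal.tsum_add]
    have : ∀ x, (∑' x', w x * w x' * (if h : lev u x = lev u x' then
        PIm κ Q x x' (bc u R 0 n ⟨(x, x'), h⟩) else 0)) + ∑' x', w x * w x' * c x x'
        = w x * hn u R κ Q n ^ 2 := by
      intro x
      rw [← ENNReal.tsum_add]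
      have h3 : ∀ x', w x * w x' * (if h : lev u x = lev u x' then
          PIm κ Q x x' (bc u R 0 n ⟨(x, x'), h⟩) else 0) + w x * w x' * c x x'
          = w x * hn u R κ Q n ^ 2 * w x' := by
        intro x'
        by_cases hx : lev u x = a
        · by_cases hx' : lev u x' = a
          · have h := hx.trans hx'.symm
            rw [dif_pos h, ← mul_add, (key x x' h).1]
            ring
          · simp [hw x' hx']
        · simp [hw x hx]
      simp_rw [h3]
      rw [ENNReal.tsum_mul_left, hw1, mul_one]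
    simp_rw [this]
    rw [ENNReal.tsum_mul_right, hw1, one_mul]
  have hsum2 : en u R κ Q a b w + ∑' x, ∑' x', w x * w x' * c x x'
      = ∑' x, ∑' x', w x * w x' * (if lev u x = lev u x' then
      PSm κ Q x x' (both u R n) else 0) := by
    unfold en
    rw [← ENNReal.tsum_add]
    refine tsum_congr fun x => ?_
    rw [← ENNReal.tsum_add]
    refine tsum_congr fun x' => ?_
    by_cases h : lev u x = lev u x'
    · rw [← mul_add, if_pos h, ← (key x x' h).2]
      unfold Kc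
      rw [dif_pos h]
    · unfold Kc
      simp only [hc]
      rw [dif_neg h, dif_neg h, if_neg h]
      simp
  refine (ENNReal.add_le_add_iff_right (ne_top_of_le_ne_top ENNReal.one_ne_top hcle)).1 ?_
  rw [hsum1, hsum2]
  exact hCS

/-- **self contact**: the average over `w × w` of the contacts of two killed climbs -/
theorem self_le (hstat : ∀ z : Site d, MeasurePreserving (shiftEnv z) Q Q)
    (hR : IsFiniteRangeDependent Q R) (s : ℝ≥0∞) {a b : ℕ} (hab : a ≤ b)
    {w : Site d → ℝ≥0∞} (hw1 : ∑' x, w x = 1) (hw : ∀ x, lev u x ≠ a → w x = 0)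
    (T : Set (Site d)) :
    s ^ 2 * ∑' x, ∑' x', w x * w x' * mt u R κ Q s b T T x x' ≤ en u R κ Q a b w := by
  refine le_trans ?_ (avg_bc u R κ Q hstat hR hw1 hw)
  rw [← ENNReal.tsum_mul_left]
  refine ENNReal.tsum_le_tsum fun x => ?_
  rw [← ENNReal.tsum_mul_left]
  refine ENNReal.tsum_le_tsum fun x' => ?_
  by_cases hx : lev u x = a
  · by_cases hx' : lev u x' = a
    · have h := hx.trans hx'.symm
      rw [dif_pos h]
      calc s ^ 2 * (w x * w x' * mt u R κ Q s b T T x x')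
          = w x * w x' * (s ^ 2 * mt u R κ Q s b T T x x') := by ring
        _ ≤ w x * w x' * PIm κ Q x x' (bc u R 0 (b - a) ⟨(x, x'), h⟩) := by
            gcongr
            refine (mt_le u R κ Q s b T T x x').trans (measure_mono ?_)
            have hb := lev_add_sub u hab hx
            rw [hb]
            exact ct2_sub u R h T T
    · simp [hw x' hx']
  · simp [hw x hx]

end nat

end Crest.Agent.R154.KS480
end

-- ▼ part R154/KSHalf_480
section

/-! Row 154, B8, TILE, (KS): the mass half of the K-set bound (helper480), by 402's `K2_le`. -/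

set_option autoImplicit false
set_option linter.unusedSectionVars false
set_option linter.deprecated false

namespace Crest.Agent.R154.KS480

open MeasureTheory ProbabilityTheory Set Filter Crest.ProbabilityR.RandomEnvironment
open Crest.Agent.R154.Ren263 (Det)
open Crest.Agent.R154.Mk561 Crest.Agent.R154.Q561
open Crest.Agent.R154.Flux132 (lev)
open Crest.Agent.R154.RatioR872 Crest.Agent.R154.Tile872
open Crest.Agent.R154.Cont (fWS fHist fHist_eq_iff rdM rdSpace_fWS)
open scoped ENNReal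

variable {d : ℕ}

section half

variable (u : Step d) (R : ℕ) (κ : ℝ) (Q : Measure (Environment d)) [IsProbabilityMeasure Q]
variable (s : ℝ≥0∞) (b : ℤ)

/-- the contact rule -/
noncomputable abbrev rdC : Con (fWS u) R := Con.kapCon (rdSpace_fWS u) R

/-- contact probability of two tests -/
lemma meet_eq {ι : Type} [Fintype ι] [DecidableEq ι] [Nonempty ι] (T : ι → Set (Site d)) (w : ι → Site d → ℝ≥0∞) (l l' : ι)
    (hw' : ∑' x, w l' x = 1) :
    ((Q.bind (smK κ (nu (w l)))).prod (Q.bind (smK κ (nu (w l')))))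
        (KExp.meet (rdC u R) (fun l => tauS u R κ Q s b (T l)) l l')
      = ∑' x, ∑' x', w l x * w l' x' * mt u R κ Q s b (T l) (T l') x x' := by
  rw [prod_bind_smK κ Q hw' (KExp.measurableSet_meet (rdC u R) _
    (fun l => isStop_tauS u R κ Q s b (T l) u) l l')]
  refine tsum_congr fun x => tsum_congr fun x' => ?_
  congr 1
  unfold mt
  congr 1
  ext p
  simp only [mem_setOf_eq]
  rw [mem_meet_kapCon]
  constructor
  · rintro ⟨n, j, h1, h2, h3, h4, h5⟩
    exact ⟨j, n, h2, h1, h4, h3, h5⟩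
  · rintro ⟨j, n, h2, h1, h4, h3, h5⟩
    exact ⟨n, j, h1, h2, h3, h4, h5⟩

/-- contacts with the other tests, from (ROW) -/
lemma other_le {ι : Type} {S T : ι → Set (Site d)} {κx : ℝ≥0∞}
    (hrow : ROW u R κ Q s b S T κx) {w : ι → Site d → ℝ≥0∞} {l : ι} (K : Finset ι)
    (hl : l ∉ K) (hw1 : ∑' x, w l x = 1) (hwS : ∀ x, x ∉ S l → w l x = 0)
    (hK1 : ∀ l' ∈ K, ∑' x, w l' x = 1) (hKS : ∀ l' ∈ K, ∀ x, x ∉ S l' → w l' x = 0) :
    ∑ l' ∈ K, ∑' x, ∑' x', w l x * w l' x' * mt u R κ Q s b (T l) (T l') x x' ≤ κx := by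
  have h1 : ∀ l' ∈ K, ∑' x, ∑' x', w l x * w l' x' * mt u R κ Q s b (T l) (T l') x x'
      ≤ ∑' x, w l x * ⨆ x' ∈ S l', mt u R κ Q s b (T l) (T l') x x' := by
    intro l' hl'
    refine ENNReal.tsum_le_tsum fun x => ?_
    calc ∑' x', w l x * w l' x' * mt u R κ Q s b (T l) (T l') x x'
        ≤ ∑' x', w l x * (⨆ y ∈ S l', mt u R κ Q s b (T l) (T l') x y) * w l' x' := by
          refine ENNReal.tsum_le_tsum fun x' => ?_
          by_cases hx' : x' ∈ S l'
          · calc w l x * w l' x' * mt u R κ Q s b (T l) (T l') x x'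
                ≤ w l x * w l' x' * ⨆ y ∈ S l', mt u R κ Q s b (T l) (T l') x y := by
                  gcongr
                  exact le_iSup₂ (f := fun y (_ : y ∈ S l') => mt u R κ Q s b (T l) (T l') x y)
                    x' hx'
              _ = _ := by ring
          · simp [hKS l' hl' x' hx']
      _ = w l x * ⨆ y ∈ S l', mt u R κ Q s b (T l) (T l') x y := by
          rw [ENNReal.tsum_mul_left, hK1 l' hl', mul_one]
  calc ∑ l' ∈ K, ∑' x, ∑' x', w l x * w l' x' * mt u R κ Q s b (T l) (T l') x x'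
      ≤ ∑ l' ∈ K, ∑' x, w l x * ⨆ x' ∈ S l', mt u R κ Q s b (T l) (T l') x x' :=
        Finset.sum_le_sum h1
    _ = ∑' x, w l x * ∑ l' ∈ K, ⨆ x' ∈ S l', mt u R κ Q s b (T l) (T l') x x' := by
        rw [← Summable.tsum_finsetSum fun _ _ => ENNReal.summable]
        exact tsum_congr fun x => (Finset.mul_sum _ _ _).symm
    _ ≤ ∑' x, w l x * κx := by
        refine ENNReal.tsum_le_tsum fun x => ?_
        by_cases hx : x ∈ S l
        · gcongr
          exact hrow l x hx K hl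
        · simp [hwS x hx]
    _ = κx := by rw [ENNReal.tsum_mul_right, hw1, one_mul]

lemma goodS_mass (T : Set (Site d)) (w : Site d → ℝ≥0∞) (ω : Environment d) :
    smK κ (nu w) ω (goodS u R κ Q s b T) = Fd u R κ Q s b T w ω := by
  rw [smK_nu κ w ω (measurable_goodS u R κ Q s b T)]
  rfl

end half

section main

variable (u : Step d) (R : ℕ) (κ : ℝ) (Q : Measure (Environment d)) [IsProbabilityMeasure Q]

/-- **(KSm)**, explicit form -/
theorem ksm_explicit (hstat : ∀ z : Site d, MeasurePreserving (shiftEnv z) Q Q)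
    (hR : IsFiniteRangeDependent Q R) {g q kt : ℝ≥0∞} (hg0 : g ≠ 0) (hg1 : g ≤ 1) {M : ℕ}
    (hM : (1 - g / 8) ^ M ≤ q) (hkt0 : kt ≠ 0) (hktt : kt ≠ ∞) (hkt : 2 * (M * kt) ≤ (g / 16) ^ 2) :
    KSm u R κ Q g (g / 2) (g / 8) ((g / 2) ^ 2 * (kt / 2)) (kt / 2) q := by
  classical
  intro a b hab ι S T hS hgS hrow w K hw
  have hgt : g ≠ ∞ := ne_top_of_le_ne_top ENNReal.one_ne_top hg1
  set s : ℝ≥0∞ := g / 2 with hs
  have hs0 : s ≠ 0 := (ENNReal.div_pos hg0 (by norm_num)).ne'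
  have hst : s ≠ ∞ := ENNReal.div_ne_top hgt (by norm_num)
  set x : ℝ≥0∞ := g / 16 with hx
  have hx0 : x ≠ 0 := (ENNReal.div_pos hg0 (by norm_num)).ne'
  have e8 : 8 * x = s := by
    rw [hx, hs, div_eq_mul_inv, div_eq_mul_inv, mul_left_comm]
    congr 1
    rw [show (16 : ℝ≥0∞) = 8 * 2 by norm_num, ENNReal.mul_inv (Or.inl (by norm_num))
      (Or.inl (by norm_num)), ← mul_assoc, ENNReal.mul_inv_cancel (by norm_num) (by norm_num),
      one_mul]
  have e2 : 2 * x = g / 8 := by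
    rw [hx, div_eq_mul_inv, div_eq_mul_inv, mul_left_comm]
    congr 1
    rw [show (16 : ℝ≥0∞) = 2 * 8 by norm_num, ENNReal.mul_inv (Or.inl (by norm_num))
      (Or.inl (by norm_num)), ← mul_assoc, ENNReal.mul_inv_cancel (by norm_num) (by norm_num),
      one_mul]
  rcases K.eq_empty_or_nonempty with hK | hK
  · subst hK
    simp
  have hne : Nonempty {l // l ∈ K} := ⟨⟨hK.choose, hK.choose_spec⟩⟩
  have hpr : ∀ l : {l // l ∈ K}, IsProbabilityMeasure (nu (w l)) := fun l => nu_prob (hw l l.2).1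
  have hker : ∀ l : {l // l ∈ K}, IsMarkovKernel (smK (d := d) κ (nu (w l))) := fun l => by
    have := hpr l
    infer_instance
  have hwa : ∀ l ∈ K, ∀ y, lev u y ≠ a → w l y = 0 := fun l hl y hy =>
    (hw l hl).2.1 y fun h => hy (hS l y h)
  have key := KExp.K2_le (rdC u R) Q (fun l : {l // l ∈ K} => smK κ (nu (w l)))
    (fun l => tauS u R κ Q s b (T l)) (indepAt_of_finiteRange hR)
    (fun l => isStop_tauS u R κ Q s b (T l) u) (fun l => goodS u R κ Q s b (T l))
    (fun l => detBy_goodS u R κ Q s b (T l) u) (fun l => measurable_goodS u R κ Q s b (T l))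
    (fun l X hX => goodS_tau u R κ Q s b (T l) hX)
    (fun l => readsOnly_smKf u Q κ (nu (w l))) (x := x) (κ := kt) hx0
    (by rw [e8]; exact (ENNReal.half_le_self).trans hg1) ?_ hkt0 hktt ?_ ∅ ?_
    (M * K.card) ?_ (Φ := fun _ => 1) measurable_const
  · -- conclusion
    simp only [lintegral_const, measure_univ, mul_one, one_mul] at key
    rw [Measure.restrict_apply_univ] at key
    refine le_trans (measure_mono ?_) (key.trans ?_)
    · intro ω hω l
      have := hω l l.2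
      rw [goodS_mass u R κ Q s b (T l) (w l) ω, e2]
      exact this.le
    · rw [e2, pow_mul]
      gcongr
  · -- success
    intro l
    rw [bind_smK κ Q (w l) (measurable_goodS u R κ Q s b (T l)), e8]
    calc s = ∑' y, w l y * s := by rw [ENNReal.tsum_mul_right, (hw l l.2).1, one_mul]
      _ ≤ _ := ENNReal.tsum_le_tsum fun y => by
          by_cases hy : y ∈ S l
          · gcongr
            have h1 := (hgS l y hy).trans (succ_le_good u R κ Q s b (T l) y)
            have h2 : s + s ≤ mkAnn κ Q y (good u R κ Q s b (T l) y) + s := by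
              rw [hs, ENNReal.add_halves]
              exact h1
            exact (ENNReal.add_le_add_iff_right hst).1 h2
          · simp [(hw l l.2).2.1 y hy]
  · -- contacts
    intro l
    have e : ∀ l' : {l // l ∈ K}, ((Q.bind (smK κ (nu (w l)))).prod (Q.bind (smK κ (nu (w l')))))
        (KExp.meet (rdC u R) (fun l : {l // l ∈ K} => tauS u R κ Q s b (T l)) l l')
        = ∑' x, ∑' x', w l x * w l' x' * mt u R κ Q s b (T l) (T l') x x' := fun l' =>
      meet_eq u R κ Q s b (fun l : {l // l ∈ K} => T l) (fun l : {l // l ∈ K} => w l) l l'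
        (hw l' l'.2).1
    rw [Finset.sum_congr rfl fun l' _ => e l', ← Finset.add_sum_erase _ _ (Finset.mem_univ l)]
    have hself : ∑' x, ∑' x', w l x * w l x' * mt u R κ Q s b (T l) (T l) x x' ≤ kt / 2 := by
      have h1 := (self_le u R κ Q hstat hR s hab (hw l l.2).1 (hwa l l.2) (T l)).trans
        (hw l l.2).2.2
      exact (ENNReal.mul_le_mul_iff_right (pow_ne_zero 2 hs0) (ENNReal.pow_ne_top hst)).1 h1
    have hoth : ∑ l' ∈ (Finset.univ : Finset {l // l ∈ K}).erase l,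
        ∑' x, ∑' x', w l x * w l' x' * mt u R κ Q s b (T l) (T l') x x' ≤ kt / 2 := by
      have h1 := other_le u R κ Q s b hrow (w := w) (l := (l : ι))
        (((Finset.univ : Finset {l // l ∈ K}).erase l).map (Function.Embedding.subtype _))
        (by simp) (hw l l.2).1 (hw l l.2).2.1
        (fun l' hl' => by
          obtain ⟨y, _, rfl⟩ := Finset.mem_map.1 hl'
          exact (hw y y.2).1)
        (fun l' hl' => by
          obtain ⟨y, _, rfl⟩ := Finset.mem_map.1 hl'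
          exact (hw y y.2).2.1)
      rw [Finset.sum_map] at h1
      exact h1
    calc _ ≤ kt / 2 + kt / 2 := add_le_add hself hoth
      _ = kt := ENNReal.add_halves kt
  · -- no load at the start
    simp only [KExp.cc_empty, Finset.sum_const_zero, mul_zero]
    exact zero_le
  · rw [Fintype.card_coe]
    push_cast
    calc 2 * ((M : ℝ≥0∞) * (K.card : ℝ≥0∞) * kt) = 2 * (M * kt) * K.card := by ring
      _ ≤ (g / 16) ^ 2 * K.card := by gcongr
      _ = x ^ 2 * K.card := by rw [hx]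

/-- **(KSm)**, the mass half of (KS): `s = g/2`, `γ = g/8` -/
theorem ksm (hstat : ∀ z : Site d, MeasurePreserving (shiftEnv z) Q Q)
    (hR : IsFiniteRangeDependent Q R) {g q : ℝ≥0∞} (hg0 : g ≠ 0) (hg1 : g ≤ 1) (hq0 : q ≠ 0) :
    ∃ κ₁ κx : ℝ≥0∞, κ₁ ≠ 0 ∧ κ₁ ≤ 1 ∧ κx ≠ 0 ∧ κx ≤ 1 ∧ KSm u R κ Q g (g / 2) (g / 8) κ₁ κx q := by
  have hgt : g ≠ ∞ := ne_top_of_le_ne_top ENNReal.one_ne_top hg1
  have h1 : 1 - g / 8 < 1 := by
    refine ENNReal.sub_lt_self ENNReal.one_ne_top one_ne_zero ?_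
    exact (ENNReal.div_pos hg0 (by norm_num)).ne'
  obtain ⟨M, hM⟩ : ∃ M : ℕ, (1 - g / 8) ^ M < q :=
    ((ENNReal.tendsto_pow_atTop_nhds_zero_of_lt_one h1).eventually_lt_const
      (pos_iff_ne_zero.2 hq0)).exists
  set kt : ℝ≥0∞ := (g / 16) ^ 2 / (2 * (M + 1)) with hkt
  have hg16 : g / 16 ≠ 0 := (ENNReal.div_pos hg0 (by norm_num)).ne'
  have hg16' : g / 16 ≤ 1 := ENNReal.div_le_of_le_mul (hg1.trans (by norm_num))
  have hM1 : (2 * ((M : ℝ≥0∞) + 1)) ≠ 0 := by positivity
  have hM2 : (2 * ((M : ℝ≥0∞) + 1)) ≠ ∞ :=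
    ENNReal.mul_ne_top (by norm_num) (ENNReal.add_ne_top.2 ⟨ENNReal.natCast_ne_top M, by simp⟩)
  have hkt0 : kt ≠ 0 := (ENNReal.div_pos (pow_ne_zero 2 hg16) hM2).ne'
  have hkt1 : kt ≤ 1 := by
    refine ENNReal.div_le_of_le_mul ?_
    rw [one_mul]
    calc (g / 16) ^ 2 ≤ 1 := pow_le_one' hg16' 2
      _ ≤ 2 * ((M : ℝ≥0∞) + 1) := by
          calc (1 : ℝ≥0∞) = 1 * 1 := by simp
            _ ≤ 2 * ((M : ℝ≥0∞) + 1) := by
                gcongr
                · norm_num
                · exact le_add_self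
  have hktt : kt ≠ ∞ := ne_top_of_le_ne_top ENNReal.one_ne_top hkt1
  have hkt2 : 2 * (M * kt) ≤ (g / 16) ^ 2 := by
    calc 2 * ((M : ℝ≥0∞) * kt) ≤ 2 * ((M + 1) * kt) := by gcongr; exact le_self_add
      _ = (2 * ((M : ℝ≥0∞) + 1)) * kt := by ring
      _ = (g / 16) ^ 2 := by rw [hkt, ENNReal.mul_div_cancel hM1 hM2]
  have hk2 : kt / 2 ≠ 0 := (ENNReal.div_pos hkt0 (by norm_num)).ne'
  have hk21 : kt / 2 ≤ 1 := ENNReal.half_le_self.trans hkt1
  have hg2 : g / 2 ≠ 0 := (ENNReal.div_pos hg0 (by norm_num)).ne'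
  have hg21 : g / 2 ≤ 1 := ENNReal.half_le_self.trans hg1
  refine ⟨(g / 2) ^ 2 * (kt / 2), kt / 2, mul_ne_zero (pow_ne_zero 2 hg2) hk2, ?_, hk2, hk21,
    ksm_explicit u R κ Q hstat hR hg0 hg1 hM.le hkt0 hktt hkt2⟩
  calc (g / 2) ^ 2 * (kt / 2) ≤ 1 * 1 := by
        gcongr
        exact pow_le_one' hg21 2
    _ = 1 := by simp

lemma ROW.mono' {s : ℝ≥0∞} {b : ℤ} {ι : Type} {S T : ι → Set (Site d)} {κx κx' : ℝ≥0∞}
    (h : κx ≤ κx') (hr : ROW u R κ Q s b S T κx) : ROW u R κ Q s b S T κx' :=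
  fun l x hx K hl => (hr l x hx K hl).trans h

lemma Cls_mono {S : Set (Site d)} {a b : ℕ} {κ₁ κ₁' : ℝ≥0∞} (h : κ₁ ≤ κ₁') :
    Cls u R κ Q S a b κ₁ ⊆ Cls u R κ Q S a b κ₁' := fun _ hw => ⟨hw.1, hw.2.1, hw.2.2.trans h⟩

lemma KSm.mono {g s γ κ₁ κ₁' κx κx' q : ℝ≥0∞} (h1 : κ₁ ≤ κ₁') (hx : κx ≤ κx')
    (h : KSm u R κ Q g s γ κ₁' κx' q) : KSm u R κ Q g s γ κ₁ κx q := by
  intro a b hab ι S T hS hg hrow w K hw
  exact h a b hab ι S T hS hg (ROW.mono' u R κ Q hx hrow) w K fun l hl =>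
    Cls_mono u R κ Q h1 (hw l hl)

end main

end Crest.Agent.R154.KS480
end

-- ▼ part R154/KSAll_480
section

/-! Row 154, B8, TILE: (KS) with `s = g/2`, `γ = g/8` (independent of the rate `q`), from the energy
half (helper480, helper333, helper402). -/

set_option autoImplicit false
set_option linter.unusedSectionVars false

namespace Crest.Agent.R154.KS480

open MeasureTheory ProbabilityTheory Set Crest.ProbabilityR.RandomEnvironment
open Crest.Agent.R154.Tile872
open scoped ENNReal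

variable {d : ℕ} (u : Step d) (R : ℕ) (κ : ℝ) (Q : Measure (Environment d))
  [IsProbabilityMeasure Q]

/-- the energy half -/
def HalfE : Prop :=
  ∀ s γ κ₁ q : ℝ≥0∞, s ≠ 0 → s ≤ 1 → γ ≠ 0 → γ ≤ 1 → κ₁ ≠ 0 → κ₁ ≤ 1 → q ≠ 0 → q ≤ 1 →
    ∃ κx ε : ℝ≥0∞, κx ≠ 0 ∧ ε ≠ 0 ∧ KSe u R κ Q s γ κ₁ κx ε q

/-- **(KS)** for every rate `q`, killing level and mass threshold depend on `g` only -/
theorem ksf_all (hstat : ∀ z : Site d, MeasurePreserving (shiftEnv z) Q Q)
    (hR : IsFiniteRangeDependent Q R) (hB : HalfE u R κ Q) {g q : ℝ≥0∞} (hg0 : g ≠ 0)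
    (hg1 : g ≤ 1) (hq : q ≠ 0) :
    ∃ κ₁ κx ε : ℝ≥0∞, κ₁ ≠ 0 ∧ κ₁ ≤ 1 ∧ κx ≠ 0 ∧ κx ≤ 1 ∧ ε ≠ 0 ∧
      KSf u R κ Q g (g / 2) (g / 8) κ₁ κx ε q := by
  have hs0 : g / 2 ≠ 0 := (ENNReal.div_pos hg0 (by norm_num)).ne'
  have hs1 : g / 2 ≤ 1 := ENNReal.half_le_self.trans hg1
  have hγ0 : g / 8 ≠ 0 := (ENNReal.div_pos hg0 (by norm_num)).ne'
  have hγ1 : g / 8 ≤ 1 := ENNReal.div_le_of_le_mul (hg1.trans (by norm_num))
  set r : ℝ≥0∞ := min q 1 / 4 with hrdef
  have hm0 : min q 1 ≠ 0 := (lt_min (pos_iff_ne_zero.2 hq) one_pos).ne'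
  have hr0 : r ≠ 0 := (ENNReal.div_pos hm0 (by norm_num)).ne'
  have hr4 : 4 * r = min q 1 := ENNReal.mul_div_cancel (by norm_num) (by norm_num)
  have hr1 : r ≤ 1 := by
    refine le_trans ?_ (min_le_right q 1)
    rw [← hr4]
    calc r = 1 * r := (one_mul r).symm
      _ ≤ 4 * r := by gcongr; norm_num
  have hr40 : r ^ 4 ≠ 0 := pow_ne_zero 4 hr0
  have hr41 : r ^ 4 ≤ 1 := pow_le_one' hr1 4
  obtain ⟨κ₁, κx, hκ0, hκ1, hx0, hx1, hm⟩ := ksm u R κ Q hstat hR hg0 hg1 hr40
  obtain ⟨κx', ε, hx0', hε0, he⟩ := hB (g / 2) (g / 8) κ₁ (r ^ 4) hs0 hs1 hγ0 hγ1 hκ0 hκ1 hr40 hr41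
  refine ⟨κ₁, min κx κx', ε, hκ0, hκ1, ?_, (min_le_left _ _).trans hx1, hε0, ?_⟩
  · exact (lt_min (pos_iff_ne_zero.2 hx0) (pos_iff_ne_zero.2 hx0')).ne'
  have hm' : KSm u R κ Q g (g / 2) (g / 8) κ₁ (min κx κx') (r ^ 4) :=
    KSm.mono u R κ Q le_rfl (min_le_left _ _) hm
  have he' : KSe u R κ Q (g / 2) (g / 8) κ₁ (min κx κx') ε (r ^ 4) :=
    fun a b c hab hbc ι S T hS hrow => he a b c hab hbc ι S T hS
      (ROW.mono' u R κ Q (min_le_right _ _) hrow)
  have hf := KSf_of u R κ Q hr1 hm' he'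
  rw [hr4] at hf
  intro a b c hab hbc ι S T T' hS hg hg' hrow hrow' hE w K hw
  refine (hf a b c hab hbc ι S T T' hS hg hg' hrow hrow' hE w K hw).trans ?_
  gcongr
  exact min_le_left _ _

end Crest.Agent.R154.KS480
end

-- ▼ part R154/KSe_402

/-! Row 154, B8, TILE, (KS): the energy half of the K-set bound (helper402), by the K-set bound for
pair tests `PairK3.main`. -/

set_option autoImplicit false
set_option linter.unusedSectionVars false
set_option linter.unusedVariables false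

namespace Crest.Agent.R154.KS480

open MeasureTheory ProbabilityTheory Set Filter Crest.ProbabilityR.RandomEnvironment
open Crest.Agent.R154.Ren263 (Det)
open Crest.Agent.R154.Mk561 Crest.Agent.R154.Q561
open Crest.Agent.R154.Flux132 (lev)
open Crest.Agent.R154.RatioR872 Crest.Agent.R154.Tile872
open Crest.Agent.R154.Cont (fWS fHist fHist_eq_iff rdM rdSpace_fWS)
open scoped ENNReal

variable {d : ℕ}

section pay

variable (u : Step d) (R : ℕ) (κ : ℝ) (Q : Measure (Environment d)) [IsProbabilityMeasure Q]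
  (s : ℝ≥0∞)

lemma Kc_le_one (a b : ℕ) (x x' : Site d) : Kc u R κ Q a b x x' ≤ 1 := by
  classical
  unfold Kc
  split_ifs
  · exact prob_le_one
  · exact zero_le

/-- killed climbs with exit site `z` (paths with start) -/
def exS (b : ℤ) (T : Set (Site d)) (z : Site d) : Set (SMPath d) :=
  {X | X.2 ∈ goodZ u R κ Q s b T X.1 z}

lemma measurable_exS (b : ℤ) (T : Set (Site d)) (z : Site d) :
    MeasurableSet (exS u R κ Q s b T z) := by
  have : exS u R κ Q s b T z
      = ⋃ x : Site d, ({x} ×ˢ goodZ u R κ Q s b T x z : Set (SMPath d)) := by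
    ext X
    simp only [exS, mem_setOf_eq, mem_iUnion, mem_prod, mem_singleton_iff]
    constructor
    · intro h; exact ⟨X.1, rfl, h⟩
    · rintro ⟨x, hx, h⟩; rw [hx]; exact h
  rw [this]
  exact MeasurableSet.iUnion fun x =>
    (measurableSet_singleton x).prod (meas_goodZ u R κ Q s b T x z)

lemma exS_spec {b : ℤ} {T : Set (Site d)} {z : Site d} {X : SMPath d} {m : ℕ}
    (h : tauS u R κ Q s b T X = m) :
    X ∈ exS u R κ Q s b T z ↔ X.2 ∈ goodM u R κ Q s b T X.1 m ∧ pos X.1 X.2 m = z := by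
  constructor
  · intro hX
    obtain ⟨m', hm', hz⟩ := mem_iUnion.1 hX
    have h1 := tau_of_goodM u R κ Q s b T hm'
    unfold tauS at h
    rw [h1] at h
    have : m' = m := by exact_mod_cast h
    subst this
    exact ⟨hm', hz⟩
  · rintro ⟨h1, h2⟩
    exact mem_iUnion.2 ⟨m, h1, h2⟩

lemma exS_tau {b : ℤ} {T : Set (Site d)} {z : Site d} {X : SMPath d}
    (h : X ∈ exS u R κ Q s b T z) : ∃ m : ℕ, tauS u R κ Q s b T X = m := by
  obtain ⟨m', hm', hz⟩ := mem_iUnion.1 h
  exact ⟨m', tau_of_goodM u R κ Q s b T hm'⟩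

lemma exS_det (u₀ : Step d) {b : ℤ} {T : Set (Site d)} {z : Site d} {X Y : SMPath d} {m : ℕ}
    (hm : tauS u R κ Q s b T X = m) (h : (fWS u₀).hist m X = (fWS u₀).hist m Y) :
    X ∈ exS u R κ Q s b T z ↔ Y ∈ exS u R κ Q s b T z := by
  have hY := isStop_tauS u R κ Q s b T u₀ X Y m h hm
  rw [exS_spec u R κ Q s hm, exS_spec u R κ Q s hY]
  have h' : fHist m X = fHist m Y := h
  rw [fHist_eq_iff] at h'
  obtain ⟨h1, h2, h3⟩ := h'
  rw [det_goodM' u R κ Q s b T X.1 m X.2 Y.2 h2, pos_congr X.1 h2 le_rfl, h1]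

/-- exit indicator -/
noncomputable def eS (b : ℤ) (T : Set (Site d)) (z : Site d) (X : SMPath d) : ℝ≥0∞ :=
  (exS u R κ Q s b T z).indicator 1 X

lemma measurable_eS (b : ℤ) (T : Set (Site d)) (z : Site d) :
    Measurable (eS u R κ Q s b T z) :=
  measurable_one.indicator (measurable_exS u R κ Q s b T z)

lemma tsum_eS_le (b : ℤ) (T : Set (Site d)) (X : SMPath d) :
    ∑' z, eS u R κ Q s b T z X ≤ 1 := by
  classical
  by_cases h : ∃ z, X ∈ exS u R κ Q s b T z
  · obtain ⟨z, hz⟩ := h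
    obtain ⟨m, hm⟩ := exS_tau u R κ Q s hz
    rw [tsum_eq_single z]
    · exact indicator_le_self' (fun _ _ => zero_le) _
    · intro z' hz'
      unfold eS
      refine indicator_of_notMem (fun hcon => hz' ?_) _
      rw [exS_spec u R κ Q s hm] at hz hcon
      exact hcon.2.symm.trans hz.2
  · push Not at h
    have : ∀ z, eS u R κ Q s b T z X = 0 := fun z => indicator_of_notMem (h z) _
    simp [this]

/-- payoff of a pair of killed climbs: pair energy of the exit sites -/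
noncomputable def pay (b c : ℕ) (T : Set (Site d)) (X Y : SMPath d) : ℝ≥0∞ :=
  ∑' z, ∑' z', eS u R κ Q s b T z X * (eS u R κ Q s b T z' Y * Kc u R κ Q b c z z')

lemma measurable_pay (b c : ℕ) (T : Set (Site d)) :
    Measurable (Function.uncurry (pay u R κ Q s b c T)) := by
  have : Function.uncurry (pay u R κ Q s b c T) = fun p : SMPath d × SMPath d =>
      ∑' z, ∑' z', eS u R κ Q s b T z p.1 * (eS u R κ Q s b T z' p.2 * Kc u R κ Q b c z z') := rfl
  rw [this]
  exact Measurable.ennreal_tsum fun z => Measurable.ennreal_tsum fun z' =>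
    ((measurable_eS u R κ Q s b T z).comp measurable_fst).mul
      (((measurable_eS u R κ Q s b T z').comp measurable_snd).mul_const _)

lemma pay_le_one (b c : ℕ) (T : Set (Site d)) (X Y : SMPath d) :
    pay u R κ Q s b c T X Y ≤ 1 := by
  unfold pay
  calc ∑' z, ∑' z', eS u R κ Q s b T z X * (eS u R κ Q s b T z' Y * Kc u R κ Q b c z z')
      ≤ ∑' z, ∑' z', eS u R κ Q s b T z X * (eS u R κ Q s b T z' Y * 1) := by
        refine ENNReal.tsum_le_tsum fun z => ENNReal.tsum_le_tsum fun z' => ?_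
        gcongr
        exact Kc_le_one u R κ Q b c z z'
    _ = (∑' z, eS u R κ Q s b T z X) * ∑' z', eS u R κ Q s b T z' Y := by
        simp only [mul_one]
        rw [← ENNReal.tsum_mul_right]
        exact tsum_congr fun z => ENNReal.tsum_mul_left
    _ ≤ 1 * 1 := mul_le_mul' (tsum_eS_le u R κ Q s b T X) (tsum_eS_le u R κ Q s b T Y)
    _ = 1 := one_mul 1

lemma pay_top (b c : ℕ) (T : Set (Site d)) (X Y : SMPath d)
    (h : tauS u R κ Q s b T X = ⊤ ∨ tauS u R κ Q s b T Y = ⊤) :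
    pay u R κ Q s b c T X Y = 0 := by
  have key : ∀ (Z : SMPath d), tauS u R κ Q s b T Z = ⊤ → ∀ z, eS u R κ Q s b T z Z = 0 := by
    intro Z hZ z
    refine indicator_of_notMem (fun hcon => ?_) _
    obtain ⟨m, hm⟩ := exS_tau u R κ Q s hcon
    rw [hm] at hZ
    exact ENat.natCast_ne_top m hZ
  unfold pay
  rcases h with h | h
  · simp [key X h]
  · simp [key Y h]

lemma pay_det (u₀ : Step d) (b c : ℕ) (T : Set (Site d)) (X X' Y Y' : SMPath d) (m n : ℕ)
    (hm : tauS u R κ Q s b T X = m) (hn : tauS u R κ Q s b T Y = n)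
    (h1 : (fWS u₀).hist m X = (fWS u₀).hist m X') (h2 : (fWS u₀).hist n Y = (fWS u₀).hist n Y') :
    pay u R κ Q s b c T X Y = pay u R κ Q s b c T X' Y' := by
  classical
  unfold pay
  refine tsum_congr fun z => tsum_congr fun z' => ?_
  have e1 : eS u R κ Q s b T z X = eS u R κ Q s b T z X' := by
    unfold eS
    simp only [indicator_apply, exS_det u R κ Q s u₀ hm h1, Pi.one_apply]
  have e2 : eS u R κ Q s b T z' Y = eS u R κ Q s b T z' Y' := by
    unfold eS
    simp only [indicator_apply, exS_det u R κ Q s u₀ hn h2, Pi.one_apply]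
  rw [e1, e2]

lemma exS_mass (b : ℤ) (T : Set (Site d)) (z : Site d) (w : Site d → ℝ≥0∞) (ω : Environment d) :
    smK κ (nu w) ω (exS u R κ Q s b T z) = outd u R κ Q s b T w ω z := by
  rw [smK_nu κ w ω (measurable_exS u R κ Q s b T z)]
  rfl

/-- the quenched mean payoff is the energy of the killed exit weight -/
lemma lintegral_pay (b c : ℕ) (T : Set (Site d)) (w : Site d → ℝ≥0∞) (ω : Environment d) :
    ∫⁻ X, ∫⁻ Y, pay u R κ Q s b c T X Y ∂(smK κ (nu w) ω) ∂(smK κ (nu w) ω)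
      = en u R κ Q b c (outd u R κ Q s b T w ω) := by
  have hm := fun z => measurable_eS u R κ Q s (b : ℤ) T z
  have hi : ∀ z, ∫⁻ X, eS u R κ Q s b T z X ∂(smK κ (nu w) ω) = outd u R κ Q s b T w ω z := by
    intro z
    unfold eS
    rw [lintegral_indicator_one (measurable_exS u R κ Q s b T z)]
    exact exS_mass u R κ Q s b T z w ω
  have h1 : ∀ X, ∫⁻ Y, pay u R κ Q s b c T X Y ∂(smK κ (nu w) ω)
      = ∑' z, ∑' z', eS u R κ Q s b T z X * (outd u R κ Q s b T w ω z' * Kc u R κ Q b c z z') := by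
    intro X
    unfold pay
    rw [lintegral_tsum fun z => (Measurable.ennreal_tsum fun z' =>
      ((hm z').mul_const _).const_mul _).aemeasurable]
    refine tsum_congr fun z => ?_
    rw [lintegral_tsum fun z' => (((hm z').mul_const _).const_mul _).aemeasurable]
    refine tsum_congr fun z' => ?_
    rw [lintegral_const_mul _ ((hm z').mul_const _), lintegral_mul_const _ (hm z'), hi z']
  simp only [h1]
  rw [lintegral_tsum fun z => (Measurable.ennreal_tsum fun z' => (hm z).mul_const _).aemeasurable]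
  unfold en
  refine tsum_congr fun z => ?_
  rw [lintegral_tsum fun z' => ((hm z).mul_const _).aemeasurable]
  refine tsum_congr fun z' => ?_
  rw [lintegral_mul_const _ (hm z), hi z]
  ring

lemma en_mono' {a b : ℕ} {w w' : Site d → ℝ≥0∞} (h : ∀ z, w z ≤ w' z) :
    en u R κ Q a b w ≤ en u R κ Q a b w' := by
  unfold en
  refine ENNReal.tsum_le_tsum fun z => ENNReal.tsum_le_tsum fun z' => ?_
  gcongr
  · exact h z
  · exact h z'

end pay

section main

variable (u : Step d) (R : ℕ) (κ : ℝ) (Q : Measure (Environment d)) [IsProbabilityMeasure Q]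

/-- **(KSe)**, explicit form: `e = κ₁ γ²`, `(ε + η + 4 κx / (η / 2)) ≤ e q²`. -/
theorem kse_explicit (hR : IsFiniteRangeDependent Q R) {s γ κ₁ κx ε η q : ℝ≥0∞}
    (he0 : κ₁ * γ ^ 2 ≠ 0) (het : κ₁ * γ ^ 2 ≠ ∞) (hq1 : q ≤ 1) (hη0 : η ≠ 0) (hηt : η ≠ ∞)
    (hεt : ε ≠ ∞) (hxt : κx ≠ ∞) (hsum : ε + η + 4 * κx / (η / 2) ≤ κ₁ * γ ^ 2 * q ^ 2) :
    KSe u R κ Q s γ κ₁ κx ε q := by
  classical
  intro a b c hab hbc ι S T hS hrow hE w K hw
  rcases K.eq_empty_or_nonempty with hK | hK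
  · subst hK
    simp
  have hne : Nonempty {l // l ∈ K} := ⟨⟨hK.choose, hK.choose_spec⟩⟩
  let _ : MeasurableSpace {l // l ∈ K} := ⊤
  have hms : MeasurableSingletonClass {l // l ∈ K} := ⟨fun _ => trivial⟩
  have hpr : ∀ l : {l // l ∈ K}, IsProbabilityMeasure (nu (w l)) := fun l => nu_prob (hw l l.2).1
  have hker : ∀ l : {l // l ∈ K}, IsMarkovKernel (smK (d := d) κ (nu (w l))) := fun l => by
    have := hpr l
    infer_instance
  have hwa : ∀ l ∈ K, ∀ y, lev u y ≠ a → w l y = 0 := fun l hl y hy =>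
    (hw l hl).2.1 y fun h => hy (hS l y h)
  have hneΩ : Nonempty (SMPath d) := ⟨(0, fun _ => (u, true))⟩
  have key := PairK3.main (W := fWS u) (rd := rdM (d := d))
    (τ := fun l : {l // l ∈ K} => tauS u R κ Q s b (T l))
    (law := fun l : {l // l ∈ K} => smK κ (nu (w l))) Q (rdSpace_fWS u)
    (indepAt_of_finiteRange hR)
    (fun l => isStop_tauS u R κ Q s b (T l) u) (fun l => readsOnly_smKf u Q κ (nu (w l)))
    (v := fun l => pay u R κ Q s b c (T l))
    { meas := fun l => measurable_pay u R κ Q s b c (T l)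
      le_one := fun l X Y => pay_le_one u R κ Q s b c (T l) X Y
      top := fun l X Y h => pay_top u R κ Q s b c (T l) X Y h
      det := fun l X X' Y Y' m n hm hn h1 h2 =>
        pay_det u R κ Q s u b c (T l) X X' Y Y' m n hm hn h1 h2 }
    (δ := ε) (η := η) (κ := κx) (ε := κ₁ * γ ^ 2) hεt hη0 hηt hxt
    (fun l => by
      simp only [lintegral_pay]
      calc ∫⁻ ω, en u R κ Q b c (outd u R κ Q s b (T l) (w l) ω) ∂Q
          ≤ ∫⁻ ω, en u R κ Q b c (outm u R κ univ b (T l) (w l) ω) ∂Q :=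
            lintegral_mono fun ω => en_mono' u R κ Q fun z => outd_le u R κ Q s b (T l) (w l) ω z
        _ ≤ ε := en_outm u R κ Q univ hE (T l) (hwa l l.2) (hw l l.2).1.le)
    (fun l => by
      have h1 : ∀ l' : {l // l ∈ K}, ((Q.bind (smK κ (nu (w l)))).prod
          (Q.bind (smK κ (nu (w l'))))) (KExp.meet (Con.kapCon (rdSpace_fWS u) R)
            (fun l : {l // l ∈ K} => tauS u R κ Q s b (T l)) l l')
          = ∑' x, ∑' x', w l x * w l' x' * mt u R κ Q s b (T l) (T l') x x' := fun l' =>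
        meet_eq u R κ Q s b (fun l : {l // l ∈ K} => T l) (fun l => w l) l l' (hw l' l'.2).1
      simp only [h1]
      have h2 : ∑ l' ∈ (Finset.univ : Finset {l // l ∈ K}).erase l,
          ∑' x, ∑' x', w l x * w l' x' * mt u R κ Q s b (T l) (T l') x x'
          = ∑ l' ∈ K.erase l, ∑' x, ∑' x', w l x * w l' x' * mt u R κ Q s b (T l) (T l') x x' := by
        refine Finset.sum_bij (fun l' _ => l'.1) ?_ ?_ ?_ ?_
        · intro l' hl'
          rw [Finset.mem_erase] at hl' ⊢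
          exact ⟨fun h => hl'.1 (Subtype.ext h), l'.2⟩
        · intro a1 _ a2 _ h
          exact Subtype.ext h
        · intro l' hl'
          rw [Finset.mem_erase] at hl'
          exact ⟨⟨l', hl'.2⟩, Finset.mem_erase.2 ⟨fun h => hl'.1 (congrArg Subtype.val h),
            Finset.mem_univ _⟩, rfl⟩
        · intro l' _
          rfl
      rw [h2]
      exact other_le u R κ Q s b hrow (K.erase l) (Finset.notMem_erase _ _) (hw l l.2).1
        (hw l l.2).2.1 (fun l' hl' => (hw l' (Finset.mem_of_mem_erase hl')).1)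
        (fun l' hl' => (hw l' (Finset.mem_of_mem_erase hl')).2.1))
  simp only [lintegral_pay, Fintype.card_coe] at key
  set m := (K.card + 1) / 2 with hm
  have hm2 : K.card ≤ 2 * m := by omega
  have hsub : {ω | ∀ l ∈ K, κ₁ * γ ^ 2 < en u R κ Q b c (outd u R κ Q s b (T l) (w l) ω)}
      ⊆ {ω | ∀ l : {l // l ∈ K}, κ₁ * γ ^ 2 ≤ en u R κ Q b c
        (outd u R κ Q s b (T l) (w l) ω)} := fun ω h l => (h l l.2).le
  refine (measure_mono hsub).trans ?_
  have h3 : (κ₁ * γ ^ 2) ^ m * Q {ω | ∀ l : {l // l ∈ K}, κ₁ * γ ^ 2 ≤ en u R κ Q b c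
      (outd u R κ Q s b (T l) (w l) ω)} ≤ (κ₁ * γ ^ 2) ^ m * (q ^ 2) ^ m := by
    refine key.trans ?_
    rw [← mul_pow]
    gcongr
  have h4 := (ENNReal.mul_le_mul_iff_right (pow_ne_zero m he0) (ENNReal.pow_ne_top het)).1 h3
  refine h4.trans ?_
  rw [← pow_mul]
  exact pow_le_pow_right_of_le_one' hq1 hm2

/-- **(KSe)**, the energy half. -/
theorem halfE (hR : IsFiniteRangeDependent Q R) : HalfE u R κ Q := by
  intro s γ κ₁ q hs0 hs1 hγ0 hγ1 hκ0 hκ1 hq0 hq1
  set e : ℝ≥0∞ := κ₁ * γ ^ 2 * q ^ 2 with he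
  have he0' : κ₁ * γ ^ 2 ≠ 0 := mul_ne_zero hκ0 (pow_ne_zero 2 hγ0)
  have hκt : κ₁ ≠ ∞ := ne_top_of_le_ne_top ENNReal.one_ne_top hκ1
  have hγt : γ ≠ ∞ := ne_top_of_le_ne_top ENNReal.one_ne_top hγ1
  have hqt : q ≠ ∞ := ne_top_of_le_ne_top ENNReal.one_ne_top hq1
  have het' : κ₁ * γ ^ 2 ≠ ∞ := ENNReal.mul_ne_top hκt (ENNReal.pow_ne_top hγt)
  have he0 : e ≠ 0 := mul_ne_zero he0' (pow_ne_zero 2 hq0)
  have het : e ≠ ∞ := ENNReal.mul_ne_top het' (ENNReal.pow_ne_top hqt)
  have h4 : e / 4 ≠ 0 := (ENNReal.div_pos he0 (by norm_num)).ne'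
  have h4t : e / 4 ≠ ∞ := ENNReal.div_ne_top het (by norm_num)
  have h8 : e / 4 / 2 ≠ 0 := (ENNReal.div_pos h4 (by norm_num)).ne'
  have h8t : e / 4 / 2 ≠ ∞ := ENNReal.div_ne_top h4t (by norm_num)
  set κx : ℝ≥0∞ := (e / 4) * (e / 4 / 2) / 4 with hx
  have hx0 : κx ≠ 0 := (ENNReal.div_pos (mul_ne_zero h4 h8) (by norm_num)).ne'
  have hxt : κx ≠ ∞ := ENNReal.div_ne_top (ENNReal.mul_ne_top h4t h8t) (by norm_num)
  refine ⟨κx, e / 4, hx0, h4, ?_⟩
  refine kse_explicit u R κ Q hR (η := e / 4) he0' het' hq1 h4 h4t h4t hxt ?_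
  have e1 : 4 * κx = (e / 4) * (e / 4 / 2) := by
    rw [hx]; exact ENNReal.mul_div_cancel (by norm_num) (by norm_num)
  have e2 : 4 * κx / (e / 4 / 2) = e / 4 := by
    rw [e1, ENNReal.mul_div_cancel_right h8 h8t]
  rw [e2, ← he]
  have e3 : 4 * (e / 4) = e := ENNReal.mul_div_cancel (by norm_num) (by norm_num)
  calc e / 4 + e / 4 + e / 4 = 3 * (e / 4) := by ring
    _ ≤ 4 * (e / 4) := by gcongr; norm_num
    _ = e := e3

end main

end Crest.Agent.R154.KS480
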