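import Crest.Agent.R154.TileD2_980
import Crest.Agent.R154.Tight_872
import Crest.Agent.R154.D2Asm_244
import Crest.Agent.R154.River_916

-- ▼ part R154/TileD2B_980
section

/-! Row 154, `d = 2` (helper980): the input of 299's `window_const` from two literal Props:
`P2` (the box at the origin is good with probability `→ 1`, fixed cost `m`, fixed relative width
`k`) and `LAT` (annealed natural climbs do not exit far away laterally). -/

set_option autoImplicit false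
set_option linter.unusedSectionVars false
set_option linter.deprecated false

namespace Crest.Agent.R154.TileD2

open MeasureTheory ProbabilityTheory Set Filter Crest.ProbabilityR.RandomEnvironment
open Crest.Agent.R154.Ren263 hiding lev
open Crest.Agent.R154.Mk561 Crest.Agent.R154.Q561
open Crest.Agent.R154.Flux132 (lev lev_add lev_neg lev_zero)
open Crest.Agent.R154.RatioR872
open scoped ENNReal NNReal

variable {d : ℕ} {Q : Measure (Environment d)} [IsProbabilityMeasure Q]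

/-! ### stationarity of the boxes -/

lemma exists_site (u : Step d) (i : Fin d) (hi : i ≠ u.1) (l p : ℤ) :
    ∃ z : Site d, lev u z = l ∧ z i = p := by
  refine ⟨fun j => if j = u.1 then (if u.2 then l else -l) else if j = i then p else 0, ?_, ?_⟩
  · unfold lev
    by_cases h : u.2 = true <;> simp [h]
  · simp [hi]


lemma HitS_shift {S T S' T' : Set (Site d)} {z : Site d} (hS : ∀ w, w + z ∈ S' ↔ w ∈ S)
    (hT : ∀ w, w + z ∈ T' ↔ w ∈ T) (y : Site d) : HitS S' T' (y + z) = HitS S T y := by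
  unfold HitS HitM
  simp only [pos_add, hS, hT]

lemma boxGood_shift (u : Step d) (i : Fin d) (N a w : ℕ) (dr : ℤ → ℤ) (D : ℤ) (κ : ℝ)
    (c : ℝ≥0∞) {l p : ℤ} {z : Site d} (hz : lev u z = l) (hzp : z i = p) :
    BoxGood u i N a w dr D κ c l p = shiftEnv z ⁻¹' BoxGood u i N a w dr D κ c 0 0 := by
  have hC : ∀ (b q : ℤ) (y : Site d), y + z ∈ Cell u i a (l + b) (p + q) ↔ y ∈ Cell u i a b q := by
    intro b q y
    simp only [Cell, mem_setOf_eq, lev_add, hz, Pi.add_apply, hzp]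
    constructor
    · rintro ⟨h1, h2, h3⟩; exact ⟨by omega, by omega, by omega⟩
    · rintro ⟨h1, h2, h3⟩; exact ⟨by omega, by omega, by omega⟩
  have hD : ∀ y : Site d, y + z ∈ Dom u i N a w dr l p ↔ y ∈ Dom u i N a w dr 0 0 := by
    intro y
    have e : lev u y + l - l = lev u y - 0 := by ring
    simp only [Dom, mem_setOf_eq, lev_add, hz, Pi.add_apply, hzp, e]
    constructor
    · rintro ⟨h1, h2, h3, h4⟩; exact ⟨by omega, by omega, by omega, by omega⟩
    · rintro ⟨h1, h2, h3, h4⟩; exact ⟨by omega, by omega, by omega, by omega⟩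
  have hC0 : ∀ y : Site d, y + z ∈ Cell u i a l p ↔ y ∈ Cell u i a 0 0 := by
    intro y
    have := hC 0 0 y
    rwa [add_zero, add_zero] at this
  have hC1 : ∀ y : Site d, y + z ∈ Cell u i a (l + N) (p + D) ↔
      y ∈ Cell u i a (0 + N) (0 + D) := by
    intro y
    rw [zero_add, zero_add]
    exact hC N D y
  have hC2 : ∀ y : Site d, y + z ∈ Cell u i a (l + N) (p + D + a) ↔
      y ∈ Cell u i a (0 + N) (0 + D + a) := by
    intro y
    rw [zero_add, zero_add, add_assoc]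
    exact hC N (D + a) y
  ext ω
  simp only [BoxGood, mem_setOf_eq, mem_preimage, mkLaw_shiftEnv]
  constructor
  · intro h y hy
    have h1 := h (y + z) ((hC0 y).2 hy)
    rwa [HitS_shift hD hC1 y, HitS_shift hD hC2 y] at h1
  · intro h y hy
    have hy' : y - z + z = y := sub_add_cancel y z
    have h1 := h (y - z) ((hC0 (y - z)).1 (by rw [hy']; exact hy))
    have h2 := HitS_shift hD hC1 (y - z)
    have h3 := HitS_shift hD hC2 (y - z)
    rw [← h2, ← h3, hy'] at h1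
    exact h1

lemma measure_boxGood (hstat : ∀ z : Site d, MeasurePreserving (shiftEnv z) Q Q) (u : Step d)
    (i : Fin d) (hi : i ≠ u.1) (N a w : ℕ) (dr : ℤ → ℤ) (D : ℤ) (κ : ℝ) (c : ℝ≥0∞) (l p : ℤ) :
    Q (BoxGood u i N a w dr D κ c l p)ᶜ = Q (BoxGood u i N a w dr D κ c 0 0)ᶜ := by
  obtain ⟨z, hz, hzp⟩ := exists_site u i hi l p
  rw [boxGood_shift u i N a w dr D κ c hz hzp, ← preimage_compl]
  refine (hstat z).measure_preimage ?_
  exact (MeasurableSet.compl (coord_le _ _ (meas_BoxGood u i N a w dr D κ c 0 0))).nullMeasurableSet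

/-! ### the start -/

lemma NC_shift (u : Step d) (x : Site d) (N : ℕ) {T T' : Set (Site d)}
    (hT : ∀ w, w + x ∈ T' ↔ w ∈ T) : NC u x (lev u x + N) T' = NC u 0 N T := by
  unfold NC
  ext M
  simp only [mem_setOf_eq]
  have e1 : ∀ m, ClM u 0 x (lev u x + N) m = ClM u 0 0 (N : ℤ) m := by
    intro m
    have := ClM_shift u 0 0 x (N : ℤ) m
    rwa [zero_add, add_comm (N : ℤ)] at this
  have e2 : ∀ m, pos x M m = pos 0 M m + x := by
    intro m
    have := pos_add (0 : Site d) x M m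
    rwa [zero_add] at this
  simp only [e1, e2, hT]

lemma start_le (hstat : ∀ z : Site d, MeasurePreserving (shiftEnv z) Q Q) (u : Step d)
    (i : Fin d) (κ : ℝ) (N a r : ℕ) (ha : 1 ≤ a) (D : ℤ) (x : Site d) {σ q1 η : ℝ≥0∞}
    (hσ0 : σ ≠ 0) (hσ1 : σ ≤ 1)
    (ht : Q {ω | mkLaw κ ω x (ClA u 0 x (lev u x + N)) < σ} ≤ q1)
    (hl : mkAnn κ Q 0 (NC u 0 N {y | ¬ |y i - D| ≤ (r : ℤ) * a}) ≤ η) :
    Q (StartGood u i N a D κ r (σ / 2 / ((2 * r + 1 : ℕ) : ℝ≥0∞)) x)ᶜ ≤ q1 + η / (σ / 2) := by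
  have hσt : σ ≠ ⊤ := ne_top_of_le_ne_top ENNReal.one_ne_top hσ1
  have hσ2 : σ / 2 ≠ 0 := (ENNReal.div_pos hσ0 (by norm_num)).ne'
  have hσ2t : σ / 2 ≠ ⊤ := (ENNReal.div_lt_top hσt (by norm_num)).ne
  set T' : Set (Site d) := {y | ¬ |y i - x i - D| ≤ (r : ℤ) * a} with hT'
  have hNC : NC u x (lev u x + N) T' = NC u 0 N {y | ¬ |y i - D| ≤ (r : ℤ) * a} := by
    refine NC_shift u x N fun w => ?_
    simp only [hT', mem_setOf_eq, Pi.add_apply]
    rw [add_sub_cancel_right]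
  -- the annealed mass
  have hout : Q {ω | σ / 2 ≤ mkLaw κ ω x (NC u x (lev u x + N) T')} ≤ η / (σ / 2) := by
    refine (meas_ge_le_lintegral_div (measurable_mk_apply κ x
      (meas_NC u x (lev u x + N) T')).aemeasurable hσ2 hσ2t).trans ?_
    refine ENNReal.div_le_div_right ?_ _
    rw [← mkAnn_apply κ Q x (meas_NC u x (lev u x + N) T'), mkAnn_stat hstat κ x, hNC]
    exact hl
  refine le_trans (measure_mono ?_) ((measure_union_le _ _).trans (add_le_add ht hout))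
  intro ω hω
  by_contra hcon
  rw [mem_union, not_or, mem_setOf_eq, mem_setOf_eq, not_lt, not_le] at hcon
  obtain ⟨h1, h2⟩ := hcon
  have h3 : ∀ j ∈ Finset.Icc (-(r : ℤ)) r, mkLaw κ ω x (NC u x (lev u x + N)
      (Cell u i a (lev u x + N) (x i + D + j * a))) ≤ σ / 2 / ((2 * r + 1 : ℕ) : ℝ≥0∞) := by
    intro j hj
    by_contra h
    exact hω ⟨j, hj, (not_le.1 h).le⟩
  have hsub : ClA u 0 x (lev u x + N) ⊆ (⋃ j ∈ Finset.Icc (-(r : ℤ)) r,
      NC u x (lev u x + N) (Cell u i a (lev u x + N) (x i + D + j * a))) ∪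
        NC u x (lev u x + N) T' := by
    intro M hM
    obtain ⟨m, hm⟩ := mem_iUnion.1 hM
    by_cases hb : |pos x M m i - x i - D| ≤ (r : ℤ) * a
    · left
      have ha' : (0 : ℤ) < a := by exact_mod_cast ha
      set v : ℤ := pos x M m i - x i - D with hv
      have hv1 := Int.emod_add_mul_ediv v a
      have hv2 := Int.emod_nonneg v ha'.ne'
      have hv3 := Int.emod_lt_of_pos v ha'
      obtain ⟨hb1, hb2⟩ := abs_le.1 hb
      have hj1 : -(r : ℤ) ≤ v / a := by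
        rw [Int.le_ediv_iff_mul_le ha']; linarith
      have hj2 : v / a ≤ r := by
        by_contra hcon
        have h6 : (r : ℤ) + 1 ≤ v / a := by omega
        rw [Int.le_ediv_iff_mul_le ha'] at h6
        nlinarith
      refine mem_iUnion₂.2 ⟨v / a, Finset.mem_Icc.2 ⟨hj1, hj2⟩, m, hm, hm.1, ?_, ?_⟩
      · have : v / a * a = a * (v / a) := mul_comm _ _
        linarith
      · have : v / a * a = a * (v / a) := mul_comm _ _
        linarith
    · right
      exact ⟨m, hm, hb⟩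
  have hcard : (Finset.Icc (-(r : ℤ)) r).card = 2 * r + 1 := by
    rw [Int.card_Icc]; omega
  have hn0 : ((2 * r + 1 : ℕ) : ℝ≥0∞) ≠ 0 := by exact_mod_cast Nat.succ_ne_zero (2 * r)
  have hnt : ((2 * r + 1 : ℕ) : ℝ≥0∞) ≠ ⊤ := ENNReal.natCast_ne_top _
  have h4 : mkLaw κ ω x (ClA u 0 x (lev u x + N)) ≤
      σ / 2 + mkLaw κ ω x (NC u x (lev u x + N) T') := by
    refine (measure_mono hsub).trans ((measure_union_le _ _).trans (add_le_add ?_ le_rfl))
    refine (measure_biUnion_finset_le _ _).trans ((Finset.sum_le_sum h3).trans ?_)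
    rw [Finset.sum_const, hcard, nsmul_eq_mul, ENNReal.mul_div_cancel hn0 hnt]
  have h5 : mkLaw κ ω x (ClA u 0 x (lev u x + N)) < σ := by
    refine h4.trans_lt ?_
    calc σ / 2 + mkLaw κ ω x (NC u x (lev u x + N) T') < σ / 2 + σ / 2 :=
          ENNReal.add_lt_add_left hσ2t h2
      _ = σ := ENNReal.add_halves σ
  exact absurd h1 (not_le.2 h5)

/-! ### the window input -/

/-- **the input of `window_const`** -/
theorem windowInput {κ : ℝ} (F : Bind263.Frame Q κ 0) (u : Step d)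
    (hA : annealedProb Q 0 (escapeEvent (B2d.dirVec u)) ≠ 0) (i : Fin d) (hi : i ≠ u.1)
    (wd : ℕ → ℕ) (hwd : ∀ N, 1 ≤ wd N) (D : ℕ → ℤ) (dr : ℕ → ℤ → ℤ)
    (hP2 : ∃ m : ℝ, 1 ≤ m ∧ ∃ k : ℕ, ∀ ε : ℝ, 0 < ε → ∃ N0 : ℕ, ∀ N, N0 ≤ N →
      Q (BoxGood u i N (wd N) (k * wd N) (dr N) (D N) κ
        (ENNReal.ofReal (Real.exp (-m))) 0 0)ᶜ ≤ ENNReal.ofReal ε)
    (hLAT : ∀ η : ℝ, 0 < η → ∃ r N0 : ℕ, ∀ N, N0 ≤ N →
      mkAnn κ Q 0 (NC u 0 N {y | ¬ |y i - D N| ≤ (r : ℤ) * wd N}) ≤ ENNReal.ofReal η) :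
    ∀ Λ : ℝ, ∃ (m m1 : ℝ) (n0 : ℕ), 1 ≤ m ∧ ∀ n, n0 ≤ n →
      WindowK299.TileSys (kS u 0 κ Q F.stat F.fin) (2 ^ n) (ENNReal.ofReal (Real.exp (-m1)))
        (ENNReal.ofReal (Real.exp (-m))) (ENNReal.ofReal (Real.exp (-(Λ * m)))) := by
  obtain ⟨m, hm, k, hP2⟩ := hP2
  intro Λ
  set θ : ℝ := min (Real.exp (-(Λ * m))) 1 with hθ
  have hθ0 : 0 < θ := lt_min (Real.exp_pos _) one_pos
  have hθ1 : θ ≤ 1 := min_le_right _ _
  have hθΛ : ENNReal.ofReal θ ≤ ENNReal.ofReal (Real.exp (-(Λ * m))) :=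
    ENNReal.ofReal_le_ofReal (min_le_left _ _)
  -- tightness
  obtain ⟨σ, hσ0, hσ1, hσ⟩ := Tile872.tight F u hA (q := ENNReal.ofReal (θ / 2))
    (by rw [Ne, ENNReal.ofReal_eq_zero]; linarith)
  have hσt : σ ≠ ⊤ := ne_top_of_le_ne_top ENNReal.one_ne_top hσ1
  set s : ℝ := σ.toReal with hs
  have hs0 : 0 < s := ENNReal.toReal_pos hσ0 hσt
  have hσs : σ = ENNReal.ofReal s := (ENNReal.ofReal_toReal hσt).symm
  obtain ⟨r, N1, hr⟩ := hLAT (s * θ / 4) (by positivity)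
  -- rates
  set n1 : ℝ := ((2 * r + 1 : ℕ) : ℝ) with hn1
  have hn1' : 1 ≤ n1 := by
    rw [hn1]; push_cast; linarith [Nat.cast_nonneg (α := ℝ) r]
  set ρ : ℝ := min (1 / 48) (θ ^ 2 / (12 * n1)) with hρ
  have hρ0 : 0 < ρ := lt_min (by norm_num) (by positivity)
  have hρ1 : 12 * ρ * n1 ≤ θ ^ 2 := by
    have h1 : ρ ≤ θ ^ 2 / (12 * n1) := min_le_right _ _
    rw [le_div_iff₀ (by positivity)] at h1
    linarith
  have hρ2 : 12 * ρ ≤ θ := by
    have h1 : 12 * ρ ≤ 12 * ρ * n1 := le_mul_of_one_le_right (by positivity) hn1'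
    have h2 : θ ^ 2 ≤ θ := by nlinarith
    linarith
  obtain ⟨N2, hN2⟩ := hP2 (ρ ^ (2 * (1 + 2 * k))) (by positivity)
  set c1 : ℝ := s / 2 / n1 with hc1
  have hc10 : 0 < c1 := by positivity
  refine ⟨m, -Real.log c1, max N1 N2, hm, fun n hn => ?_⟩
  have hn2 : n ≤ 2 ^ n := Nat.lt_two_pow_self.le
  have hN1' : N1 ≤ 2 ^ n := ((le_max_left _ _).trans hn).trans hn2
  have hN2' : N2 ≤ 2 ^ n := ((le_max_right _ _).trans hn).trans hn2
  have ec1 : ENNReal.ofReal (Real.exp (-(-Real.log c1))) = σ / 2 / ((2 * r + 1 : ℕ) : ℝ≥0∞) := by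
    rw [neg_neg, Real.exp_log hc10, hc1, ENNReal.ofReal_div_of_pos (by positivity),
      ENNReal.ofReal_div_of_pos (by norm_num), ← hσs, hn1, ENNReal.ofReal_natCast]
    simp
  rw [ec1]
  refine tileSys (q := ENNReal.ofReal ρ) (q0 := ENNReal.ofReal θ) u i κ F.stat F.fin (2 ^ n)
    (wd (2 ^ n)) (k * wd (2 ^ n)) r (1 + 2 * k) (dr (2 ^ n)) (D (2 ^ n)) ?_ (by omega) ?_ ?_ ?_ ?_
    ?_ ?_ ?_ ?_
  · rw [← ENNReal.ofReal_one]
    exact ENNReal.ofReal_le_ofReal (Real.exp_le_one_iff.2 (by linarith))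
  · exact le_of_eq (by ring)
  · intro l p
    rw [measure_boxGood F.stat u i hi, ← ENNReal.ofReal_pow hρ0.le]
    exact hN2 _ hN2'
  · intro x _
    refine (start_le F.stat u i κ (2 ^ n) (wd (2 ^ n)) r (hwd _) (D (2 ^ n)) x hσ0 hσ1
      (q1 := ENNReal.ofReal (θ / 2)) ?_ (hr _ hN1')).trans ?_
    · rw [ClA_eq u 0 x (2 ^ n)]
      exact hσ (2 ^ n) x
    · rw [hσs, show (2 : ℝ≥0∞) = ENNReal.ofReal 2 by simp,
        ← ENNReal.ofReal_div_of_pos (by norm_num), ← ENNReal.ofReal_div_of_pos (by positivity),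
        ← ENNReal.ofReal_add (by positivity) (by positivity)]
      refine ENNReal.ofReal_le_ofReal (le_of_eq ?_)
      field_simp
      ring
  · rw [Ne, ENNReal.ofReal_eq_zero]; linarith
  · have : ((1 / 48 : ℝ≥0) : ℝ≥0∞) = ENNReal.ofReal (1 / 48) := by
      rw [ENNReal.ofReal]
      congr 1
      ext
      rw [Real.coe_toNNReal _ (by norm_num)]
      norm_num
    rw [this]
    exact ENNReal.ofReal_le_ofReal (min_le_left _ _)
  · exact hθΛ
  · refine le_trans ?_ hθΛ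
    rw [show (12 : ℝ≥0∞) = ENNReal.ofReal 12 by simp, ← ENNReal.ofReal_mul (by norm_num)]
    exact ENNReal.ofReal_le_ofReal hρ2
  · refine le_trans ?_ (pow_le_pow_left' hθΛ 2)
    rw [show (12 : ℝ≥0∞) = ENNReal.ofReal 12 by simp, ← ENNReal.ofReal_mul (by norm_num),
      ← ENNReal.ofReal_natCast, ← ENNReal.ofReal_mul (by positivity),
      ← ENNReal.ofReal_pow hθ0.le]
    refine ENNReal.ofReal_le_ofReal ?_
    rw [← hn1]
    linarith

end Crest.Agent.R154.TileD2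
end

-- ▼ part R154/TileD2C_980

/-! Row 154, `d = 2` (helper980): the tile input `D2Asm244.TileD2` from two Props on the UNMARKED
quenched law: `P2` (box at the origin, all points of the cell) and `LAT` (annealed lateral exit). -/

set_option autoImplicit false
set_option linter.unusedSectionVars false
set_option linter.deprecated false

namespace Crest.Agent.R154.TileD2

open MeasureTheory ProbabilityTheory Set Filter Crest.ProbabilityR.RandomEnvironment
open Crest.Agent.R154.Ren263 hiding lev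
open Crest.Agent.R154.Mk561 Crest.Agent.R154.Q561
open Crest.Agent.R154.Flux132 (lev lev_add lev_neg lev_zero)
open Crest.Agent.R154.RatioR872
open scoped ENNReal NNReal

variable {d : ℕ}

/-! ### dictionary -/

lemma hitS_eq (S T : Set (Site d)) (y : Site d) : HitS S T y = mpath y ⁻¹' River916.Ev S T := by
  ext M
  simp only [HitS, HitM, River916.Ev, mem_iUnion, mem_setOf_eq, mem_preimage, mpath]
  constructor
  · rintro ⟨m, h1, h2⟩; exact ⟨m, h2, h1⟩
  · rintro ⟨m, h2, h1⟩; exact ⟨m, h1, h2⟩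

lemma mk_hit (ω : Environment d) (S T : Set (Site d)) (y : Site d) :
    mkLaw 0 ω y (HitS S T y) = quenchedLaw ω y (River916.Ev S T) := by
  rw [hitS_eq, ← Measure.map_apply (measurable_mpath y) (River916.meas_Ev S T), mk_projection,
    regE_zero]

lemma NC_eq_hit (u : Step d) (x : Site d) {b : ℤ} (hb : lev u x ≤ b) (T : Set (Site d)) :
    NC u x b T = HitS {z | lev u x ≤ lev u z ∧ lev u z < b} {y | lev u y = b ∧ y ∈ T} x := by
  ext M
  simp only [NC, ClM, HitS, HitM, mem_iUnion, mem_setOf_eq, Nat.cast_zero, add_zero]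
  constructor
  · rintro ⟨m, ⟨h1, h2, _, h4⟩, h5⟩
    exact ⟨m, fun j hj => ⟨h4 j (Nat.zero_le _) hj.le, h2 j hj⟩, h1, h5⟩
  · rintro ⟨m, h1, h2, h3⟩
    refine ⟨m, ⟨h2, fun j hj => (h1 j hj).2, fun j _ hj => absurd hj (Nat.not_lt_zero j),
      fun j _ hj => ?_⟩, h3⟩
    rcases lt_or_eq_of_le hj with hlt | heq
    · exact (h1 j hlt).1
    · rw [heq, h2]; exact hb

lemma mkAnn_NC (Q : Measure (Environment d)) (u : Step d) (N : ℕ) (T : Set (Site d)) :
    mkAnn 0 Q 0 (NC u 0 N T) = annealedProb Q 0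
      (River916.Ev {z | 0 ≤ lev u z ∧ lev u z < N} {y | lev u y = N ∧ y ∈ T}) := by
  have h0 : lev u (0 : Site d) = 0 := lev_zero u
  rw [NC_eq_hit u 0 (by rw [h0]; positivity) T, h0, hitS_eq,
    mkAnn_projection_zero Q 0 (River916.meas_Ev _ _)]

/-! ### the two open Props -/

/-- **(P2)**: fixed cost `m`, fixed relative width `k`; the box at the origin is good for ALL points
of the cell with probability `→ 1`. -/
def P2 (Q : Measure (Environment d)) (u : Step d) (i : Fin d) (wd : ℕ → ℕ) (D : ℕ → ℤ)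
    (dr : ℕ → ℤ → ℤ) : Prop :=
  ∃ m : ℝ, 1 ≤ m ∧ ∃ k : ℕ, ∀ ε : ℝ, 0 < ε → ∃ N0 : ℕ, ∀ N, N0 ≤ N →
    Q {ω | ¬ ∀ y ∈ Cell u i (wd N) 0 0,
      ENNReal.ofReal (Real.exp (-m)) ≤ quenchedLaw ω y
        (River916.Ev (Dom u i N (wd N) (k * wd N) (dr N) 0 0) (Cell u i (wd N) N (D N))) ∧
      ENNReal.ofReal (Real.exp (-m)) ≤ quenchedLaw ω y
        (River916.Ev (Dom u i N (wd N) (k * wd N) (dr N) 0 0)
          (Cell u i (wd N) N (D N + wd N)))} ≤ ENNReal.ofReal ε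

/-- **(LAT)**: annealed natural climbs of height `N` exit at lateral distance `> r wd N` from the
axis with small probability. -/
def LAT (Q : Measure (Environment d)) (u : Step d) (i : Fin d) (wd : ℕ → ℕ) (D : ℕ → ℤ) : Prop :=
  ∀ η : ℝ, 0 < η → ∃ r N0 : ℕ, ∀ N, N0 ≤ N →
    annealedProb Q 0 (River916.Ev {z | 0 ≤ lev u z ∧ lev u z < N}
      {y | lev u y = N ∧ ¬ |y i - D N| ≤ (r : ℤ) * wd N}) ≤ ENNReal.ofReal η

lemma boxGood_zero (u : Step d) (i : Fin d) (N a w : ℕ) (dr : ℤ → ℤ) (D : ℤ) (c : ℝ≥0∞) :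
    (BoxGood u i N a w dr D 0 c 0 0)ᶜ = {ω | ¬ ∀ y ∈ Cell u i a 0 0,
      c ≤ quenchedLaw ω y (River916.Ev (Dom u i N a w dr 0 0) (Cell u i a N D)) ∧
      c ≤ quenchedLaw ω y (River916.Ev (Dom u i N a w dr 0 0) (Cell u i a N (D + a)))} := by
  ext ω
  simp only [BoxGood, mem_compl_iff, mem_setOf_eq, mk_hit, zero_add]

/-- **TileD2 from (P2) and (LAT).** -/
theorem tileD2_of
    (H : ∀ (ν : Measure (Row 2)) [IsProbabilityMeasure ν] (κ : ℝ), 0 < κ →
      (∀ᵐ p ∂ν, ∀ e : Step 2, κ ≤ p.1 e) → ∀ u : Step 2,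
      annealed (iidEnvironmentLaw ν) 0 (escapeEvent (B2d.dirVec u)) = 1 →
      ∃ (i : Fin 2) (_ : i ≠ u.1) (wd : ℕ → ℕ) (D : ℕ → ℤ) (dr : ℕ → ℤ → ℤ),
        (∀ N, 1 ≤ wd N) ∧ P2 (iidEnvironmentLaw ν) u i wd D dr ∧
          LAT (iidEnvironmentLaw ν) u i wd D) : D2Asm244.TileD2 := by
  intro ν _ κ hκ hν u hu
  have hpos := Spine.pos_of_ue hκ hν
  have F : Bind263.Frame (iidEnvironmentLaw ν) 0 0 := Bind263.frame_iid ν hpos
  have hA : annealedProb (iidEnvironmentLaw ν) 0 (escapeEvent (B2d.dirVec u)) ≠ 0 := by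
    rw [← annealed_apply _ 0 (B2d.measurableSet_escapeEvent _), hu]
    exact one_ne_zero
  obtain ⟨i, hi, wd, D, dr, hwd, ⟨m, hm, k, hP2⟩, hLAT⟩ := H ν κ hκ hν u hu
  have h := windowInput F u hA i hi wd hwd D dr
    ⟨m, hm, k, fun ε hε => by
      obtain ⟨N0, hN0⟩ := hP2 ε hε
      refine ⟨N0, fun N hN => ?_⟩
      rw [boxGood_zero]
      exact hN0 N hN⟩
    (fun η hη => by
      obtain ⟨r, N0, hN0⟩ := hLAT η hη
      refine ⟨r, N0, fun N hN => ?_⟩
      rw [mkAnn_NC]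
      exact hN0 N hN)
  intro Λ
  obtain ⟨m, m1, n0, h1, h2⟩ := h Λ
  exact ⟨m, m1, n0, h1, fun n hn => D2Asm244.tileSys_congr (h2 n hn)⟩

end Crest.Agent.R154.TileD2
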