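import Crest.Agent.R154.P2Defs_916
import Crest.Agent.R154.Loc_561

/-!
# Row 154, `d = 2`: `MOBFIX ∧ REG ⟹ FixM`, `QT ∧ REG ⟹ FixC` for a stationary law.  (helper592)

Stationarity reduces the starting point `z` to `0`; `REG` compares the units `wd N` and `wd H`; a
finite net of windows in the unit `wd H` meets every window `[a * wd N, b * wd N]`.
-/

set_option autoImplicit false

namespace Crest.Agent.R154.P2Fix592

open MeasureTheory ProbabilityTheory Crest.ProbabilityR.RandomEnvironment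
open Crest.Agent.R154.Flux132 (lev)
open Crest.Agent.R154.River916 (Ev meas_Ev)
open Crest.Agent.R154.P2916
open Crest.Agent.R154.Q561 (tr quenched_eq_zero_shift)
open scoped ENNReal

/-! ### stationarity -/

lemma Ev_mono2 {B B' T T' : Set (Site 2)} (hB : B ⊆ B') (hT : T ⊆ T') : Ev B T ⊆ Ev B' T' := by
  rintro X ⟨n, hn, h⟩
  exact ⟨n, hT hn, fun i hi => hB (h i hi)⟩

lemma tr_Ev (z : Site 2) (B T : Set (Site 2)) :
    tr z ⁻¹' Ev {y | y - z ∈ B} {y | y - z ∈ T} = Ev B T := by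
  ext X
  simp only [Ev, Set.mem_preimage, Set.mem_ofPred_eq, tr, add_sub_cancel_right]

/-- the event seen from `z` is the event seen from `0` in the shifted environment -/
lemma quenched_tr (ω : Environment 2) (z : Site 2) (B T : Set (Site 2)) :
    quenchedLaw ω z (Ev {y | y - z ∈ B} {y | y - z ∈ T}) =
      quenchedLaw (shiftEnv z ω) 0 (Ev B T) := by
  rw [quenched_eq_zero_shift ω z (meas_Ev _ _), tr_Ev]

lemma quenched_tr_compl (ω : Environment 2) (z : Site 2) (B T : Set (Site 2)) :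
    quenchedLaw ω z (Ev {y | y - z ∈ B} {y | y - z ∈ T})ᶜ =
      quenchedLaw (shiftEnv z ω) 0 (Ev B T)ᶜ := by
  rw [quenched_eq_zero_shift ω z (meas_Ev _ _).compl, Set.preimage_compl, tr_Ev]

/-- a measure preserving map does not increase the outer measure of preimages -/
lemma pre_le {Ω : Type*} [MeasurableSpace Ω] {Q : Measure Ω} {f : Ω → Ω}
    (hf : MeasurePreserving f Q Q) (S : Set Ω) : Q (f ⁻¹' S) ≤ Q S := by
  calc Q (f ⁻¹' S) ≤ Q (f ⁻¹' toMeasurable Q S) :=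
        measure_mono (Set.preimage_mono (subset_toMeasurable Q S))
    _ = Q (toMeasurable Q S) :=
        hf.measure_preimage (measurableSet_toMeasurable Q S).nullMeasurableSet
    _ = Q S := measure_toMeasurable S

/-! ### monotonicity of the regions -/

lemma Rg_sub (u : Step 2) (i : Fin 2) (θ : ℝ) {g g' δ A A' : ℝ} {H : ℕ}
    (h : A * g ≤ A' * g') : Rg u i θ g δ A H ⊆ Rg u i θ g' δ A' H := by
  rintro y ⟨h1, h2, h3⟩
  exact ⟨h1, h2, h3.trans h⟩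

lemma Tg_sub (u : Step 2) (i : Fin 2) (θ : ℝ) {g g' a a' b b' : ℝ} {H : ℕ}
    (h1 : a' * g' ≤ a * g) (h2 : b * g ≤ b' * g') :
    Tg u i θ g a b H ⊆ Tg u i θ g' a' b' H := by
  rintro y ⟨h, h3, h4⟩
  exact ⟨h, h1.trans h3, h4.trans h2⟩

/-! ### consequences of `REG` -/

/-- `REG` with a constant `≥ 1` and positive widths -/
lemma reg_pos {wd : ℕ → ℕ} (h : REG wd) : ∃ (C : ℝ) (N0 : ℕ), 1 ≤ C ∧ ∀ N ≥ N0, ∀ H : ℕ,
    N ≤ 8 * H → H ≤ 2 * N → (0 : ℝ) < wd N ∧ (0 : ℝ) < wd H ∧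
      (wd N : ℝ) ≤ C * wd H ∧ (wd H : ℝ) ≤ C * wd N := by
  obtain ⟨h1, C, N0, h2⟩ := h
  obtain ⟨N1, hN1⟩ := h1 1
  refine ⟨max C 1, max N0 N1, le_max_right _ _, fun N hN H hH1 hH2 => ?_⟩
  obtain ⟨h3, h4⟩ := h2 N (le_trans (le_max_left _ _) hN) H hH1 hH2
  have hN' : (1 : ℝ) ≤ wd N := by exact_mod_cast hN1 N (le_trans (le_max_right _ _) hN)
  have hC : C ≤ max C 1 := le_max_left _ _
  have hC1 : 1 ≤ max C 1 := le_max_right _ _
  have hH0 : (0 : ℝ) ≤ wd H := Nat.cast_nonneg _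
  have h5 : (wd N : ℝ) ≤ max C 1 * wd H := h3.trans (mul_le_mul_of_nonneg_right hC hH0)
  have h6 : (wd H : ℝ) ≤ max C 1 * wd N :=
    h4.trans (mul_le_mul_of_nonneg_right hC (by linarith))
  have h7 : (0 : ℝ) < wd H := by
    rcases hH0.lt_or_eq with h | h
    · exact h
    · rw [← h, mul_zero] at h5
      linarith
  exact ⟨by linarith, h7, h5, h6⟩

/-- the net: a window of length `≥ ℓ > 0` with left end in `[-L, L]` contains a net window. -/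
lemma net {x y ℓ L : ℝ} (hℓ : 0 < ℓ) (hxy : x + ℓ ≤ y) (hx : |x| ≤ L) :
    ∃ j ∈ Finset.Icc (-(⌈2 * L / ℓ⌉ + 1)) (⌈2 * L / ℓ⌉ + 1),
      x ≤ (j : ℝ) * (ℓ / 2) ∧ ((j : ℝ) + 1) * (ℓ / 2) ≤ y := by
  have h1 : x / (ℓ / 2) ≤ (⌈x / (ℓ / 2)⌉ : ℝ) := Int.le_ceil _
  have h2 : (⌈x / (ℓ / 2)⌉ : ℝ) < x / (ℓ / 2) + 1 := Int.ceil_lt_add_one _
  have h3 : x / (ℓ / 2) * (ℓ / 2) = x := div_mul_cancel₀ _ (by positivity)
  obtain ⟨hx1, hx2⟩ := abs_le.1 hx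
  have h4 : x / (ℓ / 2) ≤ 2 * L / ℓ := by
    rw [div_le_div_iff₀ (by positivity) hℓ]
    nlinarith
  have h5 : -(2 * L / ℓ) ≤ x / (ℓ / 2) := by
    rw [← neg_div, div_le_div_iff₀ hℓ (by positivity)]
    nlinarith
  have h6 : 2 * L / ℓ ≤ (⌈2 * L / ℓ⌉ : ℝ) := Int.le_ceil _
  refine ⟨⌈x / (ℓ / 2)⌉, Finset.mem_Icc.2 ⟨?_, ?_⟩, ?_, ?_⟩
  · have : (-(⌈2 * L / ℓ⌉ + 1) : ℝ) ≤ (⌈x / (ℓ / 2)⌉ : ℝ) := by linarith
    exact_mod_cast this
  · have : (⌈x / (ℓ / 2)⌉ : ℝ) ≤ (⌈2 * L / ℓ⌉ + 1 : ℝ) := by linarith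
    exact_mod_cast this
  · calc x = x / (ℓ / 2) * (ℓ / 2) := h3.symm
      _ ≤ _ := mul_le_mul_of_nonneg_right h1 (by positivity)
  · have h7 : (⌈x / (ℓ / 2)⌉ + 1 : ℝ) * (ℓ / 2) ≤ (x / (ℓ / 2) + 2) * (ℓ / 2) :=
      mul_le_mul_of_nonneg_right (by linarith) (by positivity)
    linarith

/-! ### the two theorems -/

variable {u : Step 2} {i : Fin 2} {θ : ℝ} {Q : Measure (Environment 2)} {wd : ℕ → ℕ}

/-- **`MOBFIX ∧ REG ⟹ FixM`** -/
theorem fixM_of_mobfix (hstat : ∀ z : Site 2, MeasurePreserving (shiftEnv z) Q Q)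
    (hM : MOBFIX u i θ Q wd) (hR : REG wd) : FixM u i θ Q wd := by
  obtain ⟨C, N1, hC1, hR⟩ := reg_pos hR
  intro δ hδ a b hab
  have hC0 : 0 < C := by linarith
  obtain ⟨ℓ, hℓ⟩ : ∃ ℓ : ℝ, ℓ = (b - a) / C := ⟨_, rfl⟩
  have hℓ0 : 0 < ℓ := by rw [hℓ]; exact div_pos (by linarith) hC0
  have hℓC : ℓ * C = b - a := by rw [hℓ]; exact div_mul_cancel₀ _ hC0.ne'
  obtain ⟨J, hJ⟩ : ∃ J : ℤ, J = ⌈2 * (|a| * C) / ℓ⌉ + 1 := ⟨_, rfl⟩
  have hwin : ∀ j : ℤ, (j : ℝ) * (ℓ / 2) < ((j : ℝ) + 1) * (ℓ / 2) := fun j => by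
    nlinarith
  choose Af cf hcf hf using fun j : ℤ => hM δ hδ _ _ (hwin j)
  have hne : (Finset.Icc (-J) J).Nonempty := by
    refine Finset.nonempty_Icc.2 ?_
    have : 0 ≤ ⌈2 * (|a| * C) / ℓ⌉ := Int.ceil_nonneg (by positivity)
    omega
  obtain ⟨j0, hj0, hj0m⟩ := Finset.exists_min_image _ cf hne
  refine ⟨(∑ j ∈ Finset.Icc (-J) J, |Af j|) * C, cf j0, hcf j0, fun ε hε => ?_⟩
  choose Hf hHf using fun j : ℤ => hf j ε hε
  refine ⟨N1 + 8 * ∑ j ∈ Finset.Icc (-J) J, Hf j, fun N hN H hH1 hH2 z => ?_⟩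
  obtain ⟨hN0, hH0, hNH, hHN⟩ := hR N (by omega) H hH1 hH2
  -- the ratio of the units
  obtain ⟨r, hr⟩ : ∃ r : ℝ, r = (wd N : ℝ) / wd H := ⟨_, rfl⟩
  have hrN : r * wd H = wd N := by rw [hr]; exact div_mul_cancel₀ _ hH0.ne'
  have hr0 : 0 < r := by rw [hr]; exact div_pos hN0 hH0
  have hrC : r ≤ C := by rw [hr, div_le_iff₀ hH0]; exact hNH
  have hrC' : 1 ≤ C * r := by
    rw [hr, ← mul_div_assoc, le_div_iff₀ hH0, one_mul]; exact hHN
  obtain ⟨j, hj, hj1, hj2⟩ := net (x := a * r) (y := b * r) (ℓ := ℓ) (L := |a| * C) hℓ0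
    (by
      have : ℓ ≤ (b - a) * r := by
        calc ℓ = ℓ * 1 := (mul_one _).symm
          _ ≤ ℓ * (C * r) := mul_le_mul_of_nonneg_left hrC' hℓ0.le
          _ = (b - a) * r := by rw [← mul_assoc, hℓC]
      linarith)
    (by rw [abs_mul, abs_of_pos hr0]; exact mul_le_mul_of_nonneg_left hrC (abs_nonneg _))
  rw [← hJ] at hj
  -- the inclusions
  have hA : Af j * (wd H : ℝ) ≤ (∑ j ∈ Finset.Icc (-J) J, |Af j|) * C * (wd N : ℝ) := by
    have h1 : Af j ≤ ∑ j ∈ Finset.Icc (-J) J, |Af j| :=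
      (le_abs_self _).trans
        (Finset.single_le_sum (f := fun j => |Af j|) (fun _ _ => abs_nonneg _) hj)
    have h0 : 0 ≤ ∑ j ∈ Finset.Icc (-J) J, |Af j| :=
      Finset.sum_nonneg fun _ _ => abs_nonneg _
    calc Af j * (wd H : ℝ) ≤ (∑ j ∈ Finset.Icc (-J) J, |Af j|) * (wd H : ℝ) :=
          mul_le_mul_of_nonneg_right h1 hH0.le
      _ ≤ (∑ j ∈ Finset.Icc (-J) J, |Af j|) * (C * (wd N : ℝ)) :=
          mul_le_mul_of_nonneg_left hHN h0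
      _ = _ := by ring
  have hsub : Ev (Rg u i θ (wd H) δ (Af j) H)
      (Tg u i θ (wd H) ((j : ℝ) * (ℓ / 2)) (((j : ℝ) + 1) * (ℓ / 2)) H) ⊆
      Ev (Rg u i θ (wd N) δ ((∑ j ∈ Finset.Icc (-J) J, |Af j|) * C) H)
        (Tg u i θ (wd N) a b H) := by
    refine Ev_mono2 (Rg_sub u i θ hA) (Tg_sub u i θ ?_ ?_)
    · calc a * (wd N : ℝ) = a * r * wd H := by rw [← hrN]; ring
        _ ≤ _ := mul_le_mul_of_nonneg_right hj1 hH0.le
    · calc ((j : ℝ) + 1) * (ℓ / 2) * (wd H : ℝ) ≤ b * r * wd H :=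
            mul_le_mul_of_nonneg_right hj2 hH0.le
        _ = b * wd N := by rw [← hrN]; ring
  have hHj : Hf j ≤ H := by
    have h1 : Hf j ≤ ∑ j ∈ Finset.Icc (-J) J, Hf j :=
      Finset.single_le_sum (f := fun j => Hf j) (fun _ _ => Nat.zero_le _) hj
    omega
  refine le_trans (measure_mono ?_) ((pre_le (hstat z) _).trans (hHf j H hHj))
  intro ω hω
  simp only [Set.mem_ofPred_eq, Set.mem_preimage] at hω ⊢
  rw [quenched_tr] at hω
  calc quenchedLaw (shiftEnv z ω) 0 (Ev (Rg u i θ (wd H) δ (Af j) H)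
        (Tg u i θ (wd H) ((j : ℝ) * (ℓ / 2)) (((j : ℝ) + 1) * (ℓ / 2)) H)) ≤ _ :=
        measure_mono hsub
    _ < ENNReal.ofReal (cf j0) := hω
    _ ≤ ENNReal.ofReal (cf j) := ENNReal.ofReal_le_ofReal (hj0m j hj)

/-- **`QT ∧ REG ⟹ FixC`** -/
theorem fixC_of_qt (hstat : ∀ z : Site 2, MeasurePreserving (shiftEnv z) Q Q)
    (hT : QT u i θ Q wd) (hR : REG wd) : FixC u i θ Q wd := by
  obtain ⟨C, N1, hC1, hR⟩ := reg_pos hR
  intro δ hδ κ' hκ'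
  have hC0 : 0 < C := by linarith
  obtain ⟨A, hA⟩ := hT δ hδ κ' hκ'
  refine ⟨|A| * C, fun ε hε => ?_⟩
  obtain ⟨H0, hH0⟩ := hA ε hε
  refine ⟨N1 + 8 * H0, fun N hN H hH1 hH2 z => ?_⟩
  obtain ⟨hN0, hHpos, hNH, hHN⟩ := hR N (by omega) H hH1 hH2
  have hAN : A * (wd H : ℝ) ≤ |A| * C * (wd N : ℝ) := by
    calc A * (wd H : ℝ) ≤ |A| * (wd H : ℝ) :=
          mul_le_mul_of_nonneg_right (le_abs_self _) hHpos.le
      _ ≤ |A| * (C * (wd N : ℝ)) := mul_le_mul_of_nonneg_left hHN (abs_nonneg _)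
      _ = _ := by ring
  have hsub : Ev (Rg u i θ (wd H) δ A H) (Tp u H) ⊆
      Ev (Rg u i θ (wd N) δ (|A| * C) H) (Tp u H) :=
    Ev_mono2 (Rg_sub u i θ hAN) subset_rfl
  refine le_trans (measure_mono ?_) ((pre_le (hstat z) _).trans (hH0 H (by omega)))
  intro ω hω
  simp only [Set.mem_ofPred_eq, Set.mem_preimage] at hω ⊢
  rw [quenched_tr_compl] at hω
  exact hω.trans_le (measure_mono (Set.compl_subset_compl.2 hsub))

/-! ### the iid law -/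



end Crest.Agent.R154.P2Fix592
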