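import Crest.Agent.R154.ExK_9

/-!
# Row 154, helper9: conditional expectation on the rows of a set, pointwise, and the quenched martingale

* `glue S ω ω'` : rows of `S` from `ω`, the others from `ω'`;
* `cnd ν S f ω = ∫⁻ f (glue S ω ω') dQ(ω')`, `Q` the iid law : a pointwise version of `E[f | rows in S]`
  (`lint_cnd`, `cnd_pull`, `cnd_tower`, `cnd_of_loc`, `cnd_tsum`);
* `fE A x g` : quenched expectation of `g` at the exit of `A`; `phi S A y g = E[fE A y g | rows in S]`;
* `M_eq`, `phi_step` : the quenched martingale;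
-/

set_option autoImplicit false
set_option linter.unusedVariables false
set_option linter.unusedSectionVars false

namespace Crest.Agent.R154.Resamp9

open MeasureTheory ProbabilityTheory Crest.ProbabilityR.RandomEnvironment Crest.Agent.R154
open Crest.Agent.R154.ExK9
open scoped ENNReal

variable {d : ℕ}

open Classical in
/-- rows of `S` from `ω`, the others from `ω'` -/
noncomputable def glue (S : Set (Site d)) (ω ω' : Environment d) : Environment d :=
  fun z => if z ∈ S then ω z else ω' z

lemma glue_mem {S : Set (Site d)} (ω ω' : Environment d) {z : Site d} (hz : z ∈ S) :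
    glue S ω ω' z = ω z := by simp [glue, hz]

lemma glue_notMem {S : Set (Site d)} (ω ω' : Environment d) {z : Site d} (hz : z ∉ S) :
    glue S ω ω' z = ω' z := by simp [glue, hz]

lemma measurable_glue (S : Set (Site d)) :
    Measurable fun p : Environment d × Environment d => glue S p.1 p.2 := by
  refine measurable_pi_lambda _ fun z => ?_
  by_cases hz : z ∈ S
  · have : (fun p : Environment d × Environment d => glue S p.1 p.2 z) = fun p => p.1 z := by
      funext p; exact glue_mem _ _ hz
    rw [this]
    exact (measurable_pi_apply z).comp measurable_fst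
  · have : (fun p : Environment d × Environment d => glue S p.1 p.2 z) = fun p => p.2 z := by
      funext p; exact glue_notMem _ _ hz
    rw [this]
    exact (measurable_pi_apply z).comp measurable_snd


lemma measurable_glue_right (S : Set (Site d)) (ω : Environment d) :
    Measurable fun ω' : Environment d => glue S ω ω' :=
  (measurable_glue S).comp (measurable_const.prodMk measurable_id)

lemma glue_congr {S : Set (Site d)} {ω₁ ω₂ : Environment d} (h : ∀ z ∈ S, ω₁ z = ω₂ z)
    (ω' : Environment d) : glue S ω₁ ω' = glue S ω₂ ω' := by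
  funext z
  by_cases hz : z ∈ S
  · rw [glue_mem _ _ hz, glue_mem _ _ hz, h z hz]
  · rw [glue_notMem _ _ hz, glue_notMem _ _ hz]

lemma glue_glue {S T : Set (Site d)} (h : S ⊆ T) (ω ω' ω'' : Environment d) :
    glue T (glue S ω ω') ω'' = glue S ω (glue T ω' ω'') := by
  funext z
  by_cases hS : z ∈ S
  · rw [glue_mem _ _ (h hS), glue_mem _ _ hS, glue_mem _ _ hS]
  · by_cases hT : z ∈ T
    · rw [glue_mem _ _ hT, glue_notMem _ _ hS, glue_notMem _ _ hS, glue_mem _ _ hT]
    · rw [glue_notMem _ _ hT, glue_notMem _ _ hS, glue_notMem _ _ hT]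

/-- a function of the rows of `S` does not see the other rows -/
lemma loc_glue {β : Type*} {S : Set (Site d)} {f : Environment d → β} (hf : Q561.LocOn S f)
    (ω ω' : Environment d) : f (glue S ω ω') = f ω :=
  hf _ _ fun z hz => glue_mem _ _ hz

variable (ν : Measure (Row d)) [IsProbabilityMeasure ν]

/-- gluing preserves the iid law -/
theorem map_glue (S : Set (Site d)) :
    ((iidEnvironmentLaw ν).prod (iidEnvironmentLaw ν)).map
      (fun p : Environment d × Environment d => glue S p.1 p.2) = iidEnvironmentLaw ν := by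
  classical
  unfold iidEnvironmentLaw
  apply Measure.eq_infinitePi
  intro s t ht
  rw [Measure.map_apply (measurable_glue S)
    (MeasurableSet.pi s.countable_toSet fun i _ => ht i)]
  have e : ((fun p : Environment d × Environment d => glue S p.1 p.2) ⁻¹'
      Set.pi (s : Set (Site d)) t) =
      (Set.pi ((s.filter fun z => z ∈ S : Finset (Site d)) : Set (Site d)) t) ×ˢ
        (Set.pi ((s.filter fun z => z ∉ S : Finset (Site d)) : Set (Site d)) t) := by
    ext p
    simp only [Set.mem_preimage, Set.mem_pi, Finset.coe_filter, Set.mem_ofPred_eq, Set.mem_prod,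
      SetLike.mem_coe]
    constructor
    · intro h
      refine ⟨fun z hz => ?_, fun z hz => ?_⟩
      · have := h z hz.1
        rwa [glue_mem _ _ hz.2] at this
      · have := h z hz.1
        rwa [glue_notMem _ _ hz.2] at this
    · rintro ⟨h1, h2⟩ z hz
      by_cases hS : z ∈ S
      · rw [glue_mem _ _ hS]; exact h1 z ⟨hz, hS⟩
      · rw [glue_notMem _ _ hS]; exact h2 z ⟨hz, hS⟩
  rw [e, Measure.prod_prod, Measure.infinitePi_pi _ (fun i _ => ht i),
    Measure.infinitePi_pi _ (fun i _ => ht i)]
  exact Finset.prod_filter_mul_prod_filter_not s (fun z => z ∈ S) fun z => ν (t z)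

/-- Fubini for gluing -/
theorem lint_glue (S : Set (Site d)) {f : Environment d → ℝ≥0∞} (hf : Measurable f) :
    ∫⁻ ω, f ω ∂(iidEnvironmentLaw ν) =
      ∫⁻ ω, ∫⁻ ω', f (glue S ω ω') ∂(iidEnvironmentLaw ν) ∂(iidEnvironmentLaw ν) := by
  conv_lhs => rw [← map_glue ν S]
  rw [lintegral_map hf (measurable_glue S)]
  exact lintegral_prod (fun p : Environment d × Environment d => f (glue S p.1 p.2))
    (hf.comp (measurable_glue S)).aemeasurable

/-- **pointwise conditional expectation on the rows of `S`** -/
noncomputable def cnd (S : Set (Site d)) (f : Environment d → ℝ≥0∞) (ω : Environment d) : ℝ≥0∞ :=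
  ∫⁻ ω', f (glue S ω ω') ∂(iidEnvironmentLaw ν)

variable {ν}

lemma meas_cnd (S : Set (Site d)) {f : Environment d → ℝ≥0∞} (hf : Measurable f) :
    Measurable (cnd ν S f) :=
  Measurable.lintegral_prod_right' (f := fun p : Environment d × Environment d => f (glue S p.1 p.2))
    (hf.comp (measurable_glue S))

lemma locOn_cnd (S : Set (Site d)) (f : Environment d → ℝ≥0∞) : Q561.LocOn S (cnd ν S f) := by
  intro ω₁ ω₂ h
  unfold cnd
  simp only [glue_congr h]


lemma cnd_mono (S : Set (Site d)) {f g : Environment d → ℝ≥0∞} (h : ∀ ω, f ω ≤ g ω)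
    (ω : Environment d) : cnd ν S f ω ≤ cnd ν S g ω := lintegral_mono fun ω' => h _

lemma cnd_const (S : Set (Site d)) (c : ℝ≥0∞) (ω : Environment d) :
    cnd ν S (fun _ => c) ω = c := by simp [cnd]

lemma cnd_le_one (S : Set (Site d)) {f : Environment d → ℝ≥0∞} (h : ∀ ω, f ω ≤ 1)
    (ω : Environment d) : cnd ν S f ω ≤ 1 :=
  (cnd_mono S h ω).trans (cnd_const S 1 ω).le


lemma cnd_pull {S : Set (Site d)} {w f : Environment d → ℝ≥0∞} (hw : Q561.LocOn S w)
    (hf : Measurable f) (ω : Environment d) :
    cnd ν S (fun ω => w ω * f ω) ω = w ω * cnd ν S f ω := by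
  unfold cnd
  simp only [loc_glue hw]
  exact lintegral_const_mul _ (hf.comp (measurable_glue_right S ω))

lemma cnd_add (S : Set (Site d)) {f g : Environment d → ℝ≥0∞} (hf : Measurable f)
    (ω : Environment d) : cnd ν S (fun ω => f ω + g ω) ω = cnd ν S f ω + cnd ν S g ω :=
  lintegral_add_left (hf.comp (measurable_glue_right S ω)) _

lemma cnd_tsum (S : Set (Site d)) {ι : Type*} [Countable ι] {f : ι → Environment d → ℝ≥0∞}
    (hf : ∀ i, Measurable (f i)) (ω : Environment d) :
    cnd ν S (fun ω => ∑' i, f i ω) ω = ∑' i, cnd ν S (f i) ω :=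
  lintegral_tsum fun i => ((hf i).comp (measurable_glue_right S ω)).aemeasurable

/-- **tower property, pointwise** -/
theorem cnd_tower {S T : Set (Site d)} (h : S ⊆ T) {f : Environment d → ℝ≥0∞}
    (hf : Measurable f) (ω : Environment d) : cnd ν S (cnd ν T f) ω = cnd ν S f ω := by
  unfold cnd
  simp only [glue_glue h]
  exact (lint_glue ν T (f := fun ω'' => f (glue S ω ω''))
    (hf.comp (measurable_glue_right S ω))).symm

/-- **averaging against the past** -/
theorem lint_cnd {S : Set (Site d)} {w f : Environment d → ℝ≥0∞} (hw : Q561.LocOn S w)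
    (hwm : Measurable w) (hf : Measurable f) :
    ∫⁻ ω, w ω * cnd ν S f ω ∂(iidEnvironmentLaw ν) = ∫⁻ ω, w ω * f ω ∂(iidEnvironmentLaw ν) := by
  rw [lint_glue ν S (f := fun ω => w ω * f ω) (hwm.mul hf)]
  refine lintegral_congr fun ω => ?_
  exact (cnd_pull hw hf ω).symm

theorem lint_cnd_one {S : Set (Site d)} {f : Environment d → ℝ≥0∞} (hf : Measurable f) :
    ∫⁻ ω, cnd ν S f ω ∂(iidEnvironmentLaw ν) = ∫⁻ ω, f ω ∂(iidEnvironmentLaw ν) := by
  have := lint_cnd (S := S) (w := fun _ => 1) (fun _ _ _ => rfl) measurable_const (ν := ν) hf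
  simpa using this



/-! ### the quenched martingale of a chain of kernels -/

section chain


/-- push forward of a weight by a kernel -/
noncomputable def push (q : Environment d → Site d → ℝ≥0∞)
    (K : Environment d → Site d → Site d → ℝ≥0∞) (ω : Environment d) (z : Site d) : ℝ≥0∞ :=
  ∑' y, q ω y * K ω y z






variable {n : ℕ} {S : ℕ → Set (Site d)} {K : ℕ → Environment d → Site d → Site d → ℝ≥0∞}
  {g : Site d → ℝ≥0∞}









end chain

/-! ### exit kernels of increasing sets -/

section exit
variable {A : ℕ → Set (Site d)}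

/-- quenched expectation of `g` at the exit of `B` -/
noncomputable def fE (B : Set (Site d)) (g : Site d → ℝ≥0∞) (ω : Environment d) (x : Site d) :
    ℝ≥0∞ := ∑' z, EK ω B x z * g z



lemma fE_le_one {g : Site d → ℝ≥0∞} (hg : ∀ z, g z ≤ 1) (B : Set (Site d)) (ω : Environment d)
    (x : Site d) : fE B g ω x ≤ 1 := by
  refine le_trans (ENNReal.tsum_le_tsum fun z => ?_) (tsum_EK_le ω B x)
  calc EK ω B x z * g z ≤ EK ω B x z * 1 := by gcongr; exact hg z
    _ = _ := mul_one _

lemma fE_comp {B C : Set (Site d)} (h : B ⊆ C) (g : Site d → ℝ≥0∞) (ω : Environment d)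
    (x : Site d) : fE C g ω x = ∑' y, EK ω B x y * fE C g ω y := by
  unfold fE
  simp_rw [EK_comp ω h x, ← ENNReal.tsum_mul_right, ← ENNReal.tsum_mul_left]
  rw [ENNReal.tsum_comm]
  exact tsum_congr fun y => tsum_congr fun z => by ring

/-- `E[ E_ω^y g(exit of B) | rows in S ]` -/
noncomputable def phi (ν : Measure (Row d)) (S B : Set (Site d)) (g : Site d → ℝ≥0∞)
    (ω : Environment d) (y : Site d) : ℝ≥0∞ := cnd ν S (fun ω => fE B g ω y) ω




end exit

end Crest.Agent.R154.Resamp9
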