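import Crest.Agent.R154.P2_916
import Crest.Agent.R154.P2Fix_592
import Crest.Agent.R154.TileD2C_980
import Crest.Agent.R154.LatQT_980_Mg
import Crest.Agent.R154.QE_980
import Crest.Agent.R154.Scale_738
import Crest.Agent.R154.TubeObj_24
import Crest.Agent.R154.Hit2_569
import Crest.Agent.R154.ExK_9
import Crest.Agent.R154.Resamp_9
import Crest.Agent.R154.FEk_9
import Crest.Agent.R154.Kal_132

-- ▼ part R154/P2End_916
section

/-!
# Row 154, `d = 2`: `QE ∧ QT ⟹ MOBFIX`, and `QE ∧ QT ∧ REG ⟹ (P2)`.  (helper916)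
-/

set_option autoImplicit false

namespace Crest.Agent.R154.P2916

open MeasureTheory ProbabilityTheory Crest.ProbabilityR.RandomEnvironment
open Crest.Agent.R154.Flux132 (lev lev_add lev_neg lev_zero)
open Crest.Agent.R154.River916
open scoped ENNReal

variable {u : Step 2} {i : Fin 2} {θ : ℝ} {Q : Measure (Environment 2)} {wd : ℕ → ℕ}

/-- an unrestricted window event is an event inside the tube or a non confinement event -/
lemma ev_split (g δ A a b : ℝ) (H : ℕ) :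
    Ev {y | lev u y < (H : ℤ)} (Tg u i θ g a b H) ⊆
      Ev (Rg u i θ g δ A H) (Tg u i θ g a b H) ∪ (Ev (Rg u i θ g δ A H) (Tp u H))ᶜ := by
  rintro X ⟨n, hn, hX⟩
  by_cases h : X ∈ Ev (Rg u i θ g δ A H) (Tp u H)
  · left
    obtain ⟨n', hn', hX'⟩ := h
    have e : n = n' := by
      rcases lt_trichotomy n n' with h1 | h1 | h1
      · have h2 := (hX' n h1).2.1
        have h3 : lev u (X n) = H := hn.1
        omega
      · exact h1
      · have h2 : lev u (X n') < H := hX n' h1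
        have h3 : lev u (X n') = H := hn'
        omega
    subst e
    exact ⟨n, hn, hX'⟩
  · exact Or.inr h

theorem mobfix_of (hE : QE u i θ Q wd) (hT : QT u i θ Q wd) : MOBFIX u i θ Q wd := by
  intro δ hδ a b hab
  obtain ⟨c, hc, h1⟩ := hE a b hab
  obtain ⟨A, h2⟩ := hT δ hδ (c / 2) (by linarith)
  refine ⟨A, c / 2, by linarith, fun ε hε => ?_⟩
  obtain ⟨H1, hH1⟩ := h1 (ε / 2) (by linarith)
  obtain ⟨H2, hH2⟩ := h2 (ε / 2) (by linarith)
  refine ⟨max H1 H2, fun H hH => ?_⟩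
  have e : ENNReal.ofReal ε = ENNReal.ofReal (ε / 2) + ENNReal.ofReal (ε / 2) := by
    rw [← ENNReal.ofReal_add (by linarith) (by linarith)]
    congr 1; ring
  rw [e]
  refine le_trans (measure_mono ?_) (le_trans (measure_union_le _ _)
    (add_le_add (hH1 H (le_trans (le_max_left _ _) hH)) (hH2 H (le_trans (le_max_right _ _) hH))))
  intro ω hω
  by_contra hno
  have hno1 : ENNReal.ofReal c ≤ quenchedLaw ω 0 (Ev {y | lev u y < (H : ℤ)}
      (Tg u i θ (wd H) a b H)) := not_lt.1 fun h => hno (Or.inl h)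
  have hno2 : quenchedLaw ω 0 (Ev (Rg u i θ (wd H) δ A H) (Tp u H))ᶜ ≤ ENNReal.ofReal (c / 2) :=
    not_lt.1 fun h => hno (Or.inr h)
  have h3 : ENNReal.ofReal c < ENNReal.ofReal (c / 2) + ENNReal.ofReal (c / 2) := by
    refine lt_of_le_of_lt (le_trans hno1 (le_trans (measure_mono (ev_split (wd H) δ A a b H))
      (measure_union_le _ _))) ?_
    exact ENNReal.add_lt_add_of_lt_of_le (ne_top_of_le_ne_top ENNReal.ofReal_ne_top hno2) hω hno2
  rw [← ENNReal.ofReal_add (by linarith) (by linarith)] at h3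
  have h4 : c / 2 + c / 2 = c := by ring
  rw [h4] at h3
  exact lt_irrefl _ h3

/-- `QE ∧ QT ∧ REG ⟹ (P2)`, in 980's letters. -/
theorem p2_of (hi : i ≠ u.1) (hstat : ∀ z : Site 2, MeasurePreserving (shiftEnv z) Q Q)
    (hE : QE u i θ Q wd) (hT : QT u i θ Q wd) (hR : REG wd)
    (help : ∀ᵐ ω ∂Q, ∀ (z : Site 2) (e : Step 2), 0 < (ω z).1 e) :
    TileD2.P2 Q u i wd (fun N => vf θ N) (fun _ => vf θ) := by
  obtain ⟨m, hm, k, h⟩ := p2 (κ := 0) hi (P2Fix592.fixM_of_mobfix hstat (mobfix_of hE hT) hR)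
    (P2Fix592.fixC_of_qt hstat hT hR) hR (by
      rw [Mk561.kf_zero]
      exact Filter.Eventually.of_forall fun ω z e => (ω z).2.1 e) help
  refine ⟨m, hm, k, fun ε hε => ?_⟩
  obtain ⟨N0, hN0⟩ := h ε hε
  refine ⟨N0, fun N hN => ?_⟩
  rw [← TileD2.boxGood_zero]
  exact hN0 N hN

end Crest.Agent.R154.P2916
end

-- ▼ part R154/D2Joint_244
section

/-!
Row 154, block `d = 2` (helper244): the joint. With the width `wdJ` of the joint blocks (132 / 24 / 738)
everything of the block is a theorem except the three literal Props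
`LLN` (36), `SlabP` (28), `WIN` (956) at one real slope `θ`.
-/

set_option autoImplicit false

namespace Crest.Agent.R154.D2Joint244

open MeasureTheory ProbabilityTheory Filter Crest.ProbabilityR.RandomEnvironment Crest.Agent.R154
open Crest.Agent.R154.Flux132 (lev)
open Crest.Agent.R154.Bind263
open Crest.Agent.R154.P2916 (QE QT REG vf)
open Crest.Agent.R154.D2V36 (LLN SlabP ScaleP HitP OccP ResidP)
open Crest.Agent.R154.QE980 (WIN)
open Crest.Agent.R154.NDAObj24 (wdJ core_tri nda_obj one_le_wdJ)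
open scoped ENNReal

variable {u : Step 2} {i : Fin 2} {θ : ℝ} {ν : Measure (Row 2)} [IsProbabilityMeasure ν]

/-- any width function: (P2) and (QT) from the literal Props -/
theorem p2qt_of {wd : ℕ → ℕ} (hi : i ≠ u.1) (hν : ∀ᵐ p ∂ν, ∀ e : Step 2, 0 < p.1 e)
    (hA : annealed (iidEnvironmentLaw ν) 0 (escapeEvent (B2d.dirVec u)) = 1)
    (hL : LLN u i θ ν wd) (hS : SlabP u i θ ν wd) (hW : WIN u i θ (iidEnvironmentLaw ν) wd)
    (hSc : ScaleP wd) (hR : REG wd) :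
    (∃ N1, ∀ N ≥ N1, 1 ≤ wd N) ∧
      TileD2.P2 (iidEnvironmentLaw ν) u i wd (fun N => ⌊θ * N⌋) (fun _ => vf θ) ∧
      QT u i θ (iidEnvironmentLaw ν) wd := by
  have F := frame_iid ν hν
  have hT : QT u i θ (iidEnvironmentLaw ν) wd := QT244.qt hL hS hSc hR.1
  have hw : ∃ N1, ∀ N ≥ N1, 1 ≤ wd N := hR.1 1
  have hE : QE u i θ (iidEnvironmentLaw ν) wd := QE980.qe u i θ ν wd hL hW hw (Hit2569.hitP ν u hA)
  exact ⟨hw, P2916.p2_of hi F.stat hE hT hR F.elp, hT⟩

/-- **JOINT of the block `d = 2`**, any width function -/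
theorem tileD2_of_leaves
    (H : ∀ (ν : Measure (Row 2)) [IsProbabilityMeasure ν] (κ : ℝ), 0 < κ →
      (∀ᵐ p ∂ν, ∀ e : Step 2, κ ≤ p.1 e) → ∀ u : Step 2,
      annealed (iidEnvironmentLaw ν) 0 (escapeEvent (B2d.dirVec u)) = 1 →
      ∃ (i : Fin 2) (_ : i ≠ u.1) (θ : ℝ) (wd : ℕ → ℕ), ScaleP wd ∧ REG wd ∧
        LLN u i θ ν wd ∧ SlabP u i θ ν wd ∧ WIN u i θ (iidEnvironmentLaw ν) wd) :
    D2Asm244.TileD2 := by
  refine TileD2.tileD2_of_P2_QT fun ν _ κ hκ hν u hu => ?_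
  obtain ⟨i, hi, θ, wd, hSc, hR, hL, hS, hW⟩ := H ν κ hκ hν u hu
  have hν' : ∀ᵐ p ∂ν, ∀ e : Step 2, 0 < p.1 e := hν.mono fun p hp e => hκ.trans_le (hp e)
  exact ⟨i, hi, θ, wd, fun _ => vf θ, p2qt_of hi hν' hu hL hS hW hSc hR⟩

/-- another coordinate -/
lemma exists_other (u : Step 2) : ∃ i : Fin 2, i ≠ u.1 := exists_ne u.1

/-- **JOINT with the width `wdJ` of the joint blocks**: `ScaleP`, `REG` are theorems -/
theorem tileD2_of_wdJ
    (H : ∀ (ν : Measure (Row 2)) [IsProbabilityMeasure ν] (κ : ℝ), 0 < κ →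
      (∀ᵐ p ∂ν, ∀ e : Step 2, κ ≤ p.1 e) → ∀ u : Step 2,
      annealed (iidEnvironmentLaw ν) 0 (escapeEvent (B2d.dirVec u)) = 1 → ∀ i : Fin 2, i ≠ u.1 →
      ∃ θ : ℝ, LLN u i θ ν (wdJ (iidEnvironmentLaw ν) 0 0 u i) ∧
        SlabP u i θ ν (wdJ (iidEnvironmentLaw ν) 0 0 u i) ∧
        WIN u i θ (iidEnvironmentLaw ν) (wdJ (iidEnvironmentLaw ν) 0 0 u i)) :
    D2Asm244.TileD2 := by
  refine tileD2_of_leaves fun ν _ κ hκ hν u hu => ?_
  obtain ⟨i, hi⟩ := exists_other u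
  obtain ⟨θ, hL, hS, hW⟩ := H ν κ hκ hν u hu i hi
  have hν' : ∀ᵐ p ∂ν, ∀ e : Step 2, 0 < p.1 e := hν.mono fun p hp e => hκ.trans_le (hp e)
  have F := frame_iid ν hν'
  have hA : annealedProb (iidEnvironmentLaw ν) 0 (escapeEvent (B2d.dirVec u)) ≠ 0 := by
    rw [← annealed_apply _ 0 (B2d.measurableSet_escapeEvent _), hu]
    exact one_ne_zero
  have hC := core_tri F hA hi
  have hN := nda_obj ν hν' hi hA
  exact ⟨i, hi, θ, wdJ (iidEnvironmentLaw ν) 0 0 u i, hN.scaleP hC, hN.reg hC, hL, hS, hW⟩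


end Crest.Agent.R154.D2Joint244
end

-- ▼ part R154/PhiA_215
section

/-!
# Row 154, helper215: (V1) of D2/VARG, part A — cut levels, any-past bound

`ℓ : Site d →+ ℤ` is the level function.  `Bl l = {ℓ < l}`, `exT (Bl l)` = first hit of level `l`.
`Cut b` : after the first hit of level `b` the path never goes below `b` again.
`NoCut l t` : no cut level in `[l, l+t]`.
-/

set_option autoImplicit false
set_option linter.unusedVariables false
set_option linter.unusedSectionVars false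

namespace Crest.Agent.R154.Phi215

open MeasureTheory ProbabilityTheory Crest.ProbabilityR.RandomEnvironment Crest.Agent.R154
open Crest.Agent.R154.ExK9
open scoped ENNReal

variable {d : ℕ}

/-- sites below level `l` -/
def Bl (ℓ : Site d →+ ℤ) (l : ℤ) : Set (Site d) := {z | ℓ z < l}

/-- sites at or above level `l` -/
def Ab (ℓ : Site d →+ ℤ) (l : ℤ) : Set (Site d) := {z | l ≤ ℓ z}

lemma Bl_mono (ℓ : Site d →+ ℤ) {l l' : ℤ} (h : l ≤ l') : Bl ℓ l ⊆ Bl ℓ l' :=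
  fun _ hz => lt_of_lt_of_le hz h

lemma disj_Bl_Ab (ℓ : Site d →+ ℤ) (l : ℤ) : Disjoint (Bl ℓ l) (Ab ℓ l) :=
  Set.disjoint_left.2 fun z h1 h2 => by
    have h3 : ℓ z < l := h1
    have h4 : l ≤ ℓ z := h2
    omega

/-- the walk is at or above level `b` for ever -/
def Ntl (ℓ : Site d →+ ℤ) (b : ℤ) : Set (Path d) := {X | ∀ n, b ≤ ℓ (X n)}

lemma measurableSet_Ntl (ℓ : Site d →+ ℤ) (b : ℤ) : MeasurableSet (Ntl ℓ b) := by
  unfold Ntl
  rw [Set.ofPred_forall]
  refine MeasurableSet.iInter fun n => measurableSet_of_agree n _ fun X Y h => ?_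
  simp only [Set.mem_ofPred_eq, h n le_rfl]

lemma dec_Ntl (ℓ : Site d →+ ℤ) (b : ℤ) : Q561.Dec (Ab ℓ b) (Ntl ℓ b) :=
  Q561.dec_of_forall fun X hX k => hX k

/-! ### general exit times -/

lemma measurable_shiftT (A : Set (Site d)) :
    Measurable fun X : Path d => shift (exT A X).toNat X := by
  refine measurable_pi_iff.2 fun i => ?_
  have h1 : Measurable fun X : Path d => (exT A X).toNat :=
    (measurable_of_countable ENat.toNat).comp (isStop_exT A).measurable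
  have h2 : Measurable fun p : Path d × ℕ => p.1 (p.2 + i) :=
    measurable_from_prod_countable_left fun n => measurable_pi_apply (n + i)
  exact h2.comp (measurable_id.prodMk h1)

/-- the position at the exit of `A` (`X 0` if there is none) -/
noncomputable def xE (A : Set (Site d)) (X : Path d) : Site d := X (exT A X).toNat

lemma measurable_xE (A : Set (Site d)) : Measurable (xE (d := d) A) := by
  have h := (measurable_pi_apply (X := fun _ : ℕ => Site d) 0).comp (measurable_shiftT A)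
  exact h

/-- composition of exit times -/
lemma exT_add {A A' : Set (Site d)} (h : A ⊆ A') {X : Path d} {t : ℕ} (ht : exT A X = t) (m : ℕ) :
    exT A' X = (t + m : ℕ) ↔ exT A' (shift t X) = m := by
  rw [exT_eq_iff, exT_eq_iff]
  constructor
  · rintro ⟨h1, h2⟩
    exact ⟨h1, fun i hi => h2 (t + i) (by omega)⟩
  · rintro ⟨h1, h2⟩
    refine ⟨h1, fun i hi => ?_⟩
    rcases Nat.lt_or_ge i t with h3 | h3
    · exact h ((exT_eq_iff.1 ht).2 i h3)
    · have h4 := h2 (i - t) (by omega)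
      have h5 : X (t + (i - t)) ∈ A' := h4
      rwa [Nat.add_sub_cancel' h3] at h5

lemma exT_ne_top_mono {A A' : Set (Site d)} (h : A ⊆ A') {X : Path d} (hX : exT A' X ≠ ⊤) :
    exT A X ≠ ⊤ := by
  intro hT
  rw [exT_eq_top_iff] at hT
  exact hX (exT_eq_top_iff.2 fun i => h (hT i))

lemma exT_ge {A A' : Set (Site d)} (h : A ⊆ A') {X : Path d} {t m : ℕ} (ht : exT A X = t)
    (hm : exT A' X = m) : t ≤ m := by
  by_contra hlt
  push Not at hlt
  exact (exT_eq_iff.1 hm).1 (h ((exT_eq_iff.1 ht).2 m hlt))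

/-- the exit of the larger set, seen after the exit of the smaller set -/
lemma exT_shift_ne_top {A A' : Set (Site d)} (h : A ⊆ A') {X : Path d} (hX : exT A X ≠ ⊤) :
    exT A' (shift (exT A X).toNat X) ≠ ⊤ ↔ exT A' X ≠ ⊤ := by
  obtain ⟨t, ht⟩ := ENat.ne_top_iff_exists.1 hX
  rw [← ht, ENat.toNat_natCast]
  constructor
  · intro h1
    obtain ⟨m, hm⟩ := ENat.ne_top_iff_exists.1 h1
    rw [(exT_add h ht.symm m).2 hm.symm]
    exact ENat.natCast_ne_top _
  · intro h1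
    obtain ⟨m, hm⟩ := ENat.ne_top_iff_exists.1 h1
    have h2 := exT_ge h ht.symm hm.symm
    rw [(exT_add h ht.symm (m - t)).1 (by rw [Nat.add_sub_cancel' h2]; exact hm.symm)]
    exact ENat.natCast_ne_top _

lemma shift_shiftT {A A' : Set (Site d)} (h : A ⊆ A') {X : Path d} (hX : exT A' X ≠ ⊤) :
    shift (exT A' (shift (exT A X).toNat X)).toNat (shift (exT A X).toNat X)
      = shift (exT A' X).toNat X := by
  have hA := exT_ne_top_mono h hX
  obtain ⟨t, ht⟩ := ENat.ne_top_iff_exists.1 hA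
  obtain ⟨m, hm⟩ := ENat.ne_top_iff_exists.1 hX
  have h2 := exT_ge h ht.symm hm.symm
  have h3 := (exT_add h ht.symm (m - t)).1 (by rw [Nat.add_sub_cancel' h2]; exact hm.symm)
  rw [← ht, ENat.toNat_natCast, h3, ENat.toNat_natCast, ← hm, ENat.toNat_natCast]
  funext i
  show X (t + (m - t + i)) = X (m + i)
  congr 1
  omega

lemma xE_shift {A A' : Set (Site d)} (h : A ⊆ A') {X : Path d} (hX : exT A' X ≠ ⊤) :
    xE A' (shift (exT A X).toNat X) = xE A' X := by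
  have h1 := congrFun (shift_shiftT h hX) 0
  exact h1

/-! ### strong Markov with a past event -/



/-- **strong Markov at the exit of `A`, with a past event `V`, functional form** -/
theorem markF (ω : Environment d) (A : Set (Site d)) (x : Site d) {V : Set (Path d)}
    (hV : DetBy (exT A) (· ∈ V)) (hVm : MeasurableSet V) {F : Path d → ℝ≥0∞} (hF : Measurable F) :
    ∫⁻ X in {X | exT A X ≠ ⊤} ∩ V, F (shift (exT A X).toNat X) ∂quenchedLaw ω x
      = ∑' y, quenchedLaw ω x (V ∩ ExS A y) * ∫⁻ Y, F Y ∂quenchedLaw ω y := by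
  classical
  have hT : MeasurableSet {X : Path d | exT A X ≠ ⊤} := (isStop_exT A).measurableSet_ne_top
  have h := strong_markov ω x (isStop_exT A) (F := fun X Y => V.indicator 1 X * F Y)
    (fun X X' n hX hn => by
      have : V.indicator (1 : Path d → ℝ≥0∞) X = V.indicator 1 X' := by
        have := hV X X' n hX hn
        simp only [Set.indicator, this, Pi.one_apply]
      simp only [this])
    (fun X => hF.const_mul _)
  have e1 : ∫⁻ X in {X | exT A X ≠ ⊤} ∩ V, F (shift (exT A X).toNat X) ∂quenchedLaw ω x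
      = ∫⁻ X in {X | exT A X ≠ ⊤}, V.indicator 1 X * F (shift (exT A X).toNat X)
        ∂quenchedLaw ω x := by
    rw [← lintegral_indicator (hT.inter hVm), ← lintegral_indicator hT]
    refine lintegral_congr fun X => ?_
    by_cases h0 : exT A X = ⊤ <;> by_cases h1 : X ∈ V <;> simp [Set.indicator, h0, h1]
  have e2 : ∫⁻ X in {X | exT A X ≠ ⊤},
        ∫⁻ Y, V.indicator 1 X * F Y ∂quenchedLaw ω (X (exT A X).toNat) ∂quenchedLaw ω x
      = ∑' y, quenchedLaw ω x (V ∩ ExS A y) * ∫⁻ Y, F Y ∂quenchedLaw ω y := by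
    have e3 : {X : Path d | exT A X ≠ ⊤} = ⋃ y, ExS A y := by
      ext X
      rw [Set.mem_iUnion]
      constructor
      · intro h; exact ⟨_, mem_ExS_iff.2 ⟨h, rfl⟩⟩
      · rintro ⟨y, hy⟩; exact (mem_ExS_iff.1 hy).1
    rw [e3, lintegral_iUnion (fun y => measurableSet_ExS A y) (ExS_disjoint A)]
    refine tsum_congr fun y => ?_
    have e4 : ∫⁻ X in ExS A y, ∫⁻ Y, V.indicator 1 X * F Y ∂quenchedLaw ω (X (exT A X).toNat)
          ∂quenchedLaw ω x
        = ∫⁻ X in ExS A y, V.indicator 1 X * ∫⁻ Y, F Y ∂quenchedLaw ω y ∂quenchedLaw ω x := by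
      refine setLIntegral_congr_fun (measurableSet_ExS A y) fun X hX => ?_
      rw [lintegral_const_mul _ hF]
      simp only [(mem_ExS_iff.1 hX).2]
    rw [e4, lintegral_mul_const _ (measurable_one.indicator hVm), lintegral_indicator_one hVm,
      Measure.restrict_apply hVm]
  rw [e1, h, e2]

/-- strong Markov at the exit of `A`, functional form -/
theorem markF' (ω : Environment d) (A : Set (Site d)) (x : Site d) {F : Path d → ℝ≥0∞}
    (hF : Measurable F) :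
    ∫⁻ X in {X | exT A X ≠ ⊤}, F (shift (exT A X).toNat X) ∂quenchedLaw ω x
      = ∑' y, EK ω A x y * ∫⁻ Y, F Y ∂quenchedLaw ω y := by
  have h := markF ω A x (V := Set.univ) (fun X Y n _ _ => rfl) MeasurableSet.univ hF
  rw [Set.inter_univ] at h
  rw [h]
  refine tsum_congr fun y => ?_
  rw [Set.univ_inter]
  rfl

/-- a past event together with the exit site is decided inside `A` -/
lemma dec_past {A : Set (Site d)} {V : Set (Path d)} (hV : DetBy (exT A) (· ∈ V)) (y : Site d) :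
    Q561.Dec A (V ∩ ExS A y) := by
  by_cases hy : y ∈ A
  · rw [ExS_of_mem hy, Set.inter_empty]
    unfold Q561.Dec
    rw [Set.preimage_empty]
  · have e : V ∩ ExS A y = ⋃ n : ℕ, V ∩ {X : Path d | X n = y ∧ ∀ i < n, X i ∈ A} := by
      rw [ExS_eq hy, Set.inter_iUnion]
    rw [e]
    refine Q561.dec_iUnion fun n => Q561.dec_of_depOn (n := n) ?_ fun X hX k hk => hX.2.2 k hk
    intro X Y h hX
    have h1 := depOn_piece A y n X Y h hX.2
    have h2 : exT A X = n := exT_eq_iff.2 ⟨by rw [hX.2.1]; exact hy, hX.2.2⟩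
    have h3 : (X ∈ V) = (Y ∈ V) := hV X Y n (fun i hi => h i hi) h2
    exact ⟨h3 ▸ hX.1, h1⟩

lemma meas_past {A : Set (Site d)} {V : Set (Path d)} (hV : DetBy (exT A) (· ∈ V))
    (hVm : MeasurableSet V) (x y : Site d) :
    Measurable[coordSigmaAlgebra A] fun ω : Environment d => quenchedLaw ω x (V ∩ ExS A y) :=
  Q561.measurable_coord_quenched x (hVm.inter (measurableSet_ExS A y)) (dec_past hV y)

/-! ### cut levels -/

variable (ℓ : Site d →+ ℤ)

/-- `b` is a cut level -/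
def Cut (b : ℤ) : Set (Path d) :=
  {X | exT (Bl ℓ b) X ≠ ⊤ ∧ shift (exT (Bl ℓ b) X).toNat X ∈ Ntl ℓ b}

lemma measurableSet_Cut (b : ℤ) : MeasurableSet (Cut ℓ b) :=
  (isStop_exT _).measurableSet_ne_top.inter
    ((measurable_shiftT (Bl ℓ b)) (measurableSet_Ntl ℓ b))

/-- no cut level in `[l, l+t]` -/
def NoCut (l : ℤ) (t : ℕ) : Set (Path d) := {X | ∀ b, l ≤ b → b ≤ l + t → X ∉ Cut ℓ b}

lemma measurableSet_NoCut (l : ℤ) (t : ℕ) : MeasurableSet (NoCut ℓ l t) := by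
  have : NoCut ℓ l t = ⋂ b : ℤ, {X : Path d | l ≤ b → b ≤ l + t → X ∉ Cut ℓ b} := by
    ext X; simp [NoCut]
  rw [this]
  refine MeasurableSet.iInter fun b => ?_
  by_cases h1 : l ≤ b
  · by_cases h2 : b ≤ l + t
    · have : {X : Path d | l ≤ b → b ≤ l + t → X ∉ Cut ℓ b} = (Cut ℓ b)ᶜ := by
        ext X; simp [h1, h2]
      rw [this]
      exact (measurableSet_Cut ℓ b).compl
    · have : {X : Path d | l ≤ b → b ≤ l + t → X ∉ Cut ℓ b} = Set.univ := by
        ext X; simp [h2]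
      rw [this]
      exact MeasurableSet.univ
  · have : {X : Path d | l ≤ b → b ≤ l + t → X ∉ Cut ℓ b} = Set.univ := by
      ext X; simp [h1]
    rw [this]
    exact MeasurableSet.univ

lemma NoCut_anti {l : ℤ} {t t' : ℕ} (h : t ≤ t') : NoCut ℓ l t' ⊆ NoCut ℓ l t :=
  fun X hX b h1 h2 => hX b h1 (h2.trans (by have : (t : ℤ) ≤ t' := by exact_mod_cast h
                                            omega))

/-- cut levels `≥ l` are read off the path after the first hit of level `l` -/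
lemma cut_shift {l b : ℤ} (h : l ≤ b) {X : Path d} (hX : exT (Bl ℓ l) X ≠ ⊤) :
    shift (exT (Bl ℓ l) X).toNat X ∈ Cut ℓ b ↔ X ∈ Cut ℓ b := by
  have hm := Bl_mono ℓ h
  constructor
  · rintro ⟨h1, h2⟩
    have h3 := (exT_shift_ne_top hm hX).1 h1
    refine ⟨h3, ?_⟩
    rwa [shift_shiftT hm h3] at h2
  · rintro ⟨h1, h2⟩
    refine ⟨(exT_shift_ne_top hm hX).2 h1, ?_⟩
    rwa [shift_shiftT hm h1]

lemma noCut_shift {l : ℤ} {t : ℕ} {X : Path d} {m : ℤ} (hm : m ≤ l)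
    (hX : exT (Bl ℓ m) X ≠ ⊤) :
    shift (exT (Bl ℓ m) X).toNat X ∈ NoCut ℓ l t ↔ X ∈ NoCut ℓ l t := by
  unfold NoCut
  simp only [Set.mem_ofPred_eq]
  refine forall_congr' fun b => ?_
  constructor
  · intro h h1 h2 h3
    exact h h1 h2 ((cut_shift ℓ (hm.trans h1) hX).2 h3)
  · intro h h1 h2 h3
    exact h h1 h2 ((cut_shift ℓ (hm.trans h1) hX).1 h3)

end Crest.Agent.R154.Phi215
end

-- ▼ part R154/PhiB_215
section

/-!
# Row 154, helper215: (V1) of D2/VARG, part B — the any-past bound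

`AP t β` : from every site `y` of every level `l`, for every weight `a` that reads rows below `l`,
`∫ a * P_ω^y(no cut level in [l, l+t]) ≤ β ∫ a`.
`anyPast` : for every `ε ≠ 0` there is `t0` with `AP t ε` for all `t ≥ t0`.
-/

set_option autoImplicit false
set_option linter.unusedVariables false
set_option linter.unusedSectionVars false

namespace Crest.Agent.R154.Phi215

open MeasureTheory ProbabilityTheory Crest.ProbabilityR.RandomEnvironment Crest.Agent.R154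
open Crest.Agent.R154.ExK9
open scoped ENNReal

variable {d : ℕ}

/-- the exit of `Bl l` from a site of level `≤ l` is on level `l` -/
lemma EK_level (ℓ : Site d →+ ℤ) (hℓ : ∀ e : Step d, |ℓ (stepVec e)| ≤ 1) (ω : Environment d)
    {l : ℤ} {x y : Site d} (hx : ℓ x ≤ l) (hy : ℓ y ≠ l) : EK ω (Bl ℓ l) x y = 0 := by
  have h : ∀ᵐ X ∂quenchedLaw ω x, X ∉ ExS (Bl ℓ l) y := by
    filter_upwards [quenched_zero_eq ω x, quenched_nn ω x] with X h0 hnn hE
    obtain ⟨hyA, n, hn, hi'⟩ := hE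
    have hT' : l ≤ ℓ y := by
      by_contra hc
      exact hyA (lt_of_not_ge hc)
    cases n with
    | zero =>
      rw [h0] at hn
      rw [hn] at hx
      exact hy (le_antisymm hx hT')
    | succ n =>
      obtain ⟨e, he⟩ := hnn n
      have h1 : ℓ (X n) < l := hi' n (Nat.lt_succ_self n)
      have h2 := abs_le.1 (hℓ e)
      rw [← hn, he, map_add] at hT'
      rw [← hn, he, map_add] at hy
      exact hy (by omega)
  have h2 := ae_iff.1 h
  unfold EK
  simpa using h2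

lemma past_zero (ℓ : Site d →+ ℤ) (hℓ : ∀ e : Step d, |ℓ (stepVec e)| ≤ 1) (ω : Environment d)
    {l : ℤ} {x y : Site d} (hx : ℓ x ≤ l) (hy : ℓ y ≠ l) (V : Set (Path d)) :
    quenchedLaw ω x (V ∩ ExS (Bl ℓ l) y) = 0 :=
  measure_mono_null Set.inter_subset_right (EK_level ℓ hℓ ω hx hy)

variable (ℓ : Site d →+ ℤ)

/-- reaches level `l+t` at or above level `l`, and goes below `l` later -/
def HiFail (l : ℤ) (t : ℕ) : Set (Path d) :=
  {X | (∃ n, (∀ i ≤ n, X i ∈ Ab ℓ l) ∧ l + t ≤ ℓ (X n)) ∧ ∃ n, ℓ (X n) < l}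

/-- goes below `l` before reaching level `l+t` -/
def LoFail (l : ℤ) (t : ℕ) : Set (Path d) :=
  {X | ∃ n, ℓ (X n) < l ∧ ∀ i ≤ n, X i ∈ Bl ℓ (l + t)}

lemma measurableSet_HiFail (l : ℤ) (t : ℕ) : MeasurableSet (HiFail ℓ l t) := by
  have e : HiFail ℓ l t = (⋃ n : ℕ, {X : Path d | (∀ i ≤ n, X i ∈ Ab ℓ l) ∧ l + t ≤ ℓ (X n)}) ∩
      ⋃ n : ℕ, {X : Path d | ℓ (X n) < l} := by
    ext X; simp [HiFail]
  rw [e]
  refine MeasurableSet.inter (MeasurableSet.iUnion fun n => ?_) (MeasurableSet.iUnion fun n => ?_)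
  · refine measurableSet_of_agree n _ fun X Y h => ?_
    simp only [Set.mem_ofPred_eq, h n le_rfl]
    constructor
    · rintro ⟨h1, h2⟩; exact ⟨fun i hi => by rw [← h i hi]; exact h1 i hi, h2⟩
    · rintro ⟨h1, h2⟩; exact ⟨fun i hi => by rw [h i hi]; exact h1 i hi, h2⟩
  · exact measurableSet_of_agree n _ fun X Y h => by simp only [Set.mem_ofPred_eq, h n le_rfl]

lemma measurableSet_LoFail (l : ℤ) (t : ℕ) : MeasurableSet (LoFail ℓ l t) := by
  have e : LoFail ℓ l t = ⋃ n : ℕ, {X : Path d | ℓ (X n) < l ∧ ∀ i ≤ n, X i ∈ Bl ℓ (l + t)} := by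
    ext X; simp [LoFail]
  rw [e]
  refine MeasurableSet.iUnion fun n => measurableSet_of_agree n _ fun X Y h => ?_
  simp only [Set.mem_ofPred_eq, h n le_rfl]
  constructor
  · rintro ⟨h1, h2⟩; exact ⟨h1, fun i hi => by rw [← h i hi]; exact h2 i hi⟩
  · rintro ⟨h1, h2⟩; exact ⟨h1, fun i hi => by rw [h i hi]; exact h2 i hi⟩

/-- `HiFail` is decided at the exit of `Ab l` -/
lemma dec_HiFail (l : ℤ) (t : ℕ) : Q561.Dec (Ab ℓ l) (HiFail ℓ l t) := by
  have e : HiFail ℓ l t = ⋃ n : ℕ, {X : Path d | (∃ m < n, l + t ≤ ℓ (X m)) ∧ ℓ (X n) < l ∧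
      ∀ i < n, X i ∈ Ab ℓ l} := by
    ext X
    simp only [HiFail, Set.mem_ofPred_eq, Set.mem_iUnion]
    constructor
    · rintro ⟨⟨n, h1, h2⟩, hex⟩
      classical
      have hf := Nat.find_spec hex
      have hm : n < Nat.find hex := by
        by_contra hc
        push Not at hc
        have h3 : l ≤ ℓ (X (Nat.find hex)) := h1 _ hc
        omega
      refine ⟨Nat.find hex, ⟨n, hm, h2⟩, hf, fun i hi => ?_⟩
      have := Nat.find_min hex hi
      show l ≤ ℓ (X i)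
      omega
    · rintro ⟨n, ⟨m, hm, h2⟩, h3, h4⟩
      exact ⟨⟨m, fun i hi => h4 i (lt_of_le_of_lt hi hm), h2⟩, n, h3⟩
  rw [e]
  refine Q561.dec_iUnion fun n => Q561.dec_of_depOn (n := n) ?_ fun X hX k hk => hX.2.2 k hk
  intro X Y h hX
  obtain ⟨⟨m, hm, h2⟩, h3, h4⟩ := hX
  exact ⟨⟨m, hm, by rw [← h m hm.le]; exact h2⟩, by rw [← h n le_rfl]; exact h3,
    fun i hi => by rw [← h i hi.le]; exact h4 i hi⟩

lemma detBy_LoFail (l : ℤ) (t : ℕ) : DetBy (exT (Bl ℓ (l + t))) (· ∈ LoFail ℓ l t) := by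
  have key : ∀ X Y : Path d, ∀ n : ℕ, Agree n X Y → exT (Bl ℓ (l + t)) X = n →
      X ∈ LoFail ℓ l t → Y ∈ LoFail ℓ l t := by
    rintro X Y n hXY hn ⟨m, h1, h2⟩
    have hmn : m < n := by
      by_contra hc
      push Not at hc
      exact (exT_eq_iff.1 hn).1 (h2 n hc)
    exact ⟨m, by rw [← hXY m hmn.le]; exact h1, fun i hi => by
      rw [← hXY i (hi.trans hmn.le)]; exact h2 i hi⟩
  intro X Y n hXY hn
  exact propext ⟨key X Y n hXY hn, key Y X n hXY.symm (isStop_exT _ X Y n hXY hn)⟩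

/-- first attempt -/
lemma noCut_sub {l : ℤ} {t : ℕ} {X : Path d} (h0 : ℓ (X 0) = l) (hX : X ∈ NoCut ℓ l (2 * t)) :
    X ∈ HiFail ℓ l t ∨ (X ∈ LoFail ℓ l t ∧ (exT (Bl ℓ (l + t)) X ≠ ⊤ →
      shift (exT (Bl ℓ (l + t)) X).toNat X ∈ NoCut ℓ (l + t) t)) := by
  classical
  have h1 : X ∉ Cut ℓ l := hX l le_rfl (by omega)
  have h2 : exT (Bl ℓ l) X = (0 : ℕ) := exT_eq_iff.2 ⟨fun h => by
    have : ℓ (X 0) < l := h
    omega, fun i hi => absurd hi (Nat.not_lt_zero i)⟩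
  have hex : ∃ n, ℓ (X n) < l := by
    by_contra hc
    push Not at hc
    refine h1 ⟨by rw [h2]; exact ENat.natCast_ne_top 0, ?_⟩
    rw [h2, ENat.toNat_natCast]
    intro n
    show l ≤ ℓ (X (0 + n))
    rw [zero_add]; exact hc n
  by_cases hr : ∃ i < Nat.find hex, l + t ≤ ℓ (X i)
  · left
    obtain ⟨i, hi, h3⟩ := hr
    refine ⟨⟨i, fun j hj => ?_, h3⟩, hex⟩
    have := Nat.find_min hex (lt_of_le_of_lt hj hi)
    show l ≤ ℓ (X j)
    omega
  · right
    push Not at hr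
    refine ⟨⟨Nat.find hex, Nat.find_spec hex, fun i hi => ?_⟩, fun hT => ?_⟩
    · rcases hi.lt_or_eq with h | h
      · exact hr i h
      · have := Nat.find_spec hex
        rw [← h] at this
        show ℓ (X i) < l + t
        omega
    · rw [noCut_shift ℓ le_rfl hT]
      intro b hb1 hb2
      exact hX b (by omega) (by push_cast; omega)

section bound

variable (ν : Measure (Row d)) [IsProbabilityMeasure ν]

/-- **any-past bound** with constant `β` -/
def AP (t : ℕ) (β : ℝ≥0∞) : Prop :=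
  ∀ (l : ℤ) (y : Site d), ℓ y = l → ∀ a : Environment d → ℝ≥0∞,
    Measurable[coordSigmaAlgebra (Bl ℓ l)] a →
    ∫⁻ ω, a ω * quenchedLaw ω y (NoCut ℓ l t) ∂(iidEnvironmentLaw ν)
      ≤ β * ∫⁻ ω, a ω ∂(iidEnvironmentLaw ν)

/-- probability of a failed attempt -/
noncomputable def rr : ℝ≥0∞ := annealedProb (iidEnvironmentLaw ν) 0 (Ntl ℓ 0)ᶜ

/-- probability of a failed attempt of height `≥ t` -/
noncomputable def pi (t : ℕ) : ℝ≥0∞ := annealedProb (iidEnvironmentLaw ν) 0 (HiFail ℓ 0 t)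

variable {ℓ} {ν}

lemma coord_meas_top {A : Set (Site d)} {f : Environment d → ℝ≥0∞}
    (hf : Measurable[coordSigmaAlgebra A] f) : Measurable f := hf.mono (Q561.coord_le A) le_rfl

lemma ann_Ntl (y : Site d) :
    annealedProb (iidEnvironmentLaw ν) y (Ntl ℓ (ℓ y))ᶜ = rr ℓ ν := by
  rw [Q561.annealed_eq_zero_shift (Q561.iid_shift ν) y (measurableSet_Ntl ℓ _).compl]
  unfold rr
  congr 1
  ext X
  simp [Q561.tr, Ntl]

lemma ann_HiFail (y : Site d) (t : ℕ) :
    annealedProb (iidEnvironmentLaw ν) y (HiFail ℓ (ℓ y) t) = pi ℓ ν t := by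
  rw [Q561.annealed_eq_zero_shift (Q561.iid_shift ν) y (measurableSet_HiFail ℓ _ t)]
  unfold pi
  congr 1
  ext X
  simp only [Q561.tr, HiFail, Ab, Set.mem_preimage, Set.mem_ofPred_eq, map_add]
  have e1 : ∀ z : Site d, (ℓ y ≤ ℓ z + ℓ y ↔ 0 ≤ ℓ z) := fun z => by constructor <;> intro h <;> omega
  have e2 : ∀ z : Site d, (ℓ z + ℓ y < ℓ y ↔ ℓ z < 0) := fun z => by constructor <;> intro h <;> omega
  have e3 : ∀ z : Site d, (ℓ y + t ≤ ℓ z + ℓ y ↔ 0 + (t : ℤ) ≤ ℓ z) := fun z => by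
    constructor <;> intro h <;> omega
  simp only [e1, e2, e3]

/-- a past weight and an event above level `l` -/
lemma lint_past (l : ℤ) {a : Environment d → ℝ≥0∞}
    (ha : Measurable[coordSigmaAlgebra (Bl ℓ l)] a) (y : Site d) {E : Set (Path d)}
    (hE : MeasurableSet E) (hd : Q561.Dec (Ab ℓ l) E) :
    ∫⁻ ω, a ω * quenchedLaw ω y E ∂(iidEnvironmentLaw ν)
      = (∫⁻ ω, a ω ∂(iidEnvironmentLaw ν)) * annealedProb (iidEnvironmentLaw ν) y E :=
  lint_mul ν (disj_Bl_Ab ℓ l) ha (Q561.measurable_coord_quenched y hE hd)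

/-- every level is reached -/
def Reach (ℓ : Site d →+ ℤ) : Set (Path d) := {X | ∀ l : ℤ, exT (Bl ℓ l) X ≠ ⊤}

lemma measurableSet_Reach : MeasurableSet (Reach ℓ : Set (Path d)) := by
  have : (Reach ℓ : Set (Path d)) = ⋂ l : ℤ, {X | exT (Bl ℓ l) X ≠ ⊤} := by ext X; simp [Reach]
  rw [this]
  exact MeasurableSet.iInter fun l => (isStop_exT _).measurableSet_ne_top

lemma tr_Reach (y : Site d) : Q561.tr y ⁻¹' (Reach ℓ) = (Reach ℓ : Set (Path d)) := by
  ext X
  have key : ∀ l : ℤ, exT (Bl ℓ l) (Q561.tr y X) = ⊤ ↔ exT (Bl ℓ (l - ℓ y)) X = ⊤ := by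
    intro l
    rw [exT_eq_top_iff, exT_eq_top_iff]
    refine forall_congr' fun i => ?_
    show ℓ (X i + y) < l ↔ ℓ (X i) < l - ℓ y
    rw [map_add]
    constructor <;> intro h <;> omega
  constructor
  · intro h l h2
    have := h (l + ℓ y)
    rw [Ne, key, add_sub_cancel_right] at this
    exact this h2
  · intro h l
    rw [Ne, key]
    exact h _

lemma ae_reach (hR : annealedProb (iidEnvironmentLaw ν) 0 (Reach ℓ) = 1) (y : Site d) :
    ∀ᵐ ω ∂(iidEnvironmentLaw ν), ∀ᵐ X ∂quenchedLaw ω y, X ∈ (Reach ℓ : Set (Path d)) := by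
  have h1 : annealedProb (iidEnvironmentLaw ν) y (Reach ℓ) = 1 := by
    rw [Q561.annealed_eq_zero_shift (Q561.iid_shift ν) y measurableSet_Reach, tr_Reach, hR]
  have hm := measurable_quenched_apply (d := d) y (measurableSet_Reach (ℓ := ℓ))
  have h2 : ∫⁻ ω, quenchedLaw ω y (Reach ℓ)ᶜ ∂(iidEnvironmentLaw ν) = 0 := by
    have h3 : ∀ ω : Environment d, quenchedLaw ω y (Reach ℓ)ᶜ = 1 - quenchedLaw ω y (Reach ℓ) :=
      fun ω => prob_compl_eq_one_sub measurableSet_Reach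
    simp only [h3]
    rw [lintegral_sub hm (by unfold annealedProb at h1; rw [h1]; exact ENNReal.one_ne_top)
      (Filter.Eventually.of_forall fun ω => prob_le_one)]
    unfold annealedProb at h1
    rw [h1]
    simp
  rw [lintegral_eq_zero_iff (measurable_quenched_apply y measurableSet_Reach.compl)] at h2
  filter_upwards [h2] with ω hω
  rw [ae_iff]
  exact hω

/-- **recursion** -/
theorem AP_step (hℓ : ∀ e : Step d, |ℓ (stepVec e)| ≤ 1)
    (hR : annealedProb (iidEnvironmentLaw ν) 0 (Reach ℓ) = 1) {t : ℕ} {β : ℝ≥0∞}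
    (h : AP ℓ ν t β) : AP ℓ ν (2 * t) (rr ℓ ν * β + pi ℓ ν t) := by
  intro l y hy a ha
  have hNm := measurableSet_NoCut ℓ (l + t) t
  set Q := iidEnvironmentLaw ν
  -- pointwise bound
  have hpt : ∀ᵐ ω ∂Q, quenchedLaw ω y (NoCut ℓ l (2 * t))
      ≤ quenchedLaw ω y (HiFail ℓ l t) + ∑' y', quenchedLaw ω y (LoFail ℓ l t ∩
          ExS (Bl ℓ (l + t)) y') * quenchedLaw ω y' (NoCut ℓ (l + t) t) := by
    filter_upwards [ae_reach hR y] with ω hω
    have hF := markF ω (Bl ℓ (l + t)) y (V := LoFail ℓ l t) (detBy_LoFail ℓ l t)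
      (measurableSet_LoFail ℓ l t) (F := (NoCut ℓ (l + t) t).indicator 1)
      (measurable_one.indicator hNm)
    simp only [lintegral_indicator_one hNm] at hF
    rw [← hF]
    have hS : MeasurableSet ({X : Path d | exT (Bl ℓ (l + t)) X ≠ ⊤} ∩ LoFail ℓ l t) :=
      (isStop_exT _).measurableSet_ne_top.inter (measurableSet_LoFail ℓ l t)
    have hB := (measurable_shiftT (Bl ℓ (l + t))) hNm
    have e1 : ∫⁻ X in {X | exT (Bl ℓ (l + t)) X ≠ ⊤} ∩ LoFail ℓ l t,
        (NoCut ℓ (l + t) t).indicator 1 (shift (exT (Bl ℓ (l + t)) X).toNat X) ∂quenchedLaw ω y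
        = quenchedLaw ω y (((fun X : Path d => shift (exT (Bl ℓ (l + t)) X).toNat X) ⁻¹'
            NoCut ℓ (l + t) t) ∩ ({X | exT (Bl ℓ (l + t)) X ≠ ⊤} ∩ LoFail ℓ l t)) := by
      rw [← Measure.restrict_apply hB, ← lintegral_indicator_one hB]
      rfl
    rw [e1]
    refine le_trans ?_ (measure_union_le _ _)
    refine measure_mono_ae ?_
    filter_upwards [hω, quenched_zero_eq ω y] with X hX h0 hXN
    rcases noCut_sub ℓ (t := t) (by rw [h0, hy]) hXN with h1 | ⟨h1, h2⟩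
    · exact Or.inl h1
    · exact Or.inr ⟨h2 (hX _), hX _, h1⟩
  have hm1 : Measurable fun ω : Environment d => a ω * quenchedLaw ω y (HiFail ℓ l t) :=
    (coord_meas_top ha).mul (measurable_quenched_apply y (measurableSet_HiFail ℓ l t))
  have hLm : ∀ y', Measurable[coordSigmaAlgebra (Bl ℓ (l + t))] fun ω : Environment d =>
      a ω * quenchedLaw ω y (LoFail ℓ l t ∩ ExS (Bl ℓ (l + t)) y') := fun y' =>
    (ha.mono (coord_mono (Bl_mono ℓ (by omega))) le_rfl).mul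
      (meas_past (detBy_LoFail ℓ l t) (measurableSet_LoFail ℓ l t) y y')
  calc ∫⁻ ω, a ω * quenchedLaw ω y (NoCut ℓ l (2 * t)) ∂Q
      ≤ ∫⁻ ω, (a ω * quenchedLaw ω y (HiFail ℓ l t) + ∑' y', a ω * quenchedLaw ω y
          (LoFail ℓ l t ∩ ExS (Bl ℓ (l + t)) y') * quenchedLaw ω y' (NoCut ℓ (l + t) t)) ∂Q := by
        refine lintegral_mono_ae ?_
        filter_upwards [hpt] with ω hω
        refine (mul_le_mul' le_rfl hω : a ω * _ ≤ a ω * _).trans ?_
        rw [mul_add, ← ENNReal.tsum_mul_left]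
        simp only [mul_assoc]
        exact le_rfl
    _ = ∫⁻ ω, a ω * quenchedLaw ω y (HiFail ℓ l t) ∂Q + ∑' y', ∫⁻ ω, a ω * quenchedLaw ω y
          (LoFail ℓ l t ∩ ExS (Bl ℓ (l + t)) y') * quenchedLaw ω y' (NoCut ℓ (l + t) t) ∂Q := by
        rw [lintegral_add_left hm1, lintegral_tsum]
        intro y'
        exact ((coord_meas_top (hLm y')).mul (measurable_quenched_apply y' hNm)).aemeasurable
    _ ≤ (∫⁻ ω, a ω ∂Q) * pi ℓ ν t + ∑' y', β * ∫⁻ ω, a ω * quenchedLaw ω y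
          (LoFail ℓ l t ∩ ExS (Bl ℓ (l + t)) y') ∂Q := by
        refine add_le_add ?_ (ENNReal.tsum_le_tsum fun y' => ?_)
        · rw [lint_past l ha y (measurableSet_HiFail ℓ l t) (dec_HiFail ℓ l t), ← hy,
            ann_HiFail]
        · by_cases hy' : ℓ y' = l + t
          · exact h (l + t) y' hy' _ (hLm y')
          · have hz : ∀ ω : Environment d, quenchedLaw ω y (LoFail ℓ l t ∩
                ExS (Bl ℓ (l + t)) y') = 0 := fun ω =>
              past_zero ℓ hℓ ω (by rw [hy]; omega) hy' _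
            simp [hz]
    _ = (∫⁻ ω, a ω ∂Q) * pi ℓ ν t + β * ∫⁻ ω, a ω * quenchedLaw ω y
          (LoFail ℓ l t ∩ {X | exT (Bl ℓ (l + t)) X ≠ ⊤}) ∂Q := by
        rw [ENNReal.tsum_mul_left, ← lintegral_tsum fun y' => (coord_meas_top (hLm y')).aemeasurable]
        congr 2
        refine lintegral_congr fun ω => ?_
        rw [ENNReal.tsum_mul_left]
        congr 1
        have e3 : LoFail ℓ l t ∩ {X : Path d | exT (Bl ℓ (l + t)) X ≠ ⊤}
            = ⋃ y', LoFail ℓ l t ∩ ExS (Bl ℓ (l + t)) y' := by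
          rw [← Set.inter_iUnion]
          congr 1
          ext X
          rw [Set.mem_iUnion]
          constructor
          · intro h; exact ⟨_, mem_ExS_iff.2 ⟨h, rfl⟩⟩
          · rintro ⟨y, hy⟩; exact (mem_ExS_iff.1 hy).1
        rw [e3, measure_iUnion]
        · intro y1 y2 h12
          exact (ExS_disjoint _ h12).mono Set.inter_subset_right Set.inter_subset_right
        · intro y1
          exact (measurableSet_LoFail ℓ l t).inter (measurableSet_ExS _ _)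
    _ ≤ (∫⁻ ω, a ω ∂Q) * pi ℓ ν t + β * ((∫⁻ ω, a ω ∂Q) * rr ℓ ν) := by
        gcongr
        have h4 : ∫⁻ ω, a ω * quenchedLaw ω y (Ntl ℓ l)ᶜ ∂Q = (∫⁻ ω, a ω ∂Q) * rr ℓ ν := by
          rw [lint_past l ha y (measurableSet_Ntl ℓ l).compl (dec_Ntl ℓ l).compl, ← hy, ann_Ntl]
        rw [← h4]
        refine lintegral_mono fun ω => ?_
        refine mul_le_mul' le_rfl (measure_mono ?_)
        rintro X ⟨⟨n, hn, -⟩, -⟩ hX
        have := hX n
        omega
    _ = (rr ℓ ν * β + pi ℓ ν t) * ∫⁻ ω, a ω ∂Q := by ring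

lemma AP_mono {t t' : ℕ} {β β' : ℝ≥0∞} (ht : t ≤ t') (hβ : β ≤ β') (h : AP ℓ ν t β) :
    AP ℓ ν t' β' := by
  intro l y hy a ha
  refine le_trans (lintegral_mono fun ω => ?_) ((h l y hy a ha).trans (by gcongr))
  exact mul_le_mul' le_rfl (measure_mono (NoCut_anti ℓ ht))

lemma AP_one (t : ℕ) : AP ℓ ν t 1 := by
  intro l y hy a ha
  rw [one_mul]
  refine lintegral_mono fun ω => ?_
  exact (mul_le_mul' le_rfl prob_le_one).trans (by rw [mul_one])


lemma pi_tendsto : Filter.Tendsto (pi ℓ ν) Filter.atTop (nhds 0) := by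
  have e : ∀ t, pi ℓ ν t = annealed (iidEnvironmentLaw ν) 0 (HiFail ℓ 0 t) := fun t => by
    rw [annealed_apply _ _ (measurableSet_HiFail ℓ 0 t)]; rfl
  have hanti : Antitone fun t : ℕ => HiFail ℓ (0 : ℤ) t := by
    intro t t' h
    rintro X ⟨⟨n, h1, h2⟩, h3⟩
    exact ⟨⟨n, h1, by have : (t : ℤ) ≤ t' := by exact_mod_cast h
                      omega⟩, h3⟩
  have hint : ⋂ t : ℕ, HiFail ℓ (0 : ℤ) t = ∅ := by
    rw [Set.eq_empty_iff_forall_notMem]
    intro X hX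
    rw [Set.mem_iInter] at hX
    obtain ⟨_, m, hm⟩ := hX 0
    -- all levels reached before time `m` are bounded
    have hb : ∃ t : ℕ, ∀ i ≤ m, ℓ (X i) < t := by
      refine ⟨(∑ i ∈ Finset.range (m + 1), (ℓ (X i)).toNat) + 1, fun i hi => ?_⟩
      have h1 : (ℓ (X i)).toNat ≤ ∑ i ∈ Finset.range (m + 1), (ℓ (X i)).toNat :=
        Finset.single_le_sum (f := fun i => (ℓ (X i)).toNat) (fun _ _ => Nat.zero_le _)
          (Finset.mem_range.2 (by omega))
      have h2 := Int.self_le_toNat (ℓ (X i))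
      push_cast
      have h3 : ((ℓ (X i)).toNat : ℤ) ≤ ((∑ i ∈ Finset.range (m + 1), (ℓ (X i)).toNat : ℕ) : ℤ) := by
        exact_mod_cast h1
      push_cast at h3
      omega
    obtain ⟨t, ht⟩ := hb
    obtain ⟨⟨n, h1, h2⟩, _⟩ := hX t
    rcases le_or_gt n m with h | h
    · have := ht n h
      omega
    · have h3 : 0 ≤ ℓ (X m) := h1 m h.le
      omega
  have h := tendsto_measure_iInter_atTop (μ := annealed (iidEnvironmentLaw ν) 0)
    (fun t => (measurableSet_HiFail ℓ 0 t).nullMeasurableSet) hanti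
    ⟨0, measure_ne_top _ _⟩
  rw [hint, measure_empty] at h
  exact h.congr fun t => (e t).symm

lemma rr_lt_one (hp : annealedProb (iidEnvironmentLaw ν) 0 (Ntl ℓ 0) ≠ 0) : rr ℓ ν < 1 := by
  unfold rr
  rw [← annealed_apply _ _ (measurableSet_Ntl ℓ 0).compl,
    prob_compl_eq_one_sub (measurableSet_Ntl ℓ 0), annealed_apply _ _ (measurableSet_Ntl ℓ 0)]
  exact ENNReal.sub_lt_self ENNReal.one_ne_top one_ne_zero hp

/-- **the any-past bound tends to zero** -/
theorem anyPast (hℓ : ∀ e : Step d, |ℓ (stepVec e)| ≤ 1)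
    (hR : annealedProb (iidEnvironmentLaw ν) 0 (Reach ℓ) = 1)
    (hp : annealedProb (iidEnvironmentLaw ν) 0 (Ntl ℓ 0) ≠ 0) {ε : ℝ≥0∞} (hε : ε ≠ 0) :
    ∃ t0, ∀ t, t0 ≤ t → AP ℓ ν t ε := by
  set r := rr ℓ ν with hr
  have hr1 : r < 1 := rr_lt_one hp
  have h1r : 1 - r ≠ 0 := (tsub_pos_of_lt hr1).ne'
  have h1r' : 1 - r ≠ ⊤ := ENNReal.sub_ne_top ENNReal.one_ne_top
  by_cases hεt : ε = ⊤
  · subst hεt
    exact ⟨0, fun t _ => AP_mono (zero_le) le_top (AP_one 0)⟩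
  have hδ : ε / 2 * (1 - r) ≠ 0 := mul_ne_zero (ENNReal.div_ne_zero.2 ⟨hε, ENNReal.ofNat_ne_top⟩) h1r
  obtain ⟨t1, ht1⟩ := Filter.eventually_atTop.1
    ((ENNReal.tendsto_nhds_zero.1 (pi_tendsto (ℓ := ℓ) (ν := ν))) _ (pos_iff_ne_zero.2 hδ))
  obtain ⟨m, hm⟩ := Filter.eventually_atTop.1
    ((ENNReal.tendsto_nhds_zero.1 (ENNReal.tendsto_pow_atTop_nhds_zero_of_lt_one hr1)) (ε / 2)
      (pos_iff_ne_zero.2 (ENNReal.div_ne_zero.2 ⟨hε, ENNReal.ofNat_ne_top⟩)))
  have key : ∀ k : ℕ, AP ℓ ν (2 ^ k * t1) (r ^ k + (ε / 2 * (1 - r)) * ∑ i ∈ Finset.range k, r ^ i) := by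
    intro k
    induction k with
    | zero => simpa using AP_mono le_rfl le_rfl (AP_one (ℓ := ℓ) (ν := ν) t1)
    | succ k ih =>
      have h2 := AP_step hℓ hR ih
      have e : 2 * (2 ^ k * t1) = 2 ^ (k + 1) * t1 := by ring
      rw [e] at h2
      refine AP_mono le_rfl ?_ h2
      have h3 : pi ℓ ν (2 ^ k * t1) ≤ ε / 2 * (1 - r) :=
        (ht1 _ (Nat.le_mul_of_pos_left t1 (pow_pos (by norm_num) k)))
      rw [Finset.sum_range_succ']
      calc rr ℓ ν * (r ^ k + ε / 2 * (1 - r) * ∑ i ∈ Finset.range k, r ^ i) + pi ℓ ν (2 ^ k * t1)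
          ≤ r * (r ^ k + ε / 2 * (1 - r) * ∑ i ∈ Finset.range k, r ^ i) + ε / 2 * (1 - r) := by
            gcongr
        _ = r ^ (k + 1) + ε / 2 * (1 - r) * (∑ i ∈ Finset.range k, r ^ (i + 1) + r ^ 0) := by
            simp only [pow_succ, ← Finset.sum_mul, pow_zero]
            ring
  refine ⟨2 ^ m * t1, fun t ht => AP_mono ht ?_ (key m)⟩
  have h4 : ∑ i ∈ Finset.range m, r ^ i ≤ (1 - r)⁻¹ := by
    rw [← ENNReal.tsum_geometric]
    exact ENNReal.sum_le_tsum _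
  calc r ^ m + ε / 2 * (1 - r) * ∑ i ∈ Finset.range m, r ^ i
      ≤ ε / 2 + ε / 2 * (1 - r) * (1 - r)⁻¹ := by
        gcongr
        exact hm m le_rfl
    _ = ε := by
        rw [mul_assoc, ENNReal.mul_inv_cancel h1r h1r', mul_one, ENNReal.add_halves]

end bound

end Crest.Agent.R154.Phi215
end

-- ▼ part R154/PhiC_215
section

/-!
# Row 154, helper215: (V1) of D2/VARG, part C — decomposition at the first cut level

* `An ν y F` : annealed expectation of a path functional;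
* `FC l i` : the first cut level `≥ l` is `l + i`;
* `first_cut` : `∫ a(ω) E_ω^y F ≤ (H / p) ∫ a + Σ_{i ≤ t} ∫ a(ω) E_ω^y err_i + β ∫ a`
  for every weight `a` which reads rows below the level of `y`;
* `tight` : `∫ min(1, ε |σ x_{m+i} - σ x_m|)` is small uniformly in `m`.
-/

set_option autoImplicit false
set_option linter.unusedVariables false
set_option linter.unusedSectionVars false

namespace Crest.Agent.R154.Phi215

open MeasureTheory ProbabilityTheory Crest.ProbabilityR.RandomEnvironment Crest.Agent.R154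
open Crest.Agent.R154.ExK9
open scoped ENNReal

variable {d : ℕ}

/-- annealed expectation of a functional -/
noncomputable def An (ν : Measure (Row d)) [IsProbabilityMeasure ν] (y : Site d)
    (F : Path d → ℝ≥0∞) : ℝ≥0∞ :=
  ∫⁻ ω, ∫⁻ X, F X ∂quenchedLaw ω y ∂(iidEnvironmentLaw ν)

lemma meas_qlint {F : Path d → ℝ≥0∞} (hF : Measurable F) (y : Site d) :
    Measurable fun ω : Environment d => ∫⁻ X, F X ∂quenchedLaw ω y :=
  hF.lintegral_kernel (κ := Q561.qK y)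

section an
variable (ν : Measure (Row d)) [IsProbabilityMeasure ν]

lemma An_shift {F : Path d → ℝ≥0∞} (hF : Measurable F) (x z : Site d) :
    An ν (x + z) F = An ν x (fun X => F (Q561.tr z X)) := by
  unfold An
  have e : ∀ ω : Environment d, ∫⁻ X, F X ∂quenchedLaw ω (x + z)
      = ∫⁻ X, F (Q561.tr z X) ∂quenchedLaw (shiftEnv z ω) x := by
    intro ω
    rw [← Q561.quenched_shift, lintegral_map hF (Q561.measurable_tr z)]
  simp only [e]
  exact (Q561.iid_shift ν z).lintegral_comp (meas_qlint (hF.comp (Q561.measurable_tr z)) x)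

lemma An_zero {F : Path d → ℝ≥0∞} (hF : Measurable F) (y : Site d) :
    An ν y F = An ν 0 (fun X => F (Q561.tr y X)) := by
  have := An_shift ν hF 0 y
  rwa [zero_add] at this

lemma An_mono {F G : Path d → ℝ≥0∞} {y : Site d} (h : ∀ X, F X ≤ G X) : An ν y F ≤ An ν y G :=
  lintegral_mono fun ω => lintegral_mono h


lemma An_le_one {F : Path d → ℝ≥0∞} {y : Site d} (h : ∀ X, F X ≤ 1) : An ν y F ≤ 1 := by
  have h1 : An ν y F ≤ ∫⁻ _ω : Environment d, 1 ∂(iidEnvironmentLaw ν) :=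
    lintegral_mono fun ω => (lintegral_mono h).trans (by simp)
  exact h1.trans (by simp)

end an

/-! ### first cut level -/

variable (ℓ : Site d →+ ℤ)

/-- no cut level in `[l, l+i)`, seen at the first hit of level `l+i` -/
def Vv (l : ℤ) (i : ℕ) : Set (Path d) :=
  {X | ∀ k : ℕ, k < i → ∃ n, (∀ m ≤ n, X m ∈ Bl ℓ (l + i)) ∧ ℓ (X n) < l + k ∧
    ∃ m ≤ n, l + k ≤ ℓ (X m)}

/-- the first cut level `≥ l` is `l + i` -/
def FC (l : ℤ) (i : ℕ) : Set (Path d) :=
  {X | X ∈ Cut ℓ (l + i) ∧ ∀ k : ℕ, k < i → X ∉ Cut ℓ (l + k)}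

lemma measurableSet_FC (l : ℤ) (i : ℕ) : MeasurableSet (FC ℓ l i) := by
  have e : FC ℓ l i = Cut ℓ (l + i) ∩ ⋂ k : ℕ, {X : Path d | k < i → X ∉ Cut ℓ (l + k)} := by
    ext X; simp [FC]
  rw [e]
  refine (measurableSet_Cut ℓ _).inter (MeasurableSet.iInter fun k => ?_)
  by_cases hk : k < i
  · have : {X : Path d | k < i → X ∉ Cut ℓ (l + k)} = (Cut ℓ (l + k))ᶜ := by ext X; simp [hk]
    rw [this]; exact (measurableSet_Cut ℓ _).compl
  · have : {X : Path d | k < i → X ∉ Cut ℓ (l + k)} = Set.univ := by ext X; simp [hk]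
    rw [this]; exact MeasurableSet.univ

lemma measurableSet_Vv (l : ℤ) (i : ℕ) : MeasurableSet (Vv ℓ l i) := by
  have e : Vv ℓ l i = ⋂ k : ℕ, {X : Path d | k < i → ∃ n, (∀ m ≤ n, X m ∈ Bl ℓ (l + i)) ∧
      ℓ (X n) < l + k ∧ ∃ m ≤ n, l + k ≤ ℓ (X m)} := by
    ext X; simp [Vv]
  rw [e]
  refine MeasurableSet.iInter fun k => ?_
  by_cases hk : k < i
  · have : {X : Path d | k < i → ∃ n, (∀ m ≤ n, X m ∈ Bl ℓ (l + i)) ∧
      ℓ (X n) < l + k ∧ ∃ m ≤ n, l + k ≤ ℓ (X m)} = ⋃ n : ℕ, {X : Path d |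
        (∀ m ≤ n, X m ∈ Bl ℓ (l + i)) ∧ ℓ (X n) < l + k ∧ ∃ m ≤ n, l + k ≤ ℓ (X m)} := by
      ext X; simp [hk]
    rw [this]
    refine MeasurableSet.iUnion fun n => measurableSet_of_agree n _ fun X Y h => ?_
    simp only [Set.mem_ofPred_eq, h n le_rfl]
    constructor
    · rintro ⟨h1, h2, m, hm, h3⟩
      exact ⟨fun j hj => by rw [← h j hj]; exact h1 j hj, h2, m, hm, by rw [← h m hm]; exact h3⟩
    · rintro ⟨h1, h2, m, hm, h3⟩
      exact ⟨fun j hj => by rw [h j hj]; exact h1 j hj, h2, m, hm, by rw [h m hm]; exact h3⟩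
  · have : {X : Path d | k < i → ∃ n, (∀ m ≤ n, X m ∈ Bl ℓ (l + i)) ∧
      ℓ (X n) < l + k ∧ ∃ m ≤ n, l + k ≤ ℓ (X m)} = Set.univ := by ext X; simp [hk]
    rw [this]; exact MeasurableSet.univ

lemma detBy_Vv (l : ℤ) (i : ℕ) : DetBy (exT (Bl ℓ (l + i))) (· ∈ Vv ℓ l i) := by
  have key : ∀ X Y : Path d, ∀ n : ℕ, Agree n X Y → exT (Bl ℓ (l + i)) X = n →
      X ∈ Vv ℓ l i → Y ∈ Vv ℓ l i := by
    intro X Y n hXY hn hX k hk
    obtain ⟨m, h1, h2, j, hj, h3⟩ := hX k hk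
    have hmn : m < n := by
      by_contra hc
      push Not at hc
      exact (exT_eq_iff.1 hn).1 (h1 n hc)
    exact ⟨m, fun j hj => by rw [← hXY j (hj.trans hmn.le)]; exact h1 j hj,
      by rw [← hXY m hmn.le]; exact h2, j, hj, by rw [← hXY j (hj.trans hmn.le)]; exact h3⟩
  intro X Y n hXY hn
  exact propext ⟨key X Y n hXY hn, key Y X n hXY.symm (isStop_exT _ X Y n hXY hn)⟩

lemma FC_eq (l : ℤ) (i : ℕ) : FC ℓ l i = ({X | exT (Bl ℓ (l + i)) X ≠ ⊤} ∩ Vv ℓ l i) ∩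
    (fun X : Path d => shift (exT (Bl ℓ (l + i)) X).toNat X) ⁻¹' Ntl ℓ (l + i) := by
  ext X
  constructor
  · rintro ⟨⟨h1, h2⟩, h3⟩
    refine ⟨⟨h1, fun k hk => ?_⟩, h2⟩
    have hk' : (l + k : ℤ) ≤ l + i := by have : (k : ℤ) < i := by exact_mod_cast hk
                                         omega
    have h4 := exT_ne_top_mono (Bl_mono ℓ hk') h1
    obtain ⟨N, hN⟩ := ENat.ne_top_iff_exists.1 h1
    obtain ⟨M, hM⟩ := ENat.ne_top_iff_exists.1 h4
    have h5 := h3 k hk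
    have h6 : shift M X ∉ Ntl ℓ (l + k) := by
      intro hc
      exact h5 ⟨h4, by rw [← hM, ENat.toNat_natCast]; exact hc⟩
    rw [← hN, ENat.toNat_natCast] at h2
    have h7 : ∃ j, ℓ (X (M + j)) < l + k := by
      by_contra hc
      push Not at hc
      exact h6 fun j => hc j
    obtain ⟨j, hj⟩ := h7
    have h8 : M + j < N := by
      by_contra hc
      push Not at hc
      have := h2 (M + j - N)
      have h9 : l + i ≤ ℓ (X (N + (M + j - N))) := this
      rw [Nat.add_sub_cancel' hc] at h9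
      omega
    refine ⟨M + j, fun m hm => (exT_eq_iff.1 hN.symm).2 m (by omega), hj, M, by omega, ?_⟩
    have := (exT_eq_iff.1 hM.symm).1
    exact not_lt.1 this
  · rintro ⟨⟨h1, h3⟩, h2⟩
    refine ⟨⟨h1, h2⟩, fun k hk hc => ?_⟩
    obtain ⟨h4, h5⟩ := hc
    obtain ⟨M, hM⟩ := ENat.ne_top_iff_exists.1 h4
    rw [← hM, ENat.toNat_natCast] at h5
    obtain ⟨n, -, h6, m, hm, h7⟩ := h3 k hk
    have h8 : M ≤ m := by
      by_contra hc
      push Not at hc
      have : ℓ (X m) < l + k := (exT_eq_iff.1 hM.symm).2 m hc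
      omega
    have h9 := h5 (n - M)
    have h10 : l + k ≤ ℓ (X (M + (n - M))) := h9
    rw [Nat.add_sub_cancel' (by omega)] at h10
    omega

variable {ℓ}

/-- functional form of the first cut decomposition, quenched -/
lemma FC_quenched (ω : Environment d) (l : ℤ) (i : ℕ) (y : Site d) {G : Path d → ℝ≥0∞}
    (hG : Measurable G) :
    ∫⁻ X in FC ℓ l i, G (shift (exT (Bl ℓ (l + i)) X).toNat X) ∂quenchedLaw ω y
      = ∑' y', quenchedLaw ω y (Vv ℓ l i ∩ ExS (Bl ℓ (l + i)) y') *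
          ∫⁻ X in Ntl ℓ (l + i), G X ∂quenchedLaw ω y' := by
  have hN := measurableSet_Ntl ℓ (l + i)
  have h := markF ω (Bl ℓ (l + i)) y (detBy_Vv ℓ l i) (measurableSet_Vv ℓ l i)
    (F := (Ntl ℓ (l + i)).indicator G) (hG.indicator hN)
  simp only [lintegral_indicator hN] at h
  rw [← h, FC_eq]
  have hpre := (measurable_shiftT (Bl ℓ (l + i))) hN
  rw [Set.inter_comm, ← Measure.restrict_restrict hpre, ← lintegral_indicator hpre]
  rfl

lemma coordAb_Ntl (b : ℤ) (y' : Site d) {G : Path d → ℝ≥0∞} (hG : Measurable G) :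
    Measurable[coordSigmaAlgebra (Ab ℓ b)] fun ω : Environment d =>
      ∫⁻ X in Ntl ℓ b, G X ∂quenchedLaw ω y' := by
  have hN := measurableSet_Ntl ℓ b
  have e : (fun ω : Environment d => ∫⁻ X in Ntl ℓ b, G X ∂quenchedLaw ω y')
      = fun ω => ∫⁻ X, (Ntl ℓ b).indicator G X ∂quenchedLaw ω y' := by
    funext ω
    rw [lintegral_indicator hN]
  rw [e]
  refine Q561.measurable_coord (meas_qlint (hG.indicator hN) y') fun ω ω' h =>
    Q561.quenched_lintegral_congr h y' (hG.indicator hN) fun X => ?_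
  by_cases hX : X ∈ Ntl ℓ b
  · rw [Q561.stopAt_of_forall fun k => hX k]
  · have h1 : Q561.stopAt (Ab ℓ b) X ∉ Ntl ℓ b := by
      intro hc
      have h2 : X ∈ Q561.stopAt (Ab ℓ b) ⁻¹' Ntl ℓ b := hc
      rw [dec_Ntl ℓ b] at h2
      exact hX h2
    rw [Set.indicator_of_notMem hX, Set.indicator_of_notMem h1]

section key
variable {ν : Measure (Row d)} [IsProbabilityMeasure ν]

/-- functional form of the first cut decomposition, averaged with a past weight -/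
lemma FC_ann {l : ℤ} {y : Site d} {a : Environment d → ℝ≥0∞}
    (ha : Measurable[coordSigmaAlgebra (Bl ℓ l)] a) (i : ℕ) {G : Path d → ℝ≥0∞}
    (hG : Measurable G) :
    ∫⁻ ω, a ω * ∫⁻ X in FC ℓ l i, G (shift (exT (Bl ℓ (l + i)) X).toNat X) ∂quenchedLaw ω y
        ∂(iidEnvironmentLaw ν)
      = ∑' y', (∫⁻ ω, a ω * quenchedLaw ω y (Vv ℓ l i ∩ ExS (Bl ℓ (l + i)) y')
          ∂(iidEnvironmentLaw ν)) *
          ∫⁻ ω, ∫⁻ X in Ntl ℓ (l + i), G X ∂quenchedLaw ω y' ∂(iidEnvironmentLaw ν) := by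
  have hLm : ∀ y', Measurable[coordSigmaAlgebra (Bl ℓ (l + i))] fun ω : Environment d =>
      a ω * quenchedLaw ω y (Vv ℓ l i ∩ ExS (Bl ℓ (l + i)) y') := fun y' =>
    (ha.mono (coord_mono (Bl_mono ℓ (by omega))) le_rfl).mul
      (meas_past (detBy_Vv ℓ l i) (measurableSet_Vv ℓ l i) y y')
  calc ∫⁻ ω, a ω * ∫⁻ X in FC ℓ l i, G (shift (exT (Bl ℓ (l + i)) X).toNat X) ∂quenchedLaw ω y
        ∂(iidEnvironmentLaw ν)
      = ∫⁻ ω, ∑' y', (a ω * quenchedLaw ω y (Vv ℓ l i ∩ ExS (Bl ℓ (l + i)) y')) *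
          ∫⁻ X in Ntl ℓ (l + i), G X ∂quenchedLaw ω y' ∂(iidEnvironmentLaw ν) := by
        refine lintegral_congr fun ω => ?_
        rw [FC_quenched ω l i y hG, ← ENNReal.tsum_mul_left]
        simp only [mul_assoc]
    _ = ∑' y', ∫⁻ ω, (a ω * quenchedLaw ω y (Vv ℓ l i ∩ ExS (Bl ℓ (l + i)) y')) *
          ∫⁻ X in Ntl ℓ (l + i), G X ∂quenchedLaw ω y' ∂(iidEnvironmentLaw ν) := by
        refine lintegral_tsum fun y' => ?_
        exact ((coord_meas_top (hLm y')).mul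
          (coord_meas_top (coordAb_Ntl (l + i) y' hG))).aemeasurable
    _ = _ := by
        refine tsum_congr fun y' => ?_
        exact lint_mul ν (disj_Bl_Ab ℓ (l + i)) (hLm y') (coordAb_Ntl (l + i) y' hG)

/-- probability of never going below the start -/
noncomputable def pN (ℓ : Site d →+ ℤ) (ν : Measure (Row d)) [IsProbabilityMeasure ν] : ℝ≥0∞ :=
  annealedProb (iidEnvironmentLaw ν) 0 (Ntl ℓ 0)

lemma ann_Ntl' (y : Site d) {b : ℤ} (hb : ℓ y = b) :
    ∫⁻ ω, quenchedLaw ω y (Ntl ℓ b) ∂(iidEnvironmentLaw ν) = pN ℓ ν := by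
  have h := Q561.annealed_eq_zero_shift (Q561.iid_shift ν) y (measurableSet_Ntl ℓ b)
  unfold annealedProb at h
  rw [h]
  unfold pN annealedProb
  refine lintegral_congr fun ω => ?_
  congr 1
  ext X
  simp [Q561.tr, Ntl, ← hb]

/-- total weight of the first cut decomposition -/
lemma FC_mass (hℓ : ∀ e : Step d, |ℓ (stepVec e)| ≤ 1) {l : ℤ} {y : Site d} (hy : ℓ y = l)
    {a : Environment d → ℝ≥0∞} (ha : Measurable[coordSigmaAlgebra (Bl ℓ l)] a) (t : ℕ) :
    (∑ i ∈ Finset.range (t + 1), ∑' y', ∫⁻ ω, a ω * quenchedLaw ω y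
      (Vv ℓ l i ∩ ExS (Bl ℓ (l + i)) y') ∂(iidEnvironmentLaw ν)) * pN ℓ ν
      ≤ ∫⁻ ω, a ω ∂(iidEnvironmentLaw ν) := by
  have h : ∀ i : ℕ, (∑' y', ∫⁻ ω, a ω * quenchedLaw ω y
      (Vv ℓ l i ∩ ExS (Bl ℓ (l + i)) y') ∂(iidEnvironmentLaw ν)) * pN ℓ ν
      = ∫⁻ ω, a ω * quenchedLaw ω y (FC ℓ l i) ∂(iidEnvironmentLaw ν) := by
    intro i
    have h1 := FC_ann (ν := ν) (y := y) ha i (G := fun _ => 1) measurable_const
    simp only [lintegral_one, Measure.restrict_apply MeasurableSet.univ, Set.univ_inter] at h1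
    rw [h1, ← ENNReal.tsum_mul_right]
    refine tsum_congr fun y' => ?_
    by_cases hy' : ℓ y' = l + i
    · rw [ann_Ntl' y' hy']
    · have hz : ∀ ω : Environment d, quenchedLaw ω y (Vv ℓ l i ∩
          ExS (Bl ℓ (l + i)) y') = 0 := fun ω => past_zero ℓ hℓ ω (by rw [hy]; omega) hy' _
      simp [hz]
  rw [Finset.sum_mul]
  simp only [h]
  rw [← lintegral_finsetSum]
  · refine lintegral_mono fun ω => ?_
    rw [← Finset.mul_sum]
    refine (mul_le_mul' le_rfl (?_ : _ ≤ (1 : ℝ≥0∞))).trans (by rw [mul_one])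
    rw [← measure_biUnion_finset]
    · exact prob_le_one
    · intro i _ j _ hij
      refine Set.disjoint_left.2 fun X hi hj => ?_
      rcases lt_or_gt_of_ne hij with h | h
      · exact hj.2 i h hi.1
      · exact hi.2 j h hj.1
    · intro i _
      exact measurableSet_FC ℓ l i
  · intro i _
    exact (coord_meas_top ha).mul (Q561.measurable_quenched_apply y (measurableSet_FC ℓ l i))

/-- nearest neighbour paths -/
def NN (X : Path d) : Prop := ∀ n, ∃ e : Step d, X (n + 1) = X n + stepVec e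

/-- **decomposition at the first cut level** (nearest neighbour paths) -/
theorem first_cut_nn (hℓ : ∀ e : Step d, |ℓ (stepVec e)| ≤ 1)
    (hR : annealedProb (iidEnvironmentLaw ν) 0 (Reach ℓ) = 1) (hp : pN ℓ ν ≠ 0)
    {t : ℕ} {β : ℝ≥0∞} (hAP : AP ℓ ν t β) {l : ℤ} {y : Site d} (hy : ℓ y = l)
    {a : Environment d → ℝ≥0∞} (ha : Measurable[coordSigmaAlgebra (Bl ℓ l)] a)
    {F : Path d → ℝ≥0∞} (hF : Measurable F) (hF1 : ∀ X, F X ≤ 1)
    {G err : ℕ → Path d → ℝ≥0∞} (hG : ∀ i, Measurable (G i)) (herr : ∀ i, Measurable (err i))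
    (hle : ∀ i ≤ t, ∀ X, X ∈ Reach ℓ → NN X → X 0 = y → X ∈ Cut ℓ (l + i) →
      F X ≤ G i (shift (exT (Bl ℓ (l + i)) X).toNat X) + err i X)
    {H : ℝ≥0∞} (hH : ∀ i ≤ t, ∀ y', ℓ y' = l + i →
      ∫⁻ ω, ∫⁻ X in Ntl ℓ (l + i), G i X ∂quenchedLaw ω y' ∂(iidEnvironmentLaw ν) ≤ H) :
    ∫⁻ ω, a ω * ∫⁻ X, F X ∂quenchedLaw ω y ∂(iidEnvironmentLaw ν)
      ≤ (H / pN ℓ ν) * ∫⁻ ω, a ω ∂(iidEnvironmentLaw ν)
        + ∑ i ∈ Finset.range (t + 1), ∫⁻ ω, a ω * ∫⁻ X, err i X ∂quenchedLaw ω y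
            ∂(iidEnvironmentLaw ν)
        + β * ∫⁻ ω, a ω ∂(iidEnvironmentLaw ν) := by
  classical
  set Q := iidEnvironmentLaw ν
  set p := pN ℓ ν with hpdef
  have hpt : p ≠ ⊤ := ne_top_of_le_ne_top ENNReal.one_ne_top (by
    rw [hpdef]; unfold pN annealedProb
    exact (lintegral_mono fun ω => prob_le_one).trans (by simp))
  have hGi : ∀ i, Measurable fun X : Path d => G i (shift (exT (Bl ℓ (l + i)) X).toNat X) :=
    fun i => (hG i).comp (measurable_shiftT _)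
  -- pointwise bound
  have hpw : ∀ X : Path d, X ∈ Reach ℓ → NN X → X 0 = y → F X ≤ (NoCut ℓ l t).indicator 1 X +
      (∑ i ∈ Finset.range (t + 1), (FC ℓ l i).indicator
        (fun X => G i (shift (exT (Bl ℓ (l + i)) X).toNat X)) X +
        ∑ i ∈ Finset.range (t + 1), err i X) := by
    intro X hX hnn h0
    by_cases hN : X ∈ NoCut ℓ l t
    · rw [Set.indicator_of_mem hN]
      exact (hF1 X).trans (le_self_add)
    · have hex : ∃ k : ℕ, X ∈ Cut ℓ (l + k) ∧ k ≤ t := by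
        unfold NoCut at hN
        simp only [Set.mem_ofPred_eq] at hN
        push Not at hN
        obtain ⟨b, hb1, hb2, hb3⟩ := hN
        refine ⟨(b - l).toNat, ?_, by omega⟩
        have : (l + ((b - l).toNat : ℤ)) = b := by omega
        rwa [this]
      have hex' : ∃ k : ℕ, X ∈ Cut ℓ (l + k) := ⟨_, hex.choose_spec.1⟩
      have hkt : Nat.find hex' ≤ t := (Nat.find_min' hex' hex.choose_spec.1).trans
        hex.choose_spec.2
      have hkc := Nat.find_spec hex'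
      have hfc : X ∈ FC ℓ l (Nat.find hex') := ⟨hkc, fun k hk => Nat.find_min hex' hk⟩
      refine (hle _ hkt X hX hnn h0 hkc).trans (le_trans ?_ le_add_self)
      refine add_le_add ?_ ?_
      · have h1 : (FC ℓ l (Nat.find hex')).indicator
            (fun X => G (Nat.find hex') (shift (exT (Bl ℓ (l + (Nat.find hex' : ℕ))) X).toNat X)) X
            = G (Nat.find hex') (shift (exT (Bl ℓ (l + (Nat.find hex' : ℕ))) X).toNat X) :=
          Set.indicator_of_mem hfc _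
        rw [← h1]
        exact Finset.single_le_sum (f := fun i : ℕ => (FC ℓ l i).indicator
          (fun X => G i (shift (exT (Bl ℓ (l + i)) X).toNat X)) X) (fun _ _ => zero_le)
          (Finset.mem_range.2 (by omega))
      · exact Finset.single_le_sum (f := fun i : ℕ => err i X) (fun _ _ => zero_le)
          (Finset.mem_range.2 (by omega))
  have hq : ∀ᵐ ω ∂Q, ∫⁻ X, F X ∂quenchedLaw ω y ≤ quenchedLaw ω y (NoCut ℓ l t) +
      (∑ i ∈ Finset.range (t + 1), ∫⁻ X in FC ℓ l i,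
        G i (shift (exT (Bl ℓ (l + i)) X).toNat X) ∂quenchedLaw ω y +
        ∑ i ∈ Finset.range (t + 1), ∫⁻ X, err i X ∂quenchedLaw ω y) := by
    filter_upwards [ae_reach hR y] with ω hω
    have hm1 : Measurable ((NoCut ℓ l t).indicator (1 : Path d → ℝ≥0∞)) :=
      measurable_one.indicator (measurableSet_NoCut ℓ l t)
    have hm2 : ∀ i ∈ Finset.range (t + 1), Measurable ((FC ℓ l i).indicator
        (fun X : Path d => G i (shift (exT (Bl ℓ (l + i)) X).toNat X))) :=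
      fun i _ => (hGi i).indicator (measurableSet_FC ℓ l i)
    calc ∫⁻ X, F X ∂quenchedLaw ω y
        ≤ ∫⁻ X, ((NoCut ℓ l t).indicator 1 X +
            (∑ i ∈ Finset.range (t + 1), (FC ℓ l i).indicator
              (fun X => G i (shift (exT (Bl ℓ (l + i)) X).toNat X)) X +
              ∑ i ∈ Finset.range (t + 1), err i X)) ∂quenchedLaw ω y := by
          refine lintegral_mono_ae ?_
          filter_upwards [hω, quenched_zero_eq ω y, quenched_nn ω y] with X hX h0 hnn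
            using hpw X hX hnn h0
      _ = _ := by
          rw [lintegral_add_left hm1, lintegral_add_left (Finset.measurable_fun_sum _ hm2),
            lintegral_finsetSum _ hm2, lintegral_finsetSum _ (fun i _ => herr i),
            lintegral_indicator_one (measurableSet_NoCut ℓ l t)]
          congr 2
          refine Finset.sum_congr rfl fun i _ => ?_
          rw [lintegral_indicator (measurableSet_FC ℓ l i)]
  have hma := coord_meas_top ha
  have hmN : Measurable fun ω : Environment d => a ω * quenchedLaw ω y (NoCut ℓ l t) :=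
    hma.mul (Q561.measurable_quenched_apply y (measurableSet_NoCut ℓ l t))
  have hmG : ∀ i, Measurable fun ω : Environment d => a ω * ∫⁻ X in FC ℓ l i,
      G i (shift (exT (Bl ℓ (l + i)) X).toNat X) ∂quenchedLaw ω y := by
    intro i
    refine hma.mul ?_
    have := meas_qlint (F := (FC ℓ l i).indicator
      (fun X : Path d => G i (shift (exT (Bl ℓ (l + i)) X).toNat X)))
      ((hGi i).indicator (measurableSet_FC ℓ l i)) y
    simpa only [lintegral_indicator (measurableSet_FC ℓ l i)] using this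
  have hmE : ∀ i, Measurable fun ω : Environment d => a ω * ∫⁻ X, err i X ∂quenchedLaw ω y :=
    fun i => hma.mul (meas_qlint (herr i) y)
  calc ∫⁻ ω, a ω * ∫⁻ X, F X ∂quenchedLaw ω y ∂Q
      ≤ ∫⁻ ω, (a ω * quenchedLaw ω y (NoCut ℓ l t) +
          (∑ i ∈ Finset.range (t + 1), a ω * ∫⁻ X in FC ℓ l i,
            G i (shift (exT (Bl ℓ (l + i)) X).toNat X) ∂quenchedLaw ω y +
          ∑ i ∈ Finset.range (t + 1), a ω * ∫⁻ X, err i X ∂quenchedLaw ω y)) ∂Q := by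
        refine lintegral_mono_ae ?_
        filter_upwards [hq] with ω hω
        refine (mul_le_mul' le_rfl hω).trans ?_
        rw [mul_add, mul_add, Finset.mul_sum, Finset.mul_sum]
    _ = ∫⁻ ω, a ω * quenchedLaw ω y (NoCut ℓ l t) ∂Q +
          (∑ i ∈ Finset.range (t + 1), ∫⁻ ω, a ω * ∫⁻ X in FC ℓ l i,
            G i (shift (exT (Bl ℓ (l + i)) X).toNat X) ∂quenchedLaw ω y ∂Q +
          ∑ i ∈ Finset.range (t + 1), ∫⁻ ω, a ω * ∫⁻ X, err i X ∂quenchedLaw ω y ∂Q) := by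
        rw [lintegral_add_left hmN, lintegral_add_left
          (Finset.measurable_fun_sum _ fun i _ => hmG i), lintegral_finsetSum _ (fun i _ => hmG i),
          lintegral_finsetSum _ (fun i _ => hmE i)]
    _ ≤ β * ∫⁻ ω, a ω ∂Q + (∑ i ∈ Finset.range (t + 1), (∑' y', ∫⁻ ω, a ω * quenchedLaw ω y
          (Vv ℓ l i ∩ ExS (Bl ℓ (l + i)) y') ∂Q) * H +
          ∑ i ∈ Finset.range (t + 1), ∫⁻ ω, a ω * ∫⁻ X, err i X ∂quenchedLaw ω y ∂Q) := by
        refine add_le_add (hAP l y hy a ha) (add_le_add (Finset.sum_le_sum fun i hi => ?_) le_rfl)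
        rw [FC_ann ha i (hG i), ← ENNReal.tsum_mul_right]
        refine ENNReal.tsum_le_tsum fun y' => ?_
        by_cases hy' : ℓ y' = l + i
        · exact mul_le_mul' le_rfl (hH i (by have := Finset.mem_range.1 hi; omega) y' hy')
        · have hz : ∀ ω : Environment d, quenchedLaw ω y (Vv ℓ l i ∩
              ExS (Bl ℓ (l + i)) y') = 0 := fun ω => past_zero ℓ hℓ ω (by rw [hy]; omega) hy' _
          simp [hz]
    _ = β * ∫⁻ ω, a ω ∂Q + ((H / p) * ((∑ i ∈ Finset.range (t + 1), (∑' y', ∫⁻ ω, a ω *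
          quenchedLaw ω y (Vv ℓ l i ∩ ExS (Bl ℓ (l + i)) y') ∂Q)) * p) +
          ∑ i ∈ Finset.range (t + 1), ∫⁻ ω, a ω * ∫⁻ X, err i X ∂quenchedLaw ω y ∂Q) := by
        congr 2
        rw [← Finset.sum_mul]
        generalize (∑ i ∈ Finset.range (t + 1), (∑' y', ∫⁻ ω, a ω *
          quenchedLaw ω y (Vv ℓ l i ∩ ExS (Bl ℓ (l + i)) y') ∂Q)) = W
        rw [mul_comm W p, ← mul_assoc, ENNReal.div_mul_cancel hp hpt, mul_comm]
    _ ≤ β * ∫⁻ ω, a ω ∂Q + ((H / p) * ∫⁻ ω, a ω ∂Q +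
          ∑ i ∈ Finset.range (t + 1), ∫⁻ ω, a ω * ∫⁻ X, err i X ∂quenchedLaw ω y ∂Q) := by
        gcongr
        exact FC_mass hℓ hy ha t
    _ = _ := by ring

/-- **decomposition at the first cut level** -/
theorem first_cut (hℓ : ∀ e : Step d, |ℓ (stepVec e)| ≤ 1)
    (hR : annealedProb (iidEnvironmentLaw ν) 0 (Reach ℓ) = 1) (hp : pN ℓ ν ≠ 0)
    {t : ℕ} {β : ℝ≥0∞} (hAP : AP ℓ ν t β) {l : ℤ} {y : Site d} (hy : ℓ y = l)
    {a : Environment d → ℝ≥0∞} (ha : Measurable[coordSigmaAlgebra (Bl ℓ l)] a)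
    {F : Path d → ℝ≥0∞} (hF : Measurable F) (hF1 : ∀ X, F X ≤ 1)
    {G err : ℕ → Path d → ℝ≥0∞} (hG : ∀ i, Measurable (G i)) (herr : ∀ i, Measurable (err i))
    (hle : ∀ i ≤ t, ∀ X, X ∈ Reach ℓ → X 0 = y → X ∈ Cut ℓ (l + i) →
      F X ≤ G i (shift (exT (Bl ℓ (l + i)) X).toNat X) + err i X)
    {H : ℝ≥0∞} (hH : ∀ i ≤ t, ∀ y', ℓ y' = l + i →
      ∫⁻ ω, ∫⁻ X in Ntl ℓ (l + i), G i X ∂quenchedLaw ω y' ∂(iidEnvironmentLaw ν) ≤ H) :
    ∫⁻ ω, a ω * ∫⁻ X, F X ∂quenchedLaw ω y ∂(iidEnvironmentLaw ν)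
      ≤ (H / pN ℓ ν) * ∫⁻ ω, a ω ∂(iidEnvironmentLaw ν)
        + ∑ i ∈ Finset.range (t + 1), ∫⁻ ω, a ω * ∫⁻ X, err i X ∂quenchedLaw ω y
            ∂(iidEnvironmentLaw ν)
        + β * ∫⁻ ω, a ω ∂(iidEnvironmentLaw ν) :=
  first_cut_nn hℓ hR hp hAP hy ha hF hF1 hG herr (fun i hi X hX _ h0 hc => hle i hi X hX h0 hc) hH

end key

end Crest.Agent.R154.Phi215
end

-- ▼ part R154/PhiD_215
section

/-!
# Row 154, helper215: (V1) of D2/VARG, part D — tight increments, deterministic centring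

* `tight` : `∀ i δ ≠ 0, ∃ ε0 > 0, ∀ m ≥ 0, ∀ ε ≤ ε0, E_ann min(1, ε |σ x_{m+i} - σ x_m|) ≤ δ`;
* `core` : for every past weight `a y ≤ EK (Bl l) 0 y` and every functional `F ≤ 1` which changes by
  at most `err i` when the piece between levels `l` and `l + i` is removed,
  `|Σ_y ∫ a y E_ω^y F - Σ_y (∫ a y) E_ann^y F| ≤ 2 ((t+1) η + β)`;
* `centred` : the same for the conditional expectation on the rows below `l`.
-/

set_option autoImplicit false
set_option linter.unusedVariables false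
set_option linter.unusedSectionVars false

namespace Crest.Agent.R154.Phi215

open MeasureTheory ProbabilityTheory Crest.ProbabilityR.RandomEnvironment Crest.Agent.R154
open Crest.Agent.R154.ExK9
open scoped ENNReal

variable {d : ℕ}

/-! ### truncated distances -/

/-- `min(1, ε |r|)` -/
noncomputable def mn (ε r : ℝ) : ℝ≥0∞ := ENNReal.ofReal (min 1 (ε * |r|))

lemma mn_le_one (ε r : ℝ) : mn ε r ≤ 1 := ENNReal.ofReal_le_one.2 (min_le_left _ _)

lemma mn_mono {ε ε' : ℝ} (h : ε ≤ ε') (r : ℝ) : mn ε r ≤ mn ε' r :=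
  ENNReal.ofReal_le_ofReal (min_le_min le_rfl (mul_le_mul_of_nonneg_right h (abs_nonneg _)))

lemma mn_neg (ε r : ℝ) : mn ε (-r) = mn ε r := by unfold mn; rw [abs_neg]

lemma mn_add {ε : ℝ} (hε : 0 ≤ ε) (r s : ℝ) : mn ε (r + s) ≤ mn ε r + mn ε s := by
  have h2 : 0 ≤ ε * |r| := mul_nonneg hε (abs_nonneg _)
  have h3 : 0 ≤ ε * |s| := mul_nonneg hε (abs_nonneg _)
  unfold mn
  rw [← ENNReal.ofReal_add (le_min zero_le_one h2) (le_min zero_le_one h3)]
  refine ENNReal.ofReal_le_ofReal ?_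
  have h1 : ε * |r + s| ≤ ε * |r| + ε * |s| := by
    rw [← mul_add]
    exact mul_le_mul_of_nonneg_left (abs_add_le r s) hε
  rcases le_total 1 (ε * |r|) with h | h
  · rw [min_eq_left h]
    exact (min_le_left _ _).trans (le_add_of_nonneg_right (le_min zero_le_one h3))
  · rcases le_total 1 (ε * |s|) with h' | h'
    · rw [min_eq_left h']
      exact (min_le_left _ _).trans (le_add_of_nonneg_left (le_min zero_le_one h2))
    · rw [min_eq_right h, min_eq_right h']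
      exact (min_le_right _ _).trans h1

variable (ℓ : Site d →+ ℤ) (σ : Site d →+ ℝ)

/-- truncated increment between the first hits of the levels `m` and `m + i` -/
noncomputable def Psi (ε : ℝ) (m : ℤ) (i : ℕ) (X : Path d) : ℝ≥0∞ :=
  mn ε (σ (xE (Bl ℓ (m + i)) X) - σ (xE (Bl ℓ m) X))

lemma meas_Psi (ε : ℝ) (m : ℤ) (i : ℕ) : Measurable (Psi ℓ σ ε m i) := by
  have h1 : Measurable fun p : Site d × Site d => mn ε (σ p.1 - σ p.2) := measurable_of_countable _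
  exact h1.comp ((measurable_xE _).prodMk (measurable_xE _))

lemma Psi_le_one (ε : ℝ) (m : ℤ) (i : ℕ) (X : Path d) : Psi ℓ σ ε m i X ≤ 1 := mn_le_one _ _

variable {ℓ σ}

/-! ### translations and shifts -/

lemma exT_tr (y : Site d) (m : ℤ) (X : Path d) :
    exT (Bl ℓ m) (Q561.tr y X) = exT (Bl ℓ (m - ℓ y)) X := by
  have key : ∀ n : ℕ, exT (Bl ℓ m) (Q561.tr y X) = n ↔ exT (Bl ℓ (m - ℓ y)) X = n := by
    intro n
    rw [exT_eq_iff, exT_eq_iff]
    have e : ∀ z : Site d, (z + y ∈ Bl ℓ m ↔ z ∈ Bl ℓ (m - ℓ y)) := by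
      intro z
      show ℓ (z + y) < m ↔ ℓ z < m - ℓ y
      rw [map_add]
      constructor <;> intro h <;> omega
    show (X n + y ∉ Bl ℓ m ∧ ∀ i < n, X i + y ∈ Bl ℓ m) ↔ _
    simp only [e]
  by_cases h : exT (Bl ℓ (m - ℓ y)) X = ⊤
  · rw [h]
    by_contra hc
    obtain ⟨n, hn⟩ := ENat.ne_top_iff_exists.1 hc
    have := (key n).1 hn.symm
    rw [h] at this
    exact ENat.top_ne_natCast n this
  · obtain ⟨n, hn⟩ := ENat.ne_top_iff_exists.1 h
    rw [← hn]
    exact (key n).2 hn.symm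

lemma xE_tr (y : Site d) (m : ℤ) (X : Path d) :
    xE (Bl ℓ m) (Q561.tr y X) = xE (Bl ℓ (m - ℓ y)) X + y := by
  unfold xE
  rw [exT_tr]
  rfl

lemma Psi_tr (ε : ℝ) (m : ℤ) (i : ℕ) (y : Site d) (X : Path d) :
    Psi ℓ σ ε m i (Q561.tr y X) = Psi ℓ σ ε (m - ℓ y) i X := by
  unfold Psi
  rw [xE_tr, xE_tr, map_add, map_add, add_sub_add_right_eq_sub, sub_add_eq_add_sub]

lemma Psi_shift {ε : ℝ} {m : ℤ} {i : ℕ} {b : ℤ} (hb : b ≤ m) {X : Path d} (hX : X ∈ Reach ℓ) :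
    Psi ℓ σ ε m i (shift (exT (Bl ℓ b) X).toNat X) = Psi ℓ σ ε m i X := by
  unfold Psi
  rw [xE_shift (Bl_mono ℓ (by omega)) (hX _), xE_shift (Bl_mono ℓ hb) (hX _)]

section an
variable {ν : Measure (Row d)} [IsProbabilityMeasure ν]

lemma An_Psi (ε : ℝ) (m : ℤ) (i : ℕ) (y : Site d) :
    An ν y (Psi ℓ σ ε m i) = An ν 0 (Psi ℓ σ ε (m - ℓ y) i) := by
  rw [An_zero ν (meas_Psi ℓ σ ε m i) y]
  simp only [Psi_tr]

/-- strong Markov at the first hit of level `l`, annealed -/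
lemma An_mark (hR : annealedProb (iidEnvironmentLaw ν) 0 (Reach ℓ) = 1) {F : Path d → ℝ≥0∞}
    (hF : Measurable F) {l : ℤ}
    (hsh : ∀ X, X ∈ Reach ℓ → F (shift (exT (Bl ℓ l) X).toNat X) = F X) :
    An ν 0 F = ∑' y, ∫⁻ ω, EK ω (Bl ℓ l) 0 y * ∫⁻ X, F X ∂quenchedLaw ω y
      ∂(iidEnvironmentLaw ν) := by
  have hm : ∀ y : Site d, Measurable fun ω : Environment d =>
      EK ω (Bl ℓ l) 0 y * ∫⁻ X, F X ∂quenchedLaw ω y := fun y =>
    (meas_EK _ _ _).mul (meas_qlint hF y)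
  rw [← lintegral_tsum fun y => (hm y).aemeasurable]
  unfold An
  refine lintegral_congr_ae ?_
  filter_upwards [ae_reach hR 0] with ω hω
  rw [← markF' ω (Bl ℓ l) 0 hF]
  have hT : MeasurableSet {X : Path d | exT (Bl ℓ l) X ≠ ⊤} := (isStop_exT _).measurableSet_ne_top
  rw [← lintegral_indicator hT]
  refine lintegral_congr_ae ?_
  filter_upwards [hω] with X hX
  rw [Set.indicator_of_mem (show X ∈ {X : Path d | exT (Bl ℓ l) X ≠ ⊤} from hX l), hsh X hX]

/-- one pair of levels -/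
lemma Psi_small (m : ℤ) (i : ℕ) {δ : ℝ≥0∞} (hδ : δ ≠ 0) :
    ∃ ε0 : ℝ, 0 < ε0 ∧ ∀ ε ≤ ε0, An ν 0 (Psi ℓ σ ε m i) ≤ δ := by
  have hlim : ∀ r : ℝ, Filter.Tendsto (fun n : ℕ => mn (1 / ((n : ℝ) + 1)) r) Filter.atTop
      (nhds 0) := by
    intro r
    have h1 : Filter.Tendsto (fun n : ℕ => min 1 (1 / ((n : ℝ) + 1) * |r|)) Filter.atTop
        (nhds (min 1 (0 * |r|))) :=
      (tendsto_const_nhds).min (tendsto_one_div_add_atTop_nhds_zero_nat.mul_const _)
    rw [zero_mul, min_eq_right zero_le_one] at h1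
    have h2 := ENNReal.tendsto_ofReal h1
    rw [ENNReal.ofReal_zero] at h2
    exact h2
  have hin : ∀ ω : Environment d, Filter.Tendsto (fun n : ℕ =>
      ∫⁻ X, Psi ℓ σ (1 / ((n : ℝ) + 1)) m i X ∂quenchedLaw ω 0) Filter.atTop (nhds 0) := by
    intro ω
    have h := tendsto_lintegral_of_dominated_convergence (μ := quenchedLaw ω 0)
      (F := fun n : ℕ => Psi ℓ σ (1 / ((n : ℝ) + 1)) m i) (f := fun _ => 0) (fun _ => (1 : ℝ≥0∞))
      (fun n => meas_Psi ℓ σ _ m i) (fun n => Filter.Eventually.of_forall fun X =>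
        Psi_le_one ℓ σ _ m i X) (by simp) (Filter.Eventually.of_forall fun X => hlim _)
    simpa using h
  have hout : Filter.Tendsto (fun n : ℕ => An ν 0 (Psi ℓ σ (1 / ((n : ℝ) + 1)) m i))
      Filter.atTop (nhds 0) := by
    have h := tendsto_lintegral_of_dominated_convergence (μ := iidEnvironmentLaw ν)
      (F := fun (n : ℕ) (ω : Environment d) =>
        ∫⁻ X, Psi ℓ σ (1 / ((n : ℝ) + 1)) m i X ∂quenchedLaw ω 0) (f := fun _ => 0)
      (fun _ => (1 : ℝ≥0∞)) (fun n => meas_qlint (meas_Psi ℓ σ _ m i) 0)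
      (fun n => Filter.Eventually.of_forall fun ω =>
        (lintegral_mono fun X => Psi_le_one ℓ σ _ m i X).trans (by simp))
      (by simp) (Filter.Eventually.of_forall hin)
    simpa [An] using h
  obtain ⟨n, hn⟩ := ((ENNReal.tendsto_nhds_zero.1 hout) δ (pos_iff_ne_zero.2 hδ)).exists
  refine ⟨1 / ((n : ℝ) + 1), by positivity, fun ε hε => le_trans (An_mono ν fun X => ?_) hn⟩
  exact mn_mono hε _

lemma pN_ne_top : pN ℓ ν ≠ ⊤ := by
  refine ne_top_of_le_ne_top ENNReal.one_ne_top ?_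
  unfold pN annealedProb
  exact (lintegral_mono fun ω => prob_le_one).trans (by simp)

lemma tsum_EK_int (l : ℤ) : ∑' y, ∫⁻ ω, EK ω (Bl ℓ l) 0 y ∂(iidEnvironmentLaw ν) ≤ 1 := by
  rw [← lintegral_tsum fun y => (meas_EK _ _ _).aemeasurable]
  exact (lintegral_mono fun ω => tsum_EK_le ω _ _).trans (by simp)

/-- **tight increments, uniformly in the level** -/
theorem tight (hℓ : ∀ e : Step d, |ℓ (stepVec e)| ≤ 1)
    (hR : annealedProb (iidEnvironmentLaw ν) 0 (Reach ℓ) = 1) (hp : pN ℓ ν ≠ 0) (i : ℕ)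
    {δ : ℝ≥0∞} (hδ : δ ≠ 0) :
    ∃ ε0 : ℝ, 0 < ε0 ∧ ∀ ε ≤ ε0, ∀ m : ℤ, 0 ≤ m → An ν 0 (Psi ℓ σ ε m i) ≤ δ := by
  by_cases hδt : δ = ⊤
  · subst hδt
    exact ⟨1, one_pos, fun _ _ _ _ => le_top⟩
  have hδ2 : δ / 2 ≠ 0 := ENNReal.div_ne_zero.2 ⟨hδ, ENNReal.ofNat_ne_top⟩
  obtain ⟨s, hs⟩ := anyPast (ν := ν) hℓ hR hp hδ2
  have hAP := hs s le_rfl
  set δ' := δ / 2 * min 1 (pN ℓ ν) with hδ'
  have hδ'0 : δ' ≠ 0 := mul_ne_zero hδ2 (by
    rw [← pos_iff_ne_zero]; exact lt_min one_pos (pos_iff_ne_zero.2 hp))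
  -- finitely many levels
  have hfin : ∃ ε0 : ℝ, 0 < ε0 ∧ ∀ r ≤ s, ∀ ε ≤ ε0, An ν 0 (Psi ℓ σ ε (r : ℕ) i) ≤ δ' := by
    clear hAP hs
    induction s with
    | zero =>
      obtain ⟨ε0, h0, h1⟩ := Psi_small (ℓ := ℓ) (σ := σ) (ν := ν) ((0 : ℕ) : ℤ) i hδ'0
      exact ⟨ε0, h0, fun r hr ε hε => by rw [Nat.le_zero.1 hr]; exact h1 ε hε⟩
    | succ s ih =>
      obtain ⟨ε1, h1, h1'⟩ := ih
      obtain ⟨ε2, h2, h2'⟩ := Psi_small (ℓ := ℓ) (σ := σ) (ν := ν) ((s + 1 : ℕ) : ℤ) i hδ'0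
      refine ⟨min ε1 ε2, lt_min h1 h2, fun r hr ε hε => ?_⟩
      rcases Nat.lt_or_ge s r with h | h
      · have : r = s + 1 := le_antisymm hr h
        subst this
        exact h2' ε (hε.trans (min_le_right _ _))
      · exact h1' r h ε (hε.trans (min_le_left _ _))
  obtain ⟨ε0, h0, h1⟩ := hfin
  refine ⟨ε0, h0, fun ε hε m hm => ?_⟩
  have hδδ : δ' ≤ δ := by
    calc δ' ≤ δ / 2 * 1 := mul_le_mul' le_rfl (min_le_left _ _)
      _ ≤ δ := by rw [mul_one]; exact ENNReal.half_le_self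
  rcases le_or_gt m s with hms | hms
  · have := h1 m.toNat (by omega) ε hε
    rw [show ((m.toNat : ℕ) : ℤ) = m by omega] at this
    exact this.trans hδδ
  · -- start at level `m - s`
    rw [An_mark (l := m - s) hR (meas_Psi ℓ σ ε m i) fun X hX => Psi_shift (by omega) hX]
    have hy : ∀ y : Site d, ∫⁻ ω, EK ω (Bl ℓ (m - s)) 0 y *
        ∫⁻ X, Psi ℓ σ ε m i X ∂quenchedLaw ω y ∂(iidEnvironmentLaw ν) ≤
        δ * ∫⁻ ω, EK ω (Bl ℓ (m - s)) 0 y ∂(iidEnvironmentLaw ν) := by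
      intro y
      by_cases hy : ℓ y = m - s
      · have h := first_cut hℓ hR hp hAP hy (a := fun ω => EK ω (Bl ℓ (m - s)) 0 y)
          (measA_EK _ 0 y) (F := Psi ℓ σ ε m i) (meas_Psi ℓ σ ε m i) (Psi_le_one ℓ σ ε m i)
          (G := fun _ => Psi ℓ σ ε m i) (err := fun _ _ => 0) (fun _ => meas_Psi ℓ σ ε m i)
          (fun _ => measurable_const)
          (fun k hk X hX _ _ => by
            rw [add_zero, Psi_shift (by omega) hX]) (H := δ') (fun k hk y' hy' => by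
              have e1 : ∫⁻ ω, ∫⁻ X in Ntl ℓ (m - s + k), Psi ℓ σ ε m i X ∂quenchedLaw ω y'
                  ∂(iidEnvironmentLaw ν) ≤ An ν y' (Psi ℓ σ ε m i) :=
                lintegral_mono fun ω => setLIntegral_le_lintegral _ _
              refine e1.trans ?_
              rw [An_Psi, show m - ℓ y' = ((s - k : ℕ) : ℤ) by rw [hy']; push_cast [hk]; ring]
              exact h1 (s - k) (Nat.sub_le _ _) ε hε)
        refine h.trans ?_
        have h2 : δ' / pN ℓ ν ≤ δ / 2 := by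
          rw [ENNReal.div_le_iff hp pN_ne_top]
          exact mul_le_mul' le_rfl (min_le_right _ _)
        simp only [lintegral_zero, mul_zero, Finset.sum_const_zero, add_zero]
        calc δ' / pN ℓ ν * ∫⁻ ω, EK ω (Bl ℓ (m - s)) 0 y ∂(iidEnvironmentLaw ν) +
              δ / 2 * ∫⁻ ω, EK ω (Bl ℓ (m - s)) 0 y ∂(iidEnvironmentLaw ν)
            ≤ δ / 2 * ∫⁻ ω, EK ω (Bl ℓ (m - s)) 0 y ∂(iidEnvironmentLaw ν) +
              δ / 2 * ∫⁻ ω, EK ω (Bl ℓ (m - s)) 0 y ∂(iidEnvironmentLaw ν) := by gcongr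
          _ = _ := by rw [← add_mul, ENNReal.add_halves]
      · have hz : ∀ ω : Environment d, EK ω (Bl ℓ (m - s)) 0 y = 0 := fun ω =>
          EK_level ℓ hℓ ω (by rw [map_zero]; omega) hy
        simp [hz]
    refine (ENNReal.tsum_le_tsum hy).trans ?_
    rw [ENNReal.tsum_mul_left]
    exact (mul_le_mul' le_rfl (tsum_EK_int _)).trans (by rw [mul_one])

/-! ### the path with the piece between levels `l` and `l + i` removed -/

/-- the path translated to start at `y` -/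
def ret (y : Site d) (Z : Path d) : Path d := fun n => Z n - Z 0 + y

lemma measurable_ret (y : Site d) : Measurable (ret y : Path d → Path d) := by
  refine measurable_pi_lambda _ fun n => ?_
  have h1 : Measurable fun p : Site d × Site d => p.1 - p.2 + y := measurable_of_countable _
  have h2 : Measurable fun Z : Path d => (Z n, Z 0) :=
    (measurable_pi_apply n).prodMk (measurable_pi_apply 0)
  exact h1.comp h2

lemma ret_tr (y w : Site d) (Z : Path d) : ret y (Q561.tr w Z) = ret y Z := by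
  funext n
  show Z n + w - (Z 0 + w) + y = Z n - Z 0 + y
  abel

lemma ret_start {y : Site d} {Z : Path d} (h : Z 0 = y) : ret y Z = Z := by
  funext n
  show Z n - Z 0 + y = Z n
  rw [h]; abel

lemma ret_eq_tr (y : Site d) (Z : Path d) : ret y Z = Q561.tr (y - Z 0) Z := by
  funext n
  show Z n - Z 0 + y = Z n + (y - Z 0)
  abel

lemma ret_nat {F : Path d → ℝ≥0∞} (hF : Measurable F) {y y' : Site d} {l : ℤ} (hy : ℓ y = l)
    {i : ℕ} (h : ℓ y' = l + i) :
    ∫⁻ ω, ∫⁻ X in Ntl ℓ (l + i), F (ret y X) ∂quenchedLaw ω y' ∂(iidEnvironmentLaw ν)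
      = ∫⁻ ω, ∫⁻ X in Ntl ℓ l, F X ∂quenchedLaw ω y ∂(iidEnvironmentLaw ν) := by
  have hFr : Measurable fun X : Path d => F (ret y X) := hF.comp (measurable_ret y)
  have hm : Measurable ((Ntl ℓ (l + i)).indicator fun X : Path d => F (ret y X)) :=
    hFr.indicator (measurableSet_Ntl ℓ _)
  have e1 : ∫⁻ ω, ∫⁻ X in Ntl ℓ (l + i), F (ret y X) ∂quenchedLaw ω y' ∂(iidEnvironmentLaw ν)
      = An ν y' ((Ntl ℓ (l + i)).indicator fun X : Path d => F (ret y X)) := by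
    unfold An
    simp only [lintegral_indicator (measurableSet_Ntl ℓ (l + i))]
  have h2 := An_shift ν hm y (y' - y)
  rw [add_sub_cancel] at h2
  rw [e1, h2]
  unfold An
  refine lintegral_congr fun ω => ?_
  rw [← lintegral_indicator (measurableSet_Ntl ℓ l)]
  refine lintegral_congr_ae ?_
  filter_upwards [quenched_zero_eq ω y] with X h0
  have h3 : Q561.tr (y' - y) X ∈ Ntl ℓ (l + i) ↔ X ∈ Ntl ℓ l := by
    show (∀ n, l + i ≤ ℓ (X n + (y' - y))) ↔ ∀ n, l ≤ ℓ (X n)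
    refine forall_congr' fun n => ?_
    rw [map_add, map_sub, h, hy]
    constructor <;> intro h <;> omega
  by_cases hX : X ∈ Ntl ℓ l
  · rw [Set.indicator_of_mem (h3.2 hX), Set.indicator_of_mem hX, ret_tr, ret_start h0]
  · rw [Set.indicator_of_notMem (fun h => hX (h3.1 h)), Set.indicator_of_notMem hX]

/-- the hypothesis on the functional -/
structure Loc (ℓ : Site d →+ ℤ) (l : ℤ) (t : ℕ) (F : Path d → ℝ≥0∞)
    (err : ℕ → Path d → ℝ≥0∞) : Prop where
  mF : Measurable F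
  le1 : ∀ X, F X ≤ 1
  me : ∀ i, Measurable (err i)
  up : ∀ i ≤ t, ∀ X, X ∈ Reach ℓ → NN X → ℓ (X 0) = l → X ∈ Cut ℓ (l + i) →
    F X ≤ F (ret (X 0) (shift (exT (Bl ℓ (l + i)) X).toNat X)) + err i X
  dn : ∀ i ≤ t, ∀ X, X ∈ Reach ℓ → NN X → ℓ (X 0) = l → X ∈ Cut ℓ (l + i) →
    F (ret (X 0) (shift (exT (Bl ℓ (l + i)) X).toNat X)) ≤ F X + err i X

lemma Loc.compl {l : ℤ} {t : ℕ} {F : Path d → ℝ≥0∞} {err : ℕ → Path d → ℝ≥0∞}
    (h : Loc ℓ l t F err) : Loc ℓ l t (fun X => 1 - F X) err where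
  mF := measurable_const.sub h.mF
  le1 := fun X => tsub_le_self
  me := h.me
  up := by
    intro i hi X hX hnn hl hc
    rw [tsub_le_iff_right]
    calc (1 : ℝ≥0∞) = (1 - F (ret (X 0) (shift (exT (Bl ℓ (l + i)) X).toNat X))) +
          F (ret (X 0) (shift (exT (Bl ℓ (l + i)) X).toNat X)) := (tsub_add_cancel_of_le (h.le1 _)).symm
      _ ≤ (1 - F (ret (X 0) (shift (exT (Bl ℓ (l + i)) X).toNat X))) + (F X + err i X) := by
          gcongr; exact h.dn i hi X hX hnn hl hc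
      _ = _ := by ring
  dn := by
    intro i hi X hX hnn hl hc
    rw [tsub_le_iff_right]
    calc (1 : ℝ≥0∞) = (1 - F X) + F X := (tsub_add_cancel_of_le (h.le1 _)).symm
      _ ≤ (1 - F X) + (F (ret (X 0) (shift (exT (Bl ℓ (l + i)) X).toNat X)) + err i X) := by
          gcongr; exact h.up i hi X hX hnn hl hc
      _ = _ := by ring

/-- natural expectation -/
noncomputable def hN (ν : Measure (Row d)) [IsProbabilityMeasure ν] (ℓ : Site d →+ ℤ) (l : ℤ)
    (F : Path d → ℝ≥0∞) (y : Site d) : ℝ≥0∞ :=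
  ∫⁻ ω, ∫⁻ X in Ntl ℓ l, F X ∂quenchedLaw ω y ∂(iidEnvironmentLaw ν)

/-- upper bound by the natural expectation -/
lemma Loc.upper (hℓ : ∀ e : Step d, |ℓ (stepVec e)| ≤ 1)
    (hR : annealedProb (iidEnvironmentLaw ν) 0 (Reach ℓ) = 1) (hp : pN ℓ ν ≠ 0)
    {t : ℕ} {β : ℝ≥0∞} (hAP : AP ℓ ν t β) {l : ℤ} {F : Path d → ℝ≥0∞} {err : ℕ → Path d → ℝ≥0∞}
    (h : Loc ℓ l t F err) {y : Site d} (hy : ℓ y = l) {a : Environment d → ℝ≥0∞}
    (ha : Measurable[coordSigmaAlgebra (Bl ℓ l)] a) :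
    ∫⁻ ω, a ω * ∫⁻ X, F X ∂quenchedLaw ω y ∂(iidEnvironmentLaw ν)
      ≤ (hN ν ℓ l F y / pN ℓ ν) * ∫⁻ ω, a ω ∂(iidEnvironmentLaw ν)
        + ∑ i ∈ Finset.range (t + 1), ∫⁻ ω, a ω * ∫⁻ X, err i X ∂quenchedLaw ω y
            ∂(iidEnvironmentLaw ν)
        + β * ∫⁻ ω, a ω ∂(iidEnvironmentLaw ν) := by
  refine first_cut_nn hℓ hR hp hAP hy ha h.mF h.le1 (G := fun i Z => F (ret y Z))
    (fun i => h.mF.comp (measurable_ret y)) h.me ?_ ?_
  · intro i hi X hX hnn h0 hc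
    have := h.up i hi X hX hnn (by rw [h0, hy]) hc
    rw [h0] at this
    exact this
  · intro i hi y' hy'
    exact (ret_nat h.mF hy hy').le

lemma An_compl {F : Path d → ℝ≥0∞} (hF : Measurable F) (h1 : ∀ X, F X ≤ 1) (y : Site d) :
    An ν y F + An ν y (fun X => 1 - F X) = 1 := by
  unfold An
  rw [← lintegral_add_left (meas_qlint hF y)]
  have : ∀ ω : Environment d, ∫⁻ X, F X ∂quenchedLaw ω y + ∫⁻ X, (1 - F X) ∂quenchedLaw ω y = 1 := by
    intro ω
    rw [← lintegral_add_left hF]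
    simp only [add_tsub_cancel_of_le (h1 _)]
    simp
  simp only [this]
  simp

lemma hN_compl {F : Path d → ℝ≥0∞} (hF : Measurable F) (h1 : ∀ X, F X ≤ 1) {l : ℤ} {y : Site d}
    (hy : ℓ y = l) : hN ν ℓ l F y + hN ν ℓ l (fun X => 1 - F X) y = pN ℓ ν := by
  unfold hN
  have hm : Measurable fun ω : Environment d => ∫⁻ X in Ntl ℓ l, F X ∂quenchedLaw ω y :=
    coord_meas_top (coordAb_Ntl l y hF)
  rw [← lintegral_add_left hm, ← ann_Ntl' y hy]
  refine lintegral_congr fun ω => ?_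
  rw [← lintegral_add_left hF]
  simp only [add_tsub_cancel_of_le (h1 _)]
  simp

/-- the natural expectation against the annealed one -/
lemma Loc.lower (hℓ : ∀ e : Step d, |ℓ (stepVec e)| ≤ 1)
    (hR : annealedProb (iidEnvironmentLaw ν) 0 (Reach ℓ) = 1) (hp : pN ℓ ν ≠ 0)
    {t : ℕ} {β : ℝ≥0∞} (hAP : AP ℓ ν t β) {l : ℤ} {F : Path d → ℝ≥0∞} {err : ℕ → Path d → ℝ≥0∞}
    (h : Loc ℓ l t F err) {y : Site d} (hy : ℓ y = l) :
    hN ν ℓ l F y / pN ℓ ν ≤ An ν y F + (∑ i ∈ Finset.range (t + 1), An ν y (err i) + β) := by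
  have h1 := h.compl.upper hℓ hR hp hAP hy (a := fun _ => 1) measurable_const
  simp only [one_mul, lintegral_const, measure_univ, mul_one] at h1
  set E := ∑ i ∈ Finset.range (t + 1), An ν y (err i) + β
  have h2 : An ν y (fun X => 1 - F X) ≤ hN ν ℓ l (fun X => 1 - F X) y / pN ℓ ν + E := by
    refine h1.trans ?_
    rw [add_assoc]
    exact le_rfl
  have h3 : hN ν ℓ l F y / pN ℓ ν + hN ν ℓ l (fun X => 1 - F X) y / pN ℓ ν = 1 := by
    rw [← ENNReal.add_div, hN_compl h.mF h.le1 hy, ENNReal.div_self hp pN_ne_top]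
  have hft : hN ν ℓ l (fun X => 1 - F X) y / pN ℓ ν ≠ ⊤ :=
    ne_top_of_le_ne_top ENNReal.one_ne_top (le_add_self.trans h3.le)
  have h4 : hN ν ℓ l F y / pN ℓ ν + hN ν ℓ l (fun X => 1 - F X) y / pN ℓ ν ≤
      (An ν y F + E) + hN ν ℓ l (fun X => 1 - F X) y / pN ℓ ν := by
    rw [h3]
    calc (1 : ℝ≥0∞) = An ν y F + An ν y (fun X => 1 - F X) := (An_compl h.mF h.le1 y).symm
      _ ≤ An ν y F + (hN ν ℓ l (fun X => 1 - F X) y / pN ℓ ν + E) := by gcongr
      _ = _ := by ring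
  exact (ENNReal.add_le_add_iff_right hft).1 h4

/-- **deterministic centring, upper half** -/
theorem Loc.core (hℓ : ∀ e : Step d, |ℓ (stepVec e)| ≤ 1)
    (hR : annealedProb (iidEnvironmentLaw ν) 0 (Reach ℓ) = 1) (hp : pN ℓ ν ≠ 0)
    {t : ℕ} {β : ℝ≥0∞} (hAP : AP ℓ ν t β) {l : ℤ} (hl : 0 ≤ l) {F : Path d → ℝ≥0∞}
    {err : ℕ → Path d → ℝ≥0∞} (h : Loc ℓ l t F err) {η : ℝ≥0∞}
    (hE1 : ∀ i ≤ t, ∀ y, ℓ y = l → An ν y (err i) ≤ η)
    (hE2 : ∀ i ≤ t, ∑' y, ∫⁻ ω, EK ω (Bl ℓ l) 0 y * ∫⁻ X, err i X ∂quenchedLaw ω y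
      ∂(iidEnvironmentLaw ν) ≤ η)
    {a : Site d → Environment d → ℝ≥0∞}
    (ha : ∀ y, Measurable[coordSigmaAlgebra (Bl ℓ l)] (a y))
    (hae : ∀ y ω, a y ω ≤ EK ω (Bl ℓ l) 0 y) :
    ∑' y, ∫⁻ ω, a y ω * ∫⁻ X, F X ∂quenchedLaw ω y ∂(iidEnvironmentLaw ν)
      ≤ ∑' y, (∫⁻ ω, a y ω ∂(iidEnvironmentLaw ν)) * An ν y F + 2 * ((t + 1) * η + β) := by
  have hA1 : ∑' y, ∫⁻ ω, a y ω ∂(iidEnvironmentLaw ν) ≤ 1 :=
    (ENNReal.tsum_le_tsum fun y => lintegral_mono fun ω => hae y ω).trans (tsum_EK_int l)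
  have hy : ∀ y, ∫⁻ ω, a y ω * ∫⁻ X, F X ∂quenchedLaw ω y ∂(iidEnvironmentLaw ν)
      ≤ (∫⁻ ω, a y ω ∂(iidEnvironmentLaw ν)) * An ν y F +
        (((t + 1) * η + β) * (∫⁻ ω, a y ω ∂(iidEnvironmentLaw ν)) +
        (∑ i ∈ Finset.range (t + 1), ∫⁻ ω, EK ω (Bl ℓ l) 0 y * ∫⁻ X, err i X ∂quenchedLaw ω y
            ∂(iidEnvironmentLaw ν) + β * (∫⁻ ω, a y ω ∂(iidEnvironmentLaw ν)))) := by
    intro y
    by_cases hy : ℓ y = l
    · refine (h.upper hℓ hR hp hAP hy (ha y)).trans ?_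
      have h1 : ∑ i ∈ Finset.range (t + 1), An ν y (err i) ≤ (t + 1) * η := by
        calc ∑ i ∈ Finset.range (t + 1), An ν y (err i) ≤ ∑ i ∈ Finset.range (t + 1), η :=
              Finset.sum_le_sum fun i hi => hE1 i (by have := Finset.mem_range.1 hi; omega) y hy
          _ = (t + 1) * η := by simp
      have h2 : hN ν ℓ l F y / pN ℓ ν ≤ An ν y F + ((t + 1) * η + β) :=
        (h.lower hℓ hR hp hAP hy).trans (by gcongr)
      calc hN ν ℓ l F y / pN ℓ ν * ∫⁻ ω, a y ω ∂(iidEnvironmentLaw ν)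
            + ∑ i ∈ Finset.range (t + 1), ∫⁻ ω, a y ω * ∫⁻ X, err i X ∂quenchedLaw ω y
              ∂(iidEnvironmentLaw ν) + β * ∫⁻ ω, a y ω ∂(iidEnvironmentLaw ν)
          ≤ (An ν y F + ((t + 1) * η + β)) * ∫⁻ ω, a y ω ∂(iidEnvironmentLaw ν)
            + ∑ i ∈ Finset.range (t + 1), ∫⁻ ω, EK ω (Bl ℓ l) 0 y * ∫⁻ X, err i X ∂quenchedLaw ω y
              ∂(iidEnvironmentLaw ν) + β * ∫⁻ ω, a y ω ∂(iidEnvironmentLaw ν) := by
            gcongr
            exact hae y _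
        _ = _ := by ring
    · have hz : ∀ ω, a y ω = 0 := fun ω => le_antisymm ((hae y ω).trans
        (EK_level ℓ hℓ ω (by rw [map_zero]; exact hl) hy).le) zero_le
      simp [hz]
  refine (ENNReal.tsum_le_tsum hy).trans ?_
  rw [ENNReal.tsum_add, ENNReal.tsum_add, ENNReal.tsum_add, ENNReal.tsum_mul_left,
    ENNReal.tsum_mul_left]
  refine add_le_add le_rfl ?_
  have h3 : ∑' y, ∑ i ∈ Finset.range (t + 1), ∫⁻ ω, EK ω (Bl ℓ l) 0 y *
      ∫⁻ X, err i X ∂quenchedLaw ω y ∂(iidEnvironmentLaw ν) ≤ (t + 1) * η := by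
    rw [Summable.tsum_finsetSum fun i _ => ENNReal.summable]
    calc ∑ i ∈ Finset.range (t + 1), ∑' y, ∫⁻ ω, EK ω (Bl ℓ l) 0 y *
          ∫⁻ X, err i X ∂quenchedLaw ω y ∂(iidEnvironmentLaw ν)
        ≤ ∑ i ∈ Finset.range (t + 1), η :=
          Finset.sum_le_sum fun i hi => hE2 i (by have := Finset.mem_range.1 hi; omega)
      _ = (t + 1) * η := by simp
  calc ((t + 1) * η + β) * ∑' y, ∫⁻ ω, a y ω ∂(iidEnvironmentLaw ν) +
        (∑' y, ∑ i ∈ Finset.range (t + 1), ∫⁻ ω, EK ω (Bl ℓ l) 0 y *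
          ∫⁻ X, err i X ∂quenchedLaw ω y ∂(iidEnvironmentLaw ν) +
          β * ∑' y, ∫⁻ ω, a y ω ∂(iidEnvironmentLaw ν))
      ≤ ((t + 1) * η + β) * 1 + ((t + 1) * η + β * 1) := by gcongr
    _ = 2 * ((t + 1) * η + β) := by ring

/-- **deterministic centring, lower half** -/
theorem Loc.core' (hℓ : ∀ e : Step d, |ℓ (stepVec e)| ≤ 1)
    (hR : annealedProb (iidEnvironmentLaw ν) 0 (Reach ℓ) = 1) (hp : pN ℓ ν ≠ 0)
    {t : ℕ} {β : ℝ≥0∞} (hAP : AP ℓ ν t β) {l : ℤ} (hl : 0 ≤ l) {F : Path d → ℝ≥0∞}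
    {err : ℕ → Path d → ℝ≥0∞} (h : Loc ℓ l t F err) {η : ℝ≥0∞}
    (hE1 : ∀ i ≤ t, ∀ y, ℓ y = l → An ν y (err i) ≤ η)
    (hE2 : ∀ i ≤ t, ∑' y, ∫⁻ ω, EK ω (Bl ℓ l) 0 y * ∫⁻ X, err i X ∂quenchedLaw ω y
      ∂(iidEnvironmentLaw ν) ≤ η)
    {a : Site d → Environment d → ℝ≥0∞}
    (ha : ∀ y, Measurable[coordSigmaAlgebra (Bl ℓ l)] (a y))
    (hae : ∀ y ω, a y ω ≤ EK ω (Bl ℓ l) 0 y) :
    ∑' y, (∫⁻ ω, a y ω ∂(iidEnvironmentLaw ν)) * An ν y F
      ≤ ∑' y, ∫⁻ ω, a y ω * ∫⁻ X, F X ∂quenchedLaw ω y ∂(iidEnvironmentLaw ν)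
        + 2 * ((t + 1) * η + β) := by
  have hA1 : ∑' y, ∫⁻ ω, a y ω ∂(iidEnvironmentLaw ν) ≤ 1 :=
    (ENNReal.tsum_le_tsum fun y => lintegral_mono fun ω => hae y ω).trans (tsum_EK_int l)
  have h1 := h.compl.core hℓ hR hp hAP hl hE1 hE2 ha hae
  set D := 2 * (((t : ℝ≥0∞) + 1) * η + β)
  have e1 : ∑' y, ∫⁻ ω, a y ω * ∫⁻ X, F X ∂quenchedLaw ω y ∂(iidEnvironmentLaw ν) +
      ∑' y, ∫⁻ ω, a y ω * ∫⁻ X, (1 - F X) ∂quenchedLaw ω y ∂(iidEnvironmentLaw ν)
      = ∑' y, ∫⁻ ω, a y ω ∂(iidEnvironmentLaw ν) := by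
    rw [← ENNReal.tsum_add]
    refine tsum_congr fun y => ?_
    have hm : Measurable fun ω : Environment d => a y ω * ∫⁻ X, F X ∂quenchedLaw ω y :=
      (coord_meas_top (ha y)).mul (meas_qlint h.mF y)
    rw [← lintegral_add_left hm]
    refine lintegral_congr fun ω => ?_
    rw [← mul_add, ← lintegral_add_left h.mF]
    simp only [add_tsub_cancel_of_le (h.le1 _)]
    simp
  have e2 : ∑' y, (∫⁻ ω, a y ω ∂(iidEnvironmentLaw ν)) * An ν y F +
      ∑' y, (∫⁻ ω, a y ω ∂(iidEnvironmentLaw ν)) * An ν y (fun X => 1 - F X)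
      = ∑' y, ∫⁻ ω, a y ω ∂(iidEnvironmentLaw ν) := by
    rw [← ENNReal.tsum_add]
    refine tsum_congr fun y => ?_
    rw [← mul_add, An_compl h.mF h.le1, mul_one]
  have hft : ∑' y, (∫⁻ ω, a y ω ∂(iidEnvironmentLaw ν)) * An ν y (fun X => 1 - F X) ≠ ⊤ :=
    ne_top_of_le_ne_top ENNReal.one_ne_top ((le_add_self.trans e2.le).trans hA1)
  refine (ENNReal.add_le_add_iff_right hft).1 ?_
  rw [e2, ← e1, add_assoc]
  refine add_le_add le_rfl ?_
  rw [add_comm D]
  exact h1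

end an

end Crest.Agent.R154.Phi215
end

-- ▼ part R154/PhiE_215

/-!
# Row 154, helper215: (V1) of D2/VARG, part E — `D2V36.ResidP`

* `Loc.cond` : the conditional expectation on the rows below `l` is close to a deterministic
  function at the first hit of level `l`;
* `residP` : `D2V36.ResidP` from the annealed escape in the direction `u`.
-/

set_option autoImplicit false
set_option linter.unusedVariables false
set_option linter.unusedSectionVars false

namespace Crest.Agent.R154.Phi215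

open MeasureTheory ProbabilityTheory Crest.ProbabilityR.RandomEnvironment Crest.Agent.R154
open Crest.Agent.R154.ExK9 Crest.Agent.R154.Resamp9
open Crest.Agent.R154.FEk9 (AD)
open scoped ENNReal

variable {d : ℕ}

section cond
variable {ℓ : Site d →+ ℤ} {ν : Measure (Row d)} [IsProbabilityMeasure ν]

/-- indicator of a local measurable set times the exit kernel -/
lemma loc_ind {S : Set (Environment d)} {A : Set (Site d)} (hS : MeasurableSet S)
    (hl : ∀ ω ω' : Environment d, (∀ z ∈ A, ω z = ω' z) → (ω ∈ S ↔ ω' ∈ S)) (x y : Site d) :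
    Q561.LocOn A (S.indicator fun ω : Environment d => EK ω A x y) ∧
      Measurable (S.indicator fun ω : Environment d => EK ω A x y) := by
  refine ⟨fun ω ω' h => ?_, (meas_EK A x y).indicator hS⟩
  have h1 := locOn_EK A x y ω ω' h
  by_cases hω : ω ∈ S
  · rw [Set.indicator_of_mem hω, Set.indicator_of_mem ((hl ω ω' h).1 hω)]
    exact h1
  · rw [Set.indicator_of_notMem hω, Set.indicator_of_notMem fun h' => hω ((hl ω ω' h).2 h')]

/-- **conditional expectation against the deterministic centring** -/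
theorem Loc.cond (hℓ : ∀ e : Step d, |ℓ (stepVec e)| ≤ 1)
    (hR : annealedProb (iidEnvironmentLaw ν) 0 (Reach ℓ) = 1) (hp : pN ℓ ν ≠ 0)
    {t : ℕ} {β : ℝ≥0∞} (hAP : AP ℓ ν t β) {l : ℤ} (hl : 0 ≤ l) {F : Path d → ℝ≥0∞}
    {err : ℕ → Path d → ℝ≥0∞} (h : Loc ℓ l t F err) {η : ℝ≥0∞}
    (hE1 : ∀ i ≤ t, ∀ y, ℓ y = l → An ν y (err i) ≤ η)
    (hE2 : ∀ i ≤ t, ∑' y, ∫⁻ ω, EK ω (Bl ℓ l) 0 y * ∫⁻ X, err i X ∂quenchedLaw ω y
      ∂(iidEnvironmentLaw ν) ≤ η) :
    ∫⁻ ω, ∑' y, EK ω (Bl ℓ l) 0 y *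
      AD (cnd ν (Bl ℓ l) (fun ω => ∫⁻ X, F X ∂quenchedLaw ω y) ω) (An ν y F)
        ∂(iidEnvironmentLaw ν) ≤ 4 * ((t + 1) * η + β) := by
  set Q := iidEnvironmentLaw ν
  set D := 2 * (((t : ℝ≥0∞) + 1) * η + β) with hD
  set φ : Site d → Environment d → ℝ≥0∞ := fun y ω =>
    cnd ν (Bl ℓ l) (fun ω => ∫⁻ X, F X ∂quenchedLaw ω y) ω with hφ
  have mφ : ∀ y, Measurable (φ y) := fun y => meas_cnd _ (meas_qlint h.mF y)
  have lφ : ∀ y, Q561.LocOn (Bl ℓ l) (φ y) := fun y => locOn_cnd _ _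
  have F1 : ∀ y ω, ∫⁻ X, F X ∂quenchedLaw ω y ≤ 1 := fun y ω =>
    (lintegral_mono h.le1).trans (by simp)
  have v1 : ∀ y, An ν y F ≤ 1 := fun y => An_le_one ν h.le1
  have v1' : ∀ y, An ν y F ≠ ⊤ := fun y => ne_top_of_le_ne_top ENNReal.one_ne_top (v1 y)
  -- general step
  have key : ∀ S : Site d → Set (Environment d), (∀ y, MeasurableSet (S y)) →
      (∀ y (ω ω' : Environment d), (∀ z ∈ Bl ℓ l, ω z = ω' z) → (ω ∈ S y ↔ ω' ∈ S y)) →
      let a : Site d → Environment d → ℝ≥0∞ := fun y => (S y).indicator fun ω => EK ω (Bl ℓ l) 0 y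
      (∑' y, ∫⁻ ω, a y ω * φ y ω ∂Q ≤ ∑' y, ∫⁻ ω, a y ω * An ν y F ∂Q + D) ∧
      (∑' y, ∫⁻ ω, a y ω * An ν y F ∂Q ≤ ∑' y, ∫⁻ ω, a y ω * φ y ω ∂Q + D) ∧
      (∑' y, ∫⁻ ω, a y ω * An ν y F ∂Q ≤ 1) ∧ (∑' y, ∫⁻ ω, a y ω * φ y ω ∂Q ≤ 1) := by
    intro S hS hSl a
    have h1 := fun y => loc_ind (A := Bl ℓ l) (hS y) (hSl y) 0 y
    have ha : ∀ y, Measurable[coordSigmaAlgebra (Bl ℓ l)] (a y) := fun y =>
      Q561.measurable_coord (h1 y).2 (h1 y).1
    have hae : ∀ y ω, a y ω ≤ EK ω (Bl ℓ l) 0 y := fun y ω => Set.indicator_le_self' (by simp) _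
    have e1 : ∀ y, ∫⁻ ω, a y ω * φ y ω ∂Q = ∫⁻ ω, a y ω * ∫⁻ X, F X ∂quenchedLaw ω y ∂Q :=
      fun y => lint_cnd (h1 y).1 (h1 y).2 (meas_qlint h.mF y)
    have e2 : ∀ y, ∫⁻ ω, a y ω * An ν y F ∂Q = (∫⁻ ω, a y ω ∂Q) * An ν y F :=
      fun y => lintegral_mul_const _ (h1 y).2
    have hA1 : ∑' y, ∫⁻ ω, a y ω ∂Q ≤ 1 :=
      (ENNReal.tsum_le_tsum fun y => lintegral_mono fun ω => hae y ω).trans (tsum_EK_int l)
    simp only [e1, e2]
    refine ⟨h.core hℓ hR hp hAP hl hE1 hE2 ha hae, h.core' hℓ hR hp hAP hl hE1 hE2 ha hae, ?_, ?_⟩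
    · refine (ENNReal.tsum_le_tsum fun y => ?_).trans hA1
      exact (mul_le_mul' le_rfl (v1 y)).trans (by rw [mul_one])
    · refine (ENNReal.tsum_le_tsum fun y => lintegral_mono fun ω => ?_).trans hA1
      exact (mul_le_mul' le_rfl (F1 y ω)).trans (by rw [mul_one])
  -- upper half
  have hup : ∑' y, ∫⁻ ω, EK ω (Bl ℓ l) 0 y * (φ y ω - An ν y F) ∂Q ≤ D := by
    obtain ⟨k1, -, k3, -⟩ := key (fun y => {ω | An ν y F < φ y ω})
      (fun y => measurableSet_lt measurable_const (mφ y))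
      (fun y ω ω' hω => by
        have : φ y ω = φ y ω' := lφ y ω ω' hω
        simp only [Set.mem_ofPred_eq, this])
    refine (ENNReal.add_le_add_iff_left (ne_top_of_le_ne_top ENNReal.one_ne_top k3)).1 ?_
    refine le_trans (le_of_eq ?_) k1
    rw [← ENNReal.tsum_add]
    refine tsum_congr fun y => ?_
    have hm : Measurable fun ω : Environment d =>
        ({ω | An ν y F < φ y ω}.indicator (fun ω => EK ω (Bl ℓ l) 0 y)) ω * An ν y F :=
      (((meas_EK _ 0 y).indicator (measurableSet_lt measurable_const (mφ y))).mul_const _)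
    rw [← lintegral_add_left hm]
    refine lintegral_congr fun ω => ?_
    show _ = ({ω | An ν y F < φ y ω}.indicator (fun ω => EK ω (Bl ℓ l) 0 y)) ω * φ y ω
    by_cases hω : An ν y F < φ y ω
    · have h2 : ω ∈ {ω : Environment d | An ν y F < φ y ω} := hω
      rw [Set.indicator_of_mem h2, ← mul_add, add_tsub_cancel_of_le hω.le]
    · have h2 : ω ∉ {ω : Environment d | An ν y F < φ y ω} := hω
      rw [Set.indicator_of_notMem h2, tsub_eq_zero_of_le (not_lt.1 hω)]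
      simp
  have hdn : ∑' y, ∫⁻ ω, EK ω (Bl ℓ l) 0 y * (An ν y F - φ y ω) ∂Q ≤ D := by
    obtain ⟨-, k2, -, k4⟩ := key (fun y => {ω | φ y ω < An ν y F})
      (fun y => measurableSet_lt (mφ y) measurable_const)
      (fun y ω ω' hω => by
        have : φ y ω = φ y ω' := lφ y ω ω' hω
        simp only [Set.mem_ofPred_eq, this])
    refine (ENNReal.add_le_add_iff_left (ne_top_of_le_ne_top ENNReal.one_ne_top k4)).1 ?_
    refine le_trans (le_of_eq ?_) k2
    rw [← ENNReal.tsum_add]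
    refine tsum_congr fun y => ?_
    have hm : Measurable fun ω : Environment d =>
        ({ω | φ y ω < An ν y F}.indicator (fun ω => EK ω (Bl ℓ l) 0 y)) ω * φ y ω :=
      (((meas_EK _ 0 y).indicator (measurableSet_lt (mφ y) measurable_const)).mul (mφ y))
    rw [← lintegral_add_left hm]
    refine lintegral_congr fun ω => ?_
    show _ = ({ω | φ y ω < An ν y F}.indicator (fun ω => EK ω (Bl ℓ l) 0 y)) ω * An ν y F
    by_cases hω : φ y ω < An ν y F
    · have h2 : ω ∈ {ω : Environment d | φ y ω < An ν y F} := hω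
      rw [Set.indicator_of_mem h2, ← mul_add, add_tsub_cancel_of_le hω.le]
    · have h2 : ω ∉ {ω : Environment d | φ y ω < An ν y F} := hω
      rw [Set.indicator_of_notMem h2, tsub_eq_zero_of_le (not_lt.1 hω)]
      simp
  have hm1 : ∀ y, Measurable fun ω : Environment d =>
      EK ω (Bl ℓ l) 0 y * (φ y ω - An ν y F) := fun y =>
    (meas_EK _ 0 y).mul ((mφ y).sub measurable_const)
  have hm2 : ∀ y, Measurable fun ω : Environment d =>
      EK ω (Bl ℓ l) 0 y * (An ν y F - φ y ω) := fun y =>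
    (meas_EK _ 0 y).mul (measurable_const.sub (mφ y))
  have e3 : ∀ y ω, EK ω (Bl ℓ l) 0 y * AD (φ y ω) (An ν y F)
      = EK ω (Bl ℓ l) 0 y * (φ y ω - An ν y F) + EK ω (Bl ℓ l) 0 y * (An ν y F - φ y ω) := by
    intro y ω
    unfold AD
    rw [mul_add]
  calc ∫⁻ ω, ∑' y, EK ω (Bl ℓ l) 0 y * AD (φ y ω) (An ν y F) ∂Q
      = ∑' y, ∫⁻ ω, (EK ω (Bl ℓ l) 0 y * (φ y ω - An ν y F) +
          EK ω (Bl ℓ l) 0 y * (An ν y F - φ y ω)) ∂Q := by
        simp only [e3]
        exact lintegral_tsum fun y => ((hm1 y).add (hm2 y)).aemeasurable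
    _ = ∑' y, ∫⁻ ω, EK ω (Bl ℓ l) 0 y * (φ y ω - An ν y F) ∂Q +
          ∑' y, ∫⁻ ω, EK ω (Bl ℓ l) 0 y * (An ν y F - φ y ω) ∂Q := by
        rw [← ENNReal.tsum_add]
        exact tsum_congr fun y => lintegral_add_left (hm1 y) _
    _ ≤ D + D := add_le_add hup hdn
    _ = 4 * ((t + 1) * η + β) := by rw [hD]; ring

/-- all distances `≤ t` at once -/
lemma tight_le {σ : Site d →+ ℝ} (hℓ : ∀ e : Step d, |ℓ (stepVec e)| ≤ 1)
    (hR : annealedProb (iidEnvironmentLaw ν) 0 (Reach ℓ) = 1) (hp : pN ℓ ν ≠ 0) (t : ℕ)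
    {δ : ℝ≥0∞} (hδ : δ ≠ 0) :
    ∃ ε0 : ℝ, 0 < ε0 ∧ ∀ i ≤ t, ∀ ε ≤ ε0, ∀ m : ℤ, 0 ≤ m → An ν 0 (Psi ℓ σ ε m i) ≤ δ := by
  induction t with
  | zero =>
    obtain ⟨ε0, h0, h1⟩ := tight (σ := σ) hℓ hR hp 0 hδ
    exact ⟨ε0, h0, fun i hi ε hε m hm => by rw [Nat.le_zero.1 hi]; exact h1 ε hε m hm⟩
  | succ t ih =>
    obtain ⟨ε1, h1, h1'⟩ := ih
    obtain ⟨ε2, h2, h2'⟩ := tight (σ := σ) hℓ hR hp (t + 1) hδ
    refine ⟨min ε1 ε2, lt_min h1 h2, fun i hi ε hε m hm => ?_⟩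
    rcases Nat.lt_or_ge t i with h | h
    · have : i = t + 1 := le_antisymm hi h
      subst this
      exact h2' ε (hε.trans (min_le_right _ _)) m hm
    · exact h1' i h ε (hε.trans (min_le_left _ _)) m hm

/-- the first hit of level `b` of a nearest neighbour path is on level `b` -/
lemma lev_hit (hℓ : ∀ e : Step d, |ℓ (stepVec e)| ≤ 1) {X : Path d} (hnn : NN X) {b : ℤ}
    (h0 : ℓ (X 0) ≤ b) (hX : exT (Bl ℓ b) X ≠ ⊤) : ℓ (xE (Bl ℓ b) X) = b := by
  obtain ⟨n, hn⟩ := ENat.ne_top_iff_exists.1 hX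
  unfold xE
  rw [← hn, ENat.toNat_natCast]
  obtain ⟨h1, h2⟩ := exT_eq_iff.1 hn.symm
  have h3 : b ≤ ℓ (X n) := not_lt.1 h1
  rcases Nat.eq_zero_or_pos n with h | h
  · subst h; exact le_antisymm h0 h3
  · obtain ⟨e, he⟩ := hnn (n - 1)
    rw [Nat.sub_add_cancel h] at he
    have h4 : ℓ (X (n - 1)) < b := h2 (n - 1) (by omega)
    have h5 := (abs_le.1 (hℓ e)).2
    rw [he, map_add] at h3 ⊢
    omega

/-- the sites of first visit of the path with a piece removed -/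
lemma xE_cut (hℓ : ∀ e : Step d, |ℓ (stepVec e)| ≤ 1) {X : Path d} (hnn : NN X)
    (hX : X ∈ Reach ℓ) {l : ℤ} (h0 : ℓ (X 0) = l) (i : ℕ) {L : ℤ} (hL : l ≤ L) :
    xE (Bl ℓ L) (ret (X 0) (shift (exT (Bl ℓ (l + i)) X).toNat X))
      = xE (Bl ℓ (L + i)) X - xE (Bl ℓ (l + i)) X + xE (Bl ℓ l) X := by
  have h1 : ℓ (xE (Bl ℓ (l + i)) X) = l + i := lev_hit hℓ hnn (by rw [h0]; omega) (hX _)
  have h2 : (shift (exT (Bl ℓ (l + i)) X).toNat X) 0 = xE (Bl ℓ (l + i)) X := rfl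
  have h3 : xE (Bl ℓ l) X = X 0 := by
    have : exT (Bl ℓ l) X = (0 : ℕ) := exT_eq_iff.2 ⟨fun h => by
      have : ℓ (X 0) < l := h
      omega, fun i hi => absurd hi (Nat.not_lt_zero i)⟩
    unfold xE
    rw [this, ENat.toNat_natCast]
  rw [ret_eq_tr, xE_tr, h2, map_sub, h1, h0, show L - (l - (l + (i : ℤ))) = L + i by ring,
    xE_shift (Bl_mono ℓ (by omega)) (hX _), h3]
  abel

end cond

/-! ### the literal interface -/

open Crest.Agent.R154.Flux132 (lev)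
open Crest.Agent.R154.P2916 (sl)

/-- the level as an additive map -/
def levH (u : Step d) : Site d →+ ℤ where
  toFun := lev u
  map_zero' := by unfold lev; split_ifs <;> simp
  map_add' := Hit2569.lev_add' u

/-- the slanted lateral coordinate as an additive map -/
noncomputable def slH (u : Step 2) (i : Fin 2) (θ : ℝ) : Site 2 →+ ℝ where
  toFun := sl u i θ
  map_zero' := by
    unfold sl
    have : lev u (0 : Site 2) = 0 := (levH u).map_zero
    rw [this]; simp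
  map_add' := by
    intro x y
    unfold sl
    rw [Hit2569.lev_add' u, Pi.add_apply]
    push_cast
    ring


lemma xT_eq (u : Step 2) (l : ℕ) (X : Path 2) : D2V36.xT u l X = xE (Bl (levH u) (l : ℤ)) X := rfl

/-- `|∏ a - ∏ b| ≤ ∑ |a - b|` -/
lemma prod_sub_le {ι : Type*} (s : Finset ι) (a b : ι → ℝ) (ha : ∀ i, 0 ≤ a i ∧ a i ≤ 1)
    (hb : ∀ i, 0 ≤ b i ∧ b i ≤ 1) : |∏ i ∈ s, a i - ∏ i ∈ s, b i| ≤ ∑ i ∈ s, |a i - b i| := by
  classical
  induction s using Finset.induction_on with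
  | empty => simp
  | insert j s hj ih =>
    rw [Finset.prod_insert hj, Finset.prod_insert hj, Finset.sum_insert hj]
    have h1 : 0 ≤ ∏ i ∈ s, b i := Finset.prod_nonneg fun i _ => (hb i).1
    have h2 : ∏ i ∈ s, b i ≤ 1 := Finset.prod_le_one (fun i _ => (hb i).1) fun i _ => (hb i).2
    have e : a j * ∏ i ∈ s, a i - b j * ∏ i ∈ s, b i
        = (a j - b j) * ∏ i ∈ s, b i + a j * (∏ i ∈ s, a i - ∏ i ∈ s, b i) := by ring
    rw [e]
    refine (abs_add_le _ _).trans (add_le_add ?_ ?_)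
    · rw [abs_mul, abs_of_nonneg h1]
      exact mul_le_of_le_one_right (abs_nonneg _) h2
    · rw [abs_mul, abs_of_nonneg (ha j).1]
      exact (mul_le_of_le_one_left (abs_nonneg _) (ha j).2).trans ih

/-- the error functional of a product -/
noncomputable def errP (u : Step 2) (i : Fin 2) (θ : ℝ) {m : ℕ} (L : Fin m → ℕ) (l : ℕ) (w : ℝ)
    (k : ℕ) (X : Path 2) : ℝ≥0∞ :=
  ∑ j : Fin m, (Psi (levH u) (slH u i θ) (1 / w) (L j : ℤ) k X +
    Psi (levH u) (slH u i θ) (1 / w) (l : ℤ) k X)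

lemma meas_errP (u : Step 2) (i : Fin 2) (θ : ℝ) {m : ℕ} (L : Fin m → ℕ) (l : ℕ) (w : ℝ)
    (k : ℕ) : Measurable (errP u i θ L l w k) :=
  Finset.measurable_fun_sum _ fun j _ => (meas_Psi _ _ _ _ _).add (meas_Psi _ _ _ _ _)

/-- the product functional is `Loc` -/
lemma loc_PX (u : Step 2) (i : Fin 2) (θ : ℝ) {m : ℕ} {L : Fin m → ℕ} {l : ℕ}
    (hL : ∀ j, l ≤ L j) {w : ℝ} (hw : 0 < w) {χ : Fin m → Site 2 → ℝ}
    (hχ : ∀ j z, 0 ≤ χ j z ∧ χ j z ≤ 1)
    (hlip : ∀ j z z', |χ j z - χ j z'| ≤ |sl u i θ z - sl u i θ z'| / w) (t : ℕ) :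
    Loc (levH u) (l : ℤ) t (fun X => ENNReal.ofReal (D2V36.PX u L χ X)) (errP u i θ L l w) := by
  have hℓ : ∀ e : Step 2, |levH u (stepVec e)| ≤ 1 := Hit2569.abs_lev_stepVec u
  have key : ∀ k X, X ∈ Reach (levH u) → NN X → levH u (X 0) = l →
      |D2V36.PX u L χ X - D2V36.PX u L χ
        (ret (X 0) (shift (exT (Bl (levH u) ((l : ℤ) + (k : ℕ))) X).toNat X))| ≤
        ∑ j : Fin m, |χ j (D2V36.xT u (L j) X) - χ j (D2V36.xT u (L j)
          (ret (X 0) (shift (exT (Bl (levH u) ((l : ℤ) + (k : ℕ))) X).toNat X)))| := by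
    intro k X hX hnn h0
    exact prod_sub_le Finset.univ _ _ (fun j => hχ j _) fun j => hχ j _
  have key2 : ∀ (k : ℕ) X, X ∈ Reach (levH u) → NN X → levH u (X 0) = l →
      ENNReal.ofReal (∑ j : Fin m, |χ j (D2V36.xT u (L j) X) - χ j (D2V36.xT u (L j)
          (ret (X 0) (shift (exT (Bl (levH u) ((l : ℤ) + (k : ℕ))) X).toNat X)))|) ≤
        errP u i θ L l w k X := by
    intro k X hX hnn h0
    unfold errP
    rw [ENNReal.ofReal_sum_of_nonneg fun j _ => abs_nonneg _]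
    refine Finset.sum_le_sum fun j _ => ?_
    have h1 := xE_cut hℓ hnn hX h0 k (L := (L j : ℤ)) (by exact_mod_cast hL j)
    rw [xT_eq, xT_eq, h1]
    set x1 := xE (Bl (levH u) (L j : ℤ)) X
    set x2 := xE (Bl (levH u) ((L j : ℤ) + k)) X with hx2
    set x3 := xE (Bl (levH u) ((l : ℤ) + k)) X with hx3
    set x4 := xE (Bl (levH u) (l : ℤ)) X with hx4
    have h2 : slH u i θ x1 - slH u i θ (x2 - x3 + x4)
        = -(slH u i θ x2 - slH u i θ x1) + (slH u i θ x3 - slH u i θ x4) := by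
      rw [map_add, map_sub]; ring
    have h3 : ENNReal.ofReal |χ j x1 - χ j (x2 - x3 + x4)| ≤
        mn (1 / w) (slH u i θ x1 - slH u i θ (x2 - x3 + x4)) := by
      unfold mn
      refine ENNReal.ofReal_le_ofReal (le_min ?_ ?_)
      · rw [abs_le]
        have := hχ j x1
        have := hχ j (x2 - x3 + x4)
        constructor <;> linarith
      · refine (hlip j _ _).trans (le_of_eq ?_)
        rw [div_eq_inv_mul, one_div]
        rfl
    refine h3.trans ?_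
    rw [h2]
    refine (mn_add (by positivity) _ _).trans ?_
    rw [mn_neg]
    exact le_rfl
  refine ⟨(FEk9.meas_PX L χ).ennreal_ofReal, fun X => ?_, meas_errP u i θ L l w, ?_, ?_⟩
  · exact ENNReal.ofReal_le_one.2 (FEk9.PX_le_one hχ X)
  · intro k _ X hX hnn h0 _
    have h1 := (abs_le.1 (key k X hX hnn h0)).2
    refine (ENNReal.ofReal_le_ofReal (sub_le_iff_le_add'.1 h1)).trans ?_
    rw [ENNReal.ofReal_add (FEk9.PX_nonneg hχ _) (Finset.sum_nonneg fun j _ => abs_nonneg _)]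
    exact add_le_add le_rfl (key2 k X hX hnn h0)
  · intro k _ X hX hnn h0 _
    have h1 := key k X hX hnn h0
    rw [abs_sub_comm] at h1
    have h2 := (abs_le.1 h1).2
    refine (ENNReal.ofReal_le_ofReal (sub_le_iff_le_add'.1 h2)).trans ?_
    rw [ENNReal.ofReal_add (FEk9.PX_nonneg hχ _) (Finset.sum_nonneg fun j _ => abs_nonneg _)]
    exact add_le_add le_rfl (key2 k X hX hnn h0)

/-- **`ResidP` in terms of the two inputs** -/
theorem residP_of {ν : Measure (Row 2)} [IsProbabilityMeasure ν] (u : Step 2) (i : Fin 2) (θ : ℝ)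
    (hR : annealedProb (iidEnvironmentLaw ν) 0 (Reach (levH u)) = 1) (hp : pN (levH u) ν ≠ 0) :
    D2V36.ResidP u i θ ν := by
  intro m δ hδ
  have hℓ : ∀ e : Step 2, |levH u (stepVec e)| ≤ 1 := Hit2569.abs_lev_stepVec u
  have hβ : ENNReal.ofReal (δ / 8) ≠ 0 := by
    rw [Ne, ENNReal.ofReal_eq_zero, not_le]; positivity
  obtain ⟨t, ht⟩ := anyPast (ℓ := levH u) (ν := ν) hℓ hR hp hβ
  have hAP := ht t le_rfl
  set δ' : ℝ := δ / (16 * ((t : ℝ) + 1) * ((m : ℝ) + 1)) with hδ'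
  have hδ'0 : 0 < δ' := by positivity
  have hδ'' : ENNReal.ofReal δ' ≠ 0 := by
    rw [Ne, ENNReal.ofReal_eq_zero, not_le]; exact hδ'0
  obtain ⟨ε0, hε0, hT⟩ := tight_le (ν := ν) (σ := slH u i θ) hℓ hR hp t hδ''
  refine ⟨0, 1 / ε0, by positivity, fun w hw l _ L hmono hL χ hχ hlip => ?_⟩
  have hw0 : 0 < w := lt_of_lt_of_le (by positivity) hw
  have hwε : 1 / w ≤ ε0 := by
    rw [div_le_iff₀ hw0]
    rw [ge_iff_le, div_le_iff₀ hε0] at hw
    linarith
  have hloc := loc_PX u i θ hL hw0 hχ hlip t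
  set η : ℝ≥0∞ := m * (2 * ENNReal.ofReal δ') with hη
  have hsum : ∀ f : Fin m → ℝ≥0∞, (∀ j, f j ≤ 2 * ENNReal.ofReal δ') → ∑ j, f j ≤ η := by
    intro f hf
    calc ∑ j, f j ≤ ∑ _j : Fin m, 2 * ENNReal.ofReal δ' := Finset.sum_le_sum fun j _ => hf j
      _ = η := by simp [hη]
  have hAn : ∀ (y : Site 2) (k : ℕ), An ν y (errP u i θ L l w k) =
      ∑ j : Fin m, (An ν y (Psi (levH u) (slH u i θ) (1 / w) (L j : ℤ) k) +
        An ν y (Psi (levH u) (slH u i θ) (1 / w) (l : ℤ) k)) := by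
    intro y k
    unfold An errP
    have e1 : ∀ ω : Environment 2, ∫⁻ X, ∑ j : Fin m, (Psi (levH u) (slH u i θ) (1 / w) (L j : ℤ) k X +
        Psi (levH u) (slH u i θ) (1 / w) (l : ℤ) k X) ∂quenchedLaw ω y
        = ∑ j : Fin m, (∫⁻ X, Psi (levH u) (slH u i θ) (1 / w) (L j : ℤ) k X ∂quenchedLaw ω y +
          ∫⁻ X, Psi (levH u) (slH u i θ) (1 / w) (l : ℤ) k X ∂quenchedLaw ω y) := by
      intro ω
      have hm : ∀ j : Fin m, Measurable fun X : Path 2 =>
          Psi (levH u) (slH u i θ) (1 / w) (L j : ℤ) k X +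
          Psi (levH u) (slH u i θ) (1 / w) (l : ℤ) k X := fun j =>
        (meas_Psi _ _ _ _ _).add (meas_Psi _ _ _ _ _)
      rw [lintegral_finsetSum _ fun j _ => hm j]
      exact Finset.sum_congr rfl fun j _ => lintegral_add_left (meas_Psi _ _ _ _ _) _
    simp only [e1]
    have hm : ∀ j : Fin m, Measurable fun ω : Environment 2 =>
        ∫⁻ X, Psi (levH u) (slH u i θ) (1 / w) (L j : ℤ) k X ∂quenchedLaw ω y +
          ∫⁻ X, Psi (levH u) (slH u i θ) (1 / w) (l : ℤ) k X ∂quenchedLaw ω y := fun j =>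
      (meas_qlint (meas_Psi _ _ _ _ _) y).add (meas_qlint (meas_Psi _ _ _ _ _) y)
    rw [lintegral_finsetSum _ fun j _ => hm j]
    exact Finset.sum_congr rfl fun j _ => lintegral_add_left (meas_qlint (meas_Psi _ _ _ _ _) y) _
  have hE1 : ∀ k ≤ t, ∀ y, levH u y = (l : ℤ) → An ν y (errP u i θ L l w k) ≤ η := by
    intro k hk y hy
    rw [hAn]
    refine hsum _ fun j => ?_
    have a1 := An_Psi (ν := ν) (ℓ := levH u) (σ := slH u i θ) (1 / w) (L j : ℤ) k y
    have a2 := An_Psi (ν := ν) (ℓ := levH u) (σ := slH u i θ) (1 / w) (l : ℤ) k y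
    rw [a1, a2, hy, two_mul]
    refine add_le_add (hT k hk _ hwε _ ?_) (hT k hk _ hwε _ (by omega))
    have : (l : ℤ) ≤ L j := by exact_mod_cast hL j
    omega
  have hE2 : ∀ k ≤ t, ∑' y, ∫⁻ ω, EK ω (Bl (levH u) (l : ℤ)) 0 y *
      ∫⁻ X, errP u i θ L l w k X ∂quenchedLaw ω y ∂(iidEnvironmentLaw ν) ≤ η := by
    intro k hk
    rw [← An_mark (l := (l : ℤ)) hR (meas_errP u i θ L l w k) fun X hX => ?_, hAn]
    · refine hsum _ fun j => ?_
      rw [two_mul]
      exact add_le_add (hT k hk _ hwε _ (by omega)) (hT k hk _ hwε _ (by omega))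
    · unfold errP
      refine Finset.sum_congr rfl fun j _ => ?_
      rw [Psi_shift (by exact_mod_cast hL j) hX, Psi_shift le_rfl hX]
  have hmain := hloc.cond hℓ hR hp hAP (by omega) hE1 hE2
  -- translate
  have F1 : ∀ (y : Site 2) (ω : Environment 2),
      ∫⁻ X, ENNReal.ofReal (D2V36.PX u L χ X) ∂quenchedLaw ω y ≤ 1 := fun y ω =>
    FEk9.lint_PX_le hχ ω y
  have mF : ∀ y : Site 2, Measurable fun ω : Environment 2 =>
      ∫⁻ X, ENNReal.ofReal (D2V36.PX u L χ X) ∂quenchedLaw ω y := fun y =>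
    meas_qlint (FEk9.meas_PX L χ).ennreal_ofReal y
  have hV : ∀ y : Site 2, ∫ η, D2V36.FE u L χ η y ∂(iidEnvironmentLaw ν)
      = (An ν y fun X => ENNReal.ofReal (D2V36.PX u L χ X)).toReal := by
    intro y
    simp only [FEk9.FE_eq_lint hχ]
    exact integral_toReal (mF y).aemeasurable (Filter.Eventually.of_forall fun ω =>
      lt_of_le_of_lt (F1 y ω) ENNReal.one_lt_top)
  have hφ : ∀ (y : Site 2) (ω : Environment 2), cndR ν (D2V36.Sb u l)
      (fun ω => D2V36.FE u L χ ω y) ω = (cnd ν (Bl (levH u) (l : ℤ))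
        (fun ω => ∫⁻ X, ENNReal.ofReal (D2V36.PX u L χ X) ∂quenchedLaw ω y) ω).toReal := by
    intro y ω
    simp only [FEk9.FE_eq_lint hχ]
    exact cndR_toReal (D2V36.Sb u l) (mF y) (F1 y) ω
  have hb : ∀ (ω : Environment 2) (y : Site 2), |(|cndR ν (D2V36.Sb u l)
      (fun ω => D2V36.FE u L χ ω y) ω - ∫ η, D2V36.FE u L χ η y ∂(iidEnvironmentLaw ν)|)| ≤ 2 := by
    intro ω y
    rw [abs_abs]
    have h1 := abs_cndR_le (ν := ν) (D2V36.Sb u l) (f := fun ω => D2V36.FE u L χ ω y)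
      (fun ω => FEk9.abs_FE_le hχ ω y) ω
    have h2 := FEk9.int_FE_le (ν := ν) (u := u) (L := L) hχ y
    have h3 := abs_sub (cndR ν (D2V36.Sb u l) (fun ω => D2V36.FE u L χ ω y) ω)
      (∫ η, D2V36.FE u L χ η y ∂(iidEnvironmentLaw ν))
    have h4 : |∫ η, D2V36.FE u L χ η y ∂(iidEnvironmentLaw ν)| ≤ 1 := by
      rw [abs_of_nonneg h2.1]; exact h2.2
    linarith
  have mcnd : ∀ y : Site 2, Measurable fun ω : Environment 2 => |cndR ν (D2V36.Sb u l)
      (fun ω => D2V36.FE u L χ ω y) ω - ∫ η, D2V36.FE u L χ η y ∂(iidEnvironmentLaw ν)| := fun y =>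
    ((meas_cndR _ (FEk9.meas_FE hχ y)).sub_const _).abs
  have hE : ENNReal.ofReal (∫ ω, E1 (EK ω (D2V36.Sb u l) 0) (fun y => |cndR ν (D2V36.Sb u l)
      (fun ω => D2V36.FE u L χ ω y) ω - ∫ η, D2V36.FE u L χ η y ∂(iidEnvironmentLaw ν)|)
        ∂(iidEnvironmentLaw ν)) ≤ 4 * ((t + 1) * η + ENNReal.ofReal (δ / 8)) := by
    refine le_trans (le_of_eq ?_) hmain
    rw [ofReal_integral_eq_lintegral_ofReal]
    · refine lintegral_congr fun ω => ?_
      rw [← FEk9.tsum_ofReal_E1 (tsum_EK_le ω _ 0) (fun y => abs_nonneg _) (hb ω)]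
      refine tsum_congr fun y => ?_
      rw [FEk9.AD_eq (cnd_le_one _ (F1 y) ω) (An_le_one ν hloc.le1), hφ y ω, hV y]
      rfl
    · refine intg (meas_E1 (fun y => meas_EK _ 0 y) mcnd) (C := 2) fun ω => ?_
      exact abs_E1_le (tsum_EK_le ω _ 0) (by norm_num) (hb ω)
    · exact Filter.Eventually.of_forall fun ω => E1_nonneg fun y => abs_nonneg _
  have hfin : (4 : ℝ≥0∞) * ((t + 1) * η + ENNReal.ofReal (δ / 8)) ≤ ENNReal.ofReal δ := by
    have e1 : (4 : ℝ≥0∞) * ((t + 1) * η + ENNReal.ofReal (δ / 8))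
        = ENNReal.ofReal (4 * (((t : ℝ) + 1) * (m * (2 * δ')) + δ / 8)) := by
      rw [ENNReal.ofReal_mul (by norm_num), ENNReal.ofReal_add (by positivity) (by positivity),
        ENNReal.ofReal_mul (by positivity), ENNReal.ofReal_mul (by positivity),
        ENNReal.ofReal_mul (by norm_num), ENNReal.ofReal_add (by positivity) (by norm_num)]
      simp [hη]
    rw [e1]
    refine ENNReal.ofReal_le_ofReal ?_
    have h1 : ((t : ℝ) + 1) * (m * (2 * δ')) ≤ δ / 8 := by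
      rw [hδ', show ((t : ℝ) + 1) * (m * (2 * (δ / (16 * ((t : ℝ) + 1) * ((m : ℝ) + 1)))))
        = δ / 8 * (m / ((m : ℝ) + 1)) by field_simp; ring]
      have h2 : (m : ℝ) / ((m : ℝ) + 1) ≤ 1 := by
        rw [div_le_one (by positivity)]; linarith
      have h3 : 0 ≤ δ / 8 := by positivity
      nlinarith
    linarith
  have hnn : 0 ≤ ∫ ω, E1 (EK ω (D2V36.Sb u l) 0) (fun y => |cndR ν (D2V36.Sb u l)
      (fun ω => D2V36.FE u L χ ω y) ω - ∫ η, D2V36.FE u L χ η y ∂(iidEnvironmentLaw ν)|)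
        ∂(iidEnvironmentLaw ν) := integral_nonneg fun ω => E1_nonneg fun y => abs_nonneg _
  exact (ENNReal.ofReal_le_ofReal_iff hδ.le).1 (hE.trans hfin)

lemma reach_of_escape {ν : Measure (Row d)} [IsProbabilityMeasure ν] {u : Step d}
    (hA : annealed (iidEnvironmentLaw ν) 0 (escapeEvent (B2d.dirVec u)) = 1) :
    annealedProb (iidEnvironmentLaw ν) 0 (Reach (levH u)) = 1 := by
  refine le_antisymm ?_ ?_
  · unfold annealedProb
    exact (lintegral_mono fun ω => prob_le_one).trans (by simp)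
  · rw [← hA, ← annealed_apply _ 0 measurableSet_Reach]
    refine measure_mono ?_
    intro X hX l hT
    obtain ⟨n, hn⟩ := Hit2569.lev_of_escape u hX l
    have h1 : lev u (X n) < l := (exT_eq_top_iff.1 hT) n
    omega

lemma pN_of_escape {ν : Measure (Row d)} [IsProbabilityMeasure ν] {u : Step d}
    (hA : annealed (iidEnvironmentLaw ν) 0 (escapeEvent (B2d.dirVec u)) ≠ 0) :
    pN (levH u) ν ≠ 0 := by
  have h := Kal132.pD_pos (Q561.iid_shift ν) (B2d.dirVec u) hA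
  unfold pN
  rw [← annealed_apply _ 0 (measurableSet_Ntl _ 0)]
  intro h0
  apply h
  refine le_antisymm (le_trans (measure_mono_ae ?_) h0.le) zero_le
  have hz : ∀ᵐ X ∂annealed (iidEnvironmentLaw ν) (0 : Site d), X 0 = 0 := by
    have hm : MeasurableSet {X : Path d | X 0 = 0} :=
      measurableSet_of_agree 0 _ fun X Y h => by simp only [Set.mem_ofPred_eq, h 0 le_rfl]
    exact annealed_ae hm (Filter.Eventually.of_forall fun ω => quenched_zero_eq ω 0)
  filter_upwards [hz] with X h0 hX n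
  have h1 : Kal132.L (B2d.dirVec u) (X 0) ≤ Kal132.L (B2d.dirVec u) (X n) := hX n
  have e : ∀ x : Site d, Kal132.L (B2d.dirVec u) x = (lev u x : ℝ) := by
    intro x
    unfold Kal132.L lev
    simp only [B2d.dirVec_apply]
    rw [Finset.sum_eq_single u.1]
    · by_cases hu : u.2 = true
      · simp [hu]
      · simp [hu]
    · intro i _ hi
      simp [hi]
    · simp
  rw [e, e, h0, show lev u (0 : Site d) = 0 from (levH u).map_zero] at h1
  show (0 : ℤ) ≤ lev u (X n)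
  exact_mod_cast h1

/-- **`ResidP` of `D2V_36`** -/
theorem residP (ν : Measure (Row 2)) [IsProbabilityMeasure ν] (u : Step 2)
    (hA : annealed (iidEnvironmentLaw ν) 0 (escapeEvent (B2d.dirVec u)) = 1) (i : Fin 2) (θ : ℝ) :
    D2V36.ResidP u i θ ν :=
  residP_of u i θ (reach_of_escape hA) (pN_of_escape (by rw [hA]; exact one_ne_zero))

end Crest.Agent.R154.Phi215
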