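import Crest.Agent.R154.B2Frame_719_Mg

/-! Row 154, B2 final (helper419, from 719's `Frame.x_bounded`): on `A_ℓ` the walk has an asymptotic
direction; `HalfSpace (annealed Q 0) ℓ` in every frame (S0219, S0220, S0221). -/

set_option autoImplicit false

namespace Crest.Agent.R154.HalfFin

open MeasureTheory ProbabilityTheory Filter Topology Set Crest.ProbabilityR.RandomEnvironment
open Crest.Agent.R154.Half419
open scoped ENNReal

variable {d : ℕ} {Q : Measure (Environment d)} [IsProbabilityMeasure Q] {κ : ℝ} {R : ℕ}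

/-- **asymptotic direction**, every frame -/
theorem direction (F : Bind263.Frame Q κ R) (ℓ : Fin d → ℝ) (hℓ : ℓ ≠ 0)
    (h : annealedProb Q 0 (escapeEvent ℓ) ≠ 0) :
    ∃ v : Fin d → ℝ, 0 < ∑ i, v i * ℓ i ∧
      ∀ᵐ X ∂(annealed Q 0), X ∈ escapeEvent ℓ → Dirc ℓ v X :=
  direction_of F ℓ hℓ h fun i => F.x_bounded ℓ hℓ h (crd i) fun a => Bind263.abs_crd_stp i a





end Crest.Agent.R154.HalfFin
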