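import Crest.Agent.R154.Tight_872
import Crest.Agent.R154.TileInst_748
import Crest.Agent.R154.B4LP_573
import Crest.Agent.R154.TileB_872
import Crest.Agent.R154.B6Fin_833
import Crest.Agent.R154.SE_424

-- ▼ part R154/StartTile_872
section

/-! Row 154, B8, TILE: the start of an attempt from a point, and the single tile, in the form
"off probability `q`" (natural climbs, no corridor). -/

set_option autoImplicit false
set_option linter.unusedSectionVars false
set_option linter.deprecated false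

namespace Crest.Agent.R154.Tile872

open MeasureTheory ProbabilityTheory Set Filter Crest.ProbabilityR.RandomEnvironment
open Crest.Agent.R154.Ren263 (Det)
open Crest.Agent.R154.Mk561 Crest.Agent.R154.Q561
open Crest.Agent.R154.Flux132 (lev)
open Crest.Agent.R154.B6I (Hit bf Alv Eqv Nt zt SP PP Om NoC tip th Al Dt PSm PIm ct)
open Crest.Agent.R154.RatioR872
open scoped ENNReal Topology

variable {d : ℕ}

section basic

variable (u : Step d) (R : ℕ) (κ : ℝ)


lemma gc_univ (b : ℤ) (ω : Environment d) (x y : Site d) :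
    gc u R κ univ b ω x y = gk u R κ b ω x y := by
  unfold gc gk
  congr 1
  simp [Cf, CfY, CfM, Cl, ClY]

lemma gT_add_compl (b : ℤ) (ω : Environment d) (x : Site d) (T : Set (Site d)) :
    gT u R κ univ b T ω x + gT u R κ univ b Tᶜ ω x = mkLaw κ ω x (ClA u R x b) := by
  rw [gT_eq, gT_eq, ← ENNReal.tsum_add, ← tsum_gk]
  refine tsum_congr fun y => ?_
  simp only [Set.indicator, gc_univ]
  by_cases hy : y ∈ T
  · simp [hy]
  · simp [hy]

/-- the point mass -/
noncomputable def dl (z : Site d) : Site d → ℝ≥0∞ := Pi.single z 1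

lemma tsum_dl (z : Site d) (f : Site d → ℝ≥0∞) : ∑' x, dl z x * f x = f z := by
  rw [tsum_eq_single z]
  · simp [dl]
  · intro x hx
    simp [dl, hx]

lemma tsum_dl_one (z : Site d) : ∑' x, dl z x = 1 := by
  have := tsum_dl z (fun _ => 1)
  simpa using this

end basic

section start

variable {Q : Measure (Environment d)} [IsProbabilityMeasure Q] {κ : ℝ} {R : ℕ}

/-- **START OF AN ATTEMPT FROM A POINT**: for every `q, κ₁` there are `σ` (mass), `δ`
(annealed probability to miss the window `T`) and `ε` (exit energy) such that, off probability `q`,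
the natural climb from the point `z` to the level `b` has mass `≥ σ/2` into `T` with exit energy
`≤ κ₁ (σ/2)²`; so its normalised exit law is a state of the class `Cls T b c κ₁` (`nrm_mem`). -/
theorem start_tile (F : Bind263.Frame Q κ R) (u : Step d)
    (hA : annealedProb Q 0 (escapeEvent (B2d.dirVec u)) ≠ 0) {q κ₁ : ℝ≥0∞} (hq : q ≠ 0)
    (hqt : q ≠ ∞) (hκ0 : κ₁ ≠ 0) (hκt : κ₁ ≠ ∞) :
    ∃ σ : ℝ≥0∞, σ ≠ 0 ∧ σ ≤ 1 ∧ ∃ δ : ℝ≥0∞, δ ≠ 0 ∧ ∃ ε : ℝ≥0∞, ε ≠ 0 ∧
      ∀ (a b c : ℕ) (z : Site d) (T : Set (Site d)), a ≤ b → lev u z = a →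
        (∫⁻ ω, gT u R κ univ b Tᶜ ω z ∂Q ≤ δ) →
        (∀ x x', lev u x = a → lev u x' = a →
          ∑' y, ∑' y', (∫⁻ ω, gk u R κ b ω x y * gk u R κ b ω x' y' ∂Q) * Kc u R κ Q b c y y'
            ≤ ε) →
        Q (GoodT u R κ Q univ b c T (σ / 2) κ₁ (dl z))ᶜ ≤ q := by
  have hq4 : q / 4 ≠ 0 := by simp [hq]
  obtain ⟨σ, hσ0, hσ1, hσ⟩ := tight F u hA hq4
  have hσt : σ ≠ ∞ := ne_top_of_le_ne_top ENNReal.one_ne_top hσ1
  have hs0 : σ / 2 ≠ 0 := by simp [hσ0]
  have hst : σ / 2 ≠ ∞ := ENNReal.div_ne_top hσt (by simp)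
  refine ⟨σ, hσ0, hσ1, q / 4 * (σ / 2), mul_ne_zero hq4 hs0, q / 2 * (κ₁ * (σ / 2) ^ 2),
    mul_ne_zero (by simp [hq]) (mul_ne_zero hκ0 (pow_ne_zero 2 hs0)), ?_⟩
  intro a b c z T hab hz hδ hε
  have hkk : κ₁ * (σ / 2) ^ 2 ≠ 0 := mul_ne_zero hκ0 (pow_ne_zero 2 hs0)
  have hkkt : κ₁ * (σ / 2) ^ 2 ≠ ∞ := ENNReal.mul_ne_top hκt (ENNReal.pow_ne_top hst)
  have hF : ∀ ω, Fm u R κ univ b T (dl z) ω = gT u R κ univ b T ω z := fun ω => tsum_dl z _
  -- small total mass
  have h1 : Q {ω | mkLaw κ ω z (ClA u R z b) < σ} ≤ q / 4 := by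
    rw [lev_add_sub u hab hz]
    simp only [ClA_eq]
    exact hσ _ z
  -- large mass outside the window
  have h2 : Q {ω | σ / 2 < gT u R κ univ b Tᶜ ω z} ≤ q / 4 := by
    refine (markov (measurable_gT u R κ univ b Tᶜ z) hs0 hst hδ).trans (le_of_eq ?_)
    exact ENNReal.mul_div_cancel_right hs0 hst
  -- large energy
  have h3 : Q {ω | κ₁ * (σ / 2) ^ 2 < en u R κ Q b c (outm u R κ univ b T (dl z) ω)}
      ≤ q / 2 := by
    refine (markov (ε := q / 2 * (κ₁ * (σ / 2) ^ 2)) ((measurable_en u R κ Q b c).comp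
      (measurable_pi_iff.2 fun y => measurable_outm u R κ univ b T (dl z) y)) hkk hkkt
      (en_outm u R κ Q univ hε T (fun x hx => ?_) (tsum_dl_one z).le)).trans (le_of_eq ?_)
    · have : x ≠ z := fun h => hx (h ▸ hz)
      simp [dl, this]
    · exact ENNReal.mul_div_cancel_right hkk hkkt
  have hsum : q / 4 + q / 4 + q / 2 = q := by
    have e : q / 4 + q / 4 = q / 2 := by
      rw [← two_mul, ENNReal.div_eq_inv_mul, ENNReal.div_eq_inv_mul, ← mul_assoc]
      congr 1
      have : (4 : ℝ≥0∞) = 2 * 2 := by norm_num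
      rw [this, ENNReal.mul_inv (Or.inl (by simp)) (Or.inl (by simp)), ← mul_assoc,
        ENNReal.mul_inv_cancel (by simp) (by simp), one_mul]
    rw [e, ENNReal.add_halves]
  calc Q (GoodT u R κ Q univ b c T (σ / 2) κ₁ (dl z))ᶜ
      ≤ Q (({ω | mkLaw κ ω z (ClA u R z b) < σ} ∪ {ω | σ / 2 < gT u R κ univ b Tᶜ ω z})
        ∪ {ω | κ₁ * (σ / 2) ^ 2 < en u R κ Q b c (outm u R κ univ b T (dl z) ω)}) := by
        refine measure_mono fun ω hω => ?_
        by_contra hcon
        simp only [mem_union, mem_setOf_eq, not_or, not_lt] at hcon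
        refine hω ⟨?_, hcon.2⟩
        rw [hF]
        have e := gT_add_compl u R κ b ω z T
        have h4 : σ / 2 + σ / 2 ≤ gT u R κ univ b T ω z + σ / 2 := by
          rw [ENNReal.add_halves]
          refine hcon.1.1.trans ?_
          rw [← e]
          gcongr
          exact hcon.1.2
        exact (ENNReal.add_le_add_iff_right hst).1 h4
    _ ≤ q / 4 + q / 4 + q / 2 :=
        (measure_union_le _ _).trans (add_le_add ((measure_union_le _ _).trans (add_le_add h1 h2)) h3)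
    _ = q := hsum


end start

end Crest.Agent.R154.Tile872
end

-- ▼ part R154/Start2_872
section

/-! Row 154, B8, TILE: the field `start` of `TileInst748.Inputs` for the kernel system `kS` of the
natural climbs (two stages). -/

set_option autoImplicit false
set_option linter.unusedSectionVars false
set_option linter.deprecated false

namespace Crest.Agent.R154.Tile872

open MeasureTheory ProbabilityTheory Set Filter Crest.ProbabilityR.RandomEnvironment
open Crest.Agent.R154.Ren263 (Det)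
open Crest.Agent.R154.Mk561 Crest.Agent.R154.Q561
open Crest.Agent.R154.Flux132 (lev)
open Crest.Agent.R154.B6I (Hit bf Alv Eqv Nt zt SP PP Om NoC tip th Al Dt PSm PIm ct)
open Crest.Agent.R154.RatioR872
open Crest.Agent.R154.TileInst748
open scoped ENNReal Topology

variable {d : ℕ}

section eqs

variable (u : Step d) (R : ℕ) (κ : ℝ) (Q : Measure (Environment d)) [IsProbabilityMeasure Q]
variable (hstat : ∀ z : Site d, MeasurePreserving (shiftEnv z) Q Q)
variable (hR : IsFiniteRangeDependent Q R)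

lemma G_eq {a b : ℕ} {x : Site d} (hx : lev u x = a) (ω : Environment d) (y : Site d) :
    (kS u R κ Q hstat hR).G a b ω x y = gk u R κ b ω x y := by
  simp only [kS, kerSys, hx, if_true]

lemma pushM_eq {a b : ℕ} (T : Set (Site d)) {w : Site d → ℝ≥0∞}
    (hw : ∀ x, lev u x ≠ a → w x = 0) (ω : Environment d) (z : Site d) :
    pushM T w ((kS u R κ Q hstat hR).G a b ω) z = outm u R κ univ b T w ω z := by
  classical
  unfold pushM outm
  by_cases hz : z ∈ T
  · rw [if_pos hz, indicator_of_mem hz]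
    refine tsum_congr fun x => ?_
    by_cases hx : lev u x = a
    · rw [G_eq u R κ Q hstat hR hx, gc_univ]
    · simp [hw x hx]
  · rw [if_neg hz, indicator_of_notMem hz]

lemma massM_eq {a b : ℕ} (T : Set (Site d)) {w : Site d → ℝ≥0∞}
    (hw : ∀ x, lev u x ≠ a → w x = 0) (ω : Environment d) :
    massM T w ((kS u R κ Q hstat hR).G a b ω) = Fm u R κ univ b T w ω := by
  unfold massM
  simp_rw [pushM_eq u R κ Q hstat hR T hw]
  exact tsum_outm u R κ univ b T w ω

lemma enM_eq {a b c : ℕ} (T : Set (Site d)) {w : Site d → ℝ≥0∞}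
    (hw : ∀ x, lev u x ≠ a → w x = 0) (ω : Environment d) :
    enM T (Kc u R κ Q b c) w ((kS u R κ Q hstat hR).G a b ω)
      = en u R κ Q b c (outm u R κ univ b T w ω) := by
  unfold enM en
  simp_rw [pushM_eq u R κ Q hstat hR T hw]

lemma dl_supp {a : ℕ} {z : Site d} (hz : lev u z = a) : ∀ x, lev u x ≠ a → dl z x = 0 := by
  intro x hx
  have : x ≠ z := fun h => hx (h ▸ hz)
  simp [dl, this]

lemma single_eq_dl (z : Site d) : single z = dl z := by
  classical
  funext x
  unfold single dl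
  by_cases hx : x = z
  · subst hx; simp
  · simp [hx]

/-- only the mass part of the single tile -/
lemma prob_mass (hR : IsFiniteRangeDependent Q R) {a b : ℕ} (hab : a ≤ b)
    {S T : Set (Site d)} (hS : ∀ x ∈ S, lev u x = a) {g κ₁ : ℝ≥0∞} (hg0 : g ≠ 0)
    (hg : ∀ x ∈ S, g ≤ ∫⁻ ω, gT u R κ univ b T ω x ∂Q)
    {w : Site d → ℝ≥0∞} (hw : w ∈ Cls u R κ Q S a b κ₁) :
    Q {ω | Fm u R κ univ b T w ω < g / 2} ≤ κ₁ / (g / 2) ^ 2 := by
  obtain ⟨hw1, hw2, hw3⟩ := hw
  have hw2' : ∀ x, lev u x ≠ a → w x = 0 := fun x hx => hw2 x fun h => hx (hS x h)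
  refine cheb (measurable_Fm u R κ univ b T w) (fun ω => (Fm_le u R κ univ b T w ω).trans hw1.le)
    ((Fm_second u R κ Q univ hR hab T hw2').trans (by gcongr)) hg0 ?_
  rw [lint_Fm]
  calc g = ∑' x, w x * g := by rw [ENNReal.tsum_mul_right, hw1, one_mul]
    _ ≤ _ := ENNReal.tsum_le_tsum fun x => by
        by_cases hx : x ∈ S
        · gcongr; exact hg x hx
        · simp [hw2 x hx]

/-- composition: mass through the window `T` of level `b` -/
lemma Fm_comp {b c : ℤ} (hbc : b ≤ c) (T T₁ : Set (Site d)) (z : Site d) (ω : Environment d) :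
    Fm u R κ univ b T (dl z) ω * Fm u R κ univ c T₁ (nrm u R κ univ b T (dl z) ω) ω
      ≤ Fm u R κ univ c T₁ (dl z) ω := by
  set F1 := Fm u R κ univ b T (dl z) ω with hF1
  have hF1t : F1 ≠ ∞ := ne_top_of_le_ne_top ENNReal.one_ne_top
    ((Fm_le u R κ univ b T (dl z) ω).trans (tsum_dl_one z).le)
  by_cases h0 : F1 = 0
  · rw [h0, zero_mul]; exact zero_le
  have e1 : F1 * Fm u R κ univ c T₁ (nrm u R κ univ b T (dl z) ω) ω
      = ∑' y, outm u R κ univ b T (dl z) ω y * gT u R κ univ c T₁ ω y := by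
    unfold Fm
    rw [← ENNReal.tsum_mul_left]
    refine tsum_congr fun y => ?_
    unfold nrm
    rw [← mul_assoc, ← hF1, ENNReal.mul_div_cancel h0 hF1t]
  rw [e1]
  have e2 : ∀ y, outm u R κ univ b T (dl z) ω y ≤ gk u R κ b ω z y := by
    intro y
    unfold outm
    refine (indicator_le_self' (fun _ _ => zero_le) y).trans ?_
    rw [tsum_dl z (fun x => gc u R κ univ b ω x y), gc_univ]
  calc ∑' y, outm u R κ univ b T (dl z) ω y * gT u R κ univ c T₁ ω y
      ≤ ∑' y, gk u R κ b ω z y * gT u R κ univ c T₁ ω y :=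
        ENNReal.tsum_le_tsum fun y => by gcongr; exact e2 y
    _ = ∑' y, ∑' y', gk u R κ b ω z y * T₁.indicator (gc u R κ univ c ω y) y' := by
        refine tsum_congr fun y => ?_
        rw [gT_eq, ENNReal.tsum_mul_left]
    _ = ∑' y', ∑' y, gk u R κ b ω z y * T₁.indicator (gc u R κ univ c ω y) y' :=
        ENNReal.tsum_comm
    _ ≤ ∑' y', T₁.indicator (gc u R κ univ c ω z) y' := by
        refine ENNReal.tsum_le_tsum fun y' => ?_
        by_cases hy : y' ∈ T₁
        · simp only [indicator_of_mem hy, gc_univ]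
          exact gk_comp u R κ hbc ω z y'
        · simp [indicator_of_notMem hy]
    _ = gT u R κ univ c T₁ ω z := (gT_eq u R κ univ c T₁ ω z).symm
    _ = Fm u R κ univ c T₁ (dl z) ω := (tsum_dl z fun x => gT u R κ univ c T₁ ω x).symm

end eqs

section start2

variable {Q : Measure (Environment d)} [IsProbabilityMeasure Q] {κ : ℝ} {R : ℕ}

/-- **field `start`**: the natural climb from the point `z` (level `a`) to the level `c` charges the
cell `T₁` with mass `≥ γ₀` and small energy, off probability `q`. `T` = window at the intermediate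
level `b`. -/
theorem start2 (F : Bind263.Frame Q κ R) (u : Step d)
    (hA : annealedProb Q 0 (escapeEvent (B2d.dirVec u)) ≠ 0) {q κ₁ g : ℝ≥0∞} (hq : q ≠ 0)
    (hq1 : q ≤ 1) (hκ0 : κ₁ ≠ 0) (hκt : κ₁ ≠ ∞) (hg0 : g ≠ 0) (hg1 : g ≤ 1) :
    ∃ γ₀ : ℝ≥0∞, γ₀ ≠ 0 ∧ γ₀ ≤ 1 ∧ ∃ δ : ℝ≥0∞, δ ≠ 0 ∧ ∃ ε : ℝ≥0∞, ε ≠ 0 ∧
      ∀ (a b c e : ℕ) (z : Site d) (T T₁ : Set (Site d)), a ≤ b → b ≤ c → lev u z = a →
        (∀ x ∈ T, lev u x = b) →
        (∫⁻ ω, gT u R κ univ b Tᶜ ω z ∂Q ≤ δ) →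
        (∀ x x', lev u x = a → lev u x' = a →
          ∑' y, ∑' y', (∫⁻ ω, gk u R κ b ω x y * gk u R κ b ω x' y' ∂Q) * Kc u R κ Q b c y y'
            ≤ ε) →
        (∀ x ∈ T, g ≤ ∫⁻ ω, gT u R κ univ c T₁ ω x ∂Q) →
        (∀ x x', lev u x = a → lev u x' = a →
          ∑' y, ∑' y', (∫⁻ ω, gk u R κ c ω x y * gk u R κ c ω x' y' ∂Q) * Kc u R κ Q c e y y'
            ≤ ε) →
        Q {ω | okM T₁ (Kc u R κ Q c e) κ₁ γ₀ (single z)
          ((kS u R κ Q F.stat F.fin).G a c ω)}ᶜ ≤ q := by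
  classical
  set q3 : ℝ≥0∞ := q / 3 with hq3d
  have hq3 : q3 ≠ 0 := by simp [hq3d, hq]
  have hqt : q ≠ ∞ := ne_top_of_le_ne_top ENNReal.one_ne_top hq1
  have hq3t : q3 ≠ ∞ := ENNReal.div_ne_top hqt (by simp)
  have hq31 : q3 < 1 := by
    have : q3 ≤ 1 / 3 := ENNReal.div_le_div_right hq1 3
    refine this.trans_lt ?_
    rw [one_div, ENNReal.inv_lt_one]
    norm_num
  have hgt : g ≠ ∞ := ne_top_of_le_ne_top ENNReal.one_ne_top hg1
  have hg20 : g / 2 ≠ 0 := by simp [hg0]
  have hg2t : g / 2 ≠ ∞ := ENNReal.div_ne_top hgt (by simp)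
  have hG0 : (g / 2) ^ 2 ≠ 0 := pow_ne_zero 2 hg20
  have hGt : (g / 2) ^ 2 ≠ ∞ := ENNReal.pow_ne_top hg2t
  set κ₂ : ℝ≥0∞ := q3 * (g / 2) ^ 2 with hκ2d
  have hκ20 : κ₂ ≠ 0 := mul_ne_zero hq3 hG0
  have hκ2t : κ₂ ≠ ∞ := ENNReal.mul_ne_top hq3t hGt
  obtain ⟨σ, hσ0, hσ1, δ, hδ0, ε₁, hε10, H⟩ := start_tile F u hA hq3 hq3t hκ20 hκ2t
  have hσt : σ ≠ ∞ := ne_top_of_le_ne_top ENNReal.one_ne_top hσ1
  have hs0 : σ / 2 ≠ 0 := by simp [hσ0]
  have hst : σ / 2 ≠ ∞ := ENNReal.div_ne_top hσt (by simp)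
  set γ₀ : ℝ≥0∞ := σ / 2 * (g / 2) with hγd
  have hγ0 : γ₀ ≠ 0 := mul_ne_zero hs0 hg20
  have hγt : γ₀ ≠ ∞ := ENNReal.mul_ne_top hst hg2t
  have hγ1 : γ₀ ≤ 1 := by
    calc γ₀ ≤ 1 * 1 := mul_le_mul' (ENNReal.half_le_self.trans hσ1)
          (ENNReal.half_le_self.trans hg1)
      _ = 1 := one_mul 1
  have hkk0 : κ₁ * γ₀ ^ 2 ≠ 0 := mul_ne_zero hκ0 (pow_ne_zero 2 hγ0)
  have hkkt : κ₁ * γ₀ ^ 2 ≠ ∞ := ENNReal.mul_ne_top hκt (ENNReal.pow_ne_top hγt)
  refine ⟨γ₀, hγ0, hγ1, δ, hδ0, min ε₁ (q3 * (κ₁ * γ₀ ^ 2)), ?_, ?_⟩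
  · exact (lt_min (pos_iff_ne_zero.2 hε10) (pos_iff_ne_zero.2 (mul_ne_zero hq3 hkk0))).ne'
  intro a b c e z T T₁ hab hbc hz hT hδ h2 h3 h4
  set A := kS u R κ Q F.stat F.fin with hAd
  have hS1 := H a b c z T hab hz hδ (fun x x' hx hx' => (h2 x x' hx hx').trans (min_le_left _ _))
  set S1 := GoodT u R κ Q univ b c T (σ / 2) κ₂ (dl z) with hS1d
  have hsupp := dl_supp u hz
  -- the class is not empty
  have hne : (Cls u R κ Q T b c κ₂).Nonempty := by
    by_contra hcon
    rw [Set.not_nonempty_iff_eq_empty] at hcon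
    have hS1e : S1 = ∅ := by
      rw [Set.eq_empty_iff_forall_notMem]
      intro ω hω
      have := nrm_mem u R κ Q univ hs0 (tsum_dl_one z).le hω
      rw [hcon] at this
      exact this
    rw [hS1e, compl_empty, measure_univ] at hS1
    exact absurd hS1 (not_le.2 hq31)
  obtain ⟨w0, hw0⟩ := hne
  -- measurability in the past
  have hGF : ∀ y y', Measurable[A.F b] fun ω => A.G a b ω y y' := fun y y' => A.measF a b y y' hab
  have hlF : ∀ y, Measurable[A.F b] fun _ : Environment d => dl z y :=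
    fun y => @measurable_const _ _ _ (A.F b) _
  have hm1 : Measurable[A.F b] fun ω => massM T (dl z) (A.G a b ω) :=
    @meas_mass (Site d) _ (Environment d) (A.F b) (fun _ => dl z) (fun ω => A.G a b ω) T hlF hGF
  have hm2 : Measurable[A.F b] fun ω => enM T (Kc u R κ Q b c) (dl z) (A.G a b ω) :=
    @meas_en (Site d) _ (Environment d) (A.F b) (fun _ => dl z) (fun ω => A.G a b ω) T _ hlF hGF
  have hm3 : ∀ y, Measurable[A.F b] fun ω => pushM T (dl z) (A.G a b ω) y :=
    @meas_push (Site d) _ (Environment d) (A.F b) (fun _ => dl z) (fun ω => A.G a b ω) T hlF hGF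
  have hS1m : MeasurableSet[A.F b] S1 := by
    have e1 : S1 = {ω | σ / 2 ≤ massM T (dl z) (A.G a b ω)} ∩
        {ω | enM T (Kc u R κ Q b c) (dl z) (A.G a b ω) ≤ κ₂ * (σ / 2) ^ 2} := by
      ext ω
      simp only [hS1d, GoodT, hAd, massM_eq u R κ Q F.stat F.fin T hsupp,
        enM_eq u R κ Q F.stat F.fin T hsupp, mem_setOf_eq, mem_inter_iff]
    rw [e1]
    exact MeasurableSet.inter (hm1 measurableSet_Ici) (hm2 measurableSet_Iic)
  set f : Environment d → Site d → ℝ≥0∞ := fun ω =>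
    if ω ∈ S1 then nrm u R κ univ b T (dl z) ω else w0 with hfd
  have hfm : Measurable[A.F b] f := by
    refine Measurable.ite hS1m ?_ (@measurable_const _ _ _ (A.F b) _)
    refine @measurable_pi_lambda _ _ _ (A.F b) _ _ fun y => ?_
    have e1 : (fun ω => nrm u R κ univ b T (dl z) ω y)
        = fun ω => pushM T (dl z) (A.G a b ω) y / massM T (dl z) (A.G a b ω) := by
      funext ω
      rw [hAd, massM_eq u R κ Q F.stat F.fin T hsupp, pushM_eq u R κ Q F.stat F.fin T hsupp]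
      rfl
    rw [e1]
    exact (hm3 y).div hm1
  have hfc : ∀ ω, f ω ∈ Cls u R κ Q T b c κ₂ := by
    intro ω
    simp only [hfd]
    split_ifs with h
    · exact nrm_mem u R κ Q univ hs0 (tsum_dl_one z).le h
    · exact hw0
  -- the second stage
  set Bad : Set ((Site d → ℝ≥0∞) × Environment d) :=
    {p | massM T₁ p.1 (A.G b c p.2) < g / 2} with hBadd
  have hBad : @MeasurableSet _ (MeasurableSpace.pi.prod (A.H b)) Bad := by
    have hl : ∀ y, @Measurable _ _ (MeasurableSpace.pi.prod (A.H b)) _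
        fun p : (Site d → ℝ≥0∞) × Environment d => p.1 y := fun y =>
      (measurable_pi_apply y).comp (@measurable_fst _ _ MeasurableSpace.pi (A.H b))
    have hg' : ∀ y y', @Measurable _ _ (MeasurableSpace.pi.prod (A.H b)) _
        fun p : (Site d → ℝ≥0∞) × Environment d => A.G b c p.2 y y' := fun y y' =>
      (A.measH b c y y' hbc).comp (@measurable_snd _ _ MeasurableSpace.pi (A.H b))
    have hm := @meas_mass (Site d) _ ((Site d → ℝ≥0∞) × Environment d)
      (MeasurableSpace.pi.prod (A.H b)) (fun p => p.1) (fun p => A.G b c p.2) T₁ hl hg'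
    exact hm measurableSet_Iio
  have hclev : ∀ w ∈ Cls u R κ Q T b c κ₂, ∀ x, lev u x ≠ b → w x = 0 :=
    fun w hw x hx => hw.2.1 x fun h => hx (hT x h)
  have hst2 := TileInd748.rand_state (m1 := A.F b) (m2 := A.H b) Q (A.F.le b) (A.H_le b)
    (A.indep b) Bad hBad f hfm (Cls u R κ Q T b c κ₂) hfc q3 (fun w hw => by
      have e1 : {ω | (w, ω) ∈ Bad} = {ω | Fm u R κ univ c T₁ w ω < g / 2} := by
        ext ω
        simp only [hBadd, mem_setOf_eq, hAd]
        rw [massM_eq u R κ Q F.stat F.fin T₁ (hclev w hw)]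
      rw [e1]
      refine (prob_mass u R κ Q F.fin hbc hT hg0 h3 hw).trans (le_of_eq ?_)
      rw [hκ2d, ENNReal.mul_div_cancel_right hG0 hGt]) S1 hS1m
  -- the energy
  have h5 : Q {ω | κ₁ * γ₀ ^ 2 < en u R κ Q c e (outm u R κ univ c T₁ (dl z) ω)} ≤ q3 := by
    refine (markov (ε := q3 * (κ₁ * γ₀ ^ 2)) ((measurable_en u R κ Q c e).comp
      (measurable_pi_iff.2 fun y => measurable_outm u R κ univ c T₁ (dl z) y)) hkk0 hkkt
      (en_outm u R κ Q univ (fun x x' hx hx' => (h4 x x' hx hx').trans (min_le_right _ _)) T₁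
        hsupp (tsum_dl_one z).le)).trans (le_of_eq ?_)
    exact ENNReal.mul_div_cancel_right hkk0 hkkt
  calc Q {ω | okM T₁ (Kc u R κ Q c e) κ₁ γ₀ (single z) (A.G a c ω)}ᶜ
      ≤ Q ((S1ᶜ ∪ (S1 ∩ {ω | (f ω, ω) ∈ Bad}))
        ∪ {ω | κ₁ * γ₀ ^ 2 < en u R κ Q c e (outm u R κ univ c T₁ (dl z) ω)}) := by
        refine measure_mono fun ω hω => ?_
        by_contra hcon
        simp only [mem_union, mem_compl_iff, mem_inter_iff, mem_setOf_eq, not_or, not_not,
          not_and, not_lt] at hcon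
        obtain ⟨⟨g1, g2⟩, g3⟩ := hcon
        refine hω ?_
        have g4 : f ω = nrm u R κ univ b T (dl z) ω := by simp only [hfd, if_pos g1]
        have g5 : g / 2 ≤ Fm u R κ univ c T₁ (f ω) ω := by
          have := g2 g1
          simp only [hBadd, mem_setOf_eq, hAd, not_lt] at this
          rwa [massM_eq u R κ Q F.stat F.fin T₁ (hclev _ (hfc ω))] at this
        rw [g4] at g5
        have g6 : γ₀ ≤ Fm u R κ univ c T₁ (dl z) ω := by
          refine le_trans ?_ (Fm_comp u R κ (b := b) (c := c) (by exact_mod_cast hbc) T T₁ z ω)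
          rw [hγd]
          exact mul_le_mul' g1.1 g5
        change okM T₁ (Kc u R κ Q c e) κ₁ γ₀ (single z) (A.G a c ω)
        rw [single_eq_dl]
        refine ⟨?_, ?_⟩
        · rw [hAd, massM_eq u R κ Q F.stat F.fin T₁ hsupp]
          exact g6
        · rw [hAd, massM_eq u R κ Q F.stat F.fin T₁ hsupp, enM_eq u R κ Q F.stat F.fin T₁ hsupp]
          refine g3.trans ?_
          gcongr
    _ ≤ q3 + q3 + q3 := by
        refine (measure_union_le _ _).trans (add_le_add ((measure_union_le _ _).trans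
          (add_le_add hS1 ?_)) h5)
        refine hst2.trans ?_
        calc q3 * Q S1 ≤ q3 * 1 := by gcongr; exact prob_le_one
          _ = q3 := mul_one _
    _ = q := by rw [hq3d]; exact ENNReal.add_thirds q

end start2

end Crest.Agent.R154.Tile872
end

-- ▼ part R154/MobLP_927
section

/-!
Row 154, TILE: mobility of the level process (573's `LP`): if the displacement over `n` levels has
mass `≥ p₀` on both sides at distance in `[a, A]` from its centre `c`, then from every start `y` the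
walk is steered to `[-A, A]` (in coordinates moving with `c`), ending at a cut level, at cost
`(p p₀)^k`.
-/

set_option autoImplicit false
set_option linter.unusedSectionVars false
set_option linter.deprecated false

namespace Crest.Agent.R154.MobLP927

open MeasureTheory ProbabilityTheory Filter Crest.Agent.R154.B4
open scoped ENNReal Topology

variable {Ω : Type*} [mΩ : MeasurableSpace Ω] {P : Measure Ω}

/-- a step of size in `[a, A]` towards the origin -/
def good (a A x d : ℝ) : Prop := (x ≤ 0 ∧ a ≤ d ∧ d ≤ A) ∨ (0 < x ∧ a ≤ -d ∧ -d ≤ A)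

/-- position after `j` pieces, in the moving frame -/
noncomputable def TT (L : LP P) (φ : V → ℝ) (c y : ℝ) (n j : ℕ) (ω : Ω) : ℝ :=
  y + φ (L.U (j * n) ω) - j * c

/-- the steering event -/
def EE (L : LP P) (φ : V → ℝ) (a A c y : ℝ) (n k : ℕ) : Set Ω :=
  {ω | ∀ j < k, good a A (TT L φ c y n j ω) (TT L φ c y n (j + 1) ω - TT L φ c y n j ω)}


section gen
variable {α : Type*} {m : MeasurableSpace α} {f g : α → ℝ}
lemma m_le (hf : Measurable[m] f) (t : ℝ) : MeasurableSet[m] {x | f x ≤ t} :=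
  measurableSet_le hf measurable_const
lemma m_lt (hf : Measurable[m] f) (t : ℝ) : MeasurableSet[m] {x | t < f x} :=
  measurableSet_lt measurable_const hf
lemma m_Icc (hf : Measurable[m] f) (a A : ℝ) : MeasurableSet[m] {x | a ≤ f x ∧ f x ≤ A} :=
  (measurableSet_le measurable_const hf).inter (measurableSet_le hf measurable_const)
lemma m_sub_const (hf : Measurable[m] f) (c : ℝ) : Measurable[m] fun x => f x - c :=
  hf.sub_const c
lemma m_neg (hf : Measurable[m] f) : Measurable[m] fun x => -f x := hf.neg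
lemma m_affine (hf : Measurable[m] f) (y c : ℝ) : Measurable[m] fun x => y + f x - c :=
  (hf.const_add y).sub_const c
lemma m_sub (hf : Measurable[m] f) (hg : Measurable[m] g) : Measurable[m] fun x => f x - g x :=
  hf.sub hg
lemma m_inter {s t : Set α} (hs : MeasurableSet[m] s) (ht : MeasurableSet[m] t) :
    MeasurableSet[m] (s ∩ t) := hs.inter ht
lemma m_iInter {ι : Sort*} [Countable ι] {s : ι → Set α} (hs : ∀ i, MeasurableSet[m] (s i)) :
    MeasurableSet[m] (⋂ i, s i) := MeasurableSet.iInter hs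
end gen

lemma measurable_TT (L : LP P) {φ : V → ℝ} (hφ : Measurable φ) (c y : ℝ) {n j k : ℕ}
    (hj : j ≤ k) : Measurable[L.F (k * n)] (TT L φ c y n j) := by
  have h1 : Measurable[L.F (k * n)] (L.U (j * n)) :=
    (L.U_meas (j * n)).mono (L.F_mono (Nat.mul_le_mul_right n hj)) le_rfl
  have h2 : Measurable[L.F (k * n)] fun ω => φ (L.U (j * n) ω) := hφ.comp h1
  exact m_affine h2 y _

lemma measurableSet_good {α : Type*} {m : MeasurableSpace α} {a A : ℝ} {f g : α → ℝ}
    (hf : Measurable[m] f) (hg : Measurable[m] g) :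
    MeasurableSet[m] {t | good a A (f t) (g t)} := by
  unfold good
  exact (((measurableSet_le hf measurable_const).inter
    ((measurableSet_le measurable_const hg).inter (measurableSet_le hg measurable_const))).union
    ((measurableSet_lt measurable_const hf).inter
    ((measurableSet_le measurable_const hg.neg).inter (measurableSet_le hg.neg measurable_const))))

lemma measurableSet_EE (L : LP P) {φ : V → ℝ} (hφ : Measurable φ) (a A c y : ℝ) (n k : ℕ) :
    MeasurableSet[L.F (k * n)] (EE L φ a A c y n k) := by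
  have : EE L φ a A c y n k = ⋂ j, ⋂ _ : j < k,
      {ω | good a A (TT L φ c y n j ω) (TT L φ c y n (j + 1) ω - TT L φ c y n j ω)} := by
    ext ω; simp [EE]
  rw [this]
  refine m_iInter fun j => m_iInter fun hj => ?_
  have h1 := measurable_TT L hφ c y (n := n) hj.le
  have h2 := measurable_TT L hφ c y (n := n) (j := j + 1) (k := k) hj
  exact measurableSet_good h1 (m_sub h2 h1)

/-- **steering of the level process** -/
theorem steer [IsProbabilityMeasure P] (L : LP P) {φ : V → ℝ} (hφ : Measurable φ)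
    (hadd : ∀ x y, φ (x + y) = φ x + φ y) {a A c p₀ : ℝ} (n : ℕ) (hp₀ : 0 ≤ p₀)
    (h₁ : ENNReal.ofReal p₀ ≤ P {ω | a ≤ φ (L.U n ω) - c ∧ φ (L.U n ω) - c ≤ A})
    (h₂ : ENNReal.ofReal p₀ ≤ P {ω | a ≤ -(φ (L.U n ω) - c) ∧ -(φ (L.U n ω) - c) ≤ A})
    (y : ℝ) (k : ℕ) :
    ENNReal.ofReal ((L.p * p₀) ^ k) ≤ P (EE L φ a A c y n k ∩ L.C (k * n)) := by
  induction k with
  | zero =>
    have h : P (L.C 0) = 1 := (prob_compl_eq_zero_iff (L.C_meas 0)).1 L.C_zero
    have e : EE L φ a A c y n 0 = Set.univ := by ext ω; simp [EE]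
    simp only [pow_zero, zero_mul, ENNReal.ofReal_one, e, Set.univ_inter]
    exact h.ge
  | succ k ih =>
    set l := k * n with hl
    have hT := measurable_TT L hφ c y (n := n) (le_refl k)
    have hE := measurableSet_EE L hφ a A c y n k
    set A₁ := EE L φ a A c y n k ∩ {ω | TT L φ c y n k ω ≤ 0} with hA₁
    set A₂ := EE L φ a A c y n k ∩ {ω | 0 < TT L φ c y n k ω} with hA₂
    have hA₁m : MeasurableSet[L.F l] A₁ := m_inter hE (m_le hT 0)
    have hA₂m : MeasurableSet[L.F l] A₂ := m_inter hE (m_lt hT 0)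
    have hUn0 : Measurable[L.F n] fun ω => φ (L.U n ω) := hφ.comp (L.U_meas n)
    have hUn : Measurable[L.F n] fun ω => φ (L.U n ω) - c := m_sub_const hUn0 c
    set B₁ := {ω | a ≤ φ (L.U n ω) - c ∧ φ (L.U n ω) - c ≤ A} with hB₁
    set B₂ := {ω | a ≤ -(φ (L.U n ω) - c) ∧ -(φ (L.U n ω) - c) ≤ A} with hB₂
    have hB₁m : MeasurableSet[L.F n] B₁ := m_Icc hUn a A
    have hB₂m : MeasurableSet[L.F n] B₂ := m_Icc (m_neg hUn) a A
    have hq₁ : ENNReal.ofReal (L.p * p₀) ≤ P (B₁ ∩ L.C n) := by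
      rw [ENNReal.ofReal_mul L.p_pos.le]
      exact (mul_le_mul_right h₁ _).trans (L.cut n B₁ hB₁m)
    have hq₂ : ENNReal.ofReal (L.p * p₀) ≤ P (B₂ ∩ L.C n) := by
      rw [ENNReal.ofReal_mul L.p_pos.le]
      exact (mul_le_mul_right h₂ _).trans (L.cut n B₂ hB₂m)
    have hB₁m' : MeasurableSet (B₁ ∩ L.C n) := (L.F_le n _ hB₁m).inter (L.C_meas n)
    have hB₂m' : MeasurableSet (B₂ ∩ L.C n) := (L.F_le n _ hB₂m).inter (L.C_meas n)
    have r₁ := L.ren l A₁ (B₁ ∩ L.C n) hA₁m hB₁m'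
    have r₂ := L.ren l A₂ (B₂ ∩ L.C n) hA₂m hB₂m'
    have hkl : (k + 1) * n = l + n := by rw [hl]; ring
    have hstep : ∀ ω, TT L φ c y n (k + 1) ω - TT L φ c y n k ω = φ (L.U n (L.θ l ω)) - c := by
      intro ω
      unfold TT
      rw [hkl, L.U_add, hadd]
      push_cast
      ring
    have hsub : (A₁ ∩ L.C l ∩ L.θ l ⁻¹' (B₁ ∩ L.C n)) ∪ (A₂ ∩ L.C l ∩ L.θ l ⁻¹' (B₂ ∩ L.C n)) ⊆
        EE L φ a A c y n (k + 1) ∩ L.C ((k + 1) * n) := by
      rintro ω (⟨⟨⟨h3, h4⟩, h5⟩, h6, h7⟩ | ⟨⟨⟨h3, h4⟩, h5⟩, h6, h7⟩)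
      · refine ⟨fun j hj => ?_, ?_⟩
        · rcases Nat.lt_succ_iff_lt_or_eq.1 hj with hj | rfl
          · exact h3 j hj
          · left
            rw [hstep]
            exact ⟨h4, h6⟩
        · rw [hkl, L.C_add]; exact h7
      · refine ⟨fun j hj => ?_, ?_⟩
        · rcases Nat.lt_succ_iff_lt_or_eq.1 hj with hj | rfl
          · exact h3 j hj
          · right
            rw [hstep]
            exact ⟨h4, h6⟩
        · rw [hkl, L.C_add]; exact h7
    have hm₂ : MeasurableSet (A₂ ∩ L.C l ∩ L.θ l ⁻¹' (B₂ ∩ L.C n)) :=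
      (((L.F_le l) _ hA₂m).inter (L.C_meas l)).inter (L.θ_meas l hB₂m')
    have hdisj : Disjoint (A₁ ∩ L.C l ∩ L.θ l ⁻¹' (B₁ ∩ L.C n))
        (A₂ ∩ L.C l ∩ L.θ l ⁻¹' (B₂ ∩ L.C n)) := by
      rw [Set.disjoint_left]
      intro ω h h'
      have g1 : TT L φ c y n k ω ≤ 0 := h.1.1.2
      have g2 : 0 < TT L φ c y n k ω := h'.1.1.2
      exact absurd g1 (not_le.2 g2)
    have hsplit : P (EE L φ a A c y n k ∩ L.C l) ≤ P (A₁ ∩ L.C l) + P (A₂ ∩ L.C l) := by
      refine (measure_mono ?_).trans (measure_union_le _ _)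
      rintro ω ⟨h3, h4⟩
      rcases le_or_gt (TT L φ c y n k ω) 0 with h5 | h5
      · exact Or.inl ⟨⟨h3, h5⟩, h4⟩
      · exact Or.inr ⟨⟨h3, h5⟩, h4⟩
    calc ENNReal.ofReal ((L.p * p₀) ^ (k + 1))
        = ENNReal.ofReal ((L.p * p₀) ^ k) * ENNReal.ofReal (L.p * p₀) := by
          rw [pow_succ, ENNReal.ofReal_mul (pow_nonneg (mul_nonneg L.p_pos.le hp₀) k)]
      _ ≤ P (EE L φ a A c y n k ∩ L.C l) * ENNReal.ofReal (L.p * p₀) := mul_le_mul_left ih _
      _ ≤ (P (A₁ ∩ L.C l) + P (A₂ ∩ L.C l)) * ENNReal.ofReal (L.p * p₀) :=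
          mul_le_mul_left hsplit _
      _ = P (A₁ ∩ L.C l) * ENNReal.ofReal (L.p * p₀) +
          P (A₂ ∩ L.C l) * ENNReal.ofReal (L.p * p₀) := add_mul _ _ _
      _ ≤ P (A₁ ∩ L.C l) * P (B₁ ∩ L.C n) + P (A₂ ∩ L.C l) * P (B₂ ∩ L.C n) :=
          add_le_add (mul_le_mul_right hq₁ _) (mul_le_mul_right hq₂ _)
      _ = P ((A₁ ∩ L.C l ∩ L.θ l ⁻¹' (B₁ ∩ L.C n)) ∪ (A₂ ∩ L.C l ∩ L.θ l ⁻¹' (B₂ ∩ L.C n))) := by
          rw [measure_union hdisj hm₂, r₁, r₂]
      _ ≤ _ := measure_mono hsub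


end Crest.Agent.R154.MobLP927
end

-- ▼ part R154/MobNat_927
section

/-!
Row 154, TILE: binding of the natural law (797's level process) to the annealed natural climbs of
872 (`gT`, `gk`): the annealed mass of the natural `n`-climb from ANY site `x` into a target `T` is at
least `P(Nat0)` times the mass of the displacement event under the natural law.
-/

set_option autoImplicit false
set_option linter.unusedSectionVars false
set_option linter.deprecated false

namespace Crest.Agent.R154.MobNat927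

open MeasureTheory ProbabilityTheory Set Filter Crest.ProbabilityR.RandomEnvironment
open Crest.Agent.R154.Mk561 Crest.Agent.R154.Q561
open Crest.Agent.R154.Flux132 (lev)
open Crest.Agent.R154.RatioR872 Crest.Agent.R154.Tile872
open Crest.Agent.R154.B4Inst797 (Nat0 natLaw UU lat natLaw_apply)
open scoped ENNReal

variable {d : ℕ} {Q : Measure (Environment d)} [IsProbabilityMeasure Q] {κ : ℝ} {R : ℕ}




/-- annealed mass as a path probability started from `0` -/
lemma lint_gT (F : Bind263.Frame Q κ R) (u : Step d) (x : Site d) (b : ℤ) (T : Set (Site d)) :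
    ∫⁻ ω, gT u R κ univ b T ω x ∂Q = mkAnn κ Q 0 (CfT u R univ x b T) := by
  rw [← mkAnn_stat F.stat κ x, mkAnn_apply κ Q x (meas_CfT u R univ x b T)]
  rfl

/-- **binding, exit sites**: if on the event `E` the first hit of level `n` is at a site of `T - x` -/
theorem mass_ge (F : Bind263.Frame Q κ R) (u : Step d) (x : Site d) (n : ℕ) (T : Set (Site d))
    (E : Set (MPath d))
    (hE : ∀ s ∈ Nat0 u R ∩ E, ∀ m, B4Inst797.Hit u n m s → x + pos 0 s m ∈ T)
    (hc : mkAnn κ Q 0 (Nat0 u R) ≠ 0) :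
    mkAnn κ Q 0 (Nat0 u R) * natLaw κ Q u R E ≤ ∫⁻ ω, gT u R κ univ (lev u x + n) T ω x ∂Q := by
  rw [lint_gT F u x, natLaw_apply, ← mul_assoc, ENNReal.mul_inv_cancel hc (measure_ne_top _ _),
    one_mul]
  calc mkAnn κ Q 0 (Nat0 u R ∩ E)
      ≤ mkAnn κ Q 0 (CfT u R univ x (lev u x + n) T ∪
          (Nat0 u R ∩ {s | ∀ m, ¬ B4Inst797.Hit u n m s})) := by
        refine measure_mono ?_
        intro s hs
        by_cases hex : ∃ m, B4Inst797.Hit u n m s
        · obtain ⟨m, hm⟩ := hex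
          refine Or.inl (mem_iUnion.2 ⟨m, ⟨?_, fun i _ => mem_univ _⟩, ?_⟩)
          · rw [mem_ClM_iff]
            have h1 := (B6I.hit_iff_797 u s n m).1 hm
            exact ⟨h1, B6I.nt_of_nat0 hs.1 h1⟩
          · have := hE s hs m hm
            rwa [← B4Inst797.pos_start] at this
        · exact Or.inr ⟨hs.1, fun m hm => hex ⟨m, hm⟩⟩
    _ ≤ _ := (measure_union_le _ _).trans (by rw [B4Inst797.nat_hit F u n, add_zero])

/-- **binding, lateral coordinates** -/
theorem mass_lat (F : Bind263.Frame Q κ R) (u : Step d) (i1 i2 : Fin d) (x : Site d) (n : ℕ)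
    (W : Set B4.V) (T : Set (Site d))
    (hT : ∀ y, lev u y = lev u x + n → lat i1 i2 y ∈ W → y ∈ T)
    (hc : mkAnn κ Q 0 (Nat0 u R) ≠ 0) :
    mkAnn κ Q 0 (Nat0 u R) * natLaw κ Q u R {s | lat i1 i2 x + UU u i1 i2 n s ∈ W}
      ≤ ∫⁻ ω, gT u R κ univ (lev u x + n) T ω x ∂Q := by
  refine mass_ge F u x n T _ ?_ hc
  rintro s ⟨_, hs⟩ m hm
  refine hT _ ?_ ?_
  · have h1 := (B6I.hit_iff_797 u s n m).1 hm
    have h2 : lev u (pos x s m) = lev u x + B6I.zt u s m := B6I.lev_pos u x s m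
    rw [h1.1, B4Inst797.pos_start] at h2
    exact h2
  · simp only [mem_setOf_eq] at hs
    rw [(B4Inst797.hit_eq i1 i2 hm).2] at hs
    rw [B4Inst797.lat_add]
    exact hs


end Crest.Agent.R154.MobNat927
end

-- ▼ part R154/TileMass_872

/-! Row 154, B8, TILE: annealed masses of the unconfined natural climb against the natural law (upper
bound), translation invariance of the pair energy, strips, first climb into a strip. -/

set_option autoImplicit false
set_option linter.unusedSectionVars false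
set_option linter.deprecated false
set_option linter.unusedVariables false

namespace Crest.Agent.R154.Tile872

open MeasureTheory ProbabilityTheory Set Filter Crest.ProbabilityR.RandomEnvironment
open Crest.Agent.R154.Ren263 (Det)
open Crest.Agent.R154.Mk561 Crest.Agent.R154.Q561
open Crest.Agent.R154.Flux132 (lev)
open Crest.Agent.R154.Fin804 (lev_add)
open Crest.Agent.R154.B6I (SP PP Om NoC tip th Al Dt PSm PIm ct)
open Crest.Agent.R154.RatioR872
open Crest.Agent.R154.TileInst748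
open Crest.Agent.R154.B4Inst797 (Nat0 natLaw UU lat natLaw_apply)
open scoped ENNReal Topology

variable {d : ℕ}

section mass

variable {Q : Measure (Environment d)} [IsProbabilityMeasure Q] {κ : ℝ} {R : ℕ}

/-- **upper bound**: the annealed mass of the natural climb into `T` is at most the natural law of
the displacement event. -/
theorem mass_lat_le (F : Bind263.Frame Q κ R) (u : Step d) (i1 i2 : Fin d) (x : Site d) (n : ℕ)
    (W : Set B4.V) (hW : MeasurableSet W) (T : Set (Site d))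
    (hT : ∀ y ∈ T, lev u y = lev u x + n → lat i1 i2 y ∈ W)
    (hc : mkAnn κ Q 0 (Nat0 u R) ≠ 0) :
    ∫⁻ ω, gT u R κ univ (lev u x + n) T ω x ∂Q
      ≤ natLaw κ Q u R {s | lat i1 i2 x + UU u i1 i2 n s ∈ W} := by
  set A : Set (MPath d) := {s | lat i1 i2 x + UU u i1 i2 n s ∈ W} with hA
  have hAm : MeasurableSet[B4Inst797.Fl u n] A :=
    ((B4Inst797.UU_meas u i1 i2 n).const_add _) hW
  have h1 : CfT u R univ x (lev u x + n) T ⊆ ⋃ m, B4Inst797.XX u R n m A := by
    intro M hM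
    obtain ⟨m, ⟨h2, _⟩, h3⟩ := mem_iUnion.1 hM
    have h4 := (mem_ClM_iff u R).1 h2
    have hhit : B4Inst797.Hit u n m M := (B6I.hit_iff_797 u M n m).2 h4.1
    refine mem_iUnion.2 ⟨m, ⟨⟨fun i hi hin => h2.2.2.1 i hin hi, fun i hi him => ?_⟩, ?_, hhit⟩⟩
    · have h5 := h2.2.2.2 i hi him
      rw [B6I.lev_pos] at h5
      rw [B6I.zh_eq_zt]
      linarith
    · have h5 : lev u (pos x M m) = lev u x + n := h2.1
      have h6 := hT _ h3 h5
      have h7 : pos x M m = x + pos 0 M m := B4Inst797.pos_start x M m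
      rw [h7, B4Inst797.lat_add, ← (B4Inst797.hit_eq i1 i2 hhit).2] at h6
      exact h6
  have h2 : mkAnn κ Q 0 (CfT u R univ x (lev u x + n) T) ≤ B4Inst797.mX κ Q u R n A :=
    (measure_mono h1).trans (measure_iUnion_le _)
  have h3 := B4Inst797.key F u hAm (E := univ) MeasurableSet.univ
  simp only [inter_univ] at h3
  have h4 : mkAnn κ Q 0 (Nat0 u R) * B4Inst797.mX κ Q u R n A ≤ mkAnn κ Q 0 (Nat0 u R ∩ A) := by
    rw [mul_comm, ← h3]
    exact measure_mono fun s hs => ⟨hs.1, hs.2.1⟩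
  rw [MobNat927.lint_gT F u x, natLaw_apply]
  refine h2.trans ?_
  calc B4Inst797.mX κ Q u R n A
      = (mkAnn κ Q 0 (Nat0 u R))⁻¹ * (mkAnn κ Q 0 (Nat0 u R) * B4Inst797.mX κ Q u R n A) := by
        rw [← mul_assoc, ENNReal.inv_mul_cancel hc (measure_ne_top _ _), one_mul]
    _ ≤ _ := by gcongr

end mass

section trans

variable {Q : Measure (Environment d)} [IsProbabilityMeasure Q] {κ : ℝ} {R : ℕ}

lemma PSm_trans (hstat : ∀ z : Site d, MeasurePreserving (shiftEnv z) Q Q) (x x' v : Site d)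
    {B : Set (PP d)} (hB : MeasurableSet B) :
    PSm κ Q (x + v) (x' + v) B = PSm κ Q x x' B := by
  rw [B6I.PSm_apply κ Q _ _ hB, B6I.PSm_apply κ Q _ _ hB]
  have hm : Measurable fun ω : Environment d => ((mkLaw κ ω x).prod (mkLaw κ ω x')) B := by
    have h := Kernel.measurable_coe (mkK κ x ×ₖ mkK κ x') hB
    have e : (fun ω : Environment d => ((mkLaw κ ω x).prod (mkLaw κ ω x')) B)
        = fun ω => (mkK κ x ×ₖ mkK κ x') ω B := by
      funext ω
      rw [Kernel.prod_apply]; rfl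
    rw [e]; exact h
  rw [← (hstat v).lintegral_comp hm]
  refine lintegral_congr fun ω => ?_
  rw [mkLaw_shiftEnv, mkLaw_shiftEnv]

lemma Kc_trans (hstat : ∀ z : Site d, MeasurePreserving (shiftEnv z) Q Q) (u : Step d)
    (x x' v : Site d) {a b a' b' : ℕ} (h : b - a = b' - a') :
    Kc u R κ Q a b (x + v) (x' + v) = Kc u R κ Q a' b' x x' := by
  classical
  unfold Kc
  have hl : lev u (x + v) = lev u (x' + v) ↔ lev u x = lev u x' := by
    rw [lev_add, lev_add]; constructor <;> intro h <;> linarith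
  by_cases hx : lev u x = lev u x'
  · rw [dif_pos hx, dif_pos (hl.2 hx), h, PSm_trans hstat x x' v (meas_bc u R (Nat.zero_le _) _)]
    congr 1
    ext p
    simp only [bc, mem_setOf_eq, NoC, ct]
    have e : ∀ i i' c, pos (x + v) p.1 i c - pos (x' + v) p.2 i' c
        = pos x p.1 i c - pos x' p.2 i' c := by
      intro i i' c
      rw [pos_add, pos_add]
      simp
    simp only [e]
  · rw [dif_neg hx, dif_neg fun h' => hx (hl.1 h')]

end trans

section strip

variable {Q : Measure (Environment d)} [IsProbabilityMeasure Q] {κ : ℝ} {R : ℕ}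

/-- the strip of level `ℓ` with lateral coordinate `i` in `[t, t + a)` -/
def strip (u : Step d) (i1 i2 : Fin d) (i : Fin 2) (a : ℝ) (ℓ : ℕ) (t : ℝ) : Set (Site d) :=
  {y | lev u y = ℓ ∧ lat i1 i2 y i ∈ Ico t (t + a)}

/-- a site with prescribed level and prescribed (integer) lateral coordinate -/
lemma exists_site {u : Step d} {i1 i2 : Fin d} (h1 : i1 ≠ u.1) (h2 : i2 ≠ u.1) (h12 : i1 ≠ i2)
    (i : Fin 2) (ℓ : ℤ) (m : ℤ) : ∃ z : Site d, lev u z = ℓ ∧ lat i1 i2 z i = m := by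
  classical
  have h21 : i2 ≠ i1 := h12.symm
  refine ⟨fun j => if j = u.1 then (if u.2 then ℓ else -ℓ) else if j = ![i1, i2] i then m else 0,
    ?_, ?_⟩
  · unfold lev
    split_ifs <;> simp
  · unfold lat
    fin_cases i
    · simp [h1]
    · simp [h2]

variable (u : Step d) (i1 i2 : Fin d) (i : Fin 2)

/-- **mass into a strip**: from the displacement probability -/
lemma strip_ge (F : Bind263.Frame Q κ R) {x : Site d} {ℓ n : ℕ} (hx : lev u x = ℓ) {a t : ℝ}
    {g : ℝ≥0∞} (hc : mkAnn κ Q 0 (Nat0 u R) ≠ 0)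
    (h : g ≤ natLaw κ Q u R {s | lat i1 i2 x i + UU u i1 i2 n s i ∈ Ico t (t + a)}) :
    mkAnn κ Q 0 (Nat0 u R) * g
      ≤ ∫⁻ ω, gT u R κ univ (ℓ + n : ℕ) (strip u i1 i2 i a (ℓ + n) t) ω x ∂Q := by
  have h1 := MobNat927.mass_lat F u i1 i2 x n {w | w i ∈ Ico t (t + a)}
    (strip u i1 i2 i a (ℓ + n) t) (fun y hy hy2 => ⟨by rw [hy, hx]; push_cast; rfl, hy2⟩) hc
  have e : lev u x + (n : ℤ) = ((ℓ + n : ℕ) : ℤ) := by rw [hx]; push_cast; rfl
  rw [e] at h1
  refine le_trans ?_ h1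
  gcongr
  exact h

/-- mass outside a window -/
lemma out_le (F : Bind263.Frame Q κ R) {x : Site d} {ℓ n : ℕ} (hx : lev u x = ℓ) {r v : ℝ}
    {δ : ℝ≥0∞} (hc : mkAnn κ Q 0 (Nat0 u R) ≠ 0)
    (h : natLaw κ Q u R {s | r < |UU u i1 i2 n s i - v|} ≤ δ) :
    ∫⁻ ω, gT u R κ univ (ℓ + n : ℕ)
      {y | lev u y = (ℓ + n : ℕ) ∧ |lat i1 i2 y i - lat i1 i2 x i - v| ≤ r}ᶜ ω x ∂Q ≤ δ := by
  have hm : MeasurableSet {w : B4.V | r < |w i - lat i1 i2 x i - v|} :=
    measurableSet_lt measurable_const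
      ((((measurable_pi_apply i).sub_const _).sub_const _).abs)
  have h1 := mass_lat_le F u i1 i2 x n {w | r < |w i - lat i1 i2 x i - v|} hm
    {y | lev u y = (ℓ + n : ℕ) ∧ |lat i1 i2 y i - lat i1 i2 x i - v| ≤ r}ᶜ
    (fun y hy hy2 => by
      simp only [mem_compl_iff, mem_setOf_eq, not_and, not_le] at hy ⊢
      exact hy (by rw [hy2, hx]; push_cast; rfl)) hc
  have e : lev u x + (n : ℤ) = ((ℓ + n : ℕ) : ℤ) := by rw [hx]; push_cast; rfl
  rw [e] at h1
  refine h1.trans (le_trans (measure_mono ?_) h)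
  intro s hs
  simp only [mem_setOf_eq, Pi.add_apply] at hs ⊢
  have e2 : lat i1 i2 x i + UU u i1 i2 n s i - lat i1 i2 x i - v = UU u i1 i2 n s i - v := by ring
  rwa [e2] at hs

end strip

end Crest.Agent.R154.Tile872
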