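import Crest.Agent.R154.KSFin_333
import Crest.Agent.R154.TileInst2_333
import Crest.Agent.R154.MobL_437
import Crest.Agent.R154.B4Inst_797
import Crest.Agent.R154.HalfFin_419
import Crest.Agent.R154.KSDefs_480
import Crest.Agent.R154.SE_424
import Crest.Agent.R154.Dip_402
import Crest.Agent.R154.ContK1_424
import Crest.Agent.R154.KBGrid_424
import Crest.Agent.R154.TileMass_872

-- ▼ part R154/KSBind_333
section

/-! Row 154, B8, TILE regular: the fields `subL`, `subR`, `kset` of `TileInst2.Inputs` on 872's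
kernel system `kS` from 480's `KSf` (helper333). -/

set_option autoImplicit false
set_option linter.unusedSectionVars false
set_option linter.deprecated false
set_option linter.unusedVariables false

namespace Crest.Agent.R154.KS480

open MeasureTheory ProbabilityTheory Set Filter Crest.ProbabilityR.RandomEnvironment
open Crest.Agent.R154.Mk561 Crest.Agent.R154.Q561
open Crest.Agent.R154.Flux132 (lev)
open Crest.Agent.R154.RatioR872 Crest.Agent.R154.Tile872
open Crest.Agent.R154.TileInst748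
open scoped ENNReal

variable {d : ℕ}

section bind

variable (u : Step d) (R : ℕ) (κ : ℝ) (Q : Measure (Environment d)) [IsProbabilityMeasure Q]
variable (hstat : ∀ z : Site d, MeasurePreserving (shiftEnv z) Q Q)
variable (hR : IsFiniteRangeDependent Q R)
variable (s : ℝ≥0∞) (L N : ℕ) (Cell : ℕ → ℤ → Set (Site d))








/-- annealed mass of the natural climb into `T`: 872's and 480's letters. -/
lemma mkAnn_succ (b : ℤ) (T : Set (Site d)) (x : Site d) :
    mkAnn κ Q x (succ u R b T x) = ∫⁻ ω, gT u R κ univ b T ω x ∂Q := by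
  have e : succ u R b T x = CfT u R univ x b T := by
    unfold succ succM CfT CfM
    refine iUnion_congr fun m => ?_
    ext M
    simp
  rw [mkAnn_apply κ Q x (meas_succ u R b T x), e]
  rfl

end bind

end Crest.Agent.R154.KS480
end

-- ▼ part R154/MobG_437
section

/-!
Row 154, TILE: growth input of the mobility package: the widths of 797's level process `lp` grow at
most linearly (asymptotic direction of 419), hence `Σ_{k<J} Sl (2^k) = O(J)` (helper437).
-/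

set_option autoImplicit false
set_option linter.unusedSectionVars false
set_option linter.unusedVariables false

namespace Crest.Agent.R154.MobW437

open MeasureTheory ProbabilityTheory Filter Set Crest.ProbabilityR.RandomEnvironment
open Crest.Agent.R154.B4 Crest.Agent.R154.B4Inst797 Crest.Agent.R154.Mk561
open scoped ENNReal Topology

section abstract

variable {Ω : Type*} [mΩ : MeasurableSpace Ω] {P : Measure Ω} [IsProbabilityMeasure P]

/-- linear growth of the widths from an almost sure speed of the coordinate -/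
lemma growth_of_speed (L : LP P) (i : Fin 2) (v : ℝ)
    (h : ∀ᵐ ω ∂P, Tendsto (fun l : ℕ => L.U l ω i / (l : ℝ)) atTop (𝓝 v)) :
    ∃ C : ℝ, 0 ≤ C ∧ ∀ k : ℕ, Real.logb 2 (wl L i (2 ^ k)) ≤ C * (k + 1) := by
  have hm : ∀ l, Measurable fun ω => L.U l ω i := fun l => measurable_coord (meas_U L l) i
  have h1 : TendstoInMeasure P (fun (l : ℕ) ω => L.U l ω i / (l : ℝ)) atTop (fun _ => v) :=
    tendstoInMeasure_of_tendsto_ae (fun l => ((hm l).div_const _).aestronglyMeasurable) h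
  have h2 := h1 (ENNReal.ofReal (1 / 2)) (by simp)
  have h3 := (tendsto_order.1 h2).2 (ENNReal.ofReal (1 / 1000)) (by simp)
  obtain ⟨l0, hl0⟩ := (h3.and (eventually_gt_atTop 0)).exists_forall_of_atTop
  have hw : ∀ l, l0 ≤ l → wl L i l ≤ 10 * l := by
    intro l hl
    obtain ⟨h4, hl1⟩ := hl0 l hl
    have hlr : (0 : ℝ) < l := by exact_mod_cast hl1
    have hl1' : (1 : ℝ) ≤ l := by exact_mod_cast hl1
    have h5 : P.real {ω | (l : ℝ) / 2 < |L.U l ω i - v * l|} < 1 / 800 := by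
      have hsub : {ω | (l : ℝ) / 2 < |L.U l ω i - v * l|} ⊆
          {ω | ENNReal.ofReal (1 / 2) ≤ edist (L.U l ω i / (l : ℝ)) v} := by
        intro ω hω
        have h6 : (l : ℝ) / 2 < |L.U l ω i - v * l| := hω
        show ENNReal.ofReal (1 / 2) ≤ edist (L.U l ω i / (l : ℝ)) v
        rw [edist_dist, Real.dist_eq]
        refine ENNReal.ofReal_le_ofReal ?_
        have e : L.U l ω i / (l : ℝ) - v = (L.U l ω i - v * l) / l := by field_simp
        rw [e, abs_div, abs_of_pos hlr, le_div_iff₀ hlr]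
        linarith
      have h6 : P {ω | (l : ℝ) / 2 < |L.U l ω i - v * l|} < ENNReal.ofReal (1 / 1000) :=
        (measure_mono hsub).trans_lt h4
      rw [measureReal_def]
      refine lt_trans ((ENNReal.toReal_lt_toReal (measure_ne_top _ _) ENNReal.ofReal_ne_top).2 h6) ?_
      rw [ENNReal.toReal_ofReal (by norm_num)]
      norm_num
    have h7 : (P.prod P).real {q | (l : ℝ) < |Z (L.U l) i q|} ≤ 1 / 400 := by
      by_contra hcon
      push Not at hcon
      have h8 := spread_point (P := P) (meas_U L l) i ((l : ℝ) / 2) (ε := 1 / 400) (by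
        have e : 2 * ((l : ℝ) / 2) = l := by ring
        rw [e]; exact hcon.le) (v * l)
      have e2 : (1 : ℝ) / 400 / 2 = 1 / 800 := by norm_num
      rw [e2] at h8
      linarith
    refine (wl_le_of_tail L i l hlr h7).trans ?_
    exact max_le (by linarith) le_rfl
  -- finitely many small octaves
  obtain ⟨B, hB0, hB⟩ : ∃ B : ℝ, 0 ≤ B ∧ ∀ k < l0, Real.logb 2 (wl L i (2 ^ k)) ≤ B := by
    refine ⟨∑ k ∈ Finset.range l0, Real.logb 2 (wl L i (2 ^ k)),
      Finset.sum_nonneg fun k _ => Real.logb_nonneg (by norm_num) (one_le_wl L i _), fun k hk => ?_⟩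
    exact Finset.single_le_sum (f := fun k => Real.logb 2 (wl L i (2 ^ k)))
      (fun k _ => Real.logb_nonneg (by norm_num) (one_le_wl L i _)) (Finset.mem_range.2 hk)
  refine ⟨B + 4, by positivity, fun k => ?_⟩
  have hk0 : (0 : ℝ) ≤ k := Nat.cast_nonneg k
  rcases lt_or_ge k l0 with hk | hk
  · have := hB k hk
    nlinarith
  · have h8 := hw (2 ^ k) (hk.trans (Nat.lt_two_pow_self (n := k)).le)
    have h9 : Real.logb 2 (wl L i (2 ^ k)) ≤ Real.logb 2 (10 * ((2 ^ k : ℕ) : ℝ)) :=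
      Real.logb_le_logb_of_le (by norm_num) (wl_pos L i _) h8
    have h10 : Real.logb 2 (10 * ((2 ^ k : ℕ) : ℝ)) ≤ 4 + k := by
      rw [Real.logb_le_iff_le_rpow (by norm_num) (by positivity)]
      rw [Real.rpow_add (by norm_num), Real.rpow_natCast]
      push_cast
      have : (2 : ℝ) ^ (4 : ℝ) = 16 := by norm_num
      rw [this]
      have h11 : (0 : ℝ) ≤ 2 ^ k := by positivity
      linarith
    nlinarith

end abstract

variable {d : ℕ} {Q : Measure (Environment d)} [IsProbabilityMeasure Q] {κ : ℝ} {R : ℕ}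

/-- almost surely on the natural event: asymptotic direction -/
theorem nat_speed (F : Bind263.Frame Q κ R) (u : Step d)
    (hA : annealedProb Q 0 (escapeEvent (B2d.dirVec u)) ≠ 0) (i1 i2 : Fin d) (i : Fin 2) :
    ∃ v : ℝ, ∀ᵐ s ∂(natLaw κ Q u R),
      Tendsto (fun l : ℕ => UU u i1 i2 l s i / (l : ℝ)) atTop (𝓝 v) := by
  obtain ⟨v, -, hv⟩ := HalfFin.direction F (B2d.dirVec u) (B2d.dirVec_ne_zero u) hA
  refine ⟨v (![i1, i2] i), ?_⟩
  have hmeas : MeasurableSet {X : Path d | X ∈ escapeEvent (B2d.dirVec u) →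
      Half419.Dirc (B2d.dirVec u) v X} := by
    have : {X : Path d | X ∈ escapeEvent (B2d.dirVec u) → Half419.Dirc (B2d.dirVec u) v X} =
        (escapeEvent (B2d.dirVec u))ᶜ ∪ {X | Half419.Dirc (B2d.dirVec u) v X} := by
      ext X; simp [imp_iff_not_or]
    rw [this]
    exact (B2d.measurableSet_escapeEvent _).compl.union (Half419.measurableSet_Dirc _ v)
  have h1 := F.ae_mpath hmeas hv
  have h2 := F.stay_escape (B2d.dirVec u) (B2d.dirVec_ne_zero u) hA
  have h3 : ∀ᵐ s ∂(mkAnn κ Q 0), s ∈ Nat0 u R → ∀ l : ℕ, ∃ n, Hit u l n s := by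
    have h4 : ∀ l : ℕ, ∀ᵐ s ∂(mkAnn κ Q 0), s ∈ Nat0 u R → ∃ n, Hit u l n s := by
      intro l
      rw [ae_iff]
      refine measure_mono_null ?_ (nat_hit F u l)
      intro s hs
      simp only [mem_ofPred_eq, Classical.not_imp, not_exists] at hs
      exact ⟨hs.1, hs.2⟩
    filter_upwards [ae_all_iff.2 h4] with s hs hN l using hs l hN
  have h5 : ∀ᵐ s ∂(mkAnn κ Q 0), s ∈ Nat0 u R →
      Tendsto (fun l : ℕ => UU u i1 i2 l s i / (l : ℝ)) atTop (𝓝 (v (![i1, i2] i))) := by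
    filter_upwards [h1, h2, h3] with s g1 g2 g3 hN
    have hD : Half419.Dirc (B2d.dirVec u) v (mpath 0 s) := g1 (g2 (nat_subset_stay u R hN))
    have hit := g3 hN
    choose n hn using hit
    have hnl : ∀ l, l ≤ n l := fun l => le_of_hit (hn l)
    have htend : Tendsto n atTop atTop := tendsto_atTop_mono hnl tendsto_id
    have h6 := (hD.2 (![i1, i2] i)).comp htend
    refine h6.congr fun l => ?_
    simp only [Function.comp]
    have e1 : Half419.HH (B2d.dirVec u) (mpath 0 s (n l)) = (l : ℝ) := by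
      have e2 : Half419.HH (B2d.dirVec u) (mpath 0 s (n l)) =
          Ren263.hgt (mht (B2d.dirVec u)) s (n l) := by
        rw [← Bind263.L_mpath]
        rfl
      rw [e2, hgt_eq, (hn l).1]
      push_cast
      rfl
    rw [e1, (hit_eq i1 i2 (hn l)).2]
    unfold lat mpath
    fin_cases i <;> simp
  unfold natLaw
  have h7 := ProbabilityTheory.ae_cond_mem (μ := mkAnn κ Q 0) (measurableSet_Nat0 u R)
  have h8 : (mkAnn κ Q 0)[|Nat0 u R] ≪ mkAnn κ Q 0 := ProbabilityTheory.cond_absolutelyContinuous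
  filter_upwards [h8.ae_le h5, h7] with s g1 g2 using g1 g2

/-- **growth input** for 797's level process -/
theorem growth (F : Bind263.Frame Q κ R) (u : Step d) {i1 i2 : Fin d} (h1 : i1 ≠ u.1)
    (h2 : i2 ≠ u.1) (h12 : i1 ≠ i2) (hc : mkAnn κ Q 0 (Nat0 u R) ≠ 0)
    (hA : annealedProb Q 0 (escapeEvent (B2d.dirVec u)) ≠ 0) (i : Fin 2) :
    ∃ C : ℝ, 0 ≤ C ∧ ∀ k : ℕ, Real.logb 2 (wl (lp F u h1 h2 h12 hc) i (2 ^ k)) ≤ C * (k + 1) := by
  have := natLaw_isProb hc
  obtain ⟨v, hv⟩ := nat_speed F u hA i1 i2 i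
  exact growth_of_speed (lp F u h1 h2 h12 hc) i v hv

/-- **sum over octaves** for 797's level process -/
theorem sum_Sl_lp (F : Bind263.Frame Q κ R) (u : Step d) {i1 i2 : Fin d} (h1 : i1 ≠ u.1)
    (h2 : i2 ≠ u.1) (h12 : i1 ≠ i2) (hc : mkAnn κ Q 0 (Nat0 u R) ≠ 0)
    (hA : annealedProb Q 0 (escapeEvent (B2d.dirVec u)) ≠ 0) (i : Fin 2) :
    ∃ C' : ℝ, ∀ J : ℕ, ∑ k ∈ Finset.range J, (Sl (lp F u h1 h2 h12 hc) i (2 ^ k) : ℝ) ≤
      C' * (J + 1) := by
  have := natLaw_isProb hc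
  obtain ⟨C, hC, hg⟩ := growth F u h1 h2 h12 hc hA i
  exact sum_Sl _ i hC hg

end Crest.Agent.R154.MobW437
end

-- ▼ part R154/Near_424
section

/-! Row 154, B8, TILE, (ROW), near part (helper424).

(A) `mt_le`: the contact probability of two KILLED walkers is at most `s⁻²` times the contact
probability of two successful natural climbs (independent environments).
(B) `near`: if the natural climb of the first `l` levels from `x` ends in `B` and the one from `x'`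
outside of `B`, up to `η`, then `mt ≤ δ` for the heights `n ≤ 2 ^ k * l`, `n` large. -/

set_option autoImplicit false
set_option linter.unusedVariables false
set_option linter.unusedSectionVars false
set_option linter.deprecated false

open MeasureTheory ProbabilityTheory Filter Set
open scoped ENNReal Topology

namespace Crest.Agent.R154.Near424

open Crest.ProbabilityR.RandomEnvironment Crest.Agent.R154.Q561
open Crest.Agent.R154.Mk561 Crest.Agent.R154.B6I Crest.Agent.R154.KS480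
open Crest.Agent.R154.RatioR872
open Crest.Agent.R154.Flux132 (lev)

variable {d : ℕ}

/-! ### flagged histories -/

/-- marks before `n` and the flag of `n` -/
def fl (n : ℕ) (M : MPath d) : (Fin n → Mark d) × Bool := (fun i => M i, (M n).2)

lemma measurable_fl (n : ℕ) : Measurable (fl (d := d) n) := by
  refine Measurable.prodMk ?_ ?_
  · exact measurable_pi_lambda _ fun i => measurable_pi_apply _
  · exact (measurable_of_countable (fun m : Mark d => m.2)).comp (measurable_pi_apply n)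

lemma fl_eq {n : ℕ} {M M' : MPath d} :
    fl n M = fl n M' ↔ (∀ i < n, M i = M' i) ∧ (M n).2 = (M' n).2 := by
  unfold fl
  rw [Prod.ext_iff]
  refine and_congr ?_ Iff.rfl
  constructor
  · intro h i hi
    exact congrFun h ⟨i, hi⟩
  · intro h
    funext i
    exact h i i.2

lemma CyF_eq (W : MPath d) (n : ℕ) : CyF W n = fl n ⁻¹' {fl n W} := by
  ext M
  rw [mem_preimage, mem_singleton_iff, fl_eq]
  exact Iff.rfl

lemma fl_mono {m n : ℕ} (h : m ≤ n) {M M' : MPath d} (e : fl n M = fl n M') :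
    fl m M = fl m M' := by
  rw [fl_eq] at e ⊢
  refine ⟨fun i hi => e.1 i (by omega), ?_⟩
  rcases Nat.lt_or_ge m n with h1 | h1
  · rw [e.1 m h1]
  · obtain rfl : m = n := le_antisymm h h1
    exact e.2

lemma CyF_congr {n : ℕ} {M M' : MPath d} (e : fl n M = fl n M') : CyF M n = CyF M' n := by
  rw [CyF_eq, CyF_eq, e]

/-- decided by the flagged history of time `n` -/
def Dc (n : ℕ) (A : Set (MPath d)) : Prop := ∀ M M' : MPath d, fl n M = fl n M' → M ∈ A → M' ∈ A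

lemma Dc.pre {n : ℕ} {A : Set (MPath d)} (h : Dc n A) : fl n ⁻¹' (fl n '' A) = A := by
  ext M
  constructor
  · rintro ⟨M', h1, h2⟩
    exact h M' M h2 h1
  · intro h1
    exact ⟨M, h1, rfl⟩

lemma Dc.meas {n : ℕ} {A : Set (MPath d)} (h : Dc n A) : MeasurableSet A := by
  rw [← h.pre]
  exact measurable_fl n (Set.to_countable _).measurableSet

/-- comparison of two measures on a decided set, cylinder by cylinder -/
lemma cmp_dc (μ ν : Measure (MPath d)) {n : ℕ} {A : Set (MPath d)} (hA : Dc n A)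
    (h : ∀ M ∈ A, μ (CyF M n) ≤ ν (CyF M n)) : μ A ≤ ν A := by
  have e : A = ⋃ b ∈ fl n '' A, fl n ⁻¹' {b} := by
    conv_lhs => rw [← hA.pre]
    ext M
    simp only [mem_preimage, mem_iUnion, mem_singleton_iff, exists_prop, exists_eq_right']
  have hB : (fl n '' A).Countable := Set.to_countable _
  have m : ∀ b ∈ fl n '' A, MeasurableSet (fl n ⁻¹' {b}) := fun b _ =>
    measurable_fl n (measurableSet_singleton b)
  have dj : (fl n '' A).PairwiseDisjoint fun b => fl n ⁻¹' {b} := by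
    intro b _ c _ hbc
    exact Disjoint.preimage _ (Set.disjoint_singleton.2 hbc)
  rw [e, measure_biUnion hB dj m, measure_biUnion hB dj m]
  refine ENNReal.tsum_le_tsum fun b => ?_
  obtain ⟨b, M, hM, rfl⟩ := b
  have := h M hM
  rwa [CyF_eq] at this

/-- sum over the first time at which a predicate of the flagged history holds -/
lemma cmp_first (μ ν : Measure (MPath d)) {p : ℕ → MPath d → Prop}
    (hp : ∀ n M M', fl n M = fl n M' → p n M → p n M')
    (h : ∀ n M, p n M → μ (CyF M n) ≤ ν (CyF M n)) : μ {M | ∃ n, p n M} ≤ ν {M | ∃ n, p n M} := by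
  set A : ℕ → Set (MPath d) := fun n => {M | p n M ∧ ∀ k < n, ¬ p k M} with hAdef
  have hA : ∀ n, Dc n (A n) := by
    intro n M M' e hM
    exact ⟨hp n M M' e hM.1, fun k hk hk' => hM.2 k hk (hp k M' M (fl_mono hk.le e).symm hk')⟩
  have hU : {M : MPath d | ∃ n, p n M} = ⋃ n, A n := by
    ext M
    simp only [mem_setOf_eq, mem_iUnion]
    constructor
    · intro hex
      classical
      exact ⟨Nat.find hex, Nat.find_spec hex, fun k hk => Nat.find_min hex hk⟩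
    · rintro ⟨n, h1, -⟩
      exact ⟨n, h1⟩
  have hd : Pairwise (Function.onFun Disjoint A) := by
    intro m n hmn
    rw [Function.onFun, Set.disjoint_left]
    intro M h1 h2
    rcases lt_or_gt_of_ne hmn with h3 | h3
    · exact h2.2 m h3 h1.1
    · exact h1.2 n h3 h2.1
  rw [hU, measure_iUnion hd fun n => (hA n).meas, measure_iUnion hd fun n => (hA n).meas]
  exact ENNReal.tsum_le_tsum fun n => cmp_dc μ ν (hA n) fun M hM => h n M hM.1

lemma meas_first {p : ℕ → MPath d → Prop}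
    (hp : ∀ n M M', fl n M = fl n M' → p n M → p n M') : MeasurableSet {M | ∃ n, p n M} := by
  have : {M : MPath d | ∃ n, p n M} = ⋃ n, {M | p n M} := by
    ext M
    simp only [mem_setOf_eq, mem_iUnion]
  rw [this]
  exact MeasurableSet.iUnion fun n => Dc.meas (n := n) fun M M' e h => hp n M M' e h

section one

variable {u : Step d} {R : ℕ} {κ : ℝ} {Q : Measure (Environment d)} {s : ℝ≥0∞} {b : ℤ}
  {T T' : Set (Site d)} {x x' : Site d}

lemma pos_congr {n : ℕ} {M M' : MPath d} (e : fl n M = fl n M') :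
    pos x M n = pos x M' n := by
  rw [fl_eq] at e
  have : ∀ k ≤ n, pos x M k = pos x M' k := by
    intro k
    induction k with
    | zero => intro _; rw [pos_zero, pos_zero]
    | succ k ih => intro hk; rw [pos_succ, pos_succ, ih (by omega), e.1 k (by omega)]
  exact this n le_rfl

lemma dp_congr {n : ℕ} {M M' : MPath d} (e : fl n M = fl n M') :
    dp u R κ Q s b T x M n ↔ dp u R κ Q s b T x M' n := by
  unfold dp
  rw [CyF_congr e]

lemma lt_tau {M : MPath d} {i : ℕ} : (i : ℕ∞) < tau u R κ Q s b T x M ↔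
    ∀ k ≤ i, lev u (pos x M k) < b ∧ ¬ dp u R κ Q s b T x M k := by
  unfold tau
  constructor
  · intro h k hk
    have h1 : (k : ℕ∞) < KExp.fst fun n => b ≤ lev u (pos x M n) ∨ dp u R κ Q s b T x M n :=
      lt_of_le_of_lt (by exact_mod_cast hk) h
    have h2 := KExp.not_of_lt_fst h1
    push Not at h2
    exact h2
  · intro h
    by_contra hcon
    rw [not_lt] at hcon
    have h1 : (KExp.fst fun n => b ≤ lev u (pos x M n) ∨ dp u R κ Q s b T x M n)
        < ((i + 1 : ℕ) : ℕ∞) := lt_of_le_of_lt hcon (by exact_mod_cast Nat.lt_succ_self i)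
    obtain ⟨n, h2, h3⟩ := KExp.fst_exists h1
    have h4 : n < i + 1 := by exact_mod_cast h2
    obtain ⟨h5, h6⟩ := h n (by omega)
    rcases h3 with h3 | h3
    · omega
    · exact h6 h3

lemma lt_tau_congr {n : ℕ} {M M' : MPath d} (e : fl n M = fl n M')
    (h : (n : ℕ∞) < tau u R κ Q s b T x M) : (n : ℕ∞) < tau u R κ Q s b T x M' := by
  rw [lt_tau] at h ⊢
  intro k hk
  obtain ⟨h1, h2⟩ := h k hk
  have e' := fl_mono hk e
  rw [← pos_congr (x := x) e']
  exact ⟨h1, fun h3 => h2 ((dp_congr e').2 h3)⟩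

lemma meas_succ : MeasurableSet (succ u R b T x) := by
  unfold succ succM
  refine MeasurableSet.iUnion fun m => (meas_ClM u R x b m).inter ?_
  exact (meas_pos (x := fun _ : MPath d => x) measurable_const measurable_id m)
    (Set.to_countable T).measurableSet

/-- **(one walker)** reading in a set `S` before the decision time -/
lemma one (S : Set (Site d)) :
    s * mkAnn κ Q x {M | ∃ i : ℕ, (i : ℕ∞) < tau u R κ Q s b T x M ∧ (M i).2 = false ∧
      pos x M i ∈ S} ≤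
    mkAnn κ Q x {M | M ∈ succ u R b T x ∧ ∃ i : ℕ, (∀ k ≤ i, lev u (pos x M k) < b) ∧
      (M i).2 = false ∧ pos x M i ∈ S} := by
  set p : ℕ → MPath d → Prop := fun i M => (i : ℕ∞) < tau u R κ Q s b T x M ∧ (M i).2 = false ∧
      pos x M i ∈ S with hpdef
  have hp : ∀ n M M', fl n M = fl n M' → p n M → p n M' := by
    rintro n M M' e ⟨h1, h2, h3⟩
    refine ⟨lt_tau_congr e h1, ?_, ?_⟩
    · rw [← (fl_eq.1 e).2]; exact h2
    · rw [← pos_congr e]; exact h3
  have key := cmp_first (s • mkAnn κ Q x) ((mkAnn κ Q x).restrict (succ u R b T x)) hp ?_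
  · rw [Measure.smul_apply, smul_eq_mul, Measure.restrict_apply (meas_first hp)] at key
    refine key.trans (measure_mono ?_)
    rintro M ⟨⟨i, h1, h2, h3⟩, h4⟩
    exact ⟨h4, i, fun k hk => ((lt_tau.1 h1) k hk).1, h2, h3⟩
  · rintro n M ⟨h1, -, -⟩
    have h2 := ((lt_tau.1 h1) n le_rfl).2
    unfold dp at h2
    rw [not_lt] at h2
    have hm : MeasurableSet (CyF M n) := by
      rw [CyF_eq]; exact measurable_fl n (measurableSet_singleton _)
    rw [Measure.smul_apply, smul_eq_mul, Measure.restrict_apply hm, inter_comm]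
    exact h2

/-- **dip loss** -/
lemma dip_loss [IsProbabilityMeasure Q] :
    mkAnn κ Q x {M | M ∈ succ u R b T x ∧ ∃ i : ℕ, dp u R κ Q s b T x M i} ≤ s := by
  have hp : ∀ n (M M' : MPath d), fl n M = fl n M' → dp u R κ Q s b T x M n →
      dp u R κ Q s b T x M' n := fun n M M' e h => (dp_congr e).1 h
  have key := cmp_first ((mkAnn κ Q x).restrict (succ u R b T x)) (s • mkAnn κ Q x)
    (p := fun n M => dp u R κ Q s b T x M n) hp ?_
  · rw [Measure.smul_apply, smul_eq_mul, Measure.restrict_apply (meas_first hp)] at key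
    refine (measure_mono ?_).trans (key.trans ?_)
    · rintro M ⟨h1, h2⟩
      exact ⟨h2, h1⟩
    · exact (mul_le_mul' le_rfl prob_le_one).trans (mul_one _).le
  · intro n M h
    have hm : MeasurableSet (CyF M n) := by
      rw [CyF_eq]; exact measurable_fl n (measurableSet_singleton _)
    rw [Measure.smul_apply, smul_eq_mul, Measure.restrict_apply hm, inter_comm]
    exact le_of_lt h

end one

/-! ### two walkers -/

section two

variable (u : Step d) (R : ℕ) (κ : ℝ) (Q : Measure (Environment d)) (s : ℝ≥0∞) (b : ℤ)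
  (T T' : Set (Site d)) (x x' : Site d)

/-- before the first hit of level `b` -/
def bfx (x : Site d) (M : MPath d) (i : ℕ) : Prop := ∀ k ≤ i, lev u (pos x M k) < b

/-- the read sites at the times `i`, `j` are within `R` -/
def nr (p : PP d) (i j : ℕ) : Prop :=
  (p.1 i).2 = false ∧ (p.2 j).2 = false ∧ ∀ c, |pos x p.1 i c - pos x' p.2 j c| ≤ (R : ℤ)

/-- contact of two successful natural climbs -/
noncomputable def CCn : ℝ≥0∞ :=
  ((mkAnn κ Q x).prod (mkAnn κ Q x')) {p | p.1 ∈ succ u R b T x ∧ p.2 ∈ succ u R b T' x' ∧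
    ∃ i j : ℕ, bfx u b x p.1 i ∧ bfx u b x' p.2 j ∧ nr R x x' p i j}

variable {u R κ Q s b T T' x x'}

lemma meas_nr (i j : ℕ) : MeasurableSet {p : PP d | nr R x x' p i j} := by
  have h := (measurable_of_countable fun q : (Site d × Site d) × (Mark d × Mark d) =>
    (q.2.1.2 = false ∧ q.2.2.2 = false ∧ ∀ c, |q.1.1 c - q.1.2 c| ≤ (R:ℤ))).comp
    (((meas_pos (x := fun _ : PP d => x) measurable_const measurable_fst i).prodMk
      (meas_pos (x := fun _ : PP d => x') measurable_const measurable_snd j)).prodMk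
      (((measurable_pi_apply i).comp measurable_fst).prodMk
        ((measurable_pi_apply j).comp measurable_snd)) :
      Measurable fun p : PP d => ((pos x p.1 i, pos x' p.2 j), (p.1 i, p.2 j)))
  exact set_of_mp h

lemma meas_bfx (i : ℕ) : MeasurableSet {M : MPath d | bfx u b x M i} := by
  have : {M : MPath d | bfx u b x M i} = ⋂ k ∈ Finset.range (i + 1),
      {M | lev u (pos x M k) < b} := by
    ext M
    simp only [bfx, mem_setOf_eq, mem_iInter, Finset.mem_range, Nat.lt_succ_iff]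
  rw [this]
  refine Finset.measurableSet_biInter _ fun k _ => ?_
  exact (meas_pos (x := fun _ : MPath d => x) measurable_const measurable_id k)
    (Set.to_countable {z : Site d | lev u z < b}).measurableSet

lemma meas_tau_lt (i : ℕ) : MeasurableSet {M : MPath d | (i : ℕ∞) < tau u R κ Q s b T x M} :=
  Dc.meas (n := i) fun M M' e h => lt_tau_congr e h

/-- **(A)** -/
theorem mt_le [IsProbabilityMeasure Q] (hs : s ≠ 0) (hs' : s ≠ ⊤) :
    mt u R κ Q s b T T' x x' ≤ (s ^ 2)⁻¹ * CCn u R κ Q b T T' x x' := by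
  set Z1 : Set (PP d) := {p | ∃ i j : ℕ, (i : ℕ∞) < tau u R κ Q s b T x p.1 ∧
      (j : ℕ∞) < tau u R κ Q s b T' x' p.2 ∧ nr R x x' p i j} with hZ1
  set Z2 : Set (PP d) := {p | p.1 ∈ succ u R b T x ∧ ∃ i j : ℕ, bfx u b x p.1 i ∧
      (j : ℕ∞) < tau u R κ Q s b T' x' p.2 ∧ nr R x x' p i j} with hZ2
  set Z3 : Set (PP d) := {p | p.1 ∈ succ u R b T x ∧ p.2 ∈ succ u R b T' x' ∧
    ∃ i j : ℕ, bfx u b x p.1 i ∧ bfx u b x' p.2 j ∧ nr R x x' p i j} with hZ3
  have m1 : MeasurableSet Z1 := by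
    have : Z1 = ⋃ i : ℕ, ⋃ j : ℕ, (Prod.fst ⁻¹' {M | (i : ℕ∞) < tau u R κ Q s b T x M}) ∩
        ((Prod.snd ⁻¹' {M | (j : ℕ∞) < tau u R κ Q s b T' x' M}) ∩ {p | nr R x x' p i j}) := by
      ext p
      simp only [hZ1, mem_setOf_eq, mem_iUnion, mem_inter_iff, mem_preimage]
    rw [this]
    exact MeasurableSet.iUnion fun i => MeasurableSet.iUnion fun j =>
      (measurable_fst (meas_tau_lt i)).inter ((measurable_snd (meas_tau_lt j)).inter (meas_nr i j))
  have m2 : MeasurableSet Z2 := by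
    have : Z2 = (Prod.fst ⁻¹' succ u R b T x) ∩ ⋃ i : ℕ, ⋃ j : ℕ,
        (Prod.fst ⁻¹' {M | bfx u b x M i}) ∩
        ((Prod.snd ⁻¹' {M | (j : ℕ∞) < tau u R κ Q s b T' x' M}) ∩ {p | nr R x x' p i j}) := by
      ext p
      simp only [hZ2, mem_setOf_eq, mem_iUnion, mem_inter_iff, mem_preimage]
    rw [this]
    exact (measurable_fst meas_succ).inter (MeasurableSet.iUnion fun i =>
      MeasurableSet.iUnion fun j => (measurable_fst (meas_bfx i)).inter
        ((measurable_snd (meas_tau_lt j)).inter (meas_nr i j)))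
  have m3 : MeasurableSet Z3 := by
    have : Z3 = (Prod.fst ⁻¹' succ u R b T x) ∩ ((Prod.snd ⁻¹' succ u R b T' x') ∩
        ⋃ i : ℕ, ⋃ j : ℕ, (Prod.fst ⁻¹' {M | bfx u b x M i}) ∩
        ((Prod.snd ⁻¹' {M | bfx u b x' M j}) ∩ {p | nr R x x' p i j})) := by
      ext p
      simp only [hZ3, mem_setOf_eq, mem_iUnion, mem_inter_iff, mem_preimage]
    rw [this]
    exact (measurable_fst meas_succ).inter ((measurable_snd meas_succ).inter
      (MeasurableSet.iUnion fun i => MeasurableSet.iUnion fun j =>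
        (measurable_fst (meas_bfx i)).inter ((measurable_snd (meas_bfx j)).inter (meas_nr i j))))
  have h12 : s * ((mkAnn κ Q x).prod (mkAnn κ Q x')) Z1 ≤
      ((mkAnn κ Q x).prod (mkAnn κ Q x')) Z2 := by
    rw [Measure.prod_apply_symm m1, Measure.prod_apply_symm m2, ← lintegral_const_mul' _ _ hs']
    refine lintegral_mono fun M' => ?_
    set S : Set (Site d) := {z | ∃ j : ℕ, (j : ℕ∞) < tau u R κ Q s b T' x' M' ∧
      (M' j).2 = false ∧ ∀ c, |z c - pos x' M' j c| ≤ (R : ℤ)} with hS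
    refine le_trans (le_of_eq ?_) ((one (u := u) (R := R) (κ := κ) (Q := Q) (s := s) (b := b)
      (T := T) (x := x) S).trans (measure_mono ?_))
    · congr 2
      ext M
      simp only [hZ1, hS, nr, mem_preimage, mem_setOf_eq]
      constructor
      · rintro ⟨i, j, h1, h2, h3, h4, h5⟩
        exact ⟨i, h1, h3, j, h2, h4, h5⟩
      · rintro ⟨i, h1, h3, j, h2, h4, h5⟩
        exact ⟨i, j, h1, h2, h3, h4, h5⟩
    · rintro M ⟨h0, i, h1, h3, j, h2, h4, h5⟩
      exact ⟨h0, i, j, h1, h2, h3, h4, h5⟩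
  have h23 : s * ((mkAnn κ Q x).prod (mkAnn κ Q x')) Z2 ≤
      ((mkAnn κ Q x).prod (mkAnn κ Q x')) Z3 := by
    rw [Measure.prod_apply m2, Measure.prod_apply m3, ← lintegral_const_mul' _ _ hs']
    refine lintegral_mono fun M => ?_
    by_cases hM : M ∈ succ u R b T x
    swap
    · have : Prod.mk M ⁻¹' Z2 = ∅ := by
        ext M'
        simp only [hZ2, mem_preimage, mem_setOf_eq, mem_empty_iff_false, iff_false]
        exact fun h => hM h.1
      simp only [this, measure_empty, mul_zero, zero_le]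
    set S : Set (Site d) := {z | ∃ i : ℕ, bfx u b x M i ∧
      (M i).2 = false ∧ ∀ c, |pos x M i c - z c| ≤ (R : ℤ)} with hS
    refine le_trans (le_of_eq ?_) ((one (u := u) (R := R) (κ := κ) (Q := Q) (s := s) (b := b)
      (T := T') (x := x') S).trans (measure_mono ?_))
    · congr 2
      ext M'
      simp only [hZ2, hS, nr, mem_preimage, mem_setOf_eq]
      constructor
      · rintro ⟨-, i, j, h1, h2, h3, h4, h5⟩
        exact ⟨j, h2, h4, i, h1, h3, h5⟩
      · rintro ⟨j, h2, h4, i, h1, h3, h5⟩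
        exact ⟨hM, i, j, h1, h2, h3, h4, h5⟩
    · rintro M' ⟨h0, j, h2, h4, i, h1, h3, h5⟩
      exact ⟨hM, h0, i, j, h1, h2, h3, h4, h5⟩
  have h13 : s ^ 2 * mt u R κ Q s b T T' x x' ≤ CCn u R κ Q b T T' x x' := by
    have e : mt u R κ Q s b T T' x x' = ((mkAnn κ Q x).prod (mkAnn κ Q x')) Z1 := rfl
    rw [e, pow_two, mul_assoc]
    exact (mul_le_mul' le_rfl h12).trans h23
  have hs2 : s ^ 2 ≠ 0 := pow_ne_zero 2 hs
  have hs2' : s ^ 2 ≠ ⊤ := ENNReal.pow_ne_top hs'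
  calc mt u R κ Q s b T T' x x' = (s ^ 2)⁻¹ * (s ^ 2 * mt u R κ Q s b T T' x x') := by
        rw [← mul_assoc, ENNReal.inv_mul_cancel hs2 hs2', one_mul]
    _ ≤ _ := mul_le_mul' le_rfl h13

end two

/-! ### late contacts -/

section late

open Crest.Agent.R154.KB424

variable {u : Step d} {R : ℕ} {κ : ℝ} {Q : Measure (Environment d)} [IsProbabilityMeasure Q]

/-- both natural up to level `n` and contact -/
def CCs (u : Step d) (R n : ℕ) (s : SP u) : Set (PP d) :=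
  {p | (Nt u R 0 n p.1 ∧ Nt u R 0 n p.2) ∧ ¬ NoC R 0 n ((s, p) : Om u)}

lemma meas_SN (n : ℕ) (s : SP u) : MeasurableSet (SN u R n s) := by
  refine MeasurableSet.inter ((measurable_fst (meas_nt R 0 n)).inter
    (measurable_snd (meas_nt R 0 n))) ?_
  exact meas_mk s (set_of_mp (mp_noC R 0 n))


lemma SN_anti {n n' : ℕ} (h : n ≤ n') (s : SP u) : SN u R n' s ⊆ SN u R n s := by
  rintro p ⟨⟨h1, h2⟩, h3⟩
  refine ⟨⟨h1.left h, h2.left h⟩, fun i i' e1 e2 e3 => h3 i i' ?_ ?_ e3⟩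
  · exact fun k hk => lt_of_lt_of_le (e1 k hk) (by exact_mod_cast h)
  · exact fun k hk => lt_of_lt_of_le (e2 k hk) (by exact_mod_cast h)

lemma snI (hR : IsFiniteRangeDependent Q R) (m : ℕ) (s : SP u) :
    PSm κ Q s.1.1 s.1.2 (SN u R m s) = PIm κ Q s.1.1 s.1.2 (SN u R m s) := by
  have hdt : Dt u m (SN u R m s) := (dt_nt (Nat.zero_le m)).inter (dt_noC (Nat.zero_le m) s)
  exact PS_eq_PI_set hR s (j := m) (fun p hp => ⟨hp.1.1.alv, hp.1.2.alv⟩) hdt (fun p hp => hp.2)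

/-- both natural up to `n`: contact or no contact -/
lemma split_both (n : ℕ) (s : SP u) :
    PIm κ Q s.1.1 s.1.2 {p : PP d | Nt u R 0 n p.1 ∧ Nt u R 0 n p.2}
      = PIm κ Q s.1.1 s.1.2 (CCs u R n s) + PIm κ Q s.1.1 s.1.2 (SN u R n s) := by
  rw [← measure_union ?_ (meas_SN n s)]
  · congr 1
    ext p
    simp only [CCs, SN, mem_union, mem_setOf_eq]
    rcases Classical.em (NoC R 0 n ((s, p) : Om u)) with h | h
    · simp [h]
    · simp [h]
  · rw [Set.disjoint_left]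
    exact fun p h1 h2 => h1.2 h2.2

lemma late (hR : IsFiniteRangeDependent Q R) {ε : ℝ≥0∞} {m₀ : ℕ}
    (hKB : ∀ m ≥ m₀, ∀ s : SP u, PSm κ Q s.1.1 s.1.2 (SN u R m s) ≤
      PSm κ Q s.1.1 s.1.2 (SN u R (2 * m) s) + ε) (s : SP u) {l n : ℕ} (k : ℕ) (hl : m₀ ≤ l)
    (hln : l ≤ n) (hnl : n ≤ 2 ^ k * l) :
    PIm κ Q s.1.1 s.1.2 (CCs u R n s) ≤ PIm κ Q s.1.1 s.1.2 (CCs u R l s) + k * ε := by
  have hchain : ∀ k : ℕ, PIm κ Q s.1.1 s.1.2 (SN u R l s)
      ≤ PIm κ Q s.1.1 s.1.2 (SN u R (2 ^ k * l) s) + k * ε := by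
    intro k
    induction k with
    | zero => simp
    | succ k ih =>
      have h2 := hKB (2 ^ k * l) (hl.trans (Nat.le_mul_of_pos_left l (by positivity))) s
      rw [snI hR, snI hR] at h2
      refine ih.trans ?_
      have e : 2 * (2 ^ k * l) = 2 ^ (k + 1) * l := by ring
      rw [e] at h2
      push_cast
      calc PIm κ Q s.1.1 s.1.2 (SN u R (2 ^ k * l) s) + k * ε
          ≤ (PIm κ Q s.1.1 s.1.2 (SN u R (2 ^ (k + 1) * l) s) + ε) + k * ε := by gcongr
        _ = _ := by ring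
  have h1 := split_both (κ := κ) (Q := Q) (R := R) n s
  have h2 := split_both (κ := κ) (Q := Q) (R := R) l s
  have h3 : PIm κ Q s.1.1 s.1.2 {p : PP d | Nt u R 0 n p.1 ∧ Nt u R 0 n p.2}
      ≤ PIm κ Q s.1.1 s.1.2 {p : PP d | Nt u R 0 l p.1 ∧ Nt u R 0 l p.2} :=
    measure_mono fun p hp => ⟨hp.1.left hln, hp.2.left hln⟩
  have h4 : PIm κ Q s.1.1 s.1.2 (SN u R (2 ^ k * l) s) ≤ PIm κ Q s.1.1 s.1.2 (SN u R n s) :=
    measure_mono (SN_anti hnl s)
  have h5 : PIm κ Q s.1.1 s.1.2 (SN u R n s) ≠ ⊤ := measure_ne_top _ _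
  refine (ENNReal.add_le_add_iff_right h5).1 ?_
  rw [← h1]
  refine h3.trans ?_
  rw [h2]
  calc PIm κ Q s.1.1 s.1.2 (CCs u R l s) + PIm κ Q s.1.1 s.1.2 (SN u R l s)
      ≤ PIm κ Q s.1.1 s.1.2 (CCs u R l s) + (PIm κ Q s.1.1 s.1.2 (SN u R n s) + k * ε) := by
        gcongr
        exact (hchain k).trans (by gcongr)
    _ = _ := by ring

lemma bfx_iff {x : Site d} {M : MPath d} {n i : ℕ} :
    bfx u (lev u x + n) x M i ↔ bf u n M i := by
  have hl : ∀ k, lev u (pos x M k) = lev u x + zt u M k := B6I.lev_pos u x M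
  unfold bfx bf
  refine forall_congr' fun k => forall_congr' fun _ => ?_
  rw [hl]
  omega

lemma CCn_le {T T' : Set (Site d)} (s : SP u) (n : ℕ) :
    CCn u R κ Q (lev u s.1.1 + n) T T' s.1.1 s.1.2 ≤ PIm κ Q s.1.1 s.1.2 (CCs u R n s) := by
  unfold CCn PIm
  refine measure_mono ?_
  rintro p ⟨h1, h2, i, j, h3, h4, h5⟩
  have hs : lev u s.1.1 = lev u s.1.2 := s.2
  simp only [succ, succM, mem_iUnion, mem_setOf_eq] at h1 h2
  obtain ⟨m1, h1, -⟩ := h1
  obtain ⟨m2, h2, -⟩ := h2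
  rw [mem_ClM_iff] at h1
  rw [hs, mem_ClM_iff] at h2
  rw [bfx_iff] at h3
  rw [hs, bfx_iff] at h4
  refine ⟨⟨h1.2, h2.2⟩, fun hN => ?_⟩
  have := (hN i j h3 h4 h5).1 0 (Nat.zero_le _)
  simp at this

lemma early {H s' η : ℝ≥0∞} (s : SP u) (l : ℕ)
    (hCAP : CAP u R κ Q s' (lev u s.1.1 + l) H) (B : Set (Site d))
    (h1 : mkAnn κ Q s.1.1 (succ u R (lev u s.1.1 + l) Bᶜ s.1.1) ≤ η)
    (h2 : mkAnn κ Q s.1.2 (succ u R (lev u s.1.1 + l) B s.1.2) ≤ η) :
    PIm κ Q s.1.1 s.1.2 (CCs u R l s) ≤ η + s' + s' + H / s' ^ 2 * η := by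
  set x := s.1.1 with hx
  set x' := s.1.2 with hx'
  have hs : lev u x = lev u x' := s.2
  set b : ℤ := lev u x + l with hb
  have hb' : b = lev u x' + l := by rw [hb, hs]
  set A1 : Set (MPath d) := succ u R b Bᶜ x with hA1
  set A2 : Set (MPath d) := {M | M ∈ succ u R b B x ∧ ∃ i : ℕ, dp u R κ Q s' b B x M i} with hA2
  set A3 : Set (MPath d) :=
    {M | M ∈ succ u R b univ x' ∧ ∃ i : ℕ, dp u R κ Q s' b univ x' M i} with hA3
  set Z1 : Set (PP d) := {p | ∃ i j : ℕ, (i : ℕ∞) < tau u R κ Q s' b B x p.1 ∧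
      (j : ℕ∞) < tau u R κ Q s' b univ x' p.2 ∧
      (p.1 i).2 = false ∧ (p.2 j).2 = false ∧ ∀ c, |pos x p.1 i c - pos x' p.2 j c| ≤ (R : ℤ)}
    with hZ1
  have hsub : CCs u R l s ⊆ (Prod.fst ⁻¹' A1) ∪ ((Prod.fst ⁻¹' A2) ∪ ((Prod.snd ⁻¹' A3) ∪ Z1)) := by
    rintro p ⟨⟨g1, g2⟩, g3⟩
    obtain ⟨m1, e1⟩ := g1.alv
    obtain ⟨m2, e2⟩ := g2.alv
    have f1 : p.1 ∈ ClM u R x b m1 := by rw [hb, mem_ClM_iff]; exact ⟨e1, g1⟩
    have f2 : p.2 ∈ ClM u R x' b m2 := by rw [hb', mem_ClM_iff]; exact ⟨e2, g2⟩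
    by_cases hB : pos x p.1 m1 ∈ B
    swap
    · exact Or.inl (mem_iUnion.2 ⟨m1, f1, hB⟩)
    have k1 : p.1 ∈ succ u R b B x := mem_iUnion.2 ⟨m1, f1, hB⟩
    have k2 : p.2 ∈ succ u R b univ x' := mem_iUnion.2 ⟨m2, f2, mem_univ _⟩
    by_cases hd1 : ∃ i : ℕ, dp u R κ Q s' b B x p.1 i
    · exact Or.inr (Or.inl ⟨k1, hd1⟩)
    by_cases hd2 : ∃ i : ℕ, dp u R κ Q s' b univ x' p.2 i
    · exact Or.inr (Or.inr (Or.inl ⟨k2, hd2⟩))
    push Not at hd1 hd2
    refine Or.inr (Or.inr (Or.inr ?_))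
    unfold NoC at g3
    push Not at g3
    obtain ⟨i, j, c1, c2, c3, -⟩ := g3
    have c1' : bfx u b x p.1 i := by rw [hb, bfx_iff]; exact c1
    have c2' : bfx u b x' p.2 j := by rw [hb', bfx_iff]; exact c2
    exact ⟨i, j, lt_tau.2 fun k hk => ⟨c1' k hk, hd1 k⟩, lt_tau.2 fun k hk => ⟨c2' k hk, hd2 k⟩, c3⟩
  have hfst : ∀ A : Set (MPath d), ((mkAnn κ Q x).prod (mkAnn κ Q x')) (Prod.fst ⁻¹' A)
      = mkAnn κ Q x A := by
    intro A
    have : (Prod.fst ⁻¹' A : Set (PP d)) = A ×ˢ (univ : Set (MPath d)) := by ext p; simp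
    rw [this, Measure.prod_prod, measure_univ, mul_one]
  have hsnd : ∀ A : Set (MPath d), ((mkAnn κ Q x).prod (mkAnn κ Q x')) (Prod.snd ⁻¹' A)
      = mkAnn κ Q x' A := by
    intro A
    have : (Prod.snd ⁻¹' A : Set (PP d)) = (univ : Set (MPath d)) ×ˢ A := by ext p; simp
    rw [this, Measure.prod_prod, measure_univ, one_mul]
  have hmt : ((mkAnn κ Q x).prod (mkAnn κ Q x')) Z1 ≤ H / s' ^ 2 * η :=
    (hCAP B univ x x' hs).trans (mul_le_mul' le_rfl h2)
  unfold PIm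
  refine (measure_mono hsub).trans ((measure_union_le _ _).trans ?_)
  rw [add_assoc, add_assoc]
  refine add_le_add (by rw [hfst]; exact h1) ((measure_union_le _ _).trans ?_)
  refine add_le_add (by rw [hfst]; exact dip_loss) ((measure_union_le _ _).trans ?_)
  exact add_le_add (by rw [hsnd]; exact dip_loss) hmt

/-- KB in the frame, all pairs of sites -/
lemma kb_enn (F : Bind263.Frame Q κ R) (hd : 3 ≤ d)
    (hA : annealedProb Q 0 (escapeEvent (B2d.dirVec u)) ≠ 0) (hc : Half κ Q) {ε : ℝ≥0∞}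
    (hε : ε ≠ 0) :
    ∃ m₀ : ℕ, ∀ m ≥ m₀, ∀ s : SP u, PSm κ Q s.1.1 s.1.2 (SN u R m s) ≤
      PSm κ Q s.1.1 s.1.2 (SN u R (2 * m) s) + ε := by
  obtain ⟨i1, i2, h1, h2, h12⟩ := lateral hd u.1
  obtain ⟨c, hc0, hc⟩ := hc
  have hp : mkAnn κ Q 0 (NS u) ≠ 0 := by
    rw [NS_eq_stay]
    exact F.hp (B2d.dirVec u) hA
  refine KB_enn (u := u) F.stat F.fin F.frc (c₀ := ENNReal.ofReal c)
    (by simpa using hc0) ENNReal.ofReal_ne_top ?_ hp (J132.trunk F hA h1 h2 h12) ε hε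
  filter_upwards [F.ell, hc] with ω h1 h2 z e
  rw [reg_eq (h1 z), ← ENNReal.ofReal_mul hc0.le]
  unfold mw
  refine ENNReal.ofReal_le_ofReal ?_
  simp only [Bool.false_eq_true, if_false]
  rw [reg_eq (h1 z)]
  exact h2 z e

/-- **(B), near part of (ROW).** -/
theorem near (F : Bind263.Frame Q κ R) (hd : 3 ≤ d)
    (hA : annealedProb Q 0 (escapeEvent (B2d.dirVec u)) ≠ 0) (hc : Half κ Q) {H : ℝ≥0∞}
    (hH : H ≠ ⊤) (hCAP : ∀ (s : ℝ≥0∞) (b : ℤ), s ≠ 0 → s ≤ 1 → CAP u R κ Q s b H)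
    {s δ : ℝ≥0∞} (hs : s ≠ 0) (hs1 : s ≤ 1) (hδ : δ ≠ 0) :
    ∃ η : ℝ≥0∞, η ≠ 0 ∧ ∀ k : ℕ, ∃ n0 : ℕ, ∀ n ≥ n0, ∀ l ≤ n, n ≤ 2 ^ k * l → ∀ a : ℤ,
      ∀ x x' : Site d, lev u x = a → lev u x' = a → ∀ B : Set (Site d),
        mkAnn κ Q x (succ u R (a + l) Bᶜ x) ≤ η → mkAnn κ Q x' (succ u R (a + l) B x') ≤ η →
        ∀ T T' : Set (Site d), mt u R κ Q s (a + n) T T' x x' ≤ δ := by
  have hst : s ≠ ⊤ := ne_top_of_le_ne_top ENNReal.one_ne_top hs1
  have hs2 : s ^ 2 ≠ 0 := pow_ne_zero 2 hs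
  have hs2t : s ^ 2 ≠ ⊤ := ENNReal.pow_ne_top hst
  set δ' : ℝ≥0∞ := min δ 1 with hδ'
  have hδ'0 : δ' ≠ 0 := (lt_min (pos_iff_ne_zero.2 hδ) one_pos).ne'
  have hδ't : δ' ≠ ⊤ := ne_top_of_le_ne_top ENNReal.one_ne_top (min_le_right _ _)
  set D : ℝ≥0∞ := s ^ 2 * δ' / 4 with hD
  have hD0 : D ≠ 0 := (ENNReal.div_pos (mul_ne_zero hs2 hδ'0) (by norm_num)).ne'
  have hDt : D ≠ ⊤ := ENNReal.div_ne_top (ENNReal.mul_ne_top hs2t hδ't) (by norm_num)
  set s' : ℝ≥0∞ := min (D / 2) 1 with hs'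
  have hD2 : D / 2 ≠ 0 := (ENNReal.div_pos hD0 (by norm_num)).ne'
  have hs'0 : s' ≠ 0 := (lt_min (pos_iff_ne_zero.2 hD2) one_pos).ne'
  have hs'1 : s' ≤ 1 := min_le_right _ _
  have hs't : s' ≠ ⊤ := ne_top_of_le_ne_top ENNReal.one_ne_top hs'1
  have hs'2 : s' ^ 2 ≠ 0 := pow_ne_zero 2 hs'0
  have hs'2t : s' ^ 2 ≠ ⊤ := ENNReal.pow_ne_top hs't
  have hs's' : s' + s' ≤ D := by
    calc s' + s' ≤ D / 2 + D / 2 := add_le_add (min_le_left _ _) (min_le_left _ _)
      _ = D := ENNReal.add_halves D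
  have hH1 : H + 1 ≠ 0 := by simp
  have hH1t : H + 1 ≠ ⊤ := ENNReal.add_ne_top.2 ⟨hH, ENNReal.one_ne_top⟩
  set A : ℝ≥0∞ := (H + 1) / s' ^ 2 with hA'
  have hA0 : A ≠ 0 := (ENNReal.div_pos hH1 hs'2t).ne'
  have hAt : A ≠ ⊤ := ENNReal.div_ne_top hH1t hs'2
  set η : ℝ≥0∞ := min D (D / A) with hη
  have hη0 : η ≠ 0 := (lt_min (pos_iff_ne_zero.2 hD0) (ENNReal.div_pos hD0 hAt)).ne'
  refine ⟨η, hη0, fun k => ?_⟩
  have hk0 : ((k : ℝ≥0∞) + 1) ≠ 0 := by simp
  have hkt : ((k : ℝ≥0∞) + 1) ≠ ⊤ :=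
    ENNReal.add_ne_top.2 ⟨ENNReal.natCast_ne_top k, ENNReal.one_ne_top⟩
  obtain ⟨m₀, hm₀⟩ := kb_enn F hd hA hc (ε := D / (k + 1)) (ENNReal.div_pos hD0 hkt).ne'
  refine ⟨2 ^ k * m₀, fun n hn l hl hnl a x x' hx hx' B h1 h2 T T' => ?_⟩
  have hml : m₀ ≤ l := by
    have : 2 ^ k * m₀ ≤ 2 ^ k * l := hn.trans hnl
    exact Nat.le_of_mul_le_mul_left this (by positivity)
  subst hx
  set σ : SP u := ⟨(x, x'), hx'.symm⟩ with hσ
  have e1 := late F.fin hm₀ σ k hml hl hnl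
  have e2 := early (κ := κ) (Q := Q) (H := H) (s' := s') (η := η) σ l (hCAP s' _ hs'0 hs'1) B h1 h2
  have e3 := CCn_le (κ := κ) (Q := Q) (R := R) (T := T) (T' := T') σ n
  have e4 := mt_le (u := u) (R := R) (κ := κ) (Q := Q) (b := lev u x + n) (T := T) (T' := T')
    (x := x) (x' := x') hs hst
  have f1 : H / s' ^ 2 * η ≤ D := by
    calc H / s' ^ 2 * η ≤ A * (D / A) :=
          mul_le_mul' (ENNReal.div_le_div_right le_self_add _) (min_le_right _ _)
      _ = D := ENNReal.mul_div_cancel hA0 hAt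
  have f2 : (k : ℝ≥0∞) * (D / (k + 1)) ≤ D := by
    calc (k : ℝ≥0∞) * (D / (k + 1)) ≤ (k + 1) * (D / (k + 1)) := by
          gcongr; exact le_self_add
      _ = D := ENNReal.mul_div_cancel hk0 hkt
  have f3 : PIm κ Q σ.1.1 σ.1.2 (CCs u R n σ) ≤ 4 * D := by
    calc PIm κ Q σ.1.1 σ.1.2 (CCs u R n σ)
        ≤ (η + s' + s' + H / s' ^ 2 * η) + k * (D / (k + 1)) := e1.trans (by gcongr)
      _ = η + (s' + s') + H / s' ^ 2 * η + k * (D / (k + 1)) := by ring
      _ ≤ D + D + D + D := by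
          gcongr
          exact min_le_left _ _
      _ = 4 * D := by ring
  have f4 : (4 : ℝ≥0∞) * D = s ^ 2 * δ' := ENNReal.mul_div_cancel (by norm_num) (by norm_num)
  calc mt u R κ Q s (lev u x + n) T T' x x'
      ≤ (s ^ 2)⁻¹ * CCn u R κ Q (lev u x + n) T T' x x' := e4
    _ ≤ (s ^ 2)⁻¹ * (s ^ 2 * δ') := by
        gcongr
        exact (e3.trans f3).trans f4.le
    _ = δ' := by rw [← mul_assoc, ENNReal.inv_mul_cancel hs2 hs2t, one_mul]
    _ ≤ δ := min_le_left _ _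

end late

end Crest.Agent.R154.Near424
end

-- ▼ part R154/CapR_923
section

/-! Row 154, (KS) / (ROW) (helper923): **the capacity bound** for two walkers stopped at their
dips, in a walk space (same environment = independent environments before read contact). -/

set_option autoImplicit false
set_option linter.unusedVariables false
set_option linter.unusedSectionVars false

namespace Crest.Agent.R154.Cap923

open MeasureTheory ProbabilityTheory Crest.ProbabilityR.RandomEnvironment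
open Crest.Agent.R154.Cont Crest.Agent.R154.Dip
open scoped ENNReal

variable {d : ℕ} {Ω : Type} [MeasurableSpace Ω] {W : WalkSpace d Ω} {rd : Ω → ℕ → Prop} {R : ℕ}

/-! ### the contact set -/

/-- the walker `p.1`, seen up to `σ`, and the walker `p.2`, seen up to `S'`, read within `R` of each
other -/
def CT (W : WalkSpace d Ω) (rd : Ω → ℕ → Prop) (R : ℕ) (σ S' : Ω → ℕ∞) : Set (Ω × Ω) :=
  {p | kap W rd R (rows W rd p.1 (σ p.1)) p.2 < S' p.2}

lemma mem_CT {σ S' : Ω → ℕ∞} {p : Ω × Ω} : p ∈ CT W rd R σ S' ↔ ∃ i j : ℕ,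
    (i : ℕ∞) < σ p.1 ∧ (j : ℕ∞) < S' p.2 ∧ rd p.1 i ∧ rd p.2 j ∧
      ∀ l, |W.pos p.1 i l - W.pos p.2 j l| ≤ (R : ℤ) := by
  unfold CT
  simp only [Set.mem_ofPred_eq, kap_lt_iff]
  constructor
  · rintro ⟨n, hn, hr, a, ⟨i, hi, hX, rfl⟩, h⟩
    exact ⟨i, n, hi, hn, hX, hr, h⟩
  · rintro ⟨i, n, hi, hn, hX, hr, h⟩
    exact ⟨n, hn, hr, _, ⟨i, hi, hX, rfl⟩, h⟩

lemma mem_CT' {σ S' : Ω → ℕ∞} {p : Ω × Ω} : p ∈ CT W rd R σ S' ↔
    kap W rd R (rows W rd p.2 (S' p.2)) p.1 < σ p.1 := by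
  rw [mem_CT, kap_lt_iff]
  constructor
  · rintro ⟨i, n, hi, hn, hX, hr, h⟩
    exact ⟨i, hi, hX, _, ⟨n, hn, hr, rfl⟩, fun l => by rw [abs_sub_comm]; exact h l⟩
  · rintro ⟨i, hi, hX, a, ⟨n, hn, hr, rfl⟩, h⟩
    exact ⟨i, n, hi, hn, hX, hr, fun l => by rw [abs_sub_comm]; exact h l⟩

lemma CT_congr (hW : RdSpace W rd) {σ S' : Ω → ℕ∞} (hσ : W.IsStop σ) (hS : W.IsStop S')
    {X X' T T' : Ω} (h : Ag W (σ X) X X') (h' : Ag W (S' T) T T') (hp : (X, T) ∈ CT W rd R σ S') :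
    (X', T') ∈ CT W rd R σ S' := by
  rw [mem_CT] at hp ⊢
  obtain ⟨i, j, hi, hj, h1, h2, h3⟩ := hp
  simp only at hi hj h1 h2 h3 ⊢
  refine ⟨i, j, ?_, ?_, (h.pdet hW.det hi.le).1 h1, (h'.pdet hW.det hj.le).1 h2, ?_⟩
  · rw [h.stop_eq hσ le_rfl]; exact hi
  · rw [h'.stop_eq hS le_rfl]; exact hj
  · rw [← h.pos hi.le, ← h'.pos hj.le]; exact h3

lemma measurableSet_CT (hW : RdSpace W rd) {σ S' : Ω → ℕ∞} (hσ : W.IsStop σ) (hS : W.IsStop S') :
    MeasurableSet (CT W rd R σ S') := by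
  refine measurableSet_of_open_pair W _ ?_
  rintro ⟨X, T⟩ hp
  rw [mem_CT] at hp
  obtain ⟨i, j, hi, hj, h1, h2, h3⟩ := hp
  simp only at hi hj h1 h2 h3
  refine ⟨max i j, ?_⟩
  rintro ⟨X', T'⟩ hX hT
  simp only at hX hT
  have g1 := ag_of_hist (W.mono _ _ (le_max_left i j) hX)
  have g2 := ag_of_hist (W.mono _ _ (le_max_right i j) hT)
  rw [mem_CT]
  refine ⟨i, j, g1.lt_stop hσ hi, g2.lt_stop hS hj, (g1.pdet hW.det le_rfl).1 h1,
    (g2.pdet hW.det le_rfl).1 h2, ?_⟩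
  simp only
  rw [← g1.pos le_rfl, ← g2.pos le_rfl]
  exact h3

/-! ### same environment = independent environments -/

section laws

variable {Q : Measure (Environment d)} [IsProbabilityMeasure Q]
  {P₁ P₂ : Kernel (Environment d) Ω} [IsMarkovKernel P₁] [IsMarkovKernel P₂]

/-- contact, first walker in an event decided at `σ` -/
lemma same_CT (hW : RdSpace W rd) (hK : K1P W rd R Q P₁ P₂) {σ S' : Ω → ℕ∞} (hσ : W.IsStop σ)
    (hS : W.IsStop S') {B : Set Ω} (hB : MeasurableSet B)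
    (hBd : ∀ X X', Ag W (σ X) X X' → X ∈ B → X' ∈ B) :
    WalkSpace.same Q P₁ P₂ ({p | p.1 ∈ B} ∩ CT W rd R σ S')
      = WalkSpace.ind Q P₁ P₂ ({p | p.1 ∈ B} ∩ CT W rd R σ S') := by
  have mC : MeasurableSet {p : Ω × Ω | p.1 ∈ B} := measurable_fst hB
  have mJ := measurableSet_CT (R := R) hW hσ hS
  have h1 : WalkSpace.same Q P₁ P₂ ({p | p.1 ∈ B} \ CT W rd R σ S')
      = WalkSpace.ind Q P₁ P₂ ({p | p.1 ∈ B} \ CT W rd R σ S') := by
    refine hK σ S' hσ hS _ (mC.diff mJ) ?_ ?_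
    · rintro X X' T T' hX hT ⟨g1, g2⟩
      refine ⟨hBd X X' hX g1, fun h => g2 (CT_congr hW hσ hS ?_ ?_ h)⟩
      · rw [hX.stop_eq hσ le_rfl]; exact hX.symm
      · rw [hT.stop_eq hS le_rfl]; exact hT.symm
    · rintro X T ⟨-, g2⟩
      exact not_lt.1 g2
  have e1 := measure_inter_add_sdiff (μ := WalkSpace.same Q P₁ P₂) {p : Ω × Ω | p.1 ∈ B} mJ
  have e2 := measure_inter_add_sdiff (μ := WalkSpace.ind Q P₁ P₂) {p : Ω × Ω | p.1 ∈ B} mJ
  have e3 : WalkSpace.same Q P₁ P₂ {p : Ω × Ω | p.1 ∈ B} = (Q.bind P₁) B :=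
    WalkSpace.same_fst Q hB
  have e4 : WalkSpace.ind Q P₁ P₂ {p : Ω × Ω | p.1 ∈ B} = (Q.bind P₁) B :=
    WalkSpace.ind_fst Q
  rw [e3] at e1
  rw [e4, ← h1, ← e1] at e2
  exact ((ENNReal.add_left_inj (measure_ne_top _ _)).1 e2).symm

end laws

/-! ### the estimate in a fixed environment -/

lemma isStop_const (W : WalkSpace d Ω) (n : ℕ∞) : W.IsStop (fun _ : Ω => n) :=
  fun _ _ _ _ h => h

section fixed

variable {P₁ P₂ : Measure Ω} [IsProbabilityMeasure P₁] [IsProbabilityMeasure P₂]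
  {G : Site d → Measure (Path d)} {F : Set (Path d)} {Z : Set (Site d)} {B G₂ N : Set Ω}
  {σ S' : Ω → ℕ∞} {C₀ c₀ h₀ b : ℝ≥0∞}

/-- contact of the second walker at a site with chance at least `b` -/
def B1 (W : WalkSpace d Ω) (rd : Ω → ℕ → Prop) (R : ℕ) (S' : Ω → ℕ∞) (G : Site d → Measure (Path d))
    (F : Set (Path d)) (b : ℝ≥0∞) (V : Set (Site d)) : Set Ω :=
  {T | ∃ n : ℕ, kap W rd R V T = n ∧ (n : ℕ∞) < S' T ∧ b ≤ G (W.pos T n) F}

/-- contact of the first walker with a site of chance below `b` -/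
def B2 (W : WalkSpace d Ω) (rd : Ω → ℕ → Prop) (R : ℕ) (σ : Ω → ℕ∞) (Z : Set (Site d))
    (V : Set (Site d)) : Set Ω :=
  {X | ∃ n : ℕ, kap W rd R V X = n ∧ (n : ℕ∞) < σ X ∧ W.pos X n ∈ Z}

lemma B1_congr (hW : RdSpace W rd) (hS : W.IsStop S') {V : Set (Site d)} {X Y : Ω} {n : ℕ}
    (h : W.hist n X = W.hist n Y) (hn : kap W rd R V X = n) (hX : X ∈ B1 W rd R S' G F b V) :
    Y ∈ B1 W rd R S' G F b V := by
  obtain ⟨m, hm, h1, h2⟩ := hX
  obtain rfl : m = n := by rw [hn] at hm; exact_mod_cast hm.symm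
  exact ⟨m, isStop_kap hW.det _ X Y m h hm, (pdet_lt_stop hS m X Y h).1 h1, by
    rw [← W.pos_det m X Y h]; exact h2⟩

lemma B2_congr (hW : RdSpace W rd) (hσ : W.IsStop σ) {V : Set (Site d)} {X Y : Ω} {n : ℕ}
    (h : W.hist n X = W.hist n Y) (hn : kap W rd R V X = n) (hX : X ∈ B2 W rd R σ Z V) :
    Y ∈ B2 W rd R σ Z V := by
  obtain ⟨m, hm, h1, h2⟩ := hX
  obtain rfl : m = n := by rw [hn] at hm; exact_mod_cast hm.symm
  exact ⟨m, isStop_kap hW.det _ X Y m h hm, (pdet_lt_stop hσ m X Y h).1 h1, by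
    rw [← W.pos_det m X Y h]; exact h2⟩

lemma measurableSet_A1 (hW : RdSpace W rd) (hσ : W.IsStop σ) (hS : W.IsStop S') :
    MeasurableSet {p : Ω × Ω | p.2 ∈ B1 W rd R S' G F b (rows W rd p.1 (σ p.1))} := by
  have : {p : Ω × Ω | p.2 ∈ B1 W rd R S' G F b (rows W rd p.1 (σ p.1))}
      = ⋃ n : ℕ, ((CT W rd R σ (fun _ => ((n + 1 : ℕ) : ℕ∞)) \ CT W rd R σ (fun _ => (n : ℕ∞)))
          ∩ {p | p.2 ∈ {T | (n : ℕ∞) < S' T ∧ b ≤ G (W.pos T n) F}}) := by
    ext p
    simp only [B1, CT, Set.mem_ofPred_eq, Set.mem_iUnion, Set.mem_inter_iff, Set.mem_sdiff, not_lt]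
    refine exists_congr fun n => ?_
    constructor
    · rintro ⟨h1, h2, h3⟩
      refine ⟨⟨?_, h1.ge⟩, h2, h3⟩
      rw [h1]; exact_mod_cast Nat.lt_succ_self n
    · rintro ⟨⟨h1, h1'⟩, h2, h3⟩
      refine ⟨le_antisymm ?_ h1', h2, h3⟩
      have := ENat.lt_add_one_iff (ENat.natCast_ne_top n) (m := kap W rd R (rows W rd p.1 (σ p.1)) p.2)
      push_cast at h1
      exact this.1 h1
  rw [this]
  refine MeasurableSet.iUnion fun n => MeasurableSet.inter
    ((measurableSet_CT hW hσ (isStop_const W _)).diff (measurableSet_CT hW hσ (isStop_const W _)))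
    (measurable_snd (W.measurableSet_of_hist n _ fun X Y h hX => ?_))
  exact ⟨(pdet_lt_stop hS n X Y h).1 hX.1, by rw [← W.pos_det n X Y h]; exact hX.2⟩

/-- **fixed environment**: contact with a successful first walker costs success of the second one,
or the first one has taken a small chance. -/
theorem fixed_env (hW : RdSpace W rd) (hσ : W.IsStop σ) (hS : W.IsStop S')
    (hMU : MU W P₁ G C₀) (hML : ML W rd P₂ G c₀) (hFm : MeasurableSet F)
    (hB : MeasurableSet B) (hN : MeasurableSet N) (hN0 : P₂ N = 0)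
    (hF1 : ∀ X ∈ B, ∀ n : ℕ, (n : ℕ∞) < σ X → rd X n → shp W n X ∈ F ∧ W.pos X n ∈ Z)
    (hF2 : ∀ (T : Ω) (n : ℕ), (n : ℕ∞) < S' T → rd T n → shp W n T ∈ F → T ∈ G₂)
    (hZ : ∀ (T : Ω) (n : ℕ), T ∉ N → (n : ℕ∞) < S' T → rd T n → W.pos T n ∈ Z)
    (hc : c₀ ≠ 0) (hc' : c₀ ≠ ⊤) (h0 : h₀ ≠ 0) (h0' : h₀ ≠ ⊤) (hb : b ≠ 0) (hb' : b ≠ ⊤)
    (hH : ∀ y z : Site d, y ∈ Z → z ∈ Z → (∀ l, |y l - z l| ≤ (R : ℤ)) → h₀ * G y F ≤ G z F) :
    (P₁.prod P₂) ({p | p.1 ∈ B} ∩ CT W rd R σ S') ≤ (c₀ * b)⁻¹ * P₂ G₂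
      + C₀ * (h₀⁻¹ * b) * (P₁.prod P₂) (CT W rd R σ S') := by
  classical
  set A : Set (Ω × Ω) := {p | p.1 ∈ B} ∩ CT W rd R σ S' with hA
  set A1 : Set (Ω × Ω) := {p | p.2 ∈ B1 W rd R S' G F b (rows W rd p.1 (σ p.1))} with hA1
  have mCT := measurableSet_CT (R := R) hW hσ hS
  have mA : MeasurableSet A := (measurable_fst hB).inter mCT
  have mA1 : MeasurableSet A1 := measurableSet_A1 hW hσ hS
  have mN : MeasurableSet {p : Ω × Ω | p.2 ∈ N} := measurable_snd hN
  have hN1 : (P₁.prod P₂) {p : Ω × Ω | p.2 ∈ N} = 0 := by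
    have : {p : Ω × Ω | p.2 ∈ N} = Set.univ ×ˢ N := by ext p; simp
    rw [this, Measure.prod_prod, hN0, mul_zero]
  set A3 : Set (Ω × Ω) := (A \ A1) \ {p | p.2 ∈ N} with hA3
  have mA3 : MeasurableSet A3 := (mA.diff mA1).diff mN
  have hsub : A ⊆ (A1 ∪ {p | p.2 ∈ N}) ∪ A3 := by
    intro p hp
    by_cases h1 : p ∈ A1
    · exact Or.inl (Or.inl h1)
    by_cases h2 : p ∈ {p : Ω × Ω | p.2 ∈ N}
    · exact Or.inl (Or.inr h2)
    exact Or.inr ⟨⟨hp, h1⟩, h2⟩
  -- first part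
  have p1 : (P₁.prod P₂) A1 ≤ (c₀ * b)⁻¹ * P₂ G₂ := by
    rw [Measure.prod_apply mA1]
    calc ∫⁻ X, P₂ (Prod.mk X ⁻¹' A1) ∂P₁ ≤ ∫⁻ _, (c₀ * b)⁻¹ * P₂ G₂ ∂P₁ := by
          refine lintegral_mono fun X => ?_
          have hsec : Prod.mk X ⁻¹' A1 = B1 W rd R S' G F b (rows W rd X (σ X)) := rfl
          rw [hsec]
          have key := sml (W := W) (isStop_kap (R := R) hW.det (rows W rd X (σ X)))
            (B := B1 W rd R S' G F b (rows W rd X (σ X)))
            (fun T T' n h hn hT => B1_congr hW hS h hn hT)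
            (by rintro T ⟨n, hn, -⟩; rw [hn]; exact ENat.natCast_ne_top n)
            (F := fun _ => F) (fun _ _ _ _ _ _ => rfl) (fun _ => hFm) (rd := rd)
            (by
              rintro T ⟨n, hn, -⟩
              rw [hn, ENat.toNat_natCast]
              exact (kap_spec hn).1) hML (a := b)
            (by
              rintro T ⟨n, hn, -, h3⟩
              rw [hn, ENat.toNat_natCast]
              exact h3)
          have key2 : P₂ {T | T ∈ B1 W rd R S' G F b (rows W rd X (σ X)) ∧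
              shp W (kap W rd R (rows W rd X (σ X)) T).toNat T ∈ F} ≤ P₂ G₂ := by
            refine measure_mono ?_
            rintro T ⟨⟨n, hn, h2, h3⟩, h4⟩
            rw [hn, ENat.toNat_natCast] at h4
            exact hF2 T n h2 (kap_spec hn).1 h4
          have hcb : c₀ * b ≠ 0 := mul_ne_zero hc hb
          have hcb' : c₀ * b ≠ ⊤ := ENNReal.mul_ne_top hc' hb'
          calc P₂ (B1 W rd R S' G F b (rows W rd X (σ X)))
              = (c₀ * b)⁻¹ * (c₀ * b * P₂ (B1 W rd R S' G F b (rows W rd X (σ X)))) := by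
                rw [← mul_assoc, ENNReal.inv_mul_cancel hcb hcb', one_mul]
            _ ≤ _ := by
                gcongr
                exact key.trans key2
      _ = (c₀ * b)⁻¹ * P₂ G₂ := by rw [lintegral_const, measure_univ, mul_one]
  -- third part
  have p3 : (P₁.prod P₂) A3 ≤ C₀ * (h₀⁻¹ * b) * (P₁.prod P₂) (CT W rd R σ S') := by
    rw [Measure.prod_apply_symm mA3, Measure.prod_apply_symm mCT]
    rw [← lintegral_const_mul _ (measurable_measure_prodMk_right mCT)]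
    refine lintegral_mono fun T => ?_
    simp only
    set V : Set (Site d) := {z | z ∈ rows W rd T (S' T) ∧ z ∈ Z ∧ G z F < b} with hV
    have key := smu (W := W) (isStop_kap (R := R) hW.det V) (B := B2 W rd R σ Z V)
      (fun X X' n h hn hX => B2_congr hW hσ h hn hX)
      (by rintro X ⟨n, hn, -⟩; rw [hn]; exact ENat.natCast_ne_top n)
      (F := fun _ => F) (fun _ _ _ _ _ _ => rfl) (fun _ => hFm) hMU (a := h₀⁻¹ * b)
      (by
        rintro X ⟨n, hn, h2, h3⟩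
        rw [hn, ENat.toNat_natCast]
        obtain ⟨hr, z, ⟨hz1, hz2, hz3⟩, hz4⟩ := kap_spec hn
        have h5 := hH (W.pos X n) z h3 hz2 (fun l => by rw [abs_sub_comm]; exact hz4 l)
        calc G (W.pos X n) F = h₀⁻¹ * (h₀ * G (W.pos X n) F) := by
              rw [← mul_assoc, ENNReal.inv_mul_cancel h0 h0', one_mul]
          _ ≤ h₀⁻¹ * b := by
              gcongr
              exact h5.trans hz3.le)
    refine le_trans (measure_mono ?_) (key.trans ?_)
    · intro X hX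
      obtain ⟨⟨⟨hXB, hXC⟩, hX1⟩, hXN⟩ := hX
      simp only [Set.mem_ofPred_eq] at hXB hXN
      have hXC' : kap W rd R (rows W rd X (σ X)) T < S' T := hXC
      obtain ⟨n, hn⟩ := exists_nat_of_lt hXC'
      have hnS : (n : ℕ∞) < S' T := hn ▸ hXC'
      obtain ⟨hr, a, ⟨i, hi, hri, rfl⟩, hnear⟩ := kap_spec hn
      have hlt : G (W.pos T n) F < b := by
        by_contra hcon
        exact hX1 ⟨n, hn, hnS, not_lt.1 hcon⟩
      have hzV : W.pos T n ∈ V := ⟨⟨n, hnS, hr, rfl⟩, hZ T n hXN hnS hr, hlt⟩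
      have hkl : kap W rd R V X < σ X := by
        rw [kap_lt_iff]
        exact ⟨i, hi, hri, _, hzV, fun l => by rw [abs_sub_comm]; exact hnear l⟩
      obtain ⟨j, hj⟩ := exists_nat_of_lt hkl
      have hjσ : (j : ℕ∞) < σ X := hj ▸ hkl
      obtain ⟨g1, g2⟩ := hF1 X hXB j hjσ (kap_spec hj).1
      refine ⟨⟨j, hj, hjσ, g2⟩, ?_⟩
      rw [hj, ENat.toNat_natCast]
      exact g1
    · gcongr
      rintro X ⟨n, hn, h2, h3⟩
      obtain ⟨hr, z, ⟨hz1, hz2, hz3⟩, hz4⟩ := kap_spec hn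
      obtain ⟨j, hj, hrj, rfl⟩ := hz1
      show (X, T) ∈ CT W rd R σ S'
      rw [mem_CT]
      exact ⟨n, j, h2, hj, hr, hrj, fun l => by rw [abs_sub_comm]; exact hz4 l⟩
  calc (P₁.prod P₂) A ≤ ((P₁.prod P₂) A1 + (P₁.prod P₂) {p | p.2 ∈ N}) + (P₁.prod P₂) A3 :=
        (measure_mono hsub).trans ((measure_union_le _ _).trans
          (add_le_add (measure_union_le _ _) le_rfl))
    _ ≤ _ := by
        rw [hN1, add_zero]
        exact add_le_add p1 p3

end fixed

/-! ### annealed: contact before the dip at level `2 s` costs success without dip at level `s` -/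

section anneal

variable {μ : Measure Ω} [IsProbabilityMeasure μ] {G : Set Ω} {s : ℝ≥0∞} {τ ζ : Ω → ℕ∞}

lemma dip_anti (W : WalkSpace d Ω) (μ : Measure Ω) (G : Set Ω) {s t : ℝ≥0∞} (h : s ≤ t) (X : Ω) :
    dip W μ G t X ≤ dip W μ G s X := by
  unfold dip
  by_contra hcon
  rw [not_le] at hcon
  obtain ⟨m, hm, hp⟩ := KExp.fst_exists hcon
  have h1 : low W μ G t m X := by
    unfold low at hp ⊢
    exact hp.trans_le (by gcongr)
  have h2 := KExp.fst_le (p := fun n => low W μ G t n X) h1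
  exact absurd hm (not_lt.2 h2)

lemma sτ_anti (W : WalkSpace d Ω) (μ : Measure Ω) (G : Set Ω) {s t : ℝ≥0∞} (h : s ≤ t)
    (τ : Ω → ℕ∞) (X : Ω) : sτ W μ G t τ X ≤ sτ W μ G s τ X :=
  min_le_min le_rfl (dip_anti W μ G h X)

/-- conditional form of `dip_loss` -/
lemma dip_loss_on (W : WalkSpace d Ω) (μ : Measure Ω) [IsProbabilityMeasure μ] (G : Set Ω)
    (s : ℝ≥0∞) {B : Set Ω} (hBm : MeasurableSet B)
    (hBd : ∀ X Y (n : ℕ), W.hist n X = W.hist n Y → dip W μ G s X = n → X ∈ B → Y ∈ B)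
    (hBt : ∀ X ∈ B, dip W μ G s X < ⊤) :
    μ (G ∩ B) ≤ s * μ B := by
  classical
  have hS : W.IsStop (dip W μ G s) := isStop_dip W μ G s
  have hm : MeasurableSet {X | dip W μ G s X < ⊤} := W.measurableSet_stop_lt hS
  have hdet : W.DetBy (dip W μ G s) (B.indicator (fun _ : Ω => (1 : ℝ≥0∞))) := by
    intro X Y n h hn
    have hnY := hS X Y n h hn
    by_cases hX : X ∈ B
    · rw [Set.indicator_of_mem hX, Set.indicator_of_mem (hBd X Y n h hn hX)]
    · have hY : Y ∉ B := fun hY => hX (hBd Y X n h.symm hnY hY)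
      rw [Set.indicator_of_notMem hX, Set.indicator_of_notMem hY]
  have e1 := W.lintegral_stop hS hdet (μ.restrict G)
  have e2 := W.lintegral_stop hS hdet μ
  have hsub : B ⊆ {X | dip W μ G s X < ⊤} := fun X hX => hBt X hX
  have h1 : μ (G ∩ B)
      = ∫⁻ X in {X | dip W μ G s X < ⊤}, B.indicator (fun _ => 1) X ∂(μ.restrict G) := by
    rw [lintegral_indicator hBm, setLIntegral_one, Measure.restrict_apply hBm,
      Measure.restrict_apply (hBm.inter hm), Set.inter_eq_left.2 hsub, Set.inter_comm]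
  have h2 : (∫⁻ X in {X | dip W μ G s X < ⊤}, B.indicator (fun _ => (1 : ℝ≥0∞)) X ∂μ) = μ B := by
    rw [lintegral_indicator hBm, setLIntegral_one, Measure.restrict_apply hBm,
      Set.inter_eq_left.2 hsub]
  rw [h1, e1, ← h2, e2, ← ENNReal.tsum_mul_left]
  refine ENNReal.tsum_le_tsum fun p => ?_
  split_ifs with h
  · have hl := low_of_dip_eq W μ G s h
    unfold low at hl
    rw [← W.hcyl_eq] at hl
    rw [Measure.restrict_apply (W.measurableSet_hcyl _ _), Set.inter_comm]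
    calc B.indicator (fun _ => (1 : ℝ≥0∞)) (W.ext p.1 p.2) * μ (G ∩ W.hcyl p.1 p.2)
        ≤ B.indicator (fun _ => (1 : ℝ≥0∞)) (W.ext p.1 p.2) * (s * μ (W.hcyl p.1 p.2)) := by
          gcongr
      _ = _ := by ring
  · simp

/-- **before the dip at level `2 s`** -/
theorem two_s (hτ : W.IsStop τ) (hζ : W.IsStop ζ) (hGm : MeasurableSet G)
    (hGt : ∀ X ∈ G, τ X < ⊤) (hs : s ≠ ⊤) :
    s * μ {X | ζ X < sτ W μ G (2 * s) τ X}
      ≤ μ ({X | X ∈ sG W μ G s τ} ∩ {X | ζ X < sτ W μ G s τ X}) := by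
  classical
  set B : Set Ω := {X | ζ X < sτ W μ G (2 * s) τ X} with hB
  have hσ2 : W.IsStop (sτ W μ G (2 * s) τ) := isStop_sτ W μ G _ hτ
  have mB : MeasurableSet B := W.measurableSet_lt hζ hσ2
  have hd2 : ∀ X, dip W μ G (2 * s) X ≤ dip W μ G s X := dip_anti W μ G (by
    calc s = 1 * s := (one_mul s).symm
      _ ≤ 2 * s := by gcongr; norm_num)
  -- mass before the dip
  have h1 : 2 * s * μ B ≤ μ (G ∩ B) := by
    have hF : W.DetBy ζ ({X | ζ X < τ X}.indicator (fun _ : Ω => (1 : ℝ≥0∞))) := by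
      intro X Y n h hn
      have hnY := hζ X Y n h hn
      have hiff : ζ X < τ X ↔ ζ Y < τ Y := by
        rw [hn, hnY]; exact pdet_lt_stop hτ n X Y h
      by_cases hX : ζ X < τ X
      · rw [Set.indicator_of_mem (show X ∈ {X | ζ X < τ X} from hX),
          Set.indicator_of_mem (show Y ∈ {X | ζ X < τ X} from hiff.1 hX)]
      · rw [Set.indicator_of_notMem (show X ∉ {X | ζ X < τ X} from hX),
          Set.indicator_of_notMem (show Y ∉ {X | ζ X < τ X} from fun h => hX (hiff.2 h))]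
    have key := mass_before_dip W μ G (2 * s) hζ hF
    have mlt : MeasurableSet {X | ζ X < τ X} := W.measurableSet_lt hζ hτ
    have mld : MeasurableSet {X | ζ X < dip W μ G (2 * s) X} :=
      W.measurableSet_lt hζ (isStop_dip W μ G _)
    have hBe : {X | ζ X < τ X} ∩ {X | ζ X < dip W μ G (2 * s) X} = B := by
      ext X
      simp [hB, sτ]
    have e : ∀ ν : Measure Ω, ∫⁻ X in {X | ζ X < dip W μ G (2 * s) X},
        {X | ζ X < τ X}.indicator (fun _ : Ω => (1 : ℝ≥0∞)) X ∂ν = ν B := by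
      intro ν
      rw [lintegral_indicator mlt, setLIntegral_one, Measure.restrict_apply mlt, hBe]
    rw [e, e, Measure.restrict_apply mB, Set.inter_comm] at key
    exact key
  -- loss
  set B' : Set Ω := B ∩ {X | dip W μ G s X < ⊤} with hB'
  have hS : W.IsStop (dip W μ G s) := isStop_dip W μ G s
  have mB' : MeasurableSet B' := mB.inter (W.measurableSet_stop_lt hS)
  have h2 : μ (G ∩ B') ≤ s * μ B' := by
    refine dip_loss_on W μ G s mB' ?_ fun X hX => hX.2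
    rintro X Y n h hn ⟨hX1, hX2⟩
    have hA := ag_of_hist (W := W) h
    have hdY := hS X Y n h hn
    refine ⟨?_, by
      show dip W μ G s Y < ⊤
      rw [hdY]; exact ENat.natCast_lt_top n⟩
    have hX1' : ζ X < sτ W μ G (2 * s) τ X := hX1
    have hle : sτ W μ G (2 * s) τ X ≤ n := (min_le_right _ _).trans ((hd2 X).trans hn.le)
    have hlt : ζ X ≤ n := hX1'.le.trans hle
    show ζ Y < sτ W μ G (2 * s) τ Y
    rw [hA.stop_eq hζ hlt, hA.stop_eq hσ2 hle]
    exact hX1'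
  have hsub : G ∩ B ⊆ ({X | X ∈ sG W μ G s τ} ∩ {X | ζ X < sτ W μ G s τ X}) ∪ (G ∩ B') := by
    rintro X ⟨hXG, hXB⟩
    by_cases hc : τ X ≤ dip W μ G s X
    · refine Or.inl ⟨⟨hXG, hc⟩, ?_⟩
      have h3 : ζ X < sτ W μ G (2 * s) τ X := hXB
      exact h3.trans_le (sτ_anti W μ G (by
        calc s = 1 * s := (one_mul s).symm
          _ ≤ 2 * s := by gcongr; norm_num) τ X)
    · exact Or.inr ⟨hXG, hXB, (not_le.1 hc).trans (hGt X hXG)⟩
  have h3 : 2 * s * μ B ≤ μ ({X | X ∈ sG W μ G s τ} ∩ {X | ζ X < sτ W μ G s τ X}) + s * μ B := by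
    calc 2 * s * μ B ≤ μ (G ∩ B) := h1
      _ ≤ μ ({X | X ∈ sG W μ G s τ} ∩ {X | ζ X < sτ W μ G s τ X}) + μ (G ∩ B') :=
          (measure_mono hsub).trans (measure_union_le _ _)
      _ ≤ μ ({X | X ∈ sG W μ G s τ} ∩ {X | ζ X < sτ W μ G s τ X}) + s * μ B := by
          gcongr
          exact h2.trans (by gcongr; exact Set.inter_subset_left)
  have hfin : s * μ B ≠ ⊤ := ENNReal.mul_ne_top hs (measure_ne_top _ _)
  have h4 : s * μ B + s * μ B ≤ μ ({X | X ∈ sG W μ G s τ} ∩ {X | ζ X < sτ W μ G s τ X})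
      + s * μ B := by
    calc s * μ B + s * μ B = 2 * s * μ B := by ring
      _ ≤ _ := h3
  exact (ENNReal.add_le_add_iff_right hfin).1 h4

end anneal

/-! ### the capacity bound -/

/-- iteration of `Φ(2 s) ≤ K / s² + Φ(s) / 8`. -/
lemma iterate {Φ : ℝ≥0∞ → ℝ≥0∞} {K : ℝ≥0∞} (hΦ1 : ∀ s, Φ s ≤ 1)
    (step : ∀ s : ℝ≥0∞, s ≠ 0 → s ≠ ⊤ → Φ (2 * s) ≤ K / s ^ 2 + Φ s / 8) {s : ℝ≥0∞}
    (hs : s ≠ 0) (hst : s ≠ ⊤) : Φ s ≤ 8 * K / s ^ 2 := by
  have iter : ∀ j : ℕ, ∀ s : ℝ≥0∞, s ≠ 0 → s ≠ ⊤ →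
      Φ s ≤ 8 * K / s ^ 2 + (8⁻¹) ^ j := by
    intro j
    induction j with
    | zero =>
      intro s _ _
      rw [pow_zero]
      exact (hΦ1 s).trans le_add_self
    | succ j ih =>
      intro s hs hst
      have hs2 : s / 2 ≠ 0 := (ENNReal.div_pos hs (by norm_num)).ne'
      have hst2 : s / 2 ≠ ⊤ := ENNReal.div_ne_top hst (by norm_num)
      have h1 := step (s / 2) hs2 hst2
      rw [ENNReal.mul_div_cancel (by norm_num) (by norm_num)] at h1
      have h2 := ih (s / 2) hs2 hst2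
      have hsq : (s / 2) ^ 2 = s ^ 2 / 4 := by
        rw [ENNReal.div_eq_inv_mul, ENNReal.div_eq_inv_mul, mul_pow, ← ENNReal.inv_pow]
        norm_num
      have hs4 : ∀ c : ℝ≥0∞, c / (s / 2) ^ 2 = 4 * c / s ^ 2 := by
        intro c
        rw [hsq, ENNReal.div_eq_inv_mul, ENNReal.inv_div (Or.inl (by norm_num))
          (Or.inl (by norm_num)), ENNReal.div_eq_inv_mul, ENNReal.div_eq_inv_mul]
        ring
      rw [hs4] at h1 h2
      calc Φ s ≤ 4 * K / s ^ 2 + Φ (s / 2) / 8 := h1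
        _ ≤ 4 * K / s ^ 2 + (4 * (8 * K) / s ^ 2 + (8⁻¹) ^ j) / 8 := by gcongr
        _ = 8 * K / s ^ 2 + (8⁻¹) ^ (j + 1) := by
          rw [ENNReal.add_div, ← add_assoc]
          congr 1
          · rw [ENNReal.div_eq_inv_mul, ENNReal.div_eq_inv_mul, ENNReal.div_eq_inv_mul,
              ENNReal.div_eq_inv_mul]
            have h8 : (8 : ℝ≥0∞)⁻¹ * ((s ^ 2)⁻¹ * (4 * (8 * K))) =
                ((8 : ℝ≥0∞)⁻¹ * 8) * ((s ^ 2)⁻¹ * (4 * K)) := by ring
            rw [h8, ENNReal.inv_mul_cancel (by norm_num) (by norm_num)]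
            ring
          · rw [ENNReal.div_eq_inv_mul, pow_succ]; ring
  refine ENNReal.le_of_forall_pos_le_add fun ε hε _ => ?_
  obtain ⟨j, hj⟩ : ∃ j : ℕ, (8⁻¹ : ℝ≥0∞) ^ j ≤ ε := by
    have h1 : Filter.Tendsto (fun j : ℕ => (8⁻¹ : ℝ≥0∞) ^ j) Filter.atTop (nhds 0) :=
      ENNReal.tendsto_pow_atTop_nhds_zero_of_lt_one (by
        rw [ENNReal.inv_lt_one]; norm_num)
    exact (h1.eventually (ge_mem_nhds (by exact_mod_cast hε))).exists
  exact (iter j s hs hst).trans (by gcongr)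

section cap

variable {Q : Measure (Environment d)} [IsProbabilityMeasure Q]
  {P₁ P₂ : Kernel (Environment d) Ω} [IsMarkovKernel P₁] [IsMarkovKernel P₂]
  {F : Set (Path d)} {Z : Set (Site d)} {G₁ G₂ N : Set Ω} {τ S' : Ω → ℕ∞} {C₀ c₀ h₀ : ℝ≥0∞}

lemma instProbBind' (Q : Measure (Environment d)) [IsProbabilityMeasure Q]
    (P : Kernel (Environment d) Ω) [IsMarkovKernel P] : IsProbabilityMeasure (Q.bind P) := by
  constructor
  rw [Measure.bind_apply MeasurableSet.univ P.aemeasurable]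
  simp

/-- **CAPACITY BOUND**: the first walker, stopped at the first time at which its annealed
conditional success probability is below `s`, meets the second one (stopped at any stopping time)
with probability at most `64 C₀ / (c₀ h₀) s⁻²` x the probability that the second one succeeds. -/
theorem capacity (hW : RdSpace W rd) (hK : K1P W rd R Q P₁ P₂) (hτ : W.IsStop τ)
    (hS : W.IsStop S') {G : Environment d → Site d → Measure (Path d)}
    (hMU : ∀ᵐ ω ∂Q, MU W (P₁ ω) (G ω) C₀) (hML : ∀ᵐ ω ∂Q, ML W rd (P₂ ω) (G ω) c₀)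
    (hFm : MeasurableSet F) (hG₁ : MeasurableSet G₁) (hG₂ : MeasurableSet G₂)
    (hG₁d : W.DetBy τ (fun X => X ∈ G₁)) (hG₁t : ∀ X ∈ G₁, τ X < ⊤)
    (hN : MeasurableSet N) (hN0 : (Q.bind P₂) N = 0)
    (hF1 : ∀ X ∈ G₁, ∀ n : ℕ, (n : ℕ∞) < τ X → rd X n → shp W n X ∈ F ∧ W.pos X n ∈ Z)
    (hF2 : ∀ (T : Ω) (n : ℕ), (n : ℕ∞) < S' T → rd T n → shp W n T ∈ F → T ∈ G₂)
    (hZ : ∀ (T : Ω) (n : ℕ), T ∉ N → (n : ℕ∞) < S' T → rd T n → W.pos T n ∈ Z)
    (hC : C₀ ≠ 0) (hC' : C₀ ≠ ⊤) (hc : c₀ ≠ 0) (hc' : c₀ ≠ ⊤) (h0 : h₀ ≠ 0) (h0' : h₀ ≠ ⊤)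
    (hH : ∀ᵐ ω ∂Q, ∀ y z : Site d, y ∈ Z → z ∈ Z → (∀ l, |y l - z l| ≤ (R : ℤ)) →
      h₀ * G ω y F ≤ G ω z F) {s : ℝ≥0∞} (hs : s ≠ 0) (hs' : s ≠ ⊤) :
    WalkSpace.ind Q P₁ P₂ (CT W rd R (sτ W (Q.bind P₁) G₁ s τ) S')
      ≤ 64 * (C₀ / (c₀ * h₀)) / s ^ 2 * (Q.bind P₂) G₂ := by
  classical
  have i1 : IsProbabilityMeasure (Q.bind P₁) := instProbBind' Q P₁
  have i2 : IsProbabilityMeasure (Q.bind P₂) := instProbBind' Q P₂
  set μ := Q.bind P₁ with hμ
  set Mt := (Q.bind P₂) G₂ with hMt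
  set Φ : ℝ≥0∞ → ℝ≥0∞ := fun s =>
    WalkSpace.ind Q P₁ P₂ (CT W rd R (sτ W μ G₁ s τ) S') with hΦ
  have iInd : IsProbabilityMeasure (WalkSpace.ind Q P₁ P₂) := by
    unfold WalkSpace.ind; infer_instance
  have hσ : ∀ s, W.IsStop (sτ W μ G₁ s τ) := fun s => isStop_sτ W μ G₁ s hτ
  -- decided
  have hBd : ∀ s X X', Ag W (sτ W μ G₁ s τ X) X X' → X ∈ sG W μ G₁ s τ →
      X' ∈ sG W μ G₁ s τ := by
    intro s X X' h hX
    have h1 := sG_lt_top W μ G₁ s hG₁t X hX
    obtain ⟨n, hn⟩ := exists_nat_of_lt h1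
    have h2 := detBy_sG W μ G₁ s hτ hG₁d X X' n (h n hn.ge) hn
    exact (iff_of_eq h2).1 hX
  -- one
  have one : ∀ (s : ℝ≥0∞) (b : ℝ≥0∞), b ≠ 0 → b ≠ ⊤ →
      WalkSpace.ind Q P₁ P₂ ({p | p.1 ∈ sG W μ G₁ s τ} ∩ CT W rd R (sτ W μ G₁ s τ) S')
        ≤ (c₀ * b)⁻¹ * Mt + C₀ * (h₀⁻¹ * b) * Φ s := by
    intro s b hb hb'
    have mB := measurableSet_sG W μ G₁ s hτ hG₁
    have mCT := measurableSet_CT (R := R) hW (hσ s) hS
    have mA : MeasurableSet ({p : Ω × Ω | p.1 ∈ sG W μ G₁ s τ} ∩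
        CT W rd R (sτ W μ G₁ s τ) S') := (measurable_fst mB).inter mCT
    have e1 := same_CT (R := R) hW hK (hσ s) hS mB (hBd s)
    have e2 := same_CT (R := R) hW hK (hσ s) hS MeasurableSet.univ (fun _ _ _ _ => trivial)
    have hu : {p : Ω × Ω | p.1 ∈ (Set.univ : Set Ω)} ∩ CT W rd R (sτ W μ G₁ s τ) S'
        = CT W rd R (sτ W μ G₁ s τ) S' := by ext p; simp
    rw [hu] at e2
    have hN1 : ∀ᵐ ω ∂Q, P₂ ω N = 0 := by
      rw [Measure.bind_apply hN P₂.aemeasurable] at hN0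
      exact (lintegral_eq_zero_iff (P₂.measurable_coe hN)).1 hN0
    have hMt' : Mt = ∫⁻ ω, P₂ ω G₂ ∂Q := Measure.bind_apply hG₂ P₂.aemeasurable
    rw [← e1]
    simp only [hΦ]
    rw [← e2, WalkSpace.same_apply _ _ _ mA, WalkSpace.same_apply _ _ _ mCT, hMt']
    have hx : (c₀ * b)⁻¹ ≠ ⊤ := ENNReal.inv_ne_top.2 (mul_ne_zero hc hb)
    have hy : C₀ * (h₀⁻¹ * b) ≠ ⊤ :=
      ENNReal.mul_ne_top hC' (ENNReal.mul_ne_top (ENNReal.inv_ne_top.2 h0) hb')
    rw [← lintegral_const_mul' _ _ hx, ← lintegral_const_mul' _ _ hy,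
      ← lintegral_add_left ((P₂.measurable_coe hG₂).const_mul _)]
    refine lintegral_mono_ae ?_
    filter_upwards [hMU, hML, hH, hN1] with ω g1 g2 g3 g4
    refine fixed_env (B := sG W μ G₁ s τ) (G₂ := G₂) (N := N) (Z := Z) hW (hσ s) hS g1 g2 hFm mB hN
      g4 ?_ hF2 hZ hc hc' h0 h0' hb hb' g3
    intro X hX n hn hr
    exact hF1 X hX.1 n (hn.trans_le (sτ_le W μ G₁ s τ X)) hr
  -- two
  have two : ∀ s : ℝ≥0∞, s ≠ ⊤ → s * Φ (2 * s) ≤
      WalkSpace.ind Q P₁ P₂ ({p | p.1 ∈ sG W μ G₁ s τ} ∩ CT W rd R (sτ W μ G₁ s τ) S') := by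
    intro s hs
    have mB := measurableSet_sG W μ G₁ s hτ hG₁
    have mCT := measurableSet_CT (R := R) hW (hσ s) hS
    have mCT2 := measurableSet_CT (R := R) hW (hσ (2 * s)) hS
    have mA : MeasurableSet ({p : Ω × Ω | p.1 ∈ sG W μ G₁ s τ} ∩
        CT W rd R (sτ W μ G₁ s τ) S') := (measurable_fst mB).inter mCT
    simp only [hΦ]
    unfold WalkSpace.ind
    rw [Measure.prod_apply_symm mCT2, Measure.prod_apply_symm mA,
      ← lintegral_const_mul _ (measurable_measure_prodMk_right mCT2)]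
    refine lintegral_mono fun T => ?_
    have hk := two_s (μ := μ) (G := G₁) (s := s) (τ := τ)
      (ζ := kap W rd R (rows W rd T (S' T))) hτ (isStop_kap hW.det _) hG₁ hG₁t hs
    have e1 : (fun X => (X, T)) ⁻¹' CT W rd R (sτ W μ G₁ (2 * s) τ) S'
        = {X | kap W rd R (rows W rd T (S' T)) X < sτ W μ G₁ (2 * s) τ X} := by
      ext X
      exact mem_CT'
    have e2 : (fun X => (X, T)) ⁻¹' ({p : Ω × Ω | p.1 ∈ sG W μ G₁ s τ} ∩
        CT W rd R (sτ W μ G₁ s τ) S')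
        = {X | X ∈ sG W μ G₁ s τ} ∩
          {X | kap W rd R (rows W rd T (S' T)) X < sτ W μ G₁ s τ X} := by
      ext X
      exact and_congr Iff.rfl mem_CT'
    rw [e1, e2]
    exact hk
  have hK0 : C₀ / (c₀ * h₀) ≠ ⊤ := ENNReal.div_ne_top hC' (mul_ne_zero hc h0)
  -- step
  have step : ∀ s : ℝ≥0∞, s ≠ 0 → s ≠ ⊤ →
      Φ (2 * s) ≤ (8 * (C₀ / (c₀ * h₀)) * Mt) / s ^ 2 + Φ s / 8 := by
    intro s hs hst
    set b : ℝ≥0∞ := s * (h₀ / (8 * C₀)) with hb
    have hb0 : b ≠ 0 := mul_ne_zero hs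
      (ENNReal.div_pos h0 (ENNReal.mul_ne_top (by norm_num) hC')).ne'
    have hbt : b ≠ ⊤ := ENNReal.mul_ne_top hst
      (ENNReal.div_ne_top h0' (mul_ne_zero (by norm_num) hC))
    have h3 : s * Φ (2 * s) ≤ (c₀ * b)⁻¹ * Mt + C₀ * (h₀⁻¹ * b) * Φ s :=
      (two s hst).trans (one s b hb0 hbt)
    have h4 : Φ (2 * s) ≤ ((c₀ * b)⁻¹ * Mt + C₀ * (h₀⁻¹ * b) * Φ s) / s := by
      rw [ENNReal.le_div_iff_mul_le (Or.inl hs) (Or.inl hst), mul_comm]
      exact h3
    have e5 : C₀ * (h₀⁻¹ * b) = s * 8⁻¹ := by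
      rw [hb, ENNReal.div_eq_inv_mul, ENNReal.mul_inv (Or.inl (by norm_num)) (Or.inl (by norm_num))]
      calc C₀ * (h₀⁻¹ * (s * (8⁻¹ * C₀⁻¹ * h₀)))
          = s * 8⁻¹ * (C₀⁻¹ * C₀) * (h₀⁻¹ * h₀) := by ring
        _ = s * 8⁻¹ := by
          rw [ENNReal.inv_mul_cancel hC hC', ENNReal.inv_mul_cancel h0 h0', mul_one, mul_one]
    have e6 : (c₀ * b)⁻¹ = 8 * (C₀ / (c₀ * h₀)) * s⁻¹ := by
      have hne : c₀ * b ≠ 0 := mul_ne_zero hc hb0
      have hnt : c₀ * b ≠ ⊤ := ENNReal.mul_ne_top hc' hbt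
      have hp : c₀ * b * (8 * (C₀ / (c₀ * h₀)) * s⁻¹) = 1 := by
        rw [hb, ENNReal.div_eq_inv_mul, ENNReal.div_eq_inv_mul,
          ENNReal.mul_inv (Or.inl (by norm_num)) (Or.inl (by norm_num)),
          ENNReal.mul_inv (Or.inl hc) (Or.inl hc')]
        calc c₀ * (s * (8⁻¹ * C₀⁻¹ * h₀)) * (8 * (c₀⁻¹ * h₀⁻¹ * C₀) * s⁻¹)
            = (c₀⁻¹ * c₀) * (s⁻¹ * s) * (8⁻¹ * 8) * (C₀⁻¹ * C₀) * (h₀⁻¹ * h₀) := by ring
          _ = 1 := by
            rw [ENNReal.inv_mul_cancel hC hC', ENNReal.inv_mul_cancel h0 h0',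
              ENNReal.inv_mul_cancel hc hc', ENNReal.inv_mul_cancel hs hst,
              ENNReal.inv_mul_cancel (by norm_num) (by norm_num)]
            norm_num
      calc (c₀ * b)⁻¹ = (c₀ * b)⁻¹ * (c₀ * b * (8 * (C₀ / (c₀ * h₀)) * s⁻¹)) := by
            rw [hp, mul_one]
        _ = ((c₀ * b)⁻¹ * (c₀ * b)) * (8 * (C₀ / (c₀ * h₀)) * s⁻¹) := by ring
        _ = _ := by rw [ENNReal.inv_mul_cancel hne hnt, one_mul]
    refine h4.trans (le_of_eq ?_)
    rw [ENNReal.add_div, e5, e6]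
    congr 1
    · rw [ENNReal.div_eq_inv_mul (b := s), ENNReal.div_eq_inv_mul (b := s ^ 2), pow_two,
        ENNReal.mul_inv (Or.inl hs) (Or.inl hst)]
      ring
    · rw [ENNReal.div_eq_inv_mul, ENNReal.div_eq_inv_mul]
      calc s⁻¹ * (s * 8⁻¹ * Φ s) = (s⁻¹ * s) * (8⁻¹ * Φ s) := by ring
        _ = 8⁻¹ * Φ s := by rw [ENNReal.inv_mul_cancel hs hst, one_mul]
  have hfin := iterate (Φ := Φ) (K := 8 * (C₀ / (c₀ * h₀)) * Mt) (fun s => prob_le_one) step hs hs'
  refine hfin.trans (le_of_eq ?_)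
  rw [ENNReal.div_eq_inv_mul, ENNReal.div_eq_inv_mul (b := s ^ 2)]
  ring

end cap

end Crest.Agent.R154.Cap923
end

-- ▼ part R154/CapI_923
section

/-! Row 154, (KS) / (ROW) (helper923): **`KS480.CAP`** for the marked walk. -/

set_option autoImplicit false
set_option linter.unusedVariables false
set_option linter.unusedSectionVars false
set_option linter.deprecated false

namespace Crest.Agent.R154.Cap923

open MeasureTheory ProbabilityTheory Set Filter Crest.ProbabilityR.RandomEnvironment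
open Crest.Agent.R154.Ren263 (Det)
open Crest.Agent.R154.Mk561 Crest.Agent.R154.Q561
open Crest.Agent.R154.Flux132 (lev)
open Crest.Agent.R154.RatioR872 (ClM det_ClM)
open Crest.Agent.R154.Cont Crest.Agent.R154.Dip
open Crest.Agent.R154.KB424.GD (hK hK_ne_zero hK_ne_top gp_step step_toward kf_le_one)
open scoped ENNReal

variable {d : ℕ}

/-! ### Harnack in a strip -/

/-- the sites with level in `[α, b)` -/
def strip (u : Step d) (α b : ℤ) : Set (Site d) := {y | α ≤ lev u y ∧ lev u y < b}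

/-- exit from the strip at level `b` in the target `T` -/
def land (u : Step d) (α b : ℤ) (T : Set (Site d)) : Set (Path d) :=
  {Y | ∃ m : ℕ, lev u (Y m) = b ∧ Y m ∈ T ∧ ∀ i < m, Y i ∈ strip u α b}

lemma measurableSet_land (u : Step d) (α b : ℤ) (T : Set (Site d)) :
    MeasurableSet (land u α b T) := by
  have h : land u α b T = ⋃ m : ℕ, {Y | lev u (Y m) = b ∧ Y m ∈ T ∧ ∀ i < m, Y i ∈ strip u α b} := by
    ext Y
    simp [land]
  rw [h]
  refine MeasurableSet.iUnion fun m => measurableSet_of_agree m _ fun X Y hXY => ?_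
  have h0 := hXY m le_rfl
  constructor
  · rintro ⟨h1, h2, h3⟩
    exact ⟨h0 ▸ h1, h0 ▸ h2, fun i hi => by rw [← hXY i hi.le]; exact h3 i hi⟩
  · rintro ⟨h1, h2, h3⟩
    exact ⟨h0 ▸ h1, h0 ▸ h2, fun i hi => by rw [hXY i hi.le]; exact h3 i hi⟩

lemma consP_land {u : Step d} {α b : ℤ} {T : Set (Site d)} {a : Site d} (ha : a ∈ strip u α b)
    {Y : Path d} (hY : Y ∈ land u α b T) : consP a Y ∈ land u α b T := by
  obtain ⟨m, h1, h2, h3⟩ := hY
  refine ⟨m + 1, ?_, ?_, ?_⟩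
  · simp only [consP, Nat.succ_ne_zero, if_false, Nat.add_sub_cancel]; exact h1
  · simp only [consP, Nat.succ_ne_zero, if_false, Nat.add_sub_cancel]; exact h2
  · intro i hi
    unfold consP
    split_ifs with h0
    · exact ha
    · exact h3 _ (by omega)

lemma abs_stepVec_le (e : Step d) (j : Fin d) : |stepVec e j| ≤ 1 := by
  rcases e with ⟨i, c⟩
  by_cases h : j = i
  · subst h
    simp only [stepVec, Pi.single_eq_same]
    split_ifs <;> simp
  · simp only [stepVec]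
    rw [Pi.single_eq_of_ne h]
    simp

lemma strip_step {u : Step d} {α b : ℤ} {a z : Site d} (ha : a ∈ strip u α b)
    (hz : z ∈ strip u α b) {e : Step d}
    (h : ∀ j, |(a + stepVec e) j - z j| ≤ |a j - z j|) : a + stepVec e ∈ strip u α b := by
  have h1 := h u.1
  have h2 := abs_stepVec_le e u.1
  obtain ⟨a1, a2⟩ := ha
  obtain ⟨z1, z2⟩ := hz
  simp only [Pi.add_apply] at h1
  rw [Int.abs_eq_natAbs, Int.abs_eq_natAbs] at h1
  rw [Int.abs_eq_natAbs] at h2
  unfold strip lev at *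
  simp only [mem_setOf_eq, Pi.add_apply]
  split_ifs at * <;> omega

lemma harnack_aux {u : Step d} {α b : ℤ} {T : Set (Site d)} {κ : ℝ} (ω : Environment d)
    {z : Site d} (hz : z ∈ strip u α b) :
    ∀ (N : ℕ) (a : Site d), a ∈ strip u α b → ∑ j, (a j - z j).natAbs = N →
      ENNReal.ofReal (kf d κ) ^ N * Gp κ ω z (land u α b T) ≤ Gp κ ω a (land u α b T) := by
  intro N
  induction N with
  | zero =>
    intro a _ h0
    have : a = z := by
      funext j
      have := (Finset.sum_eq_zero_iff.1 h0) j (Finset.mem_univ j)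
      omega
    rw [this]; simp
  | succ N ih =>
    intro a ha hN
    have : ∃ i, a i ≠ z i := by
      by_contra hcon
      push Not at hcon
      have : ∑ j, (a j - z j).natAbs = 0 := Finset.sum_eq_zero fun j _ => by rw [hcon j]; simp
      omega
    obtain ⟨i, hi⟩ := this
    obtain ⟨e, h1, h2⟩ := step_toward hi
    have h3 := ih (a + stepVec e) (strip_step ha hz h1) (by omega)
    calc ENNReal.ofReal (kf d κ) ^ (N + 1) * Gp κ ω z (land u α b T)
        = ENNReal.ofReal (kf d κ) * (ENNReal.ofReal (kf d κ) ^ N * Gp κ ω z (land u α b T)) := by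
          ring
      _ ≤ ENNReal.ofReal (kf d κ) * Gp κ ω (a + stepVec e) (land u α b T) := by gcongr
      _ ≤ _ := gp_step ω (measurableSet_land u α b T) (fun Y hY => consP_land ha hY) e

theorem harnack (u : Step d) {α b : ℤ} {T : Set (Site d)} (κ : ℝ) {R : ℕ} (ω : Environment d)
    {a z : Site d} (ha : a ∈ strip u α b) (hz : z ∈ strip u α b)
    (haz : ∀ l, |a l - z l| ≤ (R : ℤ)) :
    hK d R κ * Gp κ ω z (land u α b T) ≤ Gp κ ω a (land u α b T) := by
  have hN : ∑ j, (a j - z j).natAbs ≤ d * R := by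
    calc ∑ j, (a j - z j).natAbs ≤ ∑ _j : Fin d, R := Finset.sum_le_sum fun j _ => by
          have h3 : |a j - z j| ≤ (R : ℤ) := haz j
          rw [Int.abs_eq_natAbs] at h3
          omega
      _ = d * R := by simp
  refine le_trans ?_ (harnack_aux ω hz _ a ha rfl)
  gcongr
  unfold hK
  exact pow_le_pow_right_of_le_one' (kf_le_one u κ) hN

/-! ### laws -/

section laws

variable {κ : ℝ} {Q : Measure (Environment d)} [IsProbabilityMeasure Q]

lemma bind_eq (x : Site d) : Q.bind (smP κ x) = (mkAnn κ Q x).map (Prod.mk x) := by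
  refine Measure.ext fun A hA => ?_
  have hm : MeasurableSet {M : MPath d | (x, M) ∈ A} := measurable_prodMk_left hA
  rw [Measure.bind_apply hA (Kernel.measurable _).aemeasurable,
    Measure.map_apply measurable_prodMk_left hA]
  simp only [smP_apply' κ x _ hA]
  rw [← mkAnn_apply κ Q x hm]
  rfl

lemma bind_apply (x : Site d) {A : Set (SMPath d)} (hA : MeasurableSet A) :
    (Q.bind (smP κ x)) A = mkAnn κ Q x {M | (x, M) ∈ A} := by
  rw [bind_eq, Measure.map_apply measurable_prodMk_left hA]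
  rfl

lemma ind_apply (x y : Site d) {A : Set (SMPath d × SMPath d)} (hA : MeasurableSet A) :
    WalkSpace.ind Q (smP κ x) (smP κ y) A
      = ((mkAnn κ Q x).prod (mkAnn κ Q y)) {p | ((x, p.1), (y, p.2)) ∈ A} := by
  unfold WalkSpace.ind
  rw [bind_eq, bind_eq,
    Measure.map_prod_map _ _ measurable_prodMk_left measurable_prodMk_left,
    Measure.map_apply (measurable_prodMk_left.prodMap measurable_prodMk_left) hA]
  rfl

end laws

/-! ### null histories -/

/-- some history of `X` has probability zero -/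
def nul {Ω : Type} [MeasurableSpace Ω] (W : WalkSpace d Ω) (μ : Measure Ω) : Set Ω :=
  {X | ∃ n : ℕ, μ (W.cyl X n) = 0}

lemma measurableSet_nul {Ω : Type} [MeasurableSpace Ω] (W : WalkSpace d Ω) (μ : Measure Ω) :
    MeasurableSet (nul W μ) := by
  refine measurableSet_of_open W _ ?_
  rintro X ⟨n, hn⟩
  exact ⟨n, fun Y h => ⟨n, by rw [← cyl_congr W h]; exact hn⟩⟩

lemma nul_zero {Ω : Type} [MeasurableSpace Ω] (W : WalkSpace d Ω) (μ : Measure Ω) :
    μ (nul W μ) = 0 := by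
  have hsub : nul W μ ⊆ ⋃ n : ℕ, ⋃ h : {h : W.H n // μ (W.hcyl n h) = 0}, W.hcyl n h.1 := by
    rintro X ⟨n, hn⟩
    refine mem_iUnion.2 ⟨n, mem_iUnion.2 ⟨⟨W.hist n X, ?_⟩, rfl⟩⟩
    exact hn
  refine measure_mono_null hsub ?_
  exact measure_iUnion_null fun n => measure_iUnion_null fun h => h.2

/-! ### the walkers -/

section walkers

variable (u : Step d) (R : ℕ) (b : ℤ) (T : Set (Site d)) (x : Site d)

/-- first hit of level `b` -/
noncomputable def hitT (u : Step d) (b : ℤ) (X : SMPath d) : ℕ∞ :=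
  KExp.fst fun n => b ≤ lev u (pos X.1 X.2 n)

/-- success of the walker from `x` -/
def Gs : Set (SMPath d) := {X | X.1 = x ∧ X.2 ∈ KS480.succ u R b T x}

lemma isStop_hitT : (fWS u).IsStop (hitT u b) := by
  refine KExp.isStop_fst (fWS u) (p := fun n X => b ≤ lev u (pos X.1 X.2 n)) fun n X Y h => ?_
  have h1 : pos X.1 X.2 n = pos Y.1 Y.2 n := (fWS u).pos_det n X Y h
  rw [h1]

lemma hitT_eq {X : SMPath d} {m : ℕ} (h : X.2 ∈ ClM u R X.1 b m) : hitT u b X = m := by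
  refine le_antisymm (KExp.fst_le (p := fun n => b ≤ lev u (pos X.1 X.2 n)) h.1.ge) ?_
  by_contra hcon
  rw [not_le] at hcon
  obtain ⟨i, hi, hp⟩ := KExp.fst_exists hcon
  have hi' : i < m := by exact_mod_cast hi
  have := h.2.1 i hi'
  omega

lemma lt_of_lt_hitT {X : SMPath d} {n : ℕ} (h : (n : ℕ∞) < hitT u b X) :
    lev u (pos X.1 X.2 n) < b :=
  not_le.1 (KExp.not_of_lt_fst (p := fun n => b ≤ lev u (pos X.1 X.2 n)) h)

lemma det_succM (m : ℕ) : Det m (KS480.succM u R b T x m) := by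
  intro s s' h
  have hp : pos x s m = pos x s' m := pos_congr x h le_rfl
  unfold KS480.succM
  simp only [mem_setOf_eq]
  rw [det_ClM u R x b m s s' h, hp]

lemma measurableSet_succ : MeasurableSet (KS480.succ u R b T x) :=
  MeasurableSet.iUnion fun m => (det_succM u R b T x m).measurableSet

lemma measurableSet_Gs : MeasurableSet (Gs u R b T x) :=
  (measurable_fst (measurableSet_singleton x)).inter (measurable_snd (measurableSet_succ u R b T x))

lemma Gs_mono {X Y : SMPath d} {n : ℕ} (h : fHist n X = fHist n Y) (hn : hitT u b X = n)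
    (hX : X ∈ Gs u R b T x) : Y ∈ Gs u R b T x := by
  obtain ⟨h1, h2, h3⟩ := fHist_eq_iff.1 h
  obtain ⟨g1, g2⟩ := hX
  obtain ⟨m, hm⟩ := mem_iUnion.1 g2
  have e1 : hitT u b X = m := hitT_eq u R b (by rw [g1]; exact hm.1)
  obtain rfl : m = n := by rw [hn] at e1; exact_mod_cast e1.symm
  exact ⟨by rw [← h1]; exact g1, mem_iUnion.2 ⟨m, (det_succM u R b T x m X.2 Y.2 h2).1 hm⟩⟩

lemma detBy_Gs : (fWS u).DetBy (hitT u b) (fun X => X ∈ Gs u R b T x) := by
  intro X Y n h hn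
  have hnY : hitT u b Y = n := isStop_hitT u b X Y n h hn
  exact propext ⟨Gs_mono u R b T x h hn, Gs_mono u R b T x h.symm hnY⟩

lemma Gs_lt_top : ∀ X ∈ Gs u R b T x, hitT u b X < ⊤ := by
  rintro X ⟨g1, g2⟩
  obtain ⟨m, hm⟩ := mem_iUnion.1 g2
  rw [hitT_eq u R b (m := m) (by rw [g1]; exact hm.1)]
  exact ENat.natCast_lt_top m

/-- a successful walker, at a reading time, is in the strip and lands in the target -/
lemma Gs_reads {X : SMPath d} (hX : X ∈ Gs u R b T x) {n : ℕ} (hn : (n : ℕ∞) < hitT u b X)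
    (hr : rdM X n) : shp (fWS u) n X ∈ land u (lev u x + R) b T ∧
      (fWS u).pos X n ∈ strip u (lev u x + R) b := by
  obtain ⟨g1, g2⟩ := hX
  obtain ⟨m, hm⟩ := mem_iUnion.1 g2
  have e1 : hitT u b X = m := hitT_eq u R b (by rw [g1]; exact hm.1)
  have hnm : n < m := by rw [e1] at hn; exact_mod_cast hn
  obtain ⟨⟨c1, c2, c3, c4⟩, c5⟩ := hm
  have hRn : R ≤ n := by
    by_contra hcon
    have := c3 n hnm (by omega)
    unfold rdM at hr
    rw [this] at hr
    exact absurd hr (by simp)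
  have hpos : ∀ i, (fWS u).pos X i = pos x X.2 i := fun i => by
    show pos X.1 X.2 i = _
    rw [g1]
  have hst : ∀ i, n ≤ i → i < m → (fWS u).pos X i ∈ strip u (lev u x + R) b := fun i h1 h2 => by
    rw [hpos]
    exact ⟨c4 i (by omega) h2.le, c2 i h2⟩
  refine ⟨⟨m - n, ?_, ?_, ?_⟩, hst n le_rfl hnm⟩
  · show lev u ((fWS u).pos X (n + (m - n))) = b
    rw [hpos, Nat.add_sub_cancel' hnm.le]; exact c1
  · show (fWS u).pos X (n + (m - n)) ∈ T
    rw [hpos, Nat.add_sub_cancel' hnm.le]; exact c5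
  · intro i hi
    exact hst (n + i) (by omega) (by omega)

variable (κ : ℝ) (Q : Measure (Environment d)) [IsProbabilityMeasure Q] (s : ℝ≥0∞)

/-- the killed walker -/
noncomputable def kil : SMPath d → ℕ∞ := sτ (fWS u) (Q.bind (smP κ x)) (Gs u R b T x) s (hitT u b)

lemma isStop_kil : (fWS u).IsStop (kil u R b T x κ Q s) := isStop_sτ _ _ _ _ (isStop_hitT u b)

/-- before its decision time, the killed walker has been natural -/
lemma kil_nat {T' : Set (Site d)} {Y : SMPath d} (hs : s ≠ 0)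
    (hY : Y ∉ nul (fWS u) (Q.bind (smP κ x))) {n : ℕ} (hn : (n : ℕ∞) < kil u R b T' x κ Q s Y)
    (hr : rdM Y n) : Y.1 = x ∧ R ≤ n ∧ (∀ i < R, Y.2 i = (u, true)) ∧
      (∀ i ≤ n, lev u (pos x Y.2 i) < b) ∧ (∀ i, R ≤ i → i ≤ n → lev u x + R ≤ lev u (pos x Y.2 i))
      ∧ lev u x + R ≤ b := by
  have h1 : (n : ℕ∞) < hitT u b Y := hn.trans_le (min_le_left _ _)
  have h2 : (n : ℕ∞) < dip (fWS u) (Q.bind (smP κ x)) (Gs u R b T' x) s Y :=
    hn.trans_le (min_le_right _ _)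
  have h3 := good_before (fWS u) (Q.bind (smP κ x)) (Gs u R b T' x) s h2
  have h4 : (Q.bind (smP κ x)) ((fWS u).cyl Y n) ≠ 0 := fun h => hY ⟨n, h⟩
  have h5 : (Q.bind (smP κ x)) (Gs u R b T' x ∩ (fWS u).cyl Y n) ≠ 0 := by
    intro h
    rw [h] at h3
    exact absurd (le_antisymm h3 zero_le) (mul_ne_zero hs h4)
  obtain ⟨V, hV1, hV2⟩ := nonempty_of_measure_ne_zero h5
  have hV2' : fHist n V = fHist n Y := hV2
  obtain ⟨e1, e2, e3⟩ := fHist_eq_iff.1 hV2'
  obtain ⟨g1, g2⟩ := hV1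
  obtain ⟨m, hm⟩ := mem_iUnion.1 g2
  obtain ⟨⟨c1, c2, c3, c4⟩, c5⟩ := hm
  have hY1 : Y.1 = x := by rw [← e1]; exact g1
  have hpos : ∀ i ≤ n, pos x V.2 i = pos x Y.2 i := fun i hi => pos_congr x e2 hi
  have hlt : ∀ i ≤ n, lev u (pos x Y.2 i) < b := by
    intro i hi
    have := lt_of_lt_hitT u b (X := Y) (n := i) (lt_of_le_of_lt (by exact_mod_cast hi) h1)
    rwa [hY1] at this
  have hnm : n < m := by
    by_contra hcon
    have h6 := hlt m (by omega)
    rw [← hpos m (by omega), c1] at h6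
    omega
  have hRn : R ≤ n := by
    by_contra hcon
    have h6 := c3 n hnm (by omega)
    unfold rdM at hr
    rw [← e3, h6] at hr
    exact absurd hr (by simp)
  refine ⟨hY1, hRn, fun i hi => ?_, hlt, fun i h6 h7 => ?_, ?_⟩
  · rw [← e2 i (by omega)]
    exact c3 i (by omega) hi
  · rw [← hpos i h7]
    exact c4 i h6 (by omega)
  · have := c4 m (by omega) le_rfl
    omega

/-- the killed walker with target `T'`, at a reading time: if it lands in `T`, it has made a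
natural climb into `T`. -/
lemma kil_land {T' : Set (Site d)} {Y : SMPath d} (hs : s ≠ 0)
    (hY : Y ∉ nul (fWS u) (Q.bind (smP κ x))) {n : ℕ} (hn : (n : ℕ∞) < kil u R b T' x κ Q s Y)
    (hr : rdM Y n) (hF : shp (fWS u) n Y ∈ land u (lev u x + R) b T) : Y ∈ Gs u R b T x := by
  obtain ⟨g1, g2, g3, g4, g5, g6⟩ := kil_nat u R b x κ Q s hs hY hn hr
  obtain ⟨m, m1, m2, m3⟩ := hF
  have hpos : ∀ i, shp (fWS u) n Y i = pos x Y.2 (n + i) := fun i => by
    show pos Y.1 Y.2 (n + i) = _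
    rw [g1]
  rw [hpos] at m1 m2
  refine ⟨g1, mem_iUnion.2 ⟨n + m, ⟨m1, ?_, ?_, ?_⟩, m2⟩⟩
  · intro i hi
    rcases Nat.lt_or_ge n i with h | h
    · have := (m3 (i - n) (by omega)).2
      rw [hpos, Nat.add_sub_cancel' h.le] at this
      exact this
    · exact g4 i h
  · intro i _ hi
    exact g3 i hi
  · intro i h1 h2
    rcases Nat.lt_or_ge n i with h | h
    · rcases Nat.lt_or_ge i (n + m) with h' | h'
      · have := (m3 (i - n) (by omega)).1
        rw [hpos, Nat.add_sub_cancel' h.le] at this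
        exact this
      · obtain rfl : i = n + m := by omega
        rw [m1]; exact g6
    · exact g5 i h1 h

/-! ### the killed walker of helper480 -/

lemma low_iff (M : MPath d) (n : ℕ) :
    low (fWS u) (Q.bind (smP κ x)) (Gs u R b T x) s n (x, M) ↔ KS480.dp u R κ Q s b T x M n := by
  unfold low KS480.dp
  have m1 : MeasurableSet ((fWS u).cyl (x, M) n) := (fWS u).measurableSet_cyl _ _
  rw [bind_apply x ((measurableSet_Gs u R b T x).inter m1), bind_apply x m1]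
  have e1 : {M' : MPath d | (x, M') ∈ (fWS u).cyl (x, M) n} = KS480.CyF M n := by
    ext M'
    show fHist n (x, M') = fHist n (x, M) ↔ _
    rw [fHist_eq_iff]
    simp [KS480.CyF]
  have e2 : {M' : MPath d | (x, M') ∈ Gs u R b T x ∩ (fWS u).cyl (x, M) n}
      = KS480.succ u R b T x ∩ KS480.CyF M n := by
    rw [← e1]
    ext M'
    simp [Gs]
  rw [e1, e2]

lemma fst_or (p q : ℕ → Prop) : KExp.fst (fun n => p n ∨ q n) = min (KExp.fst p) (KExp.fst q) := by
  refine le_antisymm (le_min ?_ ?_) ?_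
  · by_contra hcon
    rw [not_le] at hcon
    obtain ⟨n, hn, h⟩ := KExp.fst_exists hcon
    exact absurd hn (not_lt.2 (KExp.fst_le (p := fun n => p n ∨ q n) (Or.inl h)))
  · by_contra hcon
    rw [not_le] at hcon
    obtain ⟨n, hn, h⟩ := KExp.fst_exists hcon
    exact absurd hn (not_lt.2 (KExp.fst_le (p := fun n => p n ∨ q n) (Or.inr h)))
  · by_contra hcon
    rw [not_le] at hcon
    obtain ⟨n, hn, h⟩ := KExp.fst_exists hcon
    rcases h with h | h
    · exact absurd hn (not_lt.2 ((min_le_left _ _).trans (KExp.fst_le h)))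
    · exact absurd hn (not_lt.2 ((min_le_right _ _).trans (KExp.fst_le h)))

lemma kil_eq (M : MPath d) : kil u R b T x κ Q s (x, M) = KS480.tau u R κ Q s b T x M := by
  unfold kil sτ KS480.tau hitT dip
  rw [fst_or]
  congr 1
  congr 1
  funext n
  exact propext (low_iff u R b T x κ Q s M n)

/-- `mt` is the probability of the contact set -/
lemma mt_eq (T' : Set (Site d)) (x' : Site d) :
    KS480.mt u R κ Q s b T T' x x' = WalkSpace.ind Q (smP κ x) (smP κ x')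
      (CT (fWS u) rdM R (kil u R b T x κ Q s) (kil u R b T' x' κ Q s)) := by
  rw [ind_apply x x' (measurableSet_CT (rdSpace_fWS u) (isStop_kil u R b T x κ Q s)
    (isStop_kil u R b T' x' κ Q s))]
  unfold KS480.mt
  congr 1
  ext p
  simp only [mem_setOf_eq]
  rw [mem_CT]
  simp only [kil_eq]
  exact Iff.rfl

end walkers

/-- **(CAP)** -/
theorem cap_of {u : Step d} {R : ℕ} {κ : ℝ} {Q : Measure (Environment d)} [IsProbabilityMeasure Q]
    (hR : IsFiniteRangeDependent Q R) (hfrc : R = 0 ∨ 0 < kf d κ) {c₀ : ℝ≥0∞} (hc : c₀ ≠ 0)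
    (hc' : c₀ ≠ ⊤) (hML : ∀ᵐ ω ∂Q, ∀ (z : Site d) (e : Step d),
      c₀ * ENNReal.ofReal ((reg κ (ω z)).1 e) ≤ mw κ (ω z) (e, false))
    {s : ℝ≥0∞} (hs : s ≠ 0) (hs' : s ≠ ⊤) (b : ℤ) :
    KS480.CAP u R κ Q s b (64 * (cU d κ / (c₀ * hK d R κ))) := by
  classical
  intro T T' x x' hxx
  rw [mt_eq]
  have hC : cU d κ ≠ 0 := by
    intro h
    unfold cU at h
    rw [add_eq_zero] at h
    have h1 := h.1
    split_ifs at h1 with h2
    · exact one_ne_zero h1
    · exact ENNReal.inv_ne_zero.2 (ne_top_of_le_ne_top ENNReal.one_ne_top (qf_le_one κ true)) h1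
  set N := nul (fWS u) (Q.bind (smP κ x')) with hN
  have mN : MeasurableSet N := measurableSet_nul _ _
  have hN0 : (Q.bind (smP κ x')) N = 0 := nul_zero _ _
  have key := capacity (W := fWS u) (rd := rdM) (R := R) (Q := Q) (P₁ := smP κ x) (P₂ := smP κ x')
    (F := land u (lev u x + R) b T) (Z := strip u (lev u x + R) b) (G₁ := Gs u R b T x)
    (G₂ := Gs u R b T x' ∪ N) (N := N) (τ := hitT u b) (S' := kil u R b T' x' κ Q s)
    (C₀ := cU d κ) (c₀ := c₀) (h₀ := hK d R κ) (rdSpace_fWS u) (k1p_smP u hR κ x x')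
    (isStop_hitT u b) (isStop_kil u R b T' x' κ Q s) (G := Gp κ)
    (Filter.Eventually.of_forall fun ω => mu_smP u κ x ω)
    (by filter_upwards [hML] with ω hω; exact ml_smP u κ x' ω hω)
    (measurableSet_land _ _ _ _) (measurableSet_Gs u R b T x)
    ((measurableSet_Gs u R b T x').union mN) (detBy_Gs u R b T x) (Gs_lt_top u R b T x) mN hN0
    (fun X hX n hn hr => Gs_reads u R b T x hX hn hr)
    (by
      intro Y n hn hr hF
      by_cases hY : Y ∈ N
      · exact Or.inr hY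
      · refine Or.inl (kil_land u R b T x' κ Q s hs hY hn hr ?_)
        rw [← hxx]; exact hF)
    (by
      intro Y n hY hn hr
      obtain ⟨g1, g2, g3, g4, g5, g6⟩ := kil_nat u R b x' κ Q s hs hY hn hr
      have hp : (fWS u).pos Y n = pos x' Y.2 n := by
        show pos Y.1 Y.2 n = _
        rw [g1]
      rw [hp, hxx]
      exact ⟨g5 n g2 le_rfl, g4 n le_rfl⟩)
    hC (cU_ne_top κ) hc hc' (hK_ne_zero hfrc) hK_ne_top
    (Filter.Eventually.of_forall fun ω y z hy hz hyz =>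
      harnack u κ ω hz hy (fun l => by rw [abs_sub_comm]; exact hyz l)) hs hs'
  refine key.trans ?_
  gcongr
  calc (Q.bind (smP κ x')) (Gs u R b T x' ∪ N)
      ≤ (Q.bind (smP κ x')) (Gs u R b T x') + (Q.bind (smP κ x')) N := measure_union_le _ _
    _ = mkAnn κ Q x' (KS480.succ u R b T x') := by
        rw [hN0, add_zero, bind_apply x' (measurableSet_Gs u R b T x')]
        congr 1
        ext M
        simp [Gs]

/-- **(CAP) in the frame**: `H` depends on `κ`, `R`, `d` and the constant `c` of 424's `Half` only.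
`hc` is `KB424.Half κ Q`. -/
theorem cap_frame {u : Step d} {R : ℕ} {κ : ℝ} {Q : Measure (Environment d)}
    [IsProbabilityMeasure Q] (F : Bind263.Frame Q κ R)
    (hc : ∃ c : ℝ, 0 < c ∧ ∀ᵐ ω ∂Q, ∀ (z : Site d) (e : Step d),
      c * (ω z).1 e ≤ (ω z).1 e - kf d κ) :
    ∃ H : ℝ≥0∞, H ≠ ⊤ ∧ ∀ s : ℝ≥0∞, s ≠ 0 → s ≠ ⊤ → ∀ b : ℤ, KS480.CAP u R κ Q s b H := by
  obtain ⟨c, hc0, hc⟩ := hc
  have hcc : ENNReal.ofReal c ≠ 0 := by simpa using hc0
  refine ⟨64 * (cU d κ / (ENNReal.ofReal c * hK d R κ)), ?_, fun s hs hs' b =>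
    cap_of F.fin F.frc (c₀ := ENNReal.ofReal c) hcc ENNReal.ofReal_ne_top ?_ hs hs' b⟩
  · exact ENNReal.mul_ne_top (by norm_num) (ENNReal.div_ne_top (cU_ne_top κ)
      (mul_ne_zero hcc (hK_ne_zero F.frc)))
  · filter_upwards [F.ell, hc] with ω h1 h2 z e
    rw [reg_eq (h1 z), ← ENNReal.ofReal_mul hc0.le]
    unfold mw
    refine ENNReal.ofReal_le_ofReal ?_
    simp only [Bool.false_eq_true, if_false]
    rw [reg_eq (h1 z)]
    exact h2 z e

end Crest.Agent.R154.Cap923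
end

-- ▼ part R154/Row_12

/-!
Row 154, B8, TILE, (KS): **(ROW)** = the one geometric input of the K-set bound of the unconfined
tile (helper480's `KS480.ROW`), from `CAP` (helper923), `near` (helper424) and the mobility package
of helper437.  Far cells: capacity + disjoint windows + tails of the natural law; near cells: the
early climb stays in a window, late contacts are rare (helper12).
-/

set_option autoImplicit false
set_option linter.unusedSectionVars false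
set_option linter.deprecated false
set_option linter.unusedVariables false

namespace Crest.Agent.R154.Row12

open MeasureTheory ProbabilityTheory Set Filter Crest.ProbabilityR.RandomEnvironment
open Crest.Agent.R154.Mk561 Crest.Agent.R154.Q561
open Crest.Agent.R154.Flux132 (lev)
open Crest.Agent.R154.RatioR872 Crest.Agent.R154.Tile872
open Crest.Agent.R154.KS480
open Crest.Agent.R154.MobW437 (wl wl_pos one_le_wl four_wl_le mob)
open Crest.Agent.R154.B4Inst797 (Nat0 natLaw UU lat natLaw_apply lp natLaw_isProb)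
open scoped ENNReal Topology

variable {d : ℕ}

/-- helper424's near bound (statement) -/
def NearP (u : Step d) (R : ℕ) (κ : ℝ) (Q : Measure (Environment d)) : Prop :=
  ∀ s δ : ℝ≥0∞, s ≠ 0 → s ≤ 1 → δ ≠ 0 → ∃ η : ℝ≥0∞, η ≠ 0 ∧ ∀ k : ℕ, ∃ n0 : ℕ, ∀ n : ℕ, n0 ≤ n →
    ∀ l : ℕ, l ≤ n → n ≤ 2 ^ k * l → ∀ a : ℤ, ∀ x x' : Site d, lev u x = a → lev u x' = a →
      ∀ B : Set (Site d), mkAnn κ Q x (succ u R (a + l) Bᶜ x) ≤ η →
        mkAnn κ Q x' (succ u R (a + l) B x') ≤ η →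
        ∀ T T' : Set (Site d), mt u R κ Q s (a + n) T T' x x' ≤ δ

section basic

variable (u : Step d) (R : ℕ) (i1 i2 : Fin d) (i : Fin 2)


variable {R} {Q : Measure (Environment d)} [IsProbabilityMeasure Q] {κ : ℝ}

/-- mass outside the window, in the letters of `succ` -/
lemma succ_out_le (F : Bind263.Frame Q κ R) {x : Site d} {ℓ n : ℕ} (hx : lev u x = ℓ) {r v : ℝ}
    {δ : ℝ≥0∞} (hc : mkAnn κ Q 0 (Nat0 u R) ≠ 0)
    (h : natLaw κ Q u R {s | r < |UU u i1 i2 n s i - v|} ≤ δ) (T : Set (Site d))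
    (hT : ∀ y ∈ T, lev u y = (ℓ + n : ℕ) → r < |lat i1 i2 y i - lat i1 i2 x i - v|) :
    mkAnn κ Q x (succ u R ((ℓ + n : ℕ) : ℤ) T x) ≤ δ := by
  rw [mkAnn_succ]
  have hm : MeasurableSet {w : B4.V | r < |w i - lat i1 i2 x i - v|} :=
    measurableSet_lt measurable_const
      ((((measurable_pi_apply i).sub_const _).sub_const _).abs)
  have h1 := mass_lat_le F u i1 i2 x n {w | r < |w i - lat i1 i2 x i - v|} hm T
    (fun y hy hy2 => hT y hy (by rw [hy2, hx]; push_cast; rfl)) hc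
  have e : lev u x + (n : ℤ) = ((ℓ + n : ℕ) : ℤ) := by rw [hx]; push_cast; rfl
  rw [e] at h1
  refine h1.trans (le_trans (measure_mono ?_) h)
  intro s hs
  simp only [mem_setOf_eq, Pi.add_apply] at hs ⊢
  have e2 : lat i1 i2 x i + UU u i1 i2 n s i - lat i1 i2 x i - v = UU u i1 i2 n s i - v := by ring
  rwa [e2] at hs

/-- mass of a climb into a strip: window of the displacement -/
lemma succ_strip_le (F : Bind263.Frame Q κ R) {x : Site d} {ℓ n : ℕ} {a t t' c : ℝ}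
    (hx : x ∈ strip u i1 i2 i a ℓ t') (hc : mkAnn κ Q 0 (Nat0 u R) ≠ 0) :
    mkAnn κ Q x (succ u R ((ℓ + n : ℕ) : ℤ) (strip u i1 i2 i a (ℓ + n) (t + c)) x) ≤
      natLaw κ Q u R {s | UU u i1 i2 n s i - c ∈ Ioo (t - t' - a) (t - t' + a)} := by
  rw [mkAnn_succ]
  have hm : MeasurableSet {w : B4.V | w i ∈ Ico (t + c) (t + c + a)} :=
    (measurable_pi_apply i) measurableSet_Ico
  have h1 := mass_lat_le F u i1 i2 x n {w | w i ∈ Ico (t + c) (t + c + a)} hm
    (strip u i1 i2 i a (ℓ + n) (t + c)) (fun y hy _ => hy.2) hc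
  have e : lev u x + (n : ℤ) = ((ℓ + n : ℕ) : ℤ) := by rw [hx.1]; push_cast; rfl
  rw [e] at h1
  refine h1.trans (measure_mono ?_)
  intro s hs
  have h2 := hx.2
  simp only [mem_setOf_eq, Pi.add_apply, mem_Ico, mem_Ioo] at hs h2 ⊢
  constructor <;> linarith

end basic

section windows

variable {Ω : Type*} [MeasurableSpace Ω] {P : Measure Ω}

/-- **disjoint windows**: the masses of the windows `k Δ + (-a, a)`, `k ∈ K`, far from `0`, sum up to
at most the tail -/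
lemma sum_windows {Y : Ω → ℝ} (hY : Measurable Y) {a Δ r : ℝ} (hΔ : 4 * a ≤ |Δ|) (ha : 0 < a)
    (K : Finset ℤ) (f : ℤ → ℤ) (hf : Function.Injective f)
    (hK : ∀ k ∈ K, r ≤ |(f k : ℝ) * Δ| - a) :
    ∑ k ∈ K, P {ω | Y ω ∈ Ioo ((f k : ℝ) * Δ - a) ((f k : ℝ) * Δ + a)} ≤
      P {ω | r < |Y ω|} := by
  rw [← measure_biUnion_finset]
  · refine measure_mono ?_
    intro ω hω
    simp only [mem_iUnion, mem_setOf_eq, exists_prop, mem_Ioo] at hω ⊢
    obtain ⟨k, hk, h1, h2⟩ := hω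
    have h3 := hK k hk
    have h4 : |(f k : ℝ) * Δ| ≤ |Y ω| + |(f k : ℝ) * Δ - Y ω| := by
      have := abs_add_le (Y ω) ((f k : ℝ) * Δ - Y ω)
      simpa using this
    have h5 : |(f k : ℝ) * Δ - Y ω| < a := abs_lt.2 ⟨by linarith, by linarith⟩
    linarith
  · intro k _ k' _ hkk
    refine Set.disjoint_left.2 fun ω h1 h2 => ?_
    simp only [mem_setOf_eq, mem_Ioo] at h1 h2
    have h3 : f k ≠ f k' := fun h => hkk (hf h)
    have h4 : (1 : ℝ) ≤ |(f k : ℝ) - f k'| := by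
      have : (1 : ℤ) ≤ |f k - f k'| := Int.one_le_abs (sub_ne_zero.2 h3)
      exact_mod_cast this
    have h5 : |((f k : ℝ) - f k') * Δ| < 2 * a := by
      have e : ((f k : ℝ) - f k') * Δ = ((f k : ℝ) * Δ - Y ω) - ((f k' : ℝ) * Δ - Y ω) := by ring
      rw [e, abs_lt]
      constructor <;> linarith
    rw [abs_mul] at h5
    nlinarith [abs_nonneg Δ]
  · intro k _
    exact hY measurableSet_Ioo

end windows

section widths

variable {Ω : Type*} [mΩ : MeasurableSpace Ω] {P : Measure Ω} [IsProbabilityMeasure P]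

/-- five iterations of `four_wl_le` -/
lemma wl_iter (L : B4.LP P) (i : Fin 2) : ∃ l0, ∀ l, l0 ≤ l →
    1024 * wl L i l ≤ wl L i (2 ^ 35 * l) := by
  obtain ⟨l0, h⟩ := four_wl_le L i
  refine ⟨l0, fun l hl => ?_⟩
  have h1 := h l hl
  have h2 := h (128 * l) (by omega)
  have h3 := h (128 * (128 * l)) (by omega)
  have h4 := h (128 * (128 * (128 * l))) (by omega)
  have h5 := h (128 * (128 * (128 * (128 * l)))) (by omega)
  have e : 2 ^ 35 * l = 128 * (128 * (128 * (128 * (128 * l)))) := by ring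
  rw [e]
  linarith

/-- centre and tail of the short climb, scale of the long one -/
lemma short_tail (L : B4.LP P) (i : Fin 2) (q : ℕ) (hq : 2 ≤ q) : ∃ l0, ∀ l, l0 ≤ l →
    ∃ c : ℝ, ∀ a : ℝ, wl L i (2 ^ (q + 35) * l) / 80 ≤ a →
      P.real {ω | a < |L.U l ω i - c|} ≤ 6 / (100 * (2 ^ q : ℕ)) := by
  obtain ⟨l1, h1⟩ := mob L i (2 ^ q)
  obtain ⟨l2, h2⟩ := wl_iter L i
  refine ⟨max l1 l2, fun l hl => ?_⟩
  obtain ⟨-, -, c, -, -, -, -, -, -, -, -, h3⟩ := h1 l ((le_max_left _ _).trans hl)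
  refine ⟨c, fun a ha => ?_⟩
  have hq3 : 3 ≤ 2 ^ q := by
    calc 3 ≤ 2 ^ 2 := by norm_num
      _ ≤ 2 ^ q := Nat.pow_le_pow_right (by norm_num) hq
  refine le_trans ?_ (h3 (2 ^ q) hq3 le_rfl)
  refine measureReal_mono ?_
  intro ω hω
  simp only [mem_setOf_eq] at hω ⊢
  have h4 := h2 (2 ^ q * l) (by
    have : l ≤ 2 ^ q * l := Nat.le_mul_of_pos_left _ (by positivity)
    exact ((le_max_right _ _).trans hl).trans this)
  have e : 2 ^ 35 * (2 ^ q * l) = 2 ^ (q + 35) * l := by rw [pow_add]; ring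
  rw [e] at h4
  have h5 := wl_pos L i (2 ^ q * l)
  have h6 : 9 * wl L i (2 ^ q * l) ≤ a := by linarith
  linarith

end widths

section row

variable {Q : Measure (Environment d)} [IsProbabilityMeasure Q] {κ : ℝ} {R : ℕ}

/-- real tail to measure -/
lemma le_of_real {Ω : Type*} [MeasurableSpace Ω] {P : Measure Ω} [IsFiniteMeasure P] {S : Set Ω}
    {r : ℝ} (h : P.real S ≤ r) : P S ≤ ENNReal.ofReal r := by
  rw [← ofReal_measureReal (μ := P) (s := S)]
  exact ENNReal.ofReal_le_ofReal h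

/-- **near cells** -/
lemma near_cells (F : Bind263.Frame Q κ R) (u : Step d) {i1 i2 : Fin d} (h1 : i1 ≠ u.1)
    (h2 : i2 ≠ u.1) (h12 : i1 ≠ i2) (hc : mkAnn κ Q 0 (Nat0 u R) ≠ 0) (i : Fin 2)
    (hN : NearP u R κ Q) {s δ : ℝ≥0∞} (hs : s ≠ 0) (hs1 : s ≤ 1) (hδ : δ ≠ 0) :
    ∃ p N0 : ℕ, ∀ N : ℕ, N0 ≤ N → 2 ^ p ∣ N → ∀ a : ℝ, 
      wl (lp F u h1 h2 h12 hc) i N / 80 ≤ a →
      ∀ (ℓ : ℕ) (x x' : Site d), lev u x = ℓ → lev u x' = ℓ →
        3 * a ≤ |lat i1 i2 x i - lat i1 i2 x' i| → ∀ T T' : Set (Site d),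
        mt u R κ Q s ((ℓ + N : ℕ) : ℤ) T T' x x' ≤ δ := by
  have := natLaw_isProb hc
  obtain ⟨η, hη, hη2⟩ := hN s δ hs hs1 hδ
  obtain ⟨q, hq2, hq⟩ : ∃ q : ℕ, 2 ≤ q ∧ ENNReal.ofReal (6 / (100 * (2 ^ q : ℕ))) ≤ η := by
    rcases eq_or_ne η ⊤ with h | h
    · exact ⟨2, le_rfl, by rw [h]; exact le_top⟩
    have hpos : 0 < η.toReal := ENNReal.toReal_pos hη h
    obtain ⟨q, hq⟩ := exists_nat_gt (1 / η.toReal)
    refine ⟨max 2 q, le_max_left _ _, ENNReal.ofReal_le_of_le_toReal ?_⟩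
    have h3 : (q : ℝ) < 2 ^ (max 2 q) := by
      have h5 : max 2 q < 2 ^ (max 2 q) := Nat.lt_two_pow_self
      have h6 : q < 2 ^ (max 2 q) := lt_of_le_of_lt (le_max_right _ _) h5
      exact_mod_cast h6
    have h4 : 1 / η.toReal < 2 ^ (max 2 q) := hq.trans h3
    rw [div_lt_iff₀ hpos] at h4
    rw [div_le_iff₀ (by positivity)]
    push_cast
    nlinarith
  obtain ⟨l0, hl0⟩ := short_tail (lp F u h1 h2 h12 hc) i q hq2
  obtain ⟨n0, hn0⟩ := hη2 (q + 35)
  refine ⟨q + 35, max (2 ^ (q + 35) * l0) (max n0 1), ?_⟩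
  rintro N hN0 ⟨l, rfl⟩ a ha ℓ x x' hx hx' hxx T T'
  have hl : l0 ≤ l := by
    have h3 := (le_max_left _ _).trans hN0
    exact Nat.le_of_mul_le_mul_left h3 (by positivity)
  obtain ⟨c, hcc⟩ := hl0 l hl
  have htail : natLaw κ Q u R {s | a < |UU u i1 i2 l s i - c|} ≤ η :=
    (le_of_real (hcc a ha)).trans hq
  have ha0 : 0 < a := lt_of_lt_of_le (by have := wl_pos (lp F u h1 h2 h12 hc) i
                                          (2 ^ (q + 35) * l); positivity) ha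
  have hln : l ≤ 2 ^ (q + 35) * l := Nat.le_mul_of_pos_left _ (by positivity)
  have key := hn0 (2 ^ (q + 35) * l) ((le_max_left _ _).trans ((le_max_right _ _).trans hN0)) l hln
    le_rfl (ℓ : ℤ) x x' hx hx' {y | |lat i1 i2 y i - lat i1 i2 x i - c| ≤ a} ?_ ?_ T T'
  · have e : ((ℓ + 2 ^ (q + 35) * l : ℕ) : ℤ) = (ℓ : ℤ) + ((2 ^ (q + 35) * l : ℕ) : ℤ) := by
      push_cast; ring
    rw [e]; exact key
  · have h3 := succ_out_le u i1 i2 i F hx hc htail
      {y | |lat i1 i2 y i - lat i1 i2 x i - c| ≤ a}ᶜ (fun y hy _ => by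
        simpa using hy)
    have e : ((ℓ + l : ℕ) : ℤ) = (ℓ : ℤ) + (l : ℤ) := by push_cast; ring
    rw [e] at h3; exact h3
  · have h3 := succ_out_le u i1 i2 i F hx' hc htail
      {y | |lat i1 i2 y i - lat i1 i2 x i - c| ≤ a} (fun y hy _ => by
        simp only [mem_setOf_eq] at hy
        have h4 : |lat i1 i2 x i - lat i1 i2 x' i| ≤ |lat i1 i2 y i - lat i1 i2 x' i - c| +
            |lat i1 i2 y i - lat i1 i2 x i - c| := by
          have := abs_sub (lat i1 i2 y i - lat i1 i2 x' i - c) (lat i1 i2 y i - lat i1 i2 x i - c)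
          have e : (lat i1 i2 y i - lat i1 i2 x' i - c) - (lat i1 i2 y i - lat i1 i2 x i - c) =
            lat i1 i2 x i - lat i1 i2 x' i := by ring
          rw [e] at this
          exact this
        linarith)
    have e : ((ℓ + l : ℕ) : ℤ) = (ℓ : ℤ) + (l : ℤ) := by push_cast; ring
    rw [e] at h3; exact h3

/-- **(ROW)** -/
theorem row (F : Bind263.Frame Q κ R) (u : Step d) {i1 i2 : Fin d} (h1 : i1 ≠ u.1)
    (h2 : i2 ≠ u.1) (h12 : i1 ≠ i2) (hc : mkAnn κ Q 0 (Nat0 u R) ≠ 0) (i : Fin 2)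
    (hN : NearP u R κ Q) {s H κx : ℝ≥0∞} (hs : s ≠ 0) (hs1 : s ≤ 1) (hH : H ≠ ⊤)
    (hCAP : ∀ b : ℤ, CAP u R κ Q s b H) (hκ : κx ≠ 0) :
    ∃ m : ℕ, 3 ≤ m ∧ ∀ B : ℝ, ∃ p N0 : ℕ, ∀ N : ℕ, N0 ≤ N → 2 ^ p ∣ N →
      wl (lp F u h1 h2 h12 hc) i (m * N) ≤ B * wl (lp F u h1 h2 h12 hc) i N →
      ∀ c1 c2 a : ℝ, wl (lp F u h1 h2 h12 hc) i N / 80 ≤ a → 4 * a ≤ |c2 - c1| →
        (natLaw κ Q u R).real
          {ω | 9 * wl (lp F u h1 h2 h12 hc) i (m * N) < |UU u i1 i2 N ω i - c1|} ≤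
            6 / (100 * m) →
        ∀ (ℓ : ℕ) (t : ℝ) (o : ℤ), |o| ≤ 1 →
          ROW u R κ Q s ((ℓ + N : ℕ) : ℤ) (fun l : ℤ => strip u i1 i2 i a ℓ (t + l * (c2 - c1)))
            (fun l : ℤ => strip u i1 i2 i a (ℓ + N) (t + c1 + (l + o : ℤ) * (c2 - c1))) κx := by
  have hprob := natLaw_isProb hc
  -- the multiple `m`
  have hs2 : s ^ 2 ≠ 0 := pow_ne_zero 2 hs
  have hHs : H / s ^ 2 ≠ ⊤ := ENNReal.div_ne_top hH hs2
  obtain ⟨m, hm3, hm⟩ : ∃ m : ℕ, 3 ≤ m ∧ H / s ^ 2 * ENNReal.ofReal (6 / (100 * m)) ≤ κx / 2 := by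
    have hk2 : κx / 2 ≠ 0 := (ENNReal.div_pos hκ (by simp)).ne'
    rcases eq_or_ne (κx / 2) ⊤ with h | h
    · exact ⟨3, le_rfl, by rw [h]; exact le_top⟩
    have hpos : 0 < (κx / 2).toReal := ENNReal.toReal_pos hk2 h
    obtain ⟨m, hm⟩ := exists_nat_gt ((H / s ^ 2).toReal / (κx / 2).toReal)
    refine ⟨max 3 m, le_max_left _ _, ?_⟩
    rw [← ENNReal.ofReal_toReal hHs, ← ENNReal.ofReal_mul ENNReal.toReal_nonneg]
    refine ENNReal.ofReal_le_of_le_toReal ?_
    have h3 : (m : ℝ) ≤ (max 3 m : ℕ) := by exact_mod_cast le_max_right 3 m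
    have h5 : (0 : ℝ) < (max 3 m : ℕ) := by
      have : 0 < max 3 m := lt_of_lt_of_le (by norm_num) (le_max_left 3 m)
      exact_mod_cast this
    have h4 := hm.le.trans h3
    rw [div_le_iff₀ hpos] at h4
    rw [← mul_div_assoc, div_le_iff₀ (by positivity)]
    nlinarith [ENNReal.toReal_nonneg (a := H / s ^ 2)]
  refine ⟨m, hm3, fun B => ?_⟩
  -- number of near cells
  obtain ⟨R0, hR0, hR0B⟩ : ∃ R0 : ℕ, 1 ≤ R0 ∧ 240 * B ≤ R0 := by
    obtain ⟨r, hr⟩ := exists_nat_ge (240 * B)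
    exact ⟨max 1 r, le_max_left _ _, hr.trans (by exact_mod_cast le_max_right 1 r)⟩
  set δ : ℝ≥0∞ := κx / 2 / (2 * R0 + 1 : ℕ) with hδdef
  have hδ : δ ≠ 0 := by
    refine (ENNReal.div_pos (ENNReal.div_pos hκ (by simp)).ne' ?_).ne'
    exact ENNReal.natCast_ne_top _
  obtain ⟨p, N0, hnear⟩ := near_cells F u h1 h2 h12 hc i hN hs hs1 hδ
  refine ⟨p, N0, fun N hN0 hpN hB c1 c2 a ha hΔ htail ℓ t o ho => ?_⟩
  have hw := wl_pos (lp F u h1 h2 h12 hc) i N
  have hwm := wl_pos (lp F u h1 h2 h12 hc) i (m * N)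
  have ha0 : 0 < a := lt_of_lt_of_le (by positivity) ha
  intro l x hx K hlK
  classical
  -- split the row
  set Kn := K.filter fun l' => |l' - l| ≤ R0 with hKn
  set Kf := K.filter fun l' => ¬ |l' - l| ≤ R0 with hKf
  have hsplit : ∑ l' ∈ K, ⨆ x' ∈ strip u i1 i2 i a ℓ (t + l' * (c2 - c1)),
      mt u R κ Q s ((ℓ + N : ℕ) : ℤ) (strip u i1 i2 i a (ℓ + N) (t + c1 + (l + o : ℤ) * (c2 - c1)))
        (strip u i1 i2 i a (ℓ + N) (t + c1 + (l' + o : ℤ) * (c2 - c1))) x x' =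
      ∑ l' ∈ Kn, (⨆ x' ∈ strip u i1 i2 i a ℓ (t + l' * (c2 - c1)),
      mt u R κ Q s ((ℓ + N : ℕ) : ℤ) (strip u i1 i2 i a (ℓ + N) (t + c1 + (l + o : ℤ) * (c2 - c1)))
        (strip u i1 i2 i a (ℓ + N) (t + c1 + (l' + o : ℤ) * (c2 - c1))) x x') +
      ∑ l' ∈ Kf, ⨆ x' ∈ strip u i1 i2 i a ℓ (t + l' * (c2 - c1)),
      mt u R κ Q s ((ℓ + N : ℕ) : ℤ) (strip u i1 i2 i a (ℓ + N) (t + c1 + (l + o : ℤ) * (c2 - c1)))
        (strip u i1 i2 i a (ℓ + N) (t + c1 + (l' + o : ℤ) * (c2 - c1))) x x' :=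
    (Finset.sum_filter_add_sum_filter_not K _ _).symm
  show ∑ l' ∈ K, ⨆ x' ∈ strip u i1 i2 i a ℓ (t + l' * (c2 - c1)),
      mt u R κ Q s ((ℓ + N : ℕ) : ℤ) (strip u i1 i2 i a (ℓ + N) (t + c1 + (l + o : ℤ) * (c2 - c1)))
        (strip u i1 i2 i a (ℓ + N) (t + c1 + (l' + o : ℤ) * (c2 - c1))) x x' ≤ κx
  rw [hsplit, ← ENNReal.add_halves κx]
  refine add_le_add ?_ ?_
  · -- near cells
    have hcard : Kn.card ≤ 2 * R0 + 1 := by
      have hsub : Kn ⊆ Finset.Icc (l - R0) (l + R0) := by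
        intro l' hl'
        have h3 := (Finset.mem_filter.1 hl').2
        rw [abs_le] at h3
        rw [Finset.mem_Icc]
        constructor <;> linarith [h3.1, h3.2]
      refine (Finset.card_le_card hsub).trans (le_of_eq ?_)
      rw [Int.card_Icc]
      omega
    have hle : ∀ l' ∈ Kn, (⨆ x' ∈ strip u i1 i2 i a ℓ (t + l' * (c2 - c1)),
      mt u R κ Q s ((ℓ + N : ℕ) : ℤ) (strip u i1 i2 i a (ℓ + N) (t + c1 + (l + o : ℤ) * (c2 - c1)))
        (strip u i1 i2 i a (ℓ + N) (t + c1 + (l' + o : ℤ) * (c2 - c1))) x x') ≤ δ := by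
      intro l' hl'
      refine iSup₂_le fun x' hx' => ?_
      refine hnear N hN0 hpN a ha ℓ x x' hx.1 hx'.1 ?_ _ _
      have hne : l ≠ l' := fun h => hlK (h ▸ (Finset.mem_filter.1 hl').1)
      have h3 : (1 : ℝ) ≤ |(l : ℝ) - l'| := by
        have : (1 : ℤ) ≤ |l - l'| := Int.one_le_abs (sub_ne_zero.2 hne)
        exact_mod_cast this
      have h4 : 4 * a ≤ |((l : ℝ) - l') * (c2 - c1)| := by
        rw [abs_mul]
        nlinarith [abs_nonneg (c2 - c1)]
      have h5 := hx.2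
      have h6 := hx'.2
      simp only [mem_Ico] at h5 h6
      have h7 : |((l : ℝ) - l') * (c2 - c1)| ≤ |lat i1 i2 x i - lat i1 i2 x' i| + a := by
        have e : ((l : ℝ) - l') * (c2 - c1) = (lat i1 i2 x i - lat i1 i2 x' i) -
          ((lat i1 i2 x i - (t + l * (c2 - c1))) - (lat i1 i2 x' i - (t + l' * (c2 - c1)))) := by
          ring
        rw [e]
        refine (abs_sub _ _).trans (add_le_add le_rfl ?_)
        rw [abs_le]; constructor <;> linarith
      linarith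
    refine (Finset.sum_le_card_nsmul _ _ _ hle).trans ?_
    rw [nsmul_eq_mul]
    calc (Kn.card : ℝ≥0∞) * δ ≤ (2 * R0 + 1 : ℕ) * δ := by
          gcongr
      _ ≤ κx / 2 := by
          rw [hδdef]
          exact ENNReal.mul_div_le
  · -- far cells
    have hterm : ∀ l' ∈ Kf, (⨆ x' ∈ strip u i1 i2 i a ℓ (t + l' * (c2 - c1)),
      mt u R κ Q s ((ℓ + N : ℕ) : ℤ) (strip u i1 i2 i a (ℓ + N) (t + c1 + (l + o : ℤ) * (c2 - c1)))
        (strip u i1 i2 i a (ℓ + N) (t + c1 + (l' + o : ℤ) * (c2 - c1))) x x') ≤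
        H / s ^ 2 * natLaw κ Q u R {ω | UU u i1 i2 N ω i - c1 ∈
          Ioo (((l + o - l' : ℤ) : ℝ) * (c2 - c1) - a) (((l + o - l' : ℤ) : ℝ) * (c2 - c1) + a)} := by
      intro l' _
      refine iSup₂_le fun x' hx' => ?_
      refine (hCAP _ _ _ x x' (by rw [hx.1, hx'.1])).trans (mul_le_mul' le_rfl ?_)
      have h3 := succ_strip_le u i1 i2 i F (n := N) (t := t + (l + o : ℤ) * (c2 - c1)) (c := c1)
        hx' hc
      have e1 : t + (l + o : ℤ) * (c2 - c1) + c1 = t + c1 + (l + o : ℤ) * (c2 - c1) := by ring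
      rw [e1] at h3
      refine h3.trans (le_of_eq ?_)
      have e2 : t + ((l + o : ℤ) : ℝ) * (c2 - c1) - (t + l' * (c2 - c1)) =
        ((l + o - l' : ℤ) : ℝ) * (c2 - c1) := by push_cast; ring
      rw [e2]
    refine (Finset.sum_le_sum hterm).trans ?_
    rw [← Finset.mul_sum]
    refine le_trans ?_ hm
    gcongr
    have hmeas : Measurable fun ω : MPath d => UU u i1 i2 N ω i - c1 :=
      ((MobW437.meas_U (lp F u h1 h2 h12 hc) N).eval (a := i)).sub_const _
    have h3 := sum_windows (P := natLaw κ Q u R) hmeas hΔ ha0 Kf (fun l' => l + o - l')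
      (fun x y h => by simpa using h) (r := 9 * wl (lp F u h1 h2 h12 hc) i (m * N)) ?_
    · exact h3.trans (le_of_real htail)
    · intro l' hl'
      have h4 := (Finset.mem_filter.1 hl').2
      have h5 : (R0 : ℤ) ≤ |l + o - l'| := by
        have h6 : |l' - l| ≤ |l + o - l'| + |o| := by
          have := abs_sub o (l + o - l')
          have e : o - (l + o - l') = l' - l := by ring
          rw [e] at this
          linarith
        omega
      have h6 : (R0 : ℝ) ≤ |((l + o - l' : ℤ) : ℝ)| := by exact_mod_cast h5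
      have h7 : (1 : ℝ) ≤ R0 := by exact_mod_cast hR0
      rw [abs_mul]
      have h8 : (R0 : ℝ) * (4 * a) ≤ |((l + o - l' : ℤ) : ℝ)| * |c2 - c1| := by gcongr
      have h9 : 9 * wl (lp F u h1 h2 h12 hc) i (m * N) ≤ 3 * a * R0 := by
        have h10 : 240 * B * wl (lp F u h1 h2 h12 hc) i N ≤ R0 * (80 * a) := by
          have hB0 : 0 ≤ B := by
            by_contra hneg
            push Not at hneg
            nlinarith
          have : wl (lp F u h1 h2 h12 hc) i N ≤ 80 * a := by linarith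
          gcongr
        nlinarith
      nlinarith

/-- the near bound of helper424 from helper923's capacity bound -/
lemma nearP (F : Bind263.Frame Q κ R) (hd : 3 ≤ d) (u : Step d)
    (hA : annealedProb Q 0 (escapeEvent (B2d.dirVec u)) ≠ 0) (hHalf : KB424.Half κ Q) :
    NearP u R κ Q := by
  intro s δ hs hs1 hδ
  obtain ⟨H, hH, hCAP⟩ := Cap923.cap_frame (u := u) F hHalf
  exact Near424.near F hd hA hHalf hH
    (fun s b hs hs1 => hCAP s hs (ne_top_of_le_ne_top ENNReal.one_ne_top hs1) b) hs hs1 hδ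

/-- **(ROW), closed**: for `s, κx` there is a multiple `m` such that at every dyadic height `N ≥ N0`
with `wl (m N) ≤ B wl N` the cells of helper437's `mob` satisfy both row conditions of helper872's
binding (own target cell, right target cell). -/
theorem row_final (F : Bind263.Frame Q κ R) (hd : 3 ≤ d) (u : Step d) {i1 i2 : Fin d}
    (h1 : i1 ≠ u.1) (h2 : i2 ≠ u.1) (h12 : i1 ≠ i2) (hc : mkAnn κ Q 0 (Nat0 u R) ≠ 0)
    (hA : annealedProb Q 0 (escapeEvent (B2d.dirVec u)) ≠ 0) (hHalf : KB424.Half κ Q) (i : Fin 2)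
    {s κx : ℝ≥0∞} (hs : s ≠ 0) (hs1 : s ≤ 1) (hκ : κx ≠ 0) :
    ∃ m : ℕ, 3 ≤ m ∧ ∀ B : ℝ, ∃ p N0 : ℕ, ∀ N : ℕ, N0 ≤ N → 2 ^ p ∣ N →
      wl (lp F u h1 h2 h12 hc) i (m * N) ≤ B * wl (lp F u h1 h2 h12 hc) i N →
      ∀ c1 c2 a : ℝ, wl (lp F u h1 h2 h12 hc) i N / 80 ≤ a → 4 * a ≤ |c2 - c1| →
        (natLaw κ Q u R).real
          {ω | 9 * wl (lp F u h1 h2 h12 hc) i (m * N) < |UU u i1 i2 N ω i - c1|} ≤
            6 / (100 * m) →
        ∀ (ℓ : ℕ) (t : ℝ),
          ROW u R κ Q s ((ℓ + N : ℕ) : ℤ) (fun x : ℤ => strip u i1 i2 i a ℓ (t + x * (c2 - c1)))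
            (fun x : ℤ => strip u i1 i2 i a (ℓ + N) (t + c1 + x * (c2 - c1))) κx ∧
          ROW u R κ Q s ((ℓ + N : ℕ) : ℤ) (fun x : ℤ => strip u i1 i2 i a ℓ (t + x * (c2 - c1)))
            (fun x : ℤ => strip u i1 i2 i a (ℓ + N) (t + c1 + (x + 1) * (c2 - c1))) κx := by
  obtain ⟨H, hH, hCAP⟩ := Cap923.cap_frame (u := u) F hHalf
  obtain ⟨m, hm, hrow⟩ := row F u h1 h2 h12 hc i (nearP F hd u hA hHalf) hs hs1 hH
    (fun b => hCAP s hs (ne_top_of_le_ne_top ENNReal.one_ne_top hs1) b) hκ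
  refine ⟨m, hm, fun B => ?_⟩
  obtain ⟨p, N0, h⟩ := hrow B
  refine ⟨p, N0, fun N hN0 hpN hB c1 c2 a ha hΔ htail ℓ t => ⟨?_, ?_⟩⟩
  · have h3 := h N hN0 hpN hB c1 c2 a ha hΔ htail ℓ t 0 (by simp)
    simpa using h3
  · have h3 := h N hN0 hpN hB c1 c2 a ha hΔ htail ℓ t 1 (by simp)
    simpa using h3

end row

end Crest.Agent.R154.Row12
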