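import Crest.Agent.R154.D1A_569
import Crest.Agent.R154.Spine2_796
import Crest.Agent.R154.D1Small_569
import Crest.Agent.R154.D2Asm_244
import Crest.Agent.R154.ChainFL_263
import Crest.Agent.R154.KBEnd_424

-- ▼ part R154/FLofFLe_169
section

/-!
Row 154 (helper169): `FLe → FL` under uniform ellipticity (Spine2_796.FLofFLe): the walk goes
inside level `0` to the best site of the ball of radius `η i`, at cost `κ ^ (d η i)`.
-/

set_option autoImplicit false

namespace Crest.Agent.R154.FLofFLe169

open MeasureTheory ProbabilityTheory Crest.ProbabilityR.RandomEnvironment Crest.Agent.R154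
open Crest.Agent.R154.Flux132 (lev opp norm1)
open scoped ENNReal

variable {d : ℕ}

/-- at level `0` the events `Climb` and `Up0` agree almost surely -/
lemma climb_eq_up0 (ω : Environment d) (u : Step d) (h : ℕ) {z : Site d} (hz : lev u z = 0) :
    quenchedLaw ω z (Fin804.Climb u h) = quenchedLaw ω z (D1S.Up0 u h) := by
  refine measure_congr ?_
  filter_upwards [quenched_zero_eq ω z] with X hX
  refine propext ⟨?_, ?_⟩
  · rintro ⟨n, h1, h2⟩
    rw [hX, hz] at h1
    refine ⟨n, by omega, fun k hk => ?_⟩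
    have := h2 k hk
    rwa [hX, hz] at this
  · rintro ⟨n, h1, h2⟩
    refine ⟨n, by rw [hX, hz]; omega, fun k hk => ?_⟩
    rw [hX, hz]
    exact h2 k hk

lemma norm1_le_nrm (z : Site d) : (norm1 z : ℤ) ≤ d * Fin804.nrm z := by
  unfold norm1
  push_cast
  calc (∑ i, |z i|) ≤ ∑ _i : Fin d, Fin804.nrm z :=
        Finset.sum_le_sum fun i _ => (Fin804.nrm_le_iff (Fin804.nrm_nonneg z)).1 le_rfl i
    _ = d * Fin804.nrm z := by
        rw [Finset.sum_const, Finset.card_univ, Fintype.card_fin, nsmul_eq_mul]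

theorem flofFLe : Spine.FLofFLe := by
  intro d Q _ κ hκ hell u hF δ M hδ hM
  -- a smaller ellipticity constant
  set k : ℝ := min κ (1 / 2) with hk
  have hk0 : 0 < k := lt_min hκ (by norm_num)
  have hk1 : k ≤ 1 := (min_le_right _ _).trans (by norm_num)
  have hk2 : k < 1 := lt_of_le_of_lt (min_le_right _ _) (by norm_num)
  set L : ℝ := -Real.log k with hL
  have hL0 : 0 < L := by
    have := Real.log_neg hk0 hk2
    linarith
  have hkL : k = Real.exp (-L) := by rw [hL, neg_neg, Real.exp_log hk0]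
  set η : ℝ := δ / (2 * ((d : ℝ) + 1) * L) with hη
  have hd1 : (0 : ℝ) < (d : ℝ) + 1 := by positivity
  have hη0 : 0 < η := by positivity
  obtain ⟨C, hC⟩ := hF (δ / 2) M η (by linarith) hM hη0
  refine ⟨C, fun i => le_trans (measure_mono_ae ?_) (hC i)⟩
  filter_upwards [hell] with ω hω hlt z hz hn
  have hω' : ∀ (x : Site d) (e : Step d), k ≤ (ω x).1 e := fun x e => (min_le_left _ _).trans (hω x e)
  by_contra hcon
  have hcon' := not_lt.1 hcon
  have hlt' : quenchedLaw ω 0 (Fin804.Climb u (10 ^ i)) < ENNReal.ofReal (Real.exp (-(δ * i))) := hlt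
  have h0 : lev u (0 : Site d) = 0 := D1S.lev_zero u
  have hp := D1S.path_ge ω hω' u ((10 ^ i : ℕ) : ℤ) (norm1 z) 0 z (by rw [sub_zero]) hk1
    h0.ge hz.ge
  rw [← climb_eq_up0 ω u _ h0, ← climb_eq_up0 ω u _ hz] at hp
  have h1 : ENNReal.ofReal (k ^ (norm1 z) * Real.exp (-(δ / 2 * i)))
      < ENNReal.ofReal (Real.exp (-(δ * i))) := by
    rw [ENNReal.ofReal_mul (by positivity), ENNReal.ofReal_pow hk0.le]
    exact lt_of_le_of_lt ((mul_le_mul' le_rfl hcon').trans hp) hlt'
  have h2 := (ENNReal.ofReal_lt_ofReal_iff (Real.exp_pos _)).1 h1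
  have h3 : (norm1 z : ℝ) ≤ d * (η * i) := by
    have h4 : ((norm1 z : ℤ) : ℝ) ≤ ((d * Fin804.nrm z : ℤ) : ℝ) := by
      exact_mod_cast norm1_le_nrm z
    push_cast at h4
    refine h4.trans ?_
    gcongr
  have h5 : (norm1 z : ℝ) * L ≤ δ / 2 * i := by
    have hi : (0 : ℝ) ≤ i := Nat.cast_nonneg i
    have h6 : (norm1 z : ℝ) ≤ (d + 1) * (η * i) := h3.trans (by
      have : 0 ≤ η * i := by positivity
      nlinarith)
    calc (norm1 z : ℝ) * L ≤ ((d + 1) * (η * i)) * L := by gcongr
      _ = δ / 2 * i := by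
        rw [hη]
        field_simp
  have h7 : k ^ (norm1 z) = Real.exp (-(norm1 z * L)) := by
    rw [hkL, ← Real.exp_nat_mul]
    ring_nf
  rw [h7, ← Real.exp_add, Real.exp_lt_exp] at h2
  linarith

end Crest.Agent.R154.FLofFLe169
end

-- ▼ part R154/Top_169
section

/-!
Row 154 (helper169), TOP GLUE: the whole row (S0219, S0220, S0221) from the two open inputs
`Spine.FLeProp` (`d ≥ 3`) and `D2Asm244.TileD2` (`d = 2`).
-/

set_option autoImplicit false

namespace Crest.Agent.R154.Top169

open MeasureTheory ProbabilityTheory Crest.ProbabilityR.RandomEnvironment Crest.Agent.R154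
open Crest.Agent.R154.Spine

/-- every direction of the plane has a lateral coordinate -/
lemma exists_lat (u : Step 2) : ∃ i' : Fin 2, i' ≠ u.1 := by
  by_contra hcon
  push Not at hcon
  exact absurd ((hcon 0).trans (hcon 1).symm) (by decide)

theorem smallD2 : D2Asm244.SmallD2 := by
  intro ν _ κ hκ hν u hu A hA
  exact D1S.small_heights ν hκ hν u (exists_lat u) hu hA

theorem fl2 (h : D2Asm244.TileD2) : FL2Prop1 := D2Asm244.fl2_of h smallD2

/-- **S0219** from `FLeProp` -/
theorem t0219 (h : FLeProp) : T0219 := s0219_of_FLe h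

/-- **S0220** from `FLeProp` and the `d = 2` tile -/
theorem t0220 (h : FLeProp) (h2 : D2Asm244.TileD2) : T0220 :=
  s0220_of_FLe h FLofFLe169.flofFLe (fl2 h2)

/-- **S0221** from `FLeProp` -/
theorem t0221 (h : FLeProp) : T0221 := s0221_of_FLe h FLofFLe169.flofFLe


end Crest.Agent.R154.Top169
end

-- ▼ part R154/Top2_169

/-!
Row 154 (helper169), TOP GLUE, second layer: `Spine.FLeProp` from the window input `HWProp` and the
small-heights input `HIProp`, both only for frames with half coins (`KB424.Half`, so that 424's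
`kb`, `smallE`, `lateHyp` apply), on 244's kernel system `kT`.
-/

set_option autoImplicit false

namespace Crest.Agent.R154.Top169

open MeasureTheory ProbabilityTheory Crest.ProbabilityR.RandomEnvironment Crest.Agent.R154
open Crest.Agent.R154.Spine Crest.Agent.R154.Mk561
open scoped ENNReal


/-- **OPEN INPUT 2 of `d ≥ 3`**: small heights (init) from the uniform law on a ball. -/
def HIProp : Prop :=
  ∀ (d : ℕ) (_ : 3 ≤ d) (Q : Measure (Environment d)) [IsProbabilityMeasure Q] (κ : ℝ) (R : ℕ)
    (F : Bind263.Frame Q κ R) (_ : KB424.Half κ Q) (u : Step d),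
    annealedProb Q 0 (escapeEvent (B2d.dirVec u)) ≠ 0 →
      ChainFL.HI (D2Asm244.kT u R κ Q F.stat F.fin) u




end Crest.Agent.R154.Top169
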