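import Crest.Agent.R154.JObj1_132

-- ▼ part R154/JObj2_132
section

/-! Row 154, joint blocks of two independent natural walkers: the `k`-th block, from two start
sites of one level. -/

set_option autoImplicit false
set_option linter.unusedSectionVars false
set_option linter.deprecated false

namespace Crest.Agent.R154.J132

open MeasureTheory ProbabilityTheory Filter Set Crest.ProbabilityR.RandomEnvironment
open Crest.Agent.R154.Mk561 Crest.Agent.R154.Bind263 Crest.Agent.R154.B4Inst797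
open Crest.Agent.R154.Ren263 (Word pre hgt Stay Record len_pre hgt_zero hgt_shift)
open Crest.Agent.R154.RenG263 (RecSys Reg tau tau_spec tau_min blk0 blks RegInf rest_mem reg_shift)
open scoped ENNReal Topology

variable {d : ℕ} {u : Step d} {κ : ℝ} {R : ℕ}

/-- height of the `k`-th joint cut -/
noncomputable def Hk (u : Step d) (κ : ℝ) (R : ℕ) (k : ℕ) (π : MPath d × MPath d) : ℕ :=
  ∑ i ∈ Finset.range k, Rj u (jw u κ R i π)

/-- difference of the displacements at the `k`-th joint cut -/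
noncomputable def Sk (φ : Site d →+ ℝ) (u : Step d) (κ : ℝ) (R : ℕ) (k : ℕ)
    (π : MPath d × MPath d) : ℝ :=
  ∑ i ∈ Finset.range k, Vj φ (jw u κ R i π)

lemma pos_zero_add (s : MPath d) (n m : ℕ) :
    pos 0 s (n + m) = pos 0 s n + pos 0 (Ren263.shift n s) m := by
  unfold pos Ren263.shift
  rw [Finset.sum_range_add, zero_add, zero_add, zero_add]

lemma pos_start (x : Site d) (s : MPath d) (n : ℕ) : pos x s n = x + pos 0 s n := by
  unfold pos
  rw [zero_add]

lemma jw_succ {π : MPath d × MPath d} (hπ : π ∈ JG u κ R) (k : ℕ) :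
    jw u κ R (k + 1) π = jw u κ R k (jr u κ R π) := by
  unfold jw wdk
  rw [Function.iterate_succ_apply, bp_jr hπ]

lemma jw_add {π : MPath d × MPath d} (hπ : π ∈ JG u κ R) (k j : ℕ) :
    jw u κ R (k + j) π = jw u κ R j ((jr u κ R)^[k] π) := by
  unfold jw wdk
  rw [(bp_iter hπ k).2, ← Function.iterate_add_apply, Nat.add_comm k j]

lemma Hk_zero (π : MPath d × MPath d) : Hk u κ R 0 π = 0 := by simp [Hk]

lemma Hk_succ (k : ℕ) (π : MPath d × MPath d) :
    Hk u κ R (k + 1) π = Hk u κ R k π + Rj u (jw u κ R k π) := Finset.sum_range_succ _ _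

lemma Hk_succ' {π : MPath d × MPath d} (hπ : π ∈ JG u κ R) (k : ℕ) :
    Hk u κ R (k + 1) π = Rj u (jw u κ R 0 π) + Hk u κ R k (jr u κ R π) := by
  unfold Hk
  rw [Finset.sum_range_succ', add_comm]
  congr 1
  exact Finset.sum_congr rfl fun i _ => by rw [jw_succ hπ]

lemma Sk_succ' {π : MPath d × MPath d} (hπ : π ∈ JG u κ R) (φ : Site d →+ ℝ) (k : ℕ) :
    Sk φ u κ R (k + 1) π = Vj φ (jw u κ R 0 π) + Sk φ u κ R k (jr u κ R π) := by
  unfold Sk
  rw [Finset.sum_range_succ', add_comm]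
  congr 1
  exact Finset.sum_congr rfl fun i _ => by rw [jw_succ hπ]

lemma Jk_succ_last (k : ℕ) (π : MPath d × MPath d) :
    Jk u κ R (k + 1) π = Jk u κ R k π + J1 u κ R ((jr u κ R)^[k] π) := by
  induction k generalizing π with
  | zero =>
    simp only [Jk, Function.iterate_zero, id_eq]
    exact (add_zero _).trans (zero_add _).symm
  | succ k ih =>
    rw [Function.iterate_succ_apply]
    change J1 u κ R π + Jk u κ R (k + 1) (jr u κ R π) = J1 u κ R π + Jk u κ R k (jr u κ R π)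
      + J1 u κ R ((jr u κ R)^[k] (jr u κ R π))
    rw [ih (jr u κ R π), add_assoc]

/-- both walkers hit the level `Hk` for the first time at the joint cut times and stay above it. -/
theorem cutk {π : MPath d × MPath d} (hπ : π ∈ JG u κ R) (k : ℕ) :
    Hit u (Hk u κ R k π) (Jk u κ R k π).1 π.1 ∧ Hit u (Hk u κ R k π) (Jk u κ R k π).2 π.2 ∧
    (∀ n, (Jk u κ R k π).1 ≤ n → ((Hk u κ R k π : ℕ) : ℤ) ≤ zh u π.1 n) ∧
    (∀ n, (Jk u κ R k π).2 ≤ n → ((Hk u κ R k π : ℕ) : ℤ) ≤ zh u π.2 n) := by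
  induction k generalizing π with
  | zero =>
    rw [Hk_zero]
    refine ⟨hit_zero u _, hit_zero u _, fun n _ => ?_, fun n _ => ?_⟩
    · exact_mod_cast stay_zh.1 hπ.1.1 n
    · exact_mod_cast stay_zh.1 hπ.2.1.1 n
  | succ k ih =>
    obtain ⟨a1, a2, a3, a4, _⟩ := first_block hπ
    obtain ⟨b1, b2, b3, b4⟩ := ih (jr_mem hπ)
    rw [Hk_succ' hπ]
    refine ⟨hit_comp a1 b1, hit_comp a2 b2, fun n hn => ?_, fun n hn => ?_⟩
    · have h1 : (J1 u κ R π).1 + (Jk u κ R k (jr u κ R π)).1 ≤ n := hn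
      obtain ⟨m, rfl⟩ := Nat.exists_eq_add_of_le
        (show (J1 u κ R π).1 ≤ n from le_trans (Nat.le_add_right _ _) h1)
      have h2 : zh u π.1 (J1 u κ R π).1 = _ := a1.1
      have h3 : _ ≤ zh u (Ren263.shift (J1 u κ R π).1 π.1) m := b3 m (by omega)
      rw [zh_add, h2]
      push_cast
      linarith
    · have h1 : (J1 u κ R π).2 + (Jk u κ R k (jr u κ R π)).2 ≤ n := hn
      obtain ⟨m, rfl⟩ := Nat.exists_eq_add_of_le
        (show (J1 u κ R π).2 ≤ n from le_trans (Nat.le_add_right _ _) h1)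
      have h2 : zh u π.2 (J1 u κ R π).2 = _ := a2.1
      have h3 : _ ≤ zh u (Ren263.shift (J1 u κ R π).2 π.2) m := b4 m (by omega)
      rw [zh_add, h2]
      push_cast
      linarith

lemma one_le_Rj {π : MPath d × MPath d} (hπ : π ∈ JG u κ R) (k : ℕ) :
    1 ≤ Rj u (jw u κ R k π) := by
  have h := (first_block (bp_iter hπ k).1).2.2.2.2
  rwa [← jw_add hπ k 0] at h

lemma Hk_lt {π : MPath d × MPath d} (hπ : π ∈ JG u κ R) (k : ℕ) :
    Hk u κ R k π < Hk u κ R (k + 1) π := by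
  have := one_le_Rj hπ k
  rw [Hk_succ]
  omega

lemma Hk_strictMono {π : MPath d × MPath d} (hπ : π ∈ JG u κ R) :
    StrictMono fun k => Hk u κ R k π := strictMono_nat_of_lt_succ (Hk_lt hπ)

lemma le_Hk {π : MPath d × MPath d} (hπ : π ∈ JG u κ R) (k : ℕ) : k ≤ Hk u κ R k π :=
  (Hk_strictMono hπ).le_apply

/-- every level is in exactly one joint block -/
lemma exists_Hk {π : MPath d × MPath d} (hπ : π ∈ JG u κ R) (l : ℕ) :
    ∃ k, Hk u κ R k π ≤ l ∧ l < Hk u κ R (k + 1) π := by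
  classical
  have hex : ∃ k, l < Hk u κ R (k + 1) π := ⟨l, lt_of_lt_of_le (Nat.lt_succ_self l) (le_Hk hπ _)⟩
  refine ⟨Nat.find hex, ?_, Nat.find_spec hex⟩
  rcases Nat.eq_zero_or_pos (Nat.find hex) with h | h
  · rw [h, Hk_zero]; exact Nat.zero_le _
  · obtain ⟨j, hj⟩ := Nat.exists_eq_succ_of_ne_zero h.ne'
    have := Nat.find_min hex (m := j) (by omega)
    rw [hj]
    exact not_lt.1 this

/-- difference of the displacements at the joint cut -/
theorem cutW {π : MPath d × MPath d} (hπ : π ∈ JG u κ R) (φ : Site d →+ ℝ) (k : ℕ) :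
    φ (pos 0 π.1 (Jk u κ R k π).1) - φ (pos 0 π.2 (Jk u κ R k π).2) = Sk φ u κ R k π := by
  induction k generalizing π with
  | zero => simp [Sk, Jk, pos_zero]
  | succ k ih =>
    have h1 := ih (jr_mem hπ)
    have h2 := first_V hπ φ
    rw [Sk_succ' hπ]
    have e1 : pos 0 π.1 (Jk u κ R (k + 1) π).1
        = pos 0 π.1 (J1 u κ R π).1 + pos 0 (jr u κ R π).1 (Jk u κ R k (jr u κ R π)).1 :=
      pos_zero_add _ _ _
    have e2 : pos 0 π.2 (Jk u κ R (k + 1) π).2
        = pos 0 π.2 (J1 u κ R π).2 + pos 0 (jr u κ R π).2 (Jk u κ R k (jr u κ R π)).2 :=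
      pos_zero_add _ _ _
    rw [e1, e2, map_add, map_add, h2, ← h1]
    ring

/-- times of block `k`: same-level deviation -/
theorem same_block {π : MPath d × MPath d} (hπ : π ∈ JG u κ R) (φ : Site d →+ ℝ) {k n m : ℕ}
    (h1 : (Jk u κ R k π).1 ≤ n) (h2 : n ≤ (Jk u κ R (k + 1) π).1)
    (h3 : (Jk u κ R k π).2 ≤ m) (h4 : m ≤ (Jk u κ R (k + 1) π).2)
    (h : zh u π.1 n = zh u π.2 m) :
    |φ (pos 0 π.1 n) - φ (pos 0 π.2 m) - Sk φ u κ R k π| ≤ Bj u φ (jw u κ R k π) := by
  obtain ⟨n', rfl⟩ := Nat.exists_eq_add_of_le h1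
  obtain ⟨m', rfl⟩ := Nat.exists_eq_add_of_le h3
  obtain ⟨c1, c2, _, _⟩ := cutk hπ k
  rw [Jk_succ_last] at h2 h4
  have h2' : n' ≤ (J1 u κ R ((jr u κ R)^[k] π)).1 := by
    have : (Jk u κ R k π).1 + n' ≤ (Jk u κ R k π).1 + (J1 u κ R ((jr u κ R)^[k] π)).1 := h2
    omega
  have h4' : m' ≤ (J1 u κ R ((jr u κ R)^[k] π)).2 := by
    have : (Jk u κ R k π).2 + m' ≤ (Jk u κ R k π).2 + (J1 u κ R ((jr u κ R)^[k] π)).2 := h4
    omega
  rw [zh_add, zh_add, c1.1, c2.1] at h
  have e : (jr u κ R)^[k] π = (Ren263.shift (Jk u κ R k π).1 π.1,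
      Ren263.shift (Jk u κ R k π).2 π.2) := jr_iter π k
  have hb := first_B (bp_iter hπ k).1 φ h2' h4' (by rw [e]; exact add_left_cancel h)
  rw [← jw_add hπ k 0, Nat.add_zero] at hb
  rw [pos_zero_add, pos_zero_add, map_add, map_add, ← cutW hπ φ k]
  rw [e] at hb
  have : φ (pos 0 π.1 (Jk u κ R k π).1) + φ (pos 0 (Ren263.shift (Jk u κ R k π).1 π.1) n') -
      (φ (pos 0 π.2 (Jk u κ R k π).2) + φ (pos 0 (Ren263.shift (Jk u κ R k π).2 π.2) m')) -
      (φ (pos 0 π.1 (Jk u κ R k π).1) - φ (pos 0 π.2 (Jk u κ R k π).2))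
      = φ (pos 0 (Ren263.shift (Jk u κ R k π).1 π.1) n')
        - φ (pos 0 (Ren263.shift (Jk u κ R k π).2 π.2) m') := by ring
  rw [this]
  exact hb

/-- a time of level `< Hk k` is before the `k`-th cut, a time of level `≥ Hk k` … -/
lemma time_of_level {π : MPath d × MPath d} (hπ : π ∈ JG u κ R) {k n : ℕ}
    (h1 : ((Hk u κ R k π : ℕ) : ℤ) ≤ zh u π.1 n) (h2 : zh u π.1 n < (Hk u κ R (k + 1) π : ℕ)) :
    (Jk u κ R k π).1 ≤ n ∧ n ≤ (Jk u κ R (k + 1) π).1 := by
  obtain ⟨c1, _, _, _⟩ := cutk hπ k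
  obtain ⟨_, _, c3, _⟩ := cutk hπ (k + 1)
  constructor
  · by_contra hc
    push Not at hc
    exact absurd (c1.2 n hc) (not_lt.2 h1)
  · by_contra hc
    push Not at hc
    exact absurd (c3 n hc.le) (not_le.2 h2)

lemma time_of_level' {π : MPath d × MPath d} (hπ : π ∈ JG u κ R) {k n : ℕ}
    (h1 : ((Hk u κ R k π : ℕ) : ℤ) ≤ zh u π.2 n) (h2 : zh u π.2 n < (Hk u κ R (k + 1) π : ℕ)) :
    (Jk u κ R k π).2 ≤ n ∧ n ≤ (Jk u κ R (k + 1) π).2 := by
  obtain ⟨_, c1, _, _⟩ := cutk hπ k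
  obtain ⟨_, _, _, c3⟩ := cutk hπ (k + 1)
  constructor
  · by_contra hc
    push Not at hc
    exact absurd (c1.2 n hc) (not_lt.2 h1)
  · by_contra hc
    push Not at hc
    exact absurd (c3 n hc.le) (not_le.2 h2)

/-- **same level visits in block `k`** -/
theorem same_level {π : MPath d × MPath d} (hπ : π ∈ JG u κ R) (φ : Site d →+ ℝ) {k n m : ℕ}
    (h : zh u π.1 n = zh u π.2 m) (h1 : ((Hk u κ R k π : ℕ) : ℤ) ≤ zh u π.1 n)
    (h2 : zh u π.1 n < (Hk u κ R (k + 1) π : ℕ)) :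
    |φ (pos 0 π.1 n) - φ (pos 0 π.2 m) - Sk φ u κ R k π| ≤ Bj u φ (jw u κ R k π) := by
  obtain ⟨a1, a2⟩ := time_of_level hπ h1 h2
  obtain ⟨b1, b2⟩ := time_of_level' hπ (by rw [← h]; exact h1) (by rw [← h]; exact h2)
  exact same_block hπ φ a1 a2 b1 b2 h

/-- **first hits of the levels of block `k`** (both ends included) -/
theorem same_hit {π : MPath d × MPath d} (hπ : π ∈ JG u κ R) (φ : Site d →+ ℝ) {k l n m : ℕ}
    (hn : Hit u l n π.1) (hm : Hit u l m π.2) (h1 : Hk u κ R k π ≤ l)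
    (h2 : l ≤ Hk u κ R (k + 1) π) :
    |φ (pos 0 π.1 n) - φ (pos 0 π.2 m) - Sk φ u κ R k π| ≤ Bj u φ (jw u κ R k π) := by
  obtain ⟨c1, c2, _, _⟩ := cutk hπ k
  obtain ⟨d1, d2, _, _⟩ := cutk hπ (k + 1)
  have key : ∀ {s : MPath d} {l l' n n' : ℕ}, l ≤ l' → Hit u l n s → Hit u l' n' s → n ≤ n' := by
    intro s l l' n n' hl hn hn'
    by_contra hc
    push Not at hc
    have := hn.2 n' hc
    rw [hn'.1] at this
    have : l' < l := by exact_mod_cast this
    omega
  exact same_block hπ φ (key h1 c1 hn) (key h2 hn d1) (key h1 c2 hm) (key h2 hm d2)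
    (by rw [hn.1, hm.1])



end Crest.Agent.R154.J132
end

-- ▼ part R154/JObj3_132

/-! Row 154, joint blocks of two independent natural walkers: the LAW of the blocks. -/

set_option autoImplicit false
set_option linter.unusedSectionVars false
set_option linter.deprecated false

namespace Crest.Agent.R154.J132

open MeasureTheory ProbabilityTheory Filter Set Crest.ProbabilityR.RandomEnvironment
open Crest.Agent.R154.Mk561 Crest.Agent.R154.Bind263 Crest.Agent.R154.B4Inst797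
open Crest.Agent.R154.Ren263 (Word pre hgt Stay Record len_pre hgt_zero hgt_shift Det
  measurableSet_Stay)
open Crest.Agent.R154.RenG263 (RecSys Reg tau tau_spec tau_min blk0 blks RegInf rest_mem reg_shift
  wordLaw RenewalG measurable_blks)
open Crest.Agent.R154.KB424 (NS)
open scoped ENNReal Topology

variable {d : ℕ} {u : Step d} {κ : ℝ} {R : ℕ} {Q : Measure (Environment d)}
  [IsProbabilityMeasure Q]

/-- law of two independent natural walkers -/
noncomputable abbrev prL (Q : Measure (Environment d)) (κ : ℝ) (u : Step d) :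
    Measure (MPath d × MPath d) := (stL Q κ u).prod (stL Q κ u)

theorem probSt (F : Frame Q κ R) (hA : annealedProb Q 0 (escapeEvent (B2d.dirVec u)) ≠ 0) :
    IsProbabilityMeasure (stL Q κ u) := cond_isProbabilityMeasure (F.hp _ hA)

theorem probPr (F : Frame Q κ R) (hA : annealedProb Q 0 (escapeEvent (B2d.dirVec u)) ≠ 0) :
    IsProbabilityMeasure (prL Q κ u) := by
  have := probSt F hA
  infer_instance

theorem good_ne (F : Frame Q κ R) (hA : annealedProb Q 0 (escapeEvent (B2d.dirVec u)) ≠ 0) :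
    pairL (muW Q κ R u) (Good (Yw u))ᶜ = 0 := by
  have := probW F hA
  exact good_ae _ (one_le_Yw u) (noCut_tendsto' _ (sum_noCut_ne_top F hA))

lemma measurable_bp : Measurable (bp u κ R) :=
  ((measurable_blks _).comp measurable_fst).prodMk ((measurable_blks _).comp measurable_snd)

/-- **the letters of the two walkers are two independent iid sequences** -/
theorem map_bp (F : Frame Q κ R) (hA : annealedProb Q 0 (escapeEvent (B2d.dirVec u)) ≠ 0) :
    (prL Q κ u).map (bp u κ R) = pairL (muW Q κ R u) := by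
  have := probSt F hA
  have hm : Measurable (blks (rhoU u κ R)) := measurable_blks _
  rw [pairL, ← map_blksU F hA, Measure.map_prod_map _ _ hm hm]
  rfl

theorem jg_ae (F : Frame Q κ R) (hA : annealedProb Q 0 (escapeEvent (B2d.dirVec u)) ≠ 0) :
    ∀ᵐ π ∂(prL Q κ u), π ∈ JG u κ R := by
  have := probSt F hA
  have := probW F hA
  have h1 := Measure.quasiMeasurePreserving_fst (μ := stL Q κ u) (ν := stL Q κ u)
    |>.ae (ae_regInfU F hA)
  have h2 := Measure.quasiMeasurePreserving_snd (μ := stL Q κ u) (ν := stL Q κ u)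
    |>.ae (ae_regInfU F hA)
  have h3 : ∀ᵐ π ∂(prL Q κ u), bp u κ R π ∈ AllGood (Yw u) := by
    have h4 : ∀ᵐ p ∂((prL Q κ u).map (bp u κ R)), p ∈ AllGood (Yw u) := by
      rw [map_bp F hA]
      exact allGood_ae _ (one_le_Yw u) (good_ne F hA)
    exact ae_of_ae_map measurable_bp.aemeasurable h4
  filter_upwards [h1, h2, h3] with π a b c
  exact ⟨a, b, c⟩

section any
variable {E : Type*} [MeasurableSpace E]
  (Φ : List (Word (Mark d)) × List (Word (Mark d)) → E)

lemma measurable_jw (k : ℕ) : Measurable fun π => Φ (jw u κ R k π) :=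
  (measurable_wdk Φ (one_le_Yw u) k).comp measurable_bp

/-- law of a functional of the joint word -/
noncomputable def jlawOf (Q : Measure (Environment d)) (κ : ℝ) (R : ℕ) (u : Step d) :
    Measure E := (pairL (muW Q κ R u)).map (fun p => Φ (wd (Yw u) p))

theorem probJ (F : Frame Q κ R) (hA : annealedProb Q 0 (escapeEvent (B2d.dirVec u)) ≠ 0) :
    IsProbabilityMeasure (jlawOf Φ Q κ R u) := by
  have := probW F hA
  exact Measure.isProbabilityMeasure_map (measurable_wd Φ (one_le_Yw u)).aemeasurable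

theorem map_jw (F : Frame Q κ R) (hA : annealedProb Q 0 (escapeEvent (B2d.dirVec u)) ≠ 0) :
    (prL Q κ u).map (fun π (k : ℕ) => Φ (jw u κ R k π))
      = Measure.infinitePi fun _ : ℕ => jlawOf Φ Q κ R u := by
  have := probW F hA
  have h1 := map_wd Φ (muW Q κ R u) (one_le_Yw u) (good_ne F hA)
  rw [← map_bp F hA, Measure.map_map (measurable_pi_lambda _ fun k =>
    measurable_wdk Φ (one_le_Yw u) k) measurable_bp] at h1
  rw [map_bp F hA] at h1
  exact h1

theorem law_jw (F : Frame Q κ R) (hA : annealedProb Q 0 (escapeEvent (B2d.dirVec u)) ≠ 0)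
    (k : ℕ) : (prL Q κ u).map (fun π => Φ (jw u κ R k π)) = jlawOf Φ Q κ R u := by
  have := probW F hA
  have h1 := law_wdk Φ (muW Q κ R u) (one_le_Yw u) (good_ne F hA) k
  unfold jlawOf
  rw [← h1, ← map_bp F hA, Measure.map_map (measurable_wdk Φ (one_le_Yw u) k) measurable_bp]
  rfl

/-- **the joint blocks are independent** -/
theorem indep_jw (F : Frame Q κ R) (hA : annealedProb Q 0 (escapeEvent (B2d.dirVec u)) ≠ 0) :
    iIndepFun (fun (k : ℕ) π => Φ (jw u κ R k π)) (prL Q κ u) := by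
  have := probPr F hA
  rw [iIndepFun_iff_map_fun_eq_infinitePi_map (measurable_jw Φ)]
  simp_rw [law_jw Φ F hA]
  exact map_jw Φ F hA


/-- swap symmetry -/
theorem swap_jw (F : Frame Q κ R) (hA : annealedProb Q 0 (escapeEvent (B2d.dirVec u)) ≠ 0) :
    jlawOf (fun w => Φ w.swap) Q κ R u = jlawOf Φ Q κ R u := by
  have := probW F hA
  exact swap_wd Φ (muW Q κ R u) (one_le_Yw u) (good_ne F hA)

end any

/-! ### the triple (V, B, R) -/

/-- increment, deviation, height of a joint word -/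
noncomputable def tri (u : Step d) (φ : Site d →+ ℝ)
    (w : List (Word (Mark d)) × List (Word (Mark d))) : ℝ × ℝ × ℕ :=
  (Vj φ w, Bj u φ w, Rj u w)

/-- law of the triple -/
noncomputable def triL (Q : Measure (Environment d)) (κ : ℝ) (R : ℕ) (u : Step d)
    (φ : Site d →+ ℝ) : Measure (ℝ × ℝ × ℕ) := jlawOf (tri u φ) Q κ R u

theorem probTri (F : Frame Q κ R) (hA : annealedProb Q 0 (escapeEvent (B2d.dirVec u)) ≠ 0)
    (φ : Site d →+ ℝ) : IsProbabilityMeasure (triL Q κ R u φ) := probJ _ F hA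

theorem ae_tri (F : Frame Q κ R) (hA : annealedProb Q 0 (escapeEvent (B2d.dirVec u)) ≠ 0)
    (φ : Site d →+ ℝ) {p : ℝ × ℝ × ℕ → Prop} (hp : MeasurableSet {t | p t})
    (h : ∀ π ∈ JG u κ R, p (tri u φ (jw u κ R 0 π))) : ∀ᵐ t ∂(triL Q κ R u φ), p t := by
  unfold triL
  rw [← law_jw (tri u φ) F hA 0]
  rw [ae_map_iff (measurable_jw (tri u φ) 0).aemeasurable hp]
  filter_upwards [jg_ae F hA] with π hπ
  exact h π hπ

/-- `|V| ≤ B` and `1 ≤ R` -/
theorem tri_le (F : Frame Q κ R) (hA : annealedProb Q 0 (escapeEvent (B2d.dirVec u)) ≠ 0)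
    (φ : Site d →+ ℝ) : ∀ᵐ t ∂(triL Q κ R u φ), |t.1| ≤ t.2.1 ∧ 1 ≤ t.2.2 := by
  refine ae_tri F hA φ ?_ fun π hπ => ?_
  · refine (measurableSet_le (measurable_norm.comp measurable_fst)
      (measurable_fst.comp measurable_snd)).inter ?_
    exact (measurable_snd.comp measurable_snd) (measurableSet_Ici (a := (1:ℕ)))
  · obtain ⟨h1, h2, _, _, h5⟩ := first_block hπ
    refine ⟨?_, h5⟩
    have := first_B hπ φ (le_refl (J1 u κ R π).1) (le_refl (J1 u κ R π).2) (by rw [h1.1, h2.1])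
    rw [← first_V hπ φ] at this
    exact this

/-- **symmetry** `(V, B, R) ~ (-V, B, R)` -/
theorem tri_symm (F : Frame Q κ R) (hA : annealedProb Q 0 (escapeEvent (B2d.dirVec u)) ≠ 0)
    (φ : Site d →+ ℝ) :
    (triL Q κ R u φ).map (fun t => (-t.1, t.2)) = triL Q κ R u φ := by
  have := probW F hA
  have hm : Measurable (fun t : ℝ × ℝ × ℕ => (-t.1, t.2)) :=
    measurable_fst.neg.prodMk measurable_snd
  have h1 : (triL Q κ R u φ).map (fun t => (-t.1, t.2))
      = jlawOf (fun w => tri u φ w.swap) Q κ R u := by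
    unfold triL jlawOf
    rw [Measure.map_map hm (measurable_wd _ (one_le_Yw u))]
    refine Measure.map_congr ?_
    have hg' : ∀ᵐ p ∂(pairL (muW Q κ R u)), p ∈ Good (Yw u) := good_ne F hA
    filter_upwards [hg'] with p hp
    simp only [Function.comp_apply, tri, Vj_swap, Bj_swap]
    refine Prod.ext rfl (Prod.ext rfl ?_)
    exact hw_wd' (one_le_Yw u) hp
  rw [h1, swap_jw (tri u φ) F hA]
  rfl

/-- **finite mean height** -/
theorem tri_mean (F : Frame Q κ R) (hA : annealedProb Q 0 (escapeEvent (B2d.dirVec u)) ≠ 0)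
    (φ : Site d →+ ℝ) : ∫⁻ t, (t.2.2 : ℝ≥0∞) ∂(triL Q κ R u φ) ≠ ⊤ := by
  have := probW F hA
  have hm : Measurable fun t : ℝ × ℝ × ℕ => (t.2.2 : ℝ≥0∞) :=
    (measurable_of_countable (fun n : ℕ => (n : ℝ≥0∞))).comp (measurable_snd.comp measurable_snd)
  unfold triL jlawOf
  rw [lintegral_map hm (measurable_wd _ (one_le_Yw u))]
  have h1 : ∀ p : (ℕ → Word (Mark d)) × (ℕ → Word (Mark d)),
      (((tri u φ (wd (Yw u) p)).2.2 : ℕ) : ℝ≥0∞) = (R0 (Yw u) p : ℝ≥0∞) := fun p => by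
    simp only [tri, Rj, hw_wd]
  simp_rw [h1]
  rw [mean_R0 _ (one_le_Yw u) (good_ne F hA)]
  exact sum_noCut_ne_top F hA

/-- atoms of the joint word -/
theorem atom_wd (F : Frame Q κ R) (hA : annealedProb Q 0 (escapeEvent (B2d.dirVec u)) ≠ 0)
    {w w' : Word (Mark d)} (h : Yw u w = Yw u w') :
    muW Q κ R u {w} * muW Q κ R u {w'}
      ≤ pairL (muW Q κ R u) {p | wd (Yw u) p = ([w], [w'])} := by
  have := probW F hA
  rw [← iid_first (muW Q κ R u) w, ← iid_first (muW Q κ R u) w', ← Measure.prod_prod]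
  refine measure_mono ?_
  rintro p ⟨h1, h2⟩
  have h1' : p.1 0 = w := h1
  have h2' : p.2 0 = w' := h2
  have hf : p ∈ Fst (Yw u) (1, 1) := by
    refine ⟨le_rfl, ?_, fun i j hi hi' _ => ?_⟩
    · simp [H, h1', h2', h]
    · have hi'' : i < 1 := hi'
      omega
  have hi := idx_eq (one_le_Yw u) hf
  simp only [mem_setOf_eq, wd]
  rw [hi]
  simp [prf, h1', h2']

/-- **nondegenerate** -/
theorem tri_ne (F : Frame Q κ R) (hA : annealedProb Q 0 (escapeEvent (B2d.dirVec u)) ≠ 0)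
    {φ : Site d →+ ℝ} {i : Fin d} (hi : i ≠ u.1) (hφ : φ (stepVec (i, true)) ≠ 0) :
    triL Q κ R u φ {t | t.1 ≠ 0} ≠ 0 := by
  have := probW F hA
  set wa := pre 2 (Wf u κ (i, true)) with hwa
  set wb := pre 2 (Wf u κ (i, false)) with hwb
  have pa : muW Q κ R u {wa} ≠ 0 := word_pos F hi
  have pb : muW Q κ R u {wb} ≠ 0 := word_pos F hi
  have ya : Yw u wa = 1 := Yw_Wf hi
  have yb : Yw u wb = 1 := Yw_Wf hi
  have hneg : stepVec ((i, false) : Step d) = - stepVec (i, true) := by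
    unfold stepVec
    ext j
    by_cases hj : j = i
    · subst hj; simp
    · simp [Pi.single_eq_of_ne hj]
  have hV : Vj φ ([wa], [wb]) = 2 * φ (stepVec (i, true)) := by
    have e1 : ∀ f : Step d, ps (flw [pre 2 (Wf u κ f)]) = stepVec f + stepVec u := by
      intro f
      rw [flw_single]
      have : ps (pre 2 (Wf u κ f) : List (Mark d)) = pos 0 (Wf u κ f) 2 := ps_prf 2 _
      rw [this]
      unfold pos
      rw [Finset.sum_range_succ, Finset.sum_range_one, zero_add]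
      simp [Wf, stp]
    simp only [Vj]
    rw [hwa, hwb, e1, e1, map_add, map_add, hneg, map_neg]
    ring
  have hS : MeasurableSet {t : ℝ × ℝ × ℕ | t.1 ≠ 0} :=
    measurable_fst (measurableSet_singleton (0:ℝ)).compl
  unfold triL jlawOf
  rw [Measure.map_apply (measurable_wd _ (one_le_Yw u)) hS]
  refine ne_of_gt (lt_of_lt_of_le (pos_iff_ne_zero.2 (mul_ne_zero pa pb)) ((atom_wd F hA
    (ya.trans yb.symm)).trans (measure_mono ?_)))
  intro p hp
  have hp' : wd (Yw u) p = ([wa], [wb]) := hp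
  simp only [mem_preimage, mem_setOf_eq, tri]
  rw [hp', hV]
  exact mul_ne_zero two_ne_zero hφ

/-- **back to the annealed law**: two independent walkers, both natural for ever -/
theorem prod_NS (F : Frame Q κ R) (hA : annealedProb Q 0 (escapeEvent (B2d.dirVec u)) ≠ 0)
    (x x' : Site d) (E : Set (MPath d × MPath d)) :
    ((mkAnn κ Q x).prod (mkAnn κ Q x')) {π | π.1 ∈ NS u ∧ π.2 ∈ NS u ∧ π ∈ E}
      = mkAnn κ Q 0 (NS u) ^ 2 * prL Q κ u E := by
  have := probSt F hA
  have hSm : MeasurableSet (NS u) := by rw [NS_eq]; exact measurableSet_Stay _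
  rw [mkAnn_stat F.stat κ x, mkAnn_stat F.stat κ x']
  have e1 : ((mkAnn κ Q 0).prod (mkAnn κ Q 0)) {p | p.1 ∈ NS u ∧ p.2 ∈ NS u ∧ p ∈ E}
      = (((mkAnn κ Q 0).restrict (NS u)).prod ((mkAnn κ Q 0).restrict (NS u))) E := by
    rw [Measure.prod_restrict, Measure.restrict_apply' (hSm.prod hSm)]
    congr 1
    ext p; simp only [mem_setOf_eq, mem_inter_iff, mem_prod]; tauto
  rw [e1, restrict_eq F hA, Measure.prod_smul_left, Measure.prod_smul_right, smul_smul,
    Measure.smul_apply, smul_eq_mul, sq]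


end Crest.Agent.R154.J132
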