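import Mathlib

/-!
# Row 154, d = 2: the NDA property of the joint blocks (helper738)

Abstract real analysis.  A block is a triple `(V, B, R)`, `|V| ≤ B`, `1 ≤ R`, `E R < ∞`.
`U w = E[V²; B ≤ w]`, `wd k` = Kolmogorov width of `k` blocks.  Input: for every `h`
`h P(h ≤ R < 2h, r ≤ B) ≤ K (wd (4h) / r)^4`.  Output: `w² P(B > w) = o(U w)`.
-/

open MeasureTheory Filter Topology Set

set_option linter.unusedSectionVars false

namespace Crest.Agent.R154.Hair738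

variable {Ω : Type*} [MeasurableSpace Ω]

/-- truncated second moment -/
noncomputable def U (P : Measure Ω) (V B : Ω → ℝ) (w : ℝ) : ℝ := ∫ ω in {ω | B ω ≤ w}, (V ω)^2 ∂P

/-- tail -/
noncomputable def T (P : Measure Ω) (B : Ω → ℝ) (w : ℝ) : ℝ := P.real {ω | w < B ω}

/-- Kolmogorov width of `k` blocks -/
noncomputable def wd (P : Measure Ω) (V B : Ω → ℝ) (k : ℕ) : ℕ :=
  sInf {r : ℕ | 1 ≤ r ∧ (k:ℝ) * P.real {ω | (r:ℝ) < B ω} ≤ 1/16 ∧ (k:ℝ) * U P V B r ≤ (r:ℝ)^2/64}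

/-! ## Core: pure real analysis -/

/-- The data: tail `T`, truncated second moment `U`. -/
structure Core (T U : ℝ → ℝ) : Prop where
  T0 : ∀ w, 0 ≤ T w
  T1 : ∀ w, T w ≤ 1
  Tanti : Antitone T
  Tlim : Tendsto T atTop (𝓝 0)
  U0 : ∀ w, 0 ≤ U w
  Umono : Monotone U
  Ustep : ∀ w w', 0 ≤ w → w ≤ w' → U w' ≤ U w + w'^2 * T w
  Upos : ∃ w, 0 < U w

/-- the width, in terms of `T`, `U` -/
noncomputable def wdC (T U : ℝ → ℝ) (k : ℕ) : ℕ :=
  sInf {r : ℕ | 1 ≤ r ∧ (k:ℝ) * T r ≤ 1/16 ∧ (k:ℝ) * U r ≤ (r:ℝ)^2/64}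

variable {T' U' : ℝ → ℝ}

namespace Core

variable {T U : ℝ → ℝ} (H : Core T U)
include H

lemma U_small (e : ℝ) (he : 0 < e) : ∃ r0 : ℝ, 1 ≤ r0 ∧ ∀ r, r0 ≤ r → U r ≤ e * r^2 := by
  -- choose s with T s ≤ e/2, then U r ≤ U s + r² e/2
  have h1 := (H.Tlim.eventually (gt_mem_nhds (show (0:ℝ) < e/2 by positivity)))
  obtain ⟨s, hs0, hs⟩ := (h1.and (eventually_ge_atTop (0:ℝ))).exists
  refine ⟨max (max 1 s) (U s / (e/2) + 1), le_trans (le_max_left _ _) (le_max_left _ _), ?_⟩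
  intro r hr
  have hr1 : 1 ≤ r := le_trans (le_trans (le_max_left _ _) (le_max_left _ _)) hr
  have hrs : s ≤ r := le_trans (le_trans (le_max_right _ _) (le_max_left _ _)) hr
  have hru : U s / (e/2) + 1 ≤ r := le_trans (le_max_right _ _) hr
  have h2 := H.Ustep s r hs hrs
  have h3 : U s ≤ (e/2) * r := by
    have : U s / (e/2) ≤ r := by linarith
    rw [div_le_iff₀ (by positivity)] at this
    linarith
  have h4 : r ≤ r^2 := by nlinarith
  have h5 : r^2 * T s ≤ r^2 * (e/2) := by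
    apply mul_le_mul_of_nonneg_left hs0.le (by positivity)
  nlinarith

lemma wd_nonempty (k : ℕ) :
    {r : ℕ | 1 ≤ r ∧ (k:ℝ) * T r ≤ 1/16 ∧ (k:ℝ) * U r ≤ (r:ℝ)^2/64}.Nonempty := by
  have hk : (0:ℝ) < (k:ℝ) + 1 := by positivity
  obtain ⟨r0, hr0, hr⟩ := H.U_small (1 / (64 * ((k:ℝ)+1))) (by positivity)
  have h1 := (H.Tlim.eventually (gt_mem_nhds (show (0:ℝ) < 1 / (16 * ((k:ℝ)+1)) by positivity)))
  obtain ⟨s, hs⟩ := eventually_atTop.1 h1
  obtain ⟨n, hn⟩ := exists_nat_ge (max r0 s)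
  refine ⟨n, ?_, ?_, ?_⟩
  · have : (1:ℝ) ≤ n := le_trans hr0 (le_trans (le_max_left _ _) hn)
    exact_mod_cast this
  · have := hs n (le_trans (le_max_right _ _) hn)
    rw [lt_div_iff₀ (by positivity)] at this
    have h0 := H.T0 n
    nlinarith
  · have := hr n (le_trans (le_max_left _ _) hn)
    have h0 := H.U0 n
    rw [div_mul_eq_mul_div, le_div_iff₀ (by positivity)] at this
    nlinarith

lemma wd_spec (k : ℕ) : 1 ≤ wdC T U k ∧ (k:ℝ) * T (wdC T U k) ≤ 1/16 ∧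
    (k:ℝ) * U (wdC T U k) ≤ (wdC T U k : ℝ)^2/64 := Nat.sInf_mem (H.wd_nonempty k)

lemma one_le_wd (k : ℕ) : (1:ℝ) ≤ wdC T U k := by exact_mod_cast (H.wd_spec k).1

lemma wd_le {k r : ℕ} (h1 : 1 ≤ r) (h2 : (k:ℝ) * T r ≤ 1/16)
    (h3 : (k:ℝ) * U r ≤ (r:ℝ)^2/64) : wdC T U k ≤ r := Nat.sInf_le ⟨h1, h2, h3⟩

lemma wd_mono {k k' : ℕ} (hk : k ≤ k') : wdC T U k ≤ wdC T U k' := by
  obtain ⟨h1, h2, h3⟩ := H.wd_spec k'
  have hk' : (k:ℝ) ≤ k' := by exact_mod_cast hk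
  refine H.wd_le h1 (le_trans ?_ h2) (le_trans ?_ h3)
  · exact mul_le_mul_of_nonneg_right hk' (H.T0 _)
  · exact mul_le_mul_of_nonneg_right hk' (H.U0 _)

/-- minimality: one step below the width one of the two conditions fails -/
lemma wd_min {k : ℕ} (h2 : 2 ≤ wdC T U k) :
    1/16 < (k:ℝ) * T ((wdC T U k : ℝ) - 1) ∨
      ((wdC T U k : ℝ) - 1)^2/64 < (k:ℝ) * U ((wdC T U k : ℝ) - 1) := by
  by_contra hcon
  push Not at hcon
  have hc : (((wdC T U k - 1 : ℕ)) : ℝ) = (wdC T U k : ℝ) - 1 := by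
    rw [Nat.cast_sub (by omega)]; simp
  have := H.wd_le (k := k) (r := wdC T U k - 1) (by omega)
    (by rw [hc]; exact hcon.1) (by rw [hc]; exact hcon.2)
  omega

end Core

/-! ### The regularised width -/

/-- `MM f N = max_{1 ≤ k ≤ N} f k / √k` -/
noncomputable def MM (f : ℕ → ℕ) : ℕ → ℝ
  | 0 => 0
  | n+1 => max (MM f n) ((f (n+1) : ℝ) / Real.sqrt ((n+1 : ℕ) : ℝ))

/-- `WW f N = sup_{1 ≤ k ≤ N} (N/k)^{1/2} f k` -/
noncomputable def WW (f : ℕ → ℕ) (N : ℕ) : ℝ := Real.sqrt N * MM f N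

lemma MM_mono (f : ℕ → ℕ) : Monotone (MM f) :=
  monotone_nat_of_le_succ fun _ => le_max_left _ _

lemma le_MM (f : ℕ → ℕ) {k N : ℕ} (hk : 1 ≤ k) (hkN : k ≤ N) :
    (f k : ℝ) / Real.sqrt (k:ℝ) ≤ MM f N := by
  obtain ⟨m, rfl⟩ : ∃ m, k = m + 1 := ⟨k-1, by omega⟩
  exact le_trans (le_max_right _ _) (MM_mono f hkN)

lemma MM_attained (f : ℕ → ℕ) {N : ℕ} (hN : 1 ≤ N) :
    ∃ k, 1 ≤ k ∧ k ≤ N ∧ MM f N = (f k : ℝ) / Real.sqrt (k:ℝ) := by
  induction N with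
  | zero => omega
  | succ n ih =>
    rcases Nat.eq_zero_or_pos n with h0 | h0
    · subst h0
      refine ⟨1, le_rfl, by omega, ?_⟩
      show max (0:ℝ) _ = _
      rw [max_eq_right (by positivity)]
    · obtain ⟨k, h1, h2, h3⟩ := ih h0
      rcases le_total (MM f n) ((f (n+1) : ℝ) / Real.sqrt ((n+1 : ℕ) : ℝ)) with h | h
      · exact ⟨n+1, by omega, le_rfl, max_eq_right h⟩
      · exact ⟨k, h1, by omega, (max_eq_left h).trans h3⟩

lemma one_le_MM (f : ℕ → ℕ) (hf : ∀ k, 1 ≤ f k) {N : ℕ} (hN : 1 ≤ N) : 1 ≤ MM f N := by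
  have := le_MM f (k := 1) (N := N) le_rfl hN
  simp only [Nat.cast_one, Real.sqrt_one, div_one] at this
  exact le_trans (by exact_mod_cast hf 1) this

lemma MM_nonneg (f : ℕ → ℕ) (N : ℕ) : 0 ≤ MM f N := MM_mono f (Nat.zero_le N)

lemma WW_mono (f : ℕ → ℕ) : Monotone (WW f) := by
  intro a b hab
  have : (a:ℝ) ≤ b := by exact_mod_cast hab
  exact mul_le_mul (Real.sqrt_le_sqrt this) (MM_mono f hab) (MM_nonneg f a) (Real.sqrt_nonneg _)

lemma sqrt_le_WW (f : ℕ → ℕ) (hf : ∀ k, 1 ≤ f k) {N : ℕ} (hN : 1 ≤ N) :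
    Real.sqrt N ≤ WW f N := by
  have := one_le_MM f hf hN
  have h2 := Real.sqrt_nonneg (N:ℝ)
  unfold WW; nlinarith

lemma le_sqrt_mul_WW (f : ℕ → ℕ) {k N : ℕ} (hk : 1 ≤ k) (hkN : k ≤ N) :
    (f k : ℝ) * Real.sqrt N ≤ Real.sqrt k * WW f N := by
  have h1 := le_MM f hk hkN
  have hk0 : (0:ℝ) < Real.sqrt k := Real.sqrt_pos.2 (by exact_mod_cast hk)
  rw [div_le_iff₀ hk0] at h1
  unfold WW
  have h2 := Real.sqrt_nonneg (N:ℝ)
  nlinarith


/-! ### Hypotheses on the tail -/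

/-- The tail data of a block law. `Tm r = P(B ≥ r)`, `G h = P(R ≥ h)`,
`F j r = P(2^j ≤ R < 2^(j+1), B ≥ r)`. -/
structure Tail (T Tm : ℝ → ℝ) (G : ℕ → ℝ) (F : ℕ → ℝ → ℝ) (f : ℕ → ℕ) (K : ℝ) : Prop where
  K0 : 0 ≤ K
  Tm0 : ∀ r, 0 ≤ Tm r
  TTm : ∀ w w', w' ≤ w → T w ≤ Tm w'
  dec : ∀ (J : ℕ) (r : ℝ), Tm r ≤ (∑ j ∈ Finset.range J, F j r) + G (2^J)
  G0 : ∀ h, 0 ≤ G h
  Glim : Tendsto (fun J : ℕ => (2:ℝ)^J * G (2^J)) atTop (𝓝 0)
  hF : ∀ (j : ℕ) (r : ℝ), 0 < r → (2:ℝ)^j * F j r ≤ K * ((f (4 * 2^j) : ℝ) / r)^4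

section
variable {T U Tm : ℝ → ℝ} {G : ℕ → ℝ} {F : ℕ → ℝ → ℝ} {f : ℕ → ℕ} {K : ℝ}

/-- (4): `N P(B ≥ ε W_N) → 0`. -/
theorem hair (hf : ∀ k, 1 ≤ f k) (HT : Tail T Tm G F f K) (ε : ℝ) (hε : 0 < ε) :
    Tendsto (fun N : ℕ => (N:ℝ) * Tm (ε * WW f N)) atTop (𝓝 0) := by
  -- one bound for all J
  have key : ∀ (N J : ℕ), 1 ≤ N → 2 * 2^J ≤ N →
      (N:ℝ) * Tm (ε * WW f N) ≤ 16 * K / ε^4 * ((2:ℝ)^J / N) +
        ((N:ℝ) / 2^J) * ((2:ℝ)^J * G (2^J)) := by
    intro N J hN hJ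
    have hN0 : (0:ℝ) < N := by exact_mod_cast hN
    have hW0 : 0 < WW f N :=
      lt_of_lt_of_le (Real.sqrt_pos.2 hN0) (sqrt_le_WW _ hf hN)
    have hr : 0 < ε * WW f N := mul_pos hε hW0
    have hterm : ∀ j ∈ Finset.range J, (N:ℝ) * F j (ε * WW f N) ≤
        16 * K / ε^4 * ((2:ℝ)^j / N) := by
      intro j hj
      have hjJ : j < J := Finset.mem_range.1 hj
      have h2j : (0:ℝ) < (2:ℝ)^j := by positivity
      have h1 := HT.hF j _ hr
      have hk1 : 1 ≤ 4 * 2^j := by have := Nat.one_le_two_pow (n := j); omega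
      have hkN : 4 * 2^j ≤ N := by
        have h3 : 2^(j+1) ≤ 2^J := Nat.pow_le_pow_right (by norm_num) hjJ
        rw [pow_succ] at h3
        omega
      have h2 := le_sqrt_mul_WW f hk1 hkN
      set f' : ℝ := (f (4 * 2^j) : ℝ) with hfdef
      have hf0 : 0 ≤ f' := by positivity
      set w : ℝ := WW f N with hw
      -- (f' * √N)^4 ≤ (√k w)^4
      have h4 : (f' * Real.sqrt N)^4 ≤ (Real.sqrt ((4 * 2^j : ℕ) : ℝ) * w)^4 :=
        pow_le_pow_left₀ (by positivity) h2 4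
      have hs1 : (Real.sqrt (N:ℝ))^4 = (N:ℝ)^2 := by
        rw [show (4:ℕ) = 2*2 by norm_num, pow_mul, Real.sq_sqrt hN0.le]
      have hs2 : (Real.sqrt ((4 * 2^j : ℕ) : ℝ))^4 = (16:ℝ) * ((2:ℝ)^j)^2 := by
        rw [show (4:ℕ) = 2*2 by norm_num, pow_mul, Real.sq_sqrt (by positivity)]
        push_cast; ring
      rw [mul_pow, mul_pow, hs1, hs2] at h4
      -- conclusion
      have h5 : (f' / (ε * w))^4 ≤ 16 * ((2:ℝ)^j)^2 / (ε^4 * (N:ℝ)^2) := by
        rw [div_pow, mul_pow, div_le_div_iff₀ (by positivity) (by positivity)]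
        have he4 : 0 < ε^4 := by positivity
        nlinarith
      have h6 : (2:ℝ)^j * F j (ε * w) ≤ K * (16 * ((2:ℝ)^j)^2 / (ε^4 * (N:ℝ)^2)) :=
        le_trans h1 (mul_le_mul_of_nonneg_left h5 HT.K0)
      have h7 : F j (ε * w) ≤ K * (16 * ((2:ℝ)^j)^2 / (ε^4 * (N:ℝ)^2)) / (2:ℝ)^j := by
        rw [le_div_iff₀ h2j]; linarith
      calc (N:ℝ) * F j (ε * w) ≤ N * (K * (16 * ((2:ℝ)^j)^2 / (ε^4 * (N:ℝ)^2)) / (2:ℝ)^j) :=
            mul_le_mul_of_nonneg_left h7 hN0.le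
        _ = 16 * K / ε^4 * ((2:ℝ)^j / N) := by field_simp
    have hsum : ∑ j ∈ Finset.range J, (2:ℝ)^j ≤ (2:ℝ)^J := by
      have := geom_sum_eq (show (2:ℝ) ≠ 1 by norm_num) J
      rw [this]; norm_num
    have hd := HT.dec J (ε * WW f N)
    calc (N:ℝ) * Tm (ε * WW f N)
        ≤ N * ((∑ j ∈ Finset.range J, F j (ε * WW f N)) + G (2^J)) :=
          mul_le_mul_of_nonneg_left hd hN0.le
      _ = (∑ j ∈ Finset.range J, (N:ℝ) * F j (ε * WW f N)) + N * G (2^J) := by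
          rw [mul_add, Finset.mul_sum]
      _ ≤ (∑ j ∈ Finset.range J, 16 * K / ε^4 * ((2:ℝ)^j / N)) + N * G (2^J) := by
          have := Finset.sum_le_sum hterm
          linarith
      _ = 16 * K / ε^4 * ((∑ j ∈ Finset.range J, (2:ℝ)^j) / N) +
            ((N:ℝ) / 2^J) * ((2:ℝ)^J * G (2^J)) := by
          rw [← Finset.mul_sum, ← Finset.sum_div]
          congr 1
          field_simp
      _ ≤ _ := by
          have hK := HT.K0
          have h9 : (∑ j ∈ Finset.range J, (2:ℝ)^j) / N ≤ (2:ℝ)^J / N :=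
            div_le_div_of_nonneg_right hsum hN0.le
          have h10 : 0 ≤ 16 * K / ε^4 := by positivity
          have := mul_le_mul_of_nonneg_left h9 h10
          linarith
  rw [Metric.tendsto_atTop]
  intro e he
  -- choose m
  obtain ⟨m, hm⟩ : ∃ m : ℕ, 16 * K / ε^4 * (1/2)^m < e/2 ∧ 1 ≤ m := by
    have h1 : Tendsto (fun m : ℕ => 16 * K / ε^4 * (1/2:ℝ)^m) atTop (𝓝 (16 * K / ε^4 * 0)) :=
      (tendsto_pow_atTop_nhds_zero_of_lt_one (by norm_num) (by norm_num)).const_mul _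
    rw [mul_zero] at h1
    obtain ⟨m, h2, h3⟩ := ((h1.eventually (gt_mem_nhds (half_pos he))).and
      (eventually_ge_atTop 1)).exists
    exact ⟨m, h2, h3⟩
  have h2 : ∀ᶠ J : ℕ in atTop, (2:ℝ)^J * G (2^J) < e / 2 / 2^(m+1) :=
    HT.Glim.eventually (gt_mem_nhds (by positivity))
  obtain ⟨J0, hJ0⟩ := eventually_atTop.1 h2
  refine ⟨2^(J0 + m), fun N hN => ?_⟩
  have hN1 : 1 ≤ N := le_trans Nat.one_le_two_pow hN
  have hN0 : (0:ℝ) < N := by exact_mod_cast hN1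
  set L := Nat.log 2 N with hL
  have hL1 : J0 + m ≤ L := (Nat.le_log_iff_pow_le (by norm_num) (by omega)).2 hN
  have hL2 : 2^L ≤ N := Nat.pow_log_le_self 2 (by omega)
  have hL3 : N < 2^(L+1) := Nat.lt_pow_succ_log_self (by norm_num) N
  set J := L - m with hJ
  have hLJ : L = J + m := by omega
  have hJm : 2^J * 2^m ≤ N := by rw [← pow_add, ← hLJ]; exact hL2
  have h2m : 2 ≤ 2^m := by
    calc 2 = 2^1 := by norm_num
      _ ≤ 2^m := Nat.pow_le_pow_right (by norm_num) hm.2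
  have h3 := key N J hN1 (by nlinarith [Nat.one_le_two_pow (n := J)])
  have hA : (2:ℝ)^J / N ≤ (1/2)^m := by
    rw [div_le_iff₀ hN0, one_div, inv_pow, ← div_eq_inv_mul, le_div_iff₀ (by positivity)]
    exact_mod_cast hJm
  have hB : (N:ℝ) / 2^J ≤ 2^(m+1) := by
    rw [div_le_iff₀ (by positivity)]
    have : N ≤ 2^(m+1) * 2^J := by
      rw [← pow_add]; rw [hLJ] at hL3
      have : J + m + 1 = m + 1 + J := by ring
      rw [this] at hL3; exact hL3.le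
    exact_mod_cast this
  have hC := hJ0 J (by omega)
  have hK := HT.K0
  have h4 : 16 * K / ε^4 * ((2:ℝ)^J / N) ≤ 16 * K / ε^4 * (1/2)^m :=
    mul_le_mul_of_nonneg_left hA (by positivity)
  have h5 : ((N:ℝ) / 2^J) * ((2:ℝ)^J * G (2^J)) ≤ e/2 := by
    have hG := HT.G0 (2^J)
    calc ((N:ℝ) / 2^J) * ((2:ℝ)^J * G (2^J)) ≤ 2^(m+1) * (e / 2 / 2^(m+1)) :=
          mul_le_mul hB hC.le (by positivity) (by positivity)
      _ = e/2 := by field_simp
  have h6 : 0 ≤ (N:ℝ) * Tm (ε * WW f N) := mul_nonneg hN0.le (HT.Tm0 _)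
  rw [Real.dist_eq, sub_zero, abs_of_nonneg h6]
  linarith [hm.1]

/-- (5), first half: `W_N² ≤ C N U(W_N)`. -/
theorem WW_sq_le (H : Core T U) (HT : Tail T Tm G F (wdC T U) K) :
    ∃ C : ℝ, 0 < C ∧ ∀ᶠ N : ℕ in atTop,
      (WW (wdC T U) N)^2 ≤ C * N * U (WW (wdC T U) N) := by
  have hf : ∀ k, 1 ≤ wdC T U k := fun k => (H.wd_spec k).1
  have h1 := hair hf HT (1/2) (by norm_num)
  have h2 : ∀ᶠ N : ℕ in atTop, (N:ℝ) * Tm (1/2 * WW (wdC T U) N) < 1/16 :=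
    h1.eventually (gt_mem_nhds (by norm_num))
  obtain ⟨k1, hk1⟩ := eventually_atTop.1 h2
  obtain ⟨k0, hk0, hk01⟩ : ∃ k0, k1 ≤ k0 ∧ 1 ≤ k0 := ⟨max k1 1, le_max_left _ _, le_max_right _ _⟩
  obtain ⟨w1, hw1⟩ := H.Upos
  set M := MM (wdC T U) k0 with hM
  have hM1 : 1 ≤ M := one_le_MM _ hf hk01
  refine ⟨256 + M^2 / U w1, by positivity, ?_⟩
  have hN0 : ∀ᶠ N : ℕ in atTop, w1 ≤ Real.sqrt N := by
    have : Tendsto (fun N : ℕ => Real.sqrt (N:ℝ)) atTop atTop :=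
      Real.tendsto_sqrt_atTop.comp tendsto_natCast_atTop_atTop
    exact this.eventually (eventually_ge_atTop w1)
  filter_upwards [hN0, eventually_ge_atTop 1] with N hN hN1
  have hNpos : (0:ℝ) < N := by exact_mod_cast hN1
  set W := WW (wdC T U) N with hW
  have hsq : Real.sqrt N ≤ W := sqrt_le_WW _ hf hN1
  have hUW : U w1 ≤ U W := H.Umono (le_trans hN hsq)
  have hUW0 : 0 < U W := lt_of_lt_of_le hw1 hUW
  have hsN : Real.sqrt N ^ 2 = N := Real.sq_sqrt hNpos.le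
  -- trivial case
  have triv : MM (wdC T U) N ≤ M → W^2 ≤ (256 + M^2 / U w1) * N * U W := by
    intro h
    have h3 : W^2 ≤ N * M^2 := by
      rw [hW, WW, mul_pow, hsN]
      have := MM_nonneg (wdC T U) N
      exact mul_le_mul_of_nonneg_left (pow_le_pow_left₀ this h 2) hNpos.le
    have h4 : M^2 ≤ M^2 / U w1 * U W := by
      rw [div_mul_eq_mul_div, le_div_iff₀ hw1]
      exact mul_le_mul_of_nonneg_left hUW (by positivity)
    have h5 : 0 ≤ 256 * N * U W := by positivity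
    calc W^2 ≤ N * M^2 := h3
      _ ≤ N * (M^2 / U w1 * U W) := mul_le_mul_of_nonneg_left h4 hNpos.le
      _ ≤ _ := by nlinarith
  obtain ⟨k, hk1', hkN, hkM⟩ := MM_attained (wdC T U) hN1
  rcases le_or_gt k k0 with hc | hc
  · apply triv
    rw [hkM]
    exact le_MM _ hk1' hc
  have hkpos : (0:ℝ) < k := by exact_mod_cast hk1'
  have hsk : Real.sqrt k ^ 2 = k := Real.sq_sqrt hkpos.le
  have hskpos : 0 < Real.sqrt (k:ℝ) := Real.sqrt_pos.2 hkpos
  rcases Nat.lt_or_ge (wdC T U k) 2 with hc2 | hc2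
  · apply triv
    rw [hkM]
    have h3 : wdC T U k = 1 := by have := hf k; omega
    rw [h3]
    refine le_trans ?_ hM1
    rw [div_le_one hskpos]
    simp only [Nat.cast_one]
    rw [Real.one_le_sqrt]
    exact_mod_cast hk1'
  -- main case
  have hMk : MM (wdC T U) k = MM (wdC T U) N := by
    apply le_antisymm (MM_mono _ hkN)
    rw [hkM]; exact le_MM _ hk1' le_rfl
  have hWk : WW (wdC T U) k = wdC T U k := by
    rw [WW, hMk, hkM]; field_simp
  have hwd2 : (2:ℝ) ≤ wdC T U k := by exact_mod_cast hc2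
  have hmin := H.wd_min hc2
  have hno : ¬ (1/16 < (k:ℝ) * T ((wdC T U k : ℝ) - 1)) := by
    have h3 := hk1 k (by omega)
    rw [hWk] at h3
    have h4 := HT.TTm ((wdC T U k : ℝ) - 1) (1/2 * (wdC T U k : ℝ)) (by linarith)
    have h5 := mul_le_mul_of_nonneg_left h4 hkpos.le
    push Not
    linarith
  have hyes := hmin.resolve_left hno
  have hwW : (wdC T U k : ℝ) ≤ W := by
    rw [← hWk]; exact WW_mono _ hkN
  have h6 : U ((wdC T U k : ℝ) - 1) ≤ U W := H.Umono (by linarith)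
  have h7 : (wdC T U k : ℝ)^2 ≤ 256 * k * U W := by
    have h8 := mul_le_mul_of_nonneg_left h6 hkpos.le
    nlinarith
  have h9 : W^2 = N * ((wdC T U k : ℝ)^2 / k) := by
    rw [hW, WW, hkM, mul_pow, div_pow, hsN, hsk]
  have h10 : (wdC T U k : ℝ)^2 / k ≤ 256 * U W := by
    rw [div_le_iff₀ hkpos]; linarith
  have h11 : 0 ≤ M^2 / U w1 * N * U W := by positivity
  calc W^2 = N * ((wdC T U k : ℝ)^2 / k) := h9
    _ ≤ N * (256 * U W) := mul_le_mul_of_nonneg_left h10 hNpos.le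
    _ ≤ _ := by nlinarith

/-- NDA, `ε` form, every real `w`. -/
theorem ndaC (H : Core T U) (hf : ∀ k, 1 ≤ f k) (HT : Tail T Tm G F f K)
    (hW : ∃ C : ℝ, 0 < C ∧ ∀ᶠ N : ℕ in atTop, (WW f N)^2 ≤ C * N * U (WW f N))
    (ε : ℝ) (hε : 0 < ε) :
    ∀ᶠ w : ℝ in atTop, w^2 * T w ≤ ε * U w := by
  obtain ⟨C, hC, hCN⟩ := hW
  have h1 := hair hf HT 1 one_pos
  simp only [one_mul] at h1
  have h2 : ∀ᶠ N : ℕ in atTop, (N:ℝ) * Tm (WW f N) < min (1/(4*C)) (ε/(4*C)) :=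
    h1.eventually (gt_mem_nhds (by positivity))
  obtain ⟨N1, hN1⟩ := eventually_atTop.1 (h2.and (hCN.and (eventually_ge_atTop 1)))
  refine eventually_atTop.2 ⟨WW f N1, fun w hw => ?_⟩
  -- N := greatest N with W_N ≤ w
  have hw0 : 0 ≤ w := by
    have := sqrt_le_WW f hf (hN1 N1 le_rfl).2.2
    have h3 := Real.sqrt_nonneg (N1:ℝ)
    linarith
  have hbig : ∀ n : ℕ, WW f n ≤ w → n ≤ ⌊w^2⌋₊ + 1 := by
    intro n hn
    rcases Nat.eq_zero_or_pos n with h0 | h0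
    · omega
    have h3 := sqrt_le_WW f hf h0
    have h4 : (n:ℝ) ≤ w^2 := by
      have h5 : Real.sqrt n ^2 = n := Real.sq_sqrt (by positivity)
      have h6 := Real.sqrt_nonneg (n:ℝ)
      nlinarith
    have := Nat.le_floor h4
    omega
  set N := Nat.findGreatest (fun n => WW f n ≤ w) (⌊w^2⌋₊ + 1) with hNdef
  have hN1N : N1 ≤ N := Nat.le_findGreatest (hbig N1 hw) hw
  have hNw : WW f N ≤ w :=
    Nat.findGreatest_spec (P := fun n => WW f n ≤ w) (hbig N1 hw) hw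
  have hN1w : w < WW f (N+1) := by
    by_contra hcon
    push Not at hcon
    have := Nat.le_findGreatest (P := fun n => WW f n ≤ w) (hbig (N+1) hcon) hcon
    omega
  obtain ⟨hA, -, hNpos1⟩ := hN1 N hN1N
  obtain ⟨-, hB, -⟩ := hN1 (N+1) (by omega)
  have hNpos : (1:ℝ) ≤ N := by exact_mod_cast hNpos1
  set W := WW f (N+1) with hW
  have hTw : T w ≤ Tm (WW f N) := HT.TTm _ _ hNw
  have hT0 : 0 ≤ T w := H.T0 w
  have hTm0 := HT.Tm0 (WW f N)
  set t := Tm (WW f N) with ht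
  have hA1 : (N:ℝ) * t < 1/(4*C) := lt_of_lt_of_le hA (min_le_left _ _)
  have hA2 : (N:ℝ) * t < ε/(4*C) := lt_of_lt_of_le hA (min_le_right _ _)
  rw [lt_div_iff₀ (by positivity)] at hA1 hA2
  have hst := H.Ustep w W hw0 hN1w.le
  have hU0 := H.U0 w
  push_cast at hB
  have hcn : C * ((N:ℝ)+1) ≤ 2 * (C * N) := by nlinarith
  have hcn0 : 0 ≤ C * ((N:ℝ)+1) := by positivity
  -- W² ≤ 2 C (N+1) U w
  have h3 : C * ((N:ℝ)+1) * T w ≤ 1/2 := by
    calc C * ((N:ℝ)+1) * T w ≤ 2 * (C * N) * t :=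
          mul_le_mul hcn hTw hT0 (by positivity)
      _ ≤ 1/2 := by nlinarith
  have h3' : C * ((N:ℝ)+1) * T w ≤ ε/2 := by
    calc C * ((N:ℝ)+1) * T w ≤ 2 * (C * N) * t :=
          mul_le_mul hcn hTw hT0 (by positivity)
      _ ≤ ε/2 := by nlinarith
  have h4 : W^2 ≤ 2 * (C * ((N:ℝ)+1)) * U w := by
    have h5 : C * ((N:ℝ)+1) * U W ≤ C * ((N:ℝ)+1) * (U w + W^2 * T w) :=
      mul_le_mul_of_nonneg_left hst hcn0
    have h6 : W^2 * (C * ((N:ℝ)+1) * T w) ≤ W^2 * (1/2) :=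
      mul_le_mul_of_nonneg_left h3 (by positivity)
    nlinarith
  have h5 : w^2 ≤ W^2 := pow_le_pow_left₀ hw0 hN1w.le 2
  calc w^2 * T w ≤ W^2 * T w := mul_le_mul_of_nonneg_right h5 hT0
    _ ≤ (2 * (C * ((N:ℝ)+1)) * U w) * T w := mul_le_mul_of_nonneg_right h4 hT0
    _ = 2 * (C * ((N:ℝ)+1) * T w) * U w := by ring
    _ ≤ 2 * (ε/2) * U w := by
        apply mul_le_mul_of_nonneg_right _ hU0
        linarith
    _ = ε * U w := by ring


/-- the NDA property in `ε` form, as a hypothesis on `(T, U)` -/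
def NDA (T U : ℝ → ℝ) : Prop := ∀ ε : ℝ, 0 < ε → ∀ᶠ w : ℝ in atTop, w^2 * T w ≤ ε * U w

theorem nda_of_tail (H : Core T U) (HT : Tail T Tm G F (wdC T U) K) : NDA T U :=
  fun ε hε => ndaC H (fun k => (H.wd_spec k).1) HT (WW_sq_le H HT) ε hε


/-! ### Corollaries of NDA -/

lemma ev_Upos (H : Core T U) : ∀ᶠ w : ℝ in atTop, 0 < U w := by
  obtain ⟨w, hw⟩ := H.Upos
  exact eventually_atTop.2 ⟨w, fun b hb => lt_of_lt_of_le hw (H.Umono hb)⟩

/-- NDA as a limit. -/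
theorem NDA.tendsto (H : Core T U) (h : NDA T U) :
    Tendsto (fun w : ℝ => w^2 * T w / U w) atTop (𝓝 0) := by
  rw [Metric.tendsto_nhds]
  intro ε hε
  filter_upwards [h (ε/2) (half_pos hε), ev_Upos H] with w hw hU
  have h0 : 0 ≤ w^2 * T w := mul_nonneg (sq_nonneg _) (H.T0 _)
  rw [Real.dist_eq, sub_zero, abs_of_nonneg (div_nonneg h0 hU.le), div_lt_iff₀ hU]
  nlinarith

/-- `U` is slowly varying (upper half). -/
theorem NDA.slow (H : Core T U) (h : NDA T U) (lam : ℝ) (hl : 1 ≤ lam) (ε : ℝ) (hε : 0 < ε) :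
    ∀ᶠ w : ℝ in atTop, U (lam * w) ≤ (1 + ε) * U w := by
  have hl0 : 0 < lam := by linarith
  filter_upwards [h (ε/lam^2) (by positivity), eventually_ge_atTop 0] with w hw hw0
  have h1 := H.Ustep w (lam * w) hw0 (by nlinarith)
  have h2 : lam^2 * (w^2 * T w) ≤ lam^2 * (ε/lam^2 * U w) :=
    mul_le_mul_of_nonneg_left hw (by positivity)
  have h3 : lam^2 * (ε/lam^2 * U w) = ε * U w := by field_simp
  nlinarith

theorem NDA.slow_tendsto (H : Core T U) (h : NDA T U) (lam : ℝ) (hl : 0 < lam) :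
    Tendsto (fun w : ℝ => U (lam * w) / U w) atTop (𝓝 1) := by
  have main : ∀ lam : ℝ, 1 ≤ lam → Tendsto (fun w : ℝ => U (lam * w) / U w) atTop (𝓝 1) := by
    intro lam hl
    rw [Metric.tendsto_nhds]
    intro ε hε
    filter_upwards [h.slow H lam hl (ε/2) (half_pos hε), ev_Upos H, eventually_ge_atTop 0]
      with w hw hU hw0
    have h1 : U w ≤ U (lam * w) := H.Umono (by nlinarith)
    have h2 : 1 ≤ U (lam * w) / U w := by rw [le_div_iff₀ hU]; linarith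
    rw [Real.dist_eq, abs_of_nonneg (by linarith), sub_lt_iff_lt_add, div_lt_iff₀ hU]
    nlinarith
  rcases le_total 1 lam with h1 | h1
  · exact main lam h1
  · have h2 := main lam⁻¹ ((one_le_inv₀ hl).2 h1)
    have h3 : Tendsto (fun w : ℝ => lam * w) atTop atTop := tendsto_id.const_mul_atTop hl
    have h4 := (h2.comp h3).inv₀ one_ne_zero
    simp only [inv_one] at h4
    refine h4.congr fun w => ?_
    simp only [Function.comp_apply]
    rw [inv_div, ← mul_assoc, inv_mul_cancel₀ hl.ne', one_mul]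

/-- the width tends to infinity -/
theorem wd_tendsto (H : Core T U) : Tendsto (fun N => wdC T U N) atTop atTop := by
  apply tendsto_atTop_atTop_of_monotone (fun a b hab => H.wd_mono hab)
  intro b
  -- for every r < b, eventually wd ≠ r
  have h1 : ∀ r : ℕ, 1 ≤ r → ∀ᶠ N : ℕ in atTop, wdC T U N ≠ r := by
    intro r hr
    by_cases hT : 0 < T r
    · filter_upwards [tendsto_natCast_atTop_atTop.eventually
        (eventually_gt_atTop ((1/16) / T r))] with N hN hcon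
      have h2 := (H.wd_spec N).2.1
      rw [hcon] at h2
      rw [div_lt_iff₀ hT] at hN
      linarith
    · have hT0 : T r = 0 := le_antisymm (not_lt.1 hT) (H.T0 _)
      have hU : 0 < U r := by
        obtain ⟨w, hw⟩ := H.Upos
        have h3 := H.Ustep r (max r w) (by positivity) (le_max_left _ _)
        rw [hT0, mul_zero, add_zero] at h3
        exact lt_of_lt_of_le (lt_of_lt_of_le hw (H.Umono (le_max_right _ _))) h3
      filter_upwards [tendsto_natCast_atTop_atTop.eventually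
        (eventually_gt_atTop (((r:ℝ)^2/64) / U r))] with N hN hcon
      have h2 := (H.wd_spec N).2.2
      rw [hcon] at h2
      rw [div_lt_iff₀ hU] at hN
      linarith
  have h2 : ∀ᶠ N : ℕ in atTop, ∀ r ∈ Finset.Icc 1 b, wdC T U N ≠ r := by
    rw [Finset.eventually_all]
    intro r hr
    exact h1 r (Finset.mem_Icc.1 hr).1
  obtain ⟨N, hN⟩ := h2.exists
  refine ⟨N, ?_⟩
  by_contra hcon
  push Not at hcon
  exact hN (wdC T U N) (Finset.mem_Icc.2 ⟨(H.wd_spec N).1, hcon.le⟩) rfl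

lemma wd_tendstoR (H : Core T U) : Tendsto (fun N => (wdC T U N : ℝ)) atTop atTop :=
  tendsto_natCast_atTop_atTop.comp (wd_tendsto H)

/-- `N T(ε w_N) → 0` -/
theorem NDA.hair (H : Core T U) (h : NDA T U) (ε : ℝ) (hε : 0 < ε) :
    Tendsto (fun N : ℕ => (N:ℝ) * T (ε * wdC T U N)) atTop (𝓝 0) := by
  have h1 : Tendsto (fun N => ε * (wdC T U N : ℝ)) atTop atTop :=
    (wd_tendstoR H).const_mul_atTop hε
  have hmain : ∀ e : ℝ, 0 < e → ∀ᶠ N : ℕ in atTop, (N:ℝ) * T (ε * wdC T U N) ≤ e := by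
    intro e he
    -- use U(ε w) ≤ 2 U w  when ε > 1, else U(ε w) ≤ U w: U (ε w) ≤ U (max 1 ε * w)
    have h3 := (wd_tendstoR H).eventually (h.slow H (max 1 ε) (le_max_left _ _) 1 one_pos)
    filter_upwards [h1.eventually (h (e * ε^2) (by positivity)), h3] with N hN h3
    have hw1 := H.one_le_wd N
    set w : ℝ := (wdC T U N : ℝ) with hw
    have h4 : U (ε * w) ≤ U (max 1 ε * w) :=
      H.Umono (mul_le_mul_of_nonneg_right (le_max_right _ _) (by linarith))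
    have h5 : U (ε * w) ≤ 2 * U w := by linarith
    have h6 := (H.wd_spec N).2.2
    have h7 := H.T0 (ε * w)
    have hNN : (0:ℝ) ≤ N := by positivity
    -- ε² w² T ≤ e ε² U(εw) ⇒ w² T ≤ e U(ε w) ≤ 2 e U w ; multiply by N
    have h8 : w^2 * T (ε * w) ≤ e * U (ε * w) := by
      have hε2 : 0 < ε^2 := by positivity
      have : ε^2 * (w^2 * T (ε * w)) ≤ ε^2 * (e * U (ε * w)) := by nlinarith
      exact le_of_mul_le_mul_left this hε2
    have h9 : w^2 * (N * T (ε * w)) ≤ w^2 * e := by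
      calc w^2 * (N * T (ε * w)) = N * (w^2 * T (ε * w)) := by ring
        _ ≤ N * (e * U (ε * w)) := mul_le_mul_of_nonneg_left h8 hNN
        _ ≤ N * (e * (2 * U w)) :=
            mul_le_mul_of_nonneg_left (mul_le_mul_of_nonneg_left h5 he.le) hNN
        _ = 2 * e * (N * U w) := by ring
        _ ≤ 2 * e * (w^2/64) := mul_le_mul_of_nonneg_left h6 (by positivity)
        _ ≤ w^2 * e := by nlinarith [sq_nonneg w]
    exact le_of_mul_le_mul_left h9 (by positivity)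
  rw [Metric.tendsto_nhds]
  intro e he
  filter_upwards [hmain (e/2) (half_pos he)] with N hN
  rw [Real.dist_eq, sub_zero, abs_of_nonneg (mul_nonneg (by positivity) (H.T0 _))]
  linarith

/-- `w_N² ≤ 256 N U(w_N)` eventually (the other half `64 N U(w_N) ≤ w_N²` is `wd_spec`). -/
theorem NDA.wd_sq_le (H : Core T U) (h : NDA T U) :
    ∀ᶠ N : ℕ in atTop, (wdC T U N : ℝ)^2 ≤ 256 * (N * U (wdC T U N)) := by
  have h1 : Tendsto (fun N => (wdC T U N : ℝ) - 1) atTop atTop :=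
    tendsto_atTop_add_const_right _ _ (wd_tendstoR H)
  filter_upwards [h1.eventually (h 1 one_pos), (wd_tendsto H).eventually (eventually_ge_atTop 2)]
    with N hN h2
  have h2' : (2:ℝ) ≤ wdC T U N := by exact_mod_cast h2
  set w : ℝ := (wdC T U N : ℝ) with hw
  have hNN : (0:ℝ) ≤ N := by positivity
  have h3 : U (w - 1) ≤ U w := H.Umono (by linarith)
  have h4 : (w-1)^2/64 ≤ N * U (w-1) := by
    rcases H.wd_min h2 with h5 | h5
    · have h6 : (w-1)^2 * (1/16) ≤ (w-1)^2 * (N * T (w-1)) :=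
        mul_le_mul_of_nonneg_left h5.le (sq_nonneg _)
      have h7 : N * ((w-1)^2 * T (w-1)) ≤ N * (1 * U (w-1)) := mul_le_mul_of_nonneg_left hN hNN
      nlinarith [sq_nonneg (w-1)]
    · exact h5.le
  have h8 : N * U (w-1) ≤ N * U w := mul_le_mul_of_nonneg_left h3 hNN
  nlinarith

/-- growth of the width, lower half -/
theorem NDA.wd_lower (H : Core T U) (h : NDA T U) (s : ℕ) (hs : 1 ≤ s) :
    ∀ᶠ N : ℕ in atTop, (1/2) * (Real.sqrt s * wdC T U N) ≤ wdC T U (s * N) := by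
  filter_upwards [h.wd_sq_le H] with N hN
  have h1 := (H.wd_spec (s * N)).2.2
  have h2 : wdC T U N ≤ wdC T U (s * N) := H.wd_mono (by nlinarith)
  have h2' : (wdC T U N : ℝ) ≤ wdC T U (s * N) := by exact_mod_cast h2
  have h3 : U (wdC T U N) ≤ U (wdC T U (s * N)) := H.Umono h2'
  push_cast at h1
  have hs0 : (0:ℝ) ≤ s := by positivity
  have hNN : (0:ℝ) ≤ N := by positivity
  have h4 : (s:ℝ) * N * U (wdC T U N) ≤ s * N * U (wdC T U (s * N)) :=
    mul_le_mul_of_nonneg_left h3 (by positivity)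
  have h5 : (s:ℝ) * (wdC T U N : ℝ)^2 ≤ s * (256 * (N * U (wdC T U N))) :=
    mul_le_mul_of_nonneg_left hN hs0
  have h6 : ((1/2) * (Real.sqrt s * wdC T U N))^2 ≤ (wdC T U (s * N) : ℝ)^2 := by
    have : Real.sqrt (s:ℝ) ^2 = s := Real.sq_sqrt hs0
    rw [mul_pow, mul_pow, this]
    nlinarith
  exact le_of_sq_le_sq h6 (by positivity)

/-- growth of the width, upper half -/
theorem NDA.wd_upper (H : Core T U) (h : NDA T U) (s : ℕ) (hs : 1 ≤ s) :
    ∀ᶠ N : ℕ in atTop, (wdC T U (s * N) : ℝ) ≤ 3 * (Real.sqrt s * wdC T U N) := by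
  have hs1 : (1:ℝ) ≤ s := by exact_mod_cast hs
  have hsq1 : 1 ≤ Real.sqrt s := by rw [Real.one_le_sqrt]; exact hs1
  have hsq : Real.sqrt (s:ℝ) ^2 = s := Real.sq_sqrt (by positivity)
  have h1 := (h.hair H 1 one_pos).eventually (gt_mem_nhds (show (0:ℝ) < 1/(16 * s) by positivity))
  have h2 := (wd_tendstoR H).eventually (h.slow H (3 * Real.sqrt s) (by linarith) 1 one_pos)
  filter_upwards [h1, h2] with N hN hN2
  have hw1 := H.one_le_wd N
  set w : ℝ := (wdC T U N : ℝ) with hw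
  rw [one_mul, lt_div_iff₀ (by positivity)] at hN
  set ρ : ℝ := 2 * (Real.sqrt s * w) with hρ
  have hρw : w ≤ ρ := by nlinarith
  have hr1 : ρ ≤ (⌈ρ⌉₊ : ℝ) := Nat.le_ceil _
  have hr2 : (⌈ρ⌉₊ : ℝ) ≤ 3 * (Real.sqrt s * w) := by
    have := (Nat.ceil_lt_add_one (show 0 ≤ ρ by positivity)).le
    nlinarith
  have h64 := (H.wd_spec N).2.2
  rw [← hw] at h64
  have hNN : (0:ℝ) ≤ N := by positivity
  have hle : wdC T U (s * N) ≤ ⌈ρ⌉₊ := by
    apply H.wd_le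
    · have : (1:ℝ) ≤ (⌈ρ⌉₊ : ℝ) := by linarith
      exact_mod_cast this
    · have h3 : T (⌈ρ⌉₊ : ℝ) ≤ T w := H.Tanti (by linarith)
      push_cast
      have h4 : (s:ℝ) * N * T (⌈ρ⌉₊ : ℝ) ≤ s * N * T w :=
        mul_le_mul_of_nonneg_left h3 (by positivity)
      nlinarith
    · have h3 : U (⌈ρ⌉₊ : ℝ) ≤ U (3 * Real.sqrt s * w) := H.Umono (by linarith)
      push_cast
      have h4 : (s:ℝ) * N * U (⌈ρ⌉₊ : ℝ) ≤ s * N * (2 * U w) :=
        mul_le_mul_of_nonneg_left (by linarith) (by positivity)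
      have h5 : ρ^2 ≤ (⌈ρ⌉₊ : ℝ)^2 := pow_le_pow_left₀ (by positivity) hr1 2
      have h6 : ρ^2 = 4 * (s * w^2) := by rw [hρ, mul_pow, mul_pow, hsq]; ring
      have h7 : (s:ℝ) * (N * U w) ≤ s * (w^2/64) := mul_le_mul_of_nonneg_left h64 (by positivity)
      nlinarith [sq_nonneg w]
  have hle' : (wdC T U (s * N) : ℝ) ≤ (⌈ρ⌉₊ : ℝ) := by exact_mod_cast hle
  linarith

end


/-! ### The measure level -/

section Meas
variable {P : Measure Ω} [IsProbabilityMeasure P] {V B : Ω → ℝ} {R : Ω → ℕ}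

lemma intOn (hV : Measurable V) (hB : Measurable B) (hVB : ∀ ω, |V ω| ≤ B ω) (w : ℝ) :
    IntegrableOn (fun ω => (V ω)^2) {ω | B ω ≤ w} P := by
  refine Measure.integrableOn_of_bounded (M := w^2) (measure_ne_top _ _)
    (hV.pow_const 2).aestronglyMeasurable ?_
  rw [ae_restrict_iff' (measurableSet_le hB measurable_const)]
  refine Eventually.of_forall fun ω hω => ?_
  have h1 : |V ω| ≤ w := le_trans (hVB ω) hω
  rw [Real.norm_eq_abs, abs_of_nonneg (sq_nonneg _), ← sq_abs (V ω)]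
  exact pow_le_pow_left₀ (abs_nonneg _) h1 2

/-- The core facts for a block law. -/
theorem core (hV : Measurable V) (hB : Measurable B) (hVB : ∀ ω, |V ω| ≤ B ω)
    (hne : P {ω | V ω ≠ 0} ≠ 0) : Core (T P B) (U P V B) where
  T0 := fun w => measureReal_nonneg
  T1 := fun w => measureReal_le_one
  Tanti := fun a b hab => measureReal_mono fun ω (hω : b < B ω) => lt_of_le_of_lt hab hω
  Tlim := by
    have h1 : Tendsto (P ∘ fun w : ℝ => {ω | w < B ω}) atTop (𝓝 (P (⋂ w : ℝ, {ω | w < B ω}))) := by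
      apply tendsto_measure_iInter_atTop
      · exact fun i => (measurableSet_lt measurable_const hB).nullMeasurableSet
      · exact fun a b hab ω (hω : b < B ω) => lt_of_le_of_lt hab hω
      · exact ⟨0, measure_ne_top _ _⟩
    have h2 : (⋂ w : ℝ, {ω | w < B ω}) = ∅ := by
      ext ω
      simp only [mem_iInter, mem_ofPred_eq, mem_empty_iff_false, iff_false, not_forall, not_lt]
      exact ⟨B ω, le_rfl⟩
    rw [h2, measure_empty] at h1
    have h3 := (ENNReal.tendsto_toReal (by simp : (0:ENNReal) ≠ ⊤)).comp h1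
    exact h3
  U0 := fun w => integral_nonneg fun ω => sq_nonneg _
  Umono := fun a b hab => by
    apply setIntegral_mono_set (intOn hV hB hVB b)
    · exact Eventually.of_forall fun ω => sq_nonneg _
    · exact Eventually.of_forall fun ω (hω : B ω ≤ a) => le_trans hω hab
  Ustep := by
    intro w w' hw hww
    have hms : MeasurableSet {ω | B ω ≤ w} := measurableSet_le hB measurable_const
    have hms' : MeasurableSet {ω | B ω ≤ w'} := measurableSet_le hB measurable_const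
    have hsub : {ω | B ω ≤ w} ⊆ {ω | B ω ≤ w'} := fun ω (hω : B ω ≤ w) => le_trans hω hww
    have h1 : U P V B w' = U P V B w + ∫ ω in {ω | B ω ≤ w'} \ {ω | B ω ≤ w}, (V ω)^2 ∂P := by
      have := integral_inter_add_sdiff (μ := P) (s := {ω | B ω ≤ w'}) hms (intOn hV hB hVB w')
      rw [inter_eq_right.2 hsub] at this
      exact this.symm
    rw [h1]
    have h2 : ∫ ω in {ω | B ω ≤ w'} \ {ω | B ω ≤ w}, (V ω)^2 ∂P ≤
        ∫ ω in {ω | B ω ≤ w'} \ {ω | B ω ≤ w}, w'^2 ∂P := by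
      apply setIntegral_mono_on
      · exact (intOn hV hB hVB w').mono_set sdiff_subset
      · exact (integrable_const _).integrableOn
      · exact hms'.diff hms
      · intro ω hω
        have h3 : |V ω| ≤ w' := le_trans (hVB ω) hω.1
        rw [← sq_abs (V ω)]
        exact pow_le_pow_left₀ (abs_nonneg _) h3 2
    rw [setIntegral_const, smul_eq_mul, mul_comm] at h2
    have h4 : P.real ({ω | B ω ≤ w'} \ {ω | B ω ≤ w}) ≤ T P B w :=
      measureReal_mono fun ω hω => (not_le.1 hω.2 : w < B ω)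
    have h5 := mul_le_mul_of_nonneg_left h4 (sq_nonneg w')
    linarith
  Upos := by
    by_contra hcon
    push Not at hcon
    apply hne
    have h1 : {ω | V ω ≠ 0} = ⋃ n : ℕ, {ω | V ω ≠ 0} ∩ {ω | B ω ≤ n} := by
      ext ω
      simp only [mem_iUnion, mem_inter_iff, mem_ofPred_eq]
      constructor
      · intro h
        obtain ⟨n, hn⟩ := exists_nat_ge (B ω)
        exact ⟨n, h, hn⟩
      · rintro ⟨n, h, -⟩
        exact h
    rw [h1, measure_iUnion_null_iff]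
    intro n
    have h2 : U P V B n = 0 := le_antisymm (hcon n) (integral_nonneg fun ω => sq_nonneg _)
    rw [U, setIntegral_eq_zero_iff_of_nonneg_ae (Eventually.of_forall fun ω => sq_nonneg _)
      (intOn hV hB hVB n)] at h2
    have h3 := ae_iff.1 h2
    rw [Measure.restrict_apply₀'
      (measurableSet_le hB measurable_const).nullMeasurableSet] at h3
    refine measure_mono_null (fun ω hω => ?_) h3
    refine ⟨?_, hω.2⟩
    simpa using hω.1

/-- `h P(R ≥ h) → 0` if `E R < ∞`. -/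
theorem tendsto_mul_tail (hR : Measurable R) (hRi : Integrable (fun ω => (R ω : ℝ)) P) :
    Tendsto (fun h : ℕ => (h:ℝ) * P.real {ω | h ≤ R ω}) atTop (𝓝 0) := by
  have h1 : Tendsto (fun h : ℕ => ∫ ω in {ω | h ≤ R ω}, (R ω : ℝ) ∂P) atTop
      (𝓝 (∫ ω in ⋂ n : ℕ, {ω | n ≤ R ω}, (R ω : ℝ) ∂P)) := by
    apply tendsto_setIntegral_of_antitone
    · exact fun h => measurableSet_le measurable_const hR
    · exact fun a b hab ω (hω : b ≤ R ω) => le_trans hab hω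
    · exact ⟨0, hRi.integrableOn⟩
  have h2 : (⋂ n : ℕ, {ω | n ≤ R ω}) = ∅ := by
    ext ω
    simp only [mem_iInter, mem_ofPred_eq, mem_empty_iff_false, iff_false, not_forall, not_le]
    exact ⟨R ω + 1, by omega⟩
  rw [h2, setIntegral_empty] at h1
  refine tendsto_of_tendsto_of_tendsto_of_le_of_le tendsto_const_nhds h1 ?_ ?_
  · intro h
    exact mul_nonneg (by positivity) measureReal_nonneg
  · intro h
    show (h:ℝ) * P.real {ω | h ≤ R ω} ≤ ∫ ω in {ω | h ≤ R ω}, (R ω : ℝ) ∂P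
    have h3 : ∫ _ω in {ω | h ≤ R ω}, (h:ℝ) ∂P ≤ ∫ ω in {ω | h ≤ R ω}, (R ω : ℝ) ∂P := by
      apply setIntegral_mono_on (integrable_const _).integrableOn hRi.integrableOn
        (measurableSet_le measurable_const hR)
      intro ω hω
      exact_mod_cast (hω : h ≤ R ω)
    rw [setIntegral_const, smul_eq_mul, mul_comm] at h3
    exact h3

/-- The tail data of a block law. -/
theorem tailOf (hR1 : ∀ ω, 1 ≤ R ω)
    (hG : Tendsto (fun h : ℕ => (h:ℝ) * P.real {ω | h ≤ R ω}) atTop (𝓝 0)) (f : ℕ → ℕ) {K : ℝ}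
    (hK : 0 ≤ K)
    (htail : ∀ h : ℕ, 1 ≤ h → ∀ r : ℝ, 0 < r →
      (h:ℝ) * P.real {ω | h ≤ R ω ∧ R ω < 2*h ∧ r ≤ B ω} ≤ K * ((f (4*h) : ℝ)/r)^4) :
    Tail (T P B) (fun r => P.real {ω | r ≤ B ω}) (fun h => P.real {ω | h ≤ R ω})
      (fun j r => P.real {ω | 2^j ≤ R ω ∧ R ω < 2*2^j ∧ r ≤ B ω}) f K where
  K0 := hK
  Tm0 := fun r => measureReal_nonneg
  TTm := fun w w' h => measureReal_mono fun ω (hω : w < B ω) => le_trans h hω.le
  dec := by
    intro J r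
    have hsub : {ω | r ≤ B ω} ⊆ (⋃ j ∈ Finset.range J, {ω | 2^j ≤ R ω ∧ R ω < 2*2^j ∧ r ≤ B ω}) ∪
        {ω | 2^J ≤ R ω} := by
      intro ω hω
      by_cases h : 2^J ≤ R ω
      · exact Or.inr h
      · left
        push Not at h
        have hne : R ω ≠ 0 := by have := hR1 ω; omega
        simp only [mem_iUnion, Finset.mem_range, mem_ofPred_eq]
        refine ⟨Nat.log 2 (R ω), (Nat.log_lt_iff_lt_pow (by norm_num) hne).2 h,
          Nat.pow_log_le_self 2 hne, ?_, hω⟩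
        have := Nat.lt_pow_succ_log_self (b := 2) (by norm_num) (R ω)
        rw [Nat.succ_eq_add_one, pow_succ] at this
        omega
    calc P.real {ω | r ≤ B ω} ≤ P.real ((⋃ j ∈ Finset.range J,
          {ω | 2^j ≤ R ω ∧ R ω < 2*2^j ∧ r ≤ B ω}) ∪ {ω | 2^J ≤ R ω}) := measureReal_mono hsub
      _ ≤ P.real (⋃ j ∈ Finset.range J, {ω | 2^j ≤ R ω ∧ R ω < 2*2^j ∧ r ≤ B ω}) +
          P.real {ω | 2^J ≤ R ω} := measureReal_union_le _ _
      _ ≤ _ := by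
          have := measureReal_biUnion_finset_le (μ := P) (Finset.range J)
            (fun j => {ω | 2^j ≤ R ω ∧ R ω < 2*2^j ∧ r ≤ B ω})
          linarith
  G0 := fun h => measureReal_nonneg
  Glim := by
    have h1 : Tendsto (fun J : ℕ => 2^J) atTop atTop :=
      tendsto_pow_atTop_atTop_of_one_lt (by norm_num)
    have := hG.comp h1
    simpa [Function.comp_def] using this
  hF := by
    intro j r hr
    have := htail (2^j) Nat.one_le_two_pow r hr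
    push_cast at this
    exact this

/-- **NDA**, `ε` form. -/
theorem nda_ev (hV : Measurable V) (hB : Measurable B) (hR : Measurable R)
    (hVB : ∀ ω, |V ω| ≤ B ω) (hR1 : ∀ ω, 1 ≤ R ω)
    (hRi : Integrable (fun ω => (R ω : ℝ)) P) (hne : P {ω | V ω ≠ 0} ≠ 0) (K : ℝ)
    (htail : ∀ h : ℕ, 1 ≤ h → ∀ r : ℝ, 0 < r →
      (h:ℝ) * P.real {ω | h ≤ R ω ∧ R ω < 2*h ∧ r ≤ B ω} ≤ K * ((wd P V B (4*h) : ℝ)/r)^4) :
    NDA (T P B) (U P V B) := by
  have H := core hV hB hVB hne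
  have hK : ∀ h : ℕ, 1 ≤ h → ∀ r : ℝ, 0 < r →
      (h:ℝ) * P.real {ω | h ≤ R ω ∧ R ω < 2*h ∧ r ≤ B ω} ≤
        max K 0 * ((wdC (T P B) (U P V B) (4*h) : ℝ)/r)^4 := by
    intro h hh r hr
    refine le_trans (htail h hh r hr) ?_
    exact mul_le_mul_of_nonneg_right (le_max_left _ _) (by positivity)
  exact nda_of_tail H (tailOf hR1 (tendsto_mul_tail hR hRi) _ (le_max_right _ _) hK)

/-- **NDA**, limit form. -/
theorem nda (hV : Measurable V) (hB : Measurable B) (hR : Measurable R)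
    (hVB : ∀ ω, |V ω| ≤ B ω) (hR1 : ∀ ω, 1 ≤ R ω)
    (hRi : Integrable (fun ω => (R ω : ℝ)) P) (hne : P {ω | V ω ≠ 0} ≠ 0) (K : ℝ)
    (htail : ∀ h : ℕ, 1 ≤ h → ∀ r : ℝ, 0 < r →
      (h:ℝ) * P.real {ω | h ≤ R ω ∧ R ω < 2*h ∧ r ≤ B ω} ≤ K * ((wd P V B (4*h) : ℝ)/r)^4) :
    Tendsto (fun w : ℝ => w^2 * P.real {ω | w < B ω} / U P V B w) atTop (𝓝 0) :=
  (nda_ev hV hB hR hVB hR1 hRi hne K htail).tendsto (core hV hB hVB hne)

/-- geometric tails are 4th power tails -/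
theorem geo_le {C ρ c : ℝ} (hC : 0 ≤ C) (hρ0 : 0 ≤ ρ) (hρ : ρ < 1) (hc : 0 < c) :
    ∃ K : ℝ, 0 ≤ K ∧ ∀ r w : ℝ, 0 < r → 0 < w → C * ρ ^ ⌊c * r / w⌋₊ ≤ K * (w/r)^4 := by
  have h1 : Tendsto (fun n : ℕ => (n:ℝ)^4 * ρ^n) atTop (𝓝 0) :=
    tendsto_pow_const_mul_const_pow_of_abs_lt_one 4 (by rwa [abs_of_nonneg hρ0])
  obtain ⟨S, hS⟩ := h1.bddAbove_range
  have hS' : ∀ n : ℕ, (n:ℝ)^4 * ρ^n ≤ S := fun n => hS ⟨n, rfl⟩
  have hS0 : 0 ≤ S := le_trans (by positivity) (hS' 0)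
  refine ⟨C * (16 * (S + 1)) / c^4, by positivity, fun r w hr hw => ?_⟩
  set n := ⌊c * r / w⌋₊ with hn
  have h2 : c * r / w < n + 1 := Nat.lt_floor_add_one _
  have h3 : ((n:ℝ)+1)^4 * ρ^n ≤ 16 * (S + 1) := by
    have h4 : ((n:ℝ)+1)^4 ≤ 16 * ((n:ℝ)^4 + 1) := by
      have hn0 : (0:ℝ) ≤ n := by positivity
      rcases Nat.eq_zero_or_pos n with h0 | h0
      · rw [h0]; norm_num
      · have h1n : (1:ℝ) ≤ n := by exact_mod_cast h0
        have : ((n:ℝ)+1)^4 ≤ (2 * (n:ℝ))^4 := pow_le_pow_left₀ (by positivity) (by linarith) 4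
        nlinarith
    have h5 : ρ^n ≤ 1 := pow_le_one₀ hρ0 hρ.le
    have h6 : (0:ℝ) ≤ ρ^n := by positivity
    have h7 := hS' n
    calc ((n:ℝ)+1)^4 * ρ^n ≤ 16 * ((n:ℝ)^4 + 1) * ρ^n := mul_le_mul_of_nonneg_right h4 h6
      _ = 16 * ((n:ℝ)^4 * ρ^n + ρ^n) := by ring
      _ ≤ _ := by linarith
  have h8 : (c * r / w)^4 ≤ ((n:ℝ)+1)^4 := pow_le_pow_left₀ (by positivity) h2.le 4
  have h9 : (c * r / w)^4 * ρ^n ≤ 16 * (S + 1) :=
    le_trans (mul_le_mul_of_nonneg_right h8 (by positivity)) h3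
  have h10 : (c * r / w)^4 * (w/r)^4 = c^4 := by
    rw [← mul_pow]; congr 1; field_simp
  have h11 : C * ρ^n * c^4 ≤ C * (16 * (S+1)) * (w/r)^4 := by
    rw [← h10]
    calc C * ρ^n * ((c * r / w)^4 * (w/r)^4) = C * ((c * r / w)^4 * ρ^n) * (w/r)^4 := by ring
      _ ≤ C * (16 * (S+1)) * (w/r)^4 := by
          apply mul_le_mul_of_nonneg_right _ (by positivity)
          exact mul_le_mul_of_nonneg_left h9 hC
  rw [div_mul_eq_mul_div, le_div_iff₀ (by positivity)]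
  exact h11

/-- **NDA** from the geometric slab bound: `h P(h ≤ R < 2h, r ≤ B) ≤ C ρ^⌊c r / wd (4h)⌋`. -/
theorem nda_geo_ev (hV : Measurable V) (hB : Measurable B) (hR : Measurable R)
    (hVB : ∀ ω, |V ω| ≤ B ω) (hR1 : ∀ ω, 1 ≤ R ω)
    (hRi : Integrable (fun ω => (R ω : ℝ)) P) (hne : P {ω | V ω ≠ 0} ≠ 0) {C ρ c : ℝ}
    (hC : 0 ≤ C) (hρ0 : 0 ≤ ρ) (hρ : ρ < 1) (hc : 0 < c)
    (htail : ∀ h : ℕ, 1 ≤ h → ∀ r : ℝ, 0 < r →
      (h:ℝ) * P.real {ω | h ≤ R ω ∧ R ω < 2*h ∧ r ≤ B ω} ≤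
        C * ρ ^ ⌊c * r / (wd P V B (4*h) : ℝ)⌋₊) :
    NDA (T P B) (U P V B) := by
  obtain ⟨K, hK, hKb⟩ := geo_le hC hρ0 hρ hc
  have H := core hV hB hVB hne
  refine nda_ev hV hB hR hVB hR1 hRi hne K fun h hh r hr => ?_
  exact le_trans (htail h hh r hr) (hKb r _ hr (lt_of_lt_of_le one_pos (H.one_le_wd (4*h))))


end Meas

end Crest.Agent.R154.Hair738
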