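import Mathlib

-- ▼ part R154/Joint1_132
section

/-! Row 154, B4 trunk side: joint cuts of two independent renewal-reward sequences.
Part 1: shift property of product measures, joint restart. Mathlib only. -/

set_option autoImplicit false
set_option linter.unusedSectionVars false

namespace Crest.Agent.R154.J132

open MeasureTheory ProbabilityTheory Filter Topology Set
open scoped ENNReal

variable {A : Type*} [MeasurableSpace A]

/-- drop the first `n` letters -/
def sh (n : ℕ) (a : ℕ → A) : ℕ → A := fun k => a (n + k)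

lemma measurable_sh (n : ℕ) : Measurable (sh n : (ℕ → A) → ℕ → A) :=
  measurable_pi_lambda _ fun _ => measurable_pi_apply _

lemma sh_zero (a : ℕ → A) : sh 0 a = a := by funext k; simp [sh]

lemma sh_sh (n m : ℕ) (a : ℕ → A) : sh n (sh m a) = sh (m + n) a := by
  funext k; simp only [sh, add_assoc]

/-- iid sequence law -/
noncomputable abbrev iidL (μ : Measure A) : Measure (ℕ → A) := Measure.infinitePi fun _ : ℕ => μ

/-- the cylinder of the first `n` letters of `w` -/
def cy (n : ℕ) (w : ℕ → A) : Set (ℕ → A) := {a | ∀ i < n, a i = w i}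

lemma cy_eq_pi (n : ℕ) (w : ℕ → A) :
    cy n w = Set.pi ((Finset.range n : Finset ℕ) : Set ℕ) fun i => {w i} := by
  ext a
  simp [cy, Set.mem_pi]

variable [MeasurableSingletonClass A]

lemma measurableSet_cy (n : ℕ) (w : ℕ → A) : MeasurableSet (cy n w) := by
  rw [cy_eq_pi]
  exact MeasurableSet.pi (Finset.countable_toSet _) fun i _ => measurableSet_singleton _

/-- **shift**: given the first `n` letters, the rest is iid with the same law. -/
theorem restrict_cy_map_sh (μ : Measure A) [IsProbabilityMeasure μ] (n : ℕ) (w : ℕ → A) :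
    ((iidL μ).restrict (cy n w)).map (sh n) = (iidL μ (cy n w)) • iidL μ := by
  classical
  -- both sides are finite measures which agree on boxes
  set c := iidL μ (cy n w) with hc
  by_cases h0 : c = 0
  · rw [h0, zero_smul]
    have : (iidL μ).restrict (cy n w) = 0 := Measure.restrict_eq_zero.2 h0
    rw [this, Measure.map_zero]
  have hct : c ≠ ⊤ := measure_ne_top _ _
  have key : c⁻¹ • ((iidL μ).restrict (cy n w)).map (sh n) = iidL μ := by
    refine Measure.eq_infinitePi _ fun s t ht => ?_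
    have hbox : MeasurableSet (Set.pi (s : Set ℕ) t) :=
      MeasurableSet.pi s.countable_toSet fun i _ => ht i
    rw [Measure.smul_apply, smul_eq_mul, Measure.map_apply (measurable_sh n) hbox,
      Measure.restrict_apply (measurable_sh n hbox)]
    set t' : ℕ → Set A := fun i => if i < n then {w i} else t (i - n) with ht'
    set s' : Finset ℕ := Finset.range n ∪ s.map (addLeftEmbedding n) with hs'
    have hset : sh n ⁻¹' (Set.pi (s : Set ℕ) t) ∩ cy n w = Set.pi (s' : Set ℕ) t' := by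
      ext a
      simp only [Set.mem_inter_iff, Set.mem_preimage, Set.mem_pi, cy, Set.mem_ofPred_eq, hs',
        Finset.coe_union, Finset.coe_range, Finset.coe_map, Set.mem_union, Set.mem_Iio,
        Set.mem_image, Finset.mem_coe, addLeftEmbedding_apply, ht', sh]
      constructor
      · rintro ⟨h1, h2⟩ i (hi | ⟨j, hj, rfl⟩)
        · rw [if_pos hi]; exact h2 i hi
        · rw [if_neg (by omega), Nat.add_sub_cancel_left]
          exact h1 j hj
      · intro h
        refine ⟨fun j hj => ?_, fun i hi => ?_⟩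
        · have := h (n + j) (Or.inr ⟨j, hj, rfl⟩)
          rwa [if_neg (by omega), Nat.add_sub_cancel_left] at this
        · have := h i (Or.inl hi)
          rwa [if_pos hi] at this
    have ht'm : ∀ i ∈ s', MeasurableSet (t' i) := by
      intro i _
      simp only [ht']
      split_ifs
      · exact measurableSet_singleton _
      · exact ht _
    rw [hset, Measure.infinitePi_pi _ ht'm]
    have hdisj : Disjoint (Finset.range n) (s.map (addLeftEmbedding n)) := by
      rw [Finset.disjoint_left]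
      intro i hi hi'
      rw [Finset.mem_map] at hi'
      obtain ⟨j, _, rfl⟩ := hi'
      simp at hi
    rw [hs', Finset.prod_union hdisj, Finset.prod_map]
    have e1 : ∏ i ∈ Finset.range n, μ (t' i) = c := by
      rw [hc, cy_eq_pi, Measure.infinitePi_pi _ fun i _ => measurableSet_singleton _]
      refine Finset.prod_congr rfl fun i hi => ?_
      simp only [ht', if_pos (Finset.mem_range.1 hi)]
    have e2 : ∏ i ∈ s, μ (t' (addLeftEmbedding n i)) = ∏ i ∈ s, μ (t i) := by
      refine Finset.prod_congr rfl fun i _ => ?_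
      simp only [ht', addLeftEmbedding_apply]
      rw [if_neg (by omega), Nat.add_sub_cancel_left]
    rw [e1, e2, ← mul_assoc, ENNReal.inv_mul_cancel h0 hct, one_mul]
  conv_rhs => rw [← key]
  rw [smul_smul, ENNReal.mul_inv_cancel h0 hct, one_smul]

/-- the law of two independent sequences -/
noncomputable abbrev pairL (μ : Measure A) : Measure ((ℕ → A) × (ℕ → A)) :=
  (iidL μ).prod (iidL μ)

/-- joint shift -/
def sh2 (i j : ℕ) (p : (ℕ → A) × (ℕ → A)) : (ℕ → A) × (ℕ → A) := (sh i p.1, sh j p.2)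

omit [MeasurableSingletonClass A] in
lemma measurable_sh2 (i j : ℕ) : Measurable (sh2 i j : (ℕ → A) × (ℕ → A) → _) :=
  ((measurable_sh i).comp measurable_fst).prodMk ((measurable_sh j).comp measurable_snd)

/-- determined by the first `i` letters of the first and the first `j` letters of the second. -/
def Det2 (i j : ℕ) (C : Set ((ℕ → A) × (ℕ → A))) : Prop :=
  ∀ p q : (ℕ → A) × (ℕ → A), (∀ k < i, p.1 k = q.1 k) → (∀ k < j, p.2 k = q.2 k) →
    (p ∈ C ↔ q ∈ C)

lemma restrict_cy2_map (μ : Measure A) [IsProbabilityMeasure μ] (i j : ℕ) (w w' : ℕ → A) :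
    ((pairL μ).restrict (cy i w ×ˢ cy j w')).map (sh2 i j)
      = (pairL μ (cy i w ×ˢ cy j w')) • pairL μ := by
  have h1 : (sh2 i j : (ℕ → A) × (ℕ → A) → _) = Prod.map (sh i) (sh j) := rfl
  rw [h1, ← Measure.prod_restrict, ← Measure.map_prod_map _ _ (measurable_sh i) (measurable_sh j),
    restrict_cy_map_sh, restrict_cy_map_sh, Measure.prod_prod, Measure.prod_smul_left,
    Measure.prod_smul_right, smul_smul]

/-- extension of a finite word -/
def extW [Inhabited A] (n : ℕ) (w : Fin n → A) : ℕ → A :=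
  fun k => if h : k < n then w ⟨k, h⟩ else default

variable [Countable A] [Inhabited A]

/-- decomposition of a determined set -/
lemma Det2.eq_iUnion {i j : ℕ} {C : Set ((ℕ → A) × (ℕ → A))} (hC : Det2 i j C) :
    C = ⋃ v : {v : (Fin i → A) × (Fin j → A) // (extW i v.1, extW j v.2) ∈ C},
      cy i (extW i v.1.1) ×ˢ cy j (extW j v.1.2) := by
  ext p
  simp only [Set.mem_iUnion]
  constructor
  · intro hp
    refine ⟨⟨(fun k => p.1 k, fun k => p.2 k), ?_⟩, ?_, ?_⟩
    · refine (hC _ p (fun k hk => ?_) fun k hk => ?_).2 hp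
      · simp [extW, hk]
      · simp [extW, hk]
    · intro k hk; simp [extW, hk]
    · intro k hk; simp [extW, hk]
  · rintro ⟨⟨v, hv⟩, h1, h2⟩
    exact (hC p (extW i v.1, extW j v.2) (fun k hk => h1 k hk) (fun k hk => h2 k hk)).2 hv

lemma disj_cy2 {i j : ℕ} {v v' : (Fin i → A) × (Fin j → A)} (hne : v ≠ v') :
    Disjoint (cy i (extW i v.1) ×ˢ cy j (extW j v.2))
      (cy i (extW i v'.1) ×ˢ cy j (extW j v'.2)) := by
  rw [Set.disjoint_left]
  rintro p ⟨h1, h2⟩ ⟨h3, h4⟩
  apply hne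
  refine Prod.ext (funext fun k => ?_) (funext fun k => ?_)
  · have e1 := h1 k.1 k.2
    have e2 := h3 k.1 k.2
    simp only [extW, k.2, dif_pos] at e1 e2
    exact e1.symm.trans e2
  · have e1 := h2 k.1 k.2
    have e2 := h4 k.1 k.2
    simp only [extW, k.2, dif_pos] at e1 e2
    exact e1.symm.trans e2

lemma Det2.measurableSet {i j : ℕ} {C : Set ((ℕ → A) × (ℕ → A))} (hC : Det2 i j C) :
    MeasurableSet C := by
  rw [hC.eq_iUnion]
  exact MeasurableSet.iUnion fun v => (measurableSet_cy _ _).prod (measurableSet_cy _ _)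

/-- **joint restart**: `P(C ∩ shift⁻¹ B) = P(C) P(B)`. -/
theorem restart (μ : Measure A) [IsProbabilityMeasure μ] {i j : ℕ}
    {C : Set ((ℕ → A) × (ℕ → A))} (hC : Det2 i j C) {B : Set ((ℕ → A) × (ℕ → A))}
    (hB : MeasurableSet B) :
    pairL μ (C ∩ sh2 i j ⁻¹' B) = pairL μ C * pairL μ B := by
  have hd : Pairwise (Function.onFun Disjoint
      fun v : {v : (Fin i → A) × (Fin j → A) // (extW i v.1, extW j v.2) ∈ C} =>
        cy i (extW i v.1.1) ×ˢ cy j (extW j v.1.2)) := by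
    intro v v' hne
    exact disj_cy2 fun h => hne (Subtype.ext h)
  have hm : ∀ v : {v : (Fin i → A) × (Fin j → A) // (extW i v.1, extW j v.2) ∈ C},
      MeasurableSet (cy i (extW i v.1.1) ×ˢ cy j (extW j v.1.2)) :=
    fun v => (measurableSet_cy _ _).prod (measurableSet_cy _ _)
  have hB' : MeasurableSet (sh2 i j ⁻¹' B) := measurable_sh2 i j hB
  have e1 : pairL μ C = ∑' v : {v : (Fin i → A) × (Fin j → A) // (extW i v.1, extW j v.2) ∈ C},
      pairL μ (cy i (extW i v.1.1) ×ˢ cy j (extW j v.1.2)) := by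
    conv_lhs => rw [hC.eq_iUnion]
    exact measure_iUnion hd hm
  have e2 : pairL μ (C ∩ sh2 i j ⁻¹' B)
      = ∑' v : {v : (Fin i → A) × (Fin j → A) // (extW i v.1, extW j v.2) ∈ C},
      pairL μ ((cy i (extW i v.1.1) ×ˢ cy j (extW j v.1.2)) ∩ sh2 i j ⁻¹' B) := by
    conv_lhs => rw [hC.eq_iUnion, Set.iUnion_inter]
    refine measure_iUnion ?_ fun v => (hm v).inter hB'
    intro v v' hne
    exact (hd hne).mono Set.inter_subset_left Set.inter_subset_left
  rw [e1, e2, ← ENNReal.tsum_mul_right]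
  refine tsum_congr fun v => ?_
  have h := congrArg (fun ν : Measure ((ℕ → A) × (ℕ → A)) => ν B)
    (restrict_cy2_map μ i j (extW i v.1.1) (extW j v.1.2))
  simp only [Measure.smul_apply, smul_eq_mul] at h
  rw [Measure.map_apply (measurable_sh2 i j) hB, Measure.restrict_apply hB'] at h
  rw [Set.inter_comm]; exact h

end Crest.Agent.R154.J132
end

-- ▼ part R154/Joint2_132

/-! Row 154, B4 trunk side, part 2: joint cuts, the renewal identity, tail bound. -/

set_option autoImplicit false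
set_option linter.unusedSectionVars false

namespace Crest.Agent.R154.J132

open MeasureTheory ProbabilityTheory Filter Topology Set
open scoped ENNReal

variable {A : Type*}

/-- height after `n` letters -/
def H (Y : A → ℕ) (n : ℕ) (a : ℕ → A) : ℕ := ∑ i ∈ Finset.range n, Y (a i)

lemma H_zero (Y : A → ℕ) (a : ℕ → A) : H Y 0 a = 0 := by simp [H]

lemma H_succ (Y : A → ℕ) (n : ℕ) (a : ℕ → A) : H Y (n + 1) a = H Y n a + Y (a n) := by
  simp [H, Finset.sum_range_succ]

lemma H_add (Y : A → ℕ) (n m : ℕ) (a : ℕ → A) : H Y (n + m) a = H Y n a + H Y m (sh n a) := by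
  simp [H, Finset.sum_range_add, sh]

lemma H_congr {Y : A → ℕ} {n : ℕ} {a b : ℕ → A} (h : ∀ i < n, a i = b i) : H Y n a = H Y n b :=
  Finset.sum_congr rfl fun i hi => by rw [h i (Finset.mem_range.1 hi)]

lemma H_strictMono {Y : A → ℕ} (hY : ∀ a, 1 ≤ Y a) (a : ℕ → A) :
    StrictMono fun n => H Y n a := by
  refine strictMono_nat_of_lt_succ fun n => ?_
  rw [H_succ]
  have := hY (a n)
  omega

lemma le_H {Y : A → ℕ} (hY : ∀ a, 1 ≤ Y a) (n : ℕ) (a : ℕ → A) : n ≤ H Y n a :=
  (H_strictMono hY a).id_le n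

/-- `ℓ` is a joint cut level -/
def JCut (Y : A → ℕ) (p : (ℕ → A) × (ℕ → A)) (l : ℕ) : Prop :=
  ∃ i j, H Y i p.1 = l ∧ H Y j p.2 = l

lemma jcut_zero (Y : A → ℕ) (p : (ℕ → A) × (ℕ → A)) : JCut Y p 0 :=
  ⟨0, 0, H_zero _ _, H_zero _ _⟩

/-- both have a cut at level `k`, with indices `q` -/
def At (Y : A → ℕ) (k : ℕ) (q : ℕ × ℕ) : Set ((ℕ → A) × (ℕ → A)) :=
  {p | H Y q.1 p.1 = k ∧ H Y q.2 p.2 = k}

/-- no joint cut level in `[1, m]` -/
def NoCut (Y : A → ℕ) (m : ℕ) : Set ((ℕ → A) × (ℕ → A)) :=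
  {p | ∀ l, 1 ≤ l → l ≤ m → ¬ JCut Y p l}

lemma det2_At (Y : A → ℕ) (k : ℕ) (q : ℕ × ℕ) : Det2 q.1 q.2 (At Y k q) := by
  intro p p' h1 h2
  simp only [At, mem_ofPred_eq]
  rw [H_congr h1, H_congr h2]

lemma disj_At {Y : A → ℕ} (hY : ∀ a, 1 ≤ Y a) (k : ℕ) {q q' : ℕ × ℕ} (hne : q ≠ q') :
    Disjoint (At Y k q) (At Y k q') := by
  rw [Set.disjoint_left]
  rintro p ⟨h1, h2⟩ ⟨h3, h4⟩
  apply hne
  exact Prod.ext ((H_strictMono hY p.1).injective (h1.trans h3.symm))
    ((H_strictMono hY p.2).injective (h2.trans h4.symm))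

lemma jcut_sh {Y : A → ℕ} {k l : ℕ} {q : ℕ × ℕ} {p : (ℕ → A) × (ℕ → A)} (hp : p ∈ At Y k q)
    (h : JCut Y (sh2 q.1 q.2 p) l) : JCut Y p (k + l) := by
  obtain ⟨i, j, h1, h2⟩ := h
  exact ⟨q.1 + i, q.2 + j, by rw [H_add, hp.1]; exact congrArg _ h1,
    by rw [H_add, hp.2]; exact congrArg _ h2⟩

lemma jcut_of_sh {Y : A → ℕ} (hY : ∀ a, 1 ≤ Y a) {k l : ℕ} {q : ℕ × ℕ}
    {p : (ℕ → A) × (ℕ → A)} (hp : p ∈ At Y k q)
    (h : JCut Y p (k + l)) : JCut Y (sh2 q.1 q.2 p) l := by
  obtain ⟨i, j, h1, h2⟩ := h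
  have hi : q.1 ≤ i := by
    refine (H_strictMono hY p.1).le_iff_le.1 ?_
    change H Y q.1 p.1 ≤ H Y i p.1
    rw [hp.1, h1]; omega
  have hj : q.2 ≤ j := by
    refine (H_strictMono hY p.2).le_iff_le.1 ?_
    change H Y q.2 p.2 ≤ H Y j p.2
    rw [hp.2, h2]; omega
  refine ⟨i - q.1, j - q.2, ?_, ?_⟩
  · have := H_add Y q.1 (i - q.1) p.1
    rw [Nat.add_sub_cancel' hi, h1, hp.1] at this
    change H Y (i - q.1) (sh q.1 p.1) = l
    omega
  · have := H_add Y q.2 (j - q.2) p.2
    rw [Nat.add_sub_cancel' hj, h2, hp.2] at this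
    change H Y (j - q.2) (sh q.2 p.2) = l
    omega

variable [MeasurableSpace A] [MeasurableSingletonClass A] [Countable A] [Inhabited A]

lemma measurableSet_jcut (Y : A → ℕ) (l : ℕ) : MeasurableSet {p | JCut Y p l} := by
  have : {p | JCut Y p l} = ⋃ q : ℕ × ℕ, At Y l q := by
    ext p
    simp only [JCut, mem_ofPred_eq, mem_iUnion, At, Prod.exists]
  rw [this]
  exact MeasurableSet.iUnion fun q => (det2_At Y l q).measurableSet

lemma measurableSet_noCut (Y : A → ℕ) (m : ℕ) : MeasurableSet (NoCut Y m) := by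
  have : NoCut Y m = ⋂ l : ℕ, ⋂ _ : 1 ≤ l, ⋂ _ : l ≤ m, {p | JCut Y p l}ᶜ := by
    ext p; simp [NoCut]
  rw [this]
  exact MeasurableSet.iInter fun l => MeasurableSet.iInter fun _ => MeasurableSet.iInter fun _ =>
    (measurableSet_jcut Y l).compl


/-- restart along a disjoint family of determined events -/
theorem restart_family (μ : Measure A) [IsProbabilityMeasure μ]
    (C : ℕ × ℕ → Set ((ℕ → A) × (ℕ → A))) (hC : ∀ q, Det2 q.1 q.2 (C q))
    (hd : Pairwise (Function.onFun Disjoint C)) {B : Set ((ℕ → A) × (ℕ → A))}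
    (hB : MeasurableSet B) :
    pairL μ (⋃ q, (C q ∩ sh2 q.1 q.2 ⁻¹' B)) = pairL μ (⋃ q, C q) * pairL μ B := by
  rw [measure_iUnion (fun q q' h => (hd h).mono inter_subset_left inter_subset_left)
      (fun q => (hC q).measurableSet.inter (measurable_sh2 q.1 q.2 hB)),
    measure_iUnion hd fun q => (hC q).measurableSet, ← ENNReal.tsum_mul_right]
  exact tsum_congr fun q => restart μ (hC q) hB

/-- the renewal function -/
noncomputable def Ur (μ : Measure A) (Y : A → ℕ) (l : ℕ) : ℝ≥0∞ := pairL μ {p | JCut Y p l}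

/-- **restart at level `k`** -/
theorem restart_level (μ : Measure A) [IsProbabilityMeasure μ] {Y : A → ℕ} (hY : ∀ a, 1 ≤ Y a)
    (k : ℕ) {B : Set ((ℕ → A) × (ℕ → A))} (hB : MeasurableSet B) :
    pairL μ (⋃ q : ℕ × ℕ, (At Y k q ∩ sh2 q.1 q.2 ⁻¹' B)) = Ur μ Y k * pairL μ B := by
  rw [restart_family μ _ (det2_At Y k) (fun q q' h => disj_At hY k h) hB, Ur]
  congr 2
  ext p
  simp only [JCut, mem_ofPred_eq, mem_iUnion, At, Prod.exists]

/-- the last joint cut level `≤ l` is `k`, and the shifted pair lies in `G (l - k)` -/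
def Last (Y : A → ℕ) (l : ℕ) (G : ℕ → Set ((ℕ → A) × (ℕ → A))) (k : ℕ) :
    Set ((ℕ → A) × (ℕ → A)) :=
  ⋃ q : ℕ × ℕ, (At Y k q ∩ sh2 q.1 q.2 ⁻¹' (NoCut Y (l - k) ∩ G (l - k)))

lemma exists_last (Y : A → ℕ) (l : ℕ) (p : (ℕ → A) × (ℕ → A)) :
    ∃ k ≤ l, p ∈ Last Y l (fun _ => univ) k := by
  classical
  have h0 : ∃ k, k ≤ l ∧ JCut Y p k := ⟨0, Nat.zero_le _, jcut_zero Y p⟩
  set k := Nat.findGreatest (fun k => JCut Y p k) l with hk
  have hkl : k ≤ l := Nat.findGreatest_le l
  have hkc : JCut Y p k := Nat.findGreatest_spec (P := fun k => JCut Y p k) (Nat.zero_le l)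
    (jcut_zero Y p)
  refine ⟨k, hkl, ?_⟩
  obtain ⟨i, j, h1, h2⟩ := hkc
  simp only [Last, mem_iUnion]
  refine ⟨(i, j), ⟨h1, h2⟩, ?_, trivial⟩
  intro x hx1 hx2 hc
  have h3 : JCut Y p (k + x) := jcut_sh (q := (i, j)) ⟨h1, h2⟩ hc
  have h4 : k + x ≤ k := Nat.le_findGreatest (by omega) h3
  omega

lemma disj_last {Y : A → ℕ} (hY : ∀ a, 1 ≤ Y a) (l : ℕ) (G G' : ℕ → Set ((ℕ → A) × (ℕ → A)))
    {k k' : ℕ} (hk : k ≤ l) (hk' : k' ≤ l) (hne : k ≠ k') :
    Disjoint (Last Y l G k) (Last Y l G' k') := by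
  wlog h : k < k' generalizing k k' G G'
  · exact (this G' G hk' hk (Ne.symm hne) (by omega)).symm
  rw [Set.disjoint_left]
  intro p hp hp'
  simp only [Last, mem_iUnion] at hp hp'
  obtain ⟨q, hq, hn, -⟩ := hp
  obtain ⟨q', hq', -⟩ := hp'
  have h1 : JCut Y p (k + (k' - k)) := by
    rw [Nat.add_sub_cancel' h.le]
    exact ⟨q'.1, q'.2, hq'.1, hq'.2⟩
  exact hn (k' - k) (by omega) (by omega) (jcut_of_sh hY hq h1)

lemma measurableSet_last (Y : A → ℕ) (l : ℕ) {G : ℕ → Set ((ℕ → A) × (ℕ → A))}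
    (hG : ∀ m, MeasurableSet (G m)) (k : ℕ) : MeasurableSet (Last Y l G k) :=
  MeasurableSet.iUnion fun q => (det2_At Y k q).measurableSet.inter
    (measurable_sh2 _ _ ((measurableSet_noCut Y _).inter (hG _)))

lemma measure_last (μ : Measure A) [IsProbabilityMeasure μ] {Y : A → ℕ} (hY : ∀ a, 1 ≤ Y a)
    (l : ℕ) {G : ℕ → Set ((ℕ → A) × (ℕ → A))} (hG : ∀ m, MeasurableSet (G m)) (k : ℕ) :
    pairL μ (Last Y l G k) = Ur μ Y k * pairL μ (NoCut Y (l - k) ∩ G (l - k)) :=
  restart_level μ hY k ((measurableSet_noCut Y _).inter (hG _))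

/-- **the renewal identity** -/
theorem renewal_identity (μ : Measure A) [IsProbabilityMeasure μ] {Y : A → ℕ}
    (hY : ∀ a, 1 ≤ Y a) (l : ℕ) :
    ∑ k ∈ Finset.range (l + 1), Ur μ Y k * pairL μ (NoCut Y (l - k)) = 1 := by
  have h1 : (⋃ k ∈ Finset.range (l + 1), Last Y l (fun _ => univ) k)
      = (univ : Set ((ℕ → A) × (ℕ → A))) := by
    rw [Set.eq_univ_iff_forall]
    intro p
    obtain ⟨k, hk, hp⟩ := exists_last Y l p
    simp only [mem_iUnion]
    exact ⟨k, Finset.mem_range.2 (by omega), hp⟩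
  have h2 := measure_biUnion_finset (μ := pairL μ) (s := Finset.range (l + 1))
    (f := fun k => Last Y l (fun _ => univ) k) (fun k hk k' hk' hne => by
      have e1 := Finset.mem_range.1 hk
      have e2 := Finset.mem_range.1 hk'
      exact disj_last hY l _ _ (by omega) (by omega) hne)
    (fun k _ => measurableSet_last Y l (fun _ => MeasurableSet.univ) k)
  rw [h1, measure_univ] at h2
  rw [h2]
  refine Finset.sum_congr rfl fun k _ => ?_
  rw [measure_last μ hY l (fun _ => MeasurableSet.univ), inter_univ]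

/-- the events at the last joint cut before level `l`. -/
def AtLast (Y : A → ℕ) (l : ℕ) (G : ℕ → Set ((ℕ → A) × (ℕ → A))) : Set ((ℕ → A) × (ℕ → A)) :=
  ⋃ k ∈ Finset.range (l + 1), Last Y l G k

lemma measure_atLast_le (μ : Measure A) [IsProbabilityMeasure μ] {Y : A → ℕ}
    (hY : ∀ a, 1 ≤ Y a) (l : ℕ) {G : ℕ → Set ((ℕ → A) × (ℕ → A))}
    (hG : ∀ m, MeasurableSet (G m)) :
    pairL μ (AtLast Y l G) ≤ ∑ m ∈ Finset.range (l + 1), pairL μ (NoCut Y m ∩ G m) := by
  refine (measure_biUnion_finset_le _ _).trans ?_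
  have h1 : ∀ k ∈ Finset.range (l + 1), pairL μ (Last Y l G k)
      ≤ pairL μ (NoCut Y (l - k) ∩ G (l - k)) := by
    intro k _
    rw [measure_last μ hY l hG]
    calc _ ≤ 1 * pairL μ (NoCut Y (l - k) ∩ G (l - k)) := by
          gcongr
          exact prob_le_one
      _ = _ := one_mul _
  refine (Finset.sum_le_sum h1).trans (le_of_eq ?_)
  exact Finset.sum_range_reflect (fun m => pairL μ (NoCut Y m ∩ G m)) (l + 1)


/-- tail of the mean -/
noncomputable def tl (μ : Measure A) (Y : A → ℕ) (h : ℕ) : ℝ≥0∞ :=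
  ∑' m, pairL μ (NoCut Y (m + h))



theorem measure_atLast_le' (μ : Measure A) [IsProbabilityMeasure μ] {Y : A → ℕ}
    (hY : ∀ a, 1 ≤ Y a) (l h : ℕ) {G : ℕ → Set ((ℕ → A) × (ℕ → A))}
    (hG : ∀ m, MeasurableSet (G m)) :
    pairL μ (AtLast Y l G) ≤ ∑ m ∈ Finset.range h, pairL μ (NoCut Y m ∩ G m) + tl μ Y h := by
  refine (measure_atLast_le μ hY l hG).trans ?_
  have h1 : ∑ m ∈ Finset.range (l + 1), pairL μ (NoCut Y m ∩ G m)
      ≤ ∑ m ∈ Finset.range (h + (l + 1)), pairL μ (NoCut Y m ∩ G m) :=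
    Finset.sum_le_sum_of_subset (Finset.range_mono (Nat.le_add_left _ _))
  refine h1.trans ?_
  rw [Finset.sum_range_add]
  gcongr
  calc ∑ x ∈ Finset.range (l + 1), pairL μ (NoCut Y (h + x) ∩ G (h + x))
      ≤ ∑ x ∈ Finset.range (l + 1), pairL μ (NoCut Y (x + h)) := by
        refine Finset.sum_le_sum fun x _ => ?_
        rw [add_comm x h]
        exact measure_mono inter_subset_left
    _ ≤ _ := ENNReal.sum_le_tsum _

/-- no joint cut level in `(l - h, l]` -/
theorem no_cut_window (μ : Measure A) [IsProbabilityMeasure μ] {Y : A → ℕ}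
    (hY : ∀ a, 1 ≤ Y a) (l h : ℕ) :
    pairL μ {p | ∀ x, x ≤ l → l < x + h → ¬ JCut Y p x} ≤ tl μ Y h := by
  classical
  have hsub : {p | ∀ x, x ≤ l → l < x + h → ¬ JCut Y p x}
      ⊆ AtLast Y l (fun m => if h ≤ m then univ else ∅) := by
    intro p hp
    obtain ⟨k, hk, hl⟩ := exists_last Y l p
    simp only [AtLast, mem_iUnion]
    refine ⟨k, Finset.mem_range.2 (by omega), ?_⟩
    simp only [Last, mem_iUnion] at hl ⊢
    obtain ⟨q, hq, hn, -⟩ := hl
    refine ⟨q, hq, hn, ?_⟩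
    by_cases hkh : h ≤ l - k
    · rw [if_pos hkh]; trivial
    · exact absurd ⟨q.1, q.2, hq.1, hq.2⟩ (hp k hk (by omega))
  refine (measure_mono hsub).trans ((measure_atLast_le' μ hY l h (fun m => ?_)).trans ?_)
  · split_ifs
    · exact MeasurableSet.univ
    · exact MeasurableSet.empty
  · have : ∑ m ∈ Finset.range h, pairL μ (NoCut Y m ∩ (if h ≤ m then univ else ∅)) = 0 := by
      refine Finset.sum_eq_zero fun m hm => ?_
      rw [if_neg (by have := Finset.mem_range.1 hm; omega), inter_empty, measure_empty]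
    rw [this, zero_add]

end Crest.Agent.R154.J132
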