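import Crest.Agent.R154.Joint5_132
import Crest.Agent.R154.B4Inst_797
import Crest.Agent.R154.BodyDefs_818
import Crest.Agent.R154.ConcC_412
import Crest.Agent.R154.Max_818
import Crest.Agent.R154.ConcD_412
import Crest.Agent.R154.Joint2_132
import Crest.Agent.R154.Joint4_132
import Mathlib
import Crest.Agent.R154.KBDefs_424

-- ▼ part R154/JPos_132
section

/-! Row 154, B4 trunk side: the position process made from letters (heights `Y ≥ 1`, displacements
`V`, inner positions `I`). -/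

set_option autoImplicit false
set_option linter.unusedSectionVars false

namespace Crest.Agent.R154.J132

open MeasureTheory ProbabilityTheory Filter Topology Set
open scoped ENNReal

variable {A : Type*}

/-- index of the last cut at a level `≤ l` -/
def li (Y : A → ℕ) (l : ℕ) (a : ℕ → A) : ℕ := Nat.findGreatest (fun i => H Y i a ≤ l) l

lemma li_le (Y : A → ℕ) (l : ℕ) (a : ℕ → A) : H Y (li Y l a) a ≤ l :=
  Nat.findGreatest_spec (P := fun i => H Y i a ≤ l) (Nat.zero_le l) (by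
    rw [H_zero]; exact Nat.zero_le _)

lemma lt_of_li_lt {Y : A → ℕ} (hY : ∀ a, 1 ≤ Y a) {l : ℕ} {a : ℕ → A} {i : ℕ}
    (h : li Y l a < i) : l < H Y i a := by
  by_contra hc
  push Not at hc
  have h1 : i ≤ l := (le_H hY i a).trans hc
  have h2 : i ≤ li Y l a := Nat.le_findGreatest h1 hc
  omega

lemma li_eq_iff {Y : A → ℕ} (hY : ∀ a, 1 ≤ Y a) {l : ℕ} {a : ℕ → A} {i : ℕ} :
    li Y l a = i ↔ H Y i a ≤ l ∧ l < H Y (i + 1) a := by
  constructor
  · rintro rfl
    exact ⟨li_le Y l a, lt_of_li_lt hY (Nat.lt_succ_self _)⟩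
  · rintro ⟨h1, h2⟩
    refine le_antisymm ?_ ?_
    · by_contra hc
      push Not at hc
      have h3 : H Y (i + 1) a ≤ H Y (li Y l a) a := (H_strictMono hY a).monotone hc
      have := li_le Y l a
      omega
    · by_contra hc
      push Not at hc
      have := lt_of_li_lt hY hc
      omega

lemma li_add {Y : A → ℕ} (hY : ∀ a, 1 ≤ Y a) {l : ℕ} {a : ℕ → A} {i : ℕ} (h : H Y i a ≤ l) :
    li Y l a = i + li Y (l - H Y i a) (sh i a) := by
  rw [li_eq_iff hY]
  have h1 := li_le Y (l - H Y i a) (sh i a)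
  have h2 : l - H Y i a < H Y (li Y (l - H Y i a) (sh i a) + 1) (sh i a) :=
    lt_of_li_lt hY (Nat.lt_succ_self _)
  rw [H_add, Nat.add_assoc, H_add]
  constructor <;> omega

/-- the position process -/
def Uf (Y : A → ℕ) (V : A → (Fin 2 → ℝ)) (I : A → ℕ → (Fin 2 → ℝ)) (l : ℕ) (a : ℕ → A) :
    Fin 2 → ℝ :=
  Dd V (li Y l a) a + I (a (li Y l a)) (l - H Y (li Y l a) a)

lemma Uf_lt {Y : A → ℕ} (hY : ∀ a, 1 ≤ Y a) (V : A → (Fin 2 → ℝ)) (I : A → ℕ → (Fin 2 → ℝ))
    {l : ℕ} {a : ℕ → A} (h : l < Y (a 0)) : Uf Y V I l a = I (a 0) l := by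
  have h0 : li Y l a = 0 := by
    rw [li_eq_iff hY]
    refine ⟨by rw [H_zero]; exact Nat.zero_le _, ?_⟩
    simpa [H] using h
  unfold Uf
  rw [h0, Dd_zero, H_zero, zero_add, Nat.sub_zero]

theorem pos_Uf [MeasurableSpace A] [MeasurableSingletonClass A] [Countable A] [Inhabited A]
    {Y : A → ℕ} (hY : ∀ a, 1 ≤ Y a) (V : A → (Fin 2 → ℝ)) {I : A → ℕ → (Fin 2 → ℝ)}
    (hI : ∀ w, I w 0 = 0) : Pos Y V (Uf Y V I) where
  meas l := by
    have hli : Measurable (li Y l) := by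
      refine measurable_to_countable' fun i => ?_
      have : li Y l ⁻¹' {i} = {a | H Y i a ≤ l} ∩ {a | l < H Y (i + 1) a} := by
        ext a
        simp only [mem_preimage, mem_singleton_iff, mem_inter_iff, mem_ofPred_eq]
        exact li_eq_iff hY
      rw [this]
      exact (measurableSet_le (measurable_H Y i) measurable_const).inter
        (measurableSet_lt measurable_const (measurable_H Y (i + 1)))
    have h1 : Measurable (fun x : ℕ × (ℕ → A) =>
        Dd V x.1 x.2 + I (x.2 x.1) (l - H Y x.1 x.2)) := by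
      refine measurable_from_prod_countable_right fun i => ?_
      refine (measurable_Dd V i).add ?_
      exact (measurable_of_countable (fun y : A × ℕ => I y.1 (l - y.2))).comp
        ((measurable_pi_apply i).prodMk (measurable_H Y i))
    exact h1.comp (hli.prodMk measurable_id)
  cov a i l h := by
    unfold Uf
    rw [li_add hY h, Dd_add, H_add]
    simp only [sh]
    rw [add_assoc, Nat.sub_sub]
  det a b i l h hab := by
    have hk : li Y l a ≤ i := by
      by_contra hc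
      push Not at hc
      have h3 : H Y i a < H Y (li Y l a) a := H_strictMono hY a hc
      have := li_le Y l a
      omega
    have hHeq : ∀ j ≤ i, H Y j a = H Y j b := fun j hj => H_congr fun k hk' => hab k (by omega)
    have hlib : li Y l b = li Y l a := by
      have h1 := li_le Y l a
      rcases Nat.lt_or_ge (li Y l a) i with hlt | hge
      · rw [li_eq_iff hY, ← hHeq _ hk, ← hHeq _ hlt]
        exact ⟨h1, lt_of_li_lt hY (Nat.lt_succ_self _)⟩
      · have he : li Y l a = i := le_antisymm hk hge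
        rw [he] at h1 ⊢
        have he2 : H Y i b = l := by rw [← hHeq i le_rfl]; omega
        rw [li_eq_iff hY]
        have h4 : H Y i b < H Y (i + 1) b := H_strictMono hY b (Nat.lt_succ_self _)
        omega
    unfold Uf
    rw [hlib, ← hHeq _ hk, Dd_congr (V := V) (n := li Y l a) fun k hk' => hab k (by omega)]
    congr 1
    rcases Nat.lt_or_ge (li Y l a) i with hlt | hge
    · rw [hab _ hlt]
    · have he : li Y l a = i := le_antisymm hk hge
      have h1 := li_le Y l a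
      rw [he] at h1 ⊢
      have : l - H Y i a = 0 := by omega
      rw [this, hI, hI]

/-- lower bound of the renewal function at high levels is enough -/
theorem tsum_noCut_le' [MeasurableSpace A] [MeasurableSingletonClass A] [Countable A] [Inhabited A]
    (μ : Measure A) [IsProbabilityMeasure μ] {Y : A → ℕ}
    (hY : ∀ a, 1 ≤ Y a) {c : ℝ≥0∞} (hc : c ≠ 0) (hc' : c ≠ ⊤) {l₀ : ℕ}
    (hU : ∀ l, l₀ ≤ l → c ≤ Ur μ Y l) : ∑' m, pairL μ (NoCut Y m) ≤ c⁻¹ := by
  refine ENNReal.tsum_le_of_sum_range_le fun n => ?_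
  rw [← one_mul (c⁻¹), ← div_eq_mul_inv, ENNReal.le_div_iff_mul_le (Or.inl hc) (Or.inl hc')]
  have h0 := renewal_identity μ hY (n + l₀)
  rw [← Finset.sum_range_reflect (fun k => Ur μ Y k * pairL μ (NoCut Y (n + l₀ - k)))
    (n + l₀ + 1)] at h0
  rw [← h0, Finset.sum_mul]
  have h1 : ∑ i ∈ Finset.range n, pairL μ (NoCut Y i) * c
      ≤ ∑ i ∈ Finset.range n, Ur μ Y (n + l₀ + 1 - 1 - i) *
        pairL μ (NoCut Y (n + l₀ - (n + l₀ + 1 - 1 - i))) := by
    refine Finset.sum_le_sum fun i hi => ?_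
    have hi' := Finset.mem_range.1 hi
    have e : n + l₀ - (n + l₀ + 1 - 1 - i) = i := by omega
    rw [e, mul_comm]
    gcongr
    exact hU _ (by omega)
  refine h1.trans ?_
  exact Finset.sum_le_sum_of_subset (Finset.range_mono (by omega))

theorem tendsto_tl' [MeasurableSpace A] [MeasurableSingletonClass A] [Countable A] [Inhabited A]
    (μ : Measure A) [IsProbabilityMeasure μ] {Y : A → ℕ}
    (hs : ∑' m, pairL μ (NoCut Y m) ≠ ⊤) : Tendsto (tl μ Y) atTop (𝓝 0) :=
  ENNReal.tendsto_sum_nat_add (fun m => pairL μ (NoCut Y m)) hs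

theorem noCut_tendsto' [MeasurableSpace A] [MeasurableSingletonClass A] [Countable A] [Inhabited A]
    (μ : Measure A) [IsProbabilityMeasure μ] {Y : A → ℕ}
    (hs : ∑' m, pairL μ (NoCut Y m) ≠ ⊤) :
    Tendsto (fun m => pairL μ (NoCut Y m)) atTop (𝓝 0) := by
  refine tendsto_of_tendsto_of_tendsto_of_le_of_le tendsto_const_nhds
    (tendsto_tl' μ hs) (fun _ => zero_le) fun m => ?_
  have := ENNReal.le_tsum (f := fun k => pairL μ (NoCut Y (k + m))) 0
  simp only [zero_add] at this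
  exact this

end Crest.Agent.R154.J132
end

-- ▼ part R154/JBind1_132
section

/-! Row 154, B4 trunk side, binding part 1 (deterministic): the letters are the regeneration blocks. -/

set_option autoImplicit false
set_option linter.unusedSectionVars false
set_option linter.deprecated false

namespace Crest.Agent.R154.J132

open MeasureTheory ProbabilityTheory Filter Set Crest.ProbabilityR.RandomEnvironment
open Crest.Agent.R154.Mk561 Crest.Agent.R154.Bind263 Crest.Agent.R154.B4Inst797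
open Crest.Agent.R154.Ren263 (Word pre hgt Stay Record len_pre hgt_zero hgt_shift)
open Crest.Agent.R154.RenG263 (RecSys Reg tau tau_spec tau_min blk0 blks RegInf rest_mem reg_shift)
open scoped ENNReal Topology

variable {d : ℕ}

instance instInhabitedWord {S : Type*} : Inhabited (Word S) := ⟨([] : List S)⟩

/-- record system: `R` forced steps up -/
noncomputable def rhoU (u : Step d) (κ : ℝ) (R : ℕ) : RecSys (mht (B2d.dirVec u)) :=
  mrs (B2d.dirVec u) R κ u R (by rw [mht_dirVec, zht_up]; norm_num)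
    (by rw [cR_dirVec, mht_dirVec, zht_up]; simp)

/-- height of a word -/
def Yw (u : Step d) (w : Word (Mark d)) : ℕ := max 1 (wzht u w).toNat

lemma one_le_Yw (u : Step d) (w : Word (Mark d)) : 1 ≤ Yw u w := le_max_left _ _

/-- lateral displacement of a word -/
noncomputable def Vw (i1 i2 : Fin d) (w : Word (Mark d)) : Fin 2 → ℝ :=
  lat i1 i2 ((List.map stp w).sum)

/-- path of a word -/
def wp (u : Step d) (w : Word (Mark d)) : MPath d := fun i => List.getD w i (u, true)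

/-- lateral position at the first hit of level `l` inside a word -/
noncomputable def Iw (u : Step d) (i1 i2 : Fin d) (w : Word (Mark d)) (l : ℕ) : Fin 2 → ℝ :=
  UU u i1 i2 l (wp u w)

lemma Iw_zero (u : Step d) (i1 i2 : Fin d) (w : Word (Mark d)) : Iw u i1 i2 w 0 = 0 := by
  simp [Iw, UU]

lemma wzht_pre (u : Step d) (n : ℕ) (s : MPath d) : wzht u (pre n s) = zh u s n := by
  unfold wzht pre zh
  rw [List.map_map, ← List.sum_toFinset _ (List.nodup_range)]
  congr 1
  ext x; simp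

lemma stp_pre (n : ℕ) (s : MPath d) : (List.map stp (pre n s)).sum = pos 0 s n := by
  unfold pre pos
  rw [List.map_map, ← List.sum_toFinset _ (List.nodup_range), zero_add]
  congr 1
  ext x; simp

lemma wp_pre (u : Step d) {n i : ℕ} (hi : i < n) (s : MPath d) : wp u (pre n s) i = s i := by
  have h1 : i < ((List.range n).map s).length := by simpa using hi
  unfold wp pre
  rw [List.getD_eq_getElem _ _ h1]
  simp

variable {u : Step d} {κ : ℝ} {R : ℕ}

lemma record_zh {s : MPath d} {n : ℕ} (h : Record (mht (B2d.dirVec u)) s n) :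
    ∀ i < n, zh u s i < zh u s n := by
  intro i hi
  have := h i hi
  rw [hgt_eq, hgt_eq] at this
  exact_mod_cast this

lemma stay_zh {s : MPath d} : s ∈ Stay (mht (B2d.dirVec u)) ↔ ∀ n, 0 ≤ zh u s n := by
  constructor
  · intro h n
    have := h n
    rw [hgt_eq] at this
    exact_mod_cast this
  · intro h n
    rw [hgt_eq]
    exact_mod_cast h n

lemma hit_of_record {s : MPath d} {n : ℕ} (h1 : 1 ≤ n)
    (h : ∀ i < n, zh u s i < zh u s n) : Hit u (Yw u (pre n s)) n s := by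
  have h0 := h 0 h1
  rw [zh_zero] at h0
  have hY : ((Yw u (pre n s) : ℕ) : ℤ) = zh u s n := by
    unfold Yw
    rw [wzht_pre]
    omega
  exact ⟨hY.symm, fun i hi => by rw [hY]; exact h i hi⟩

lemma hit_tau {s : MPath d} (hs : s ∈ RegInf (rhoU u κ R)) :
    Hit u (Yw u (blk0 (rhoU u κ R) s)) (tau (rhoU u κ R) s) s := by
  obtain ⟨h1, h2⟩ := tau_spec hs
  exact hit_of_record h1 (record_zh ((rhoU u κ R).record h2.1))

lemma sh_blks (s : MPath d) : sh 1 (blks (rhoU u κ R) s) =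
    blks (rhoU u κ R) (RenG263.rest (rhoU u κ R) s) := by
  funext k
  unfold sh
  rw [Nat.add_comm, RenG263.blks_succ]

lemma Uf_congr_ge (i1 i2 : Fin d) {l : ℕ} {s : MPath d} (hs : s ∈ RegInf (rhoU u κ R)) :
    UU u i1 i2 l s = Uf (Yw u) (Vw i1 i2) (Iw u i1 i2) l (blks (rhoU u κ R) s) := by
  induction l using Nat.strong_induction_on generalizing s with
  | _ l ih =>
    set w0 := blk0 (rhoU u κ R) s with hw0
    have hb0 : blks (rhoU u κ R) s 0 = w0 := rfl
    have hHit := hit_tau hs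
    rw [← hw0] at hHit
    rcases Nat.lt_or_ge l (Yw u w0) with hlt | hge
    · rw [Uf_lt (one_le_Yw u) _ _ (by rw [hb0]; exact hlt), hb0]
      unfold Iw
      obtain ⟨k, hk, hkh⟩ := exists_hit (u := u) (l := l) (s := s) (N := tau (rhoU u κ R) s)
        (by rw [hHit.1]; exact_mod_cast hlt.le)
      have hag : ∀ i < k, wp u w0 i = s i := fun i hi => wp_pre u (lt_of_lt_of_le hi hk) s
      have hkh' : Hit u l k (wp u w0) := (det_Hit u l k (wp u w0) s hag).2 hkh
      rw [(hit_eq i1 i2 hkh).2, (hit_eq i1 i2 hkh').2]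
      congr 1
      exact (pos_congr 0 hag le_rfl).symm
    · have hY := one_le_Yw u w0
      have hcov := (pos_Uf (one_le_Yw u) (Vw i1 i2) (Iw_zero u i1 i2)).cov
        (blks (rhoU u κ R) s) 1 l (by simpa [H, hb0] using hge)
      have hH1 : H (Yw u) 1 (blks (rhoU u κ R) s) = Yw u w0 := by simp [H, hb0]
      have hD1 : Dd (Vw i1 i2) 1 (blks (rhoU u κ R) s) = Vw i1 i2 w0 := by simp [Dd, hb0]
      rw [hcov, hH1, hD1, sh_blks, ← ih (l - Yw u w0) (by omega) (rest_mem hs)]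
      obtain ⟨e1, e2⟩ := hit_eq i1 i2 hHit
      have e3 : l = Yw u w0 + (l - Yw u w0) := by omega
      conv_lhs => rw [e3, UU_add, e1, e2]
      congr 1
      unfold Vw
      rw [hw0]
      unfold RenG263.blk0
      rw [stp_pre]

/-- the cuts are record times with the right heights -/
lemma cut_hit {s : MPath d} (hs : s ∈ RegInf (rhoU u κ R)) (i : ℕ) :
    ∃ n, Hit u (H (Yw u) i (blks (rhoU u κ R) s)) n s ∧
      Ren263.shift n s ∈ Stay (mht (B2d.dirVec u)) := by
  induction i generalizing s with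
  | zero =>
    refine ⟨0, ?_, ?_⟩
    · rw [H_zero]; exact hit_zero u s
    · rw [Ren263.shift_zero]; exact hs.1
  | succ i ih =>
    obtain ⟨m, hm1, hm2⟩ := ih (rest_mem hs)
    have hHit := hit_tau hs
    refine ⟨tau (rhoU u κ R) s + m, ?_, ?_⟩
    · rw [Nat.add_comm i 1, H_add, sh_blks]
      have hH1 : H (Yw u) 1 (blks (rhoU u κ R) s) = Yw u (blk0 (rhoU u κ R) s) := by
        simp [H]; rfl
      rw [hH1]
      have h3 := hit_comp (l := Yw u (blk0 (rhoU u κ R) s))
        (m := H (Yw u) i (blks (rhoU u κ R) (RenG263.rest (rhoU u κ R) s))) hHit hm1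
      exact h3
    · rw [← Ren263.shift_shift]
      exact hm2

/-- every regeneration time is a cut -/
lemma reg_cut {s : MPath d} (m : ℕ) (hs : s ∈ RegInf (rhoU u κ R))
    (hm : Reg (rhoU u κ R) s m) :
    ∃ i, ((H (Yw u) i (blks (rhoU u κ R) s) : ℕ) : ℤ) = zh u s m := by
  induction m using Nat.strong_induction_on generalizing s with
  | _ m ih =>
    rcases Nat.eq_zero_or_pos m with h0 | h0
    · subst h0
      exact ⟨0, by simp [H_zero]⟩
    · have h1 := tau_spec hs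
      have hle : tau (rhoU u κ R) s ≤ m := by
        by_contra hc
        push Not at hc
        exact tau_min h0 hc hm
      have hreg := reg_shift hle hm
      obtain ⟨i, hi⟩ := ih (m - tau (rhoU u κ R) s) (by omega) (rest_mem hs) hreg
      refine ⟨1 + i, ?_⟩
      have hHit := hit_tau hs
      have hH1 : H (Yw u) 1 (blks (rhoU u κ R) s) = Yw u (blk0 (rhoU u κ R) s) := by
        simp [H]; rfl
      rw [H_add, sh_blks, hH1]
      push_cast
      rw [hi, ← hHit.1]
      have := zh_add u s (tau (rhoU u κ R) s) (m - tau (rhoU u κ R) s)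
      rw [Nat.add_sub_cancel' hle] at this
      rw [this]
      rfl

end Crest.Agent.R154.J132
end

-- ▼ part R154/JBind2_132
section

/-! Row 154, B4 trunk side, binding part 2: the law of the letters; lower bound of the renewal
function. -/

set_option autoImplicit false
set_option linter.unusedSectionVars false
set_option linter.deprecated false

namespace Crest.Agent.R154.J132

open MeasureTheory ProbabilityTheory Filter Set Crest.ProbabilityR.RandomEnvironment
open Crest.Agent.R154.Mk561 Crest.Agent.R154.Bind263 Crest.Agent.R154.B4Inst797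
open Crest.Agent.R154.Ren263 (Word pre hgt Stay Record len_pre hgt_zero hgt_shift Det
  measurableSet_Stay)
open Crest.Agent.R154.RenG263 (RecSys Reg tau tau_spec tau_min blk0 blks RegInf rest_mem reg_shift
  wordLaw RenewalG Climb det_Climb climb_hgt measurable_blks)
open scoped ENNReal Topology

variable {d : ℕ} {u : Step d} {κ : ℝ} {R : ℕ} {Q : Measure (Environment d)}
  [IsProbabilityMeasure Q]

/-- the law of the letters -/
noncomputable abbrev muW (Q : Measure (Environment d)) (κ : ℝ) (R : ℕ) (u : Step d) :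
    Measure (Word (Mark d)) := wordLaw (rhoU u κ R) (mkAnn κ Q 0)

theorem renU (F : Frame Q κ R) (u : Step d) : RenewalG (rhoU u κ R) (mkAnn κ Q 0) :=
  F.renewal (B2d.dirVec u) u R _ _ F.frc

theorem probW (F : Frame Q κ R) (hA : annealedProb Q 0 (escapeEvent (B2d.dirVec u)) ≠ 0) :
    IsProbabilityMeasure (muW Q κ R u) :=
  (renU F u).isProb (F.hp _ hA) (F.hT _ (B2d.dirVec_ne_zero u))

/-- conditional law of the walk which stays above the start -/
noncomputable abbrev stL (Q : Measure (Environment d)) (κ : ℝ) (u : Step d) : Measure (MPath d) :=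
  ProbabilityTheory.cond (mkAnn κ Q 0) (Stay (mht (B2d.dirVec u)))

theorem map_blksU (F : Frame Q κ R)
    (hA : annealedProb Q 0 (escapeEvent (B2d.dirVec u)) ≠ 0) :
    (stL Q κ u).map (blks (rhoU u κ R)) = iidL (muW Q κ R u) :=
  (renU F u).map_blks (F.hp _ hA) (F.hT _ (B2d.dirVec_ne_zero u))

theorem ae_regInfU (F : Frame Q κ R)
    (hA : annealedProb Q 0 (escapeEvent (B2d.dirVec u)) ≠ 0) :
    ∀ᵐ s ∂(stL Q κ u), s ∈ RegInf (rhoU u κ R) := by
  have h1 : ∀ᵐ s ∂((mkAnn κ Q 0).restrict (Stay (mht (B2d.dirVec u)))),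
      s ∈ RegInf (rhoU u κ R) := by
    rw [ae_restrict_iff' (measurableSet_Stay _)]
    exact (renU F u).ae_regInf (F.hp _ hA) (F.hT _ (B2d.dirVec_ne_zero u))
  unfold stL ProbabilityTheory.cond
  exact Measure.ae_smul_measure h1 _

lemma measurableSet_cutAt (Y : Word (Mark d) → ℕ) (l : ℕ) :
    MeasurableSet {a : ℕ → Word (Mark d) | ∃ i, H Y i a = l} := by
  have : {a : ℕ → Word (Mark d) | ∃ i, H Y i a = l} = ⋃ i, {a | H Y i a = l} := by
    ext a; simp
  rw [this]
  exact MeasurableSet.iUnion fun i => measurable_H Y i (measurableSet_singleton l)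

theorem cut_prob (F : Frame Q κ R)
    (hA : annealedProb Q 0 (escapeEvent (B2d.dirVec u)) ≠ 0) {l : ℕ} (hl : R ≤ l) :
    ENNReal.ofReal (kf d κ) ^ R * mkAnn κ Q 0 (Stay (mht (B2d.dirVec u)))
      ≤ iidL (muW Q κ R u) {a | ∃ i, H (Yw u) i a = l} := by
  set P := mkAnn κ Q 0 with hP
  set S := Stay (mht (B2d.dirVec u)) with hS
  have hSm : MeasurableSet S := measurableSet_Stay _
  have hp : P S ≠ 0 := F.hp _ hA
  have hC := measurableSet_cutAt (Yw u) l
  have hbm : Measurable (blks (rhoU u κ R)) := measurable_blks _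
  rw [← map_blksU F hA, Measure.map_apply hbm hC, stL, cond_apply hSm]
  set A : ℕ → Set (MPath d) := fun n => {s | Hit u (l - R) n s ∧ ∀ k ≤ n, 0 ≤ zh u s k} with hAdef
  have hdet0 : ∀ n, Det n {s : MPath d | ∀ k ≤ n, 0 ≤ zh u s k} := fun n s s' hss => by
    simp only [mem_setOf_eq]
    refine forall_congr' fun k => forall_congr' fun hk => ?_
    rw [zh_congr u hss hk]
  have hdet : ∀ n, Det n (A n) := fun n => (det_Hit u (l - R) n).inter (hdet0 n)
  have hrec : ∀ n, ∀ s ∈ A n, Record (mht (B2d.dirVec u)) s n := by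
    intro n s hs i hi
    rw [hgt_eq, hgt_eq, hs.1.1]
    exact_mod_cast hs.1.2 i hi
  have hdisj : Pairwise (Function.onFun Disjoint A) := fun n m hnm => by
    rw [Function.onFun, Set.disjoint_left]
    intro s h1 h2
    exact hnm (hit_unique h1.1 h2.1)
  have hren : ∀ n, P ((A n ∩ Climb (rhoU u κ R) n) ∩ Ren263.shift (n + R) ⁻¹' S)
      = P (A n) * (ENNReal.ofReal (kf d κ) ^ R * P S) := fun n =>
    (renU F u).climb_ren (hdet n) (hrec n) hSm le_rfl
  have hsum : P (⋃ n, (A n ∩ Climb (rhoU u κ R) n) ∩ Ren263.shift (n + R) ⁻¹' S)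
      = P (⋃ n, A n) * (ENNReal.ofReal (kf d κ) ^ R * P S) := by
    rw [measure_iUnion, measure_iUnion hdisj fun n => (hdet n).measurableSet,
      ← ENNReal.tsum_mul_right]
    · exact tsum_congr hren
    · intro n m hnm
      exact (hdisj hnm).mono (inter_subset_left.trans inter_subset_left)
        (inter_subset_left.trans inter_subset_left)
    · intro n
      exact ((hdet n).measurableSet.inter (det_Climb _ n).measurableSet).inter
        (Ren263.measurable_shift (n + R) hSm)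
  have hSA : P S ≤ P (⋃ n, A n) := by
    refine measure_mono_ae ?_
    filter_upwards [F.hT (B2d.dirVec u) (B2d.dirVec_ne_zero u)] with s hs hsS
    obtain ⟨n, hn⟩ := hs hsS ((l - R : ℕ) : ℝ)
    rw [hgt_eq] at hn
    obtain ⟨k, _, hk⟩ := exists_hit (u := u) (l := l - R) (s := s) (N := n) (by exact_mod_cast hn)
    exact mem_iUnion.2 ⟨k, hk, fun j _ => stay_zh.1 hsS j⟩
  have hE : P (⋃ n, (A n ∩ Climb (rhoU u κ R) n) ∩ Ren263.shift (n + R) ⁻¹' S)
      ≤ P (S ∩ blks (rhoU u κ R) ⁻¹' {a | ∃ i, H (Yw u) i a = l}) := by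
    refine measure_mono_ae ?_
    filter_upwards [(renU F u).ae_regInf (F.hp _ hA) (F.hT _ (B2d.dirVec_ne_zero u))] with s hri hs
    obtain ⟨n, ⟨hn1, hn2⟩, hn3⟩ := mem_iUnion.1 hs
    have hn3' : ∀ k, 0 ≤ zh u (Ren263.shift (n + R) s) k := stay_zh.1 hn3
    have hup : ∀ j ≤ R, zh u s (n + j) = zh u s n + j := by
      intro j
      induction j with
      | zero => intro _; simp
      | succ j ih =>
        intro hj
        have e : s (n + j) = ((u, true) : Mark d) := hn2 j (show j < R by omega)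
        rw [← Nat.add_assoc, zh_succ, ih (by omega), e, zht_up]
        push_cast; ring
    have hlev : zh u s (n + R) = l := by
      rw [hup R le_rfl, hn1.1.1]
      omega
    have hsS : s ∈ S := by
      rw [hS, stay_zh]
      intro k
      rcases Nat.lt_or_ge k (n + R) with hk | hk
      · rcases Nat.lt_or_ge k n with hk2 | hk2
        · exact hn1.2 k hk2.le
        · obtain ⟨j, rfl⟩ := Nat.exists_eq_add_of_le hk2
          rw [hup j (by omega), hn1.1.1]
          positivity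
      · obtain ⟨j, rfl⟩ := Nat.exists_eq_add_of_le hk
        rw [zh_add, hlev]
        have := hn3' j
        positivity
    refine ⟨hsS, ?_⟩
    have hreg : Reg (rhoU u κ R) s (n + R) :=
      ⟨(rhoU u κ R).climb (hrec n s hn1) hn2, hn3⟩
    obtain ⟨i, hi⟩ := reg_cut (n + R) (hri hsS) hreg
    refine ⟨i, ?_⟩
    rw [hlev] at hi
    exact_mod_cast hi
  calc ENNReal.ofReal (kf d κ) ^ R * P S
      = (P S)⁻¹ * (P S * (ENNReal.ofReal (kf d κ) ^ R * P S)) := by
        rw [← mul_assoc, ENNReal.inv_mul_cancel hp (measure_ne_top _ _), one_mul]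
    _ ≤ (P S)⁻¹ * (P (⋃ n, A n) * (ENNReal.ofReal (kf d κ) ^ R * P S)) := by gcongr
    _ ≤ _ := by
        rw [← hsum]
        gcongr

/-- the lower bound of the renewal function of joint cuts -/
theorem Ur_ge (F : Frame Q κ R)
    (hA : annealedProb Q 0 (escapeEvent (B2d.dirVec u)) ≠ 0) {l : ℕ} (hl : R ≤ l) :
    (ENNReal.ofReal (kf d κ) ^ R * mkAnn κ Q 0 (Stay (mht (B2d.dirVec u)))) ^ 2
      ≤ Ur (muW Q κ R u) (Yw u) l := by
  have := probW F hA
  have h1 : {p : (ℕ → Word (Mark d)) × (ℕ → Word (Mark d)) | JCut (Yw u) p l}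
      = {a | ∃ i, H (Yw u) i a = l} ×ˢ {a | ∃ i, H (Yw u) i a = l} := by
    ext p
    simp only [JCut, mem_setOf_eq, mem_prod]
    constructor
    · rintro ⟨i, j, h1, h2⟩; exact ⟨⟨i, h1⟩, ⟨j, h2⟩⟩
    · rintro ⟨⟨i, h1⟩, ⟨j, h2⟩⟩; exact ⟨i, j, h1, h2⟩
  rw [Ur, h1, Measure.prod_prod, sq]
  exact mul_le_mul' (cut_prob F hA hl) (cut_prob F hA hl)

theorem sum_noCut_ne_top (F : Frame Q κ R)
    (hA : annealedProb Q 0 (escapeEvent (B2d.dirVec u)) ≠ 0) :
    ∑' m, pairL (muW Q κ R u) (NoCut (Yw u) m) ≠ ⊤ := by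
  have := probW F hA
  set c := (ENNReal.ofReal (kf d κ) ^ R * mkAnn κ Q 0 (Stay (mht (B2d.dirVec u)))) ^ 2 with hc
  have hδ : ENNReal.ofReal (kf d κ) ^ R ≠ 0 := (renU F u).δ_ne
  have hc0 : c ≠ 0 := pow_ne_zero _ (mul_ne_zero hδ (F.hp _ hA))
  have hct : c ≠ ⊤ := by
    rw [hc]
    exact ENNReal.pow_ne_top (ENNReal.mul_ne_top (ENNReal.pow_ne_top ENNReal.ofReal_ne_top)
      (measure_ne_top _ _))
  refine ne_top_of_le_ne_top (ENNReal.inv_ne_top.2 hc0)
    (tsum_noCut_le' (muW Q κ R u) (one_le_Yw u) hc0 hct (l₀ := R) fun l hl => Ur_ge F hA hl)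

end Crest.Agent.R154.J132
end

-- ▼ part R154/BodyB_818
section

/-!
Row 154, block B3: parts (b) and (c) of BODY.
-/

open MeasureTheory ProbabilityTheory Set
open scoped BigOperators ENNReal NNReal

namespace Crest.Agent.R154.Body818

open Crest.Agent.R154.Conc412 Crest.Agent.R154.Hit818

theorem min_sq_le_pm (a b : ℝ) : min (a ^ 2) 1 ≤ min ((a - b) ^ 2) 1 + min ((a + b) ^ 2) 1 := by
  rcases le_total 0 (a * b) with h | h
  · have : a ^ 2 ≤ (a + b) ^ 2 := by nlinarith [sq_nonneg b]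
    have h1 : min (a ^ 2) 1 ≤ min ((a + b) ^ 2) 1 := min_le_min this le_rfl
    have h2 : 0 ≤ min ((a - b) ^ 2) 1 := le_min (sq_nonneg _) zero_le_one
    linarith
  · have : a ^ 2 ≤ (a - b) ^ 2 := by nlinarith [sq_nonneg b]
    have h1 : min (a ^ 2) 1 ≤ min ((a - b) ^ 2) 1 := min_le_min this le_rfl
    have h2 : 0 ≤ min ((a + b) ^ 2) 1 := le_min (sq_nonneg _) zero_le_one
    linarith

/-- For a symmetric law, `g²` of the step is at most twice `g²` of the difference. -/
theorem gg_le_two_diff {μ : Measure (Fin 2 → ℝ)} [IsProbabilityMeasure μ]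
    (hs : μ.map (fun x => -x) = μ) (v : Fin 2 → ℝ) : gg μ v ≤ 2 * gg (diffLaw μ) v := by
  have hd : ∀ (F : ℝ → ℝ), Continuous F → (∀ x, |F x| ≤ 1) →
      ∫ x, F (dot v x) ∂(diffLaw μ) = ∫ p, F (dot v p.1 - dot v p.2) ∂(μ.prod μ) := by
    intro F hF _
    unfold diffLaw
    rw [integral_map (by fun_prop) (Continuous.aestronglyMeasurable (by fun_prop))]
    refine integral_congr_ae (ae_of_all _ fun p => ?_)
    simp only [dot_sub_right]
  set F : ℝ → ℝ := fun x => min (x ^ 2) 1 with hF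
  have hFc : Continuous F := by rw [hF]; fun_prop
  have hFb : ∀ x, |F x| ≤ 1 := fun x => by
    rw [hF]; simp only
    rw [abs_of_nonneg (le_min (sq_nonneg _) zero_le_one)]; exact min_le_right _ _
  have hint : ∀ (G : (Fin 2 → ℝ) × (Fin 2 → ℝ) → ℝ), Continuous G →
      Integrable (fun p => F (G p)) (μ.prod μ) := fun G hG =>
    Integrable.of_bound (hFc.comp hG).aestronglyMeasurable 1 (ae_of_all _ fun p => hFb _)
  have e1 : gg (diffLaw μ) v = ∫ p, F (dot v p.1 - dot v p.2) ∂(μ.prod μ) := hd F hFc hFb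
  have e2 : ∫ p, F (dot v p.1 - dot v p.2) ∂(μ.prod μ) =
      ∫ p, F (dot v p.1 + dot v p.2) ∂(μ.prod μ) := by
    have hprod : (μ.prod μ).map (Prod.map id (fun x => -x)) = μ.prod μ := by
      have := Measure.map_prod_map μ μ (f := (id : (Fin 2 → ℝ) → (Fin 2 → ℝ)))
        (g := fun x => -x) measurable_id (by fun_prop)
      rw [← this, Measure.map_id, hs]
    conv_lhs => rw [← hprod]
    rw [integral_map (by fun_prop) (Continuous.aestronglyMeasurable (by
      exact hFc.comp (by fun_prop)))]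
    refine integral_congr_ae (ae_of_all _ fun p => ?_)
    have : dot v p.1 - dot v (-p.2) = dot v p.1 + dot v p.2 := by
      simp only [dot, Fin.sum_univ_two, Pi.neg_apply]; ring
    simp only [Prod.map, id]
    rw [this]
  have e3 : gg μ v = ∫ p, F (dot v p.1) ∂(μ.prod μ) := by
    have := integral_fun_fst (μ := μ) (ν := μ) (fun x => F (dot v x))
    rw [this]; simp [gg, hF]
  have h4 : ∫ p, F (dot v p.1) ∂(μ.prod μ) ≤
      ∫ p, (F (dot v p.1 - dot v p.2) + F (dot v p.1 + dot v p.2)) ∂(μ.prod μ) := by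
    refine integral_mono (hint _ (by fun_prop))
      ((hint (fun p => dot v p.1 - dot v p.2) (by fun_prop)).add
        (hint (fun p => dot v p.1 + dot v p.2) (by fun_prop))) fun p => min_sq_le_pm _ _
  rw [integral_add (hint (fun p => dot v p.1 - dot v p.2) (by fun_prop))
    (hint (fun p => dot v p.1 + dot v p.2) (by fun_prop)), ← e2, ← e1, ← e3] at h4
  linarith

theorem abs_dot_le_norm (v x : Fin 2 → ℝ) : |dot v x| ≤ 2 * ‖v‖ * ‖x‖ := by
  have h0 : |v 0 * x 0| ≤ ‖v‖ * ‖x‖ := by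
    rw [abs_mul]
    exact mul_le_mul (norm_le_pi_norm v 0) (norm_le_pi_norm x 0) (abs_nonneg _) (norm_nonneg _)
  have h1 : |v 1 * x 1| ≤ ‖v‖ * ‖x‖ := by
    rw [abs_mul]
    exact mul_le_mul (norm_le_pi_norm v 1) (norm_le_pi_norm x 1) (abs_nonneg _) (norm_nonneg _)
  simp only [dot, Fin.sum_univ_two]
  have := abs_add_le (v 0 * x 0) (v 1 * x 1)
  linarith

/-- A functional with small `g²` is small in norm. -/
theorem norm_le_of_gg {μ : Measure (Fin 2 → ℝ)} [IsProbabilityMeasure μ] {p : ℝ} (hp0 : 0 < p)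
    (hp : ∀ v : Fin 2 → ℝ, ‖v‖ = 1 → p ≤ gg μ v) {v : Fin 2 → ℝ} {w : ℝ} (hw : w < p)
    (hv : gg μ v ≤ w) : ‖v‖ ≤ Real.sqrt (w / p) := by
  have h1 : ‖v‖ < 1 := by
    by_contra h
    push Not at h
    have := gg_ge_of_norm hp h
    linarith
  rcases eq_or_lt_of_le (norm_nonneg v) with h0 | h0
  · rw [← h0]; exact Real.sqrt_nonneg _
  · have h2 : 1 ≤ |(‖v‖⁻¹ : ℝ)| := by
      rw [abs_of_pos (by positivity)]
      exact (one_le_inv₀ h0).2 h1.le
    have h3 := gg_smul_le μ h2 v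
    have h4 : ‖(‖v‖⁻¹ : ℝ) • v‖ = 1 := by
      rw [norm_smul, norm_inv, norm_norm, inv_mul_cancel₀ h0.ne']
    have h5 := hp _ h4
    have h6 : p ≤ (‖v‖⁻¹) ^ 2 * w :=
      h5.trans (h3.trans (mul_le_mul_of_nonneg_left hv (sq_nonneg _)))
    have h7 : ‖v‖ ^ 2 ≤ w / p := by
      rw [le_div_iff₀ hp0]
      have h8 : ‖v‖ ^ 2 * p ≤ ‖v‖ ^ 2 * ((‖v‖⁻¹) ^ 2 * w) :=
        mul_le_mul_of_nonneg_left h6 (sq_nonneg _)
      have h9 : ‖v‖ ^ 2 * ((‖v‖⁻¹) ^ 2 * w) = w := by
        rw [← mul_assoc, ← mul_pow, mul_inv_cancel₀ h0.ne', one_pow, one_mul]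
      linarith
    exact Real.le_sqrt_of_sq_le h7

/-- **(b)**: maximal inequality for the body. -/
theorem body_max {Ω : Type*} [MeasurableSpace Ω] {P : Measure Ω} [IsProbabilityMeasure P]
    {μ : Measure (Fin 2 → ℝ)} [IsProbabilityMeasure μ] (hs : μ.map (fun x => -x) = μ)
    {X : ℕ → Ω → Fin 2 → ℝ} (hX : IID P μ X) (b : Fin 2 → Fin 2 → ℝ) {v : ℝ}
    (hv : ∀ i, gg μ (b i) ≤ v) (n : ℕ) :
    P.real {ω | ∃ j ≤ n, ∃ i, 1 < |dot (b i) (Sum X j ω)|} ≤ 4 * (n * v) := by
  have hdm : ∀ i, Measurable fun x : Fin 2 → ℝ => dot (b i) x := fun i => by fun_prop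
  have hone : ∀ i, P.real {ω | ∃ j ≤ n, 1 < |S (fun k ω => dot (b i) (X k ω)) j ω|} ≤
      2 * (n * v) := by
    intro i
    refine max_tr (ν := μ.map (fun x => dot (b i) x)) (fun k => (hdm i).comp (hX.meas k))
      (hX.indep.comp (fun _ x => dot (b i) x) (fun _ => hdm i)) (fun k => ?_) ?_ n ?_
    · rw [← hX.law k, Measure.map_map (hdm i) (hX.meas k)]; try rfl
    · conv_rhs => rw [← hs]
      rw [Measure.map_map (by fun_prop) (hdm i), Measure.map_map (hdm i) (by fun_prop)]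
      congr 1
      funext x
      simp only [Function.comp, dot, Fin.sum_univ_two, Pi.neg_apply]; ring
    · rw [integral_map (hdm i).aemeasurable (Continuous.aestronglyMeasurable (by fun_prop))]
      exact hv i
  have hdot : ∀ i j ω, dot (b i) (Sum X j ω) = S (fun k ω => dot (b i) (X k ω)) j ω := by
    intro i j ω
    rw [Sum, dot_sum_right]; rfl
  have hsub : {ω | ∃ j ≤ n, ∃ i, 1 < |dot (b i) (Sum X j ω)|} ⊆
      {ω | ∃ j ≤ n, 1 < |S (fun k ω => dot (b 0) (X k ω)) j ω|} ∪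
      {ω | ∃ j ≤ n, 1 < |S (fun k ω => dot (b 1) (X k ω)) j ω|} := by
    rintro ω ⟨j, hj, i, h⟩
    rw [hdot] at h
    fin_cases i
    · exact Or.inl ⟨j, hj, h⟩
    · exact Or.inr ⟨j, hj, h⟩
  calc _ ≤ _ := measureReal_mono hsub
    _ ≤ _ := measureReal_union_le _ _
    _ ≤ 2 * (n * v) + 2 * (n * v) := add_le_add (hone 0) (hone 1)
    _ = _ := by ring

end Crest.Agent.R154.Body818
end

-- ▼ part R154/Body_818
section

/-!
Row 154, block B3: assembly of BODY from part (a).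
-/

open MeasureTheory ProbabilityTheory Set
open scoped BigOperators ENNReal NNReal

namespace Crest.Agent.R154.Body818

open Crest.Agent.R154.Conc412 Crest.Agent.R154.Hit818

/-- Part (a) of BODY in the form proved by 412. -/
def PartA (μ : Measure (Fin 2 → ℝ)) : Prop :=
  ∀ ε : ℝ, 0 < ε → ∀ R : ℕ, 1 ≤ R → ∃ m : ℕ, ∃ N₀ : ℕ, ∀ N : ℕ, N₀ ≤ N →
    ∀ b : Fin 2 → Fin 2 → ℝ, IsFrame (diffLaw μ) (N / 2 ^ m) b →
      ∀ (Ω : Type) [MeasurableSpace Ω] (P : Measure Ω) [IsProbabilityMeasure P]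
        (X : ℕ → Ω → Fin 2 → ℝ), IID P μ X →
        ∀ y : Fin 2 → ℝ, P.real {ω | ∃ j : ℕ, N ≤ R * j ∧ j ≤ R * N ∧
            ∀ i, |dot (b i) (Sum X j ω - y)| ≤ 3} ≤ ε

theorem bodyProp_of_partA {μ : Measure (Fin 2 → ℝ)} [IsProbabilityMeasure μ]
    (hs : μ.map (fun x => -x) = μ) (hnd : ∀ v, v ≠ 0 → 0 < gg μ v) (ha : PartA μ) :
    BodyProp μ := by
  obtain ⟨p, hp0, hp⟩ := exists_lower hnd
  have hp' : ∀ v : Fin 2 → ℝ, ‖v‖ = 1 → p / 2 ≤ gg (diffLaw μ) v := by
    intro v hv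
    have h1 := gg_le_two_diff hs v
    have h2 := hp v hv
    linarith
  intro ε hε R hR
  obtain ⟨m, N₀, hN₀⟩ := ha ε hε R hR
  set M : ℝ := 2 ^ m with hM
  have hM0 : 0 < M := by rw [hM]; positivity
  -- `C` must dominate `8 M` and `2 √(2 M / p)`
  refine ⟨8 * M + 2 * Real.sqrt (2 * M / p), by positivity, max N₀ (⌈4 * M / p⌉₊ + 1), ?_⟩
  intro N hN
  have hN1 : N₀ ≤ N := (le_max_left _ _).trans hN
  have hN2 : ⌈4 * M / p⌉₊ + 1 ≤ N := (le_max_right _ _).trans hN
  have hN3 : 4 * M / p < N := by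
    have h1 : 4 * M / p ≤ ⌈4 * M / p⌉₊ := Nat.le_ceil _
    have h2 : ((⌈4 * M / p⌉₊ : ℕ) : ℝ) + 1 ≤ N := by exact_mod_cast hN2
    linarith
  have hNpos : (0:ℝ) < N := lt_of_le_of_lt (by positivity) hN3
  set t : ℝ := N / M with ht
  have ht0 : 0 < t := by positivity
  have htinv : 1 / t = M / N := by rw [ht, one_div_div]
  have htp : 2 * (1 / t) < p / 2 := by
    rw [htinv]
    rw [div_lt_iff₀ hp0] at hN3
    have : M / N < p / 4 := by
      rw [div_lt_div_iff₀ hNpos (by norm_num)]; linarith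
    linarith
  obtain ⟨b, hb⟩ := exists_frame (μ := diffLaw μ) ht0 hp' (by
    have : 0 < 1 / t := by positivity
    linarith)
  have hgg : ∀ i, gg μ (b i) ≤ 2 * (1 / t) := fun i =>
    (gg_le_two_diff hs (b i)).trans (by have := hb.small i; linarith)
  refine ⟨b, ?_, ?_⟩
  · intro i x
    have h1 := norm_le_of_gg hp0 hp (w := 2 * (1 / t)) (by linarith) (hgg i)
    have h2 := abs_dot_le_norm (b i) x
    have h3 : Real.sqrt (2 * (1 / t) / p) = Real.sqrt (2 * M / p) / Real.sqrt N := by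
      rw [← Real.sqrt_div (by positivity), htinv]
      congr 1
      field_simp
    rw [h3] at h1
    have h4 : 0 ≤ ‖x‖ := norm_nonneg _
    calc |dot (b i) x| ≤ 2 * ‖b i‖ * ‖x‖ := h2
      _ ≤ 2 * (Real.sqrt (2 * M / p) / Real.sqrt N) * ‖x‖ := by gcongr
      _ = (2 * Real.sqrt (2 * M / p)) / Real.sqrt N * ‖x‖ := by ring
      _ ≤ (8 * M + 2 * Real.sqrt (2 * M / p)) / Real.sqrt N * ‖x‖ := by
          gcongr
          have : 0 ≤ 8 * M := by positivity
          linarith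
  · intro Ω _ P _ X hX
    refine ⟨fun y => hN₀ N hN1 b hb Ω P X hX y, fun n => ?_⟩
    refine (body_max hs hX b hgg n).trans ?_
    rw [htinv]
    have h0 : 0 ≤ Real.sqrt (2 * M / p) := Real.sqrt_nonneg _
    have h1 : (0:ℝ) ≤ n := Nat.cast_nonneg n
    have h2 : 4 * ((n:ℝ) * (2 * (M / N))) = 8 * M * n / N := by ring
    rw [h2]
    gcongr
    linarith

/-- A law with two linearly independent atoms is nondegenerate. -/
theorem nondeg_of_atoms {μ : Measure (Fin 2 → ℝ)} [IsProbabilityMeasure μ] {x y : Fin 2 → ℝ}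
    (hx : μ {x} ≠ 0) (hy : μ {y} ≠ 0) (hxy : x 0 * y 1 - x 1 * y 0 ≠ 0) (v : Fin 2 → ℝ)
    (hv : v ≠ 0) : 0 < gg μ v := by
  have hne : dot v x ≠ 0 ∨ dot v y ≠ 0 := by
    by_contra h
    push Not at h
    obtain ⟨h1, h2⟩ := h
    simp only [dot, Fin.sum_univ_two] at h1 h2
    apply hv
    have h3 : v 0 * (x 0 * y 1 - x 1 * y 0) = 0 := by linear_combination y 1 * h1 - x 1 * h2
    have h4 : v 1 * (x 0 * y 1 - x 1 * y 0) = 0 := by linear_combination x 0 * h2 - y 0 * h1
    have h5 := (mul_eq_zero.1 h3).resolve_right hxy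
    have h6 := (mul_eq_zero.1 h4).resolve_right hxy
    funext i
    fin_cases i
    · exact h5
    · exact h6
  have key : ∀ z : Fin 2 → ℝ, μ {z} ≠ 0 → dot v z ≠ 0 → 0 < gg μ v := by
    intro z hz hd
    have hpos : 0 < min (dot v z ^ 2) 1 := lt_min (by positivity) one_pos
    have h1 : min (dot v z ^ 2) 1 * μ.real {z} ≤ gg μ v := by
      have h2 := mul_meas_ge_le_integral_of_nonneg (μ := μ) (f := fun x => min (dot v x ^ 2) 1)
        (Filter.Eventually.of_forall fun x => le_min (sq_nonneg _) zero_le_one)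
        (integrable_gg μ v) (min (dot v z ^ 2) 1)
      refine le_trans ?_ h2
      refine mul_le_mul_of_nonneg_left ?_ hpos.le
      refine measureReal_mono ?_
      intro w hw
      rw [Set.mem_singleton_iff] at hw
      show min (dot v z ^ 2) 1 ≤ min (dot v w ^ 2) 1
      rw [hw]
    have h2 : 0 < μ.real {z} := ENNReal.toReal_pos hz (measure_ne_top _ _)
    have : 0 < min (dot v z ^ 2) 1 * μ.real {z} := mul_pos hpos h2
    linarith
  rcases hne with h | h
  · exact key x hx h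
  · exact key y hy h

end Crest.Agent.R154.Body818
end

-- ▼ part R154/BodyFin_818
section

/-!
Row 154, block B3: the final form of BODY.
-/

open MeasureTheory ProbabilityTheory Set
open scoped BigOperators ENNReal NNReal

namespace Crest.Agent.R154.Body818

open Crest.Agent.R154.Conc412 Crest.Agent.R154.Hit818

/-- **BODY** for every symmetric nondegenerate law on the plane. -/
theorem bodyProp {μ : Measure (Fin 2 → ℝ)} [IsProbabilityMeasure μ]
    (hs : μ.map (fun x => -x) = μ) (hnd : ∀ v, v ≠ 0 → 0 < gg μ v) : BodyProp μ := by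
  refine bodyProp_of_partA hs hnd ?_
  obtain ⟨p, hp0, hp⟩ := exists_lower hnd
  have hp' : ∀ v : Fin 2 → ℝ, ‖v‖ = 1 → p / 2 ≤ gg (diffLaw μ) v := by
    intro v hv
    have h1 := gg_le_two_diff hs v
    have h2 := hp v hv
    linarith
  intro ε hε R hR
  obtain ⟨m, N₀, h⟩ := body_a hs (p := p / 2) (by positivity) hp' hε hR
  exact ⟨m, N₀, fun N hN b hb Ω _ P _ X hX y =>
    h N hN b hb P X hX.meas hX.indep hX.law y⟩

/-- **BODY** for every symmetric law with two linearly independent atoms. -/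
theorem bodyProp_of_atoms {μ : Measure (Fin 2 → ℝ)} [IsProbabilityMeasure μ]
    (hs : μ.map (fun x => -x) = μ) {x y : Fin 2 → ℝ}
    (hx : μ {x} ≠ 0) (hy : μ {y} ≠ 0) (hxy : x 0 * y 1 - x 1 * y 0 ≠ 0) : BodyProp μ :=
  bodyProp hs (nondeg_of_atoms hx hy hxy)

end Crest.Agent.R154.Body818
end

-- ▼ part R154/JBind3_132
section

/-! Row 154, B4 trunk side, binding part 3: atoms of the law of the joint blocks, BODY. -/

set_option autoImplicit false
set_option linter.unusedSectionVars false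
set_option linter.deprecated false

namespace Crest.Agent.R154.J132

open MeasureTheory ProbabilityTheory Filter Set Crest.ProbabilityR.RandomEnvironment
open Crest.Agent.R154.Mk561 Crest.Agent.R154.Bind263 Crest.Agent.R154.B4Inst797
open Crest.Agent.R154.Ren263 (Word pre hgt Stay Record len_pre hgt_zero hgt_shift Det
  measurableSet_Stay)
open Crest.Agent.R154.RenG263 (RecSys Reg tau tau_spec tau_min blk0 blks RegInf rest_mem reg_shift
  wordLaw RenewalG Climb det_Climb climb_hgt measurable_blks wordLaw_apply)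
open Crest.Agent.R154.Body818 (BodyProp)
open scoped ENNReal Topology

section general

variable {A : Type} [MeasurableSpace A] [MeasurableSingletonClass A] [Countable A] [Inhabited A]

lemma iid_first (μ : Measure A) [IsProbabilityMeasure μ] (w : A) :
    iidL μ {a | a 0 = w} = μ {w} := by
  have h := Measure.infinitePi_map_eval (fun _ : ℕ => μ) 0
  conv_rhs => rw [← h]
  rw [Measure.map_apply (measurable_pi_apply 0) (measurableSet_singleton w)]
  rfl

/-- atoms of the joint block law -/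
theorem atom_pair (μ : Measure A) [IsProbabilityMeasure μ] {Y : A → ℕ} (hY : ∀ a, 1 ≤ Y a)
    (V : A → (Fin 2 → ℝ)) {w w' : A} (h : Y w = Y w') :
    μ {w} * μ {w'} ≤ jlaw μ Y V {V w - V w'} := by
  rw [jlaw, Measure.map_apply (measurable_X0 hY V) (measurableSet_singleton _),
    ← iid_first μ w, ← iid_first μ w', ← Measure.prod_prod]
  refine measure_mono ?_
  rintro p ⟨h1, h2⟩
  have h1' : p.1 0 = w := h1
  have h2' : p.2 0 = w' := h2
  have hf : p ∈ Fst Y (1, 1) := by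
    refine ⟨le_rfl, ?_, fun i j hi hi' _ => ?_⟩
    · simp [H, h1', h2', h]
    · have hi'' : i < 1 := hi'
      omega
  have hi := idx_eq hY hf
  simp only [mem_preimage, mem_singleton_iff, X0]
  rw [hi]
  simp [Dd, h1', h2']

end general

variable {d : ℕ} {u : Step d} {κ : ℝ} {R : ℕ} {Q : Measure (Environment d)}
  [IsProbabilityMeasure Q]

/-- the path of the words `(f, u)` -/
noncomputable def Wf (u : Step d) (κ : ℝ) (f : Step d) : MPath d := fun i =>
  if i = 0 then (f, fb d κ) else (u, fb d κ)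

theorem word_pos (F : Frame Q κ R)
    {f : Step d} (hf : f.1 ≠ u.1) : muW Q κ R u {pre 2 (Wf u κ f)} ≠ 0 := by
  rw [muW, wordLaw_apply]
  have hcy : mkAnn κ Q 0 (Cy (Wf u κ f) 2) ≠ 0 := by
    refine cy_pos F _ _ fun i _ => ?_
    unfold Wf
    split_ifs
    · exact fb_spec d κ
    · exact fb_spec d κ
  refine ne_of_gt (lt_of_lt_of_le (pos_iff_ne_zero.2 hcy) ?_)
  refine le_trans (measure_mono ?_) (ENNReal.le_tsum 2)
  intro s hs
  have hs0 : s 0 = (f, fb d κ) := by rw [hs 0 (by norm_num)]; simp [Wf]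
  have hs1 : s 1 = (u, fb d κ) := by rw [hs 1 (by norm_num)]; simp [Wf]
  have z1 : zh u s 1 = 0 := by
    rw [show (1 : ℕ) = 0 + 1 from rfl, zh_succ, zh_zero, hs0]
    obtain ⟨f1, f2⟩ := f
    rw [zht_lat hf, add_zero]
  have z2 : zh u s 2 = 1 := by
    rw [show (2 : ℕ) = 1 + 1 from rfl, zh_succ, z1, hs1, zht_up, zero_add]
  refine ⟨⟨by norm_num, ?_, ?_, ?_⟩, ?_⟩
  · change MRec (B2d.dirVec u) R s 2
    intro i hi
    rw [hgt_eq, hgt_eq, z2]
    have hzi : zh u s i = 0 := by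
      interval_cases i
      · exact zh_zero u s
      · exact z1
    rw [hzi]
    refine ⟨by norm_num, fun hflag => ?_⟩
    have hb : fb d κ = false := by
      interval_cases i
      · rw [hs0] at hflag; exact hflag
      · rw [hs1] at hflag; exact hflag
    have hk : kf d κ = 0 := by
      rcases fb_spec d κ with h | h
      · rw [hb] at h; simp at h
      · exact h.2
    have hR0 : R = 0 := by
      rcases F.frc with h | h
      · exact h
      · rw [hk] at h; exact absurd h (lt_irrefl _)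
    rw [hR0, cR_zero]
    norm_num
  · intro k hk
    rw [hgt_eq]
    interval_cases k
    · rw [zh_zero]; norm_num
    · rw [z1]; norm_num
    · rw [z2]; norm_num
  · intro m hm1 hm2 hcon
    have hm : m = 1 := by omega
    subst hm
    have := ((rhoU u κ R).record hcon.1) 0 (by norm_num)
    rw [hgt_eq, hgt_eq, z1, zh_zero] at this
    exact absurd this (lt_irrefl _)
  · simp only [mem_setOf_eq, mem_singleton_iff]
    exact Ren263.pre_congr hs

lemma Yw_Wf {f : Step d} (hf : f.1 ≠ u.1) : Yw u (pre 2 (Wf u κ f)) = 1 := by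
  unfold Yw
  rw [wzht_pre]
  have z1 : zh u (Wf u κ f) 1 = 0 := by
    rw [show (1 : ℕ) = 0 + 1 from rfl, zh_succ, zh_zero]
    obtain ⟨f1, f2⟩ := f
    simp only [Wf, if_true]
    rw [zht_lat hf, add_zero]
  have z2 : zh u (Wf u κ f) 2 = 1 := by
    rw [show (2 : ℕ) = 1 + 1 from rfl, zh_succ, z1]
    simp only [Wf]
    rw [if_neg (by norm_num), zht_up, zero_add]
  rw [z2]
  rfl

lemma Vw_Wf {i1 i2 : Fin d} (h1 : i1 ≠ u.1) (h2 : i2 ≠ u.1) (f : Step d) :
    Vw i1 i2 (pre 2 (Wf u κ f)) = lat i1 i2 (stepVec f) := by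
  unfold Vw
  have hp2 : pos 0 (Wf u κ f) (0 + 1 + 1) = 0 + stp (Wf u κ f 0) + stp (Wf u κ f (0 + 1)) := by
    rw [pos_succ, pos_succ, pos_zero]
  have hp2' : pos 0 (Wf u κ f) 2 = 0 + stp (Wf u κ f 0) + stp (Wf u κ f (0 + 1)) := hp2
  rw [stp_pre, hp2', lat_add, lat_add, lat_zero, zero_add]
  have hu1 : (stepVec u : Site d) i1 = 0 := by
    unfold stepVec; rw [Pi.single_eq_of_ne h1]
  have hu2 : (stepVec u : Site d) i2 = 0 := by
    unfold stepVec; rw [Pi.single_eq_of_ne h2]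
  have e2 : lat i1 i2 (stp (Wf u κ f (0 + 1))) = 0 := by
    have : Wf u κ f (0 + 1) = (u, fb d κ) := by simp [Wf]
    rw [this]
    unfold lat stp
    ext i
    fin_cases i
    · simp [hu1]
    · simp [hu2]
  rw [e2, add_zero]
  have : Wf u κ f 0 = (f, fb d κ) := by simp [Wf]
  rw [this]
  rfl

/-- **BODY for the joint blocks of two walkers** -/
theorem body (F : Frame Q κ R) (hA : annealedProb Q 0 (escapeEvent (B2d.dirVec u)) ≠ 0)
    {i1 i2 : Fin d} (h1 : i1 ≠ u.1) (h2 : i2 ≠ u.1) (h12 : i1 ≠ i2) :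
    BodyProp (jlaw (muW Q κ R u) (Yw u) (Vw i1 i2)) := by
  have := probW F hA
  have hg : pairL (muW Q κ R u) (Good (Yw u))ᶜ = 0 :=
    good_ae _ (one_le_Yw u) (noCut_tendsto' _ (sum_noCut_ne_top F hA))
  have hpj : IsProbabilityMeasure (jlaw (muW Q κ R u) (Yw u) (Vw i1 i2)) :=
    Measure.isProbabilityMeasure_map (measurable_X0 (one_le_Yw u) _).aemeasurable
  have hsym := jlaw_symm (muW Q κ R u) (one_le_Yw u) hg (Vw i1 i2)
  set wa := pre 2 (Wf u κ (i1, true)) with hwa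
  set wb := pre 2 (Wf u κ (i1, false)) with hwb
  set wc := pre 2 (Wf u κ (i2, true)) with hwc
  have pa : muW Q κ R u {wa} ≠ 0 := word_pos F h1
  have pb : muW Q κ R u {wb} ≠ 0 := word_pos F h1
  have pc : muW Q κ R u {wc} ≠ 0 := word_pos F h2
  have ya : Yw u wa = 1 := Yw_Wf h1
  have yb : Yw u wb = 1 := Yw_Wf h1
  have yc : Yw u wc = 1 := Yw_Wf h2
  have va : Vw i1 i2 wa = lat i1 i2 (stepVec (i1, true)) := Vw_Wf h1 h2 _
  have vb : Vw i1 i2 wb = lat i1 i2 (stepVec (i1, false)) := Vw_Wf h1 h2 _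
  have vc : Vw i1 i2 wc = lat i1 i2 (stepVec (i2, true)) := Vw_Wf h1 h2 _
  refine Body818.bodyProp_of_atoms hsym (x := Vw i1 i2 wa - Vw i1 i2 wb)
    (y := Vw i1 i2 wc - Vw i1 i2 wb) ?_ ?_ ?_
  · refine ne_of_gt (lt_of_lt_of_le ?_
      (atom_pair (muW Q κ R u) (one_le_Yw u) (Vw i1 i2) (ya.trans yb.symm)))
    exact pos_iff_ne_zero.2 (mul_ne_zero pa pb)
  · refine ne_of_gt (lt_of_lt_of_le ?_
      (atom_pair (muW Q κ R u) (one_le_Yw u) (Vw i1 i2) (yc.trans yb.symm)))
    exact pos_iff_ne_zero.2 (mul_ne_zero pc pb)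
  · rw [va, vb, vc]
    unfold lat stepVec
    simp [Pi.single_eq_of_ne h12, Pi.single_eq_of_ne h12.symm]

end Crest.Agent.R154.J132
end

-- ▼ part R154/Joint6_132
section

/-! Row 154, B4 trunk side, part 6: the final constants. -/

set_option autoImplicit false
set_option linter.unusedSectionVars false

namespace Crest.Agent.R154.J132

open MeasureTheory ProbabilityTheory Filter Topology Set
open Crest.Agent.R154.Conc412 (dot)
open Crest.Agent.R154.Body818 (BodyProp IID)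
open scoped ENNReal

lemma measurableSet_nb (b : Fin 2 → Fin 2 → ℝ) (s : ℝ) : MeasurableSet {x | nb b s x} := by
  have : {x | nb b s x} = ⋂ i, {x | |dot (b i) x| ≤ s} := by
    ext x; simp [nb]
  rw [this]
  refine MeasurableSet.iInter fun i => ?_
  have h : Measurable fun x : Fin 2 → ℝ => |dot (b i) x| := by
    unfold Conc412.dot
    fun_prop
  exact measurableSet_le h measurable_const

/-- **output form** of the trunk part of B4, in letters. -/
def TrunkOut {A : Type} [MeasurableSpace A] (μ : Measure A) (Y : A → ℕ)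
    (U : ℕ → (ℕ → A) → (Fin 2 → ℝ)) : Prop :=
  ∀ ε : ℝ, 0 < ε → ∀ C₀ : ℕ, ∃ K₀ : ℕ, ∀ K : ℕ, K₀ ≤ K → ∃ T₀ : ℕ, ∀ t : ℕ, T₀ ≤ t →
    ∃ (E : Set (Fin 2 → ℝ)) (u : ℝ), MeasurableSet E ∧ 0 ≤ u ∧ (C₀ + 1) * K * u ^ 2 ≤ ε ∧
      (∀ L, (iidL μ).real {a | U (L + 7 * t) a - U L a ∉ E} ≤ u) ∧
      (∀ y, (pairL μ).real {p | ∃ k, K ≤ 2 * k ∧ k ≤ C₀ * K ∧
        U ((k + 7) * t) p.1 - U (k * t) p.2 - y ∈ E} ≤ ε) ∧
      (∀ L, (iidL μ).real {a | ∀ i, ¬ (L < H Y i a ∧ H Y i a ≤ L + t)} ≤ ε / K)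

variable {A : Type} [MeasurableSpace A] [MeasurableSingletonClass A] [Countable A] [Inhabited A]

theorem iid_X (μ : Measure A) [IsProbabilityMeasure μ] {Y : A → ℕ} (hY : ∀ a, 1 ≤ Y a)
    (hg : pairL μ (Good Y)ᶜ = 0) (V : A → (Fin 2 → ℝ)) :
    IID (pairL μ) (jlaw μ Y V) (fun k p => X0 Y V ((rest Y)^[k] p)) where
  meas := fun k => (measurable_X0 hY V).comp ((measurable_rest hY).iterate k)
  indep := indep_X μ hY hg V
  law := fun k => law_X μ hY hg V k

theorem trunkOut (μ : Measure A) [IsProbabilityMeasure μ] {Y : A → ℕ} (hY : ∀ a, 1 ≤ Y a)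
    (hg : pairL μ (Good Y)ᶜ = 0) {V : A → (Fin 2 → ℝ)} {U : ℕ → (ℕ → A) → (Fin 2 → ℝ)}
    (hbody : BodyProp (jlaw μ Y V)) (hcU : ClaimU μ Y V U) (hcP : ClaimPi μ Y V U)
    (hcut : CutWindow μ Y) {e : ℝ} (he : 0 ≤ e) (hR : SumRTail μ Y e) : TrunkOut μ Y U := by
  intro ε hε C₀
  obtain ⟨R, hRe⟩ := exists_nat_ge (max ((C₀ : ℝ) + 7) (64 * e / ε))
  have hR1 : (C₀ : ℝ) + 7 ≤ R := (le_max_left _ _).trans hRe
  have hR2 : 64 * e / ε ≤ R := (le_max_right _ _).trans hRe
  have hR1' : C₀ + 7 ≤ R := by exact_mod_cast hR1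
  have hR0 : (0 : ℝ) < R := by
    have : (0 : ℝ) ≤ C₀ := Nat.cast_nonneg _
    linarith
  obtain ⟨C, hC, N₀, hN⟩ := hbody (ε / 4) (by linarith) R (by omega)
  obtain ⟨K₀, hK₀⟩ := exists_nat_ge (max 1 (max (56 * C / ε) ((7 * C + 3) ^ 2 * (C₀ + 1) / ε)))
  refine ⟨K₀, fun K hK => ?_⟩
  have hKr : max 1 (max (56 * C / ε) ((7 * C + 3) ^ 2 * (C₀ + 1) / ε)) ≤ (K : ℝ) :=
    hK₀.trans (by exact_mod_cast hK)
  have hK1 : (1 : ℝ) ≤ K := (le_max_left _ _).trans hKr
  have hK2 : 56 * C / ε ≤ K := (le_max_left _ _).trans ((le_max_right _ _).trans hKr)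
  have hK3 : (7 * C + 3) ^ 2 * (C₀ + 1) / ε ≤ K :=
    (le_max_right _ _).trans ((le_max_right _ _).trans hKr)
  have hK1' : 1 ≤ K := by exact_mod_cast hK1
  have hK0 : (0 : ℝ) < K := by linarith
  set M : ℕ := C₀ * K with hM
  have hM0 : (0 : ℝ) < (M : ℝ) + 1 := by positivity
  set η : ℝ := min (1 / K) (ε / (32 * ((M : ℝ) + 1))) with hη
  have hη0 : 0 < η := lt_min (by positivity) (by positivity)
  have hη1 : η ≤ 1 / K := min_le_left _ _
  have hη2 : η ≤ ε / (32 * ((M : ℝ) + 1)) := min_le_right _ _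
  obtain ⟨r₂, h, hPi⟩ := hcP η hη0
  obtain ⟨r, hUr⟩ := hcU η hη0 r₂
  obtain ⟨t₁, ht₁⟩ := hcut (ε / K) (by positivity)
  obtain ⟨t₂, ht₂⟩ := exists_nat_ge ((7 * C * (max r r₂ : ℕ)) ^ 2)
  refine ⟨r + r₂ + N₀ + 4 * h + R + t₁ + t₂ + 1, fun t ht => ?_⟩
  have hKt : t ≤ K * t := Nat.le_mul_of_pos_left t hK1'
  have htpos : 0 < t := by omega
  have hNpos : 0 < K * t := by omega
  have hNr : (0 : ℝ) < ((K * t : ℕ) : ℝ) := by exact_mod_cast hNpos
  obtain ⟨b, hb, hbody'⟩ := hN (K * t) (by omega)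
  obtain ⟨hba, hbb⟩ := hbody' ((ℕ → A) × (ℕ → A)) (pairL μ) _ (iid_X μ hY hg V)
  set g : ℝ := C / Real.sqrt ((K * t : ℕ) : ℝ) with hgdef
  have hg0 : 0 ≤ g := by positivity
  have hsq : 7 * C * (max r r₂ : ℕ) ≤ Real.sqrt ((K * t : ℕ) : ℝ) := by
    apply Real.le_sqrt_of_sq_le
    refine ht₂.trans ?_
    have : t₂ ≤ K * t := by omega
    exact_mod_cast this
  have hgr : ∀ x : ℕ, x ≤ max r r₂ → g * x ≤ 1 / 7 := by
    intro x hx
    have hs : 0 < Real.sqrt ((K * t : ℕ) : ℝ) := Real.sqrt_pos.2 hNr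
    rw [hgdef, div_mul_eq_mul_div, div_le_iff₀ hs]
    have hx' : (x : ℝ) ≤ ((max r r₂ : ℕ) : ℝ) := by exact_mod_cast hx
    have := mul_le_mul_of_nonneg_left hx' hC.le
    linarith
  have hKtc : ((K * t : ℕ) : ℝ) = (K : ℝ) * t := by push_cast; ring
  have htr : (0 : ℝ) < t := by exact_mod_cast htpos
  -- the bound (b)
  have hv : (pairL μ).real {p | ∃ j ≤ 7 * t, ∃ i, 1 < |dot (b i) (SS Y V j p)|} ≤ 7 * C / K := by
    refine (hbb (7 * t)).trans (le_of_eq ?_)
    rw [hKtc]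
    push_cast
    field_simp
  obtain ⟨c, hA, hB⟩ := hUr t (by omega) b g (7 * C / K) hg0 hb (hgr r (le_max_left _ _)) hv
  refine ⟨{x | nb b (10 / 7) (x - c)}, 7 * C / K + 3 * η, ?_, by positivity, ?_, fun L => hB L,
    fun y => ?_, ht₁ t (by omega)⟩
  · exact (measurable_id.sub measurable_const) (measurableSet_nb b _)
  · have h1 : 7 * C / K + 3 * η ≤ (7 * C + 3) / K := by
      have : 3 * η ≤ 3 * (1 / K) := by linarith
      calc _ ≤ 7 * C / K + 3 * (1 / K) := by linarith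
        _ = _ := by ring
    have h0 : 0 ≤ 7 * C / K + 3 * η := by positivity
    calc ((C₀ : ℝ) + 1) * K * (7 * C / K + 3 * η) ^ 2
        ≤ ((C₀ : ℝ) + 1) * K * ((7 * C + 3) / K) ^ 2 := by
          gcongr
      _ = (7 * C + 3) ^ 2 * (C₀ + 1) / K := by field_simp
      _ ≤ ε := by
          rw [div_le_iff₀ hK0]
          rw [div_le_iff₀ hε] at hK3
          linarith
  · have hPi' := hPi t K M R (K * t) b g (7 * C / K + 2 * η) c y (by omega) rfl (by omega)
      (by
        have e1 : (M + 7) * t ≤ (C₀ + 7) * (K * t) := by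
          rw [hM]
          calc (C₀ * K + 7) * t = C₀ * (K * t) + 7 * t := by ring
            _ ≤ C₀ * (K * t) + 7 * (K * t) := by gcongr
            _ = _ := by ring
        exact e1.trans (Nat.mul_le_mul_right _ hR1')) (by omega) hg0 hb
      (hgr r₂ (le_max_right _ _)) hA
    have e2 : {p : (ℕ → A) × (ℕ → A) | ∃ k, K ≤ 2 * k ∧ k ≤ C₀ * K ∧
        U ((k + 7) * t) p.1 - U (k * t) p.2 - y ∈ {x | nb b (10 / 7) (x - c)}}
        = {p | ∃ k, K ≤ 2 * k ∧ k ≤ M ∧
        nb b (10 / 7) (U ((k + 7) * t) p.1 - U (k * t) p.2 - c - y)} := by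
      ext p
      simp only [mem_ofPred_eq]
      refine exists_congr fun k => and_congr_right fun _ => and_congr_right fun _ => ?_
      rw [sub_right_comm]
    rw [e2]
    refine hPi'.trans ?_
    have b1 := hba y
    have b2 := hR (K * t / R + 1) (((K * t : ℕ) : ℝ) / 4) (by positivity)
    have b1' : (pairL μ).real {p | ∃ j, K * t ≤ R * j ∧ j ≤ R * (K * t) ∧
        ∀ i, |dot (b i) (SS Y V j p - y)| ≤ 3} ≤ ε / 4 := b1
    have b3 : ((K * t / R + 1 : ℕ) : ℝ) * e / (((K * t : ℕ) : ℝ) / 4) ≤ ε / 8 := by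
      have hdiv : ((K * t / R : ℕ) : ℝ) ≤ ((K * t : ℕ) : ℝ) / R := Nat.cast_div_le
      have hRN : (R : ℝ) ≤ ((K * t : ℕ) : ℝ) := by
        have : R ≤ K * t := by omega
        exact_mod_cast this
      have hn1 : ((K * t / R + 1 : ℕ) : ℝ) ≤ 2 * (((K * t : ℕ) : ℝ) / R) := by
        have : (1 : ℝ) ≤ ((K * t : ℕ) : ℝ) / R := by
          rw [le_div_iff₀ hR0]; linarith
        push_cast at hdiv ⊢
        push_cast at this
        linarith
      rw [div_le_iff₀ (by positivity)]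
      have h8 : 2 * (((K * t : ℕ) : ℝ) / R) * e ≤ ε / 8 * (((K * t : ℕ) : ℝ) / 4) := by
        have h9 : 64 * e ≤ R * ε := by
          rw [div_le_iff₀ hε] at hR2; linarith
        have h10 : 2 * (((K * t : ℕ) : ℝ) / R) * e = ((K * t : ℕ) : ℝ) * (2 * e) / R := by ring
        rw [h10, div_le_iff₀ hR0]
        have := mul_le_mul_of_nonneg_left h9 hNr.le
        linarith only [this]
      exact (mul_le_mul_of_nonneg_right hn1 he).trans h8
    have b4 : 2 * ((M : ℝ) + 1) * η + 2 * η ≤ ε / 8 := by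
      have h11 : 4 * ((M : ℝ) + 1) * η ≤ ε / 8 := by
        rw [le_div_iff₀ (by positivity)] at hη2
        linarith only [hη2]
      have h12 : (0 : ℝ) ≤ M * η := by positivity
      linarith only [h11, h12]
    have b5 : 7 * C / K ≤ ε / 8 := by
      rw [div_le_iff₀ hK0]
      rw [div_le_iff₀ hε] at hK2
      linarith only [hK2]
    have b6 := b2.trans b3
    linarith only [b1', b4, b5, b6, hε]

end Crest.Agent.R154.J132
end

-- ▼ part R154/Joint4_412
section

/-! Row 154, B4 trunk side, part 4: (JC3) windows without a cut, (JC4) the number of joint cuts,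
uniform tightness of the block at a level. -/

set_option autoImplicit false
set_option linter.unusedSectionVars false

namespace Crest.Agent.R154.J132

open MeasureTheory ProbabilityTheory Filter Topology Set
open scoped ENNReal

variable {A : Type*}






/-- the first joint cut is at level `k` with indices `q` -/
def First (Y : A → ℕ) (k : ℕ) (q : ℕ × ℕ) : Set ((ℕ → A) × (ℕ → A)) :=
  At Y k q ∩ NoCut Y (k - 1)







variable [MeasurableSpace A] [MeasurableSingletonClass A] [Countable A] [Inhabited A]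



/-- law of the level of the first joint cut -/
noncomputable def fl (μ : Measure A) (Y : A → ℕ) (k : ℕ) : ℝ≥0∞ :=
  if 1 ≤ k then pairL μ (⋃ q, First Y k q) else 0








end Crest.Agent.R154.J132
end

-- ▼ part R154/JPi_412
section

/-! Row 154, B4 trunk side: `SumRTail` and Claim (PI): close at different levels implies close at
the same level. -/

set_option autoImplicit false
set_option linter.unusedSectionVars false

namespace Crest.Agent.R154.J132

open MeasureTheory ProbabilityTheory Filter Topology Set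
open Crest.Agent.R154.Conc412 (dot)
open scoped ENNReal

section det
variable {A : Type*}

lemma fi_spec' {Y : A → ℕ} (hY : ∀ a, 1 ≤ Y a) (l : ℕ) (a : ℕ → A) : l ≤ H Y (fi Y l a) a := by
  have h : (sInf {i | l ≤ H Y i a}) ∈ {i | l ≤ H Y i a} := Nat.sInf_mem ⟨l, le_H hY l a⟩
  exact h

lemma fi_lt' {Y : A → ℕ} {l i : ℕ} {a : ℕ → A} (h : i < fi Y l a) : H Y i a < l := by
  have h1 : i ∉ {i | l ≤ H Y i a} := Nat.notMem_of_lt_sInf h
  simpa using h1


/-- first `k` with `close_k`, with the indices of the next own cuts. -/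
def CK (Y : A → ℕ) (V : A → (Fin 2 → ℝ)) (U : ℕ → (ℕ → A) → (Fin 2 → ℝ)) (t K M r : ℕ)
    (G : ℕ → Set ((ℕ → A) × (ℕ → A))) (x : ℕ × ℕ × ℕ × ℕ) : Set ((ℕ → A) × (ℕ → A)) :=
  {p | K ≤ 2 * x.1 ∧ x.1 ≤ M ∧ p ∈ G x.1 ∧ (∀ k', K ≤ 2 * k' → k' < x.1 → p ∉ G k') ∧
    (x.1 + 7) * t ≤ H Y x.2.1 p.1 ∧ (∀ i' < x.2.1, H Y i' p.1 < (x.1 + 7) * t) ∧
    x.1 * t ≤ H Y x.2.2.1 p.2 ∧ H Y x.2.2.1 p.2 = x.1 * t + x.2.2.2 ∧ x.2.2.2 ≤ r ∧
    (∀ j' < x.2.2.1, H Y j' p.2 < x.1 * t) ∧ ‖U (x.1 * t) p.2 - Dd V x.2.2.1 p.2‖ ≤ r}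

/-- `G k` is decided by the letters up to the next own cuts above `(k + 7) t` and `k t`. -/
def GDet (Y : A → ℕ) (t : ℕ) (G : ℕ → Set ((ℕ → A) × (ℕ → A))) : Prop :=
  ∀ (k i j : ℕ) (p p' : (ℕ → A) × (ℕ → A)), (k + 7) * t ≤ H Y i p.1 → k * t ≤ H Y j p.2 →
    (∀ x < i, p.1 x = p'.1 x) → (∀ x < j, p.2 x = p'.2 x) → (p ∈ G k ↔ p' ∈ G k)

lemma det2_CK {Y : A → ℕ} {V : A → (Fin 2 → ℝ)} {U : ℕ → (ℕ → A) → (Fin 2 → ℝ)}
    (hU : ∀ (a b : ℕ → A) (i l : ℕ), l ≤ H Y i a → (∀ k < i, a k = b k) → U l a = U l b)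
    (t K M r : ℕ) {G : ℕ → Set ((ℕ → A) × (ℕ → A))} (hG : GDet Y t G)
    (x : ℕ × ℕ × ℕ × ℕ) : Det2 x.2.1 x.2.2.1 (CK Y V U t K M r G x) := by
  have main : ∀ p p' : (ℕ → A) × (ℕ → A), (∀ k < x.2.1, p.1 k = p'.1 k) →
      (∀ k < x.2.2.1, p.2 k = p'.2 k) → p ∈ CK Y V U t K M r G x →
      p' ∈ CK Y V U t K M r G x := by
    rintro p p' h1 h2 ⟨a1, a2, a3, a4, a5, a6, a7, a8, a9, a10, a11⟩
    have e1 : ∀ i ≤ x.2.1, H Y i p.1 = H Y i p'.1 :=
      fun i hi => H_congr fun k hk => h1 k (by omega)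
    have e2 : ∀ j ≤ x.2.2.1, H Y j p.2 = H Y j p'.2 :=
      fun i hi => H_congr fun k hk => h2 k (by omega)
    have u2 : U (x.1 * t) p.2 = U (x.1 * t) p'.2 := hU _ _ x.2.2.1 _ a7 h2
    have g : ∀ k ≤ x.1, (p ∈ G k ↔ p' ∈ G k) := by
      intro k hk
      exact hG k x.2.1 x.2.2.1 p p' (le_trans (Nat.mul_le_mul_right t (by omega)) a5)
        (le_trans (Nat.mul_le_mul_right t hk) a7) h1 h2
    refine ⟨a1, a2, (g _ le_rfl).1 a3, fun k' hk1 hk2 hg => a4 k' hk1 hk2 ((g k' hk2.le).2 hg),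
      ?_, ?_, ?_, ?_, a9, ?_, ?_⟩
    · rw [← e1 _ le_rfl]; exact a5
    · intro i' hi'; rw [← e1 _ hi'.le]; exact a6 i' hi'
    · rw [← e2 _ le_rfl]; exact a7
    · rw [← e2 _ le_rfl]; exact a8
    · intro j' hj'; rw [← e2 _ hj'.le]; exact a10 j' hj'
    · rw [← u2, ← Dd_congr h2]; exact a11
  intro p p' h1 h2
  exact ⟨main p p' h1 h2, main p' p (fun k hk => (h1 k hk).symm) fun k hk => (h2 k hk).symm⟩

lemma disj_CK (Y : A → ℕ) (V : A → (Fin 2 → ℝ)) (U : ℕ → (ℕ → A) → (Fin 2 → ℝ))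
    (t K M r : ℕ) (G : ℕ → Set ((ℕ → A) × (ℕ → A))) :
    Pairwise (Function.onFun Disjoint (CK Y V U t K M r G)) := by
  intro x x' hne
  rw [Function.onFun, Set.disjoint_left]
  rintro p ⟨a1, a2, a3, a4, a5, a6, a7, a8, a9, a10, a11⟩
    ⟨b1, b2, b3, b4, b5, b6, b7, b8, b9, b10, b11⟩
  apply hne
  have hk : x.1 = x'.1 := by
    rcases lt_trichotomy x.1 x'.1 with h | h | h
    · exact absurd a3 (b4 _ a1 h)
    · exact h
    · exact absurd b3 (a4 _ b1 h)
  have hi : x.2.1 = x'.2.1 := by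
    rcases lt_trichotomy x.2.1 x'.2.1 with h | h | h
    · have h1 := b6 _ h
      rw [← hk] at h1
      omega
    · exact h
    · have h1 := a6 _ h
      rw [hk] at h1
      omega
  have hj : x.2.2.1 = x'.2.2.1 := by
    rcases lt_trichotomy x.2.2.1 x'.2.2.1 with h | h | h
    · have h1 := b10 _ h
      rw [← hk] at h1
      omega
    · exact h
    · have h1 := a10 _ h
      rw [hk] at h1
      omega
  have hm : x.2.2.2 = x'.2.2.2 := by
    rw [hj, hk] at a8
    omega
  exact Prod.ext hk (Prod.ext hi (Prod.ext hj hm))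

lemma R0_mono (Y : A → ℕ) {m n : ℕ} (h : m ≤ n) (p : (ℕ → A) × (ℕ → A)) :
    RR Y m p ≤ RR Y n p :=
  Finset.sum_le_sum_of_subset (Finset.range_mono h)

/-- the bad event of `TightCut` -/
def BC (Y : A → ℕ) (V : A → (Fin 2 → ℝ)) (U : ℕ → (ℕ → A) → (Fin 2 → ℝ)) (r L : ℕ) :
    Set (ℕ → A) :=
  {a | ¬ (H Y (fi Y L a) a ≤ L + r ∧ ‖U L a - Dd V (fi Y L a) a‖ ≤ r)}

/-- the bad event of `CloseSum` -/
def BS (Y : A → ℕ) (V : A → (Fin 2 → ℝ)) (U : ℕ → (ℕ → A) → (Fin 2 → ℝ)) (h r l : ℕ) :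
    Set ((ℕ → A) × (ℕ → A)) :=
  {p | ¬ ∃ k, k ≤ RR Y k p ∧ RR Y k p ≤ l ∧
    l < RR Y k p + h ∧ ‖U l p.1 - U l p.2 - SS Y V k p‖ ≤ r}

lemma cover {Y : A → ℕ} (hY : ∀ a, 1 ≤ Y a) {V : A → (Fin 2 → ℝ)}
    {U : ℕ → (ℕ → A) → (Fin 2 → ℝ)}
    (hcov : ∀ (a : ℕ → A) (i l : ℕ), H Y i a ≤ l → U l a = Dd V i a + U (l - H Y i a) (sh i a))
    {t K M r h r' R N : ℕ} (hr : r ≤ t) (hr' : r' ≤ t) (hN : N = K * t) (h4 : 4 * h ≤ N)
    (hM : (M + 7) * t ≤ R * N) (hR : 1 ≤ R)
    {b : Fin 2 → Fin 2 → ℝ} {g : ℝ} {c y : Fin 2 → ℝ} (hg0 : 0 ≤ g)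
    (hg : ∀ i, ∀ x : Fin 2 → ℝ, |dot (b i) x| ≤ g * ‖x‖) (hgr : g * r ≤ 1 / 7)
    (hgr' : g * r' ≤ 1 / 7) :
    {p : (ℕ → A) × (ℕ → A) | ∃ k, K ≤ 2 * k ∧ k ≤ M ∧
        nb b (10 / 7) (U ((k + 7) * t) p.1 - U (k * t) p.2 - c - y)} ⊆
      (⋃ k ∈ Finset.range (M + 1), univ ×ˢ BC Y V U r (k * t)) ∪
      ((⋃ x : ℕ × ℕ × ℕ × ℕ, (CK Y V U t K M r
          (fun k => {p | nb b (10 / 7) (U ((k + 7) * t) p.1 - U (k * t) p.2 - c - y)}) x ∩
        sh2 x.2.1 x.2.2.1 ⁻¹' (univ ×ˢ {a | ¬ nb b (9 / 7) (U (7 * t - x.2.2.2) a - c)}))) ∪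
      ((⋃ k ∈ Finset.range (M + 1), BS Y V U h r' ((k + 7) * t)) ∪
      ({p | ∃ j, N ≤ R * j ∧ j ≤ R * N ∧ ∀ i, |dot (b i) (SS Y V j p - y)| ≤ 3} ∪
      {p | (N : ℝ) / 4 ≤ RR Y (N / R + 1) p}))) := by
  classical
  intro p hp
  obtain ⟨k1, k2, k3⟩ := Nat.find_spec hp
  have hfirst : ∀ k' < Nat.find hp, ¬ (K ≤ 2 * k' ∧ k' ≤ M ∧
      nb b (10 / 7) (U ((k' + 7) * t) p.1 - U (k' * t) p.2 - c - y)) :=
    fun k' hk' => Nat.find_min hp hk'
  generalize Nat.find hp = k at k1 k2 k3 hfirst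
  by_cases hb : p.2 ∈ BC Y V U r (k * t)
  · left
    simp only [mem_iUnion]
    exact ⟨k, Finset.mem_range.2 (by omega), trivial, hb⟩
  right
  simp only [BC, mem_ofPred_eq, not_not] at hb
  obtain ⟨hb1, hb2⟩ := hb
  have hj1 := fi_spec' hY (k * t) p.2
  have hi1 := fi_spec' hY ((k + 7) * t) p.1
  set j := fi Y (k * t) p.2 with hj
  set i := fi Y ((k + 7) * t) p.1 with hi
  obtain ⟨m, hm⟩ := Nat.exists_eq_add_of_le hj1
  have hmr : m ≤ r := by omega
  have hmem : p ∈ CK Y V U t K M r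
      (fun k => {p | nb b (10 / 7) (U ((k + 7) * t) p.1 - U (k * t) p.2 - c - y)})
      (k, i, j, m) := by
    refine ⟨k1, k2, k3, fun k' hk1 hk2 hg => hfirst k' hk2 ⟨hk1, ?_, hg⟩, hi1, ?_, hj1, hm, hmr,
      ?_, hb2⟩
    · change k' < k at hk2
      omega
    · exact fun i' hi' => fi_lt' hi'
    · exact fun j' hj' => fi_lt' hj'
  by_cases hf : nb b (9 / 7) (U (7 * t - m) (sh j p.2) - c)
  swap
  · left
    exact mem_iUnion.2 ⟨(k, i, j, m), hmem, trivial, hf⟩
  right
  have he : (k + 7) * t = k * t + 7 * t := by ring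
  have hle : H Y j p.2 ≤ (k + 7) * t := by omega
  have h1 := hcov p.2 j ((k + 7) * t) hle
  have h2 : (k + 7) * t - H Y j p.2 = 7 * t - m := by omega
  rw [h2] at h1
  have hn1 : nb b (1 / 7) (U (k * t) p.2 - Dd V j p.2) := nb_of_norm hg hg0 hgr hb2
  have hsame : nb b (20 / 7) (U ((k + 7) * t) p.1 - U ((k + 7) * t) p.2 - y) := by
    have h3 := nb_add (nb_add k3 hn1) (nb_neg hf)
    have h4 : (U ((k + 7) * t) p.1 - U (k * t) p.2 - c - y + (U (k * t) p.2 - Dd V j p.2)
        + -(U (7 * t - m) (sh j p.2) - c)) = U ((k + 7) * t) p.1 - U ((k + 7) * t) p.2 - y := by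
      rw [h1]; abel
    rw [h4] at h3
    exact nb_mono (by norm_num) h3
  by_cases hs : p ∈ BS Y V U h r' ((k + 7) * t)
  · left
    simp only [mem_iUnion]
    exact ⟨k, Finset.mem_range.2 (by omega), hs⟩
  right
  simp only [BS, mem_ofPred_eq, not_not] at hs
  obtain ⟨n, hn1, hn2, hn3, hn4⟩ := hs
  by_cases hRn : N ≤ R * n
  · left
    refine ⟨n, hRn, ?_, ?_⟩
    · have h5 : (k + 7) * t ≤ (M + 7) * t := Nat.mul_le_mul_right t (by omega)
      omega
    · have h6 : nb b (1 / 7) (U ((k + 7) * t) p.1 - U ((k + 7) * t) p.2 - SS Y V n p) :=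
        nb_of_norm hg hg0 hgr' hn4
      have h7 := nb_add hsame (nb_neg h6)
      have h8 : (U ((k + 7) * t) p.1 - U ((k + 7) * t) p.2 - y
          + -(U ((k + 7) * t) p.1 - U ((k + 7) * t) p.2 - SS Y V n p)) = SS Y V n p - y := by
        abel
      rw [h8] at h7
      exact nb_mono (by norm_num) h7
  · right
    push Not at hRn
    have h5 : n ≤ N / R := (Nat.le_div_iff_mul_le (by omega)).2 (by rw [mul_comm]; exact hRn.le)
    have h6 : RR Y n p ≤ RR Y (N / R + 1) p := R0_mono Y (by omega) p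
    have h7 : N ≤ 2 * (k * t) := by
      rw [hN]
      calc K * t ≤ (2 * k) * t := Nat.mul_le_mul_right t k1
        _ = 2 * (k * t) := by ring
    have h8 : N ≤ 4 * RR Y (N / R + 1) p := by omega
    have h9 : (N : ℝ) ≤ 4 * (RR Y (N / R + 1) p : ℝ) := by exact_mod_cast h8
    change (N : ℝ) / 4 ≤ RR Y (N / R + 1) p
    linarith

end det

variable {A : Type*} [MeasurableSpace A] [MeasurableSingletonClass A] [Countable A] [Inhabited A]

/-- restart along a countable disjoint family of determined events, with varying fresh events of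
small probability -/
theorem restart_le (μ : Measure A) [IsProbabilityMeasure μ] {ι : Type*} [Countable ι]
    (n m : ι → ℕ) (C : ι → Set ((ℕ → A) × (ℕ → A))) (hC : ∀ i, Det2 (n i) (m i) (C i))
    (hd : Pairwise (Function.onFun Disjoint C)) {B : ι → Set ((ℕ → A) × (ℕ → A))}
    (hB : ∀ i, MeasurableSet (B i)) {w : ℝ≥0∞}
    (hw : ∀ i, (C i).Nonempty → pairL μ (B i) ≤ w) :
    pairL μ (⋃ i, (C i ∩ sh2 (n i) (m i) ⁻¹' (B i))) ≤ w := by
  rw [measure_iUnion (fun q q' h => (hd h).mono inter_subset_left inter_subset_left)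
      (fun q => (hC q).measurableSet.inter (measurable_sh2 _ _ (hB q)))]
  calc ∑' i, pairL μ (C i ∩ sh2 (n i) (m i) ⁻¹' (B i))
      ≤ ∑' i, pairL μ (C i) * w := by
        refine ENNReal.tsum_le_tsum fun i => ?_
        rw [restart μ (hC i) (hB i)]
        rcases (C i).eq_empty_or_nonempty with h | h
        · rw [h, measure_empty, zero_mul, zero_mul]
        · gcongr
          exact hw i h
    _ = pairL μ (⋃ i, C i) * w := by
        rw [ENNReal.tsum_mul_right, measure_iUnion hd fun q => (hC q).measurableSet]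
    _ ≤ 1 * w := by gcongr; exact prob_le_one
    _ = w := one_mul w

/-- **Claim (Π)** -/
theorem claimPi (μ : Measure A) [IsProbabilityMeasure μ] {Y : A → ℕ} (hY : ∀ a, 1 ≤ Y a)
    {V : A → (Fin 2 → ℝ)} {U : ℕ → (ℕ → A) → (Fin 2 → ℝ)} (hpos : Pos Y V U)
    (hcs : CloseSum μ Y V U) (htc : TightCut μ Y V U) : ClaimPi μ Y V U := by
  intro η hη
  obtain ⟨h, r', hcs⟩ := hcs η hη
  obtain ⟨r, htc⟩ := htc η hη
  refine ⟨max r r', h, ?_⟩
  intro t K M R N b g w c y hrt hN h4 hM hR hg0 hg hgr hw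
  have hgr1 : g * r ≤ 1 / 7 := by
    refine le_trans ?_ hgr
    have : (r : ℝ) ≤ (max r r' : ℕ) := by exact_mod_cast le_max_left r r'
    exact mul_le_mul_of_nonneg_left this hg0
  have hgr2 : g * r' ≤ 1 / 7 := by
    refine le_trans ?_ hgr
    have : (r' : ℝ) ≤ (max r r' : ℕ) := by exact_mod_cast le_max_right r r'
    exact mul_le_mul_of_nonneg_left this hg0
  have hw0 : 0 ≤ w := le_trans measureReal_nonneg (hw 0 (Nat.zero_le _))
  have hnbm : ∀ (s : ℝ), MeasurableSet {x : Fin 2 → ℝ | nb b s x} := by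
    intro s
    have : {x : Fin 2 → ℝ | nb b s x} = ⋂ i, {x | |dot (b i) x| ≤ s} := by
      ext x; simp [nb]
    rw [this]
    refine MeasurableSet.iInter fun i => ?_
    have hd : Measurable fun x : Fin 2 → ℝ => dot (b i) x := by
      unfold dot
      exact Finset.measurable_sum _ fun j _ => measurable_const.mul (measurable_pi_apply j)
    exact measurableSet_le (by simpa [Real.norm_eq_abs] using hd.norm) measurable_const
  have hGdet : GDet Y t
      (fun k => {p : (ℕ → A) × (ℕ → A) |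
        nb b (10 / 7) (U ((k + 7) * t) p.1 - U (k * t) p.2 - c - y)}) := by
    intro k i j p p' h1 h2 h3 h4
    simp only [mem_ofPred_eq]
    rw [hpos.det p.1 p'.1 i _ h1 h3, hpos.det p.2 p'.2 j _ h2 h4]
  have hmid : pairL μ (⋃ x : ℕ × ℕ × ℕ × ℕ, (CK Y V U t K M r
          (fun k => {p | nb b (10 / 7) (U ((k + 7) * t) p.1 - U (k * t) p.2 - c - y)}) x ∩
        sh2 x.2.1 x.2.2.1 ⁻¹' (univ ×ˢ {a | ¬ nb b (9 / 7) (U (7 * t - x.2.2.2) a - c)})))
      ≤ ENNReal.ofReal w := by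
    refine restart_le μ (fun x : ℕ × ℕ × ℕ × ℕ => x.2.1) (fun x => x.2.2.1) _
      (det2_CK hpos.det t K M r hGdet) (disj_CK Y V U t K M r _)
      (B := fun x => (univ : Set (ℕ → A)) ×ˢ {a | ¬ nb b (9 / 7) (U (7 * t - x.2.2.2) a - c)})
      ?_ ?_
    · intro x
      refine MeasurableSet.univ.prod ?_
      have h1 : Measurable fun a : ℕ → A => U (7 * t - x.2.2.2) a - c :=
        (hpos.meas _).sub measurable_const
      exact (h1 (hnbm (9 / 7))).compl
    · rintro x ⟨p, hp⟩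
      have hmr : x.2.2.2 ≤ max r r' := le_trans hp.2.2.2.2.2.2.2.2.1 (le_max_left _ _)
      have h1 := hw _ hmr
      rw [Measure.prod_prod, measure_univ, one_mul]
      rw [← ENNReal.ofReal_toReal (measure_ne_top (iidL μ)
        {a | ¬ nb b (9 / 7) (U (7 * t - x.2.2.2) a - c)})]
      exact ENNReal.ofReal_le_ofReal h1
  have hmid' : (pairL μ).real (⋃ x : ℕ × ℕ × ℕ × ℕ, (CK Y V U t K M r
          (fun k => {p | nb b (10 / 7) (U ((k + 7) * t) p.1 - U (k * t) p.2 - c - y)}) x ∩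
        sh2 x.2.1 x.2.2.1 ⁻¹' (univ ×ˢ {a | ¬ nb b (9 / 7) (U (7 * t - x.2.2.2) a - c)}))) ≤ w :=
    ENNReal.toReal_le_of_le_ofReal hw0 hmid
  have hA : (pairL μ).real (⋃ k ∈ Finset.range (M + 1),
      (univ : Set (ℕ → A)) ×ˢ BC Y V U r (k * t)) ≤ (M + 1) * η := by
    refine (measureReal_biUnion_finset_le _ _).trans ?_
    calc _ ≤ ∑ _k ∈ Finset.range (M + 1), η := by
          refine Finset.sum_le_sum fun k _ => ?_
          rw [measureReal_def, Measure.prod_prod, measure_univ, one_mul]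
          exact htc (k * t)
      _ = (M + 1) * η := by
          rw [Finset.sum_const, Finset.card_range, nsmul_eq_mul]
          push_cast
          ring
  have hB : (pairL μ).real (⋃ k ∈ Finset.range (M + 1), BS Y V U h r' ((k + 7) * t))
      ≤ (M + 1) * η := by
    refine (measureReal_biUnion_finset_le _ _).trans ?_
    calc _ ≤ ∑ _k ∈ Finset.range (M + 1), η := Finset.sum_le_sum fun k _ => hcs _
      _ = (M + 1) * η := by
          rw [Finset.sum_const, Finset.card_range, nsmul_eq_mul]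
          push_cast
          ring
  have hcover := cover (A := A) hY (V := V) (U := U) hpos.cov (t := t) (K := K) (M := M) (r := r)
    (h := h) (r' := r') (R := R) (N := N) (le_trans (le_max_left _ _) hrt)
    (le_trans (le_max_right _ _) hrt) hN h4 hM hR (b := b) (g := g) (c := c) (y := y) hg0 hg
    hgr1 hgr2
  refine (measureReal_mono hcover (measure_ne_top _ _)).trans ?_
  refine (measureReal_union_le _ _).trans ?_
  have hu1 := measureReal_union_le (μ := pairL μ) (⋃ x : ℕ × ℕ × ℕ × ℕ, (CK Y V U t K M r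
          (fun k => {p | nb b (10 / 7) (U ((k + 7) * t) p.1 - U (k * t) p.2 - c - y)}) x ∩
        sh2 x.2.1 x.2.2.1 ⁻¹' (univ ×ˢ {a | ¬ nb b (9 / 7) (U (7 * t - x.2.2.2) a - c)})))
      ((⋃ k ∈ Finset.range (M + 1), BS Y V U h r' ((k + 7) * t)) ∪
      ({p | ∃ j, N ≤ R * j ∧ j ≤ R * N ∧ ∀ i, |dot (b i) (SS Y V j p - y)| ≤ 3} ∪
      {p | (N : ℝ) / 4 ≤ RR Y (N / R + 1) p}))
  have hu2 := measureReal_union_le (μ := pairL μ)
      (⋃ k ∈ Finset.range (M + 1), BS Y V U h r' ((k + 7) * t))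
      ({p | ∃ j, N ≤ R * j ∧ j ≤ R * N ∧ ∀ i, |dot (b i) (SS Y V j p - y)| ≤ 3} ∪
      {p | (N : ℝ) / 4 ≤ RR Y (N / R + 1) p})
  have hu3 := measureReal_union_le (μ := pairL μ)
      {p | ∃ j, N ≤ R * j ∧ j ≤ R * N ∧ ∀ i, |dot (b i) (SS Y V j p - y)| ≤ 3}
      {p | (N : ℝ) / 4 ≤ RR Y (N / R + 1) p}
  linarith

/-- `E[R₀] ≤ e` -/
lemma lintegral_R0_le (μ : Measure A) [IsProbabilityMeasure μ] {Y : A → ℕ} (hY : ∀ a, 1 ≤ Y a)
    (hg : pairL μ (Good Y)ᶜ = 0) :
    ∫⁻ p, (R0 Y p : ℝ≥0∞) ∂(pairL μ) ≤ ∑' m, pairL μ (NoCut Y m) := by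
  have h1 : ∀ p, (R0 Y p : ℝ≥0∞) = ∑' m : ℕ, if m < R0 Y p then 1 else 0 := by
    intro p
    rw [tsum_eq_sum (s := Finset.range (R0 Y p))]
    · rw [Finset.sum_congr rfl fun m hm => if_pos (Finset.mem_range.1 hm)]
      simp
    · intro m hm
      rw [if_neg (by simpa using hm)]
  simp_rw [h1]
  have hm : ∀ m : ℕ, MeasurableSet {p : (ℕ → A) × (ℕ → A) | m < R0 Y p} := fun m =>
    measurable_R0 hY (measurableSet_Ioi : MeasurableSet (Set.Ioi m))
  rw [lintegral_tsum fun m =>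
    (Measurable.ite (hm m) measurable_const measurable_const).aemeasurable]
  refine ENNReal.tsum_le_tsum fun m => ?_
  have h2 : ∀ p : (ℕ → A) × (ℕ → A), (if m < R0 Y p then (1 : ℝ≥0∞) else 0)
      = {p | m < R0 Y p}.indicator 1 p := by
    intro p
    by_cases h : m < R0 Y p
    · rw [if_pos h, Set.indicator_of_mem (show p ∈ {p | m < R0 Y p} from h)]; rfl
    · rw [if_neg h, Set.indicator_of_notMem (show p ∉ {p | m < R0 Y p} from h)]
  simp_rw [h2]
  rw [lintegral_indicator_one (hm m), ← measure_inter_conull hg]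
  refine measure_mono ?_
  rintro p ⟨hp, hpg⟩ l hl1 hl2
  exact fst_nocut hY (mem_fst_idx hY hpg) hl1 (lt_of_le_of_lt hl2 hp)


end Crest.Agent.R154.J132
end

-- ▼ part R154/Center_818
section

/-!
Row 154, B4: centres by Fubini.
-/

open MeasureTheory ProbabilityTheory Set
open scoped BigOperators ENNReal NNReal

namespace Crest.Agent.R154.Center818

/-- **Centre by Fubini**: if the difference of two independent copies is in `K` with probability
at least `1 - q`, then one copy is in `c + K` with probability at least `1 - q` for some `c`. -/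
theorem exists_center {V : Type*} [AddGroup V] [MeasurableSpace V] [MeasurableSub₂ V]
    (ν : Measure V) [IsProbabilityMeasure ν] {K : Set V} (hK : MeasurableSet K) {q : ℝ≥0∞}
    (h : (ν.prod ν) {p : V × V | p.1 - p.2 ∉ K} ≤ q) : ∃ c : V, ν {u | u - c ∉ K} ≤ q := by
  have hm : MeasurableSet {p : V × V | p.1 - p.2 ∉ K} := (measurable_fst.sub measurable_snd) hK.compl
  rw [Measure.prod_apply_symm hm] at h
  obtain ⟨c, hc⟩ := exists_le_lintegral (μ := ν)
    (f := fun c => ν ((fun x => (x, c)) ⁻¹' {p : V × V | p.1 - p.2 ∉ K}))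
    (measurable_measure_prodMk_right hm).aemeasurable
  exact ⟨c, hc.trans h⟩

/-- the same on two arbitrary probability spaces with a measurable map -/
theorem exists_center_map {Ω V : Type*} [MeasurableSpace Ω] [AddGroup V] [MeasurableSpace V]
    [MeasurableSub₂ V] (P : Measure Ω) [IsProbabilityMeasure P] {U : Ω → V} (hU : Measurable U)
    {K : Set V} (hK : MeasurableSet K) {q : ℝ≥0∞}
    (h : (P.prod P) {p : Ω × Ω | U p.1 - U p.2 ∉ K} ≤ q) : ∃ c : V, P {ω | U ω - c ∉ K} ≤ q := by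
  have := Measure.isProbabilityMeasure_map (μ := P) hU.aemeasurable
  have hm : MeasurableSet {p : V × V | p.1 - p.2 ∉ K} := (measurable_fst.sub measurable_snd) hK.compl
  obtain ⟨c, hc⟩ := exists_center (P.map U) hK (q := q) (by
    rw [Measure.map_prod_map P P hU hU, Measure.map_apply (hU.prodMap hU) hm]
    exact h)
  refine ⟨c, ?_⟩
  have hm2 : MeasurableSet {u : V | u - c ∉ K} := (measurable_id.sub_const c) hK.compl
  rwa [Measure.map_apply hU hm2] at hc


end Crest.Agent.R154.Center818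
end

-- ▼ part R154/JU_818
section

/-! Row 154, B4 trunk side: Claim (U): the displacement of one walker over `7t` levels. -/

set_option autoImplicit false
set_option linter.unusedSectionVars false

namespace Crest.Agent.R154.J132

open MeasureTheory ProbabilityTheory Filter Topology Set
open Crest.Agent.R154.Conc412 (dot)
open scoped ENNReal

lemma measurableSet_nb818 (b : Fin 2 → Fin 2 → ℝ) (s : ℝ) :
    MeasurableSet {x : Fin 2 → ℝ | nb b s x} := by
  have : {x : Fin 2 → ℝ | nb b s x} = ⋂ i, {x | |dot (b i) x| ≤ s} := by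
    ext x; simp [nb]
  rw [this]
  refine MeasurableSet.iInter fun i => ?_
  have hd : Measurable fun x : Fin 2 → ℝ => dot (b i) x := by
    unfold dot
    exact Finset.measurable_sum _ fun j _ => measurable_const.mul (measurable_pi_apply j)
  exact measurableSet_le (by simpa [Real.norm_eq_abs] using hd.norm) measurable_const

variable {A : Type*} [MeasurableSpace A] [MeasurableSingletonClass A] [Countable A] [Inhabited A]

/-- the family of events `first cut above L has index j and height L + m`. -/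
def CU818 (Y : A → ℕ) (L r : ℕ) (x : ℕ × ℕ) : Set ((ℕ → A) × (ℕ → A)) :=
  {p | x.2 ≤ r ∧ fi Y L p.1 = x.1 ∧ H Y x.1 p.1 = L + x.2}

/-- **Claim (U)** -/
theorem claimU (μ : Measure A) [IsProbabilityMeasure μ] {Y : A → ℕ} (hY : ∀ a, 1 ≤ Y a)
    {V : A → (Fin 2 → ℝ)} {U : ℕ → (ℕ → A) → (Fin 2 → ℝ)} (hpos : Pos Y V U)
    (hcs : CloseSum μ Y V U) (htc : TightCut μ Y V U) (hti : TightInc μ U) :
    ClaimU μ Y V U := by
  intro η hη r₂
  obtain ⟨h, r₁, hcs⟩ := hcs η hη
  obtain ⟨rT, htc⟩ := htc η hη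
  choose ri hri using hti η hη
  -- the constant
  set M := max r₂ rT with hM
  set rI := ∑ m ∈ Finset.range (M + 1), ri m with hrI
  refine ⟨r₁ + rT + M + rI, ?_⟩
  intro t ht b g v hg0 hg hgr hv
  have hle : ∀ n : ℕ, n ≤ r₁ + rT + M + rI → g * n ≤ 1 / 7 := by
    intro n hn
    refine le_trans ?_ hgr
    have : (n : ℝ) ≤ ((r₁ + rT + M + rI : ℕ) : ℝ) := by exact_mod_cast hn
    exact mul_le_mul_of_nonneg_left this hg0
  have hv0 : 0 ≤ v := measureReal_nonneg.trans hv
  have hmU : ∀ (n : ℕ) (c : Fin 2 → ℝ) (s : ℝ), MeasurableSet {a : ℕ → A | ¬ nb b s (U n a - c)} :=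
    fun n c s => (((hpos.meas n).sub measurable_const) (measurableSet_nb818 b s)).compl
  -- (i)
  have h1 : (pairL μ).real {p | ¬ nb b (8 / 7) (U (7 * t) p.1 - U (7 * t) p.2)} ≤ v + η := by
    have hsub : {p : (ℕ → A) × (ℕ → A) | ¬ nb b (8 / 7) (U (7 * t) p.1 - U (7 * t) p.2)} ⊆
        {p | ∃ j ≤ 7 * t, ∃ i, 1 < |dot (b i) (SS Y V j p)|} ∪
        {p | ¬ ∃ k, k ≤ RR Y k p ∧ RR Y k p ≤ 7 * t ∧
          7 * t < RR Y k p + h ∧ ‖U (7 * t) p.1 - U (7 * t) p.2 - SS Y V k p‖ ≤ r₁} := by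
      intro p hp
      by_contra hc
      rw [mem_union, not_or] at hc
      obtain ⟨c1, c2⟩ := hc
      simp only [mem_ofPred_eq, not_exists, not_and, not_lt] at c1
      simp only [mem_ofPred_eq, not_not] at c2
      obtain ⟨k, k1, k2, k3, k4⟩ := c2
      apply hp
      have h2 : nb b (1 / 7) (U (7 * t) p.1 - U (7 * t) p.2 - SS Y V k p) :=
        nb_of_norm hg hg0 (hle r₁ (by omega)) k4
      have h3 : nb b 1 (SS Y V k p) := fun i => c1 k (k1.trans k2) i
      have h4 := nb_add h3 h2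
      rw [add_sub_cancel] at h4
      exact nb_mono (by norm_num) h4
    refine (measureReal_mono hsub (measure_ne_top _ _)).trans
      ((measureReal_union_le _ _).trans (add_le_add hv (hcs _)))
  -- (ii)
  obtain ⟨c, hc⟩ : ∃ c : Fin 2 → ℝ, (iidL μ).real {a | ¬ nb b (8 / 7) (U (7 * t) a - c)} ≤ v + η := by
    obtain ⟨c, hc⟩ := Center818.exists_center_map (iidL μ) (hpos.meas (7 * t))
      (measurableSet_nb818 b (8 / 7)) (q := ENNReal.ofReal (v + η)) (by
        have h2 : pairL μ {p : (ℕ → A) × (ℕ → A) | ¬ nb b (8 / 7) (U (7 * t) p.1 - U (7 * t) p.2)}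
            ≤ ENNReal.ofReal (v + η) := by
          rw [← ENNReal.ofReal_toReal (measure_ne_top (pairL μ) _)]
          exact ENNReal.ofReal_le_ofReal h1
        exact h2)
    exact ⟨c, ENNReal.toReal_le_of_le_ofReal (by linarith) hc⟩
  -- (iii)
  have h3 : ∀ m ≤ M, (iidL μ).real {a | ¬ nb b (9 / 7) (U (7 * t - m) a - c)} ≤ v + 2 * η := by
    intro m hm
    have hm7 : m ≤ 7 * t := by omega
    have hsub : {a : ℕ → A | ¬ nb b (9 / 7) (U (7 * t - m) a - c)} ⊆
        {a | ¬ nb b (8 / 7) (U (7 * t) a - c)} ∪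
        {a | (ri m : ℝ) < ‖U (7 * t - m + m) a - U (7 * t - m) a‖} := by
      intro a ha
      by_contra hcc
      simp only [mem_union, mem_ofPred_eq, not_or, not_not, not_lt] at hcc
      obtain ⟨c1, c2⟩ := hcc
      apply ha
      rw [Nat.sub_add_cancel hm7] at c2
      have hrm : ri m ≤ rI := Finset.single_le_sum (f := ri) (fun _ _ => Nat.zero_le _)
        (Finset.mem_range.2 (by omega))
      have h4 : nb b (1 / 7) (U (7 * t) a - U (7 * t - m) a) :=
        nb_of_norm hg hg0 (hle (ri m) (by omega)) c2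
      have h5 := nb_add c1 (nb_neg h4)
      have h6 : U (7 * t) a - c + -(U (7 * t) a - U (7 * t - m) a) = U (7 * t - m) a - c := by abel
      rw [h6] at h5
      exact nb_mono (by norm_num) h5
    refine (measureReal_mono hsub (measure_ne_top _ _)).trans
      ((measureReal_union_le _ _).trans ?_)
    have := hri m (7 * t - m)
    linarith
  refine ⟨c, fun m hm => h3 m (hm.trans (le_max_left _ _)), fun L => ?_⟩
  -- (iv)
  have hdet : ∀ x : ℕ × ℕ, Det2 x.1 0 (CU818 Y L rT x) := by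
    have main : ∀ (x : ℕ × ℕ) (p p' : (ℕ → A) × (ℕ → A)), (∀ k < x.1, p.1 k = p'.1 k) →
        p ∈ CU818 Y L rT x → p' ∈ CU818 Y L rT x := by
      rintro x p p' h1 ⟨a1, a2, a3⟩
      exact ⟨a1, fi_congr hY a2 h1, by rw [← H_congr h1]; exact a3⟩
    exact fun x p p' h1 _ => ⟨main x p p' h1, main x p' p fun k hk => (h1 k hk).symm⟩
  have hdisj : Pairwise (Function.onFun Disjoint (CU818 Y L rT)) := by
    intro x x' hne
    rw [Function.onFun, Set.disjoint_left]
    rintro p ⟨a1, a2, a3⟩ ⟨b1, b2, b3⟩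
    apply hne
    have e1 : x.1 = x'.1 := a2.symm.trans b2
    have e2 : x.2 = x'.2 := by rw [e1] at a3; omega
    exact Prod.ext e1 e2
  have hmid : pairL μ (⋃ x : ℕ × ℕ, (CU818 Y L rT x ∩
      sh2 x.1 0 ⁻¹' ({a | ¬ nb b (9 / 7) (U (7 * t - x.2) a - c)} ×ˢ (univ : Set (ℕ → A)))))
      ≤ ENNReal.ofReal (v + 2 * η) := by
    refine restart_le μ (fun x : ℕ × ℕ => x.1) (fun _ => 0) _ hdet hdisj
      (B := fun x => {a | ¬ nb b (9 / 7) (U (7 * t - x.2) a - c)} ×ˢ (univ : Set (ℕ → A)))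
      (fun x => (hmU _ c _).prod MeasurableSet.univ) ?_
    rintro x ⟨p, hp⟩
    have h4 := h3 x.2 (hp.1.trans (le_max_right _ _))
    rw [Measure.prod_prod, measure_univ, mul_one]
    rw [← ENNReal.ofReal_toReal (measure_ne_top (iidL μ) _)]
    exact ENNReal.ofReal_le_ofReal h4
  have hmid' := ENNReal.toReal_le_of_le_ofReal (by linarith : (0:ℝ) ≤ v + 2 * η) hmid
  rw [← pair_fst_real]
  have hsub : {p : (ℕ → A) × (ℕ → A) | p.1 ∈ {a | ¬ nb b (10 / 7) (U (L + 7 * t) a - U L a - c)}} ⊆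
      {p | p.1 ∈ {a | ¬ (H Y (fi Y L a) a ≤ L + rT ∧ ‖U L a - Dd V (fi Y L a) a‖ ≤ rT)}} ∪
      (⋃ x : ℕ × ℕ, (CU818 Y L rT x ∩
      sh2 x.1 0 ⁻¹' ({a | ¬ nb b (9 / 7) (U (7 * t - x.2) a - c)} ×ˢ (univ : Set (ℕ → A))))) := by
    intro p hp
    by_contra hcc
    simp only [mem_union, not_or] at hcc
    obtain ⟨c1, c2⟩ := hcc
    simp only [mem_ofPred_eq, not_not] at c1
    obtain ⟨c3, c4⟩ := c1
    have hspec := fi_spec hY L p.1
    obtain ⟨m, hm⟩ := Nat.exists_eq_add_of_le hspec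
    have hmr : m ≤ rT := by omega
    have hnb : nb b (9 / 7) (U (7 * t - m) (sh (fi Y L p.1) p.1) - c) := by
      by_contra hn
      apply c2
      rw [mem_iUnion]
      exact ⟨(fi Y L p.1, m), ⟨hmr, rfl, hm⟩, hn, trivial⟩
    apply hp
    have hle2 : H Y (fi Y L p.1) p.1 ≤ L + 7 * t := by omega
    have h4 := hpos.cov p.1 (fi Y L p.1) (L + 7 * t) hle2
    have h5 : L + 7 * t - H Y (fi Y L p.1) p.1 = 7 * t - m := by omega
    rw [h5] at h4
    have h6 : nb b (1 / 7) (U L p.1 - Dd V (fi Y L p.1) p.1) :=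
      nb_of_norm hg hg0 (hle rT (by omega)) c4
    have h7 := nb_add (nb_neg h6) hnb
    have h8 : -(U L p.1 - Dd V (fi Y L p.1) p.1) + (U (7 * t - m) (sh (fi Y L p.1) p.1) - c)
        = U (L + 7 * t) p.1 - U L p.1 - c := by
      rw [h4]; abel
    rw [h8] at h7
    exact nb_mono (by norm_num) h7
  refine (measureReal_mono hsub (measure_ne_top _ _)).trans
    ((measureReal_union_le _ _).trans ?_)
  rw [pair_fst_real]
  have h9 := htc L
  have h10 : (pairL μ).real (⋃ x : ℕ × ℕ, (CU818 Y L rT x ∩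
      sh2 x.1 0 ⁻¹' ({a | ¬ nb b (9 / 7) (U (7 * t - x.2) a - c)} ×ˢ (univ : Set (ℕ → A)))))
      ≤ v + 2 * η := hmid'
  linarith

end Crest.Agent.R154.J132
end

-- ▼ part R154/JBind4_132

/-! Row 154, B4 trunk side, binding part 4: from letters to the marked walk; `KB424.Trunk`. -/

set_option autoImplicit false
set_option linter.unusedSectionVars false
set_option linter.deprecated false

namespace Crest.Agent.R154.J132

open MeasureTheory ProbabilityTheory Filter Set Crest.ProbabilityR.RandomEnvironment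
open Crest.Agent.R154.Mk561 Crest.Agent.R154.Bind263 Crest.Agent.R154.B4Inst797
open Crest.Agent.R154.Ren263 (Word pre hgt Stay Record len_pre hgt_zero hgt_shift Det
  measurableSet_Stay)
open Crest.Agent.R154.RenG263 (RecSys Reg tau tau_spec tau_min blk0 blks RegInf rest_mem reg_shift
  wordLaw RenewalG Climb det_Climb climb_hgt measurable_blks wordLaw_apply)
open Crest.Agent.R154.KB424 (Up NS NoCutW Trunk)
open scoped ENNReal Topology

theorem sumRTail' {A : Type*} [MeasurableSpace A] [MeasurableSingletonClass A] [Countable A]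
    [Inhabited A] (μ : Measure A) [IsProbabilityMeasure μ] {Y : A → ℕ}
    (hY : ∀ a, 1 ≤ Y a) (hs : ∑' m, pairL μ (NoCut Y m) ≠ ⊤) :
    SumRTail μ Y (∑' m, pairL μ (NoCut Y m)).toReal := by
  intro n x hx
  set S : ℝ≥0∞ := ∑' m, pairL μ (NoCut Y m) with hS
  have hg : pairL μ (Good Y)ᶜ = 0 := good_ae μ hY (noCut_tendsto' μ hs)
  have hR : ∀ i : ℕ, Measurable fun p : (ℕ → A) × (ℕ → A) => (R0 Y ((rest Y)^[i] p) : ℝ≥0∞) :=
    fun i => (measurable_of_countable (fun n : ℕ => (n : ℝ≥0∞))).comp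
      ((measurable_R0 hY).comp ((measurable_rest hY).iterate i))
  have h1 : ∫⁻ p, (RR Y n p : ℝ≥0∞) ∂(pairL μ) ≤ n * S := by
    have h2 : ∀ p : (ℕ → A) × (ℕ → A), (RR Y n p : ℝ≥0∞)
        = ∑ i ∈ Finset.range n, (R0 Y ((rest Y)^[i] p) : ℝ≥0∞) := by
      intro p; unfold RR; push_cast; rfl
    simp_rw [h2]
    rw [lintegral_finsetSum _ fun i _ => hR i]
    calc _ ≤ ∑ _i ∈ Finset.range n, S := by
          refine Finset.sum_le_sum fun i _ => ?_
          have h3 := ((preserving_rest μ hY hg).iterate i).lintegral_comp (f := fun p =>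
            (R0 Y p : ℝ≥0∞)) ((measurable_of_countable (fun n : ℕ => (n : ℝ≥0∞))).comp
              (measurable_R0 hY))
          rw [h3]
          exact lintegral_R0_le μ hY hg
      _ = n * S := by rw [Finset.sum_const, Finset.card_range, nsmul_eq_mul]
  have hRm : Measurable fun p : (ℕ → A) × (ℕ → A) => (RR Y n p : ℝ≥0∞) := by
    have h2 : (fun p : (ℕ → A) × (ℕ → A) => (RR Y n p : ℝ≥0∞))
        = fun p => ∑ i ∈ Finset.range n, (R0 Y ((rest Y)^[i] p) : ℝ≥0∞) := by
      funext p; unfold RR; push_cast; rfl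
    rw [h2]
    exact Finset.measurable_sum _ fun i _ => hR i
  have h3 := mul_meas_ge_le_lintegral₀ (μ := pairL μ) hRm.aemeasurable (ENNReal.ofReal x)
  have h4 : {p : (ℕ → A) × (ℕ → A) | x ≤ (RR Y n p : ℝ)}
      = {p | ENNReal.ofReal x ≤ (RR Y n p : ℝ≥0∞)} := by
    ext p
    simp only [mem_setOf_eq]
    rw [← ENNReal.ofReal_natCast, ENNReal.ofReal_le_ofReal_iff (Nat.cast_nonneg _)]
  rw [h4, le_div_iff₀ hx, measureReal_def]
  have h5 : (ENNReal.ofReal x * pairL μ {p | ENNReal.ofReal x ≤ (RR Y n p : ℝ≥0∞)}).toReal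
      ≤ (n * S : ℝ≥0∞).toReal := by
    refine ENNReal.toReal_mono ?_ (h3.trans h1)
    exact ENNReal.mul_ne_top (by simp) hs
  rw [ENNReal.toReal_mul, ENNReal.toReal_mul, ENNReal.toReal_ofReal hx.le,
    ENNReal.toReal_natCast] at h5
  linarith

variable {d : ℕ} {u : Step d} {κ : ℝ} {R : ℕ} {Q : Measure (Environment d)}
  [IsProbabilityMeasure Q]

/-- the position process of the letters -/
noncomputable abbrev UW (u : Step d) (i1 i2 : Fin d) : ℕ → (ℕ → Word (Mark d)) → (Fin 2 → ℝ) :=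
  Uf (Yw u) (Vw i1 i2) (Iw u i1 i2)

theorem posW (u : Step d) (i1 i2 : Fin d) : Pos (Yw u) (Vw i1 i2) (UW u i1 i2) :=
  pos_Uf (one_le_Yw u) (Vw i1 i2) (Iw_zero u i1 i2)

/-- **the trunk statement for the letters of the walk** -/
theorem trunkOutW (F : Frame Q κ R) (hA : annealedProb Q 0 (escapeEvent (B2d.dirVec u)) ≠ 0)
    {i1 i2 : Fin d} (h1 : i1 ≠ u.1) (h2 : i2 ≠ u.1) (h12 : i1 ≠ i2)
    (hcU : ClaimU (muW Q κ R u) (Yw u) (Vw i1 i2) (UW u i1 i2)) :
    TrunkOut (muW Q κ R u) (Yw u) (UW u i1 i2) := by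
  have := probW F hA
  have hs := sum_noCut_ne_top F hA
  have hg : pairL (muW Q κ R u) (Good (Yw u))ᶜ = 0 :=
    good_ae _ (one_le_Yw u) (noCut_tendsto' _ hs)
  have ht := tendsto_tl' (muW Q κ R u) hs
  have hpos := posW u i1 i2
  have hcs := closeSum (muW Q κ R u) (one_le_Yw u) ht hpos hg
  have htc := tightCut (muW Q κ R u) (one_le_Yw u) ht hpos
  exact trunkOut (muW Q κ R u) (one_le_Yw u) hg (body F hA h1 h2 h12) hcU
    (claimPi (muW Q κ R u) (one_le_Yw u) hpos hcs htc)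
    (cutWindow (muW Q κ R u) (one_le_Yw u) ht) ENNReal.toReal_nonneg
    (sumRTail' (muW Q κ R u) (one_le_Yw u) hs)

/-! ### heights of 833 and 797 agree -/

lemma lev_eq_zht (m : Mark d) : Flux132.lev u (stp m) = zht u m := by
  obtain ⟨⟨f1, f2⟩, b⟩ := m
  obtain ⟨u1, u2⟩ := u
  unfold Flux132.lev zht stp stepVec
  by_cases h : f1 = u1
  · subst h
    cases u2 <;> cases f2 <;> simp
  · have h' : u1 ≠ f1 := fun h' => h h'.symm
    cases u2 <;> cases f2 <;> simp [h, h']

lemma zt_eq (M : MPath d) (n : ℕ) : B6I.zt u M n = zh u M n := by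
  unfold B6I.zt zh
  exact Finset.sum_congr rfl fun i _ => lev_eq_zht (M i)

lemma hit_iff' (l : ℕ) (M : MPath d) (n : ℕ) : B6I.Hit u l M n ↔ Hit u l n M := by
  unfold B6I.Hit B4Inst797.Hit
  simp only [zt_eq]

lemma NS_eq : NS u = Stay (mht (B2d.dirVec u)) := by
  ext M
  rw [stay_zh]
  simp only [NS, mem_setOf_eq, zt_eq]

/-! ### from the marked walk to letters -/

lemma lat_sub' (i1 i2 : Fin d) (y z : Site d) : lat i1 i2 (y - z) = lat i1 i2 y - lat i1 i2 z := by
  have := lat_add i1 i2 (y - z) z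
  rw [sub_add_cancel] at this
  rw [this]
  exact (add_sub_cancel_right _ _).symm

lemma exists_hit_regInf {s : MPath d} (hs : s ∈ RegInf (rhoU u κ R)) (l : ℕ) :
    ∃ n, Hit u l n s := by
  obtain ⟨n, hn, _⟩ := cut_hit hs l
  obtain ⟨k, _, hk⟩ := exists_hit (u := u) (l := l) (s := s) (N := n) (by
    rw [hn.1]
    exact_mod_cast le_H (one_le_Yw u) l _)
  exact ⟨k, hk⟩

lemma lat_Up (i1 i2 : Fin d) {s : MPath d} (hs : s ∈ RegInf (rhoU u κ R)) (l : ℕ) :
    lat i1 i2 (Up u l s) = UW u i1 i2 l (blks (rhoU u κ R) s) := by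
  obtain ⟨n, hn⟩ := exists_hit_regInf hs l
  have h0 : UU u i1 i2 l s = UW u i1 i2 l (blks (rhoU u κ R) s) := Uf_congr_ge i1 i2 hs
  rw [← h0, (hit_eq i1 i2 hn).2]
  unfold Up
  rw [B6I.hn_eq ((hit_iff' l s n).2 hn)]

lemma restrict_eq (F : Frame Q κ R) (hA : annealedProb Q 0 (escapeEvent (B2d.dirVec u)) ≠ 0) :
    (mkAnn κ Q 0).restrict (NS u) = mkAnn κ Q 0 (NS u) • stL Q κ u := by
  rw [NS_eq]
  unfold stL ProbabilityTheory.cond
  rw [smul_smul, ENNReal.mul_inv_cancel (F.hp _ hA) (measure_ne_top _ _), one_smul]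

lemma le_ofReal_of_real {Ω : Type*} [MeasurableSpace Ω] (μ : Measure Ω) [IsFiniteMeasure μ]
    {C : Set Ω} {v : ℝ} (h : μ.real C ≤ v) : μ C ≤ ENNReal.ofReal v := by
  rw [← ENNReal.ofReal_toReal (measure_ne_top μ C)]
  exact ENNReal.ofReal_le_ofReal h

theorem pull1 (F : Frame Q κ R) (hA : annealedProb Q 0 (escapeEvent (B2d.dirVec u)) ≠ 0)
    {B : Set (MPath d)} {C : Set (ℕ → Word (Mark d))} (hC : MeasurableSet C)
    (h : ∀ s ∈ RegInf (rhoU u κ R), s ∈ B → blks (rhoU u κ R) s ∈ C) {v : ℝ}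
    (hv : (iidL (muW Q κ R u)).real C ≤ v) :
    mkAnn κ Q 0 {M | M ∈ NS u ∧ M ∈ B} ≤ ENNReal.ofReal v := by
  have := probW F hA
  have hSm : MeasurableSet (NS u) := by rw [NS_eq]; exact measurableSet_Stay _
  have e1 : mkAnn κ Q 0 {M | M ∈ NS u ∧ M ∈ B} = ((mkAnn κ Q 0).restrict (NS u)) B := by
    rw [Measure.restrict_apply' hSm]
    congr 1
    ext M; simp only [mem_setOf_eq, mem_inter_iff]; tauto
  rw [e1, restrict_eq F hA, Measure.smul_apply, smul_eq_mul]
  calc mkAnn κ Q 0 (NS u) * stL Q κ u B ≤ 1 * stL Q κ u B := by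
        gcongr
        exact prob_le_one
    _ = stL Q κ u B := one_mul _
    _ ≤ stL Q κ u (blks (rhoU u κ R) ⁻¹' C) := by
        refine measure_mono_ae ?_
        filter_upwards [ae_regInfU F hA] with s hs hsB
        exact h s hs hsB
    _ = iidL (muW Q κ R u) C := by
        rw [← map_blksU F hA, Measure.map_apply (measurable_blks _) hC]
    _ ≤ ENNReal.ofReal v := le_ofReal_of_real _ hv

theorem pull2 (F : Frame Q κ R) (hA : annealedProb Q 0 (escapeEvent (B2d.dirVec u)) ≠ 0)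
    {B : Set (MPath d × MPath d)} {C : Set ((ℕ → Word (Mark d)) × (ℕ → Word (Mark d)))}
    (hC : MeasurableSet C)
    (h : ∀ p : MPath d × MPath d, p.1 ∈ RegInf (rhoU u κ R) → p.2 ∈ RegInf (rhoU u κ R) → p ∈ B →
      (blks (rhoU u κ R) p.1, blks (rhoU u κ R) p.2) ∈ C) {v : ℝ}
    (hv : (pairL (muW Q κ R u)).real C ≤ v) :
    ((mkAnn κ Q 0).prod (mkAnn κ Q 0)) {p | p.1 ∈ NS u ∧ p.2 ∈ NS u ∧ p ∈ B}
      ≤ ENNReal.ofReal v := by
  have := probW F hA
  have hp : mkAnn κ Q 0 (Stay (mht (B2d.dirVec u))) ≠ 0 := F.hp _ hA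
  have hst : IsProbabilityMeasure (stL Q κ u) := cond_isProbabilityMeasure hp
  have hSm : MeasurableSet (NS u) := by rw [NS_eq]; exact measurableSet_Stay _
  have e1 : ((mkAnn κ Q 0).prod (mkAnn κ Q 0)) {p | p.1 ∈ NS u ∧ p.2 ∈ NS u ∧ p ∈ B}
      = (((mkAnn κ Q 0).restrict (NS u)).prod ((mkAnn κ Q 0).restrict (NS u))) B := by
    rw [Measure.prod_restrict, Measure.restrict_apply' (hSm.prod hSm)]
    congr 1
    ext p; simp only [mem_setOf_eq, mem_inter_iff, mem_prod]; tauto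
  have hm : Measurable (blks (rhoU u κ R)) := measurable_blks _
  rw [e1, restrict_eq F hA, Measure.prod_smul_left, Measure.prod_smul_right, smul_smul,
    Measure.smul_apply, smul_eq_mul]
  calc mkAnn κ Q 0 (NS u) * mkAnn κ Q 0 (NS u) * ((stL Q κ u).prod (stL Q κ u)) B
      ≤ 1 * 1 * ((stL Q κ u).prod (stL Q κ u)) B := by
        gcongr
        · exact prob_le_one
        · exact prob_le_one
    _ = ((stL Q κ u).prod (stL Q κ u)) B := by rw [one_mul, one_mul]
    _ ≤ ((stL Q κ u).prod (stL Q κ u))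
        (Prod.map (blks (rhoU u κ R)) (blks (rhoU u κ R)) ⁻¹' C) := by
        refine measure_mono_ae ?_
        have h1 := Measure.quasiMeasurePreserving_fst (μ := stL Q κ u) (ν := stL Q κ u)
          |>.ae (ae_regInfU F hA)
        have h2 := Measure.quasiMeasurePreserving_snd (μ := stL Q κ u) (ν := stL Q κ u)
          |>.ae (ae_regInfU F hA)
        filter_upwards [h1, h2] with p hp1 hp2 hpB
        exact h p hp1 hp2 hpB
    _ = pairL (muW Q κ R u) C := by
        rw [pairL, ← map_blksU F hA, Measure.map_prod_map _ _ hm hm,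
          Measure.map_apply (hm.prodMap hm) hC]
    _ ≤ ENNReal.ofReal v := le_ofReal_of_real _ hv

/-- **THE TRUNK INPUT OF B4** (424's literal), every frame, two lateral directions. -/
theorem trunk (F : Frame Q κ R) (hA : annealedProb Q 0 (escapeEvent (B2d.dirVec u)) ≠ 0)
    {i1 i2 : Fin d} (h1 : i1 ≠ u.1) (h2 : i2 ≠ u.1) (h12 : i1 ≠ i2) : Trunk u κ Q := by
  have hprob := probW F hA
  have hs := sum_noCut_ne_top F hA
  have hg : pairL (muW Q κ R u) (Good (Yw u))ᶜ = 0 :=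
    good_ae _ (one_le_Yw u) (noCut_tendsto' _ hs)
  have ht := tendsto_tl' (muW Q κ R u) hs
  have hpos := posW u i1 i2
  have hT : TrunkOut (muW Q κ R u) (Yw u) (UW u i1 i2) := trunkOutW F hA h1 h2 h12
    (claimU (muW Q κ R u) (one_le_Yw u) hpos (closeSum (muW Q κ R u) (one_le_Yw u) ht hpos hg)
      (tightCut (muW Q κ R u) (one_le_Yw u) ht hpos) (tightInc (muW Q κ R u) (one_le_Yw u) ht hpos))
  intro ε hε
  set ε' : ℝ := (min ε 1).toReal with hε'
  have hmin : min ε 1 ≠ ⊤ := ne_top_of_le_ne_top ENNReal.one_ne_top (min_le_right _ _)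
  have hε'0 : 0 < ε' :=
    ENNReal.toReal_pos (lt_min (pos_iff_ne_zero.2 hε) one_pos).ne' hmin
  have hε'le : ENNReal.ofReal ε' ≤ ε := by
    rw [hε', ENNReal.ofReal_toReal hmin]
    exact min_le_left _ _
  obtain ⟨K₀, hK₀⟩ := hT ε' hε'0 3
  refine ⟨max K₀ 1, fun K hK => ?_⟩
  obtain ⟨T₀, hT₀⟩ := hK₀ K ((le_max_left _ _).trans hK)
  have hK1 : 1 ≤ K := (le_max_right _ _).trans hK
  have hKr : (0 : ℝ) < K := by exact_mod_cast hK1
  refine ⟨T₀, fun t ht' => ?_⟩
  obtain ⟨E, v, hEm, hv0, hv, hU, hPi, hD⟩ := hT₀ t ht'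
  refine ⟨{z | lat i1 i2 z ∈ E}, ENNReal.ofReal v, ?_, fun L => ?_, fun y => ?_, fun L => ?_⟩
  · have e : (K : ℝ≥0∞) * ENNReal.ofReal v ^ 2 = ENNReal.ofReal (K * v ^ 2) := by
      rw [ENNReal.ofReal_mul (Nat.cast_nonneg _), ENNReal.ofReal_natCast,
        ENNReal.ofReal_pow hv0]
    rw [e]
    refine le_trans (ENNReal.ofReal_le_ofReal ?_) hε'le
    have h3 : 0 ≤ (K : ℝ) * v ^ 2 := by positivity
    push_cast at hv
    nlinarith
  · refine pull1 F hA (B := {M | Up u (L + 7 * t) M - Up u L M ∉ {z | lat i1 i2 z ∈ E}})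
      (C := {a | UW u i1 i2 (L + 7 * t) a - UW u i1 i2 L a ∉ E}) ?_ ?_ (hU L)
    · exact (((hpos.meas (L + 7 * t)).sub (hpos.meas L)) hEm).compl
    · intro s hs hsB
      simp only [mem_setOf_eq] at hsB ⊢
      rwa [lat_sub', lat_Up i1 i2 hs, lat_Up i1 i2 hs] at hsB
  · refine pull2 F hA (B := {p | ∃ k, K ≤ 2 * k ∧ k ≤ 3 * K ∧
        Up u ((k + 7) * t) p.1 - Up u (k * t) p.2 - y ∈ {z | lat i1 i2 z ∈ E}})
      (C := {p | ∃ k, K ≤ 2 * k ∧ k ≤ 3 * K ∧
        UW u i1 i2 ((k + 7) * t) p.1 - UW u i1 i2 (k * t) p.2 - lat i1 i2 y ∈ E}) ?_ ?_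
      (hPi (lat i1 i2 y)) |>.trans hε'le
    · have : {p : (ℕ → Word (Mark d)) × (ℕ → Word (Mark d)) | ∃ k, K ≤ 2 * k ∧ k ≤ 3 * K ∧
          UW u i1 i2 ((k + 7) * t) p.1 - UW u i1 i2 (k * t) p.2 - lat i1 i2 y ∈ E}
          = ⋃ k : ℕ, ⋃ _ : K ≤ 2 * k ∧ k ≤ 3 * K,
            {p | UW u i1 i2 ((k + 7) * t) p.1 - UW u i1 i2 (k * t) p.2 - lat i1 i2 y ∈ E} := by
        ext p
        simp only [mem_setOf_eq, mem_iUnion, exists_prop]
        constructor
        · rintro ⟨k, a, b, c⟩; exact ⟨k, ⟨a, b⟩, c⟩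
        · rintro ⟨k, ⟨a, b⟩, c⟩; exact ⟨k, a, b, c⟩
      rw [this]
      refine MeasurableSet.iUnion fun k => MeasurableSet.iUnion fun _ => ?_
      exact ((((hpos.meas ((k + 7) * t)).comp measurable_fst).sub
        ((hpos.meas (k * t)).comp measurable_snd)).sub_const _) hEm
    · rintro p hp1 hp2 ⟨k, a, b, c⟩
      refine ⟨k, a, b, ?_⟩
      simp only [mem_setOf_eq] at c
      rwa [lat_sub', lat_sub', lat_Up i1 i2 hp1, lat_Up i1 i2 hp2] at c
  · have h3 : mkAnn κ Q 0 {M | M ∈ NS u ∧ NoCutW u L t M} ≤ ENNReal.ofReal (ε' / K) := by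
      refine pull1 F hA (B := {M | NoCutW u L t M})
        (C := {a | ∀ i, ¬ (L < H (Yw u) i a ∧ H (Yw u) i a ≤ L + t)}) ?_ ?_ (hD L)
      · have : {a : ℕ → Word (Mark d) | ∀ i, ¬ (L < H (Yw u) i a ∧ H (Yw u) i a ≤ L + t)}
            = ⋂ i : ℕ, ({a | L < H (Yw u) i a} ∩ {a | H (Yw u) i a ≤ L + t})ᶜ := by
          ext a
          simp only [mem_setOf_eq, mem_iInter, mem_compl_iff, mem_inter_iff]
        rw [this]
        exact MeasurableSet.iInter fun i => ((measurableSet_lt measurable_const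
          (measurable_H _ i)).inter (measurableSet_le (measurable_H _ i) measurable_const)).compl
      · intro s hs hsB i hi
        obtain ⟨n, hn, hst⟩ := cut_hit hs i
        obtain ⟨j, hj1, hj2⟩ := hsB _ n hi.1.le hi.2 ((hit_iff' _ s n).2 hn)
        rw [zt_eq] at hj2
        obtain ⟨m, rfl⟩ := Nat.exists_eq_add_of_le hj1
        rw [zh_add, hn.1] at hj2
        have := stay_zh.1 hst m
        linarith
    calc (K : ℝ≥0∞) * mkAnn κ Q 0 {M | M ∈ NS u ∧ NoCutW u L t M}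
        ≤ (K : ℝ≥0∞) * ENNReal.ofReal (ε' / K) := by gcongr
      _ = ENNReal.ofReal ε' := by
          rw [← ENNReal.ofReal_natCast, ← ENNReal.ofReal_mul (Nat.cast_nonneg _)]
          congr 1
          field_simp
      _ ≤ ε := hε'le

end Crest.Agent.R154.J132
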