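import Crest.Agent.R154.JWord_132
import Crest.Agent.R154.JBind4_132

/-! Row 154, joint blocks of two independent natural walkers, PATHWISE dictionary.

`φ : Site d →+ ℝ` any additive functional (lateral coordinate).  For a joint word `w`:
`Vj φ w` = difference of the displacements, `Bj φ w` = largest same-level deviation of the
difference, `Rj u w` = height. -/

set_option autoImplicit false
set_option linter.unusedSectionVars false
set_option linter.deprecated false

namespace Crest.Agent.R154.J132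

open MeasureTheory ProbabilityTheory Filter Set Crest.ProbabilityR.RandomEnvironment
open Crest.Agent.R154.Mk561 Crest.Agent.R154.Bind263 Crest.Agent.R154.B4Inst797
open Crest.Agent.R154.Ren263 (Word pre hgt Stay Record len_pre hgt_zero hgt_shift)
open Crest.Agent.R154.RenG263 (RecSys Reg tau tau_spec tau_min blk0 blks RegInf rest_mem reg_shift)
open scoped ENNReal Topology

variable {d : ℕ} {u : Step d} {κ : ℝ} {R : ℕ}

/-! ### words as lists of marks -/

lemma prf_add' (n m : ℕ) (s : MPath d) :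
    prf (n + m) s = prf n s ++ prf m (Ren263.shift n s) := prf_add n m s

/-- time of the `i`-th cut -/
def ct (i : ℕ) (a : ℕ → Word (Mark d)) : ℕ := ∑ j ∈ Finset.range i, (a j).len

lemma ct_zero (a : ℕ → Word (Mark d)) : ct 0 a = 0 := by simp [ct]

lemma ct_add (i j : ℕ) (a : ℕ → Word (Mark d)) : ct (i + j) a = ct i a + ct j (sh i a) := by
  simp [ct, Finset.sum_range_add, sh]

/-- all marks of a list of words -/
def flw (w : List (Word (Mark d))) : List (Mark d) := List.flatten (α := Mark d) w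

lemma flw_append (v w : List (Word (Mark d))) : flw (v ++ w) = flw v ++ flw w :=
  List.flatten_append (α := Mark d) (L₁ := v) (L₂ := w)

lemma flw_single (w : Word (Mark d)) : flw [w] = (w : List (Mark d)) := by
  have : List.flatten [(w : List (Mark d))] = (w : List (Mark d)) := List.append_nil _
  exact this

lemma shift_regInf {s : MPath d} (hs : s ∈ RegInf (rhoU u κ R)) (i : ℕ) :
    Ren263.shift (ct i (blks (rhoU u κ R) s)) s ∈ RegInf (rhoU u κ R) ∧
    blks (rhoU u κ R) (Ren263.shift (ct i (blks (rhoU u κ R) s)) s)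
      = sh i (blks (rhoU u κ R) s) := by
  induction i generalizing s with
  | zero =>
    rw [ct_zero, Ren263.shift_zero, sh_zero]
    exact ⟨hs, rfl⟩
  | succ i ih =>
    have hr := rest_mem hs
    obtain ⟨h1, h2⟩ := ih hr
    have hc : ct (i + 1) (blks (rhoU u κ R) s) = tau (rhoU u κ R) s
        + ct i (blks (rhoU u κ R) (RenG263.rest (rhoU u κ R) s)) := by
      rw [Nat.add_comm i 1, ct_add, sh_blks]
      congr 1
      simp only [ct, Finset.range_one, Finset.sum_singleton]
      change (blk0 (rhoU u κ R) s).len = _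
      unfold blk0
      rw [len_pre]
    rw [hc, ← Ren263.shift_shift]
    refine ⟨h1, ?_⟩
    change blks (rhoU u κ R) (Ren263.shift _ (RenG263.rest (rhoU u κ R) s)) = _
    rw [h2, ← sh_blks, sh_sh, Nat.add_comm i 1]

lemma flw_blks {s : MPath d} (hs : s ∈ RegInf (rhoU u κ R)) (i : ℕ) :
    flw (prf i (blks (rhoU u κ R) s)) = prf (ct i (blks (rhoU u κ R) s)) s := by
  induction i generalizing s with
  | zero => rw [ct_zero]; rfl
  | succ i ih =>
    have hr := rest_mem hs
    have hc1 : ct 1 (blks (rhoU u κ R) s) = tau (rhoU u κ R) s := by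
      simp only [ct, Finset.range_one, Finset.sum_singleton]
      change (blk0 (rhoU u κ R) s).len = _
      unfold blk0
      rw [len_pre]
    rw [Nat.add_comm i 1, prf_add, flw_append, ct_add, prf_add', sh_blks, ih hr, hc1]
    congr 1
    exact flw_single _

/-! ### functionals of a joint word -/

/-- displacement of a list of marks -/
def ps (w : List (Mark d)) : Site d := (w.map stp).sum

/-- height of a list of marks -/
def hs (u : Step d) (w : List (Mark d)) : ℤ := (w.map (zht u)).sum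

lemma ps_prf (n : ℕ) (s : MPath d) : ps (prf n s) = pos 0 s n := stp_pre n s

lemma hs_prf (n : ℕ) (s : MPath d) : hs u (prf n s) = zh u s n := wzht_pre u n s

lemma take_prf {i n : ℕ} (h : i ≤ n) (s : MPath d) : (prf n s).take i = prf i s := by
  unfold prf
  rw [← List.map_take, List.take_range, min_eq_left h]

/-- index pairs at the same level -/
noncomputable def same (u : Step d) (v w : List (Mark d)) : Finset (ℕ × ℕ) :=
  ((Finset.range (v.length + 1)) ×ˢ (Finset.range (w.length + 1))).filter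
    fun q => hs u (v.take q.1) = hs u (w.take q.2)

lemma same_nonempty (u : Step d) (v w : List (Mark d)) : (same u v w).Nonempty :=
  ⟨(0, 0), by simp [same]⟩

/-- largest same-level deviation of the difference -/
noncomputable def dev (u : Step d) (φ : Site d →+ ℝ) (v w : List (Mark d)) : ℝ :=
  (same u v w).sup' (same_nonempty u v w) fun q => |φ (ps (v.take q.1)) - φ (ps (w.take q.2))|

lemma le_dev {φ : Site d →+ ℝ} {v w : List (Mark d)} {i j : ℕ} (hi : i ≤ v.length)
    (hj : j ≤ w.length) (h : hs u (v.take i) = hs u (w.take j)) :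
    |φ (ps (v.take i)) - φ (ps (w.take j))| ≤ dev u φ v w := by
  unfold dev
  refine Finset.le_sup' (f := fun q : ℕ × ℕ => |φ (ps (v.take q.1)) - φ (ps (w.take q.2))|)
    (b := (i, j)) ?_
  simp only [same, Finset.mem_filter, Finset.mem_product, Finset.mem_range]
  exact ⟨⟨by omega, by omega⟩, h⟩

lemma dev_nonneg (φ : Site d →+ ℝ) (v w : List (Mark d)) : 0 ≤ dev u φ v w := by
  refine le_trans (abs_nonneg _) (le_dev (i := 0) (j := 0) (Nat.zero_le _) (Nat.zero_le _) ?_)
  simp

lemma dev_swap (φ : Site d →+ ℝ) (v w : List (Mark d)) : dev u φ v w = dev u φ w v := by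
  unfold dev
  refine le_antisymm ?_ ?_
  · refine Finset.sup'_le _ _ fun q hq => ?_
    rw [abs_sub_comm]
    refine Finset.le_sup' (f := fun q : ℕ × ℕ => |φ (ps (w.take q.1)) - φ (ps (v.take q.2))|)
      (b := (q.2, q.1)) ?_
    simp only [same, Finset.mem_filter, Finset.mem_product, Finset.mem_range] at hq ⊢
    exact ⟨⟨hq.1.2, hq.1.1⟩, hq.2.symm⟩
  · refine Finset.sup'_le _ _ fun q hq => ?_
    rw [abs_sub_comm]
    refine Finset.le_sup' (f := fun q : ℕ × ℕ => |φ (ps (v.take q.1)) - φ (ps (w.take q.2))|)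
      (b := (q.2, q.1)) ?_
    simp only [same, Finset.mem_filter, Finset.mem_product, Finset.mem_range] at hq ⊢
    exact ⟨⟨hq.1.2, hq.1.1⟩, hq.2.symm⟩

/-- increment of the difference in a joint word -/
noncomputable def Vj (φ : Site d →+ ℝ) (w : List (Word (Mark d)) × List (Word (Mark d))) : ℝ :=
  φ (ps (flw w.1)) - φ (ps (flw w.2))

/-- deviation of the difference in a joint word -/
noncomputable def Bj (u : Step d) (φ : Site d →+ ℝ)
    (w : List (Word (Mark d)) × List (Word (Mark d))) : ℝ := dev u φ (flw w.1) (flw w.2)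

/-- height of a joint word -/
noncomputable def Rj (u : Step d) (w : List (Word (Mark d)) × List (Word (Mark d))) : ℕ :=
  hw (Yw u) w.1

lemma Vj_swap (φ : Site d →+ ℝ) (w : List (Word (Mark d)) × List (Word (Mark d))) :
    Vj φ w.swap = - Vj φ w := by simp [Vj]

lemma Bj_swap (φ : Site d →+ ℝ) (w : List (Word (Mark d)) × List (Word (Mark d))) :
    Bj u φ w.swap = Bj u φ w := dev_swap φ _ _

lemma Bj_nonneg (φ : Site d →+ ℝ) (w : List (Word (Mark d)) × List (Word (Mark d))) :
    0 ≤ Bj u φ w := dev_nonneg φ _ _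

/-! ### pairs of paths -/

/-- both walkers have infinitely many cuts, and infinitely many joint cuts -/
def JG (u : Step d) (κ : ℝ) (R : ℕ) : Set (MPath d × MPath d) :=
  {π | π.1 ∈ RegInf (rhoU u κ R) ∧ π.2 ∈ RegInf (rhoU u κ R) ∧
    (blks (rhoU u κ R) π.1, blks (rhoU u κ R) π.2) ∈ AllGood (Yw u)}

/-- the pair of letter sequences -/
noncomputable def bp (u : Step d) (κ : ℝ) (R : ℕ) (π : MPath d × MPath d) :
    (ℕ → Word (Mark d)) × (ℕ → Word (Mark d)) :=
  (blks (rhoU u κ R) π.1, blks (rhoU u κ R) π.2)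

/-- times of the first joint cut -/
noncomputable def J1 (u : Step d) (κ : ℝ) (R : ℕ) (π : MPath d × MPath d) : ℕ × ℕ :=
  (ct (idx (Yw u) (bp u κ R π)).1 (bp u κ R π).1, ct (idx (Yw u) (bp u κ R π)).2 (bp u κ R π).2)

/-- the pair after the first joint cut -/
noncomputable def jr (u : Step d) (κ : ℝ) (R : ℕ) (π : MPath d × MPath d) : MPath d × MPath d :=
  (Ren263.shift (J1 u κ R π).1 π.1, Ren263.shift (J1 u κ R π).2 π.2)

/-- times of the `k`-th joint cut -/
noncomputable def Jk (u : Step d) (κ : ℝ) (R : ℕ) : ℕ → MPath d × MPath d → ℕ × ℕ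
  | 0, _ => (0, 0)
  | k + 1, π => J1 u κ R π + Jk u κ R k (jr u κ R π)

lemma bp_jr {π : MPath d × MPath d} (hπ : π ∈ JG u κ R) :
    bp u κ R (jr u κ R π) = rest (Yw u) (bp u κ R π) := by
  obtain ⟨h1, h2, _⟩ := hπ
  refine Prod.ext ?_ ?_
  · exact (shift_regInf h1 _).2
  · exact (shift_regInf h2 _).2

lemma jr_mem {π : MPath d × MPath d} (hπ : π ∈ JG u κ R) : jr u κ R π ∈ JG u κ R := by
  have h3 := bp_jr hπ
  obtain ⟨h1, h2, hg⟩ := hπ
  refine ⟨(shift_regInf h1 _).1, (shift_regInf h2 _).1, ?_⟩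
  change bp u κ R (jr u κ R π) ∈ _
  rw [h3]
  exact allGood_rest hg

lemma bp_iter {π : MPath d × MPath d} (hπ : π ∈ JG u κ R) (k : ℕ) :
    (jr u κ R)^[k] π ∈ JG u κ R ∧
      bp u κ R ((jr u κ R)^[k] π) = (rest (Yw u))^[k] (bp u κ R π) := by
  induction k generalizing π with
  | zero => exact ⟨hπ, rfl⟩
  | succ k ih =>
    rw [Function.iterate_succ_apply, Function.iterate_succ_apply, ← bp_jr hπ]
    exact ih (jr_mem hπ)

lemma jr_iter (π : MPath d × MPath d) (k : ℕ) :
    (jr u κ R)^[k] π = (Ren263.shift (Jk u κ R k π).1 π.1, Ren263.shift (Jk u κ R k π).2 π.2) := by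
  induction k generalizing π with
  | zero => simp [Jk, Ren263.shift_zero]
  | succ k ih =>
    rw [Function.iterate_succ_apply, ih (jr u κ R π)]
    simp only [Jk, Prod.fst_add, Prod.snd_add, ← Ren263.shift_shift]
    rfl

/-- the `k`-th joint word of a pair of paths -/
noncomputable def jw (u : Step d) (κ : ℝ) (R : ℕ) (k : ℕ) (π : MPath d × MPath d) :
    List (Word (Mark d)) × List (Word (Mark d)) := wdk (Yw u) k (bp u κ R π)


/-- marks of the first joint word -/
lemma flw_wd {π : MPath d × MPath d} (hπ : π ∈ JG u κ R) :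
    flw (wd (Yw u) (bp u κ R π)).1 = prf (J1 u κ R π).1 π.1 ∧
      flw (wd (Yw u) (bp u κ R π)).2 = prf (J1 u κ R π).2 π.2 :=
  ⟨flw_blks hπ.1 _, flw_blks hπ.2.1 _⟩

lemma cut_ct {s : MPath d} (hs : s ∈ RegInf (rhoU u κ R)) (i : ℕ) :
    Hit u (H (Yw u) i (blks (rhoU u κ R) s)) (ct i (blks (rhoU u κ R) s)) s := by
  induction i generalizing s with
  | zero => rw [H_zero, ct_zero]; exact hit_zero u s
  | succ i ih =>
    have hHit := hit_tau hs
    have hm1 := ih (rest_mem hs)
    rw [Nat.add_comm i 1, H_add, ct_add, sh_blks]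
    have hH1 : H (Yw u) 1 (blks (rhoU u κ R) s) = Yw u (blk0 (rhoU u κ R) s) := by
      simp [H]; rfl
    have hc1 : ct 1 (blks (rhoU u κ R) s) = tau (rhoU u κ R) s := by
      simp only [ct, Finset.range_one, Finset.sum_singleton]
      change (blk0 (rhoU u κ R) s).len = _
      unfold blk0
      rw [len_pre]
    rw [hH1, hc1]
    exact hit_comp (l := Yw u (blk0 (rhoU u κ R) s))
      (m := H (Yw u) i (blks (rhoU u κ R) (RenG263.rest (rhoU u κ R) s))) hHit hm1

/-- first joint block: both walkers hit the level `R0` for the first time at the joint cut and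
stay above it afterwards. -/
lemma first_block {π : MPath d × MPath d} (hπ : π ∈ JG u κ R) :
    Hit u (Rj u (jw u κ R 0 π)) (J1 u κ R π).1 π.1 ∧
    Hit u (Rj u (jw u κ R 0 π)) (J1 u κ R π).2 π.2 ∧
    (∀ n, (J1 u κ R π).1 ≤ n → ((Rj u (jw u κ R 0 π) : ℕ) : ℤ) ≤ zh u π.1 n) ∧
    (∀ n, (J1 u κ R π).2 ≤ n → ((Rj u (jw u κ R 0 π) : ℕ) : ℤ) ≤ zh u π.2 n) ∧
    1 ≤ Rj u (jw u κ R 0 π) := by
  have hg : bp u κ R π ∈ Good (Yw u) := hπ.2.2 0
  have hq := mem_fst_idx (one_le_Yw u) hg
  have e1 : Rj u (jw u κ R 0 π) = H (Yw u) (idx (Yw u) (bp u κ R π)).1 (bp u κ R π).1 := by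
    unfold Rj jw wdk
    rw [Function.iterate_zero, id_eq, hw_wd]
    rfl
  have c1 := cut_ct hπ.1 (idx (Yw u) (bp u κ R π)).1
  have c2 := cut_ct hπ.2.1 (idx (Yw u) (bp u κ R π)).2
  have e2 : H (Yw u) (idx (Yw u) (bp u κ R π)).1 (bp u κ R π).1
      = H (Yw u) (idx (Yw u) (bp u κ R π)).2 (bp u κ R π).2 := hq.2.1
  have s1 := (shift_regInf hπ.1 (idx (Yw u) (bp u κ R π)).1).1.1
  have s2 := (shift_regInf hπ.2.1 (idx (Yw u) (bp u κ R π)).2).1.1
  refine ⟨?_, ?_, fun n hn => ?_, fun n hn => ?_, ?_⟩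
  · rw [e1]; exact c1
  · rw [e1, e2]; exact c2
  · obtain ⟨m, rfl⟩ := Nat.exists_eq_add_of_le hn
    rw [e1, zh_add]
    have h1 := c1.1
    have h2 := stay_zh.1 s1 m
    have h3 : zh u π.1 (J1 u κ R π).1
      = ((H (Yw u) (idx (Yw u) (bp u κ R π)).1 (bp u κ R π).1 : ℕ) : ℤ) := h1
    rw [h3]
    change _ ≤ _ + zh u (Ren263.shift (J1 u κ R π).1 π.1) m
    have h4 : 0 ≤ zh u (Ren263.shift (J1 u κ R π).1 π.1) m := h2
    linarith
  · obtain ⟨m, rfl⟩ := Nat.exists_eq_add_of_le hn
    rw [e1, e2, zh_add]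
    have h1 := c2.1
    have h2 := stay_zh.1 s2 m
    have h3 : zh u π.2 (J1 u κ R π).2
      = ((H (Yw u) (idx (Yw u) (bp u κ R π)).2 (bp u κ R π).2 : ℕ) : ℤ) := h1
    rw [h3]
    change _ ≤ _ + zh u (Ren263.shift (J1 u κ R π).2 π.2) m
    have h4 : 0 ≤ zh u (Ren263.shift (J1 u κ R π).2 π.2) m := h2
    linarith
  · rw [e1]
    exact hq.1.trans (le_H (one_le_Yw u) _ _)

/-- increment of the difference over the first block -/
lemma first_V {π : MPath d × MPath d} (hπ : π ∈ JG u κ R) (φ : Site d →+ ℝ) :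
    Vj φ (jw u κ R 0 π) = φ (pos 0 π.1 (J1 u κ R π).1) - φ (pos 0 π.2 (J1 u κ R π).2) := by
  obtain ⟨h1, h2⟩ := flw_wd hπ
  have : jw u κ R 0 π = wd (Yw u) (bp u κ R π) := rfl
  rw [this, Vj, h1, h2, ps_prf, ps_prf]

/-- same-level deviation inside the first block -/
lemma first_B {π : MPath d × MPath d} (hπ : π ∈ JG u κ R) (φ : Site d →+ ℝ) {n m : ℕ}
    (hn : n ≤ (J1 u κ R π).1) (hm : m ≤ (J1 u κ R π).2) (h : zh u π.1 n = zh u π.2 m) :
    |φ (pos 0 π.1 n) - φ (pos 0 π.2 m)| ≤ Bj u φ (jw u κ R 0 π) := by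
  obtain ⟨h1, h2⟩ := flw_wd hπ
  have : jw u κ R 0 π = wd (Yw u) (bp u κ R π) := rfl
  rw [this, Bj, h1, h2]
  have := le_dev (u := u) (φ := φ) (v := prf (J1 u κ R π).1 π.1)
    (w := prf (J1 u κ R π).2 π.2) (i := n) (j := m)
    (by rw [length_prf]; exact hn) (by rw [length_prf]; exact hm) (by
      rw [take_prf hn, take_prf hm, hs_prf, hs_prf, h])
  rwa [take_prf hn, take_prf hm, ps_prf, ps_prf] at this

end Crest.Agent.R154.J132
private theorem rz_bbcbe4fe69 : type_of% @_root_.Crest.Agent.R154.J132.Jk.eq_def := @_root_.Crest.Agent.R154.J132.Jk.eq_def -- L185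
private theorem rz_a097768b5d : type_of% @_root_.Crest.Agent.R154.J132.Jk.eq_1 := @_root_.Crest.Agent.R154.J132.Jk.eq_1 -- L185
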