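import Crest.Agent.R154.Fin_804
import Crest.Agent.R154.Loc_561
import Crest.Agent.R154.B2d_419

/-!
Row 154 (helper804): the finite-level statement `FL` implies that the walk does not go to `-∞`
naturally: no two opposite coordinate directions can both be escape directions.

`annealed_downIn_le`: union bound over the box.
`FL Q u`: `Q (P_ω^0 (climb 10^i levels) < e^{-δ i}) ≤ C e^{-M i}` for all `δ, M > 0`.
`opp_zero`: `FL Q u` + half space property ⟹ `P (A_{-u}) = 0`.
-/

set_option autoImplicit false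

namespace Crest.Agent.R154.Fin804

open MeasureTheory ProbabilityTheory Crest.ProbabilityR.RandomEnvironment Crest.Agent.R154
open Crest.Agent.R154.Flux132 (lev opp Dn)
open Crest.Agent.R154.B2d (dirVec HalfSpace)
open Crest.Agent.R154.Kal132 (Stay SlabProp RetryProp L)
open Filter
open scoped ENNReal Topology

variable {d : ℕ}

/-! ### translation -/

theorem tr_preimage_climb (u : Step d) (h : ℕ) (x : Site d) :
    Q561.tr x ⁻¹' (Climb u h) = Climb u h := by
  ext X
  simp only [Climb, Set.mem_preimage, Set.mem_ofPred_eq, Q561.tr, lev_add]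
  constructor
  · rintro ⟨n, h1, h2⟩
    exact ⟨n, by omega, fun k hk => by have := h2 k hk; omega⟩
  · rintro ⟨n, h1, h2⟩
    exact ⟨n, by omega, fun k hk => by have := h2 k hk; omega⟩


theorem quenched_climb_shift (ω : Environment d) (u : Step d) (h : ℕ) (x : Site d) :
    quenchedLaw ω x (Climb u h) = quenchedLaw (shiftEnv x ω) 0 (Climb u h) := by
  rw [Q561.quenched_eq_zero_shift ω x (measurableSet_climb u h), tr_preimage_climb]


/-! ### boxes -/

/-- the box of radius `R`. -/
noncomputable def boxF (d R : ℕ) : Finset (Site d) := Fintype.piFinset fun _ : Fin d => Finset.Icc (-(R : ℤ)) R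

theorem mem_boxF {R : ℕ} {x : Site d} : x ∈ boxF d R ↔ nrm x ≤ R := by
  rw [nrm_le_iff (by positivity)]
  simp only [boxF, Fintype.mem_piFinset, Finset.mem_Icc, abs_le]

theorem card_boxF (d R : ℕ) : (boxF d R).card = (2 * R + 1) ^ d := by
  simp only [boxF, Fintype.card_piFinset, Int.card_Icc, Finset.prod_const, Finset.card_univ,
    Fintype.card_fin]
  congr 1
  omega

/-- Union bound: some site of the slab and the box climbs with probability `< s`. -/
theorem bad_le {Q : Measure (Environment d)}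
    (hstat : ∀ z : Site d, MeasurePreserving (shiftEnv z) Q Q) (A : Set (Path d))
    (hA : MeasurableSet A)
    (hsh : ∀ (ω : Environment d) (x : Site d), quenchedLaw ω x A = quenchedLaw (shiftEnv x ω) 0 A)
    (u : Step d) (h R : ℕ) (s : ℝ≥0∞) :
    Q {ω | ∃ x, InSlab u h R x ∧ quenchedLaw ω x A < s}
      ≤ ((2 * R + 1) ^ d : ℕ) * Q {ω | quenchedLaw ω 0 A < s} := by
  have hsub : {ω : Environment d | ∃ x, InSlab u h R x ∧ quenchedLaw ω x A < s}
      ⊆ ⋃ x ∈ boxF d R, {ω : Environment d | quenchedLaw ω x A < s} := by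
    rintro ω ⟨x, hx, hlt⟩
    simp only [Set.mem_iUnion]
    exact ⟨x, mem_boxF.2 hx.2.2, hlt⟩
  refine (measure_mono hsub).trans ((measure_biUnion_finset_le _ _).trans ?_)
  have hm : MeasurableSet {ω : Environment d | quenchedLaw ω 0 A < s} := by
    have hf : Measurable fun ω : Environment d => quenchedLaw ω 0 A :=
      measurable_quenched_apply 0 hA
    exact measurableSet_lt hf measurable_const
  have heach : ∀ x ∈ boxF d R, Q {ω : Environment d | quenchedLaw ω x A < s}
      = Q {ω : Environment d | quenchedLaw ω 0 A < s} := by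
    intro x _
    have h1 := (hstat x).measure_preimage hm.nullMeasurableSet
    have h2 : {ω : Environment d | quenchedLaw ω x A < s}
        = shiftEnv x ⁻¹' {ω : Environment d | quenchedLaw ω 0 A < s} := by
      ext ω
      simp only [Set.mem_ofPred_eq, Set.mem_preimage]
      rw [hsh ω x]
    rw [h2, h1]
  rw [Finset.sum_congr rfl heach, Finset.sum_const, card_boxF, nsmul_eq_mul]

theorem measurableSet_bad (A : Set (Path d)) (hA : MeasurableSet A) (u : Step d) (h R : ℕ)
    (s : ℝ≥0∞) : MeasurableSet {ω : Environment d | ∃ x, InSlab u h R x ∧ quenchedLaw ω x A < s} := by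
  have : {ω : Environment d | ∃ x, InSlab u h R x ∧ quenchedLaw ω x A < s}
      = ⋃ x : {x : Site d // InSlab u h R x}, {ω : Environment d | quenchedLaw ω x A < s} := by
    ext ω
    simp only [Set.mem_ofPred_eq, Set.mem_iUnion, Subtype.exists, exists_prop]
  rw [this]
  refine MeasurableSet.iUnion fun x => ?_
  have hf : Measurable fun ω : Environment d => quenchedLaw ω x.1 A :=
    measurable_quenched_apply x.1 hA
  exact measurableSet_lt hf measurable_const

/-- `f ≤ 1` and `f ≤ a` off `B` give `∫ f ≤ a + Q B`. -/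
theorem lintegral_le_add {Ω : Type*} [MeasurableSpace Ω] (Q : Measure Ω) [IsProbabilityMeasure Q]
    {f : Ω → ℝ≥0∞} {B : Set Ω} (hB : MeasurableSet B) {a : ℝ≥0∞} (h1 : ∀ ω, f ω ≤ 1)
    (h2 : ∀ ω, ω ∉ B → f ω ≤ a) : ∫⁻ ω, f ω ∂Q ≤ a + Q B := by
  have : ∀ ω, f ω ≤ a + B.indicator 1 ω := by
    intro ω
    by_cases hω : ω ∈ B
    · rw [Set.indicator_of_mem hω]
      exact (h1 ω).trans le_add_self
    · rw [Set.indicator_of_notMem hω, add_zero]
      exact h2 ω hω
  refine (lintegral_mono this).trans ?_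
  rw [lintegral_add_left measurable_const, lintegral_const, measure_univ, mul_one,
    lintegral_indicator_one hB]

/-- **Annealed bound for going down inside the box.** -/
theorem annealed_downIn_le {Q : Measure (Environment d)} [IsProbabilityMeasure Q]
    (hstat : ∀ z : Site d, MeasurePreserving (shiftEnv z) Q Q) (u : Step d) (h R : ℕ)
    (s : ℝ≥0∞) :
    annealed Q 0 (DownIn u h R)
      ≤ (1 - s) ^ h + ((2 * R + 1) ^ d : ℕ) * Q {ω | quenchedLaw ω 0 (Climb u h) < s} := by
  rw [annealed_apply Q 0 (measurableSet_downIn u h R)]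
  unfold annealedProb
  refine (lintegral_le_add Q (measurableSet_bad (Climb u h) (measurableSet_climb u h) u h R s)
    (fun ω => prob_le_one) (a := (1 - s) ^ h) fun ω hω => ?_).trans
    (add_le_add le_rfl (bad_le hstat _ (measurableSet_climb u h)
      (fun ω x => quenched_climb_shift ω u h x) u h R s))
  refine downIn_le ω u h R fun x hx => ?_
  simp only [Set.mem_ofPred_eq, not_exists, not_and, not_lt] at hω
  exact hω x hx


/-! ### the finite-level statement -/

/-- **(FL)**: polynomially small probability that the quenched probability of climbing `h = 10^i`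
levels is below `h^{-δ'}` (`δ' = δ / ln 10`, any `δ`, any polynomial order `M / ln 10`). -/
def FL (Q : Measure (Environment d)) (u : Step d) : Prop :=
  ∀ δ M : ℝ, 0 < δ → 0 < M → ∃ C : ℝ, ∀ i : ℕ,
    Q {ω | quenchedLaw ω 0 (Climb u (10 ^ i)) < ENNReal.ofReal (Real.exp (-(δ * i)))}
      ≤ ENNReal.ofReal (C * Real.exp (-(M * i)))

theorem one_sub_pow_le (s : ℝ) (hs0 : 0 ≤ s) (hs1 : s ≤ 1) (n : ℕ) :
    (1 - ENNReal.ofReal s) ^ n ≤ ENNReal.ofReal (Real.exp (-(s * n))) := by
  have h1 : (1 : ℝ≥0∞) - ENNReal.ofReal s = ENNReal.ofReal (1 - s) := by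
    rw [ENNReal.ofReal_sub _ hs0, ENNReal.ofReal_one]
  rw [h1, ← ENNReal.ofReal_pow (by linarith)]
  refine ENNReal.ofReal_le_ofReal ?_
  have h2 : 1 - s ≤ Real.exp (-s) := by
    have := Real.add_one_le_exp (-s)
    linarith
  calc (1 - s) ^ n ≤ (Real.exp (-s)) ^ n := pow_le_pow_left₀ (by linarith) h2 n
    _ = Real.exp (-(s * n)) := by
      rw [← Real.exp_nat_mul]
      congr 1
      ring

/-- `(10/e)^i → ∞`. -/
theorem tendsto_ten : Tendsto (fun i : ℕ => Real.exp (-(1 * (i : ℝ))) * ((10 ^ i : ℕ) : ℝ))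
    atTop atTop := by
  have h : (fun i : ℕ => Real.exp (-(1 * (i : ℝ))) * ((10 ^ i : ℕ) : ℝ))
      = fun i : ℕ => (Real.exp (-1) * 10) ^ i := by
    funext i
    rw [mul_pow, ← Real.exp_nat_mul]
    push_cast
    congr 2
    ring
  rw [h]
  refine tendsto_pow_atTop_atTop_of_one_lt ?_
  have h1 : Real.exp 1 < 10 := by
    have := Real.exp_one_lt_d9
    linarith
  rw [Real.exp_neg, inv_mul_eq_div, lt_div_iff₀ (Real.exp_pos 1)]
  linarith

theorem tendsto_first : Tendsto (fun i : ℕ =>
    (1 - ENNReal.ofReal (Real.exp (-(1 * (i : ℝ))))) ^ (10 ^ i)) atTop (𝓝 0) := by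
  have hb : Tendsto (fun i : ℕ => ENNReal.ofReal
      (Real.exp (-(Real.exp (-(1 * (i : ℝ))) * ((10 ^ i : ℕ) : ℝ))))) atTop (𝓝 0) := by
    rw [← ENNReal.ofReal_zero]
    refine (ENNReal.continuous_ofReal.tendsto 0).comp ?_
    exact Real.tendsto_exp_neg_atTop_nhds_zero.comp tendsto_ten
  refine tendsto_of_tendsto_of_tendsto_of_le_of_le tendsto_const_nhds hb (fun _ => zero_le)
    fun i => one_sub_pow_le _ (Real.exp_pos _).le ?_ _
  exact Real.exp_le_one_iff.2 (by
    have : (0 : ℝ) ≤ i := Nat.cast_nonneg i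
    linarith)

/-- **(FL) implies that the walk does not go down inside a polynomial box.** -/
theorem tendsto_downIn {Q : Measure (Environment d)} [IsProbabilityMeasure Q]
    (hstat : ∀ z : Site d, MeasurePreserving (shiftEnv z) Q Q) (u : Step d) (hFL : FL Q u) :
    Tendsto (fun i : ℕ => annealed Q 0 (DownIn u (10 ^ i) (100 ^ i))) atTop (𝓝 0) := by
  obtain ⟨C, hC⟩ := hFL 1 (d * Real.log 100 + 1) one_pos (by
    have : 0 ≤ Real.log 100 := Real.log_nonneg (by norm_num)
    positivity)
  have hb : Tendsto (fun i : ℕ =>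
      (1 - ENNReal.ofReal (Real.exp (-(1 * (i : ℝ))))) ^ (10 ^ i)
        + ENNReal.ofReal (3 ^ d * |C| * Real.exp (-(i : ℝ)))) atTop (𝓝 0) := by
    have h2 : Tendsto (fun i : ℕ => ENNReal.ofReal (3 ^ d * |C| * Real.exp (-(i : ℝ)))) atTop
        (𝓝 0) := by
      rw [← ENNReal.ofReal_zero]
      refine (ENNReal.continuous_ofReal.tendsto 0).comp ?_
      have : Tendsto (fun i : ℕ => 3 ^ d * |C| * Real.exp (-(i : ℝ))) atTop
          (𝓝 (3 ^ d * |C| * 0)) :=
        (Real.tendsto_exp_neg_atTop_nhds_zero.comp tendsto_natCast_atTop_atTop).const_mul _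
      simpa using this
    simpa using tendsto_first.add h2
  refine tendsto_of_tendsto_of_tendsto_of_le_of_le tendsto_const_nhds hb (fun _ => zero_le)
    fun i => (annealed_downIn_le hstat u (10 ^ i) (100 ^ i)
      (ENNReal.ofReal (Real.exp (-(1 * (i : ℝ)))))).trans ?_
  refine add_le_add le_rfl ?_
  have h3 : (((2 * 100 ^ i + 1) ^ d : ℕ) : ℝ≥0∞) ≤ ENNReal.ofReal ((3 * 100 ^ i) ^ d) := by
    rw [← ENNReal.ofReal_natCast]
    refine ENNReal.ofReal_le_ofReal ?_
    push_cast
    refine pow_le_pow_left₀ (by positivity) ?_ d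
    have : (1 : ℝ) ≤ 100 ^ i := one_le_pow₀ (by norm_num)
    linarith
  calc (((2 * 100 ^ i + 1) ^ d : ℕ) : ℝ≥0∞)
        * Q {ω | quenchedLaw ω 0 (Climb u (10 ^ i)) < ENNReal.ofReal (Real.exp (-(1 * (i : ℝ))))}
      ≤ ENNReal.ofReal ((3 * 100 ^ i) ^ d)
          * ENNReal.ofReal (C * Real.exp (-((d * Real.log 100 + 1) * i))) :=
        mul_le_mul' h3 (hC i)
    _ ≤ ENNReal.ofReal ((3 * 100 ^ i) ^ d)
          * ENNReal.ofReal (|C| * Real.exp (-((d * Real.log 100 + 1) * i))) := by
        gcongr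
        exact le_abs_self C
    _ = ENNReal.ofReal ((3 * 100 ^ i) ^ d * (|C| * Real.exp (-((d * Real.log 100 + 1) * i)))) := by
        rw [← ENNReal.ofReal_mul (by positivity)]
    _ = ENNReal.ofReal (3 ^ d * |C| * Real.exp (-(i : ℝ))) := by
        congr 1
        have h4 : ((100 : ℝ) ^ i) ^ d = Real.exp (i * d * Real.log 100) := by
          rw [← pow_mul, ← Real.exp_log (show (0 : ℝ) < 100 ^ (i * d) by positivity),
            Real.log_pow]
          push_cast
          rfl
        rw [mul_pow, h4]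
        have h5 : Real.exp (-((d * Real.log 100 + 1) * i))
            = Real.exp (-(i * d * Real.log 100)) * Real.exp (-(i : ℝ)) := by
          rw [← Real.exp_add]
          congr 1
          ring
        rw [h5]
        have h6 : Real.exp (i * d * Real.log 100) * Real.exp (-(i * d * Real.log 100)) = 1 := by
          rw [← Real.exp_add]
          simp
        linear_combination (3 ^ d * |C| * Real.exp (-(i : ℝ))) * h6

/-! ### paths which escape in a half space -/

theorem sum_dirVec_opp (u : Step d) (x : Site d) :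
    ∑ i, (x i : ℝ) * dirVec (opp u) i = -(lev u x : ℝ) := by
  rw [B2d.sum_mul_dirVec]
  unfold opp lev
  cases u.2 <;> simp

/-- A path escaping in all directions of the half space of `v`, `v · (-u) > 0`, and never above its
start level goes down in boxes of radius `h^2`. -/
theorem eventually_downIn (u : Step d) {v : Fin d → ℝ} (hv : 0 < ∑ i, v i * dirVec (opp u) i)
    {X : Path d} (hX : ∀ l' : Fin d → ℝ, 0 < ∑ i, v i * l' i → X ∈ escapeEvent l')
    (h0 : X 0 = 0) (hDn : X ∈ Dn u) :
    ∀ᶠ i : ℕ in atTop, X ∈ DownIn u (10 ^ i) (100 ^ i) := by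
  classical
  set c := ∑ i, v i * dirVec (opp u) i with hc
  set S := ∑ j, |v j| with hS
  have hS0 : 0 ≤ S := Finset.sum_nonneg fun _ _ => abs_nonneg _
  set ε : ℝ := c / (1 + S) with hε
  have hεpos : 0 < ε := by positivity
  have hεv : ∀ i, ε * |v i| < c := by
    intro i
    have h1 : |v i| ≤ S := Finset.single_le_sum (f := fun j => |v j|)
      (fun _ _ => abs_nonneg _) (Finset.mem_univ i)
    rw [hε, div_mul_eq_mul_div, div_lt_iff₀ (by positivity)]
    nlinarith
  -- eventual lateral control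
  have hlat : ∀ (i : Fin d) (σ : ℝ), |σ| = 1 →
      ∀ᶠ n in atTop, 0 ≤ -(lev u (X n) : ℝ) + ε * σ * (X n i : ℝ) := by
    intro i σ hσ
    have hl : X ∈ escapeEvent (fun j => dirVec (opp u) j + ε * σ * (if j = i then 1 else 0)) := by
      refine hX _ ?_
      have h2 : ∑ j, v j * (dirVec (opp u) j + ε * σ * (if j = i then 1 else 0))
          = c + ε * σ * v i := by
        simp only [mul_add, Finset.sum_add_distrib, ← hc]
        congr 1
        rw [Finset.sum_eq_single i]
        · simp; ring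
        · intro j _ hj; simp [hj]
        · intro h; exact absurd (Finset.mem_univ i) h
      rw [h2]
      have h3 : |ε * σ * v i| < c := by
        rw [abs_mul, abs_mul, hσ, abs_of_pos hεpos, mul_one]
        exact hεv i
      have := (abs_lt.1 h3).1
      linarith
    have h4 : Tendsto (fun n => ∑ j, (X n j : ℝ)
        * (dirVec (opp u) j + ε * σ * (if j = i then 1 else 0))) atTop atTop := hl
    filter_upwards [h4.eventually_ge_atTop 0] with n hn
    have h5 : ∑ j, (X n j : ℝ) * (dirVec (opp u) j + ε * σ * (if j = i then 1 else 0))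
        = -(lev u (X n) : ℝ) + ε * σ * (X n i : ℝ) := by
      simp only [mul_add, Finset.sum_add_distrib, sum_dirVec_opp]
      congr 1
      rw [Finset.sum_eq_single i]
      · simp; ring
      · intro j _ hj; simp [hj]
      · intro h; exact absurd (Finset.mem_univ i) h
    rw [← h5]
    exact hn
  have hall : ∀ᶠ n in atTop, ∀ i : Fin d,
      0 ≤ -(lev u (X n) : ℝ) + ε * 1 * (X n i : ℝ) ∧
      0 ≤ -(lev u (X n) : ℝ) + ε * (-1) * (X n i : ℝ) := by
    rw [eventually_all]
    intro i
    exact (hlat i 1 (by simp)).and (hlat i (-1) (by simp))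
  obtain ⟨n0, hn0⟩ := eventually_atTop.1 hall
  -- bound before n0
  set K : ℕ := (Finset.range n0).sup fun k => (nrm (X k)).toNat with hK
  have hKb : ∀ k < n0, nrm (X k) ≤ K := by
    intro k hk
    have h1 : (nrm (X k)).toNat ≤ K :=
      Finset.le_sup (f := fun k => (nrm (X k)).toNat) (Finset.mem_range.2 hk)
    have h2 := Int.toNat_of_nonneg (nrm_nonneg (X k))
    omega
  -- eventually in i
  have hE1 : ∀ᶠ i : ℕ in atTop, ε⁻¹ ≤ (10 : ℝ) ^ i :=
    (tendsto_pow_atTop_atTop_of_one_lt (by norm_num : (1 : ℝ) < 10)).eventually_ge_atTop _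
  have hE2 : ∀ᶠ i : ℕ in atTop, (K : ℝ) ≤ (100 : ℝ) ^ i :=
    (tendsto_pow_atTop_atTop_of_one_lt (by norm_num : (1 : ℝ) < 100)).eventually_ge_atTop _
  filter_upwards [hE1, hE2] with i hi1 hi2
  -- the walk reaches level ≤ -10^i
  have hesc : X ∈ escapeEvent (dirVec (opp u)) := hX _ hv
  have hesc' : Tendsto (fun n => ∑ j, (X n j : ℝ) * dirVec (opp u) j) atTop atTop := hesc
  have hex : ∃ n, lev u (X n) ≤ -((10 ^ i : ℕ) : ℤ) := by
    obtain ⟨n, hn⟩ := (hesc'.eventually_ge_atTop ((10 : ℝ) ^ i)).exists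
    rw [sum_dirVec_opp] at hn
    refine ⟨n, ?_⟩
    have : ((lev u (X n) : ℤ) : ℝ) ≤ ((-((10 ^ i : ℕ) : ℤ) : ℤ) : ℝ) := by
      push_cast
      linarith
    exact_mod_cast this
  refine ⟨Nat.find hex, fun k hk => ⟨?_, ?_⟩, Nat.find_spec hex⟩
  · have := hDn k
    rw [h0] at this
    have h4 : lev u (0 : Site d) = 0 := by simp [lev]
    omega
  · have hk1 : -((10 ^ i : ℕ) : ℤ) < lev u (X k) := by
      have := Nat.find_min hex hk
      omega
    rcases lt_or_ge k n0 with hkn | hkn
    · refine (hKb k hkn).trans ?_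
      have : (K : ℝ) ≤ ((100 ^ i : ℕ) : ℝ) := by push_cast; exact hi2
      exact_mod_cast this
    · rw [nrm_le_iff (by positivity)]
      intro j
      obtain ⟨h5, h6⟩ := hn0 k hkn j
      have h7 : ε * |(X k j : ℝ)| ≤ -(lev u (X k) : ℝ) := by
        rcases abs_cases (X k j : ℝ) with ⟨h, _⟩ | ⟨h, _⟩ <;> rw [h] <;> linarith
      have h8 : -(lev u (X k) : ℝ) ≤ (10 : ℝ) ^ i := by
        have : ((-((10 ^ i : ℕ) : ℤ) : ℤ) : ℝ) ≤ ((lev u (X k) : ℤ) : ℝ) := by
          exact_mod_cast hk1.le
        push_cast at this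
        linarith
      have h9 : |(X k j : ℝ)| ≤ ε⁻¹ * (10 : ℝ) ^ i := by
        rw [le_inv_mul_iff₀ hεpos]
        linarith
      have h10 : |(X k j : ℝ)| ≤ (100 : ℝ) ^ i := by
        refine h9.trans ?_
        have : (100 : ℝ) ^ i = (10 : ℝ) ^ i * (10 : ℝ) ^ i := by
          rw [← mul_pow]; norm_num
        rw [this]
        gcongr
      have h11 : ((|X k j| : ℤ) : ℝ) ≤ (((100 ^ i : ℕ) : ℤ) : ℝ) := by
        push_cast
        exact h10
      exact_mod_cast h11

/-- **No natural descent**: `FL` in direction `u` and the half space property in direction `-u`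
imply that almost surely the walk does not escape in direction `-u` without going above level 0. -/
theorem ae_not_dn {Q : Measure (Environment d)} [IsProbabilityMeasure Q]
    (hstat : ∀ z : Site d, MeasurePreserving (shiftEnv z) Q Q) (u : Step d) (hFL : FL Q u)
    (hH : HalfSpace (annealed Q 0) (dirVec (opp u))) :
    ∀ᵐ X ∂annealed Q 0, X ∈ escapeEvent (dirVec (opp u)) → X ∉ Dn u := by
  obtain ⟨v, hv, hae⟩ := hH
  have hT : annealed Q 0 {X : Path d | ∀ᶠ i : ℕ in atTop, X ∈ DownIn u (10 ^ i) (100 ^ i)} = 0 := by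
    have hU : {X : Path d | ∀ᶠ i : ℕ in atTop, X ∈ DownIn u (10 ^ i) (100 ^ i)}
        = ⋃ j : ℕ, ⋂ i : {i : ℕ // j ≤ i}, DownIn u (10 ^ (i : ℕ)) (100 ^ (i : ℕ)) := by
      ext X
      simp only [Set.mem_ofPred_eq, eventually_atTop, Set.mem_iUnion, Set.mem_iInter,
        Subtype.forall]
    rw [hU, measure_iUnion_null_iff]
    intro j
    have hle : ∀ i : ℕ, j ≤ i →
        annealed Q 0 (⋂ i : {i : ℕ // j ≤ i}, DownIn u (10 ^ (i : ℕ)) (100 ^ (i : ℕ)))
          ≤ annealed Q 0 (DownIn u (10 ^ i) (100 ^ i)) := fun i hi =>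
      measure_mono (Set.iInter_subset_of_subset ⟨i, hi⟩ (Set.Subset.refl _))
    refine le_antisymm (ge_of_tendsto (tendsto_downIn hstat u hFL) ?_) zero_le
    filter_upwards [eventually_ge_atTop j] with i hi
    exact hle i hi
  have h00 : ∀ᵐ X ∂annealed Q 0, X 0 = 0 := by
    have hm : MeasurableSet {X : Path d | X 0 = 0} :=
      measurableSet_of_agree 0 _ fun X Y hXY => by
        simp only [Set.mem_ofPred_eq]
        rw [hXY 0 le_rfl]
    exact annealed_ae (A := {X : Path d | X 0 = 0}) hm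
      (Eventually.of_forall fun ω => quenched_zero_eq ω 0)
  have hT' : ∀ᵐ X ∂annealed Q 0, ¬ ∀ᶠ i : ℕ in atTop, X ∈ DownIn u (10 ^ i) (100 ^ i) := by
    rw [ae_iff]
    simpa using hT
  filter_upwards [hae, h00, hT'] with X h1 h2 h3 hesc hDn
  exact h3 (eventually_downIn u hv (h1 hesc) h2 hDn)

theorem stay_eq_dn (u : Step d) : Stay (dirVec (opp u)) = Dn u := by
  ext X
  simp only [Stay, Dn, Set.mem_ofPred_eq, L, sum_dirVec_opp]
  refine forall_congr' fun n => ?_
  rw [neg_le_neg_iff]
  exact_mod_cast Iff.rfl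

/-- **(FL) in direction `u` excludes escape in direction `-u`.** -/
theorem opp_zero {Q : Measure (Environment d)} [IsProbabilityMeasure Q]
    (hstat : ∀ z : Site d, MeasurePreserving (shiftEnv z) Q Q) (hS : SlabProp Q) (u : Step d)
    (hR : RetryProp Q (dirVec (opp u)))
    (hH : annealed Q 0 (escapeEvent (dirVec (opp u))) ≠ 0 →
      HalfSpace (annealed Q 0) (dirVec (opp u)))
    (hFL : FL Q u) : annealed Q 0 (escapeEvent (dirVec (opp u))) = 0 := by
  by_contra hne
  have hp := Kal132.pD_pos hstat (dirVec (opp u)) hne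
  have hnot := ae_not_dn hstat u hFL (hH hne)
  apply hp
  rw [stay_eq_dn]
  have hud := Kal132.updown hS (dirVec (opp u)) (B2d.dirVec_ne_zero (opp u))
  have hesc := Kal132.escape_of_unbounded (dirVec (opp u)) hR hp
  have : ∀ᵐ X ∂annealed Q 0, X ∉ Dn u := by
    filter_upwards [hnot, hud, hesc] with X h1 h2 h3 hDn
    rcases h2 with h2 | h2
    · exact h1 (h3 h2) hDn
    · have h4 : X ∈ Stay (dirVec (opp u)) := by rw [stay_eq_dn]; exact hDn
      have h5 := (h2.eventually_lt_atBot (L (dirVec (opp u)) (X 0))).exists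
      obtain ⟨n, hn⟩ := h5
      exact absurd (h4 n) (not_le.2 hn)
  rw [ae_iff] at this
  simpa using this

end Crest.Agent.R154.Fin804
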