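import Crest.Agent.R154.Planar_999
import Crest.Agent.R154.DoobQ_804
import Crest.Agent.R154.FinB_804
import Crest.Agent.R154.B9Ann_409
import Crest.Agent.R154.ExK_9
import Crest.Agent.R154.River_916
import Crest.Agent.R154.Bind_263

-- ▼ part R154/RiverQ_999
section

/-!
# Row 154, d = 2 block: the quenched river inequality `a + c ≤ 1` (310 #15759 (1)), helper999

`Ex ω B T z` = quenched probability, from `z`, to reach `T` while all earlier sites are in `B`.
`ex_add_le_one`: if every nearest neighbour path of `Y` from `y` through `BY` to `F'` meets every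
nearest neighbour path of `X` from `x` through `BX ⊆ BY` to `F`, then
`P^x(BX, F) + P^y(BY, F') ≤ 1`, for every elliptic environment.
`cross_add_climb_le_one`: the planar case `d = 2`.
-/

set_option autoImplicit false

open MeasureTheory ProbabilityTheory Crest.ProbabilityR.RandomEnvironment
open scoped ENNReal

namespace Crest.Agent.R154.RiverQ999

open Crest.Agent.R154.Planar999 Crest.Agent.R154.Doob804

/-! ## Deterministic two-river lemma -/

/-- Two applications of the river lemma. -/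
theorem river_two {V E : Type*} [Fintype E] (nb : E → V → V) (w : V → E → ℝ)
    (BX BY F F' : Set V) (hBY : BY.Finite) (hsub : BX ⊆ BY)
    (hw : ∀ z ∈ BY, ∀ e, 0 < w z e) (hw1 : ∀ z ∈ BY, ∑ e, w z e = 1)
    (u v : V → ℝ) (hu : ∀ z ∈ BX, u z ≤ ∑ e, w z e * u (nb e z))
    (hv : ∀ z ∈ BY, v z ≤ ∑ e, w z e * v (nb e z))
    (hu0 : ∀ z, z ∉ BX → z ∉ F → u z ≤ 0) (hv0 : ∀ z, z ∉ BY → z ∉ F' → v z ≤ 0)
    (hu1 : ∀ z, u z ≤ 1) (hv1 : ∀ z, v z ≤ 1) (huv : ∀ z ∈ BX, u z + v z ≤ 1)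
    (e0 : E) (f : V → ℤ) (hf : ∀ z, f z < f (nb e0 z)) (x y : V) (hx : x ∈ BX) (hy : y ∈ BY)
    (hF : ∀ z ∈ F, z ∉ BY) (hFF : ∀ z ∈ F, z ∉ F')
    (hmeet : ∀ (n m : ℕ) (p q : ℕ → V), p 0 = y →
      (∀ i < n, p i ∈ BY ∧ ∃ e, p (i + 1) = nb e (p i)) → p n ∈ F' → q 0 = x →
      (∀ j < m, q j ∈ BX ∧ ∃ e, q (j + 1) = nb e (q j)) → q m ∈ F →
      ∃ i ≤ n, ∃ j ≤ m, p i = q j) :
    u x + v y ≤ 1 := by
  classical
  by_cases hux : u x ≤ 0
  · have := hv1 y
    linarith
  push Not at hux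
  obtain ⟨m, q, hq0, hqs, hqu, hqm⟩ := river nb w BX (hBY.subset hsub)
    (fun z hz => hw z (hsub hz)) (fun z hz => hw1 z (hsub hz)) u hu e0 f hf x hx
  have hqF : q m ∈ F := by
    by_contra hcon
    have := hu0 _ hqm hcon
    have := hqu m le_rfl
    linarith
  -- the river as a set of sites of `BX`
  set Γ : Set V := {z | ∃ j < m, q j = z} with hΓ
  by_cases hyΓ : y ∈ Γ
  · obtain ⟨j, hj, hjy⟩ := hyΓ
    have h1 := hqu j hj.le
    rw [hjy] at h1
    have hyX : y ∈ BX := hjy ▸ (hqs j hj).1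
    have := huv y hyX
    linarith
  · obtain ⟨n, p, hp0, hps, hpv, hpn⟩ := river nb w (BY \ Γ) (hBY.subset Set.sdiff_subset)
      (fun z hz => hw z hz.1) (fun z hz => hw1 z hz.1) v (fun z hz => hv z hz.1) e0 f hf y
      ⟨hy, hyΓ⟩
    have h1 := hpv n le_rfl
    by_cases hnΓ : p n ∈ Γ
    · obtain ⟨j, hj, hjn⟩ := hnΓ
      have h2 := hqu j hj.le
      rw [hjn] at h2
      have hX : p n ∈ BX := hjn ▸ (hqs j hj).1
      have := huv _ hX
      linarith
    · have hnB : p n ∉ BY := fun h => hpn ⟨h, hnΓ⟩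
      by_cases hnF : p n ∈ F'
      · exfalso
        obtain ⟨i, hi, j, hj, hij⟩ := hmeet n m p q hp0
          (fun i hi => ⟨(hps i hi).1.1, (hps i hi).2⟩) hnF hq0 hqs hqF
        rcases Nat.lt_or_ge j m with hjm | hjm
        · rcases Nat.lt_or_ge i n with hin | hin
          · exact (hps i hin).1.2 ⟨j, hjm, hij.symm⟩
          · have : i = n := le_antisymm hi hin
            subst this
            exact hnΓ ⟨j, hjm, hij.symm⟩
        · have hj' : j = m := le_antisymm hj hjm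
          subst hj'
          rcases Nat.lt_or_ge i n with hin | hin
          · exact hF _ (hij ▸ hqF) (hps i hin).1.1
          · have : i = n := le_antisymm hi hin
            subst this
            exact hFF _ (hij ▸ hqF) hnF
      · have := hv0 _ hnB hnF
        have := hv1 y
        have h3 : v y ≤ 0 := by linarith
        have h4 := hu1 x
        linarith

/-! ## Quenched exit probabilities -/

variable {d : ℕ}

/-- the event `reach T through B` -/
def exE (B T : Set (Site d)) : Set (Path d) := {X | ∃ n, X n ∈ T ∧ ∀ i < n, X i ∈ B}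

/-- quenched probability, from `z`, of reaching `T` through `B` -/
noncomputable def Ex (ω : Environment d) (B T : Set (Site d)) (z : Site d) : ℝ≥0∞ :=
  quenchedLaw ω z (exE B T)

lemma measurableSet_exE (B T : Set (Site d)) : MeasurableSet (exE B T) := by
  have : exE B T = ⋃ n, {X : Path d | X n ∈ T ∧ ∀ i < n, X i ∈ B} := by
    ext X
    simp [exE]
  rw [this]
  refine MeasurableSet.iUnion fun n => measurableSet_of_agree n _ fun X Y hXY => ?_
  show (X n ∈ T ∧ ∀ i < n, X i ∈ B) ↔ (Y n ∈ T ∧ ∀ i < n, Y i ∈ B)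
  rw [hXY n le_rfl]
  refine and_congr Iff.rfl (forall_congr' fun i => forall_congr' fun hi => ?_)
  rw [hXY i hi.le]

lemma Ex_le_one (ω : Environment d) (B T : Set (Site d)) (z : Site d) : Ex ω B T z ≤ 1 :=
  prob_le_one

lemma Ex_ne_top (ω : Environment d) (B T : Set (Site d)) (z : Site d) : Ex ω B T z ≠ ⊤ :=
  ((Ex_le_one ω B T z).trans_lt ENNReal.one_lt_top).ne

lemma exE_mono {B B' T : Set (Site d)} (h : B ⊆ B') : exE B T ⊆ exE B' T := by
  rintro X ⟨n, h1, h2⟩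
  exact ⟨n, h1, fun i hi => h (h2 i hi)⟩

lemma Ex_mono (ω : Environment d) {B B' T : Set (Site d)} (h : B ⊆ B') (z : Site d) :
    Ex ω B T z ≤ Ex ω B' T z := measure_mono (exE_mono h)

/-- one step -/
lemma Ex_step (ω : Environment d) {B T : Set (Site d)} {z : Site d} (hz : z ∈ B) (hT : z ∉ T) :
    Ex ω B T z = ∑ e : Step d, ENNReal.ofReal ((ω z).1 e) * Ex ω B T (z + stepVec e) := by
  unfold Ex
  rw [quenched_markov_one ω z (exE B T) (measurableSet_exE B T)]
  refine Finset.sum_congr rfl fun e _ => ?_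
  congr 2
  ext X
  show consP z X ∈ exE B T ↔ X ∈ exE B T
  constructor
  · rintro ⟨n, h1, h2⟩
    cases n with
    | zero => exact absurd h1 hT
    | succ n => exact ⟨n, h1, fun i hi => h2 (i + 1) (by omega)⟩
  · rintro ⟨n, h1, h2⟩
    refine ⟨n + 1, h1, fun i hi => ?_⟩
    cases i with
    | zero => exact hz
    | succ i => exact h2 i (by omega)

lemma Ex_zero (ω : Environment d) {B T : Set (Site d)} {z : Site d} (hz : z ∉ B) (hT : z ∉ T) :
    Ex ω B T z = 0 := by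
  unfold Ex
  rw [measure_eq_zero_iff_ae_notMem]
  filter_upwards [quenched_start ω z] with X hX
  rintro ⟨n, h1, h2⟩
  cases n with
  | zero => exact hT (hX ▸ h1)
  | succ n => exact hz (hX ▸ h2 0 (by omega))


lemma Ex_add_le (ω : Environment d) {B F F' : Set (Site d)} (hF : ∀ z ∈ F, z ∉ B)
    (hF' : ∀ z ∈ F', z ∉ B) (hFF : ∀ z ∈ F, z ∉ F') (z : Site d) :
    Ex ω B F z + Ex ω B F' z ≤ 1 := by
  unfold Ex
  rw [← measure_union _ (measurableSet_exE B F')]
  · exact prob_le_one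
  · rw [Set.disjoint_left]
    rintro X ⟨n, h1, h2⟩ ⟨m, h3, h4⟩
    rcases Nat.lt_trichotomy n m with h | h | h
    · exact hF _ h1 (h4 n h)
    · subst h
      exact hFF _ h1 h3
    · exact hF' _ h3 (h2 m h)

/-- exhaustion of the region by an increasing sequence -/
lemma Ex_iSup (ω : Environment d) (B T : Set (Site d)) (Bk : ℕ → Set (Site d)) (hm : Monotone Bk)
    (hk : ⋃ k, Bk k = B) (z : Site d) : Ex ω B T z = ⨆ k, Ex ω (Bk k) T z := by
  unfold Ex
  have h1 : exE B T = ⋃ k, exE (Bk k) T := by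
    ext X
    rw [Set.mem_iUnion]
    constructor
    · rintro ⟨n, h1, h2⟩
      have h3 : ∀ i, ∃ k, i < n → X i ∈ Bk k := by
        intro i
        by_cases hi : i < n
        · have := h2 i hi
          rw [← hk, Set.mem_iUnion] at this
          obtain ⟨k, hk'⟩ := this
          exact ⟨k, fun _ => hk'⟩
        · exact ⟨0, fun h => absurd h hi⟩
      choose K hK using h3
      refine ⟨(Finset.range n).sup K, n, h1, fun i hi => ?_⟩
      exact hm (Finset.le_sup (Finset.mem_range.2 hi)) (hK i hi)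
    · rintro ⟨k, n, h1, h2⟩
      exact ⟨n, h1, fun i hi => hk ▸ Set.mem_iUnion.2 ⟨k, h2 i hi⟩⟩
  rw [h1]
  exact (show Monotone fun k => exE (Bk k) T from fun a b hab => exE_mono (hm hab)).measure_iUnion

/-! ## The inequality -/

/-- **`a + c ≤ 1`**, finite region. -/
theorem ex_add_le_one_fin (i0 : Fin d) (ω : Environment d) (hω : ∀ z e, 0 < (ω z).1 e)
    (BX BY F F' : Set (Site d)) (hBY : BY.Finite) (hsub : BX ⊆ BY)
    (hF : ∀ z ∈ F, z ∉ BY) (hFF : ∀ z ∈ F, z ∉ F') (hF' : ∀ z ∈ F', z ∉ BY)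
    (x y : Site d) (hx : x ∈ BX) (hy : y ∈ BY)
    (hmeet : ∀ (n m : ℕ) (p q : Path d), p 0 = y →
      (∀ i < n, p i ∈ BY ∧ ∃ e, p (i + 1) = p i + stepVec e) → p n ∈ F' → q 0 = x →
      (∀ j < m, q j ∈ BX ∧ ∃ e, q (j + 1) = q j + stepVec e) → q m ∈ F →
      ∃ i ≤ n, ∃ j ≤ m, p i = q j) :
    Ex ω BX F x + Ex ω BY F' y ≤ 1 := by
  have hreal : ∀ (B T : Set (Site d)) (z : Site d), z ∈ B → z ∉ T →
      (Ex ω B T z).toReal = ∑ e : Step d, (ω z).1 e * (Ex ω B T (z + stepVec e)).toReal := by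
    intro B T z hz hT
    rw [Ex_step ω hz hT, ENNReal.toReal_sum]
    · refine Finset.sum_congr rfl fun e _ => ?_
      rw [ENNReal.toReal_mul, ENNReal.toReal_ofReal (hω z e).le]
    · intro e _
      exact ENNReal.mul_ne_top ENNReal.ofReal_ne_top (Ex_ne_top _ _ _ _)
  have hle1 : ∀ (B T : Set (Site d)) (z : Site d), (Ex ω B T z).toReal ≤ 1 := by
    intro B T z
    have := ENNReal.toReal_mono ENNReal.one_ne_top (Ex_le_one ω B T z)
    simpa using this
  have hmain := river_two (fun e z => z + stepVec e) (fun z e => (ω z).1 e) BX BY F F' hBY hsub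
    (fun z _ e => hω z e) (fun z _ => (ω z).2.2)
    (fun z => (Ex ω BX F z).toReal) (fun z => (Ex ω BY F' z).toReal)
    (fun z hz => (hreal BX F z hz (fun h => hF z h (hsub hz))).le)
    (fun z hz => (hreal BY F' z hz (fun h => hF' z h hz)).le)
    (fun z h1 h2 => by rw [Ex_zero ω h1 h2]; simp)
    (fun z h1 h2 => by rw [Ex_zero ω h1 h2]; simp)
    (fun z => hle1 _ _ _) (fun z => hle1 _ _ _)
    (fun z hz => by
      rw [← ENNReal.toReal_add (Ex_ne_top _ _ _ _) (Ex_ne_top _ _ _ _)]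
      have h1 : Ex ω BX F z + Ex ω BY F' z ≤ 1 :=
        (add_le_add_left (Ex_mono ω hsub z) _).trans (Ex_add_le ω hF hF' hFF z)
      simpa using ENNReal.toReal_mono ENNReal.one_ne_top h1)
    (i0, true) (fun z => z i0) (fun z => by simp [stepVec]) x y hx hy hF hFF hmeet
  rw [← ENNReal.toReal_add (Ex_ne_top _ _ _ _) (Ex_ne_top _ _ _ _)] at hmain
  rw [← ENNReal.toReal_one] at hmain
  exact (ENNReal.toReal_le_toReal (ENNReal.add_ne_top.2 ⟨Ex_ne_top _ _ _ _, Ex_ne_top _ _ _ _⟩)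
    ENNReal.one_ne_top).1 hmain

/-- the box of radius `k` -/
def box (k : ℕ) : Set (Site d) := {z | ∀ i, |z i| ≤ k}

lemma box_finite (k : ℕ) : (box k : Set (Site d)).Finite := by
  have : (box k : Set (Site d)) = {f | ∀ i, f i ∈ Set.Icc (-(k : ℤ)) k} := by
    ext z
    simp [box, abs_le]
  rw [this]
  exact Set.Finite.pi' fun _ => Set.finite_Icc _ _

/-- **`a + c ≤ 1`**: `BX` finite, `BY ⊇ BX` arbitrary. -/
theorem ex_add_le_one (i0 : Fin d) (ω : Environment d) (hω : ∀ z e, 0 < (ω z).1 e)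
    (BX BY F F' : Set (Site d)) (hBX : BX.Finite) (hsub : BX ⊆ BY)
    (hF : ∀ z ∈ F, z ∉ BY) (hFF : ∀ z ∈ F, z ∉ F') (hF' : ∀ z ∈ F', z ∉ BY)
    (x y : Site d) (hx : x ∈ BX) (hy : y ∈ BY)
    (hmeet : ∀ (n m : ℕ) (p q : Path d), p 0 = y →
      (∀ i < n, p i ∈ BY ∧ ∃ e, p (i + 1) = p i + stepVec e) → p n ∈ F' → q 0 = x →
      (∀ j < m, q j ∈ BX ∧ ∃ e, q (j + 1) = q j + stepVec e) → q m ∈ F →
      ∃ i ≤ n, ∃ j ≤ m, p i = q j) :
    Ex ω BX F x + Ex ω BY F' y ≤ 1 := by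
  set Bk : ℕ → Set (Site d) := fun k => BX ∪ {y} ∪ (BY ∩ box k) with hBk
  have hm : Monotone Bk := by
    intro a b hab
    refine Set.union_subset_union le_rfl (Set.inter_subset_inter le_rfl ?_)
    intro z hz i
    exact (hz i).trans (by exact_mod_cast hab)
  have hBkY : ∀ k, Bk k ⊆ BY := by
    rintro k z ((hz | hz) | hz)
    · exact hsub hz
    · rw [Set.mem_singleton_iff.1 hz]; exact hy
    · exact hz.1
  have hU : ⋃ k, Bk k = BY := by
    refine Set.Subset.antisymm (Set.iUnion_subset hBkY) ?_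
    intro z hz
    rw [Set.mem_iUnion]
    refine ⟨∑ i, (z i).natAbs, Or.inr ⟨hz, ?_⟩⟩
    intro i
    rw [Int.abs_eq_natAbs]
    exact_mod_cast Finset.single_le_sum (f := fun i => (z i).natAbs) (fun _ _ => Nat.zero_le _)
      (Finset.mem_univ i)
  rw [Ex_iSup ω BY F' Bk hm hU y, ENNReal.add_iSup]
  refine iSup_le fun k => ?_
  refine ex_add_le_one_fin i0 ω hω BX (Bk k) F F' ?_ ?_ (fun z hz h => hF z hz (hBkY k h)) hFF
    (fun z hz h => hF' z hz (hBkY k h)) x y hx (Or.inl (Or.inr rfl)) ?_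
  · exact (hBX.union (Set.finite_singleton y)).union ((box_finite k).subset Set.inter_subset_right)
  · exact fun z hz => Or.inl (Or.inl hz)
  · intro n m p q h1 h2 h3 h4 h5 h6
    exact hmeet n m p q h1 (fun i hi => ⟨hBkY k (h2 i hi).1, (h2 i hi).2⟩) h3 h4 h5 h6


end Crest.Agent.R154.RiverQ999
end

-- ▼ part R154/FinC_804
section

/-!
Row 154 (helper804): the output of helper409's `annealed_decay` (S3 of block B9) from the
finite-level statement `FL` instead of the tail (QT) of the quenched escape probability.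
The proofs follow B9Quen_409 with `NoRet` replaced by `NoRetL` (climb `L` levels before returning)
and all visits counted before the exit of the slab of `L` levels.
-/

set_option autoImplicit false

namespace Crest.Agent.R154.Fin804

open MeasureTheory ProbabilityTheory Crest.ProbabilityR.RandomEnvironment Crest.Agent.R154
open Crest.Agent.R154.Flux132 (lev)
open Crest.Agent.R154.B9409
open scoped ENNReal

variable {d : ℕ}











/-! ### annealed -/














/-- the level as an additive homomorphism. -/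
def levH (u : Step d) : Site d →+ ℤ where
  toFun := lev u
  map_zero' := by simp [lev]
  map_add' := lev_add u



end Crest.Agent.R154.Fin804
namespace Crest.Agent.R154.Fin804.FL
end Crest.Agent.R154.Fin804.FL
end

-- ▼ part R154/Slab_491

/-!
# Row 154, `d = 2` block, helper491: the slab lemma (lateral exits of a slanted slab)

`sl z = lt z - v (lv z)` = slanted lateral coordinate, `v : ℤ → ℤ` ARBITRARY.  Slab `l0 ≤ lv < l1`.
* `slant_cross` : quenched planar inequality `climb of the column + lateral crossing ≤ 1`;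
* `slab_right`, `slab_left`, `slab_two` : annealed geometric decay of the lateral exits, with any
  past read outside the part of the slab which has to be crossed.
-/

set_option autoImplicit false

namespace Crest.Agent.R154.Slab491

open MeasureTheory ProbabilityTheory Crest.ProbabilityR.RandomEnvironment
open Crest.Agent.R154 Crest.Agent.R154.Planar999 Crest.Agent.R154.ExK9
open scoped ENNReal

variable {d : ℕ}

section geo

variable (lt lv : Site d →+ ℤ) (v : ℤ → ℤ) (l0 l1 : ℤ)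

/-- slanted lateral coordinate -/
def sl (z : Site d) : ℤ := lt z - v (lv z)

/-- part of the slab on the left of `r` -/
def LeftOf (r : ℤ) : Set (Site d) := {z | l0 ≤ lv z ∧ lv z < l1 ∧ sl lt lv v z < r}

/-- part of the slab on the right of `r` -/
def RightOf (r : ℤ) : Set (Site d) := {z | l0 ≤ lv z ∧ lv z < l1 ∧ r ≤ sl lt lv v z}

/-- slanted column of half width `A` around `a` -/
def Col (a A : ℤ) : Set (Site d) :=
  {z | l0 ≤ lv z ∧ lv z < l1 ∧ a - A < sl lt lv v z ∧ sl lt lv v z < a + A}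

/-- the level `l1` -/
def TopS : Set (Site d) := {z | lv z = l1}

lemma Col_finite (hinj : ∀ z z', lt z = lt z' → lv z = lv z' → z = z') (a A : ℤ) :
    (Col lt lv v l0 l1 a A).Finite := by
  have hφ : Function.Injective fun z : Site d => (lt z, lv z) := by
    intro z z' h
    rw [Prod.mk.injEq] at h
    exact hinj _ _ h.1 h.2
  have hfin : ((⋃ l ∈ Set.Ico l0 l1, (Set.Ioo (a - A + v l) (a + A + v l) ×ˢ {l})) :
      Set (ℤ × ℤ)).Finite :=
    Set.Finite.biUnion (Set.finite_Ico l0 l1) fun l _ =>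
      (Set.finite_Ioo _ _).prod (Set.finite_singleton l)
  refine (hfin.preimage hφ.injOn).subset ?_
  rintro z ⟨h0, h1, h2, h3⟩
  simp only [sl] at h2 h3
  simp only [Set.mem_preimage, Set.mem_iUnion, Set.mem_prod, Set.mem_Ioo, Set.mem_Ico,
    Set.mem_singleton_iff, exists_prop]
  exact ⟨lv z, ⟨h0, h1⟩, ⟨by omega, by omega⟩, rfl⟩

end geo

/-! ## The quenched planar inequality -/

section cross

variable {lt lv : Site d →+ ℤ} {v : ℤ → ℤ} {l0 l1 : ℤ}

/-- **the quenched planar inequality in a slanted slab** -/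
theorem slant_cross (i0 : Fin d) (ω : Environment d) (hω : ∀ z e, 0 < (ω z).1 e)
    (hstp : ∀ z (e : Step d), Stp (lt z, lv z) (lt (z + stepVec e), lv (z + stepVec e)))
    (hinj : ∀ z z', lt z = lt z' → lv z = lv z' → z = z')
    {a A r : ℤ} (har : a + A ≤ r) {x y : Site d} (hx : x ∈ Col lt lv v l0 l1 a A)
    (hxl : lv x = l0) (hy : y ∈ LeftOf lt lv v l0 l1 r) (hya : sl lt lv v y ≤ a - A) :
    HK ω (Col lt lv v l0 l1 a A) x (TopS lv l1) +
      HK ω (LeftOf lt lv v l0 l1 r) y (RightOf lt lv v l0 l1 r) ≤ 1 := by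
  refine RiverQ999.ex_add_le_one i0 ω hω (Col lt lv v l0 l1 a A) (LeftOf lt lv v l0 l1 r)
    (TopS lv l1) (RightOf lt lv v l0 l1 r) (Col_finite lt lv v l0 l1 hinj a A) ?_ ?_ ?_ ?_ x y
    hx hy ?_
  · rintro z ⟨h0, h1, h2, h3⟩
    exact ⟨h0, h1, by omega⟩
  · intro z hz h
    have h1 : lv z = l1 := hz
    have h2 := h.2.1
    omega
  · intro z hz h
    have h1 : lv z = l1 := hz
    have h2 := h.2.1
    omega
  · intro z hz h
    have h1 := hz.2.2
    have h2 := h.2.2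
    omega
  · intro n m p q hp0 hps hpn hq0 hqs hqm
    have hP : ∀ i ≤ n, l0 ≤ lv (p i) ∧ lv (p i) < l1 := by
      intro i hi
      rcases Nat.lt_or_ge i n with h | h
      · exact ⟨(hps i h).1.1, (hps i h).1.2.1⟩
      · rw [le_antisymm hi h]; exact ⟨hpn.1, hpn.2.1⟩
    have hqm' : lv (q m) = l1 := hqm
    obtain ⟨i, hi, j, hj, hij⟩ := River916.planar_ext (fun i => (lt (p i), lv (p i)))
      (fun j => (lt (q j), lv (q j))) n m
      (fun i hi => by obtain ⟨e, he⟩ := (hps i hi).2; simp only [he]; exact hstp _ _)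
      (fun j hj => by obtain ⟨e, he⟩ := (hqs j hj).2; simp only [he]; exact hstp _ _)
      (fun j hj hl => by
        simp only [hp0] at hl ⊢
        rcases Nat.lt_or_ge j m with h | h
        · have h1 := (hqs j h).1.2.2.1
          simp only [sl] at h1 hya
          rw [hl] at h1
          omega
        · have h2 := hy.2.1
          rw [le_antisymm hj h, hqm'] at hl
          omega)
      (fun j hj hl => by
        simp only at hl ⊢
        rcases Nat.lt_or_ge j m with h | h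
        · have h1 := (hqs j h).1.2.2.2
          have h2 := hpn.2.2
          simp only [sl] at h1 h2
          rw [hl] at h1
          omega
        · have h2 := hpn.2.1
          rw [le_antisymm hj h, hqm'] at hl
          omega)
      (fun i hi => by simp only [hq0, hxl]; exact (hP i hi).1)
      (fun i hi => by simp only [hqm']; exact (hP i hi).2.le)
    simp only [Prod.mk.injEq] at hij
    exact ⟨i, hi, j, hj, hinj _ _ hij.1 hij.2⟩

end cross

/-! ## Composition of hitting kernels -/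

/-- hitting after the exit of a smaller set -/
theorem HK_comp (ω : Environment d) {A A' T : Set (Site d)} (h : A ⊆ A') (hT : Disjoint A' T)
    (x : Site d) : HK ω A' x T = ∑' z, EK ω A x z * HK ω A' z T := by
  have hA : A' \ T = A' := hT.sdiff_eq_left
  have e1 : ∀ z, HK ω A' z T = ∑' y, T.indicator (EK ω A' z) y := by
    intro z
    rw [HK_eq, hA]
  rw [e1]
  simp only [e1]
  calc ∑' y, T.indicator (EK ω A' x) y
      = ∑' y, ∑' z, EK ω A x z * T.indicator (EK ω A' z) y := by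
        refine tsum_congr fun y => ?_
        by_cases hy : y ∈ T
        · simp only [Set.indicator_of_mem hy]
          exact EK_comp ω h x y
        · simp only [Set.indicator_of_notMem hy, mul_zero, tsum_zero]
    _ = ∑' z, ∑' y, EK ω A x z * T.indicator (EK ω A' z) y := ENNReal.tsum_comm
    _ = _ := by
        refine tsum_congr fun z => ?_
        rw [ENNReal.tsum_mul_left]

lemma HK_zero (ω : Environment d) {A T : Set (Site d)} {x : Site d} (hA : x ∉ A) (hT : x ∉ T) :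
    HK ω A x T = 0 := RiverQ999.Ex_zero ω hA hT

/-! ## Jumps of the slant -/

section jump

variable {lt lv : Site d →+ ℤ} {v : ℤ → ℤ} {l0 l1 : ℤ}

/-- a quenched event of positive probability contains a nearest neighbour path -/
lemma exists_path (ω : Environment d) (x : Site d) {B : Set (Path d)}
    (hB : quenchedLaw ω x B ≠ 0) :
    ∃ X ∈ B, X 0 = x ∧ ∀ n, ∃ e : Step d, X (n + 1) = X n + stepVec e := by
  by_contra hcon
  push Not at hcon
  refine hB (measure_eq_zero_iff_ae_notMem.2 ?_)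
  filter_upwards [quenched_zero_eq ω x, quenched_nn ω x] with X h0 hnn hX
  obtain ⟨n, hn⟩ := hcon X hX h0
  obtain ⟨e, he⟩ := hnn n
  exact hn e he

/-- if the slanted column can be climbed, the slant has jumps `< 2 A` -/
lemma jump_lt (ω : Environment d)
    (hstp : ∀ z (e : Step d), Stp (lt z, lv z) (lt (z + stepVec e), lv (z + stepVec e)))
    {a A : ℤ} {x : Site d} (hxl : lv x = l0)
    (hc : HK ω (Col lt lv v l0 l1 a A) x (TopS lv l1) ≠ 0) {l : ℤ} (hl0 : l0 ≤ l)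
    (hl1 : l + 1 < l1) : |v (l + 1) - v l| < 2 * A := by
  obtain ⟨X, ⟨n, hn, hi⟩, h0, hnn⟩ := exists_path ω x hc
  classical
  have hn' : lv (X n) = l1 := hn
  have hex : ∃ j, l + 1 ≤ lv (X j) := ⟨n, by omega⟩
  set j := Nat.find hex with hj
  have hj1 : l + 1 ≤ lv (X j) := Nat.find_spec hex
  have hjn : j ≤ n := Nat.find_min' hex (by omega)
  have hj0 : j ≠ 0 := by
    intro h
    rw [h, h0, hxl] at hj1
    omega
  obtain ⟨k, hk⟩ := Nat.exists_eq_succ_of_ne_zero hj0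
  have hk1 : ¬ (l + 1 ≤ lv (X k)) := Nat.find_min hex (by omega)
  obtain ⟨e, he⟩ := hnn k
  have hs := hstp (X k) e
  rw [← he] at hs
  rw [hk] at hj1 hjn
  change l + 1 ≤ lv (X (k + 1)) at hj1
  change k + 1 ≤ n at hjn
  simp only [Stp] at hs
  have hlk : lv (X k) = l := by omega
  have hlk1 : lv (X (k + 1)) = l + 1 := by omega
  have hlt : lt (X (k + 1)) = lt (X k) := by omega
  have hkn : k + 1 < n := by
    rcases Nat.lt_or_ge (k + 1) n with h | h
    · exact h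
    · have : k + 1 = n := le_antisymm hjn h
      rw [this] at hlk1
      omega
  have h1 := hi k (by omega)
  have h2 := hi (k + 1) hkn
  obtain ⟨-, -, h3, h4⟩ := h1
  obtain ⟨-, -, h5, h6⟩ := h2
  simp only [sl, hlk, hlk1, hlt] at h3 h4 h5 h6
  rw [abs_lt]
  constructor <;> omega

/-- exit points of the left part into the right part -/
lemma exit_le (ω : Environment d)
    (hstp : ∀ z (e : Step d), Stp (lt z, lv z) (lt (z + stepVec e), lv (z + stepVec e)))
    {A r : ℤ} (hv : ∀ l, l0 ≤ l → l + 1 < l1 → |v (l + 1) - v l| < 2 * A) (hA : 0 < A)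
    {x z : Site d} (hx : x ∈ LeftOf lt lv v l0 l1 r)
    (hz : EK ω (LeftOf lt lv v l0 l1 r) x z ≠ 0) (hzr : z ∈ RightOf lt lv v l0 l1 r) :
    sl lt lv v z < r + 2 * A := by
  obtain ⟨X, ⟨hzA, n, hn, hi⟩, h0, hnn⟩ := exists_path ω x hz
  cases n with
  | zero =>
    rw [h0] at hn
    exact absurd (hn ▸ hx) hzA
  | succ n =>
    obtain ⟨e, he⟩ := hnn n
    have hs := hstp (X n) e
    rw [← he, hn] at hs
    obtain ⟨g0, g1, g2⟩ := hi n (Nat.lt_succ_self n)
    obtain ⟨k0, k1, k2⟩ := hzr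
    simp only [Stp] at hs
    simp only [sl] at g2 k2 ⊢
    rcases hs with h | h | h | h | h
    · rw [h.1, h.2]; omega
    · rw [h.1, h.2]; omega
    · rw [h.1, h.2]; omega
    · have h3 := hv (lv (X n)) g0 (by omega)
      rw [abs_lt] at h3
      rw [h.1, h.2]
      omega
    · have h3 := hv (lv (X n) - 1) (by omega) (by omega)
      rw [abs_lt] at h3
      rw [sub_add_cancel] at h3
      rw [h.1, h.2]
      omega

end jump

/-! ## One crossing step -/

section step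

variable {lt lv : Site d →+ ℤ} {v : ℤ → ℤ} {l0 l1 : ℤ}

/-- **quenched step**: crossing `4 A` more columns costs the factor `1 - (climb of the column)` -/
theorem step_le (i0 : Fin d) (ω : Environment d) (hω : ∀ z e, 0 < (ω z).1 e)
    (hstp : ∀ z (e : Step d), Stp (lt z, lv z) (lt (z + stepVec e), lv (z + stepVec e)))
    (hinj : ∀ z z', lt z = lt z' → lv z = lv z' → z = z')
    {A r : ℤ} (hA : 0 < A) {x x0 : Site d} (hl : l0 < l1) (hxl : lv x = l0)
    (hxs : sl lt lv v x = r + 3 * A) (hx0 : x0 ∈ LeftOf lt lv v l0 l1 r) :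
    HK ω (LeftOf lt lv v l0 l1 (r + 4 * A)) x0 (RightOf lt lv v l0 l1 (r + 4 * A)) ≤
      HK ω (LeftOf lt lv v l0 l1 r) x0 (RightOf lt lv v l0 l1 r) *
        (1 - HK ω (Col lt lv v l0 l1 (r + 3 * A) A) x (TopS lv l1)) := by
  have hsub : LeftOf lt lv v l0 l1 r ⊆ LeftOf lt lv v l0 l1 (r + 4 * A) := by
    rintro z ⟨h0, h1, h2⟩
    exact ⟨h0, h1, by omega⟩
  have hdis : ∀ s, Disjoint (LeftOf lt lv v l0 l1 s) (RightOf lt lv v l0 l1 s) := by
    intro s
    refine Set.disjoint_left.2 fun z h1 h2 => ?_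
    have := h1.2.2
    have := h2.2.2
    omega
  have hx : x ∈ Col lt lv v l0 l1 (r + 3 * A) A :=
    ⟨hxl.ge, by omega, by omega, by omega⟩
  rw [HK_comp ω hsub (hdis _) x0]
  have hGk : HK ω (LeftOf lt lv v l0 l1 r) x0 (RightOf lt lv v l0 l1 r) =
      ∑' z, (RightOf lt lv v l0 l1 r).indicator (EK ω (LeftOf lt lv v l0 l1 r) x0) z := by
    rw [HK_eq, (hdis r).sdiff_eq_left]
  rw [hGk, ← ENNReal.tsum_mul_right]
  refine ENNReal.tsum_le_tsum fun z => ?_
  by_cases hz : z ∈ RightOf lt lv v l0 l1 r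
  · rw [Set.indicator_of_mem hz]
    by_cases hE : EK ω (LeftOf lt lv v l0 l1 r) x0 z = 0
    · rw [hE]; simp
    · refine mul_le_mul_right ?_ _
      by_cases hc : HK ω (Col lt lv v l0 l1 (r + 3 * A) A) x (TopS lv l1) = 0
      · rw [hc, tsub_zero]
        exact HK_le_one _ _ _ _
      · have hv : ∀ l, l0 ≤ l → l + 1 < l1 → |v (l + 1) - v l| < 2 * A :=
          fun l h0 h1 => jump_lt ω hstp hxl hc h0 h1
        have hzs := exit_le ω hstp hv hA hx0 hE hz
        have hzL : z ∈ LeftOf lt lv v l0 l1 (r + 4 * A) := ⟨hz.1, hz.2.1, by omega⟩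
        have := slant_cross i0 ω hω hstp hinj (a := r + 3 * A) (A := A) (r := r + 4 * A)
          (by omega) hx hxl hzL (by omega)
        rw [add_comm] at this
        exact ENNReal.le_sub_of_add_le_right (ne_top_of_le_ne_top ENNReal.one_ne_top
          (HK_le_one _ _ _ _)) this
  · rw [Set.indicator_of_notMem hz, zero_mul]
    by_cases hE : EK ω (LeftOf lt lv v l0 l1 r) x0 z = 0
    · rw [hE, zero_mul]
    · have hzL : z ∉ LeftOf lt lv v l0 l1 r := fun h => hE (EK_of_mem h ω x0)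
      have hzs : ¬ (l0 ≤ lv z ∧ lv z < l1) := by
        rintro ⟨h0, h1⟩
        rcases lt_or_ge (sl lt lv v z) r with h | h
        · exact hzL ⟨h0, h1, h⟩
        · exact hz ⟨h0, h1, h⟩
      rw [HK_zero ω (fun h => hzs ⟨h.1, h.2.1⟩) (fun h => hzs ⟨h.1, h.2.1⟩), mul_zero]

end step

/-! ## Shift of the climbs -/

section shift

/-- **shift covariance** -/
theorem HK_shift (z : Site d) (ω : Environment d) (A T : Set (Site d)) (x : Site d) :
    HK ω (trS z A) (x + z) (trS z T) = HK (shiftEnv z ω) A x T := by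
  unfold HK
  rw [Q561.quenched_shift_apply z ω x (measurableSet_HitS _ _)]
  congr 1
  ext X
  show (∃ n, X n + z ∈ trS z T ∧ ∀ i < n, X i + z ∈ trS z A) ↔
    (∃ n, X n ∈ T ∧ ∀ i < n, X i ∈ A)
  simp only [mem_trS]

variable {lt lv : Site d →+ ℤ} {v : ℤ → ℤ} {l0 l1 : ℤ}

lemma trS_Col {e1 : Site d} (h1 : lt e1 = 1) (h2 : lv e1 = 0) (b a A : ℤ) :
    trS (b • e1) (Col lt lv v l0 l1 a A) = Col lt lv v l0 l1 (a + b) A := by
  ext z
  have hl : lv (z - b • e1) = lv z := by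
    rw [map_sub, map_zsmul, h2, smul_zero, sub_zero]
  have ht : lt (z - b • e1) = lt z - b := by
    rw [map_sub, map_zsmul, h1, smul_eq_mul, mul_one]
  show (l0 ≤ lv (z - b • e1) ∧ lv (z - b • e1) < l1 ∧ a - A < lt (z - b • e1) -
    v (lv (z - b • e1)) ∧ lt (z - b • e1) - v (lv (z - b • e1)) < a + A) ↔
    (l0 ≤ lv z ∧ lv z < l1 ∧ a + b - A < lt z - v (lv z) ∧ lt z - v (lv z) < a + b + A)
  rw [hl, ht]
  omega

lemma trS_TopS {e1 : Site d} (h2 : lv e1 = 0) (b : ℤ) :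
    trS (b • e1) (TopS lv l1) = TopS lv l1 := by
  ext z
  show lv (z - b • e1) = l1 ↔ lv z = l1
  rw [map_sub, map_zsmul, h2, smul_zero, sub_zero]

/-- the annealed climbing probability of the column does not depend on the column -/
lemma lint_climb (ν : Measure (Row d)) [IsProbabilityMeasure ν] {e1 : Site d} (h1 : lt e1 = 1)
    (h2 : lv e1 = 0) (b A : ℤ) (x : Site d) :
    ∫⁻ ω, HK ω (Col lt lv v l0 l1 b A) (x + b • e1) (TopS lv l1) ∂(iidEnvironmentLaw ν) =
      ∫⁻ ω, HK ω (Col lt lv v l0 l1 0 A) x (TopS lv l1) ∂(iidEnvironmentLaw ν) := by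
  rw [← lint_shift (Q561.iid_shift ν (b • e1)) (meas_HK (Col lt lv v l0 l1 0 A) (TopS lv l1) x)]
  refine lintegral_congr fun ω => ?_
  rw [← HK_shift, trS_Col h1 h2, trS_TopS h2, zero_add]

end shift

/-! ## Geometric decay -/

section decay

variable {lt lv : Site d →+ ℤ} {v : ℤ → ℤ} {l0 l1 : ℤ}

lemma lint_one_sub {Q : Measure (Environment d)} [IsProbabilityMeasure Q] {f : Environment d → ℝ≥0∞}
    (hf : Measurable f) (hf1 : ∀ ω, f ω ≤ 1) : ∫⁻ ω, (1 - f ω) ∂Q = 1 - ∫⁻ ω, f ω ∂Q := by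
  rw [lintegral_sub hf ?_ (Filter.Eventually.of_forall hf1), lintegral_one, measure_univ]
  refine ne_top_of_le_ne_top ENNReal.one_ne_top ?_
  calc ∫⁻ ω, f ω ∂Q ≤ ∫⁻ _, 1 ∂Q := lintegral_mono hf1
    _ = 1 := by simp

/-- **one annealed step**, with a past `Φ` which does not read the column -/
theorem ann_step (i0 : Fin d) (ν : Measure (Row d)) [IsProbabilityMeasure ν]
    (hν : ∀ᵐ ω ∂(iidEnvironmentLaw ν), ∀ z e, 0 < (ω z).1 e)
    (hstp : ∀ z (e : Step d), Stp (lt z, lv z) (lt (z + stepVec e), lv (z + stepVec e)))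
    (hinj : ∀ z z', lt z = lt z' → lv z = lv z' → z = z')
    {e1 : Site d} (h1 : lt e1 = 1) (h2 : lv e1 = 0)
    {A r : ℤ} (hA : 0 < A) {xb x0 : Site d} (hl : l0 < l1) (hxl : lv xb = l0)
    (hxs : sl lt lv v xb = 0) (hx0 : x0 ∈ LeftOf lt lv v l0 l1 r)
    {S : Set (Site d)} (hS : ∀ z ∈ S, z ∉ RightOf lt lv v l0 l1 r) {Φ : Environment d → ℝ≥0∞}
    (hΦ : Measurable[coordSigmaAlgebra S] Φ) :
    ∫⁻ ω, Φ ω * HK ω (LeftOf lt lv v l0 l1 (r + 4 * A)) x0 (RightOf lt lv v l0 l1 (r + 4 * A))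
      ∂(iidEnvironmentLaw ν) ≤
    (∫⁻ ω, Φ ω * HK ω (LeftOf lt lv v l0 l1 r) x0 (RightOf lt lv v l0 l1 r)
      ∂(iidEnvironmentLaw ν)) *
      (1 - ∫⁻ ω, HK ω (Col lt lv v l0 l1 0 A) xb (TopS lv l1) ∂(iidEnvironmentLaw ν)) := by
  set x : Site d := xb + (r + 3 * A) • e1 with hx
  have hlx : lv x = l0 := by
    rw [hx, map_add, map_zsmul, h2, smul_zero, add_zero, hxl]
  have htx : sl lt lv v x = r + 3 * A := by
    simp only [sl] at hxs ⊢
    rw [hlx, hx, map_add, map_zsmul, h1, smul_eq_mul, mul_one, ← hxl]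
    omega
  set U : Set (Site d) := S ∪ LeftOf lt lv v l0 l1 r with hU
  set C : Set (Site d) := Col lt lv v l0 l1 (r + 3 * A) A with hC
  have hdis : Disjoint U C := by
    refine Set.disjoint_left.2 ?_
    rintro z (hz | hz) ⟨c0, c1, c2, c3⟩
    · exact hS z hz ⟨c0, c1, by omega⟩
    · have := hz.2.2
      omega
  calc ∫⁻ ω, Φ ω * HK ω (LeftOf lt lv v l0 l1 (r + 4 * A)) x0
        (RightOf lt lv v l0 l1 (r + 4 * A)) ∂(iidEnvironmentLaw ν)
      ≤ ∫⁻ ω, (Φ ω * HK ω (LeftOf lt lv v l0 l1 r) x0 (RightOf lt lv v l0 l1 r)) *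
          (1 - HK ω C x (TopS lv l1)) ∂(iidEnvironmentLaw ν) := by
        refine lintegral_mono_ae ?_
        filter_upwards [hν] with ω hω
        rw [mul_assoc]
        exact mul_le_mul_right (step_le i0 ω hω hstp hinj hA hl hlx htx hx0) _
    _ = (∫⁻ ω, Φ ω * HK ω (LeftOf lt lv v l0 l1 r) x0 (RightOf lt lv v l0 l1 r)
          ∂(iidEnvironmentLaw ν)) *
          ∫⁻ ω, (1 - HK ω C x (TopS lv l1)) ∂(iidEnvironmentLaw ν) := by
        refine lint_mul ν hdis ?_ ?_
        · exact (hΦ.mono (coord_mono Set.subset_union_left) le_rfl).mul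
            ((measA_HK _ _ _).mono (coord_mono Set.subset_union_right) le_rfl)
        · exact Measurable.const_sub (measA_HK _ _ _) _
    _ = _ := by
        rw [lint_one_sub (meas_HK _ _ _) (fun ω => HK_le_one _ _ _ _), hC, hx,
          lint_climb ν h1 h2]

/-- **geometric decay of the crossings to the right, any past** -/
theorem ann_pow (i0 : Fin d) (ν : Measure (Row d)) [IsProbabilityMeasure ν]
    (hν : ∀ᵐ ω ∂(iidEnvironmentLaw ν), ∀ z e, 0 < (ω z).1 e)
    (hstp : ∀ z (e : Step d), Stp (lt z, lv z) (lt (z + stepVec e), lv (z + stepVec e)))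
    (hinj : ∀ z z', lt z = lt z' → lv z = lv z' → z = z')
    {e1 : Site d} (h1 : lt e1 = 1) (h2 : lv e1 = 0)
    {A r : ℤ} (hA : 0 < A) {xb x0 : Site d} (hl : l0 < l1) (hxl : lv xb = l0)
    (hxs : sl lt lv v xb = 0) (hx0 : x0 ∈ LeftOf lt lv v l0 l1 r)
    {S : Set (Site d)} (hS : ∀ z ∈ S, z ∉ RightOf lt lv v l0 l1 r) {Φ : Environment d → ℝ≥0∞}
    (hΦ : Measurable[coordSigmaAlgebra S] Φ) (K : ℕ) :
    ∫⁻ ω, Φ ω * HK ω (LeftOf lt lv v l0 l1 (r + 4 * A * K)) x0
      (RightOf lt lv v l0 l1 (r + 4 * A * K)) ∂(iidEnvironmentLaw ν) ≤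
    (1 - ∫⁻ ω, HK ω (Col lt lv v l0 l1 0 A) xb (TopS lv l1) ∂(iidEnvironmentLaw ν)) ^ K *
      ∫⁻ ω, Φ ω ∂(iidEnvironmentLaw ν) := by
  have hmono : ∀ s, r ≤ s → LeftOf lt lv v l0 l1 r ⊆ LeftOf lt lv v l0 l1 s := by
    rintro s hs z ⟨g0, g1, g2⟩
    exact ⟨g0, g1, by omega⟩
  have hS' : ∀ s, r ≤ s → ∀ z ∈ S, z ∉ RightOf lt lv v l0 l1 s := by
    rintro s hs z hz ⟨g0, g1, g2⟩
    exact hS z hz ⟨g0, g1, by omega⟩
  induction K with
  | zero =>
    simp only [Nat.cast_zero, mul_zero, add_zero, pow_zero, one_mul]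
    refine lintegral_mono fun ω => ?_
    calc Φ ω * HK ω _ x0 _ ≤ Φ ω * 1 := mul_le_mul_right (HK_le_one _ _ _ _) _
      _ = Φ ω := mul_one _
  | succ K ih =>
    have hK : r ≤ r + 4 * A * K := by
      have : 0 ≤ 4 * A * K := by positivity
      omega
    have he : r + 4 * A * ((K + 1 : ℕ) : ℤ) = (r + 4 * A * K) + 4 * A := by
      push_cast; ring
    rw [he]
    refine (ann_step i0 ν hν hstp hinj h1 h2 hA hl hxl hxs (hmono _ hK hx0) (hS' _ hK) hΦ).trans
      ((mul_le_mul_left ih _).trans (le_of_eq ?_))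
    rw [pow_succ]
    ring

/-- reaching `r` inside the slab -/
def Reach (lt lv : Site d →+ ℤ) (v : ℤ → ℤ) (l0 l1 r : ℤ) : Set (Path d) :=
  {X | ∃ n, r ≤ sl lt lv v (X n) ∧ ∀ i ≤ n, l0 ≤ lv (X i) ∧ lv (X i) < l1}

/-- reaching distance `r` on either side, inside the slab -/
def ReachAbs (lt lv : Site d →+ ℤ) (v : ℤ → ℤ) (l0 l1 r : ℤ) : Set (Path d) :=
  {X | ∃ n, r ≤ |sl lt lv v (X n)| ∧ ∀ i ≤ n, l0 ≤ lv (X i) ∧ lv (X i) < l1}

lemma Reach_sub (r : ℤ) : Reach lt lv v l0 l1 r ⊆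
    HitS (LeftOf lt lv v l0 l1 r) (RightOf lt lv v l0 l1 r) := by
  classical
  rintro X ⟨n, hn, hi⟩
  have hex : ∃ n, X n ∈ RightOf lt lv v l0 l1 r := ⟨n, (hi n le_rfl).1, (hi n le_rfl).2, hn⟩
  have hle : Nat.find hex ≤ n := Nat.find_min' hex ⟨(hi n le_rfl).1, (hi n le_rfl).2, hn⟩
  refine ⟨Nat.find hex, Nat.find_spec hex, fun i hi' => ?_⟩
  have h1 := Nat.find_min hex hi'
  have h2 := hi i (by omega)
  refine ⟨h2.1, h2.2, ?_⟩
  by_contra h
  exact h1 ⟨h2.1, h2.2, by omega⟩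

end decay

/-! ## The slab lemma -/

section main

variable {lt lv : Site d →+ ℤ} {v : ℤ → ℤ} {l0 l1 : ℤ}

/-- climbing from the bottom of the slab to the level `l1` inside the tube of half width `A` -/
def Tube (lt lv : Site d →+ ℤ) (v : ℤ → ℤ) (l0 l1 A : ℤ) : Set (Path d) :=
  {X | ∃ n, lv (X n) = l1 ∧ ∀ i < n, l0 ≤ lv (X i) ∧ lv (X i) < l1 ∧ |sl lt lv v (X i)| < A}

lemma Tube_eq (A : ℤ) : Tube lt lv v l0 l1 A = HitS (Col lt lv v l0 l1 0 A) (TopS lv l1) := by
  ext X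
  show (∃ n, lv (X n) = l1 ∧ ∀ i < n, l0 ≤ lv (X i) ∧ lv (X i) < l1 ∧ |sl lt lv v (X i)| < A) ↔
    (∃ n, lv (X n) = l1 ∧ ∀ i < n, l0 ≤ lv (X i) ∧ lv (X i) < l1 ∧
      0 - A < sl lt lv v (X i) ∧ sl lt lv v (X i) < 0 + A)
  refine exists_congr fun n => and_congr Iff.rfl (forall_congr' fun i => forall_congr' fun _ =>
    and_congr Iff.rfl (and_congr Iff.rfl ?_))
  rw [abs_lt]
  constructor <;> rintro ⟨h1, h2⟩ <;> constructor <;> omega

/-- **SLAB LEMMA, right side**, any past `Φ` which does not read the part `r ≤ sl` of the slab -/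
theorem slab_right (i0 : Fin d) (ν : Measure (Row d)) [IsProbabilityMeasure ν]
    (hν : ∀ᵐ ω ∂(iidEnvironmentLaw ν), ∀ z e, 0 < (ω z).1 e)
    (hstp : ∀ z (e : Step d), Stp (lt z, lv z) (lt (z + stepVec e), lv (z + stepVec e)))
    (hinj : ∀ z z', lt z = lt z' → lv z = lv z' → z = z')
    {e1 : Site d} (h1 : lt e1 = 1) (h2 : lv e1 = 0)
    {A r : ℤ} (hA : 0 < A) {xb x0 : Site d} (hl : l0 < l1) (hxl : lv xb = l0)
    (hxs : sl lt lv v xb = 0) {p : ℝ≥0∞}
    (hp : p ≤ annealedProb (iidEnvironmentLaw ν) xb (Tube lt lv v l0 l1 A))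
    (h0 : l0 ≤ lv x0) (h0' : lv x0 < l1) (hx0 : sl lt lv v x0 < r)
    {S : Set (Site d)} (hS : ∀ z ∈ S, l0 ≤ lv z → lv z < l1 → sl lt lv v z < r)
    {Φ : Environment d → ℝ≥0∞} (hΦ : Measurable[coordSigmaAlgebra S] Φ) (K : ℕ) :
    ∫⁻ ω, Φ ω * quenchedLaw ω x0 (Reach lt lv v l0 l1 (r + 4 * A * K)) ∂(iidEnvironmentLaw ν) ≤
      (1 - p) ^ K * ∫⁻ ω, Φ ω ∂(iidEnvironmentLaw ν) := by
  have hp' : p ≤ ∫⁻ ω, HK ω (Col lt lv v l0 l1 0 A) xb (TopS lv l1) ∂(iidEnvironmentLaw ν) := by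
    refine hp.trans (le_of_eq ?_)
    unfold annealedProb HK
    rw [Tube_eq]
  calc ∫⁻ ω, Φ ω * quenchedLaw ω x0 (Reach lt lv v l0 l1 (r + 4 * A * K)) ∂(iidEnvironmentLaw ν)
      ≤ ∫⁻ ω, Φ ω * HK ω (LeftOf lt lv v l0 l1 (r + 4 * A * K)) x0
          (RightOf lt lv v l0 l1 (r + 4 * A * K)) ∂(iidEnvironmentLaw ν) := by
        refine lintegral_mono fun ω => mul_le_mul_right (measure_mono (Reach_sub _)) _
    _ ≤ (1 - ∫⁻ ω, HK ω (Col lt lv v l0 l1 0 A) xb (TopS lv l1) ∂(iidEnvironmentLaw ν)) ^ K *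
          ∫⁻ ω, Φ ω ∂(iidEnvironmentLaw ν) :=
        ann_pow i0 ν hν hstp hinj h1 h2 hA hl hxl hxs ⟨h0, h0', hx0⟩
          (fun z hz h => absurd (hS z hz h.1 h.2.1) (not_lt.2 h.2.2)) hΦ K
    _ ≤ _ := by gcongr

lemma stp_neg {a b a' b' : ℤ} (h : Stp (a, b) (a', b')) : Stp (-a, b) (-a', b') := by
  simp only [Stp] at *
  omega

lemma sl_neg (z : Site d) : sl (-lt) lv (-v) z = - sl lt lv v z := by
  simp only [sl, AddMonoidHom.neg_apply, Pi.neg_apply]
  ring

lemma Tube_neg (A : ℤ) : Tube (-lt) lv (-v) l0 l1 A = Tube lt lv v l0 l1 A := by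
  ext X
  show (∃ n, lv (X n) = l1 ∧ ∀ i < n, l0 ≤ lv (X i) ∧ lv (X i) < l1 ∧
      |sl (-lt) lv (-v) (X i)| < A) ↔
    (∃ n, lv (X n) = l1 ∧ ∀ i < n, l0 ≤ lv (X i) ∧ lv (X i) < l1 ∧ |sl lt lv v (X i)| < A)
  simp only [sl_neg, abs_neg]

/-- **SLAB LEMMA, left side** -/
theorem slab_left (i0 : Fin d) (ν : Measure (Row d)) [IsProbabilityMeasure ν]
    (hν : ∀ᵐ ω ∂(iidEnvironmentLaw ν), ∀ z e, 0 < (ω z).1 e)
    (hstp : ∀ z (e : Step d), Stp (lt z, lv z) (lt (z + stepVec e), lv (z + stepVec e)))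
    (hinj : ∀ z z', lt z = lt z' → lv z = lv z' → z = z')
    {e1 : Site d} (h1 : lt e1 = 1) (h2 : lv e1 = 0)
    {A r : ℤ} (hA : 0 < A) {xb x0 : Site d} (hl : l0 < l1) (hxl : lv xb = l0)
    (hxs : sl lt lv v xb = 0) {p : ℝ≥0∞}
    (hp : p ≤ annealedProb (iidEnvironmentLaw ν) xb (Tube lt lv v l0 l1 A))
    (h0 : l0 ≤ lv x0) (h0' : lv x0 < l1) (hx0 : -r < sl lt lv v x0)
    {S : Set (Site d)} (hS : ∀ z ∈ S, l0 ≤ lv z → lv z < l1 → -r < sl lt lv v z)
    {Φ : Environment d → ℝ≥0∞} (hΦ : Measurable[coordSigmaAlgebra S] Φ) (K : ℕ) :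
    ∫⁻ ω, Φ ω * quenchedLaw ω x0 {X | ∃ n, sl lt lv v (X n) ≤ -(r + 4 * A * K) ∧
        ∀ i ≤ n, l0 ≤ lv (X i) ∧ lv (X i) < l1} ∂(iidEnvironmentLaw ν) ≤
      (1 - p) ^ K * ∫⁻ ω, Φ ω ∂(iidEnvironmentLaw ν) := by
  have e1' : (-lt) (-e1) = 1 := by simp [h1]
  have e2' : lv (-e1) = 0 := by simp [h2]
  have key := slab_right (lt := -lt) (lv := lv) (v := -v) i0 ν hν
    (fun z e => stp_neg (hstp z e))
    (fun z z' ha hb => hinj z z' (by simpa using ha) hb) e1' e2' (r := r) hA hl hxl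
    (by rw [sl_neg, hxs, neg_zero]) (p := p) (by rw [Tube_neg]; exact hp) h0 h0'
    (by rw [sl_neg]; omega) (S := S)
    (fun z hz ha hb => by rw [sl_neg]; have := hS z hz ha hb; omega) hΦ K
  refine le_trans (lintegral_mono fun ω => mul_le_mul_right (measure_mono ?_) _) key
  rintro X ⟨n, hn, hi⟩
  refine ⟨n, ?_, hi⟩
  rw [sl_neg]
  omega

/-- **SLAB LEMMA, both sides** -/
theorem slab_two (i0 : Fin d) (ν : Measure (Row d)) [IsProbabilityMeasure ν]
    (hν : ∀ᵐ ω ∂(iidEnvironmentLaw ν), ∀ z e, 0 < (ω z).1 e)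
    (hstp : ∀ z (e : Step d), Stp (lt z, lv z) (lt (z + stepVec e), lv (z + stepVec e)))
    (hinj : ∀ z z', lt z = lt z' → lv z = lv z' → z = z')
    {e1 : Site d} (h1 : lt e1 = 1) (h2 : lv e1 = 0)
    {A r : ℤ} (hA : 0 < A) {xb x0 : Site d} (hl : l0 < l1) (hxl : lv xb = l0)
    (hxs : sl lt lv v xb = 0) {p : ℝ≥0∞}
    (hp : p ≤ annealedProb (iidEnvironmentLaw ν) xb (Tube lt lv v l0 l1 A))
    (h0 : l0 ≤ lv x0) (h0' : lv x0 < l1) (hx0 : |sl lt lv v x0| < r)
    {S : Set (Site d)} (hS : ∀ z ∈ S, l0 ≤ lv z → lv z < l1 → |sl lt lv v z| < r)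
    {Φ : Environment d → ℝ≥0∞} (hΦ : Measurable[coordSigmaAlgebra S] Φ) (K : ℕ) :
    ∫⁻ ω, Φ ω * quenchedLaw ω x0 (ReachAbs lt lv v l0 l1 (r + 4 * A * K))
        ∂(iidEnvironmentLaw ν) ≤
      2 * (1 - p) ^ K * ∫⁻ ω, Φ ω ∂(iidEnvironmentLaw ν) := by
  have hR := slab_right i0 ν hν hstp hinj h1 h2 hA hl hxl hxs hp h0 h0' (abs_lt.1 hx0).2
    (fun z hz ha hb => (abs_lt.1 (hS z hz ha hb)).2) hΦ K
  have hL := slab_left i0 ν hν hstp hinj h1 h2 hA hl hxl hxs hp h0 h0' (abs_lt.1 hx0).1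
    (fun z hz ha hb => (abs_lt.1 (hS z hz ha hb)).1) hΦ K
  have hΦm : Measurable Φ := hΦ.mono (Q561.coord_le S) le_rfl
  have hmR : Measurable fun ω : Environment d =>
      quenchedLaw ω x0 (Reach lt lv v l0 l1 (r + 4 * A * K)) := by
    refine Q561.measurable_quenched_apply x0 ?_
    have : Reach lt lv v l0 l1 (r + 4 * A * K) = ⋃ n : ℕ, {X : Path d |
        r + 4 * A * K ≤ sl lt lv v (X n) ∧ ∀ i ≤ n, l0 ≤ lv (X i) ∧ lv (X i) < l1} := by
      ext X; simp [Reach]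
    rw [this]
    refine MeasurableSet.iUnion fun n => Q561.DepOn.measurableSet (n := n) ?_
    intro X Y h hX
    refine ⟨by rw [← h n le_rfl]; exact hX.1, fun i hi => ?_⟩
    rw [← h i hi]
    exact hX.2 i hi
  calc ∫⁻ ω, Φ ω * quenchedLaw ω x0 (ReachAbs lt lv v l0 l1 (r + 4 * A * K))
        ∂(iidEnvironmentLaw ν)
      ≤ ∫⁻ ω, (Φ ω * quenchedLaw ω x0 (Reach lt lv v l0 l1 (r + 4 * A * K)) +
          Φ ω * quenchedLaw ω x0 {X | ∃ n, sl lt lv v (X n) ≤ -(r + 4 * A * K) ∧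
            ∀ i ≤ n, l0 ≤ lv (X i) ∧ lv (X i) < l1}) ∂(iidEnvironmentLaw ν) := by
        refine lintegral_mono fun ω => ?_
        rw [← mul_add]
        refine mul_le_mul_right ((measure_mono ?_).trans (measure_union_le _ _)) _
        rintro X ⟨n, hn, hi⟩
        rcases le_abs.1 hn with h | h
        · exact Or.inl ⟨n, h, hi⟩
        · exact Or.inr ⟨n, by omega, hi⟩
    _ = _ + _ := lintegral_add_left (hΦm.mul hmR) _
    _ ≤ _ := add_le_add hR hL
    _ = _ := by ring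

end main

/-! ## `d = 2` -/

section two

open Crest.Agent.R154.Flux132 (lev)

/-- the coordinate `i` as an additive homomorphism -/
def latH (i : Fin d) : Site d →+ ℤ := Pi.evalAddMonoidHom (fun _ => ℤ) i

lemma latH_apply (i : Fin d) (z : Site d) : latH i z = z i := rfl

lemma stp_two {u : Step 2} {i : Fin 2} (hi : i ≠ u.1) (z : Site 2) (e : Step 2) :
    Stp (latH i z, Fin804.levH u z) (latH i (z + stepVec e), Fin804.levH u (z + stepVec e)) := by
  obtain ⟨a, b⟩ := u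
  obtain ⟨a', b'⟩ := e
  simp only at hi
  show Stp (z i, lev (a, b) z) ((z + stepVec (a', b')) i, lev (a, b) (z + stepVec (a', b')))
  fin_cases i <;> fin_cases a <;> fin_cases a' <;> cases b <;> cases b' <;>
    simp [lev, stepVec, Stp] at hi ⊢ <;> omega

lemma inj_two {u : Step 2} {i : Fin 2} (hi : i ≠ u.1) (z z' : Site 2) (h : latH i z = latH i z')
    (h' : Fin804.levH u z = Fin804.levH u z') : z = z' := by
  obtain ⟨a, b⟩ := u
  simp only at hi
  have h1 : z i = z' i := h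
  have h2 : lev (a, b) z = lev (a, b) z' := h'
  have h3 : z a = z' a := by
    cases b <;> simp [lev] at h2 <;> exact h2
  funext j
  fin_cases i <;> fin_cases a <;> fin_cases j <;> simp_all

lemma lev_lat {u : Step 2} {i : Fin 2} (hi : i ≠ u.1) :
    Fin804.levH u (Pi.single i 1 : Site 2) = 0 := by
  show lev u (Pi.single i 1 : Site 2) = 0
  unfold lev
  rw [Pi.single_eq_of_ne hi.symm]
  simp

/-- **SLAB LEMMA, `d = 2`**: iid elliptic law, direction `u`, lateral coordinate `i`, arbitrary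
slant `v`; `p` = a lower bound for the annealed probability of climbing the tube of half width `A`
around the slant.  Any start in the slab, any past `Φ` read at distance `< r` (or off the slab). -/
theorem slab2 (ν : Measure (Row 2)) [IsProbabilityMeasure ν]
    (hν : ∀ᵐ q ∂ν, ∀ e : Step 2, 0 < q.1 e) (u : Step 2) {i : Fin 2} (hi : i ≠ u.1) (v : ℤ → ℤ)
    {l0 l1 A r : ℤ} (hA : 0 < A) (hl : l0 < l1) {xb x0 : Site 2} (hxl : lev u xb = l0)
    (hxs : xb i = v l0) {p : ℝ≥0∞}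
    (hp : p ≤ annealedProb (iidEnvironmentLaw ν) xb {X | ∃ n, lev u (X n) = l1 ∧
      ∀ j < n, l0 ≤ lev u (X j) ∧ lev u (X j) < l1 ∧ |X j i - v (lev u (X j))| < A})
    (h0 : l0 ≤ lev u x0) (h0' : lev u x0 < l1) (hx0 : |x0 i - v (lev u x0)| < r)
    {S : Set (Site 2)} (hS : ∀ z ∈ S, l0 ≤ lev u z → lev u z < l1 → |z i - v (lev u z)| < r)
    {Φ : Environment 2 → ℝ≥0∞} (hΦ : Measurable[coordSigmaAlgebra S] Φ) (K : ℕ) :
    ∫⁻ ω, Φ ω * quenchedLaw ω x0 {X | ∃ n, r + 4 * A * K ≤ |X n i - v (lev u (X n))| ∧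
        ∀ j ≤ n, l0 ≤ lev u (X j) ∧ lev u (X j) < l1} ∂(iidEnvironmentLaw ν) ≤
      2 * (1 - p) ^ K * ∫⁻ ω, Φ ω ∂(iidEnvironmentLaw ν) := by
  have F := Bind263.frame_iid ν hν
  exact slab_two (lt := latH i) (lv := Fin804.levH u) (v := v) i ν F.elp (stp_two hi)
    (inj_two hi) (e1 := Pi.single i 1) (by rw [latH_apply, Pi.single_eq_same]) (lev_lat hi) hA hl
    (xb := xb) (x0 := x0) hxl (by show xb i - v (lev u xb) = 0; rw [hxl, hxs, sub_self]) hp h0 h0'
    hx0 hS hΦ K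

/-- no past, start `x0` at slanted distance `< r` -/
theorem slab2' (ν : Measure (Row 2)) [IsProbabilityMeasure ν]
    (hν : ∀ᵐ q ∂ν, ∀ e : Step 2, 0 < q.1 e) (u : Step 2) {i : Fin 2} (hi : i ≠ u.1) (v : ℤ → ℤ)
    {l0 l1 A r : ℤ} (hA : 0 < A) (hl : l0 < l1) {xb x0 : Site 2} (hxl : lev u xb = l0)
    (hxs : xb i = v l0) {p : ℝ≥0∞}
    (hp : p ≤ annealedProb (iidEnvironmentLaw ν) xb {X | ∃ n, lev u (X n) = l1 ∧
      ∀ j < n, l0 ≤ lev u (X j) ∧ lev u (X j) < l1 ∧ |X j i - v (lev u (X j))| < A})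
    (h0 : l0 ≤ lev u x0) (h0' : lev u x0 < l1) (hx0 : |x0 i - v (lev u x0)| < r) (K : ℕ) :
    annealedProb (iidEnvironmentLaw ν) x0 {X | ∃ n, r + 4 * A * K ≤ |X n i - v (lev u (X n))| ∧
        ∀ j ≤ n, l0 ≤ lev u (X j) ∧ lev u (X j) < l1} ≤ 2 * (1 - p) ^ K := by
  have := slab2 ν hν u hi v hA hl hxl hxs hp h0 h0' hx0 (S := ∅) (by simp)
    (Φ := fun _ => 1) measurable_const K
  simpa [annealedProb] using this

end two

end Crest.Agent.R154.Slab491
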