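import Mathlib
import Crest.Agent.R154.JWord_132
import Crest.Agent.R154.JBind4_132
import Crest.Agent.R154.JObj1_132
import Crest.Agent.R154.Slab_491
import Crest.Agent.R154.JObj3_132
import Crest.Agent.R154.Hair_738

-- ▼ part R154/BlkTail_24
section

/-! Row 154, d = 2, helper24: **a rare block seen through the renewal structure** (504 #31751 (3),
abstract half).

`ζ k` independent identically distributed blocks of heights `Rr (ζ k) ≥ 1`, `Hh k` = sum of the first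
`k` heights, `u ≤ P (m is a cut)` for every level `m`. For a set `G` of blocks of height `≥ h`:
`(2 h) u P (ζ 0 ∈ G) ≤ 2 P (some block of G starts below 2 h)`. -/

set_option autoImplicit false
set_option linter.unusedSectionVars false
set_option linter.deprecated false

namespace Crest.Agent.R154.BlkTail24

open MeasureTheory ProbabilityTheory Set
open scoped ENNReal

variable {Ω E : Type*} [MeasurableSpace Ω] [MeasurableSpace E]

/-- height before the block `k` -/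
def Hh (Rr : E → ℕ) (ζ : ℕ → Ω → E) (k : ℕ) (ω : Ω) : ℕ := ∑ i ∈ Finset.range k, Rr (ζ i ω)


lemma Hh_succ (Rr : E → ℕ) (ζ : ℕ → Ω → E) (k : ℕ) (ω : Ω) :
    Hh Rr ζ (k + 1) ω = Hh Rr ζ k ω + Rr (ζ k ω) := by
  simp [Hh, Finset.sum_range_succ]

lemma Hh_mono (Rr : E → ℕ) (ζ : ℕ → Ω → E) (ω : Ω) {k l : ℕ} (h : k ≤ l) :
    Hh Rr ζ k ω ≤ Hh Rr ζ l ω :=
  Finset.sum_le_sum_of_subset (Finset.range_subset_range.2 h)

lemma Hh_add_le (Rr : E → ℕ) (ζ : ℕ → Ω → E) (ω : Ω) {k l : ℕ} (h : k < l) :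
    Hh Rr ζ k ω + Rr (ζ k ω) ≤ Hh Rr ζ l ω := by
  rw [← Hh_succ]
  exact Hh_mono Rr ζ ω h

lemma Hh_strictMono {Rr : E → ℕ} (hR1 : ∀ e, 1 ≤ Rr e) (ζ : ℕ → Ω → E) (ω : Ω) :
    StrictMono fun k => Hh Rr ζ k ω := by
  refine strictMono_nat_of_lt_succ fun k => ?_
  have := hR1 (ζ k ω)
  simp only [Hh_succ]
  omega

lemma measurable_Hh {Rr : E → ℕ} (hR : Measurable Rr) {ζ : ℕ → Ω → E} (hζ : ∀ k, Measurable (ζ k))
    (k : ℕ) : Measurable (Hh Rr ζ k) := by
  unfold Hh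
  exact Finset.measurable_sum _ fun i _ => hR.comp (hζ i)

/-- a block of `G` starts at the level `m` -/
def St (Rr : E → ℕ) (ζ : ℕ → Ω → E) (G : Set E) (m : ℕ) : Set Ω :=
  {ω | ∃ k, Hh Rr ζ k ω = m ∧ ζ k ω ∈ G}

/-- a block of `G` starts below the level `m` -/
def Be (Rr : E → ℕ) (ζ : ℕ → Ω → E) (G : Set E) (m : ℕ) : Set Ω :=
  {ω | ∃ k, Hh Rr ζ k ω < m ∧ ζ k ω ∈ G}

lemma St_eq (Rr : E → ℕ) (ζ : ℕ → Ω → E) (G : Set E) (m : ℕ) :
    St Rr ζ G m = ⋃ k, ({ω | Hh Rr ζ k ω = m} ∩ ζ k ⁻¹' G) := by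
  ext ω; simp [St]

lemma measurableSet_cut {Rr : E → ℕ} (hR : Measurable Rr) {ζ : ℕ → Ω → E}
    (hζ : ∀ k, Measurable (ζ k)) (k m : ℕ) : MeasurableSet {ω | Hh Rr ζ k ω = m} :=
  measurable_Hh hR hζ k (measurableSet_singleton m)

lemma measurableSet_St {Rr : E → ℕ} (hR : Measurable Rr) {ζ : ℕ → Ω → E}
    (hζ : ∀ k, Measurable (ζ k)) {G : Set E} (hG : MeasurableSet G) (m : ℕ) :
    MeasurableSet (St Rr ζ G m) := by
  rw [St_eq]
  exact MeasurableSet.iUnion fun k => (measurableSet_cut hR hζ k m).inter (hζ k hG)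

/-- the cut at a level is independent of the next block -/
theorem measure_St {P : Measure Ω} {Rr : E → ℕ} (hR : Measurable Rr)
    (hR1 : ∀ e, 1 ≤ Rr e) {ζ : ℕ → Ω → E} (hζ : ∀ k, Measurable (ζ k)) {G : Set E}
    (hG : MeasurableSet G) {g : ℝ≥0∞}
    (hi : ∀ k m, P ({ω | Hh Rr ζ k ω = m} ∩ ζ k ⁻¹' G) = P {ω | Hh Rr ζ k ω = m} * g) (m : ℕ) :
    P (St Rr ζ G m) = P {ω | ∃ k, Hh Rr ζ k ω = m} * g := by
  have hd : Pairwise (Function.onFun Disjoint fun k => {ω | Hh Rr ζ k ω = m}) := by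
    intro k l hkl
    refine Set.disjoint_left.2 fun ω h1 h2 => hkl ?_
    exact (Hh_strictMono hR1 ζ ω).injective (show Hh Rr ζ k ω = Hh Rr ζ l ω from h1.trans h2.symm)
  have e1 : {ω | ∃ k, Hh Rr ζ k ω = m} = ⋃ k, {ω | Hh Rr ζ k ω = m} := by ext ω; simp
  rw [St_eq, e1, measure_iUnion (fun k l hkl => (hd hkl).mono inter_subset_left inter_subset_left)
      (fun k => (measurableSet_cut hR hζ k m).inter (hζ k hG)),
    measure_iUnion hd (fun k => measurableSet_cut hR hζ k m), ← ENNReal.tsum_mul_right]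
  exact tsum_congr fun k => hi k m

/-- at most two blocks of height `≥ h` start below `2 h` -/
lemma sum_ind_le {Rr : E → ℕ} {ζ : ℕ → Ω → E} {G : Set E} {h : ℕ} (hGh : ∀ e ∈ G, h ≤ Rr e)
    (ω : Ω) :
    ∑ m ∈ Finset.range (2 * h), (St Rr ζ G m).indicator (1 : Ω → ℝ≥0∞) ω
      ≤ 2 * (Be Rr ζ G (2 * h)).indicator (1 : Ω → ℝ≥0∞) ω := by
  classical
  set S : Finset ℕ := (Finset.range (2 * h)).filter fun m => ω ∈ St Rr ζ G m with hS
  have e1 : ∑ m ∈ Finset.range (2 * h), (St Rr ζ G m).indicator (1 : Ω → ℝ≥0∞) ω = (S.card : ℝ≥0∞) := by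
    rw [hS, Finset.card_filter]
    push_cast
    refine Finset.sum_congr rfl fun m _ => ?_
    by_cases hm : ω ∈ St Rr ζ G m
    · rw [Set.indicator_of_mem hm, if_pos hm]; rfl
    · rw [Set.indicator_of_notMem hm, if_neg hm]
  rw [e1]
  have hgap : ∀ m ∈ S, ∀ m' ∈ S, m < m' → m + h ≤ m' := by
    intro m hm m' hm' hlt
    obtain ⟨k, h1, h2⟩ := (Finset.mem_filter.1 hm).2
    obtain ⟨l, h3, h4⟩ := (Finset.mem_filter.1 hm').2
    have hkl : k < l := by
      by_contra hc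
      have := Hh_mono Rr ζ ω (not_lt.1 hc)
      omega
    have := Hh_add_le Rr ζ ω hkl
    have := hGh _ h2
    omega
  by_cases hne : S.Nonempty
  · have hmem : ω ∈ Be Rr ζ G (2 * h) := by
      obtain ⟨m, hm⟩ := hne
      obtain ⟨hm1, k, h1, h2⟩ := Finset.mem_filter.1 hm
      exact ⟨k, by have := Finset.mem_range.1 hm1; omega, h2⟩
    rw [Set.indicator_of_mem hmem]
    have hc : S.card ≤ 2 := by
      set a := S.min' hne with ha
      set b := S.max' hne with hb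
      have hsub : S ⊆ {a, b} := by
        intro m hm
        by_contra hmn
        simp only [Finset.mem_insert, Finset.mem_singleton, not_or] at hmn
        have h1 : a < m := lt_of_le_of_ne (S.min'_le m hm) (Ne.symm hmn.1)
        have h2 : m < b := lt_of_le_of_ne (S.le_max' m hm) hmn.2
        have h3 := hgap a (S.min'_mem hne) m hm h1
        have h4 := hgap m hm b (S.max'_mem hne) h2
        have h5 := Finset.mem_range.1 (Finset.mem_filter.1 (S.max'_mem hne)).1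
        omega
      exact (Finset.card_le_card hsub).trans Finset.card_le_two
    simp only [Pi.one_apply, mul_one]
    exact_mod_cast hc
  · rw [Finset.not_nonempty_iff_eq_empty.1 hne]
    simp

/-- **a rare tall block**: `2 h u P (ζ ∈ G) ≤ 2 P (a block of G starts below 2 h)`. -/
theorem rare {P : Measure Ω} {Rr : E → ℕ} (hR : Measurable Rr)
    (hR1 : ∀ e, 1 ≤ Rr e) {ζ : ℕ → Ω → E} (hζ : ∀ k, Measurable (ζ k)) {G : Set E}
    (hG : MeasurableSet G) {g u : ℝ≥0∞}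
    (hi : ∀ k m, P ({ω | Hh Rr ζ k ω = m} ∩ ζ k ⁻¹' G) = P {ω | Hh Rr ζ k ω = m} * g)
    {h : ℕ} (hu : ∀ m < 2 * h, u ≤ P {ω | ∃ k, Hh Rr ζ k ω = m}) (hGh : ∀ e ∈ G, h ≤ Rr e) :
    (2 * h : ℕ) * u * g ≤ 2 * P (Be Rr ζ G (2 * h)) := by
  have hBm : MeasurableSet (Be Rr ζ G (2 * h)) := by
    have : Be Rr ζ G (2 * h) = ⋃ m ∈ Finset.range (2 * h), St Rr ζ G m := by
      ext ω
      simp only [Be, St, mem_iUnion, Finset.mem_range, exists_prop, mem_ofPred_eq]
      constructor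
      · rintro ⟨k, h1, h2⟩
        exact ⟨_, h1, k, rfl, h2⟩
      · rintro ⟨m, h1, k, h2, h3⟩
        exact ⟨k, by omega, h3⟩
    rw [this]
    exact Finset.measurableSet_biUnion _ fun m _ => measurableSet_St hR hζ hG m
  calc ((2 * h : ℕ) : ℝ≥0∞) * u * g
      = ∑ _m ∈ Finset.range (2 * h), u * g := by
        rw [Finset.sum_const, Finset.card_range, nsmul_eq_mul, mul_assoc]
    _ ≤ ∑ m ∈ Finset.range (2 * h), P (St Rr ζ G m) := by
        refine Finset.sum_le_sum fun m hm => ?_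
        rw [measure_St hR hR1 hζ hG hi]
        gcongr
        exact hu m (Finset.mem_range.1 hm)
    _ = ∑ m ∈ Finset.range (2 * h), ∫⁻ ω, (St Rr ζ G m).indicator 1 ω ∂P := by
        refine Finset.sum_congr rfl fun m _ => ?_
        rw [lintegral_indicator_one (measurableSet_St hR hζ hG m)]
    _ = ∫⁻ ω, ∑ m ∈ Finset.range (2 * h), (St Rr ζ G m).indicator 1 ω ∂P := by
        rw [lintegral_finsetSum]
        intro m _
        exact measurable_one.indicator (measurableSet_St hR hζ hG m)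
    _ ≤ ∫⁻ ω, 2 * (Be Rr ζ G (2 * h)).indicator 1 ω ∂P :=
        lintegral_mono fun ω => sum_ind_le hGh ω
    _ = 2 * P (Be Rr ζ G (2 * h)) := by
        rw [lintegral_const_mul _ (measurable_one.indicator hBm), lintegral_indicator_one hBm]

/-- the product form from independence and equal laws -/
theorem prod_of_iid {P : Measure Ω} {Rr : E → ℕ} (hR : Measurable Rr) {ζ : ℕ → Ω → E}
    (hζ : ∀ k, Measurable (ζ k)) (hind : iIndepFun ζ P) (hid : ∀ k, P.map (ζ k) = P.map (ζ 0))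
    {G : Set E} (hG : MeasurableSet G) (k m : ℕ) :
    P ({ω | Hh Rr ζ k ω = m} ∩ ζ k ⁻¹' G) = P {ω | Hh Rr ζ k ω = m} * P (ζ 0 ⁻¹' G) := by
  classical
  have h1 : IndepFun (Hh Rr ζ k) (ζ k) P := by
    have h2 := hind.indepFun_finset (Finset.range k) {k} (by simp) hζ
    have hf : Measurable fun w : (Finset.range k) → E => ∑ i, Rr (w i) :=
      Finset.measurable_sum _ fun i _ => hR.comp (measurable_pi_apply i)
    have hg : Measurable fun w : ({k} : Finset ℕ) → E => w ⟨k, by simp⟩ := measurable_pi_apply _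
    have h3 := h2.comp hf hg
    have e1 : (fun w : (Finset.range k) → E => ∑ i, Rr (w i)) ∘ (fun a (i : Finset.range k) => ζ i a)
        = Hh Rr ζ k := by
      funext ω
      simp only [Function.comp, Hh]
      exact Finset.sum_coe_sort (Finset.range k) fun i => Rr (ζ i ω)
    have e2 : (fun w : ({k} : Finset ℕ) → E => w ⟨k, by simp⟩) ∘
        (fun a (i : ({k} : Finset ℕ)) => ζ i a) = ζ k := by
      funext ω; rfl
    rwa [e1, e2] at h3
  have h4 := h1.measure_inter_preimage_eq_mul {m} G (measurableSet_singleton m) hG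
  have h5 : P (ζ k ⁻¹' G) = P (ζ 0 ⁻¹' G) := by
    rw [← Measure.map_apply (hζ k) hG, hid k, Measure.map_apply (hζ 0) hG]
  rw [← h5]
  exact h4

/-- **the iid form** -/
theorem rare_iid {P : Measure Ω} {Rr : E → ℕ} (hR : Measurable Rr)
    (hR1 : ∀ e, 1 ≤ Rr e) {ζ : ℕ → Ω → E} (hζ : ∀ k, Measurable (ζ k)) (hind : iIndepFun ζ P)
    (hid : ∀ k, P.map (ζ k) = P.map (ζ 0)) {G : Set E} (hG : MeasurableSet G) {u : ℝ≥0∞}
    {h : ℕ} (hu : ∀ m < 2 * h, u ≤ P {ω | ∃ k, Hh Rr ζ k ω = m}) (hGh : ∀ e ∈ G, h ≤ Rr e) :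
    (h : ℝ≥0∞) * u * P (ζ 0 ⁻¹' G) ≤ P (Be Rr ζ G (2 * h)) := by
  have h1 := rare hR hR1 hζ hG (fun k m => prod_of_iid hR hζ hind hid hG k m) hu hGh
  have h2 : ((2 * h : ℕ) : ℝ≥0∞) * u * P (ζ 0 ⁻¹' G) = 2 * ((h : ℝ≥0∞) * u * P (ζ 0 ⁻¹' G)) := by
    push_cast; ring
  rw [h2] at h1
  exact (ENNReal.mul_le_mul_iff_right (by norm_num) (by norm_num)).1 h1

end Crest.Agent.R154.BlkTail24
end

-- ▼ part R154/J6_24
section

/-! Row 154, block `d = 2`, (J6): a joint block of height `h ≤ R < 2h` with extent `≥ r` of the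
same-level difference forces a deviation `≥ r/4` of one of the two walkers from any given tube,
before leaving the levels `[0, 4h)`; hence `h P(h ≤ R < 2h, B ≥ r) ≤ 2 p⁻³ P_ann(deviation)`. -/

set_option autoImplicit false
set_option linter.unusedSectionVars false
set_option linter.deprecated false

namespace Crest.Agent.R154.J6_24

open MeasureTheory ProbabilityTheory Filter Set Crest.ProbabilityR.RandomEnvironment
open Crest.Agent.R154.Mk561 Crest.Agent.R154.Bind263 Crest.Agent.R154.B4Inst797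
open Crest.Agent.R154.J132
open Crest.Agent.R154.Ren263 (Word pre hgt Stay Record len_pre hgt_zero hgt_shift measurableSet_Stay)
open Crest.Agent.R154.RenG263 (RecSys Reg tau tau_spec tau_min blk0 blks RegInf rest_mem reg_shift
  wordLaw RenewalG measurable_blks)
open scoped ENNReal Topology

variable {d : ℕ} {u : Step d} {κ : ℝ} {R : ℕ}

/-- concatenation of a list of words -/
def flat {S : Type*} (w : List (Word S)) : List S := List.flatten (w : List (List S))

/-- lateral displacement of a word of marks -/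
def wl (i : Fin d) (w : List (Mark d)) : ℤ := (List.map stp w).sum i

/-- height of a word of marks -/
def wh (u : Step d) (w : List (Mark d)) : ℤ := (List.map (zht u) w).sum

/-- same-level difference of absolute value `≥ r` inside a joint word (next joint cut included) -/
def Bad (u : Step d) (i : Fin d) (r : ℕ) :
    Set (List (Word (Mark d)) × List (Word (Mark d))) :=
  {w | ∃ a b : List (Mark d), a <+: flat w.1 ∧ b <+: flat w.2 ∧ wh u a = wh u b ∧
    (r : ℤ) ≤ |wl i a - wl i b|}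


/-- time of the `m`-th cut -/
noncomputable def Tm (ρ : RecSys (mht (B2d.dirVec u))) : ℕ → MPath d → ℕ
  | 0, _ => 0
  | m + 1, s => tau ρ s + Tm ρ m (RenG263.rest ρ s)

lemma pre_add {S : Type*} (n m : ℕ) (s : ℕ → S) :
    pre (n + m) s = List.append (pre n s) (pre m (Ren263.shift n s)) := by
  unfold pre Ren263.shift
  rw [List.range_add, List.map_append, List.map_map]
  rfl

lemma flat_prf (m : ℕ) (s : MPath d) :
    flat (prf m (blks (rhoU u κ R) s)) = pre (Tm (rhoU u κ R) m s) s := by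
  induction m generalizing s with
  | zero => rfl
  | succ m ih =>
    rw [Nat.add_comm m 1, prf_add, sh_blks]
    have h1 : Tm (rhoU u κ R) (1 + m) s
        = tau (rhoU u κ R) s + Tm (rhoU u κ R) m (RenG263.rest (rhoU u κ R) s) := by
      rw [Nat.add_comm 1 m]; rfl
    rw [h1, pre_add]
    have h2 : ∀ a b : List (Word (Mark d)), flat (a ++ b) = List.append (flat a) (flat b) :=
      fun a b => by
        unfold flat
        exact List.flatten_append
    rw [h2, ih]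
    have h3 : flat (prf 1 (blks (rhoU u κ R) s)) = blk0 (rhoU u κ R) s := by
      change flat [blk0 (rhoU u κ R) s] = _
      unfold flat
      exact List.append_nil _
    rw [h3]
    rfl

lemma blks_iter (q : ℕ) (s : MPath d) :
    blks (rhoU u κ R) ((RenG263.rest (rhoU u κ R))^[q] s) = sh q (blks (rhoU u κ R) s) := by
  induction q generalizing s with
  | zero => rw [sh_zero]; rfl
  | succ q ih =>
    rw [Function.iterate_succ_apply, ih, ← sh_blks, sh_sh, Nat.add_comm]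

lemma iter_mem {s : MPath d} (hs : s ∈ RegInf (rhoU u κ R)) (q : ℕ) :
    (RenG263.rest (rhoU u κ R))^[q] s ∈ RegInf (rhoU u κ R) := by
  induction q generalizing s with
  | zero => exact hs
  | succ q ih =>
    rw [Function.iterate_succ_apply]
    exact ih (rest_mem hs)

/-- the `m`-th cut is the first hitting time of its level -/
lemma hit_Tm {s : MPath d} (hs : s ∈ RegInf (rhoU u κ R)) (m : ℕ) :
    Hit u (H (Yw u) m (blks (rhoU u κ R) s)) (Tm (rhoU u κ R) m s) s ∧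
      (RenG263.rest (rhoU u κ R))^[m] s = Ren263.shift (Tm (rhoU u κ R) m s) s := by
  induction m generalizing s with
  | zero =>
    refine ⟨?_, ?_⟩
    · rw [H_zero]; exact hit_zero u s
    · change s = Ren263.shift 0 s
      rw [Ren263.shift_zero]
  | succ m ih =>
    obtain ⟨h1, h2⟩ := ih (rest_mem hs)
    have hHit := hit_tau hs
    refine ⟨?_, ?_⟩
    · have e : H (Yw u) (m + 1) (blks (rhoU u κ R) s)
          = Yw u (blk0 (rhoU u κ R) s)
            + H (Yw u) m (blks (rhoU u κ R) (RenG263.rest (rhoU u κ R) s)) := by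
        rw [Nat.add_comm m 1, H_add, sh_blks]
        have e0 : H (Yw u) 1 (blks (rhoU u κ R) s) = Yw u (blk0 (rhoU u κ R) s) := by
          simp [H]; rfl
        rw [e0]
      rw [e]
      exact hit_comp hHit h1
    · rw [Function.iterate_succ_apply, h2]
      change Ren263.shift _ (Ren263.shift _ s) = _
      rw [Ren263.shift_shift]
      rfl

lemma prefix_pre {n : ℕ} {s : MPath d} {a : List (Mark d)} (h : a <+: (pre n s : List (Mark d))) :
    ∃ j ≤ n, a = pre j s := by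
  have h1 := List.prefix_iff_eq_take.1 h
  have h2 : a.length ≤ n := by
    have := h.length_le
    simpa [pre] using this
  refine ⟨a.length, h2, ?_⟩
  conv_lhs => rw [h1]
  unfold pre
  rw [← List.map_take, List.take_range, Nat.min_eq_left h2]

lemma wh_pre (n : ℕ) (s : MPath d) : wh u (pre n s) = zh u s n := wzht_pre u n s

lemma wl_pre (i : Fin d) (n : ℕ) (s : MPath d) : wl i (pre n s) = pos 0 s n i := by
  unfold wl
  rw [stp_pre]

lemma pos_add_shift (s : MPath d) (n k : ℕ) :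
    pos 0 s (n + k) = pos 0 s n + pos 0 (Ren263.shift n s) k := by
  unfold pos Ren263.shift
  rw [Finset.sum_range_add, zero_add, zero_add, zero_add]

/-- deviation `≥ r/4` from the tube `v` before leaving the levels `[0, n)` (marked paths) -/
def Dev (u : Step d) (i : Fin d) (v : ℤ → ℤ) (n r : ℕ) : Set (MPath d) :=
  {s | ∃ t, (∀ j ≤ t, 0 ≤ zh u s j ∧ zh u s j < n) ∧ (r : ℤ) ≤ 4 * |pos 0 s t i - v (zh u s t)|}

section joint
variable {A : Type*}

lemma sh_zero' (a : ℕ → A) : sh 0 a = a := by funext k; simp [sh]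

lemma sh_sh' (n m : ℕ) (a : ℕ → A) : sh n (sh m a) = sh (m + n) a := by
  funext k; simp [sh, add_assoc]

lemma iter_rest (Y : A → ℕ) (k : ℕ) (p : (ℕ → A) × (ℕ → A)) :
    (rest Y)^[k] p = sh2 (Qk Y k p).1 (Qk Y k p).2 p := by
  induction k generalizing p with
  | zero =>
    change p = sh2 0 0 p
    unfold sh2
    rw [sh_zero', sh_zero']
  | succ k ih =>
    rw [Function.iterate_succ_apply, ih, Qk_succ, Prod.fst_add, Prod.snd_add]
    unfold sh2
    unfold rest sh2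
    simp only [sh_sh']

lemma H_Qk {Y : A → ℕ} (hY : ∀ a, 1 ≤ Y a) (k : ℕ) {p : (ℕ → A) × (ℕ → A)} (hp : p ∈ AllGood Y) :
    H Y (Qk Y k p).1 p.1 = H Y (Qk Y k p).2 p.2 := by
  induction k generalizing p with
  | zero => simp [Qk, H_zero]
  | succ k ih =>
    have h1 := ih (allGood_rest hp)
    have h2 := (mem_fst_idx hY (hp 0)).2.1
    simp only [Function.iterate_zero, id_eq] at h2
    rw [Qk_succ, Prod.fst_add, Prod.snd_add, H_add, H_add, h2]
    have h1' : H Y (Qk Y k (rest Y p)).1 (sh (idx Y p).1 p.1)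
        = H Y (Qk Y k (rest Y p)).2 (sh (idx Y p).2 p.2) := h1
    rw [h1']

end joint

/-- **the deterministic step**: a bad joint word in the levels `[0, 4h)` forces a deviation -/
theorem dev_of_bad {s s' : MPath d} (hs : s ∈ RegInf (rhoU u κ R))
    (hs' : s' ∈ RegInf (rhoU u κ R)) (i : Fin d) (v : ℤ → ℤ) {h r k : ℕ}
    (hall : (blks (rhoU u κ R) s, blks (rhoU u κ R) s') ∈ AllGood (Yw u))
    (hc : H (Yw u) (Qk (Yw u) k (blks (rhoU u κ R) s, blks (rhoU u κ R) s')).1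
      (blks (rhoU u κ R) s) < 2 * h)
    (hR : R0 (Yw u) ((rest (Yw u))^[k] (blks (rhoU u κ R) s, blks (rhoU u κ R) s')) < 2 * h)
    (hbad : wdk (Yw u) k (blks (rhoU u κ R) s, blks (rhoU u κ R) s') ∈ Bad u i r) :
    s ∈ Dev u i v (4 * h) r ∨ s' ∈ Dev u i v (4 * h) r := by
  set ρ := rhoU u κ R with hρ
  set p : (ℕ → Word (Mark d)) × (ℕ → Word (Mark d)) := (blks ρ s, blks ρ s') with hp
  set q := Qk (Yw u) k p with hq
  set σ := (RenG263.rest ρ)^[q.1] s with hσ
  set σ' := (RenG263.rest ρ)^[q.2] s' with hσ'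
  have hσm : σ ∈ RegInf ρ := iter_mem hs _
  have hσm' : σ' ∈ RegInf ρ := iter_mem hs' _
  have hit1 := hit_Tm hs q.1
  have hit2 := hit_Tm hs' q.2
  have hHq : H (Yw u) q.1 (blks ρ s) = H (Yw u) q.2 (blks ρ s') := H_Qk (one_le_Yw u) k hall
  have hrk : (rest (Yw u))^[k] p = (blks ρ σ, blks ρ σ') := by
    rw [iter_rest, hσ, hσ', blks_iter, blks_iter]
    rfl
  set q' := idx (Yw u) (blks ρ σ, blks ρ σ') with hq'
  have hgood : (blks ρ σ, blks ρ σ') ∈ Good (Yw u) := by rw [← hrk]; exact hall k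
  have hF := mem_fst_idx (one_le_Yw u) hgood
  rw [← hq'] at hF
  have hw : wdk (Yw u) k p = (prf q'.1 (blks ρ σ), prf q'.2 (blks ρ σ')) := by
    unfold wdk wd
    rw [hrk]
  have hR0 : H (Yw u) q'.1 (blks ρ σ) < 2 * h := by
    rw [hrk] at hR; exact hR
  have hHq' : H (Yw u) q'.1 (blks ρ σ) = H (Yw u) q'.2 (blks ρ σ') := hF.2.1
  have it1 := (hit_Tm hσm q'.1).1
  have it2 := (hit_Tm hσm' q'.2).1
  obtain ⟨a, b, ha, hb, hab, hr⟩ := hbad
  rw [hw] at ha hb
  simp only at ha hb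
  rw [flat_prf] at ha hb
  obtain ⟨j, hj, rfl⟩ := prefix_pre ha
  obtain ⟨j', hj', rfl⟩ := prefix_pre hb
  rw [wh_pre, wh_pre] at hab
  rw [wl_pre, wl_pre] at hr
  set n := Tm ρ q.1 s with hn
  set n' := Tm ρ q.2 s' with hn'
  have eσ : σ = Ren263.shift n s := hit1.2
  have eσ' : σ' = Ren263.shift n' s' := hit2.2
  set c : ℕ := H (Yw u) q.1 (blks ρ s) with hcdef
  rw [← hHq] at hit2
  rw [← hHq'] at it2
  set c' : ℕ := H (Yw u) q'.1 (blks ρ σ) with hc'def
  -- range of the levels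
  have rng : ∀ {τ ς : MPath d} {m T J : ℕ}, τ ∈ RegInf ρ → ς = Ren263.shift m τ →
      Hit u c m τ → Hit u c' T ς → J ≤ T →
      ∀ t ≤ m + J, 0 ≤ zh u τ t ∧ zh u τ t < ((4 * h : ℕ) : ℤ) := by
    intro τ ς m T J hτ e h1 h2 hJ t ht
    refine ⟨stay_zh.1 hτ.1 t, ?_⟩
    rcases Nat.lt_or_ge t m with hlt | hge
    · have := h1.2 t hlt
      push_cast
      omega
    · obtain ⟨t', rfl⟩ := Nat.exists_eq_add_of_le hge
      rw [zh_add, h1.1, ← e]
      have h3 : zh u ς t' ≤ c' := by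
        rcases Nat.lt_or_ge t' T with h4 | h4
        · exact (h2.2 t' h4).le
        · have : t' = T := by omega
          rw [this, h2.1]
      push_cast
      omega
  have e1 : zh u s (n + j) = c + zh u σ j := by rw [zh_add, hit1.1.1, eσ]
  have e2 : zh u s' (n' + j') = c + zh u σ' j' := by rw [zh_add, hit2.1.1, eσ']
  have f1 : pos 0 s (n + j) i = pos 0 s n i + pos 0 σ j i := by
    rw [pos_add_shift, eσ]; rfl
  have f2 : pos 0 s' (n' + j') i = pos 0 s' n' i + pos 0 σ' j' i := by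
    rw [pos_add_shift, eσ']; rfl
  by_contra hcon
  push Not at hcon
  obtain ⟨hd1, hd2⟩ := hcon
  have A1 : 4 * |pos 0 s (n + j) i - v (c + zh u σ j)| < r := by
    by_contra hx
    push Not at hx
    exact hd1 ⟨n + j, rng hs eσ hit1.1 it1 hj, by rw [e1]; exact hx⟩
  have A2 : 4 * |pos 0 s' (n' + j') i - v (c + zh u σ j)| < r := by
    by_contra hx
    push Not at hx
    exact hd2 ⟨n' + j', rng hs' eσ' hit2.1 it2 hj', by rw [e2, ← hab]; exact hx⟩
  have A3 : 4 * |pos 0 s n i - v c| < r := by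
    by_contra hx
    push Not at hx
    exact hd1 ⟨n, fun t ht => rng hs eσ hit1.1 it1 (Nat.zero_le _) t (by omega),
      by rw [hit1.1.1]; exact hx⟩
  have A4 : 4 * |pos 0 s' n' i - v c| < r := by
    by_contra hx
    push Not at hx
    exact hd2 ⟨n', fun t ht => rng hs' eσ' hit2.1 it2 (Nat.zero_le _) t (by omega),
      by rw [hit2.1.1]; exact hx⟩
  rw [f1] at A1
  rw [f2] at A2
  have key : pos 0 σ j i - pos 0 σ' j' i
      = (pos 0 s n i + pos 0 σ j i - v (c + zh u σ j))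
        - (pos 0 s' n' i + pos 0 σ' j' i - v (c + zh u σ j))
        - ((pos 0 s n i - v c) - (pos 0 s' n' i - v c)) := by ring
  have t1 := abs_sub (pos 0 s n i + pos 0 σ j i - v (c + zh u σ j)
        - (pos 0 s' n' i + pos 0 σ' j' i - v (c + zh u σ j)))
        ((pos 0 s n i - v c) - (pos 0 s' n' i - v c))
  have t2 := abs_sub (pos 0 s n i + pos 0 σ j i - v (c + zh u σ j))
        (pos 0 s' n' i + pos 0 σ' j' i - v (c + zh u σ j))
  have t3 := abs_sub (pos 0 s n i - v c) (pos 0 s' n' i - v c)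
  rw [key] at hr
  omega

/-! ### the same event for sites, and its measurability -/

lemma lev_pos (u : Step d) (s : MPath d) (n : ℕ) : Flux132.lev u (pos 0 s n) = zh u s n := by
  induction n with
  | zero =>
    rw [pos_zero, zh_zero]
    unfold Flux132.lev
    split_ifs <;> simp
  | succ n ih =>
    rw [pos_succ, zh_succ, ← ih, ← lev_eq_zht]
    unfold Flux132.lev
    split_ifs
    · rfl
    · change -(pos 0 s n u.1 + stp (s n) u.1) = _
      ring

/-- deviation `≥ r/4` from the tube `v` before leaving the levels `[0, n)` (site paths) -/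
def DevX (u : Step d) (i : Fin d) (v : ℤ → ℤ) (n r : ℕ) : Set (Path d) :=
  {X | ∃ t, (∀ j ≤ t, 0 ≤ Flux132.lev u (X j) ∧ Flux132.lev u (X j) < n) ∧
    (r : ℤ) ≤ 4 * |X t i - v (Flux132.lev u (X t))|}

lemma dev_eq (u : Step d) (i : Fin d) (v : ℤ → ℤ) (n r : ℕ) :
    Dev u i v n r = mpath 0 ⁻¹' DevX u i v n r := by
  ext s
  simp only [Dev, DevX, mem_setOf_eq, mem_preimage, mpath, lev_pos]

lemma measurableSet_DevX (u : Step d) (i : Fin d) (v : ℤ → ℤ) (n r : ℕ) :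
    MeasurableSet (DevX u i v n r) := by
  have e : DevX u i v n r = ⋃ t : ℕ, ((⋂ j : ℕ, ⋂ _ : j ≤ t,
      (fun X : Path d => X j) ⁻¹' {z | 0 ≤ Flux132.lev u z ∧ Flux132.lev u z < n}) ∩
      (fun X : Path d => X t) ⁻¹' {z | (r : ℤ) ≤ 4 * |z i - v (Flux132.lev u z)|}) := by
    ext X
    simp [DevX]
  rw [e]
  refine MeasurableSet.iUnion fun t => (MeasurableSet.iInter fun j => MeasurableSet.iInter fun _ =>
    measurable_pi_apply j (Set.to_countable _).measurableSet).inter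
    (measurable_pi_apply t (Set.to_countable _).measurableSet)

section law
variable {Q : Measure (Environment d)} [IsProbabilityMeasure Q]

/-- deviation of the natural walk, in terms of the annealed law -/
theorem stL_dev_le (F : Frame Q κ R) (i : Fin d) (v : ℤ → ℤ) (n r : ℕ) :
    stL Q κ u (Dev u i v n r)
      ≤ (mkAnn κ Q 0 (Stay (mht (B2d.dirVec u))))⁻¹ * annealedProb Q 0 (DevX u i v n r) := by
  rw [stL, cond_apply (measurableSet_Stay _)]
  gcongr
  rw [← F.prob_eq (measurableSet_DevX u i v n r), ← dev_eq]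
  exact measure_mono inter_subset_right

/-- **(J6)**: `h P(h ≤ R < 2 h, r ≤ B) ≤ 2 p⁻³ P_ann(deviation ≥ r / 4 from v in [0, 4h))` -/
theorem J6 (F : Frame Q κ 0) (hA : annealedProb Q 0 (escapeEvent (B2d.dirVec u)) ≠ 0) (i : Fin d)
    (B : List (Word (Mark d)) × List (Word (Mark d)) → ℕ)
    (hB : ∀ w r, r ≤ B w → w ∈ Bad u i r) (v : ℤ → ℤ) (h r : ℕ) :
    (h : ℝ≥0∞) * (mkAnn κ Q 0 (Stay (mht (B2d.dirVec u)))) ^ 2 *
        pairL (muW Q κ 0 u) {p | h ≤ R0 (Yw u) p ∧ R0 (Yw u) p < 2 * h ∧ r ≤ B (wd (Yw u) p)}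
      ≤ 2 * ((mkAnn κ Q 0 (Stay (mht (B2d.dirVec u))))⁻¹ *
        annealedProb Q 0 (DevX u i v (4 * h) r)) := by
  have hpr := probW F hA
  have hp : mkAnn κ Q 0 (Stay (mht (B2d.dirVec u))) ≠ 0 := F.hp _ hA
  have hst : IsProbabilityMeasure (stL Q κ u) := cond_isProbabilityMeasure hp
  have hY := one_le_Yw u
  have hs := sum_noCut_ne_top F hA
  have hg : pairL (muW Q κ 0 u) (Good (Yw u))ᶜ = 0 :=
    good_ae _ hY (noCut_tendsto' _ hs)
  have hag : ∀ᵐ p ∂(pairL (muW Q κ 0 u)), p ∈ AllGood (Yw u) := allGood_ae _ hY hg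
  set μ := muW Q κ 0 u with hμ
  set Φ : List (Word (Mark d)) × List (Word (Mark d)) → ℕ × ℕ := fun w => (hw (Yw u) w.1, B w)
    with hΦ
  set ζ : ℕ → (ℕ → Word (Mark d)) × (ℕ → Word (Mark d)) → ℕ × ℕ :=
    fun k p => Φ (wdk (Yw u) k p) with hζ
  set Rr : ℕ × ℕ → ℕ := fun e => max 1 e.1 with hRr
  set G : Set (ℕ × ℕ) := {e | h ≤ Rr e ∧ Rr e < 2 * h ∧ r ≤ e.2} with hG
  have hζ1 : ∀ k p, (ζ k p).1 = R0 (Yw u) ((rest (Yw u))^[k] p) := fun k p => hw_wd (Yw u) _
  have hR0 : ∀ p ∈ AllGood (Yw u), ∀ k, 1 ≤ R0 (Yw u) ((rest (Yw u))^[k] p) := fun p hp k => by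
    have h1 := mem_fst_idx hY (hp k)
    exact h1.1.trans (le_H hY _ _)
  have hHh : ∀ p ∈ AllGood (Yw u), ∀ k, BlkTail24.Hh Rr ζ k p
      = H (Yw u) (Qk (Yw u) k p).1 p.1 := fun p hp k => by
    rw [← sum_R]
    refine Finset.sum_congr rfl fun j _ => ?_
    change max 1 (ζ j p).1 = _
    rw [hζ1]
    exact max_eq_right (hR0 p hp j)
  have hζm : ∀ k, Measurable (ζ k) := fun k => measurable_wdk Φ hY k
  have hid : ∀ k, (pairL μ).map (ζ k) = (pairL μ).map (ζ 0) := fun k =>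
    (law_wdk Φ μ hY hg k).trans (law_wdk Φ μ hY hg 0).symm
  have hu : ∀ m < 2 * h, (mkAnn κ Q 0 (Stay (mht (B2d.dirVec u)))) ^ 2
      ≤ pairL μ {p | ∃ k, BlkTail24.Hh Rr ζ k p = m} := by
    intro m _
    have h1 := Ur_ge F hA (l := m) (Nat.zero_le m)
    rw [pow_zero, one_mul] at h1
    refine h1.trans ?_
    unfold Ur
    refine measure_mono_ae ?_
    filter_upwards [hag] with p hp hc
    obtain ⟨a, b, ha, hb⟩ := hc
    obtain ⟨k, hk⟩ := exists_Qk hY a b hp (ha.trans hb.symm)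
    exact ⟨k, by rw [hHh p hp, hk]; exact ha⟩
  have main := BlkTail24.rare_iid (P := pairL μ) (Rr := Rr) (ζ := ζ) (G := G) (h := h)
    (measurable_of_countable _) (fun e => le_max_left _ _) hζm (indep_wdk Φ μ hY hg) hid
    (Set.to_countable _).measurableSet hu (fun e he => he.1)
  have e1 : pairL μ {p | h ≤ R0 (Yw u) p ∧ R0 (Yw u) p < 2 * h ∧ r ≤ B (wd (Yw u) p)}
      ≤ pairL μ (ζ 0 ⁻¹' G) := by
    refine measure_mono_ae ?_
    filter_upwards [hag] with p hp h1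
    have h2 : Rr (ζ 0 p) = R0 (Yw u) p := by
      change max 1 (ζ 0 p).1 = _
      rw [hζ1]
      exact max_eq_right (hR0 p hp 0)
    exact ⟨by rw [h2]; exact h1.1, by rw [h2]; exact h1.2.1, h1.2.2⟩
  have hm : Measurable (blks (rhoU (d := d) u κ 0)) := measurable_blks _
  have e2 : pairL μ (BlkTail24.Be Rr ζ G (2 * h)) ≤ 2 * stL Q κ u (Dev u i v (4 * h) r) := by
    have e3 : pairL μ (BlkTail24.Be Rr ζ G (2 * h))
        = ((stL Q κ u).prod (stL Q κ u)) (Prod.map (blks (rhoU u κ 0)) (blks (rhoU u κ 0)) ⁻¹'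
          (BlkTail24.Be Rr ζ G (2 * h))) := by
      have hBm : MeasurableSet (BlkTail24.Be Rr ζ G (2 * h)) := by
        have e4 : BlkTail24.Be Rr ζ G (2 * h)
            = ⋃ m : Fin (2 * h), BlkTail24.St Rr ζ G m := by
          ext p
          simp only [BlkTail24.Be, BlkTail24.St, mem_setOf_eq, mem_iUnion]
          constructor
          · rintro ⟨k, h1, h2⟩; exact ⟨⟨_, h1⟩, k, rfl, h2⟩
          · rintro ⟨m, k, h1, h2⟩; exact ⟨k, by rw [h1]; exact m.2, h2⟩
        rw [e4]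
        exact MeasurableSet.iUnion fun m => BlkTail24.measurableSet_St (measurable_of_countable _)
          hζm (Set.to_countable _).measurableSet m
      rw [hμ, pairL, ← map_blksU F hA, Measure.map_prod_map _ _ hm hm,
        Measure.map_apply (hm.prodMap hm) hBm]
    rw [e3]
    have h1 := Measure.quasiMeasurePreserving_fst (μ := stL Q κ u) (ν := stL Q κ u)
      |>.ae (ae_regInfU F hA)
    have h2 := Measure.quasiMeasurePreserving_snd (μ := stL Q κ u) (ν := stL Q κ u)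
      |>.ae (ae_regInfU F hA)
    have h3 : ∀ᵐ p ∂((stL Q κ u).prod (stL Q κ u)),
        (blks (rhoU u κ 0) p.1, blks (rhoU u κ 0) p.2) ∈ AllGood (Yw u) := by
      have h4 : ∀ᵐ p ∂(((stL Q κ u).map (blks (rhoU u κ 0))).prod
          ((stL Q κ u).map (blks (rhoU u κ 0)))), p ∈ AllGood (Yw u) := by
        rw [map_blksU F hA]; exact hag
      rw [Measure.map_prod_map _ _ hm hm] at h4
      exact ae_of_ae_map (hm.prodMap hm).aemeasurable h4
    calc ((stL Q κ u).prod (stL Q κ u)) (Prod.map (blks (rhoU u κ 0)) (blks (rhoU u κ 0)) ⁻¹'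
          (BlkTail24.Be Rr ζ G (2 * h)))
        ≤ ((stL Q κ u).prod (stL Q κ u))
          (Dev u i v (4 * h) r ×ˢ univ ∪ univ ×ˢ Dev u i v (4 * h) r) := by
          refine measure_mono_ae ?_
          filter_upwards [h1, h2, h3] with p hp1 hp2 hp3 hbe
          obtain ⟨k, hk1, hk2⟩ := hbe
          have hk1' : BlkTail24.Hh Rr ζ k (blks (rhoU u κ 0) p.1, blks (rhoU u κ 0) p.2)
            < 2 * h := hk1
          rw [hHh _ hp3] at hk1'
          change p ∈ Dev u i v (4 * h) r ×ˢ univ ∪ univ ×ˢ Dev u i v (4 * h) r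
          have hRk : Rr (ζ k (Prod.map (blks (rhoU u κ 0)) (blks (rhoU u κ 0)) p))
              = R0 (Yw u) ((rest (Yw u))^[k] (blks (rhoU u κ 0) p.1, blks (rhoU u κ 0) p.2)) := by
            change max 1 (ζ k _).1 = _
            rw [hζ1]
            exact max_eq_right (hR0 _ hp3 k)
          have hk3 := hk2.2.1
          rw [hRk] at hk3
          rcases dev_of_bad hp1 hp2 i v hp3 hk1' hk3 (hB _ r hk2.2.2) with h5 | h5
          · exact Or.inl ⟨h5, trivial⟩
          · exact Or.inr ⟨trivial, h5⟩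
      _ ≤ ((stL Q κ u).prod (stL Q κ u)) (Dev u i v (4 * h) r ×ˢ univ)
          + ((stL Q κ u).prod (stL Q κ u)) (univ ×ˢ Dev u i v (4 * h) r) := measure_union_le _ _
      _ = 2 * stL Q κ u (Dev u i v (4 * h) r) := by
          rw [Measure.prod_prod, Measure.prod_prod, measure_univ, mul_one, one_mul, two_mul]
  calc (h : ℝ≥0∞) * (mkAnn κ Q 0 (Stay (mht (B2d.dirVec u)))) ^ 2 *
        pairL μ {p | h ≤ R0 (Yw u) p ∧ R0 (Yw u) p < 2 * h ∧ r ≤ B (wd (Yw u) p)}
      ≤ (h : ℝ≥0∞) * (mkAnn κ Q 0 (Stay (mht (B2d.dirVec u)))) ^ 2 * pairL μ (ζ 0 ⁻¹' G) := by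
        gcongr
    _ ≤ pairL μ (BlkTail24.Be Rr ζ G (2 * h)) := main
    _ ≤ 2 * stL Q κ u (Dev u i v (4 * h) r) := e2
    _ ≤ _ := by
        gcongr
        exact stL_dev_le F i v (4 * h) r

end law

end Crest.Agent.R154.J6_24
end

-- ▼ part R154/J6Fin_24
section

/-! Row 154, block `d = 2`, D2.2: the tail of the joint block from a tube of width `w` for the
levels `[0, 4h)`: `h P(h ≤ R < 2h, B ≥ r) ≤ C ρ ^ ⌊c r / w⌋` (J6 + slab lemma). -/

set_option autoImplicit false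
set_option linter.unusedSectionVars false
set_option linter.deprecated false

namespace Crest.Agent.R154.J6_24

open MeasureTheory ProbabilityTheory Filter Set Crest.ProbabilityR.RandomEnvironment
open Crest.Agent.R154.Mk561 Crest.Agent.R154.Bind263 Crest.Agent.R154.B4Inst797
open Crest.Agent.R154.J132
open Crest.Agent.R154.Flux132 (lev)
open Crest.Agent.R154.Ren263 (Word pre hgt Stay Record len_pre hgt_zero hgt_shift measurableSet_Stay)
open Crest.Agent.R154.RenG263 (RecSys Reg tau tau_spec tau_min blk0 blks RegInf rest_mem reg_shift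
  wordLaw RenewalG measurable_blks)
open scoped ENNReal Topology

variable {d : ℕ} {u : Step d} {κ : ℝ} {R : ℕ}

/-- the `i`-th coordinate as a real functional -/
def phi (i : Fin d) : Site d →+ ℝ := (Int.castAddHom ℝ).comp (Pi.evalAddMonoidHom (fun _ => ℤ) i)

@[simp] lemma phi_apply (i : Fin d) (z : Site d) : phi i z = (z i : ℝ) := rfl

/-- the functional `Bj` of 132 is a same-level extent -/
lemma bad_of_le_Bj (i : Fin d) (w : List (Word (Mark d)) × List (Word (Mark d))) (r : ℕ)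
    (h : r ≤ ⌊Bj u (phi i) w⌋₊) : w ∈ Bad u i r := by
  have h1 : (r : ℝ) ≤ Bj u (phi i) w :=
    (Nat.cast_le.2 h).trans (Nat.floor_le (Bj_nonneg (u := u) (phi i) w))
  unfold Bj dev at h1
  obtain ⟨q, hq, he⟩ := Finset.exists_mem_eq_sup' (same_nonempty u (flw w.1) (flw w.2))
    (fun q => |phi i (ps ((flw w.1).take q.1)) - phi i (ps ((flw w.2).take q.2))|)
  rw [he] at h1
  simp only [same, Finset.mem_filter, Finset.mem_product, Finset.mem_range] at hq
  refine ⟨(flw w.1).take q.1, (flw w.2).take q.2, List.take_prefix _ _, List.take_prefix _ _,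
    hq.2, ?_⟩
  have h2 : (r : ℝ) ≤ ((|wl i ((flw w.1).take q.1) - wl i ((flw w.2).take q.2)| : ℤ) : ℝ) := by
    push_cast
    exact h1
  exact_mod_cast h2

section law
variable {Q : Measure (Environment d)} [IsProbabilityMeasure Q]

/-- a tube for the natural walk gives an annealed climb -/
theorem climb_of_tube (F : Frame Q κ R) (hA : annealedProb Q 0 (escapeEvent (B2d.dirVec u)) ≠ 0)
    (i : Fin d) (v : ℤ → ℤ) (n : ℕ) (w A : ℤ) (hwA : w < A) {c : ℝ≥0∞}
    (hv : c ≤ stL Q κ u {s | ∀ t, zh u s t < n → |pos 0 s t i - v (zh u s t)| ≤ w}) :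
    mkAnn κ Q 0 (Stay (mht (B2d.dirVec u))) * c ≤ annealedProb Q 0
      {X | ∃ m, lev u (X m) = (n : ℤ) ∧ ∀ j < m, 0 ≤ lev u (X j) ∧ lev u (X j) < (n : ℤ) ∧
        |X j i - v (lev u (X j))| < A} := by
  set p := mkAnn κ Q 0 (Stay (mht (B2d.dirVec u))) with hp
  have hp0 : p ≠ 0 := F.hp _ hA
  set C : Set (Path d) := {X | ∃ m, lev u (X m) = (n : ℤ) ∧ ∀ j < m, 0 ≤ lev u (X j) ∧
    lev u (X j) < (n : ℤ) ∧ |X j i - v (lev u (X j))| < A} with hC
  have hCm : MeasurableSet C := by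
    have e : C = ⋃ m : ℕ, ((fun X : Path d => X m) ⁻¹' {z | lev u z = (n : ℤ)} ∩
        ⋂ j : ℕ, ⋂ _ : j < m, (fun X : Path d => X j) ⁻¹' {z | 0 ≤ lev u z ∧
          lev u z < (n : ℤ) ∧ |z i - v (lev u z)| < A}) := by
      ext X
      simp [hC]
    rw [e]
    refine MeasurableSet.iUnion fun m => (measurable_pi_apply m
      (Set.to_countable _).measurableSet).inter (MeasurableSet.iInter fun j =>
      MeasurableSet.iInter fun _ => measurable_pi_apply j (Set.to_countable _).measurableSet)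
  have h1 : stL Q κ u {s | ∀ t, zh u s t < n → |pos 0 s t i - v (zh u s t)| ≤ w}
      ≤ stL Q κ u (mpath 0 ⁻¹' C) := by
    refine measure_mono_ae ?_
    filter_upwards [ae_regInfU F hA] with s hs hw
    obtain ⟨m, hm⟩ := exists_hit_regInf hs n
    refine ⟨m, ?_, fun j hj => ?_⟩
    · change lev u (pos 0 s m) = _
      rw [lev_pos]; exact hm.1
    · change 0 ≤ lev u (pos 0 s j) ∧ lev u (pos 0 s j) < (n : ℤ) ∧
        |pos 0 s j i - v (lev u (pos 0 s j))| < A
      rw [lev_pos]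
      exact ⟨stay_zh.1 hs.1 j, hm.2 j hj, lt_of_le_of_lt (hw j (hm.2 j hj)) hwA⟩
  have h2 : stL Q κ u (mpath 0 ⁻¹' C) ≤ p⁻¹ * annealedProb Q 0 C := by
    rw [stL, cond_apply (measurableSet_Stay _), ← F.prob_eq hCm]
    gcongr
    exact inter_subset_right
  calc p * c ≤ p * (p⁻¹ * annealedProb Q 0 C) := by
        gcongr
        exact hv.trans (h1.trans h2)
    _ = annealedProb Q 0 C := by
        rw [← mul_assoc, ENNReal.mul_inv_cancel hp0 (measure_ne_top _ _), one_mul]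

end law

section two

variable {u : Step 2} {i : Fin 2}

/-- a deviation of the annealed walk from a tube, `d = 2` -/
theorem dev_le (ν : Measure (Row 2)) [IsProbabilityMeasure ν]
    (hν : ∀ᵐ q ∂ν, ∀ e : Step 2, 0 < q.1 e) (hi : i ≠ u.1)
    (hA : annealedProb (iidEnvironmentLaw ν) 0 (escapeEvent (B2d.dirVec u)) ≠ 0)
    (v : ℤ → ℤ) {n w : ℕ} (hn : 1 ≤ n) (hw : 1 ≤ w) {c : ℝ≥0∞}
    (hv : c ≤ stL (iidEnvironmentLaw ν) 0 u
      {s | ∀ t, zh u s t < n → |pos 0 s t i - v (zh u s t)| ≤ 2 * w}) :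
    ∃ v' : ℤ → ℤ, ∀ r : ℕ, annealedProb (iidEnvironmentLaw ν) 0 (DevX u i v' n r)
      ≤ 2 * (1 - mkAnn 0 (iidEnvironmentLaw ν) 0 (Stay (mht (B2d.dirVec u))) * c) ^ (r / (84 * w))
        := by
  have F := frame_iid ν hν
  have hp0 : mkAnn 0 (iidEnvironmentLaw ν) 0 (Stay (mht (B2d.dirVec u))) ≠ 0 := F.hp _ hA
  have hone : ∀ (v : ℤ → ℤ) (r : ℕ),
      annealedProb (iidEnvironmentLaw ν) 0 (DevX u i v n r) ≤ 2 := fun v r => by
    have : annealedProb (iidEnvironmentLaw ν) 0 (DevX u i v n r) ≤ 1 := by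
      rw [← F.prob_eq (measurableSet_DevX u i v n r)]
      exact prob_le_one
    exact this.trans (by norm_num)
  by_cases hc0 : c = 0
  · refine ⟨v, fun r => ?_⟩
    rw [hc0, mul_zero, tsub_zero, one_pow, mul_one]
    exact hone v r
  -- some path stays in the tube: |v 0| ≤ 2 w
  have hv0 : |v 0| ≤ 2 * (w : ℤ) := by
    have hne : stL (iidEnvironmentLaw ν) 0 u
        {s | ∀ t, zh u s t < n → |pos 0 s t i - v (zh u s t)| ≤ 2 * w} ≠ 0 := by
      intro h
      rw [h] at hv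
      exact hc0 (le_antisymm hv (zero_le))
    obtain ⟨s, hs⟩ := nonempty_of_measure_ne_zero hne
    have := hs 0 (by rw [zh_zero]; exact_mod_cast hn)
    rw [zh_zero, pos_zero] at this
    simpa using this
  set v' : ℤ → ℤ := fun l => v l - v 0 with hv'
  have hv'' : c ≤ stL (iidEnvironmentLaw ν) 0 u
      {s | ∀ t, zh u s t < n → |pos 0 s t i - v' (zh u s t)| ≤ 4 * w} := by
    refine hv.trans (measure_mono fun s hs t ht => ?_)
    have h1 := hs t ht
    have h2 : pos 0 s t i - v' (zh u s t) = (pos 0 s t i - v (zh u s t)) + v 0 := by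
      simp only [hv']; ring
    rw [h2]
    exact (abs_add_le _ _).trans (by linarith)
  have hcl := climb_of_tube F hA i v' n (4 * w) (4 * w + 1) (by omega) hv''
  refine ⟨v', fun r => ?_⟩
  rcases Nat.eq_zero_or_pos r with hr0 | hr
  · rw [hr0, Nat.zero_div, pow_zero, mul_one]
    exact hone v' 0
  set K := r / (84 * w) with hK
  have hl : (0 : ℤ) < (n : ℤ) := by exact_mod_cast hn
  have hw' : (1 : ℤ) ≤ w := by exact_mod_cast hw
  have hlev0 : lev u (0 : Site 2) = 0 := by unfold lev; split_ifs <;> simp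
  have key := Slab491.slab2' ν hν u hi v' (l0 := 0) (l1 := (n : ℤ)) (A := 4 * w + 1) (r := 1)
    (by omega) hl (xb := 0) (x0 := 0) hlev0 (by simp [hv']) hcl (by rw [hlev0])
    (by rw [hlev0]; exact hl) (by rw [hlev0]; simp [hv']) K
  refine le_trans ?_ key
  have F' := F.prob_eq (measurableSet_DevX u i v' n r)
  unfold annealedProb
  refine lintegral_mono fun ω => measure_mono ?_
  rintro X ⟨t, ht1, ht2⟩
  refine ⟨t, ?_, ht1⟩
  have hKr : 84 * w * K ≤ r := Nat.mul_div_le r (84 * w)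
  have hKr' : 84 * (w : ℤ) * K ≤ r := by exact_mod_cast hKr
  have hr' : (1 : ℤ) ≤ r := by exact_mod_cast hr
  rcases Nat.eq_zero_or_pos K with h0 | h0
  · rw [h0]
    push_cast
    omega
  · have h0' : (1 : ℤ) ≤ K := by exact_mod_cast h0
    have h5 : (1 : ℤ) ≤ (w : ℤ) * K := by nlinarith
    have h6 : (K : ℤ) ≤ (w : ℤ) * K := by nlinarith
    nlinarith

/-- law of the first joint block -/
theorem tail_of_tube (ν : Measure (Row 2)) [IsProbabilityMeasure ν]
    (hν : ∀ᵐ q ∂ν, ∀ e : Step 2, 0 < q.1 e) (hi : i ≠ u.1)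
    (hA : annealedProb (iidEnvironmentLaw ν) 0 (escapeEvent (B2d.dirVec u)) ≠ 0)
    (v : ℤ → ℤ) {h w : ℕ} (hw : 1 ≤ w) {c : ℝ≥0∞}
    (hv : c ≤ stL (iidEnvironmentLaw ν) 0 u
      {s | ∀ t, zh u s t < ((4 * h : ℕ) : ℤ) → |pos 0 s t i - v (zh u s t)| ≤ 2 * w})
    (r : ℕ) :
    (h : ℝ≥0∞) * (mkAnn 0 (iidEnvironmentLaw ν) 0 (Stay (mht (B2d.dirVec u)))) ^ 2 *
        pairL (muW (iidEnvironmentLaw ν) 0 0 u) {p | h ≤ Rj u (wd (Yw u) p) ∧
          Rj u (wd (Yw u) p) < 2 * h ∧ (r : ℝ) ≤ Bj u (phi i) (wd (Yw u) p)}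
      ≤ 4 * ((mkAnn 0 (iidEnvironmentLaw ν) 0 (Stay (mht (B2d.dirVec u))))⁻¹ *
        (1 - mkAnn 0 (iidEnvironmentLaw ν) 0 (Stay (mht (B2d.dirVec u))) * c) ^ (r / (84 * w))) := by
  have F := frame_iid ν hν
  rcases Nat.eq_zero_or_pos h with h0 | h0
  · subst h0
    rw [Nat.cast_zero, zero_mul, zero_mul]
    exact zero_le
  obtain ⟨v', hv'⟩ := dev_le ν hν hi hA v (n := 4 * h) (by omega) hw hv
  have key := J6 (κ := 0) F hA i (fun w => ⌊Bj u (phi i) w⌋₊)
    (fun w r hr => bad_of_le_Bj i w r hr) v' h r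
  have e : {p : (ℕ → Word (Mark 2)) × (ℕ → Word (Mark 2)) | h ≤ Rj u (wd (Yw u) p) ∧
          Rj u (wd (Yw u) p) < 2 * h ∧ (r : ℝ) ≤ Bj u (phi i) (wd (Yw u) p)}
      = {p | h ≤ R0 (Yw u) p ∧ R0 (Yw u) p < 2 * h ∧ r ≤ ⌊Bj u (phi i) (wd (Yw u) p)⌋₊} := by
    ext p
    simp only [mem_setOf_eq, Rj, hw_wd]
    rw [Nat.le_floor_iff (Bj_nonneg _ _)]
  rw [e]
  refine key.trans ?_
  calc 2 * ((mkAnn 0 (iidEnvironmentLaw ν) 0 (Stay (mht (B2d.dirVec u))))⁻¹ *
        annealedProb (iidEnvironmentLaw ν) 0 (DevX u i v' (4 * h) r))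
      ≤ 2 * ((mkAnn 0 (iidEnvironmentLaw ν) 0 (Stay (mht (B2d.dirVec u))))⁻¹ *
        (2 * (1 - mkAnn 0 (iidEnvironmentLaw ν) 0 (Stay (mht (B2d.dirVec u))) * c)
          ^ (r / (84 * w)))) := by
        gcongr
        exact hv' r
    _ = _ := by ring

/-- **D2.2**: the hypothesis `htail` of `nda_geo` (738) for the law of the joint blocks of two
independent natural walkers, from tubes of width `2 wdt n` for the levels `[0, n)` -/
theorem htail_of_tubes (ν : Measure (Row 2)) [IsProbabilityMeasure ν]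
    (hν : ∀ᵐ q ∂ν, ∀ e : Step 2, 0 < q.1 e) (hi : i ≠ u.1)
    (hA : annealedProb (iidEnvironmentLaw ν) 0 (escapeEvent (B2d.dirVec u)) ≠ 0)
    {c : ℝ≥0∞} (hc : c ≠ 0) {wdt : ℕ → ℕ} (hw : ∀ n, 1 ≤ wdt n)
    (htube : ∀ n : ℕ, 1 ≤ n → ∃ v : ℤ → ℤ, c ≤ stL (iidEnvironmentLaw ν) 0 u
      {s | ∀ t, zh u s t < (n : ℤ) → |pos 0 s t i - v (zh u s t)| ≤ 2 * wdt n}) :
    ∃ C ρ c' : ℝ, 0 ≤ C ∧ 0 ≤ ρ ∧ ρ < 1 ∧ 0 < c' ∧ ∀ h : ℕ, 1 ≤ h → ∀ r : ℝ, 0 < r →
      (h : ℝ) * (pairL (muW (iidEnvironmentLaw ν) 0 0 u)).real {p | h ≤ Rj u (wd (Yw u) p) ∧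
          Rj u (wd (Yw u) p) < 2 * h ∧ r ≤ Bj u (phi i) (wd (Yw u) p)}
        ≤ C * ρ ^ ⌊c' * r / (wdt (4 * h) : ℝ)⌋₊ := by
  have F := frame_iid ν hν
  have hpr := probW F hA
  set p := mkAnn 0 (iidEnvironmentLaw ν) 0 (Stay (mht (B2d.dirVec u))) with hp
  have hp0 : p ≠ 0 := F.hp _ hA
  have hpt : p ≠ ⊤ := measure_ne_top _ _
  set P := pairL (muW (iidEnvironmentLaw ν) 0 0 u) with hP
  have hpc : p * c ≠ 0 := mul_ne_zero hp0 hc
  set C : ℝ≥0∞ := 4 * p⁻¹ * (p ^ 2)⁻¹ with hC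
  have hCt : C ≠ ⊤ := ENNReal.mul_ne_top (ENNReal.mul_ne_top (by norm_num)
    (ENNReal.inv_ne_top.2 hp0)) (ENNReal.inv_ne_top.2 (pow_ne_zero _ hp0))
  have h1 : 1 - p * c < 1 := ENNReal.sub_lt_self ENNReal.one_ne_top one_ne_zero hpc
  refine ⟨C.toReal, (1 - p * c).toReal, 1 / 84, ENNReal.toReal_nonneg, ENNReal.toReal_nonneg, ?_,
    by norm_num, fun h hh r hr => ?_⟩
  · have := (ENNReal.toReal_lt_toReal h1.ne_top ENNReal.one_ne_top).2 h1
    simpa using this
  obtain ⟨v, hv⟩ := htube (4 * h) (by omega)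
  have key := tail_of_tube ν hν hi hA v (hw (4 * h)) hv ⌊r⌋₊
  rw [← hp, ← hP] at key
  have hfl : ⌊1 / 84 * r / (wdt (4 * h) : ℝ)⌋₊ = ⌊r⌋₊ / (84 * wdt (4 * h)) := by
    have e : 1 / 84 * r / (wdt (4 * h) : ℝ) = r / ((84 * wdt (4 * h) : ℕ) : ℝ) := by
      push_cast
      have : (wdt (4 * h) : ℝ) ≠ 0 := by
        have := hw (4 * h)
        positivity
      field_simp
    rw [e, Nat.floor_div_natCast]
  rw [hfl]
  have hsub : P {q | h ≤ Rj u (wd (Yw u) q) ∧ Rj u (wd (Yw u) q) < 2 * h ∧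
        r ≤ Bj u (phi i) (wd (Yw u) q)}
      ≤ P {q | h ≤ Rj u (wd (Yw u) q) ∧ Rj u (wd (Yw u) q) < 2 * h ∧
        (⌊r⌋₊ : ℝ) ≤ Bj u (phi i) (wd (Yw u) q)} :=
    measure_mono fun q hq => ⟨hq.1, hq.2.1, (Nat.floor_le hr.le).trans hq.2.2⟩
  have main : (h : ℝ≥0∞) * P {q | h ≤ Rj u (wd (Yw u) q) ∧ Rj u (wd (Yw u) q) < 2 * h ∧
        r ≤ Bj u (phi i) (wd (Yw u) q)} ≤ C * (1 - p * c) ^ (⌊r⌋₊ / (84 * wdt (4 * h))) := by
    have hp2 : p ^ 2 ≠ 0 := pow_ne_zero _ hp0
    have hp2t : p ^ 2 ≠ ⊤ := ENNReal.pow_ne_top hpt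
    have e1 : (h : ℝ≥0∞) * P {q | h ≤ Rj u (wd (Yw u) q) ∧ Rj u (wd (Yw u) q) < 2 * h ∧
        r ≤ Bj u (phi i) (wd (Yw u) q)} = (p ^ 2)⁻¹ * ((h : ℝ≥0∞) * p ^ 2 *
          P {q | h ≤ Rj u (wd (Yw u) q) ∧ Rj u (wd (Yw u) q) < 2 * h ∧
            r ≤ Bj u (phi i) (wd (Yw u) q)}) := by
      rw [← mul_assoc, mul_comm (h : ℝ≥0∞) (p ^ 2), ← mul_assoc, ENNReal.inv_mul_cancel hp2 hp2t,
        one_mul]
    rw [e1]
    calc (p ^ 2)⁻¹ * ((h : ℝ≥0∞) * p ^ 2 *
          P {q | h ≤ Rj u (wd (Yw u) q) ∧ Rj u (wd (Yw u) q) < 2 * h ∧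
            r ≤ Bj u (phi i) (wd (Yw u) q)})
        ≤ (p ^ 2)⁻¹ * (4 * (p⁻¹ * (1 - p * c) ^ (⌊r⌋₊ / (84 * wdt (4 * h))))) := by
          refine mul_le_mul' le_rfl (le_trans ?_ key)
          gcongr
      _ = C * (1 - p * c) ^ (⌊r⌋₊ / (84 * wdt (4 * h))) := by rw [hC]; ring
  have hfin : C * (1 - p * c) ^ (⌊r⌋₊ / (84 * wdt (4 * h))) ≠ ⊤ :=
    ENNReal.mul_ne_top hCt (ENNReal.pow_ne_top h1.ne_top)
  have := ENNReal.toReal_mono hfin main
  rw [ENNReal.toReal_mul, ENNReal.toReal_mul, ENNReal.toReal_pow, ENNReal.toReal_natCast] at this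
  exact this

end two

end Crest.Agent.R154.J6_24
end

-- ▼ part R154/NDAObj_24

/-! Row 154, block `d = 2`, D2.4: NDA for the law `triL` of the joint blocks (V, B, R) of two
independent natural walkers, from the tubes (504). -/

set_option autoImplicit false
set_option linter.unusedSectionVars false
set_option linter.deprecated false

namespace Crest.Agent.R154.NDAObj24

open MeasureTheory ProbabilityTheory Filter Set Crest.ProbabilityR.RandomEnvironment
open Crest.Agent.R154.Mk561 Crest.Agent.R154.Bind263 Crest.Agent.R154.B4Inst797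
open Crest.Agent.R154.J132 Crest.Agent.R154.J6_24
open Crest.Agent.R154.Hair738 (T U Core NDA)
open Crest.Agent.R154.Ren263 (Word Stay)
open scoped ENNReal Topology

/-! ### almost sure versions -/

section ae
variable {Ω : Type*} [MeasurableSpace Ω] {P : Measure Ω} [IsProbabilityMeasure P]
  {V B V' B' : Ω → ℝ} {R R' : Ω → ℕ}

lemma T_congr (hB : B =ᵐ[P] B') : T P B = T P B' := by
  funext w
  refine measureReal_congr ?_
  filter_upwards [hB] with ω h
  refine propext ?_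
  change w < B ω ↔ w < B' ω
  rw [h]

lemma U_congr (hBm : Measurable B) (hBm' : Measurable B') (hV : V =ᵐ[P] V') (hB : B =ᵐ[P] B') : U P V B = U P V' B' := by
  funext w
  unfold U
  rw [← integral_indicator (measurableSet_le hBm measurable_const),
    ← integral_indicator (measurableSet_le hBm' measurable_const)]
  refine integral_congr_ae ?_
  filter_upwards [hV, hB] with ω h1 h2
  by_cases h : B ω ≤ w
  · rw [indicator_of_mem (show ω ∈ {ω | B ω ≤ w} from h),
      indicator_of_mem (show ω ∈ {ω | B' ω ≤ w} from by rw [mem_setOf_eq, ← h2]; exact h), h1]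
  · rw [indicator_of_notMem (show ω ∉ {ω | B ω ≤ w} from h),
      indicator_of_notMem (show ω ∉ {ω | B' ω ≤ w} from by rw [mem_setOf_eq, ← h2]; exact h)]

/-- modified increment -/
noncomputable def Vh (V B : Ω → ℝ) (ω : Ω) : ℝ := ({ω | |V ω| ≤ B ω} : Set Ω).indicator V ω

lemma measurable_Vh (hV : Measurable V) (hB : Measurable B) : Measurable (Vh V B) :=
  hV.indicator (measurableSet_le (measurable_norm.comp hV) hB)

lemma Vh_le (ω : Ω) : |Vh V B ω| ≤ max (B ω) 0 := by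
  unfold Vh
  by_cases h : |V ω| ≤ B ω
  · rw [indicator_of_mem (show ω ∈ {ω | |V ω| ≤ B ω} from h)]
    exact h.trans (le_max_left _ _)
  · rw [indicator_of_notMem (show ω ∉ {ω | |V ω| ≤ B ω} from h), abs_zero]
    exact le_max_right _ _

lemma Vh_ae (h : ∀ᵐ ω ∂P, |V ω| ≤ B ω) : V =ᵐ[P] Vh V B := by
  filter_upwards [h] with ω hω
  unfold Vh
  rw [indicator_of_mem (show ω ∈ {ω | |V ω| ≤ B ω} from hω)]

lemma Bh_ae (h : ∀ᵐ ω ∂P, |V ω| ≤ B ω) : B =ᵐ[P] fun ω => max (B ω) 0 := by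
  filter_upwards [h] with ω hω
  rw [max_eq_left ((abs_nonneg _).trans hω)]

lemma ne_ae (h : ∀ᵐ ω ∂P, |V ω| ≤ B ω) (hne : P {ω | V ω ≠ 0} ≠ 0) :
    P {ω | Vh V B ω ≠ 0} ≠ 0 := by
  have : P {ω | V ω ≠ 0} = P {ω | Vh V B ω ≠ 0} := by
    refine measure_congr ?_
    filter_upwards [Vh_ae h] with ω hω
    refine propext ?_
    change V ω ≠ 0 ↔ Vh V B ω ≠ 0
    rw [hω]
  rwa [← this]

theorem core_ae (hV : Measurable V) (hB : Measurable B) (h : ∀ᵐ ω ∂P, |V ω| ≤ B ω)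
    (hne : P {ω | V ω ≠ 0} ≠ 0) : Core (T P B) (U P V B) := by
  rw [T_congr (Bh_ae h), U_congr hB (hB.max measurable_const) (Vh_ae h)
    (Bh_ae h)]
  exact Hair738.core (measurable_Vh hV hB) (hB.max measurable_const) Vh_le (ne_ae h hne)

theorem nda_ae (hV : Measurable V) (hB : Measurable B) (hR : Measurable R)
    (h : ∀ᵐ ω ∂P, |V ω| ≤ B ω) (h1 : ∀ᵐ ω ∂P, 1 ≤ R ω)
    (hRi : Integrable (fun ω => (R ω : ℝ)) P) (hne : P {ω | V ω ≠ 0} ≠ 0) {C ρ c : ℝ}
    (hC : 0 ≤ C) (hρ0 : 0 ≤ ρ) (hρ : ρ < 1) (hc : 0 < c)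
    (htail : ∀ h : ℕ, 1 ≤ h → ∀ r : ℝ, 0 < r →
      (h:ℝ) * P.real {ω | h ≤ R ω ∧ R ω < 2*h ∧ r ≤ B ω} ≤
        C * ρ ^ ⌊c * r / (Hair738.wd P V B (4*h) : ℝ)⌋₊) :
    NDA (T P B) (U P V B) := by
  have eT := T_congr (Bh_ae h)
  have eU := U_congr hB (hB.max measurable_const) (Vh_ae h) (Bh_ae h)
  have ew : ∀ k, Hair738.wd P V B k = Hair738.wd P (Vh V B) (fun ω => max (B ω) 0) k := by
    intro k
    change Hair738.wdC (T P B) (U P V B) k = Hair738.wdC (T P _) (U P _ _) k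
    rw [eT, eU]
  have hR' : Measurable fun ω => max 1 (R ω) := measurable_const.max hR
  have eR : R =ᵐ[P] fun ω => max 1 (R ω) := by
    filter_upwards [h1] with ω hω
    rw [max_eq_right hω]
  rw [eT, eU]
  refine Hair738.nda_geo_ev (R := fun ω => max 1 (R ω)) (measurable_Vh hV hB)
    (hB.max measurable_const) hR' Vh_le (fun ω => le_max_left _ _) ?_ (ne_ae h hne) hC hρ0 hρ hc
    fun k hk r hr => ?_
  · refine hRi.congr ?_
    filter_upwards [eR] with ω hω
    exact congrArg (fun n : ℕ => (n : ℝ)) hω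
  · rw [← ew]
    refine le_trans (le_of_eq ?_) (htail k hk r hr)
    congr 1
    refine measureReal_congr ?_
    filter_upwards [eR, Bh_ae h] with ω e1 e2
    refine propext ?_
    change (k ≤ max 1 (R ω) ∧ max 1 (R ω) < 2 * k ∧ r ≤ max (B ω) 0) ↔
      (k ≤ R ω ∧ R ω < 2 * k ∧ r ≤ B ω)
    rw [← e1, ← e2]

end ae

/-! ### the joint blocks -/

/-- increment -/
abbrev Vt : ℝ × ℝ × ℕ → ℝ := fun t => t.1
/-- extent -/
abbrev Bt : ℝ × ℝ × ℕ → ℝ := fun t => t.2.1
/-- height -/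
abbrev Rt : ℝ × ℝ × ℕ → ℕ := fun t => t.2.2

variable {d : ℕ} {u : Step d} {κ : ℝ} {R : ℕ} {Q : Measure (Environment d)}
  [IsProbabilityMeasure Q]

lemma phi_step (i : Fin d) : phi i (stepVec ((i, true) : Step d)) ≠ 0 := by
  simp [phi_apply, stepVec]

/-- the width of the joint blocks -/
noncomputable abbrev wdJ (Q : Measure (Environment d)) (κ : ℝ) (R : ℕ) (u : Step d) (i : Fin d)
    (n : ℕ) : ℕ := Hair738.wd (triL Q κ R u (phi i)) Vt Bt n

theorem core_tri (F : Frame Q κ R) (hA : annealedProb Q 0 (escapeEvent (B2d.dirVec u)) ≠ 0)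
    {i : Fin d} (hi : i ≠ u.1) :
    Core (T (triL Q κ R u (phi i)) Bt) (U (triL Q κ R u (phi i)) Vt Bt) := by
  have := probTri F hA (phi i)
  exact core_ae measurable_fst (measurable_fst.comp measurable_snd)
    ((tri_le F hA (phi i)).mono fun t h => h.1) (tri_ne F hA hi (phi_step i))

theorem integrable_Rt (F : Frame Q κ R)
    (hA : annealedProb Q 0 (escapeEvent (B2d.dirVec u)) ≠ 0) (i : Fin d) :
    Integrable (fun t => (Rt t : ℝ)) (triL Q κ R u (phi i)) := by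
  have hm : Measurable fun t : ℝ × ℝ × ℕ => (Rt t : ℝ) :=
    (measurable_of_countable (fun n : ℕ => (n : ℝ))).comp (measurable_snd.comp measurable_snd)
  refine ⟨hm.aestronglyMeasurable, ?_⟩
  rw [hasFiniteIntegral_iff_enorm]
  refine lt_of_le_of_lt (le_of_eq ?_) (lt_top_iff_ne_top.2 (tri_mean F hA (phi i)))
  refine lintegral_congr fun t => ?_
  rw [Real.enorm_eq_ofReal (Nat.cast_nonneg _), ENNReal.ofReal_natCast]

theorem one_le_wdJ (F : Frame Q κ R) (hA : annealedProb Q 0 (escapeEvent (B2d.dirVec u)) ≠ 0)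
    {i : Fin d} (hi : i ≠ u.1) (n : ℕ) : 1 ≤ wdJ Q κ R u i n :=
  ((core_tri F hA hi).wd_spec n).1

section two
variable {u : Step 2} {i : Fin 2}

/-- **NDA for the joint blocks**, from tubes of width `2 wdJ n` for the levels `[0, n)` -/
theorem nda_tri (ν : Measure (Row 2)) [IsProbabilityMeasure ν]
    (hν : ∀ᵐ q ∂ν, ∀ e : Step 2, 0 < q.1 e) (hi : i ≠ u.1)
    (hA : annealedProb (iidEnvironmentLaw ν) 0 (escapeEvent (B2d.dirVec u)) ≠ 0)
    {c : ℝ≥0∞} (hc : c ≠ 0)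
    (htube : ∀ n : ℕ, 1 ≤ n → ∃ v : ℤ → ℤ, c ≤ stL (iidEnvironmentLaw ν) 0 u
      {s | ∀ t, zh u s t < (n : ℤ) → |pos 0 s t i - v (zh u s t)|
        ≤ 2 * wdJ (iidEnvironmentLaw ν) 0 0 u i n}) :
    NDA (T (triL (iidEnvironmentLaw ν) 0 0 u (phi i)) Bt)
      (U (triL (iidEnvironmentLaw ν) 0 0 u (phi i)) Vt Bt) := by
  have F := frame_iid ν hν
  have := probTri F hA (phi i)
  obtain ⟨C, ρ, c', hC, hρ0, hρ, hc', hT⟩ := htail_of_tubes ν hν hi hA hc
    (one_le_wdJ F hA hi) htube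
  refine nda_ae measurable_fst (measurable_fst.comp measurable_snd)
    (measurable_snd.comp measurable_snd) ((tri_le F hA (phi i)).mono fun t h => h.1)
    ((tri_le F hA (phi i)).mono fun t h => h.2) (integrable_Rt F hA i)
    (tri_ne F hA hi (phi_step i)) hC hρ0 hρ hc' fun h hh r hr => ?_
  refine le_trans (le_of_eq ?_) (hT h hh r hr)
  congr 1
  have hS : MeasurableSet {t : ℝ × ℝ × ℕ | h ≤ Rt t ∧ Rt t < 2 * h ∧ r ≤ Bt t} := by
    have h1 : Measurable Rt := measurable_snd.comp measurable_snd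
    have h2 : Measurable Bt := measurable_fst.comp measurable_snd
    exact (h1 measurableSet_Ici).inter ((h1 measurableSet_Iio).inter (h2 measurableSet_Ici))
  change (triL (iidEnvironmentLaw ν) 0 0 u (phi i)).real
    {t : ℝ × ℝ × ℕ | h ≤ Rt t ∧ Rt t < 2 * h ∧ r ≤ Bt t} = _
  unfold triL jlawOf
  rw [measureReal_def, Measure.map_apply (measurable_wd _ (one_le_Yw u)) hS, ← measureReal_def]
  rfl

end two

end Crest.Agent.R154.NDAObj24
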