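import Crest.Agent.R154.B6Laws_833
import Crest.Agent.R154.JBind4_132

-- ▼ part R154/PInd_546
section

/-! Row 154, `d = 2`, leaf D2.8 (helper546), part 1: attempts of the same-environment pair.
An attempt started at the first hits of level `j`, for ANY past `B`, succeeds under the
same-environment law with the probability given by INDEPENDENT environments, as long as success at
level `l` means: both natural up to `l`, no contact up to `l`, and anything seen up to `l`. -/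

set_option autoImplicit false
set_option linter.unusedSectionVars false
set_option linter.deprecated false

namespace Crest.Agent.R154.PInd546

open MeasureTheory ProbabilityTheory Filter Set Crest.ProbabilityR.RandomEnvironment
open Crest.Agent.R154.Q561 Crest.Agent.R154.Mk561 Crest.Agent.R154.B6I
open scoped ENNReal Topology

local notation "shf" => Crest.Agent.R154.Ren263.shift

variable {d : ℕ} {u : Step d} {R : ℕ}

/-- **an attempt**: `G l` = success seen at level `l` (start state, pair of paths from there). -/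
structure Att (R : ℕ) (G : ℕ → Set (Om u)) : Prop where
  dt : ∀ l t, Dt u l {p | ((t, p) : Om u) ∈ G l}
  nat : ∀ l t p, ((t, p) : Om u) ∈ G l → Nt u R 0 l p.1 ∧ Nt u R 0 l p.2
  noC : ∀ l t p, ((t, p) : Om u) ∈ G l → NoC R 0 l ((t, p) : Om u)

/-- success at some level `≤ L` -/
def Suc (G : ℕ → Set (Om u)) (L : ℕ) : Set (Om u) := {ω | ∃ l ≤ L, ω ∈ G l}

/-- first success at level `l` -/
def Fs (G : ℕ → Set (Om u)) (l : ℕ) : Set (Om u) := {ω | ω ∈ G l ∧ ∀ l' < l, ω ∉ G l'}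

lemma suc_eq (G : ℕ → Set (Om u)) (L : ℕ) (t : SP u) :
    {p | ((t, p) : Om u) ∈ Suc G L} = ⋃ l : Fin (L+1), {p | ((t, p) : Om u) ∈ Fs G l} := by
  classical
  ext p
  simp only [Set.mem_ofPred_eq, Set.mem_iUnion]
  constructor
  · rintro ⟨l, hl, h⟩
    have hex : ∃ l, ((t, p) : Om u) ∈ G l := ⟨l, h⟩
    have h1 : Nat.find hex ≤ l := Nat.find_min' hex h
    exact ⟨⟨Nat.find hex, by omega⟩, Nat.find_spec hex, fun l' hl' => Nat.find_min hex hl'⟩
  · rintro ⟨l, h, _⟩
    exact ⟨l, Nat.lt_succ_iff.1 l.2, h⟩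

lemma disj_fs (G : ℕ → Set (Om u)) (L : ℕ) (t : SP u) :
    Pairwise (Function.onFun Disjoint fun l : Fin (L+1) => {p | ((t, p) : Om u) ∈ Fs G l}) := by
  intro l l' hne
  rw [Function.onFun, Set.disjoint_left]
  rintro p ⟨h1, h2⟩ ⟨h1', h2'⟩
  have hne' : (l : ℕ) ≠ l' := fun h => hne (Fin.ext h)
  rcases lt_or_gt_of_ne hne' with h | h
  · exact h2' _ h h1
  · exact h2 _ h h1'

variable {G : ℕ → Set (Om u)}

lemma Att.fs (hG : Att R G) : Att R (Fs G) where
  dt l t := by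
    rintro p q h1 h2 ⟨hp, hn⟩
    exact ⟨hG.dt l t p q h1 h2 hp, fun l' hl' hq =>
      hn l' hl' (hG.dt l' t q p (h1.mono hl'.le).symm (h2.mono hl'.le).symm hq)⟩
  nat l t p h := hG.nat l t p h.1
  noC l t p h := hG.noC l t p h.1

lemma Att.al (hG : Att R G) (l : ℕ) (t : SP u) :
    ∀ p ∈ {p | ((t, p) : Om u) ∈ G l}, Al u l p :=
  fun p hp => ⟨(hG.nat l t p hp).1.alv, (hG.nat l t p hp).2.alv⟩

lemma Att.meas (hG : Att R G) (l : ℕ) (t : SP u) :
    MeasurableSet {p | ((t, p) : Om u) ∈ G l} :=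
  measurableSet_of_dt (hG.al l t) (hG.dt l t)

lemma Att.meas_suc (hG : Att R G) (L : ℕ) (t : SP u) :
    MeasurableSet {p | ((t, p) : Om u) ∈ Suc G L} := by
  rw [suc_eq]
  exact MeasurableSet.iUnion fun l => hG.fs.meas l t

variable {κ : ℝ} {Q : Measure (Environment d)} [IsProbabilityMeasure Q]

/-- the attempt on one cylinder of the past -/
theorem Att.cyl (hG : Att R G) (hR : IsFiniteRangeDependent Q R) (s t : SP u) {j : ℕ} (L : ℕ)
    {W V : MPath d} {n m : ℕ} (hW : Hit u j W n) (hV : Hit u j V m)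
    (ht : t.1 = (pos s.1.1 W n, pos s.1.2 V m)) :
    PSm κ Q s.1.1 s.1.2 ((Cy W n ×ˢ Cy V m) ∩
        (Prod.map (shf n) (shf m)) ⁻¹' {q | ((t, q) : Om u) ∈ Suc G L})
      = PSm κ Q s.1.1 s.1.2 (Cy W n ×ˢ Cy V m)
        * PIm κ Q t.1.1 t.1.2 {q | ((t, q) : Om u) ∈ Suc G L} := by
  have hsh : Measurable (Prod.map (shf n) (shf m) : PP d → PP d) :=
    (measurable_shf n).prodMap (measurable_shf m)
  have hC : MeasurableSet (Cy W n ×ˢ Cy V m : Set (PP d)) :=
    (measurableSet_Cy _ _).prod (measurableSet_Cy _ _)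
  rw [suc_eq, Set.preimage_iUnion, Set.inter_iUnion, measure_iUnion, measure_iUnion,
    ← ENNReal.tsum_mul_left]
  · refine tsum_congr fun l => ?_
    have h1 := (mult_PS (u := u) κ hR).cyl s t (k := (l : ℕ)) hW hV ht (hG.fs.dt l t)
      (fun p hp => hG.fs.nat l t p hp)
    rw [h1]
    congr 1
    exact PS_eq_PI_set hR t (hG.fs.al l t) (hG.fs.dt l t) (fun p hp => hG.fs.noC l t p hp)
  · exact disj_fs G L t
  · exact fun l => hG.fs.meas l t
  · intro l l' hne
    exact ((disj_fs G L t hne).preimage _).mono Set.inter_subset_right Set.inter_subset_right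
  · exact fun l => hC.inter (hsh (hG.fs.meas l t))

/-- key data of one stopped word of the past -/
lemma Att.key (hG : Att R G) (hR : IsFiniteRangeDependent Q R) (s : SP u) {j : ℕ} (L : ℕ)
    {B : Set (PP d)} (c : Bix u j B) :
    ∃ t : SP u, (∀ p ∈ cylp u c.1, tip j s p = t) ∧
      MeasurableSet (cylp u c.1 ∩ {p | ((tip j s p, th u j p) : Om u) ∈ Suc G L}) ∧
      PSm κ Q s.1.1 s.1.2 (cylp u c.1 ∩ {p | ((tip j s p, th u j p) : Om u) ∈ Suc G L})
        = PSm κ Q s.1.1 s.1.2 (cylp u c.1)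
          * PIm κ Q t.1.1 t.1.2 {q | ((t, q) : Om u) ∈ Suc G L} := by
  obtain ⟨c, h1, h2, h3⟩ := c
  have e1 : cylp u c ∩ {p | ((tip j s p, th u j p) : Om u) ∈ Suc G L}
      = cylp u c ∩ (Prod.map (shf c.1.1) (shf c.2.1)) ⁻¹'
        {p | ((tip j s (wx u c.1, wx u c.2), p) : Om u) ∈ Suc G L} := by
    ext p
    simp only [Set.mem_inter_iff, Set.mem_ofPred_eq, Set.mem_preimage]
    refine and_congr_right fun hp => ?_
    obtain ⟨k1, k2⟩ := hp
    have q1 := (eqv_iff_of_hit h1).2 k1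
    have q2 := (eqv_iff_of_hit h2).2 k2
    rw [← tip_eqv (p := (wx u c.1, wx u c.2)) (q := p) s q1 q2,
      th_eq (p := p) (q1.hit h1) (q2.hit h2)]
    rfl
  refine ⟨tip j s (wx u c.1, wx u c.2), ?_, ?_, ?_⟩
  · rintro p ⟨k1, k2⟩
    exact (tip_eqv (p := (wx u c.1, wx u c.2)) (q := p) s ((eqv_iff_of_hit h1).2 k1)
      ((eqv_iff_of_hit h2).2 k2)).symm
  · rw [e1]
    exact (measurableSet_cylp _).inter
      (((measurable_shf _).prodMap (measurable_shf _)) (hG.meas_suc L _))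
  · rw [e1]
    exact hG.cyl hR s (tip j s (wx u c.1, wx u c.2)) L h1 h2
      (tip_val (p := (wx u c.1, wx u c.2)) s h1 h2)

/-- **ATTEMPT, ANY PAST, exact form.** -/
theorem Att.eq (hG : Att R G) (hR : IsFiniteRangeDependent Q R) (s : SP u) {j : ℕ} (L : ℕ)
    {B : Set (PP d)} (hBa : ∀ p ∈ B, Al u j p) (hB : Dt u j B) :
    PSm κ Q s.1.1 s.1.2 (B ∩ {p | ((tip j s p, th u j p) : Om u) ∈ Suc G L})
      = ∫⁻ p in B, PIm κ Q (tip j s p).1.1 (tip j s p).1.2
          {q | ((tip j s p, q) : Om u) ∈ Suc G L} ∂(PSm κ Q s.1.1 s.1.2) := by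
  rw [lintegral_decomp hBa hB]
  have e0 : B ∩ {p | ((tip j s p, th u j p) : Om u) ∈ Suc G L}
      = ⋃ c : Bix u j B, (cylp u c.1 ∩ {p | ((tip j s p, th u j p) : Om u) ∈ Suc G L}) := by
    conv_lhs => rw [decomp hBa hB]
    rw [Set.iUnion_inter]
  rw [e0, measure_iUnion]
  · refine tsum_congr fun c => ?_
    obtain ⟨t, k1, _, k3⟩ := hG.key (κ := κ) hR s L c
    rw [k3]
    have : ∫⁻ p in cylp u c.1, PIm κ Q (tip j s p).1.1 (tip j s p).1.2
          {q | ((tip j s p, q) : Om u) ∈ Suc G L} ∂(PSm κ Q s.1.1 s.1.2)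
        = ∫⁻ _ in cylp u c.1, PIm κ Q t.1.1 t.1.2 {q | ((t, q) : Om u) ∈ Suc G L}
          ∂(PSm κ Q s.1.1 s.1.2) := by
      refine setLIntegral_congr_fun (measurableSet_cylp _) fun p hp => ?_
      rw [k1 p hp]
    rw [this, setLIntegral_const, mul_comm]
  · intro c c' hne
    exact (pairwise_cylp hne).mono Set.inter_subset_left Set.inter_subset_left
  · exact fun c => (hG.key (κ := κ) hR s L c).choose_spec.2.1

/-- **ATTEMPT, ANY PAST, lower bound.** -/
theorem Att.ge (hG : Att R G) (hR : IsFiniteRangeDependent Q R) (s : SP u) {j : ℕ} (L : ℕ)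
    {B : Set (PP d)} (hBa : ∀ p ∈ B, Al u j p) (hB : Dt u j B) {c : ℝ≥0∞}
    (hc : ∀ p ∈ B, c ≤ PIm κ Q (tip j s p).1.1 (tip j s p).1.2
          {q | ((tip j s p, q) : Om u) ∈ Suc G L}) :
    c * PSm κ Q s.1.1 s.1.2 B
      ≤ PSm κ Q s.1.1 s.1.2 (B ∩ {p | ((tip j s p, th u j p) : Om u) ∈ Suc G L}) := by
  rw [hG.eq hR s L hBa hB, ← setLIntegral_const]
  exact setLIntegral_mono' (measurableSet_of_dt hBa hB) hc

end Crest.Agent.R154.PInd546
end

-- ▼ part R154/PIndE0_546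
section

/-! Row 154, `d = 2`, leaf D2.8 (helper546), part 0: `(E0)`.  Under uniform ellipticity, from any
past at level `j`, the two walkers of the same environment are at lateral distance `≥ 2 n` at level
`j + 1` with probability at least `κ ^ (2 (n+1))`. -/

set_option autoImplicit false
set_option linter.unusedSectionVars false
set_option linter.deprecated false

namespace Crest.Agent.R154.PInd546

open MeasureTheory ProbabilityTheory Filter Set Crest.ProbabilityR.RandomEnvironment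
open Crest.Agent.R154.Q561 Crest.Agent.R154.Mk561 Crest.Agent.R154.B6I
open Crest.Agent.R154.Flux132 (lev)
open scoped ENNReal Topology

local notation "shf" => Crest.Agent.R154.Ren263.shift

variable {d : ℕ} {u : Step d} {R : ℕ}

/-- lateral difference of a pair of sites -/
def ldf (i : Fin d) (t : SP u) : ℤ := t.1.1 i - t.1.2 i

/-- **distance of the pair at level `j`** (first hits), started from `s` -/
noncomputable def Dd (i : Fin d) (s : SP u) (j : ℕ) (p : PP d) : ℤ := |ldf i (tip j s p)|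

/-- `n` lateral steps `e`, then up -/
def Wl (u e : Step d) (n : ℕ) : MPath d := fun k => if k < n then (e, false) else (u, false)

lemma zt_Wl {e : Step d} (he : e.1 ≠ u.1) (n k : ℕ) (hk : k ≤ n) : zt u (Wl u e n) k = 0 := by
  induction k with
  | zero => simp
  | succ k ih =>
    rw [zt_succ, ih (by omega)]
    have : Wl u e n k = (e, false) := if_pos (by omega)
    rw [this]
    have : lev u (stp ((e, false) : Mark d)) = 0 := lev_lat u he
    rw [this]; ring

lemma hit_Wl {e : Step d} (he : e.1 ≠ u.1) (n : ℕ) : Hit u 1 (Wl u e n) (n+1) := by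
  refine ⟨?_, fun k hk => ?_⟩
  · rw [zt_succ, zt_Wl he n n le_rfl]
    have : Wl u e n n = (u, false) := if_neg (lt_irrefl n)
    rw [this]
    have : lev u (stp ((u, false) : Mark d)) = 1 := lev_self u
    rw [this]; simp
  · rw [zt_Wl he n k (by omega)]; simp

lemma pos_Wl {i : Fin d} (b : Bool) (x : Site d) (n k : ℕ) (hk : k ≤ n) :
    pos x (Wl u (i, b) n) k i = x i + (if b then (k : ℤ) else - (k : ℤ)) := by
  induction k with
  | zero => simp [pos_zero]
  | succ k ih =>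
    rw [pos_succ, Pi.add_apply, ih (by omega)]
    have : Wl u (i, b) n k = ((i, b), false) := if_pos (by omega)
    rw [this]
    unfold stp stepVec
    cases b
    · simp; ring
    · simp; ring

lemma pos_Wl_last {i : Fin d} (b : Bool) (hi : i ≠ u.1) (x : Site d) (n : ℕ) :
    pos x (Wl u (i, b) n) (n+1) i = x i + (if b then (n : ℤ) else - (n : ℤ)) := by
  rw [pos_succ, Pi.add_apply, pos_Wl b x n n le_rfl]
  have : Wl u (i, b) n n = (u, false) := if_neg (lt_irrefl n)
  rw [this]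
  unfold stp stepVec
  rw [Pi.single_eq_of_ne hi, add_zero]

lemma mw_ge {κ : ℝ} {r : Row d} {e : Step d} (h : κ ≤ r.1 e) :
    ENNReal.ofReal κ ≤ mw 0 r (e, false) := by
  unfold mw
  rw [reg_zero, kf_zero]
  simp only [Bool.false_eq_true, if_false, sub_zero]
  exact ENNReal.ofReal_le_ofReal h

lemma wgt_Wl_ge {κ : ℝ} {ω : Environment d} (h : ∀ z e, κ ≤ (ω z).1 e) (e : Step d) (x : Site d)
    (n : ℕ) : ENNReal.ofReal κ ^ (n+1) ≤ wgt 0 ω x (Wl u e n) (n+1) := by
  unfold wgt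
  have := Finset.pow_card_le_prod (Finset.range (n+1))
    (fun i => mw 0 (ω (pos x (Wl u e n) i)) (Wl u e n i)) (ENNReal.ofReal κ) (fun i _ => by
      unfold Wl
      split_ifs
      · exact mw_ge (h _ _)
      · exact mw_ge (h _ _))
  rwa [Finset.card_range] at this

variable {Q : Measure (Environment d)} [IsProbabilityMeasure Q]

/-- **(E0)** -/
theorem E0 {κ : ℝ} (hκ : ∀ᵐ ω ∂Q, ∀ (z : Site d) (e : Step d), κ ≤ (ω z).1 e) {i : Fin d}
    (hi : i ≠ u.1) (n : ℕ) (s : SP u) {j : ℕ} {B : Set (PP d)} (hBa : ∀ p ∈ B, Al u j p)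
    (hB : Dt u j B) :
    ENNReal.ofReal κ ^ (2 * (n+1)) * PSm 0 Q s.1.1 s.1.2 B
      ≤ PSm 0 Q s.1.1 s.1.2 (B ∩ {p | Al u (j+1) p ∧ 2 * (n : ℤ) ≤ Dd i s (j+1) p}) := by
  have key : ∀ c : Bix u j B, ∃ A : Set (PP d), A ⊆ cylp u c.1 ∧ MeasurableSet A ∧
      A ⊆ {p | Al u (j+1) p ∧ 2 * (n : ℤ) ≤ Dd i s (j+1) p} ∧
      ENNReal.ofReal κ ^ (2 * (n+1)) * PSm 0 Q s.1.1 s.1.2 (cylp u c.1)
        ≤ PSm 0 Q s.1.1 s.1.2 A := by
    rintro ⟨c, h1, h2, h3⟩
    obtain ⟨⟨a, w⟩, ⟨b, v⟩⟩ := c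
    simp only at h1 h2 h3
    set W := wx u ⟨a, w⟩ with hW
    set V := wx u ⟨b, v⟩ with hV
    -- the sign
    obtain ⟨g, hg⟩ : ∃ g : Bool, 2 * (n : ℤ) ≤
        |(pos s.1.1 W a i + (if g then (n : ℤ) else -n))
          - (pos s.1.2 V b i + (if !g then (n : ℤ) else -n))| := by
      rcases le_total 0 (pos s.1.1 W a i - pos s.1.2 V b i) with h | h
      · refine ⟨true, ?_⟩
        rw [le_abs]; left; simp; linarith
      · refine ⟨false, ?_⟩
        rw [le_abs]; right; simp; linarith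
    set W' := Wl u (i, g) n with hW'
    set V' := Wl u (i, !g) n with hV'
    have hitW : Hit u (j+1) (spl W a W') (a + (n+1)) := by
      have h1' : Hit u j (spl W a W') a := by
        refine ⟨?_, fun k hk => ?_⟩
        · rw [zt_congr u (M := spl W a W') (M' := W) (fun i hi => spl_lt hi) le_rfl]; exact h1.1
        · rw [zt_congr u (M := spl W a W') (M' := W) (fun i hi => spl_lt hi) hk.le]; exact h1.2 k hk
      refine (hit_shift_iff (Nat.le_add_right j 1) h1' (n+1)).1 ?_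
      rw [Nat.add_sub_cancel_left]
      have : shf a (spl W a W') = W' := shift_spl W W' a
      rw [this]
      exact hit_Wl hi n
    have hitV : Hit u (j+1) (spl V b V') (b + (n+1)) := by
      have h1' : Hit u j (spl V b V') b := by
        refine ⟨?_, fun k hk => ?_⟩
        · rw [zt_congr u (M := spl V b V') (M' := V) (fun i hi => spl_lt hi) le_rfl]; exact h2.1
        · rw [zt_congr u (M := spl V b V') (M' := V) (fun i hi => spl_lt hi) hk.le]; exact h2.2 k hk
      refine (hit_shift_iff (Nat.le_add_right j 1) h1' (n+1)).1 ?_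
      rw [Nat.add_sub_cancel_left]
      have : shf b (spl V b V') = V' := shift_spl V V' b
      rw [this]
      exact hit_Wl hi n
    refine ⟨Cy (spl W a W') (a + (n+1)) ×ˢ Cy (spl V b V') (b + (n+1)), ?_,
      (measurableSet_Cy _ _).prod (measurableSet_Cy _ _), ?_, ?_⟩
    · rintro p ⟨k1, k2⟩
      refine ⟨fun i hi => ?_, fun i hi => ?_⟩
      · have hi' : i < a := hi
        rw [k1 i (by omega), spl_lt hi']
      · have hi' : i < b := hi
        rw [k2 i (by omega), spl_lt hi']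
    · rintro p ⟨k1, k2⟩
      have q1 := ((eqv_iff_of_hit hitW).2 k1).hit hitW
      have q2 := ((eqv_iff_of_hit hitV).2 k2).hit hitV
      refine ⟨⟨⟨_, q1⟩, ⟨_, q2⟩⟩, ?_⟩
      unfold Dd ldf
      rw [tip_val s q1 q2]
      have e1 : pos s.1.1 p.1 (a + (n+1)) = pos (pos s.1.1 W a) W' (n+1) := by
        rw [pos_congr s.1.1 (M := p.1) (M' := spl W a W') k1 le_rfl, ← pos_shift]
        have : shf a (spl W a W') = W' := shift_spl W W' a
        rw [this, pos_congr s.1.1 (M := spl W a W') (M' := W) (fun i hi => spl_lt hi) le_rfl]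
      have e2 : pos s.1.2 p.2 (b + (n+1)) = pos (pos s.1.2 V b) V' (n+1) := by
        rw [pos_congr s.1.2 (M := p.2) (M' := spl V b V') k2 le_rfl, ← pos_shift]
        have : shf b (spl V b V') = V' := shift_spl V V' b
        rw [this, pos_congr s.1.2 (M := spl V b V') (M' := V) (fun i hi => spl_lt hi) le_rfl]
      simp only [e1, e2]
      rw [hW', hV', pos_Wl_last g hi, pos_Wl_last (!g) hi]
      exact hg
    · have e3 : cylp u (⟨a, w⟩, ⟨b, v⟩) = Cy W a ×ˢ Cy V b := rfl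
      rw [e3, PSm_cyl, PSm_cyl, ← lintegral_const_mul' _ _ (by finiteness)]
      refine lintegral_mono_ae ?_
      filter_upwards [hκ] with ω hω
      rw [wgt_spl, wgt_spl]
      have g1 := wgt_Wl_ge (u := u) hω (i, g) (pos s.1.1 W a) n
      have g2 := wgt_Wl_ge (u := u) hω (i, !g) (pos s.1.2 V b) n
      calc ENNReal.ofReal κ ^ (2 * (n+1)) * (wgt 0 ω s.1.1 W a * wgt 0 ω s.1.2 V b)
          = (wgt 0 ω s.1.1 W a * ENNReal.ofReal κ ^ (n+1))
            * (wgt 0 ω s.1.2 V b * ENNReal.ofReal κ ^ (n+1)) := by ring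
        _ ≤ _ := by gcongr
  choose A hA1 hA2 hA3 hA4 using key
  have hBm := measure_decomp hBa hB (PSm 0 Q s.1.1 s.1.2)
  rw [hBm, ← ENNReal.tsum_mul_left]
  refine (ENNReal.tsum_le_tsum hA4).trans ?_
  rw [← measure_iUnion (fun c c' hne => (pairwise_cylp hne).mono (hA1 c) (hA1 c')) hA2]
  refine measure_mono (Set.iUnion_subset fun c => ?_)
  refine Set.subset_inter ((hA1 c).trans ?_) (hA3 c)
  conv_rhs => rw [decomp hBa hB]
  exact Set.subset_iUnion (fun c : Bix u j B => cylp u c.1) c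

end Crest.Agent.R154.PInd546
end

-- ▼ part R154/PIndB_546
section

/-! Row 154, `d = 2`, leaf D2.8 (helper546), part 2: from independent environments to the iid
letters of two natural walkers; attempts with distances; coordinates `D j` of the pair. -/

set_option autoImplicit false
set_option linter.unusedSectionVars false
set_option linter.deprecated false

namespace Crest.Agent.R154.PInd546

open MeasureTheory ProbabilityTheory Filter Set Crest.ProbabilityR.RandomEnvironment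
open Crest.Agent.R154.Q561 Crest.Agent.R154.Mk561 Crest.Agent.R154.B6I
open Crest.Agent.R154.Bind263
open Crest.Agent.R154.Ren263 (Word Stay measurableSet_Stay)
open Crest.Agent.R154.RenG263 (blks RegInf measurable_blks)
open Crest.Agent.R154.J132 (rhoU muW stL pairL iidL map_blksU ae_regInfU probW NS_eq restrict_eq)
open Crest.Agent.R154.KB424 (NS)
open scoped ENNReal Topology

local notation "shf" => Crest.Agent.R154.Ren263.shift

variable {d : ℕ} {u : Step d} {R : ℕ} {κ : ℝ} {Q : Measure (Environment d)}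
  [IsProbabilityMeasure Q]


/-! ### distances -/

lemma dt_Dd (i : Fin d) (s : SP u) (j : ℕ) (S : Set ℤ) : Dt u j {p | Dd i s j p ∈ S} := by
  intro p q h1 h2 hp
  simp only [Set.mem_ofPred_eq, Dd] at hp ⊢
  rw [← tip_eqv s h1 h2]; exact hp

lemma Dd_shift (i : Fin d) (s : SP u) {j n : ℕ} {p : PP d} (h : Al u (j+n) p) :
    Dd i (tip j s p) n (th u j p) = Dd i s (j+n) p := by
  unfold Dd
  have := tip_shift (Nat.le_add_right j n) s h
  rw [Nat.add_sub_cancel_left] at this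
  rw [this]

lemma Al_shift {s : SP u} {j n : ℕ} {p : PP d} (h : Al u j p) :
    Al u n (th u j p) ↔ Al u (j+n) p := by
  obtain ⟨⟨a, ha⟩, ⟨b, hb⟩⟩ := h
  rw [th_eq ha hb]
  have e : j + n - j = n := Nat.add_sub_cancel_left j n
  constructor
  · rintro ⟨⟨a', ha'⟩, ⟨b', hb'⟩⟩
    rw [← e] at ha' hb'
    exact ⟨⟨_, (hit_shift_iff (Nat.le_add_right j n) ha _).1 ha'⟩,
      ⟨_, (hit_shift_iff (Nat.le_add_right j n) hb _).1 hb'⟩⟩
  · rintro ⟨⟨a', ha'⟩, ⟨b', hb'⟩⟩
    have h1 := ha.le_of_le (Nat.le_add_right j n) ha'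
    have h2 := hb.le_of_le (Nat.le_add_right j n) hb'
    refine ⟨⟨a' - a, ?_⟩, ⟨b' - b, ?_⟩⟩
    · have := (hit_shift_iff (Nat.le_add_right j n) ha (a'-a)).2 (by
        rwa [show a + (a' - a) = a' by omega])
      rwa [e] at this
    · have := (hit_shift_iff (Nat.le_add_right j n) hb (b'-b)).2 (by
        rwa [show b + (b' - b) = b' by omega])
      rwa [e] at this

/-- success with distances: natural, no contact, `S l (Dd 0), …` seen up to `l` -/
def GS (R : ℕ) (i : Fin d) (S : ℕ → Set (ℕ → ℤ)) (l : ℕ) : Set (Om u) :=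
  {ω | (Nt u R 0 l ω.2.1 ∧ Nt u R 0 l ω.2.2) ∧ NoC R 0 l ω ∧
    ∃ f ∈ S l, ∀ k ≤ l, f k = Dd i ω.1 k ω.2}

lemma att_GS (R : ℕ) (i : Fin d) (S : ℕ → Set (ℕ → ℤ)) : Att (u := u) R (GS R i S) where
  dt l t := by
    rintro p q h1 h2 ⟨hN, hC, f, hf, hfk⟩
    refine ⟨dt_nt (Nat.zero_le l) p q h1 h2 hN, dt_noC (Nat.zero_le l) t p q h1 h2 hC, f, hf,
      fun k hk => ?_⟩
    rw [hfk k hk]
    simp only [Dd]
    rw [tip_eqv t (h1.mono hk) (h2.mono hk)]
  nat l t p h := h.1
  noC l t p h := h.2.1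

/-- the success set seen from the start of the walk -/
def Ev (i : Fin d) (s : SP u) (S : ℕ → Set (ℕ → ℤ)) (j L : ℕ) : Set (PP d) :=
  {p | ∃ l ≤ L, ∃ f ∈ S l, ∀ k ≤ l, f k = Dd i s (j+k) p}


end Crest.Agent.R154.PInd546
end

-- ▼ part R154/PIndC_546

/-! Row 154, `d = 2`, leaf D2.8 (helper546), part 3: pathwise dictionary of the joint blocks ⟹
success of the attempts `(E1)` (reach `hi`, staying above `lo - b`) and `(E2)` (stay). `R = 0`. -/

set_option autoImplicit false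
set_option linter.unusedSectionVars false
set_option linter.deprecated false

namespace Crest.Agent.R154.PInd546

open MeasureTheory ProbabilityTheory Filter Set Crest.ProbabilityR.RandomEnvironment
open Crest.Agent.R154.Q561 Crest.Agent.R154.Mk561 Crest.Agent.R154.B6I
open Crest.Agent.R154.Flux132 (lev)
open Crest.Agent.R154.KB424 (NS)
open scoped ENNReal Topology

variable {d : ℕ} {u : Step d}

/-- heights of the joint cuts -/
def Hc (Rh : ℕ → ℕ) (k : ℕ) : ℕ := ∑ j ∈ Finset.range k, Rh j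

lemma Hc_zero (Rh : ℕ → ℕ) : Hc Rh 0 = 0 := by simp [Hc]

lemma Hc_succ (Rh : ℕ → ℕ) (k : ℕ) : Hc Rh (k+1) = Hc Rh k + Rh k := Finset.sum_range_succ _ _

lemma Hc_mono {Rh : ℕ → ℕ} : Monotone (Hc Rh) :=
  monotone_nat_of_le_succ fun k => by rw [Hc_succ]; omega

lemma le_Hc {Rh : ℕ → ℕ} (h1 : ∀ k, 1 ≤ Rh k) (k : ℕ) : k ≤ Hc Rh k := by
  induction k with
  | zero => omega
  | succ k ih => rw [Hc_succ]; have := h1 k; omega

lemma exists_block {Rh : ℕ → ℕ} (h1 : ∀ k, 1 ≤ Rh k) (z : ℕ) :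
    ∃ k, Hc Rh k ≤ z ∧ z < Hc Rh (k+1) := by
  classical
  have hex : ∃ k, z < Hc Rh (k+1) := ⟨z, by have := le_Hc h1 (z+1); omega⟩
  refine ⟨Nat.find hex, ?_, Nat.find_spec hex⟩
  rcases Nat.eq_zero_or_pos (Nat.find hex) with h0 | hpos
  · rw [h0, Hc_zero]; omega
  · have := Nat.find_min hex (m := Nat.find hex - 1) (by omega)
    rw [show Nat.find hex - 1 + 1 = Nat.find hex by omega] at this
    omega

/-- **pathwise dictionary** of the joint blocks of a pair started from `t`. -/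
structure Dict (i : Fin d) (t : SP u) (p : PP d) (V B : ℕ → ℝ) (Rh : ℕ → ℕ) : Prop where
  ns1 : p.1 ∈ NS u
  ns2 : p.2 ∈ NS u
  R1 : ∀ k, 1 ≤ Rh k
  cut : ∀ k, ∃ a b, Hit u (Hc Rh k) p.1 a ∧ Hit u (Hc Rh k) p.2 b ∧
    ((pos t.1.1 p.1 a i - pos t.1.2 p.2 b i : ℤ) : ℝ) = ldf i t + ∑ j ∈ Finset.range k, V j
  lev : ∀ k n m, (Hc Rh k : ℤ) ≤ zt u p.1 n → zt u p.1 n < (Hc Rh (k+1) : ℤ) →
    zt u p.2 m = zt u p.1 n →
    |((pos t.1.1 p.1 n i - pos t.1.2 p.2 m i : ℤ) : ℝ)
      - (ldf i t + ∑ j ∈ Finset.range k, V j)| ≤ B k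

variable {i : Fin d} {t : SP u} {p : PP d} {V B : ℕ → ℝ} {Rh : ℕ → ℕ}

lemma Dict.al (h : Dict i t p V B Rh) (l : ℕ) : Al u l p := by
  obtain ⟨a, b, ha, hb, _⟩ := h.cut l
  exact ⟨Alv.anti (le_Hc h.R1 l) ⟨a, ha⟩, Alv.anti (le_Hc h.R1 l) ⟨b, hb⟩⟩

lemma nt_of_ns {M : MPath d} (h : M ∈ NS u) {l : ℕ} (ha : Alv u l M) : Nt u 0 0 l M := by
  obtain ⟨n, hn⟩ := ha
  refine ⟨0, n, hit_zero M, hn, fun m _ _ => ⟨fun h0 => absurd h0 (Nat.not_lt_zero _), fun _ => ?_⟩⟩
  have := h m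
  simpa using this

lemma Dict.nt (h : Dict i t p V B Rh) (l : ℕ) : Nt u 0 0 l p.1 ∧ Nt u 0 0 l p.2 :=
  ⟨nt_of_ns h.ns1 (h.al l).1, nt_of_ns h.ns2 (h.al l).2⟩

/-- distance at a cut -/
lemma Dict.Dd_cut (h : Dict i t p V B Rh) (k : ℕ) :
    (Dd i t (Hc Rh k) p : ℝ) = |ldf i t + ∑ j ∈ Finset.range k, V j| := by
  obtain ⟨a, b, ha, hb, hab⟩ := h.cut k
  rw [← hab]
  unfold Dd ldf
  rw [tip_val t ha hb, Int.cast_abs]

/-- distance at any level of a block -/
lemma Dict.Dd_ge (h : Dict i t p V B Rh) {k l : ℕ} (h1 : Hc Rh k ≤ l) (h2 : l < Hc Rh (k+1)) :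
    |ldf i t + ∑ j ∈ Finset.range k, V j| - B k ≤ (Dd i t l p : ℝ) := by
  obtain ⟨⟨a, ha⟩, ⟨b, hb⟩⟩ := h.al l
  have h3 := h.lev k a b (by rw [ha.1]; exact_mod_cast h1) (by rw [ha.1]; exact_mod_cast h2)
    (by rw [ha.1, hb.1])
  have h4 : (Dd i t l p : ℝ) = |((pos t.1.1 p.1 a i - pos t.1.2 p.2 b i : ℤ) : ℝ)| := by
    unfold Dd ldf
    rw [tip_val t ha hb, Int.cast_abs]
  rw [h4]
  set X : ℝ := ((pos t.1.1 p.1 a i - pos t.1.2 p.2 b i : ℤ) : ℝ)
  set Y : ℝ := ldf i t + ∑ j ∈ Finset.range k, V j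
  have := abs_sub_abs_le_abs_sub Y X
  rw [abs_sub_comm] at this
  linarith

/-- no contact below level `l` if the extents are smaller than the distances -/
lemma Dict.noC (h : Dict i t p V B Rh) {l : ℕ}
    (hB : ∀ k, Hc Rh k < l → B k < |ldf i t + ∑ j ∈ Finset.range k, V j|) :
    NoC 0 0 l ((t, p) : Om u) := by
  intro n m hn hm hct
  exfalso
  obtain ⟨_, _, hc⟩ := hct
  have heq : pos t.1.1 p.1 n = pos t.1.2 p.2 m := by
    funext c
    have := hc c
    simp only [Nat.cast_zero] at this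
    have := abs_nonpos_iff.1 this
    linarith
  have hz : zt u p.2 m = zt u p.1 n := by
    have h1 := lev_pos u t.1.1 p.1 n
    have h2 := lev_pos u t.1.2 p.2 m
    rw [heq, h2, t.2] at h1
    linarith
  have h0 : 0 ≤ zt u p.1 n := h.ns1 n
  have hl : zt u p.1 n < l := hn n le_rfl
  obtain ⟨z, hzz⟩ := Int.eq_ofNat_of_zero_le h0
  obtain ⟨k, k1, k2⟩ := exists_block h.R1 z
  have h3 := h.lev k n m (by rw [hzz]; exact_mod_cast k1) (by rw [hzz]; exact_mod_cast k2) hz
  rw [heq] at h3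
  simp only [sub_self, Int.cast_zero, zero_sub, abs_neg] at h3
  have h4 := hB k (by
    rw [hzz] at hl
    have : z < l := by exact_mod_cast hl
    omega)
  linarith

/-- **(E1) from the letters.** `σ = ±1` is the sign of the starting difference. -/
theorem Dict.up (h : Dict i t p V B Rh) {σ w lo hi b : ℝ} (hσ : |σ| = 1)
    (hw : w ≤ σ * ldf i t) (hb0 : 0 ≤ b) (hb : b < lo) {n : ℕ} {L : ℕ}
    (hm : ∃ m, m ≤ n ∧ hi ≤ w + ∑ j ∈ Finset.range m, σ * V j ∧
      ∀ k, k ≤ m → lo ≤ w + ∑ j ∈ Finset.range k, σ * V j)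
    (hB : ∀ k < n, B k ≤ b) (hL : Hc Rh n ≤ L) :
    ((t, p) : Om u) ∈ Suc (GS 0 i fun l => {f | hi ≤ (f l : ℝ) ∧ ∀ k ≤ l, lo - b ≤ (f k : ℝ)}) L := by
  obtain ⟨m, hmn, hhi, hlo⟩ := hm
  have key : ∀ k, w + ∑ j ∈ Finset.range k, σ * V j ≤ |ldf i t + ∑ j ∈ Finset.range k, V j| := by
    intro k
    calc w + ∑ j ∈ Finset.range k, σ * V j ≤ σ * (ldf i t + ∑ j ∈ Finset.range k, V j) := by
          rw [mul_add, Finset.mul_sum]; linarith
      _ ≤ |σ * (ldf i t + ∑ j ∈ Finset.range k, V j)| := le_abs_self _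
      _ = _ := by rw [abs_mul, hσ, one_mul]
  have hlt : ∀ k, Hc Rh k < Hc Rh m → k < m := fun k hk => by
    by_contra hcon
    exact absurd (Hc_mono (Rh := Rh) (not_lt.1 hcon)) (by omega)
  refine ⟨Hc Rh m, (Hc_mono hmn).trans hL, h.nt _, h.noC fun k hk => ?_,
    fun k => Dd i t k p, ⟨?_, ?_⟩, fun k _ => rfl⟩
  · have hkm := hlt k hk
    have h1 := hB k (by omega)
    have h2 := hlo k hkm.le
    have h3 := key k
    linarith
  · have := h.Dd_cut m
    rw [this]
    exact hhi.trans (key m)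
  · intro k hk
    obtain ⟨q, q1, q2⟩ := exists_block h.R1 k
    have hqm : q ≤ m := by
      by_contra hcon
      have := Hc_mono (Rh := Rh) (show m + 1 ≤ q by omega)
      rw [Hc_succ] at this
      have := h.R1 m
      omega
    rcases Nat.lt_or_ge q m with hlt' | hge
    · have h1 := h.Dd_ge q1 q2
      have h2 := hB q (by omega)
      have h3 := hlo q hqm
      have h4 := key q
      linarith
    · obtain rfl : q = m := le_antisymm hqm hge
      obtain rfl : k = Hc Rh q := le_antisymm hk q1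
      have h1 := h.Dd_cut q
      have h3 := hlo q le_rfl
      have h4 := key q
      rw [h1]; linarith

/-- **(E2) from the letters.** -/
theorem Dict.stay (h : Dict i t p V B Rh) {σ w lo b : ℝ} (hσ : |σ| = 1)
    (hw : w ≤ σ * ldf i t) (hb : b < lo) {n : ℕ} {L : ℕ}
    (hm : ∀ k, k ≤ n → lo ≤ w + ∑ j ∈ Finset.range k, σ * V j)
    (hB : ∀ k < n, B k ≤ b) (hL : L < Hc Rh n) :
    ((t, p) : Om u) ∈ Suc (GS 0 i fun l => {f | l = L ∧ ∀ k ≤ l, lo - b ≤ (f k : ℝ)}) L := by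
  have key : ∀ k, w + ∑ j ∈ Finset.range k, σ * V j ≤ |ldf i t + ∑ j ∈ Finset.range k, V j| := by
    intro k
    calc w + ∑ j ∈ Finset.range k, σ * V j ≤ σ * (ldf i t + ∑ j ∈ Finset.range k, V j) := by
          rw [mul_add, Finset.mul_sum]; linarith
      _ ≤ |σ * (ldf i t + ∑ j ∈ Finset.range k, V j)| := le_abs_self _
      _ = _ := by rw [abs_mul, hσ, one_mul]
  have hlt : ∀ k, Hc Rh k ≤ L → k < n := fun k hk => by
    by_contra hcon
    exact absurd (Hc_mono (Rh := Rh) (not_lt.1 hcon)) (by omega)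
  refine ⟨L, le_rfl, h.nt _, h.noC fun k hk => ?_,
    fun k => Dd i t k p, ⟨rfl, ?_⟩, fun k _ => rfl⟩
  · have hkm := hlt k hk.le
    have h1 := hB k hkm
    have h2 := hm k hkm.le
    have h3 := key k
    linarith
  · intro k hk
    obtain ⟨q, q1, q2⟩ := exists_block h.R1 k
    have hqn := hlt q (q1.trans hk)
    have h1 := h.Dd_ge q1 q2
    have h2 := hB q hqn
    have h3 := hm q hqn.le
    have h4 := key q
    linarith

end Crest.Agent.R154.PInd546
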