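import Crest.Agent.R154.Joint3_132
import Crest.Agent.R154.Max_818

/-!
# Row 154, d = 2: joint blocks with deviation, and the tube

Letters of 132 (`H`, `idx`, `rest`, `pairL`).  `Vs a l` is the set of lateral positions visited at
level `l`.  `B0` is the same-level deviation of the difference of the two walkers in the first joint
block.  `tube`: under a truncated second moment bound there is a deterministic tube `v : ℕ → ℤ`
such that one walker stays in it with probability at least `3/4`.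
-/

set_option autoImplicit false
set_option linter.unusedSectionVars false

namespace Crest.Agent.R154.Tube504

open MeasureTheory ProbabilityTheory Set Filter
open Crest.Agent.R154.J132
open scoped ENNReal

variable {A : Type*}

/-- lateral displacement after `n` letters -/
def Dz (v : A → ℤ) (n : ℕ) (a : ℕ → A) : ℤ := ∑ i ∈ Finset.range n, v (a i)




/-- lateral positions visited at level `l` -/
def Vs (Y : A → ℕ) (v : A → ℤ) (vis : A → ℕ → Set ℤ) (a : ℕ → A) (l : ℕ) : Set ℤ :=
  {z | ∃ i, H Y i a ≤ l ∧ l < H Y (i + 1) a ∧ z - Dz v i a ∈ vis (a i) (l - H Y i a)}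





/-- same-level deviations up to the index pair `q` are at most `r` -/
def DevLe (Y : A → ℕ) (v : A → ℤ) (vis : A → ℕ → Set ℤ) (q : ℕ × ℕ) (r : ℕ)
    (p : (ℕ → A) × (ℕ → A)) : Prop :=
  |Dz v q.1 p.1 - Dz v q.2 p.2| ≤ (r : ℤ) ∧
    ∀ l, l < H Y q.1 p.1 → l < H Y q.2 p.2 → ∀ z ∈ Vs Y v vis p.1 l, ∀ z' ∈ Vs Y v vis p.2 l,
      |z - z'| ≤ (r : ℤ)



lemma DevLe.mono {Y : A → ℕ} {v : A → ℤ} {vis : A → ℕ → Set ℤ} {q : ℕ × ℕ} {r r' : ℕ}
    {p : (ℕ → A) × (ℕ → A)} (h : DevLe Y v vis q r p) (hr : r ≤ r') : DevLe Y v vis q r' p := by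
  have : (r : ℤ) ≤ r' := by exact_mod_cast hr
  exact ⟨h.1.trans this, fun l hl hl' z hz z' hz' => (h.2 l hl hl' z hz z' hz').trans this⟩

/-- deviation up to the index pair `q` -/
noncomputable def Bq (Y : A → ℕ) (v : A → ℤ) (vis : A → ℕ → Set ℤ) (q : ℕ × ℕ)
    (p : (ℕ → A) × (ℕ → A)) : ℕ := sInf {r | DevLe Y v vis q r p}














variable [MeasurableSpace A] [MeasurableSingletonClass A] [Countable A] [Inhabited A]

section iid

variable {E : Type*} [MeasurableSpace E] [Countable E] [MeasurableSingletonClass E]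


variable {Y : A → ℕ} (hY : ∀ a, 1 ≤ Y a) {f : ℕ × ℕ → (ℕ → A) × (ℕ → A) → E}
  (hf : ∀ q (T : Set E), Det2 q.1 q.2 {p | f q p ∈ T})

include hY hf






end iid

/-! ### probability -/

section prob

variable {Y : A → ℕ} (hY : ∀ a, 1 ≤ Y a) (v : A → ℤ) {vis : A → ℕ → Set ℤ}
  (hfin : ∀ a l, (vis a l).Finite)

/-- the pair (difference, deviation) as a function of the index pair -/
noncomputable def f2 (Y : A → ℕ) (v : A → ℤ) (vis : A → ℕ → Set ℤ) (q : ℕ × ℕ)
    (p : (ℕ → A) × (ℕ → A)) : ℤ × ℕ := (Dz v q.1 p.1 - Dz v q.2 p.2, Bq Y v vis q p)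












/-- **Kolmogorov for blocks**: partial sums and deviations of iid symmetric pairs. -/
theorem kol {Ω : Type*} [MeasurableSpace Ω] {P : Measure Ω} [IsProbabilityMeasure P]
    {V B : ℕ → Ω → ℝ} (hV : ∀ k, Measurable (V k)) (hind : iIndepFun V P)
    {ν : Measure ℝ} (hlaw : ∀ k, P.map (V k) = ν) (hs : ν.map (fun x => -x) = ν)
    {β : ℝ} {r : ℝ} (hr : 0 < r) (hB : ∀ k, P.real {ω | r < B k ω} ≤ β) (n : ℕ) :
    P.real ({ω | ∃ j ≤ n, r < |∑ i ∈ Finset.range j, V i ω|} ∪ {ω | ∃ k < n, r < B k ω})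
      ≤ 2 * (n * ∫ x, min ((x / r) ^ 2) 1 ∂ν) + n * β := by
  have hdm : Measurable fun x : ℝ => x / r := measurable_id.div_const r
  set X : ℕ → Ω → ℝ := fun k ω => V k ω / r with hX
  have hXm : ∀ k, Measurable (X k) := fun k => (hV k).div_const r
  have hXi : iIndepFun X P := hind.comp (fun _ x => x / r) (fun _ => hdm)
  have hXl : ∀ k, P.map (X k) = ν.map (fun x => x / r) := by
    intro k
    rw [← hlaw k, Measure.map_map hdm (hV k)]
    rfl
  have hXs : (ν.map (fun x => x / r)).map (fun x => -x) = ν.map (fun x => x / r) := by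
    conv_rhs => rw [← hs]
    rw [Measure.map_map measurable_neg hdm, Measure.map_map hdm measurable_neg]
    congr 1
    funext x
    simp only [Function.comp_apply]
    ring
  have hint : ∫ x, min (x ^ 2) 1 ∂(ν.map (fun x => x / r)) = ∫ x, min ((x / r) ^ 2) 1 ∂ν := by
    rw [integral_map hdm.aemeasurable (by fun_prop)]
  have hmax := Hit818.max_tr hXm hXi hXl hXs n hint.le
  have hBk : P.real {ω | ∃ k < n, r < B k ω} ≤ n * β := by
    have hsub : {ω | ∃ k < n, r < B k ω} ⊆ ⋃ k ∈ Finset.range n, {ω | r < B k ω} := by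
      rintro ω ⟨k, hk, h⟩
      simp only [mem_iUnion]
      exact ⟨k, Finset.mem_range.2 hk, h⟩
    refine (measureReal_mono hsub (measure_ne_top _ _)).trans
      ((measureReal_biUnion_finset_le _ _).trans ?_)
    calc _ ≤ ∑ k ∈ Finset.range n, β := Finset.sum_le_sum fun k _ => hB k
      _ = _ := by simp
  have he : {ω | ∃ j ≤ n, r < |∑ i ∈ Finset.range j, V i ω|} = {ω | ∃ j ≤ n, 1 < |Hit818.S X j ω|}
      := by
    ext ω
    simp only [mem_ofPred_eq]
    refine exists_congr fun j => and_congr Iff.rfl ?_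
    have e : Hit818.S X j ω = (∑ i ∈ Finset.range j, V i ω) / r := by
      unfold Hit818.S
      simp only [hX]
      rw [← Finset.sum_div]
    rw [e, abs_div, abs_of_pos hr, one_lt_div hr]
  rw [he]
  exact (measureReal_union_le _ _).trans (add_le_add hmax hBk)



end prob

end Crest.Agent.R154.Tube504
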