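import Mathlib
import Crest.Agent.R154.B4Inst_797
import Crest.Agent.R154.Hair_738
import Crest.Agent.R154.JObj1_132
import Crest.Agent.R154.Tube_504
import Crest.Agent.R154.Slab_491
import Crest.Agent.R154.NDAObj_24
import Crest.Agent.R154.P2Defs_916
import Crest.Agent.R154.TubeObj_24
import Crest.Agent.R154.Scale_738

-- ▼ part R154/TubeLin_4
section

/-!
Row 154, d = 2 (D2.4, helper4).  From tubes at every scale to ONE linear slant.

`quasi`: `x (m+m') = x m + x m' ∘ θ m`, `p P(E) ≤ P(θ m ⁻¹ E)` and own-scale centres `c m` with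
`P(|x m - c m| ≤ G m) ≥ 1 - p/4` give quasi-additivity of `c`.
`hyers`: Hyers-Ulam on `{0..N}`.
`lin`: if moreover `G (2^j N) ≤ K ρ^j G N`, `ρ < 2`, then `|c m - t m| ≤ C G N` for one real `t`.
-/

set_option autoImplicit false

namespace Crest.Agent.R154.TubeLin4

open MeasureTheory ProbabilityTheory Filter Set
open scoped ENNReal Topology

/-! ## Hyers-Ulam on `{0..N}` -/

/-- Hyers-Ulam on an interval -/
theorem hyers (c : ℕ → ℝ) (N : ℕ) (D : ℝ) (hN : 1 ≤ N)
    (h : ∀ m m', m + m' ≤ N → |c (m + m') - c m - c m'| ≤ D) :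
    ∀ m ≤ N, |c m - (m : ℝ) / N * c N| ≤ 3 * D := by
  have hN0 : (N : ℝ) ≠ 0 := by positivity
  set g : ℕ → ℝ := fun m => c m - (m : ℝ) / N * c N with hg
  have hq : ∀ m m', m + m' ≤ N → |g (m + m') - g m - g m'| ≤ D := by
    intro m m' hm
    have e : g (m + m') - g m - g m' = c (m + m') - c m - c m' := by
      simp only [hg]; push_cast; field_simp; ring
    rw [e]; exact h m m' hm
  have hgN : g N = 0 := by simp only [hg]; rw [div_self hN0]; ring
  have hD : 0 ≤ D := (abs_nonneg _).trans (h 0 0 (Nat.zero_le _))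
  obtain ⟨ms, hms, hmax⟩ := Finset.exists_max_image (Finset.range (N + 1)) (fun m => |g m|)
    ⟨0, by simp⟩
  have hms' : ms ≤ N := by simpa [Nat.lt_succ_iff] using hms
  have hM : ∀ m ≤ N, |g m| ≤ |g ms| := fun m hm => hmax m (by simpa [Nat.lt_succ_iff] using hm)
  have hdbl : ∀ n, n + n ≤ N → 2 * |g n| ≤ |g ms| + D := by
    intro n hn
    have h1 := hq n n hn
    have h2 := hM (n + n) hn
    have e : 2 * |g n| = |2 * g n| := by rw [abs_mul]; norm_num
    rw [e]
    calc |2 * g n| = |g (n + n) - (g (n + n) - g n - g n)| := by congr 1; ring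
      _ ≤ |g (n + n)| + |g (n + n) - g n - g n| := abs_sub _ _
      _ ≤ _ := add_le_add h2 h1
  have hfin : |g ms| ≤ 3 * D := by
    by_cases h2 : ms + ms ≤ N
    · have := hdbl ms h2
      linarith
    · have hn : (N - ms) + (N - ms) ≤ N := by omega
      have h3 := hdbl (N - ms) hn
      have h4 := hq ms (N - ms) (by omega)
      rw [Nat.add_sub_cancel' hms', hgN] at h4
      have h5 : |g ms| ≤ |g (N - ms)| + D := by
        calc |g ms| = |-(0 - g ms - g (N - ms)) - g (N - ms)| := by congr 1; ring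
          _ ≤ |-(0 - g ms - g (N - ms))| + |g (N - ms)| := abs_sub _ _
          _ ≤ D + |g (N - ms)| := by rw [abs_neg]; gcongr
          _ = _ := by ring
      linarith
  intro m hm
  exact (hM m hm).trans hfin

/-! ## Quasi-additivity of the centres -/

/-- **quasi-additivity of the centres** -/
theorem quasi {Ω : Type*} [MeasurableSpace Ω] (P : Measure Ω) [IsProbabilityMeasure P]
    (x : ℕ → Ω → ℝ) (hx : ∀ m, Measurable (x m)) (θ : ℕ → Ω → Ω)
    (hadd : ∀ m m' ω, x (m + m') ω = x m ω + x m' (θ m ω)) {p : ℝ} (hp : 0 < p) (hp1 : p ≤ 1)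
    (hren : ∀ m (E : Set Ω), MeasurableSet E → p * P.real E ≤ P.real (θ m ⁻¹' E))
    (c G : ℕ → ℝ) (hc : ∀ m, 1 - p / 4 ≤ P.real {ω | |x m ω - c m| ≤ G m}) (m m' : ℕ) :
    |c (m + m') - c m - c m'| ≤ G (m + m') + G m + G m' := by
  set E : ℕ → Set Ω := fun m => {ω | |x m ω - c m| ≤ G m} with hE
  have hEm : ∀ m, MeasurableSet (E m) := fun m =>
    measurableSet_le ((hx m).sub_const _).abs measurable_const
  have h1 := hren m (E m') (hEm m')
  have h2 := hc m'
  by_contra hcon
  have hemp : θ m ⁻¹' (E m') ⊆ (E m)ᶜ ∪ (E (m + m'))ᶜ := by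
    intro ω hω
    by_contra hno
    simp only [mem_union, mem_compl_iff, not_or, not_not] at hno
    have a1 : |x m' (θ m ω) - c m'| ≤ G m' := hω
    have a2 : |x m ω - c m| ≤ G m := hno.1
    have a3 : |x (m + m') ω - c (m + m')| ≤ G (m + m') := hno.2
    refine hcon ?_
    rw [hadd] at a3
    rw [abs_le] at a1 a2 a3 ⊢
    constructor <;> linarith [a1.1, a1.2, a2.1, a2.2, a3.1, a3.2]
  have h3 : P.real (θ m ⁻¹' (E m')) ≤ P.real (E m)ᶜ + P.real (E (m + m'))ᶜ :=
    (measureReal_mono hemp).trans (measureReal_union_le _ _)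
  rw [probReal_compl_eq_one_sub (hEm m), probReal_compl_eq_one_sub (hEm (m + m'))] at h3
  have h4 := hc m
  have h5 := hc (m + m')
  simp only [hE] at h1 h3
  nlinarith

/-! ## One linear slant -/

/-- **one linear slant for all scales** -/
theorem lin (c G : ℕ → ℝ) (hG0 : ∀ m, 0 ≤ G m) (hGm : Monotone G)
    (hq : ∀ m m', |c (m + m') - c m - c m'| ≤ G (m + m') + G m + G m')
    {K ρ : ℝ} (hK : 0 ≤ K) (hρ0 : 0 ≤ ρ) (hρ : ρ < 2) {N0 : ℕ} (hN0 : 1 ≤ N0)
    (hreg : ∀ N, N0 ≤ N → ∀ j : ℕ, G (2 ^ j * N) ≤ K * ρ ^ j * G N) :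
    ∃ t : ℝ, ∀ N, N0 ≤ N → ∀ m ≤ N, |c m - t * m| ≤ (9 + 6 * K / (2 - ρ)) * G N := by
  have h3 : ∀ m m', |c (m + m') - c m - c m'| ≤ 3 * G (m + m') := by
    intro m m'
    have h1 := hGm (Nat.le_add_right m m')
    have h2 := hGm (Nat.le_add_left m' m)
    linarith [hq m m']
  have hHU : ∀ N, 1 ≤ N → ∀ m ≤ N, |c m - (m : ℝ) / N * c N| ≤ 9 * G N := by
    intro N hN m hm
    have := hyers c N (3 * G N) hN (fun a b hab => (h3 a b).trans (by linarith [hGm hab])) m hm
    linarith
  -- the dyadic sequence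
  set dd : ℕ → ℕ → ℝ := fun N j => c (2 ^ j * N) / (2 ^ j * N : ℝ) with hdd
  have hstep : ∀ N, N0 ≤ N → ∀ j, |dd N (j + 1) - dd N j| ≤
      3 * K * G N / N * (ρ / 2) ^ (j + 1) := by
    intro N hN j
    have hNp : (0 : ℝ) < N := by exact_mod_cast lt_of_lt_of_le hN0 hN
    have h2j : (0 : ℝ) < 2 ^ (j + 1) * N := by positivity
    have e0 : 2 ^ (j + 1) * N = 2 ^ j * N + 2 ^ j * N := by ring
    have h4 := h3 (2 ^ j * N) (2 ^ j * N)
    rw [← e0] at h4
    have h5 := hreg N hN (j + 1)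
    have e1 : dd N (j + 1) - dd N j =
        (c (2 ^ (j + 1) * N) - c (2 ^ j * N) - c (2 ^ j * N)) / (2 ^ (j + 1) * N) := by
      simp only [hdd]
      field_simp
      ring
    rw [e1, abs_div, abs_of_pos h2j, div_le_iff₀ h2j]
    calc _ ≤ 3 * G (2 ^ (j + 1) * N) := h4
      _ ≤ 3 * (K * ρ ^ (j + 1) * G N) := by linarith
      _ = _ := by
        rw [div_pow]
        field_simp
  have hr0 : 0 ≤ ρ / 2 := by positivity
  have hr1 : ρ / 2 < 1 := by linarith
  have hlim : ∀ N, N0 ≤ N → ∃ t : ℝ, Tendsto (dd N) atTop (𝓝 t) ∧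
      |dd N 0 - t| ≤ 3 * K * G N / N * (ρ / 2) / (1 - ρ / 2) := by
    intro N hN
    have hd : ∀ n, dist (dd N n) (dd N (n + 1)) ≤ 3 * K * G N / N * (ρ / 2) * (ρ / 2) ^ n := by
      intro n
      rw [dist_comm, Real.dist_eq]
      refine (hstep N hN n).trans (le_of_eq ?_)
      rw [pow_succ]; ring
    have hcs := cauchySeq_of_le_geometric (ρ / 2) _ hr1 hd
    obtain ⟨t, ht⟩ := cauchySeq_tendsto_of_complete hcs
    refine ⟨t, ht, ?_⟩
    have := dist_le_of_le_geometric_of_tendsto₀ (ρ / 2) _ hr1 hd ht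
    rwa [Real.dist_eq] at this
  obtain ⟨t, ht, -⟩ := hlim N0 le_rfl
  -- all limits agree
  have hconn : ∀ N, N0 ≤ N → ∀ M, 1 ≤ M → ∀ s s' : ℝ, Tendsto (dd N) atTop (𝓝 s) →
      Tendsto (dd (N * M)) atTop (𝓝 s') → s = s' := by
    intro N hN M hM s s' hs hs'
    have hNp : (0 : ℝ) < N := by exact_mod_cast lt_of_lt_of_le hN0 hN
    have hMp : (0 : ℝ) < M := by exact_mod_cast hM
    have hNM : N0 ≤ N * M := hN.trans (Nat.le_mul_of_pos_right _ hM)
    have hb : ∀ j, |dd N j - dd (N * M) j| ≤ 9 * K * G (N * M) / N * (ρ / 2) ^ j := by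
      intro j
      have hL1 : 1 ≤ 2 ^ j * (N * M) := Nat.mul_pos (by positivity) (hN0.trans hNM)
      have hle : 2 ^ j * N ≤ 2 ^ j * (N * M) := by
        rw [← mul_assoc]; exact Nat.le_mul_of_pos_right _ hM
      have h4 := hHU (2 ^ j * (N * M)) hL1 (2 ^ j * N) hle
      have h5 := hreg (N * M) hNM j
      have hpos : (0 : ℝ) < 2 ^ j * N := by positivity
      have e1 : dd N j - dd (N * M) j =
          (c (2 ^ j * N) - ((2 ^ j * N : ℕ) : ℝ) / ((2 ^ j * (N * M) : ℕ) : ℝ) *
            c (2 ^ j * (N * M))) / (2 ^ j * N) := by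
        simp only [hdd]
        push_cast
        field_simp
      rw [e1, abs_div, abs_of_pos hpos, div_le_iff₀ hpos]
      calc _ ≤ 9 * G (2 ^ j * (N * M)) := h4
        _ ≤ 9 * (K * ρ ^ j * G (N * M)) := by linarith
        _ = _ := by
          rw [div_pow]
          field_simp
    have hz : Tendsto (fun j => 9 * K * G (N * M) / N * (ρ / 2) ^ j) atTop (𝓝 0) := by
      have := (tendsto_pow_atTop_nhds_zero_of_lt_one hr0 hr1).const_mul (9 * K * G (N * M) / N)
      simpa using this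
    have hdiff : Tendsto (fun j => dd N j - dd (N * M) j) atTop (𝓝 0) :=
      squeeze_zero_norm (fun j => by rw [Real.norm_eq_abs]; exact hb j) hz
    have := tendsto_nhds_unique (hs.sub hs') hdiff
    linarith
  refine ⟨t, fun N hN m hm => ?_⟩
  have hNp : (0 : ℝ) < N := by exact_mod_cast lt_of_lt_of_le hN0 hN
  obtain ⟨s, hs, hsb⟩ := hlim N hN
  have hst : s = t := by
    have hN1 : 1 ≤ N := hN0.trans hN
    obtain ⟨r, hr, -⟩ := hlim (N * N0) (hN.trans (Nat.le_mul_of_pos_right _ hN0))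
    have e1 := hconn N hN N0 hN0 s r hs hr
    have e2 := hconn N0 le_rfl N hN1 t r ht (by rwa [mul_comm N0 N])
    rw [e1, e2]
  rw [hst] at hsb
  have hd0 : dd N 0 = c N / N := by simp [hdd]
  rw [hd0] at hsb
  have hcN : |c N - t * N| ≤ 6 * K / (2 - ρ) * G N := by
    have e : c N - t * N = (c N / N - t) * N := by field_simp
    rw [e, abs_mul, abs_of_pos hNp]
    calc |c N / N - t| * N ≤ (3 * K * G N / N * (ρ / 2) / (1 - ρ / 2)) * N := by gcongr
      _ = 3 * K * G N * (ρ / 2) / (1 - ρ / 2) := by field_simp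
      _ ≤ 3 * K * G N * 1 / (1 - ρ / 2) := by
        have : 0 < 1 - ρ / 2 := by linarith
        have := hG0 N
        gcongr
      _ = 6 * K / (2 - ρ) * G N := by
        have h1 : 1 - ρ / 2 ≠ 0 := by linarith
        have h2 : 2 - ρ ≠ 0 := by linarith
        field_simp
        ring
  have h6 := hHU N (hN0.trans hN) m hm
  have hmN : (m : ℝ) / N ≤ 1 := by
    rw [div_le_one hNp]; exact_mod_cast hm
  have hmN0 : 0 ≤ (m : ℝ) / N := by positivity
  calc |c m - t * m| = |(c m - (m : ℝ) / N * c N) + (m : ℝ) / N * (c N - t * N)| := by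
        congr 1; field_simp; ring
    _ ≤ |c m - (m : ℝ) / N * c N| + |(m : ℝ) / N * (c N - t * N)| := abs_add_le _ _
    _ ≤ 9 * G N + 6 * K / (2 - ρ) * G N := by
        refine add_le_add h6 ?_
        rw [abs_mul, abs_of_nonneg hmN0]
        calc (m : ℝ) / N * |c N - t * N| ≤ 1 * |c N - t * N| := by gcongr
          _ ≤ _ := by rw [one_mul]; exact hcN
    _ = _ := by ring

end Crest.Agent.R154.TubeLin4
end

-- ▼ part R154/TubeLinB_4
section

/-!
Row 154, d = 2 (D2.5, helper4).  Binding of `TubeLin_4` to the natural law (797's `natLaw`):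
tubes of width `A_ε * wd N` around ARBITRARY centres `v_N` at every scale give tubes of width
`A'_ε * wd N` around ONE line `θ * level`.
-/

set_option autoImplicit false
set_option linter.unusedSectionVars false
set_option linter.deprecated false

namespace Crest.Agent.R154.TubeLin4

open MeasureTheory ProbabilityTheory Filter Set Crest.ProbabilityR.RandomEnvironment
open Crest.Agent.R154.Mk561 Crest.Agent.R154.Bind263 Crest.Agent.R154.B4Inst797
open scoped ENNReal Topology

/-! ## Regular growth -/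

/-- growth at one factor `s` gives growth at all powers of `2` -/
theorem reg_of (G : ℕ → ℝ) (hG0 : ∀ m, 0 ≤ G m) (hGm : Monotone G) {s : ℕ} (hs : 2 ≤ s) {q : ℝ}
    (hqs : q < s) {N0 : ℕ} (h : ∀ N, N0 ≤ N → G (s * N) ≤ q * G N) :
    ∃ K ρ : ℝ, 0 ≤ K ∧ 0 ≤ ρ ∧ ρ < 2 ∧ ∀ N, N0 ≤ N → ∀ j : ℕ, G (2 ^ j * N) ≤ K * ρ ^ j * G N := by
  set q' : ℝ := max q 1 with hq'
  have hs1 : (1 : ℝ) < s := by exact_mod_cast (by omega : 1 < s)
  have hq's : q' < s := max_lt hqs hs1
  have hq'1 : 1 ≤ q' := le_max_right _ _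
  have hq'0 : 0 < q' := lt_of_lt_of_le one_pos hq'1
  have h' : ∀ N, N0 ≤ N → G (s * N) ≤ q' * G N := fun N hN =>
    (h N hN).trans (mul_le_mul_of_nonneg_right (le_max_left _ _) (hG0 N))
  have hpow : ∀ i N, N0 ≤ N → G (s ^ i * N) ≤ q' ^ i * G N := by
    intro i
    induction i with
    | zero => intro N _; simp
    | succ i ih =>
      intro N hN
      have e : s ^ (i + 1) * N = s * (s ^ i * N) := by ring
      rw [e]
      have h1 : N0 ≤ s ^ i * N := hN.trans (Nat.le_mul_of_pos_left _ (by positivity))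
      calc G (s * (s ^ i * N)) ≤ q' * G (s ^ i * N) := h' _ h1
        _ ≤ q' * (q' ^ i * G N) := by gcongr; exact ih N hN
        _ = _ := by ring
  set a : ℝ := Real.log q' / Real.log s with ha
  have hls : 0 < Real.log s := Real.log_pos hs1
  have ha0 : 0 ≤ a := div_nonneg (Real.log_nonneg hq'1) hls.le
  have ha1 : a < 1 := by
    rw [ha, div_lt_one hls]
    exact Real.log_lt_log hq'0 hq's
  have hsa : (s : ℝ) ^ a = q' := by
    rw [ha, ← Real.exp_log (show (0:ℝ) < s by positivity), ← Real.exp_mul, Real.exp_log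
      (show (0:ℝ) < s by positivity), mul_div_cancel₀ _ hls.ne', Real.exp_log hq'0]
  refine ⟨q', (2 : ℝ) ^ a, hq'0.le, by positivity, ?_, ?_⟩
  · calc (2 : ℝ) ^ a < 2 ^ (1 : ℝ) := Real.rpow_lt_rpow_of_exponent_lt (by norm_num) ha1
      _ = 2 := by simp
  · intro N hN j
    have h1 : 2 ^ j ≤ s ^ Nat.clog s (2 ^ j) := Nat.le_pow_clog (by omega) _
    have h2 : G (2 ^ j * N) ≤ G (s ^ Nat.clog s (2 ^ j) * N) := hGm (Nat.mul_le_mul_right _ h1)
    refine h2.trans ((hpow _ N hN).trans ?_)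
    gcongr
    · exact hG0 N
    · rcases Nat.eq_zero_or_pos j with hj | hj
      · subst hj
        simp [hq'1]
      · have h2j : 1 < 2 ^ j := Nat.one_lt_two_pow (by omega)
        have hc1 : 1 ≤ Nat.clog s (2 ^ j) := Nat.clog_pos (by omega) (by omega)
        have hc2 : s ^ (Nat.clog s (2 ^ j)).pred < 2 ^ j := Nat.pow_pred_clog_lt_self (by omega) h2j
        obtain ⟨k, hk⟩ : ∃ k, Nat.clog s (2 ^ j) = k + 1 := ⟨_, (Nat.sub_add_cancel hc1).symm⟩
        rw [hk] at hc2 ⊢
        simp only [Nat.pred_succ] at hc2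
        have hc3 : ((s : ℝ) ^ k) ≤ 2 ^ j := by exact_mod_cast hc2.le
        calc q' ^ (k + 1) = q' * ((s : ℝ) ^ a) ^ k := by rw [hsa]; ring
          _ = q' * ((s : ℝ) ^ k) ^ a := by
              rw [← Real.rpow_natCast, ← Real.rpow_mul (by positivity), mul_comm a,
                Real.rpow_mul (by positivity), Real.rpow_natCast]
          _ ≤ q' * ((2 : ℝ) ^ j) ^ a := by gcongr
          _ = q' * ((2 : ℝ) ^ a) ^ j := by
              congr 1
              rw [← Real.rpow_natCast, ← Real.rpow_mul (by positivity), mul_comm,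
                Real.rpow_mul (by positivity), Real.rpow_natCast]

/-! ## The natural law -/

variable {d : ℕ} {Q : Measure (Environment d)} [IsProbabilityMeasure Q] {κ : ℝ} {R : ℕ}

/-- restart at a cut level -/
theorem nat_ren (F : Frame Q κ R) (u : Step d) (hc : mkAnn κ Q 0 (Nat0 u R) ≠ 0) (m : ℕ)
    {E : Set (MPath d)} (hE : MeasurableSet E) :
    mkAnn κ Q 0 (Nat0 u R) * natLaw κ Q u R E ≤ natLaw κ Q u R (th u m ⁻¹' E) := by
  have hk := key F u (l := m) (A := univ) (E := E) MeasurableSet.univ hE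
  have hle := nat_inter_le F u (l := m) (A := univ) MeasurableSet.univ
  rw [inter_univ] at hle
  rw [univ_inter] at hk
  rw [natLaw_apply, natLaw_apply]
  have h1 : mkAnn κ Q 0 (Nat0 u R) * mkAnn κ Q 0 (Nat0 u R ∩ E)
      ≤ mkAnn κ Q 0 (Nat0 u R ∩ th u m ⁻¹' E) := by
    calc _ ≤ mX κ Q u R m univ * mkAnn κ Q 0 (Nat0 u R ∩ E) := by gcongr
      _ = mkAnn κ Q 0 (Nat0 u R ∩ th u m ⁻¹' (Nat0 u R ∩ E)) := hk.symm
      _ ≤ _ := measure_mono (inter_subset_inter_right _ (preimage_mono inter_subset_right))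
  calc mkAnn κ Q 0 (Nat0 u R) * ((mkAnn κ Q 0 (Nat0 u R))⁻¹ * mkAnn κ Q 0 (Nat0 u R ∩ E))
      = (mkAnn κ Q 0 (Nat0 u R))⁻¹ * (mkAnn κ Q 0 (Nat0 u R) * mkAnn κ Q 0 (Nat0 u R ∩ E)) := by
        ring
    _ ≤ _ := by gcongr

/-- the natural law hits every level -/
theorem nat_hit_ae (F : Frame Q κ R) (u : Step d) (m : ℕ) :
    natLaw κ Q u R {s | ∀ n, ¬ Hit u m n s} = 0 := by
  rw [natLaw_apply, nat_hit F u m, mul_zero]

/-- lateral position at the first hit of the level `m` -/
noncomputable def xm (u : Step d) (i : Fin d) (m : ℕ) (s : MPath d) : ℝ := UU u i i m s 0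

lemma xm_hit {u : Step d} (i : Fin d) {m n : ℕ} {s : MPath d} (h : Hit u m n s) :
    xm u i m s = (pos 0 s n i : ℝ) := by
  unfold xm
  rw [(hit_eq i i h).2]
  simp [lat]

lemma measurable_xm (u : Step d) (i : Fin d) (m : ℕ) : Measurable (xm u i m) :=
  (measurable_pi_apply 0).comp (measurable_UU u i i m)

lemma xm_add (u : Step d) (i : Fin d) (m m' : ℕ) (s : MPath d) :
    xm u i (m + m') s = xm u i m s + xm u i m' (th u m s) := by
  unfold xm
  rw [UU_add]
  rfl

/-- all visits below the level `N` are within `r` of the centres `v level` -/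
def TubeE (u : Step d) (i : Fin d) (N : ℕ) (r : ℝ) (v : ℕ → ℝ) : Set (MPath d) :=
  {s | ∀ t, zh u s t < N → |(pos 0 s t i : ℝ) - v (zh u s t).toNat| ≤ r}

/-- tightness of one real random variable -/
lemma tight_one {Ω : Type*} [MeasurableSpace Ω] (P : Measure Ω) [IsProbabilityMeasure P]
    {f : Ω → ℝ} (hf : Measurable f) {ε : ℝ} (hε : 0 < ε) :
    ∃ g : ℕ, ∀ g' : ℝ, (g : ℝ) ≤ g' → 1 - ε ≤ P.real {ω | |f ω| ≤ g'} := by
  have h1 : Tendsto (fun n : ℕ => P.real {ω | |f ω| ≤ (n : ℝ)}) atTop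
      (𝓝 (P.real (⋃ n : ℕ, {ω | |f ω| ≤ (n : ℝ)}))) := by
    refine (ENNReal.tendsto_toReal (measure_ne_top _ _)).comp
      (tendsto_measure_iUnion_atTop ?_)
    intro a b hab ω hω
    exact le_trans (show |f ω| ≤ (a : ℝ) from hω) (by exact_mod_cast hab)
  have h2 : (⋃ n : ℕ, {ω | |f ω| ≤ (n : ℝ)}) = univ := by
    rw [eq_univ_iff_forall]
    intro ω
    obtain ⟨n, hn⟩ := exists_nat_ge |f ω|
    exact mem_iUnion.2 ⟨n, hn⟩
  rw [h2, probReal_univ] at h1
  obtain ⟨g, hg⟩ := (h1.eventually (lt_mem_nhds (by linarith : 1 - ε < 1))).exists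
  refine ⟨g, fun g' hg' => hg.le.trans (measureReal_mono ?_)⟩
  intro ω hω
  exact le_trans (show |f ω| ≤ (g : ℝ) from hω) hg'

/-- the tube event controls the first hits -/
lemma tube_xm (F : Frame Q κ R) {u : Step d} (hc : mkAnn κ Q 0 (Nat0 u R) ≠ 0) (i : Fin d)
    {N m : ℕ} (hm : m < N) (r : ℝ) (v : ℕ → ℝ) :
    (natLaw κ Q u R).real (TubeE u i N r v) ≤ (natLaw κ Q u R).real
      {s | |xm u i m s - v m| ≤ r} := by
  have := natLaw_isProb (Q := Q) (κ := κ) hc
  have h0 : (natLaw κ Q u R).real {s | ∀ n, ¬ Hit u m n s} = 0 := by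
    rw [measureReal_def, nat_hit_ae F u m]; rfl
  calc (natLaw κ Q u R).real (TubeE u i N r v)
      ≤ (natLaw κ Q u R).real ({s | |xm u i m s - v m| ≤ r} ∪ {s | ∀ n, ¬ Hit u m n s}) := by
        refine measureReal_mono ?_
        intro s hs
        by_cases hex : ∃ n, Hit u m n s
        · obtain ⟨n, hn⟩ := hex
          left
          have h1 := hs n (by rw [hn.1]; exact_mod_cast hm)
          rw [hn.1] at h1
          simp only [mem_setOf_eq]
          rw [xm_hit i hn]
          simpa using h1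
        · exact Or.inr fun n hn => hex ⟨n, hn⟩
    _ ≤ _ := (measureReal_union_le _ _).trans (by rw [h0, add_zero])

/-- **ONE LINEAR SLANT.**  Tubes around arbitrary centres at every scale `⟹` tubes around one
line. -/
theorem tube_lin (F : Frame Q κ R) {u : Step d} (hc : mkAnn κ Q 0 (Nat0 u R) ≠ 0) (i : Fin d)
    (wd : ℕ → ℕ) (hw1 : ∀ N, 1 ≤ wd N) (hwm : Monotone wd) {s : ℕ} (hs : 2 ≤ s) {q : ℝ}
    (hqs : q < s) {N0 : ℕ} (hreg : ∀ N, N0 ≤ N → (wd (s * N) : ℝ) ≤ q * wd N)
    (hT : ∀ ε : ℝ, 0 < ε → ∃ (A : ℝ) (N1 : ℕ), ∀ N, N1 ≤ N → ∃ v : ℕ → ℝ,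
      1 - ε ≤ (natLaw κ Q u R).real (TubeE u i N (A * wd N) v)) :
    ∃ θ : ℝ, ∀ ε : ℝ, 0 < ε → ∃ (A : ℝ) (N1 : ℕ), ∀ N, N1 ≤ N →
      1 - ε ≤ (natLaw κ Q u R).real (TubeE u i N (A * wd N) fun l => θ * l) := by
  have hprob : IsProbabilityMeasure (natLaw κ Q u R) := natLaw_isProb hc
  set P := natLaw κ Q u R with hP
  set p : ℝ := (mkAnn κ Q 0 (Nat0 u R)).toReal with hp
  have hp0 : 0 < p := ENNReal.toReal_pos hc (measure_ne_top _ _)
  have hp1 : p ≤ 1 := by
    have := ENNReal.toReal_mono ENNReal.one_ne_top (prob_le_one (μ := mkAnn κ Q 0) (s := Nat0 u R))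
    simpa using this
  obtain ⟨A0, N1, hA0⟩ := hT (p / 4) (by positivity)
  choose! v0 hv0 using hA0
  -- small levels
  have hsm : ∃ g : ℝ, 0 ≤ g ∧ ∀ m < N1, 1 - p / 4 ≤ P.real {s | |xm u i m s| ≤ g} := by
    have : ∀ m, ∃ g : ℕ, ∀ g' : ℝ, (g : ℝ) ≤ g' → 1 - p / 4 ≤ P.real {s | |xm u i m s| ≤ g'} :=
      fun m => tight_one P (measurable_xm u i m) (by positivity)
    choose g hg using this
    refine ⟨((Finset.range N1).sup g : ℕ), by positivity, fun m hm => hg m _ ?_⟩
    exact_mod_cast Finset.le_sup (f := g) (Finset.mem_range.2 hm)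
  obtain ⟨g, hg0, hg⟩ := hsm
  set c : ℕ → ℝ := fun m => if m < N1 then 0 else v0 (m + 1) m with hcdef
  set A1 : ℝ := |A0| + g with hA1
  have hA10 : 0 ≤ A1 := by positivity
  set G : ℕ → ℝ := fun m => A1 * wd (m + 1) with hGdef
  have hwR : ∀ N, (1 : ℝ) ≤ wd N := fun N => by exact_mod_cast hw1 N
  have hG0 : ∀ m, 0 ≤ G m := fun m => by positivity
  have hGm : Monotone G := by
    intro a b hab
    have : (wd (a + 1) : ℝ) ≤ wd (b + 1) := by exact_mod_cast hwm (Nat.add_le_add_right hab 1)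
    simp only [hGdef]
    gcongr
  have hcen : ∀ m, 1 - p / 4 ≤ P.real {s | |xm u i m s - c m| ≤ G m} := by
    intro m
    by_cases hm : m < N1
    · refine (hg m hm).trans (measureReal_mono ?_)
      intro s hs
      simp only [mem_setOf_eq, hcdef, if_pos hm, sub_zero] at hs ⊢
      refine hs.trans ?_
      simp only [hGdef, hA1]
      nlinarith [hwR (m + 1), abs_nonneg A0]
    · have h1 := hv0 (m + 1) (by omega)
      refine h1.trans ((tube_xm F hc i (Nat.lt_succ_self m) _ _).trans (measureReal_mono ?_))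
      intro s hs
      simp only [mem_setOf_eq, hcdef, if_neg hm] at hs ⊢
      refine hs.trans ?_
      simp only [hGdef, hA1]
      have := le_abs_self A0
      have := hwR (m + 1)
      gcongr
      linarith
  have hq := quasi P (xm u i) (measurable_xm u i) (th u) (xm_add u i) hp0 hp1
    (fun m E hE => by
      have := ENNReal.toReal_mono (measure_ne_top _ _) (nat_ren F u hc m hE)
      rwa [ENNReal.toReal_mul] at this) c G hcen
  have hGreg : ∀ N, N0 ≤ N → G (s * N) ≤ q * G N := by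
    intro N hN
    have h1 : wd (s * N + 1) ≤ wd (s * (N + 1)) := hwm (by
      rw [Nat.mul_add]; omega)
    have h1' : (wd (s * N + 1) : ℝ) ≤ wd (s * (N + 1)) := by exact_mod_cast h1
    have h2 := hreg (N + 1) (by omega)
    simp only [hGdef]
    calc A1 * (wd (s * N + 1) : ℝ) ≤ A1 * (q * wd (N + 1)) := by gcongr; linarith
      _ = _ := by ring
  obtain ⟨K, ρ, hK, hρ0, hρ2, hKρ⟩ := reg_of G hG0 hGm hs hqs hGreg
  obtain ⟨θ, hθ⟩ := lin c G hG0 hGm hq hK hρ0 hρ2 (N0 := max N0 1) (le_max_right _ _)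
    (fun N hN j => hKρ N ((le_max_left _ _).trans hN) j)
  set C : ℝ := 9 + 6 * K / (2 - ρ) with hC
  have hC0 : 0 ≤ C := by
    have : 0 < 2 - ρ := by linarith
    positivity
  refine ⟨θ, fun ε hε => ?_⟩
  obtain ⟨A2, N2, hA2⟩ := hT (min ε (1 / 4)) (lt_min hε (by norm_num))
  -- one step of growth
  have hw1s : ∀ N, N0 ≤ N → 1 ≤ N → (wd (N + 1) : ℝ) ≤ q * wd N := by
    intro N hN hN1
    have h1 : wd (N + 1) ≤ wd (s * N) := hwm (by nlinarith)
    have h1' : (wd (N + 1) : ℝ) ≤ wd (s * N) := by exact_mod_cast h1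
    exact h1'.trans (hreg N hN)
  refine ⟨2 * |A2| + (1 + C) * (A1 * |q|), max (max N0 1) N2, fun N hN => ?_⟩
  have hNN0 : N0 ≤ N := (le_max_left _ _).trans ((le_max_left _ _).trans hN)
  have hN1' : 1 ≤ N := (le_max_right _ _).trans ((le_max_left _ _).trans hN)
  obtain ⟨v, hv⟩ := hA2 N ((le_max_right _ _).trans hN)
  have hqw : (wd (N + 1) : ℝ) ≤ |q| * wd N :=
    (hw1s N hNN0 hN1').trans (mul_le_mul_of_nonneg_right (le_abs_self q) (by positivity))
  -- the centres of the tube are close to the line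
  have hclose : ∀ m < N, |v m - θ * m| ≤ |A2| * wd N + (1 + C) * (A1 * |q|) * wd N := by
    intro m hm
    have h1 := hv.trans (tube_xm F hc i hm _ v)
    have h2 := hcen m
    have h3 : 1 - min ε (1 / 4) + (1 - p / 4) > 1 := by
      have := min_le_right ε (1 / 4)
      linarith
    have hne : ({s | |xm u i m s - v m| ≤ A2 * wd N} ∩
        {s | |xm u i m s - c m| ≤ G m}).Nonempty := by
      by_contra hemp
      rw [Set.not_nonempty_iff_eq_empty, ← disjoint_iff_inter_eq_empty] at hemp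
      have hmeas : MeasurableSet {s : MPath d | |xm u i m s - c m| ≤ G m} :=
        measurableSet_le ((measurable_xm u i m).sub_const _).abs measurable_const
      have := measureReal_union (μ := P) hemp hmeas
      have h4 : P.real ({s | |xm u i m s - v m| ≤ A2 * wd N} ∪
        {s | |xm u i m s - c m| ≤ G m}) ≤ 1 := measureReal_le_one
      linarith
    obtain ⟨s', h5, h6⟩ := hne
    simp only [mem_setOf_eq] at h5 h6
    have h7 := hθ N (max_le hNN0 hN1') m hm.le
    have h8 : G m ≤ G N := hGm hm.le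
    have h9 : G N ≤ A1 * (|q| * wd N) := by
      simp only [hGdef]
      gcongr
    have h10 : A2 * wd N ≤ |A2| * wd N := by
      gcongr
      exact le_abs_self _
    have h11 : C * G N ≤ C * (A1 * (|q| * wd N)) := by gcongr
    have e : |v m - θ * m| ≤ |xm u i m s' - v m| + |xm u i m s' - c m| + |c m - θ * m| := by
      rw [abs_le]
      constructor
      · linarith [neg_abs_le (xm u i m s' - v m), le_abs_self (xm u i m s' - v m),
          neg_abs_le (xm u i m s' - c m), le_abs_self (xm u i m s' - c m),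
          neg_abs_le (c m - θ * m), le_abs_self (c m - θ * m)]
      · linarith [neg_abs_le (xm u i m s' - v m), le_abs_self (xm u i m s' - v m),
          neg_abs_le (xm u i m s' - c m), le_abs_self (xm u i m s' - c m),
          neg_abs_le (c m - θ * m), le_abs_self (c m - θ * m)]
    calc |v m - θ * m| ≤ A2 * wd N + G m + C * G N := by linarith
      _ ≤ |A2| * wd N + A1 * (|q| * wd N) + C * (A1 * (|q| * wd N)) := by linarith
      _ = _ := by ring
  refine le_trans ?_ (hv.trans (measureReal_mono ?_))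
  · have := min_le_left ε (1 / 4)
    linarith
  · intro s' hs' t ht
    have hs'' := hs' t ht
    by_cases hz : 0 ≤ zh u s' t
    · have hlt : (zh u s' t).toNat < N := by omega
      have h1 := hclose _ hlt
      have h10 : A2 * wd N ≤ |A2| * wd N := by
        gcongr
        exact le_abs_self _
      calc |(pos 0 s' t i : ℝ) - θ * ((zh u s' t).toNat : ℝ)|
          = |((pos 0 s' t i : ℝ) - v (zh u s' t).toNat) +
            (v (zh u s' t).toNat - θ * ((zh u s' t).toNat : ℝ))| := by congr 1; ring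
        _ ≤ _ := abs_add_le _ _
        _ ≤ A2 * wd N + (|A2| * wd N + (1 + C) * (A1 * |q|) * wd N) := add_le_add hs'' h1
        _ ≤ _ := by linarith
    · have h0 : (zh u s' t).toNat = 0 := by omega
      have h1 := hclose 0 (by omega)
      rw [h0] at hs'' ⊢
      have h10 : A2 * wd N ≤ |A2| * wd N := by
        gcongr
        exact le_abs_self _
      calc |(pos 0 s' t i : ℝ) - θ * ((0 : ℕ) : ℝ)|
          = |((pos 0 s' t i : ℝ) - v 0) + (v 0 - θ * ((0 : ℕ) : ℝ))| := by congr 1; ring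
        _ ≤ _ := abs_add_le _ _
        _ ≤ A2 * wd N + (|A2| * wd N + (1 + C) * (A1 * |q|) * wd N) := add_le_add hs'' h1
        _ ≤ _ := by linarith

end Crest.Agent.R154.TubeLin4
end

-- ▼ part R154/TubeKol_4
section

/-!
Row 154, d = 2 (D2.5, helper4).  From 738's NDA: the hypothesis of 504's tube holds with the radius
`A * wd N`, any error `η`.
-/

set_option autoImplicit false

namespace Crest.Agent.R154.TubeLin4

open MeasureTheory ProbabilityTheory Filter Set
open Crest.Agent.R154.Hair738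
open scoped ENNReal Topology

variable {Ω : Type*} [MeasurableSpace Ω] {P : Measure Ω} [IsProbabilityMeasure P] {V B : Ω → ℝ}

/-- truncated second moment at radius `r ≥ w` -/
lemma int_min_le (hV : Measurable V) (hB : Measurable B) (hVB : ∀ ω, |V ω| ≤ B ω) {r w : ℝ}
    (hr : 0 < r) :
    ∫ ω, min ((V ω / r) ^ 2) 1 ∂P ≤ U P V B w / r ^ 2 + T P B w := by
  have hms : MeasurableSet {ω | B ω ≤ w} := measurableSet_le hB measurable_const
  have hmc : MeasurableSet {ω | w < B ω} := measurableSet_lt measurable_const hB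
  have hi1 : Integrable (fun ω => {ω | B ω ≤ w}.indicator (fun ω => (V ω) ^ 2) ω / r ^ 2) P :=
    ((integrable_indicator_iff hms).2 (intOn hV hB hVB w)).div_const _
  have hi2 : Integrable ({ω | w < B ω}.indicator (fun _ => (1 : ℝ))) P :=
    (integrable_const 1).indicator hmc
  have hi0 : Integrable (fun ω => min ((V ω / r) ^ 2) 1) P := by
    refine Integrable.of_bound (((hV.div_const r).pow_const 2).min measurable_const).aestronglyMeasurable
      1 (Eventually.of_forall fun ω => ?_)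
    rw [Real.norm_eq_abs, abs_of_nonneg (le_min (sq_nonneg _) zero_le_one)]
    exact min_le_right _ _
  calc ∫ ω, min ((V ω / r) ^ 2) 1 ∂P
      ≤ ∫ ω, ({ω | B ω ≤ w}.indicator (fun ω => (V ω) ^ 2) ω / r ^ 2 +
          {ω | w < B ω}.indicator (fun _ => (1 : ℝ)) ω) ∂P := by
        refine integral_mono hi0 (hi1.add hi2) fun ω => ?_
        by_cases h : B ω ≤ w
        · have h1 : ω ∈ {ω | B ω ≤ w} := h
          have h2 : ω ∉ {ω | w < B ω} := not_lt.2 h
          simp only [indicator_of_mem h1, indicator_of_notMem h2, add_zero]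
          rw [← div_pow]
          exact min_le_left _ _
        · have h1 : ω ∉ {ω | B ω ≤ w} := h
          have h2 : ω ∈ {ω | w < B ω} := not_le.1 h
          simp only [indicator_of_notMem h1, indicator_of_mem h2, zero_div, zero_add]
          exact min_le_right _ _
    _ = _ := by
        rw [integral_add hi1 hi2, integral_div, integral_indicator hms, integral_indicator hmc,
          setIntegral_const, smul_eq_mul, mul_one]
        rfl

/-- **the hypothesis of the tube at radius `A * wd N`** -/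
theorem small_kol (hV : Measurable V) (hB : Measurable B) (hVB : ∀ ω, |V ω| ≤ B ω)
    (hne : P {ω | V ω ≠ 0} ≠ 0) (hN : NDA (T P B) (U P V B)) {η : ℝ} (hη : 0 < η) :
    ∃ A : ℕ, 1 ≤ A ∧ ∀ᶠ N : ℕ in atTop,
      2 * ((N : ℝ) * ∫ ω, min ((V ω / ((A * wd P V B N : ℕ) : ℝ)) ^ 2) 1 ∂P)
        + N * P.real {ω | ((A * wd P V B N : ℕ) : ℝ) < B ω} ≤ η := by
  have H := core (P := P) hV hB hVB hne
  obtain ⟨A, hA⟩ := exists_nat_ge (1 / η + 1)
  have hA1' : (1 : ℝ) ≤ A := by
    have : 0 < 1 / η := by positivity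
    linarith
  have hA1 : 1 ≤ A := by exact_mod_cast hA1'
  have hAη : 1 / η ≤ A := by linarith
  have hAη' : 1 / (A : ℝ) ≤ η := by
    rw [div_le_iff₀ (by positivity)] at hAη ⊢
    linarith
  refine ⟨A, hA1, ?_⟩
  have h1 := (hN.hair H 1 one_pos).eventually (gt_mem_nhds (show (0:ℝ) < η / 6 by positivity))
  filter_upwards [h1] with N hN1
  simp only [one_mul] at hN1
  set w : ℕ := wd P V B N with hw
  have hwC : wdC (T P B) (U P V B) N = w := rfl
  rw [hwC] at hN1
  obtain ⟨hs1, hs2, hs3⟩ := H.wd_spec N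
  rw [hwC] at hs1 hs2 hs3
  have hw1 : (1 : ℝ) ≤ w := by exact_mod_cast hs1
  have hr : (0 : ℝ) < ((A * w : ℕ) : ℝ) := by push_cast; positivity
  have h2 := int_min_le (P := P) hV hB hVB (w := (w : ℝ)) hr
  have h3 : P.real {ω | ((A * w : ℕ) : ℝ) < B ω} ≤ T P B w := by
    refine measureReal_mono fun ω hω => lt_of_le_of_lt ?_ (show ((A * w : ℕ) : ℝ) < B ω from hω)
    push_cast
    nlinarith
  have hN0 : (0 : ℝ) ≤ N := by positivity
  have h4 : (N : ℝ) * (U P V B w / ((A * w : ℕ) : ℝ) ^ 2) ≤ η / 64 := by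
    have h5 : (N : ℝ) * (U P V B w / ((A * w : ℕ) : ℝ) ^ 2) ≤ (w : ℝ) ^ 2 / 64 / ((A * w : ℕ) : ℝ) ^ 2 := by
      rw [← mul_div_assoc]
      gcongr
    refine h5.trans ?_
    push_cast
    have e : (w : ℝ) ^ 2 / 64 / ((A : ℝ) * w) ^ 2 = (1 / (A : ℝ)) * (1 / A) / 64 := by
      field_simp
    rw [e]
    have h6 : (1 / (A : ℝ)) * (1 / A) ≤ η * 1 := by
      have : 1 / (A : ℝ) ≤ 1 := by
        rw [div_le_one (by positivity)]; exact hA1'
      gcongr
    linarith
  calc 2 * ((N : ℝ) * ∫ ω, min ((V ω / ((A * w : ℕ) : ℝ)) ^ 2) 1 ∂P)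
        + N * P.real {ω | ((A * w : ℕ) : ℝ) < B ω}
      ≤ 2 * ((N : ℝ) * (U P V B w / ((A * w : ℕ) : ℝ) ^ 2 + T P B w)) + N * T P B w := by
        gcongr
    _ = 2 * ((N : ℝ) * (U P V B w / ((A * w : ℕ) : ℝ) ^ 2)) + 3 * (N * T P B w) := by ring
    _ ≤ _ := by linarith

end Crest.Agent.R154.TubeLin4
end

-- ▼ part R154/TubeObj_504
section

/-!
# Row 154, d = 2: the tube on the walk

`close_path` : pathwise, all same-level differences of two natural walkers below level `n` are
`≤ 2 r` if the partial sums of `Vj` and the deviations `Bj` of the joint blocks are `≤ r`.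
`close_prob` : probability under the product of two natural laws.
`tube_nat`   : a deterministic tube for one natural walker (Fubini).
`tube_ann`   : the annealed (unmarked) probability of climbing inside the tube.
-/

set_option autoImplicit false
set_option linter.unusedSectionVars false
set_option linter.deprecated false

namespace Crest.Agent.R154.Tube504

open MeasureTheory ProbabilityTheory Filter Set Crest.ProbabilityR.RandomEnvironment
open Crest.Agent.R154.Mk561 Crest.Agent.R154.Bind263 Crest.Agent.R154.B4Inst797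
open Crest.Agent.R154.Ren263 (Word Stay)
open Crest.Agent.R154.RenG263 (blks RegInf measurable_blks)
open Crest.Agent.R154.J132
open Crest.Agent.R154.KB424 (NS)
open scoped ENNReal

variable {d : ℕ} {u : Step d} {κ : ℝ} {R : ℕ} {Q : Measure (Environment d)}
  [IsProbabilityMeasure Q]

lemma jw_jr {π : MPath d × MPath d} (hπ : π ∈ JG u κ R) (k : ℕ) :
    jw u κ R k (jr u κ R π) = jw u κ R (k + 1) π := by
  unfold jw wdk
  rw [bp_jr hπ, Function.iterate_succ_apply]

lemma phi_split (φ : Site d →+ ℝ) (M : MPath d) (n k : ℕ) :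
    φ (pos 0 M (n + k)) = φ (pos 0 M n) + φ (pos 0 (Ren263.shift n M) k) := by
  have h1 : pos (pos 0 M n) (Ren263.shift n M) k = pos 0 M (n + k) := pos_shift (0 : Site d) M n k
  have h2 : pos (0 + pos 0 M n) (Ren263.shift n M) k
      = pos 0 (Ren263.shift n M) k + pos 0 M n := pos_add (0 : Site d) (pos 0 M n) _ k
  rw [zero_add] at h2
  have h3 : pos 0 M (n + k) = pos 0 (Ren263.shift n M) k + pos 0 M n := by
    rw [← h1, h2]
  rw [h3, map_add, add_comm]

/-- **pathwise closeness** -/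
theorem close_path (φ : Site d →+ ℝ) (n : ℕ) : ∀ {π : MPath d × MPath d}, π ∈ JG u κ R →
    ∀ {c r : ℝ}, (∀ k < n, Bj u φ (jw u κ R k π) ≤ r) →
    (∀ k ≤ n, |c + ∑ i ∈ Finset.range k, Vj φ (jw u κ R i π)| ≤ r) →
    ∀ t t', zh u π.1 t = zh u π.2 t' → zh u π.1 t < n →
      |c + (φ (pos 0 π.1 t) - φ (pos 0 π.2 t'))| ≤ 2 * r := by
  induction n with
  | zero =>
    intro π hπ c r _ _ t t' _ hlt
    have h0 : 0 ≤ zh u π.1 t := stay_zh.1 hπ.1.1 t
    push_cast at hlt
    omega
  | succ n ih =>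
    intro π hπ c r hB hW t t' he hlt
    obtain ⟨g1, g2, g3, g4, g5⟩ := first_block hπ
    by_cases h1 : t ≤ (J1 u κ R π).1 ∧ t' ≤ (J1 u κ R π).2
    · have a1 := first_B hπ φ h1.1 h1.2 he
      have a2 := hB 0 (Nat.succ_pos n)
      have a3 := hW 0 (Nat.zero_le _)
      simp only [Finset.range_zero, Finset.sum_empty, add_zero] at a3
      calc _ ≤ |c| + |φ (pos 0 π.1 t) - φ (pos 0 π.2 t')| := abs_add_le _ _
        _ ≤ r + r := add_le_add a3 (a1.trans a2)
        _ = _ := by ring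
    · have h2 : (J1 u κ R π).1 ≤ t ∧ (J1 u κ R π).2 ≤ t' := by
        rw [not_and_or, not_le, not_le] at h1
        rcases h1 with h1 | h1
        · refine ⟨h1.le, ?_⟩
          by_contra hc
          push Not at hc
          have b1 := g3 t h1.le
          have b2 := g2.2 t' hc
          rw [← he] at b2
          exact absurd b1 (not_le.2 b2)
        · refine ⟨?_, h1.le⟩
          by_contra hc
          push Not at hc
          have b1 := g4 t' h1.le
          have b2 := g1.2 t hc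
          rw [he] at b2
          exact absurd b1 (not_le.2 b2)
      obtain ⟨s, rfl⟩ := Nat.exists_eq_add_of_le h2.1
      obtain ⟨s', rfl⟩ := Nat.exists_eq_add_of_le h2.2
      have e1 := zh_add u π.1 (J1 u κ R π).1 s
      have e2 := zh_add u π.2 (J1 u κ R π).2 s'
      rw [g1.1] at e1
      rw [g2.1] at e2
      have hg5 : (1 : ℤ) ≤ (Rj u (jw u κ R 0 π) : ℤ) := by exact_mod_cast g5
      have f1 : zh u (jr u κ R π).1 s = zh u (Ren263.shift (J1 u κ R π).1 π.1) s := rfl
      have f2 : zh u (jr u κ R π).2 s' = zh u (Ren263.shift (J1 u κ R π).2 π.2) s' := rfl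
      rw [← f1] at e1
      rw [← f2] at e2
      have f3 : zh u (jr u κ R π).1 s = zh u (jr u κ R π).2 s' := by
        rw [e1, e2] at he
        exact add_left_cancel he
      have f4 : zh u (jr u κ R π).1 s < n := by
        rw [e1] at hlt
        push_cast at hlt
        linarith
      have key := ih (π := jr u κ R π) (jr_mem hπ) (c := c + Vj φ (jw u κ R 0 π)) (r := r)
        (fun k hk => by rw [jw_jr hπ]; exact hB (k + 1) (by omega))
        (fun k hk => by
          have := hW (k + 1) (by omega)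
          rw [Finset.sum_range_succ'] at this
          have e : ∀ i ∈ Finset.range k, Vj φ (jw u κ R i (jr u κ R π))
              = Vj φ (jw u κ R (i + 1) π) := fun i _ => by rw [jw_jr hπ]
          rw [Finset.sum_congr rfl e]
          convert this using 2
          ring)
        s s' f3 f4
      rw [phi_split, phi_split]
      rw [first_V hπ φ] at key
      convert key using 2
      simp only [jr]
      ring

/-! ### measurability -/

lemma measurable_zh (n : ℕ) : Measurable fun s : MPath d => zh u s n := by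
  unfold zh
  exact Finset.measurable_sum _ fun i _ => (measurable_of_countable (zht u)).comp
    (measurable_pi_apply i)

lemma measurable_phi (φ : Site d →+ ℝ) (n : ℕ) : Measurable fun s : MPath d => φ (pos 0 s n) :=
  (measurable_of_countable φ).comp (B4Inst797.measurable_pos 0 n)

/-- some same-level difference below level `n` exceeds `ρ` -/
def Far (u : Step d) (φ : Site d →+ ℝ) (n : ℕ) (ρ : ℝ) : Set (MPath d × MPath d) :=
  {π | ∃ t t', zh u π.1 t = zh u π.2 t' ∧ zh u π.1 t < n ∧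
    ρ < |φ (pos 0 π.1 t) - φ (pos 0 π.2 t')|}

lemma measurableSet_Far (φ : Site d →+ ℝ) (n : ℕ) (ρ : ℝ) : MeasurableSet (Far u φ n ρ) := by
  have e : Far u φ n ρ = ⋃ t : ℕ, ⋃ t' : ℕ, {π : MPath d × MPath d |
      zh u π.1 t = zh u π.2 t' ∧ zh u π.1 t < n ∧
        ρ < |φ (pos 0 π.1 t) - φ (pos 0 π.2 t')|} := by
    ext π; simp [Far]
  rw [e]
  refine MeasurableSet.iUnion fun t => MeasurableSet.iUnion fun t' => ?_
  have m1 : Measurable fun π : MPath d × MPath d => zh u π.1 t :=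
    (measurable_zh t).comp measurable_fst
  have m2 : Measurable fun π : MPath d × MPath d => zh u π.2 t' :=
    (measurable_zh t').comp measurable_snd
  have m3 : Measurable fun π : MPath d × MPath d => φ (pos 0 π.1 t) - φ (pos 0 π.2 t') :=
    ((measurable_phi φ t).comp measurable_fst).sub ((measurable_phi φ t').comp measurable_snd)
  exact (measurableSet_eq_fun m1 m2).inter ((measurableSet_lt m1 measurable_const).inter
    (measurableSet_lt measurable_const m3.abs))

/-! ### probability -/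

/-- truncated second moment of the increment of the difference in a joint block -/
noncomputable def trV (Q : Measure (Environment d)) (κ : ℝ) (R : ℕ) (u : Step d)
    (φ : Site d →+ ℝ) (r : ℝ) : ℝ :=
  ∫ p, min ((Vj φ (wd (Yw u) p) / r) ^ 2) 1 ∂(pairL (muW Q κ R u))

/-- tail of the deviation in a joint block -/
noncomputable def tlB (Q : Measure (Environment d)) (κ : ℝ) (R : ℕ) (u : Step d)
    (φ : Site d →+ ℝ) (r : ℝ) : ℝ :=
  (pairL (muW Q κ R u)).real {p | r < Bj u φ (wd (Yw u) p)}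

theorem good_W (F : Frame Q κ R) (hA : annealedProb Q 0 (escapeEvent (B2d.dirVec u)) ≠ 0) :
    pairL (muW Q κ R u) (Good (Yw u))ᶜ = 0 := by
  have := probW F hA
  have hs := sum_noCut_ne_top F hA
  refine good_ae _ (one_le_Yw u) ?_
  have h1 := ENNReal.tendsto_sum_nat_add (fun m => pairL (muW Q κ R u) (NoCut (Yw u) m)) hs
  refine tendsto_of_tendsto_of_tendsto_of_le_of_le tendsto_const_nhds h1 (fun _ => zero_le)
    fun m => ?_
  have := ENNReal.le_tsum (f := fun k => pairL (muW Q κ R u) (NoCut (Yw u) (k + m))) 0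
  simp only [zero_add] at this
  exact this

theorem close_prob (F : Frame Q κ R)
    (hA : annealedProb Q 0 (escapeEvent (B2d.dirVec u)) ≠ 0) (φ : Site d →+ ℝ) {r : ℝ}
    (hr : 0 < r) (n : ℕ) {η : ℝ} (hη : 2 * (n * trV Q κ R u φ r) + n * tlB Q κ R u φ r ≤ η) :
    ((stL Q κ u).prod (stL Q κ u)) (Far u φ n (2 * r)) ≤ ENNReal.ofReal η := by
  have := probW F hA
  have hp : mkAnn κ Q 0 (Stay (mht (B2d.dirVec u))) ≠ 0 := F.hp _ hA
  have hst : IsProbabilityMeasure (stL Q κ u) := cond_isProbabilityMeasure hp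
  have hY := one_le_Yw u
  have hg := good_W F hA
  set μ := muW Q κ R u with hμ
  set V : ℕ → ((ℕ → Word (Mark d)) × (ℕ → Word (Mark d))) → ℝ :=
    fun k p => Vj φ (wdk (Yw u) k p) with hV
  set B : ℕ → ((ℕ → Word (Mark d)) × (ℕ → Word (Mark d))) → ℝ :=
    fun k p => Bj u φ (wdk (Yw u) k p) with hB
  have hVm : ∀ k, Measurable (V k) := measurable_wdk (Vj φ) hY
  have hBm : ∀ k, Measurable (B k) := measurable_wdk (Bj u φ) hY
  have hind : iIndepFun V (pairL μ) := indep_wdk (Vj φ) μ hY hg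
  set ν : Measure ℝ := (pairL μ).map (fun p => Vj φ (wd (Yw u) p)) with hν
  have hlaw : ∀ k, (pairL μ).map (V k) = ν := law_wdk (Vj φ) μ hY hg
  have hwdm : Measurable fun p => Vj φ (wd (Yw u) p) := measurable_wd (Vj φ) hY
  have hsym : ν.map (fun x => -x) = ν := by
    have h1 := swap_wd (Vj φ) μ hY hg
    rw [hν, Measure.map_map measurable_neg hwdm, ← h1]
    congr 1
    funext p
    simp only [Function.comp_apply, Vj_swap]
  have hint : ∫ x, min ((x / r) ^ 2) 1 ∂ν = trV Q κ R u φ r := by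
    rw [hν, integral_map hwdm.aemeasurable (by fun_prop)]
    rfl
  have hBk : ∀ k, (pairL μ).real {p | r < B k p} ≤ tlB Q κ R u φ r := by
    intro k
    have h1 := law_wdk (Bj u φ) μ hY hg k
    have h2 : Measurable fun p => Bj u φ (wd (Yw u) p) := measurable_wd (Bj u φ) hY
    have h3 := congrArg (fun m : Measure ℝ => m {x | r < x}) h1
    have hm : MeasurableSet {x : ℝ | r < x} := measurableSet_Ioi
    simp only [Measure.map_apply (measurable_wdk (Bj u φ) hY k) hm, Measure.map_apply h2 hm] at h3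
    refine le_of_eq ?_
    unfold tlB Measure.real
    exact congrArg ENNReal.toReal h3
  have hk := kol hVm hind hlaw hsym hr hBk n
  rw [hint] at hk
  set C : Set ((ℕ → Word (Mark d)) × (ℕ → Word (Mark d))) :=
    ({p | ∃ j ≤ n, r < |∑ i ∈ Finset.range j, V i p|} ∪ {p | ∃ k < n, r < B k p})
      ∪ (AllGood (Yw u))ᶜ with hC
  have hCm : MeasurableSet C := by
    refine (MeasurableSet.union ?_ ?_).union ?_
    · have e : {p | ∃ j ≤ n, r < |∑ i ∈ Finset.range j, V i p|}
          = ⋃ j : ℕ, ⋃ _ : j ≤ n, {p | r < |∑ i ∈ Finset.range j, V i p|} := by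
        ext p; simp
      rw [e]
      exact MeasurableSet.iUnion fun j => MeasurableSet.iUnion fun _ =>
        measurableSet_lt measurable_const (Finset.measurable_sum _ fun i _ => hVm i).abs
    · have e : {p | ∃ k < n, r < B k p} = ⋃ k : ℕ, ⋃ _ : k < n, {p | r < B k p} := by
        ext p; simp
      rw [e]
      exact MeasurableSet.iUnion fun k => MeasurableSet.iUnion fun _ =>
        measurableSet_lt measurable_const (hBm k)
    · have e : AllGood (Yw u) = ⋂ k : ℕ, (J132.rest (Yw u))^[k] ⁻¹' (Good (Yw u)) := by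
        ext p; simp [AllGood]
      rw [e]
      exact (MeasurableSet.iInter fun k =>
        ((measurable_rest hY).iterate k) (measurableSet_good _)).compl
  have hCv : pairL μ C ≤ ENNReal.ofReal η := by
    have h1 : (pairL μ).real C ≤ η := by
      have hgood : (pairL μ).real (AllGood (Yw u))ᶜ = 0 := by
        unfold Measure.real
        rw [allGood_ae μ hY hg]; rfl
      refine (measureReal_union_le _ _).trans ?_
      rw [hgood, add_zero]
      exact hk.trans hη
    rw [← ENNReal.ofReal_toReal (measure_ne_top (pairL μ) C)]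
    exact ENNReal.ofReal_le_ofReal h1
  have hm : Measurable (blks (rhoU u κ R)) := measurable_blks _
  calc ((stL Q κ u).prod (stL Q κ u)) (Far u φ n (2 * r))
      ≤ ((stL Q κ u).prod (stL Q κ u))
        (Prod.map (blks (rhoU u κ R)) (blks (rhoU u κ R)) ⁻¹' C) := by
        refine measure_mono_ae ?_
        have h1 := Measure.quasiMeasurePreserving_fst (μ := stL Q κ u) (ν := stL Q κ u)
          |>.ae (ae_regInfU F hA)
        have h2 := Measure.quasiMeasurePreserving_snd (μ := stL Q κ u) (ν := stL Q κ u)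
          |>.ae (ae_regInfU F hA)
        filter_upwards [h1, h2] with π hp1 hp2 hpB
        by_contra hnC
        have hnC' : bp u κ R π ∉ C := hnC
        simp only [hC, mem_union, mem_ofPred_eq, mem_compl_iff, not_or, not_exists, not_and,
          not_lt, not_not] at hnC'
        obtain ⟨⟨c1, c2⟩, c3⟩ := hnC'
        have hJG : π ∈ JG u κ R := ⟨hp1, hp2, c3⟩
        obtain ⟨t, t', e1, e2, e3⟩ := hpB
        have key := close_path φ n hJG (c := 0) (r := r) (fun k hk => c2 k hk)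
          (fun k hk => by rw [zero_add]; exact c1 k hk) t t' e1 e2
        rw [zero_add] at key
        linarith
    _ = pairL μ C := by
        rw [pairL, hμ, ← map_blksU F hA, Measure.map_prod_map _ _ hm hm,
          Measure.map_apply (hm.prodMap hm) hCm]
    _ ≤ _ := hCv

/-- **TUBE for one natural walker** -/
theorem tube_nat (F : Frame Q κ R)
    (hA : annealedProb Q 0 (escapeEvent (B2d.dirVec u)) ≠ 0) (φ : Site d →+ ℝ) {r : ℝ}
    (hr : 0 < r) (n : ℕ) {η : ℝ} (hη : 2 * (n * trV Q κ R u φ r) + n * tlB Q κ R u φ r ≤ η) :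
    ∃ y : ℕ → Site d, y 0 = 0 ∧ (∀ l, Flux132.lev u (y l) = l) ∧
      stL Q κ u {s | ∃ t, zh u s t < n ∧
        2 * r < |φ (pos 0 s t) - φ (y (zh u s t).toNat)|} ≤ ENNReal.ofReal η := by
  have hp : mkAnn κ Q 0 (Stay (mht (B2d.dirVec u))) ≠ 0 := F.hp _ hA
  have hst : IsProbabilityMeasure (stL Q κ u) := cond_isProbabilityMeasure hp
  have hm := measurableSet_Far (u := u) φ n (2 * r)
  have h1 := close_prob F hA φ hr n hη
  rw [Measure.prod_apply_symm hm] at h1
  have hN : stL Q κ u (RegInf (rhoU u κ R))ᶜ = 0 := ae_regInfU F hA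
  obtain ⟨s', hs', h2⟩ := exists_notMem_null_le_lintegral
    (μ := stL Q κ u) (f := fun s' => stL Q κ u ((fun s => (s, s')) ⁻¹' Far u φ n (2 * r)))
    (measurable_measure_prodMk_right hm).aemeasurable hN
  rw [mem_compl_iff, not_not] at hs'
  choose T hT using exists_hit_regInf hs'
  refine ⟨fun l => pos 0 s' (T l), ?_, fun l => ?_, ?_⟩
  · have : T 0 = 0 := hit_unique (hT 0) (hit_zero u s')
    show pos 0 s' (T 0) = 0
    rw [this]; exact pos_zero _ _
  · have h3 := B6I.lev_pos (u := u) (0 : Site d) s' (T l)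
    have h4 : Flux132.lev u (0 : Site d) = 0 := by simp [Flux132.lev]
    rw [h4, zero_add, zt_eq] at h3
    rw [h3]; exact (hT l).1
  · refine (measure_mono_ae ?_).trans (h2.trans h1)
    have hae := ae_regInfU F hA
    filter_upwards [hae] with s hs hbad
    obtain ⟨t, ht1, ht2⟩ := hbad
    refine ⟨t, T (zh u s t).toNat, ?_, ht1, ht2⟩
    have h0 : 0 ≤ zh u s t := stay_zh.1 hs.1 t
    have h3 := (hT (zh u s t).toNat).1
    change zh u s t = zh u s' _
    rw [h3]
    omega

/-! ### annealed, unmarked -/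

/-- the lateral coordinate as a real functional -/
noncomputable def latR (i : Fin d) : Site d →+ ℝ :=
  (Int.castAddHom ℝ).comp (Pi.evalAddMonoidHom (fun _ => ℤ) i)







end Crest.Agent.R154.Tube504
end

-- ▼ part R154/Theta_4
section

/-!
Row 154, d = 2 (D2.5, helper4).  **THETA**: from NDA of the joint blocks (24), the Kolmogorov tubes
(504) and `tube_lin`: there is ONE real slope `θ` such that at every scale `N` the natural walk stays
within `A_ε * wdJ N` of the line `θ * level` up to probability `ε`.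
-/

set_option autoImplicit false
set_option linter.unusedSectionVars false
set_option linter.deprecated false

namespace Crest.Agent.R154.TubeLin4

open MeasureTheory ProbabilityTheory Filter Set Crest.ProbabilityR.RandomEnvironment
open Crest.Agent.R154.Mk561 Crest.Agent.R154.Bind263 Crest.Agent.R154.B4Inst797
open Crest.Agent.R154.J132 Crest.Agent.R154.J6_24 Crest.Agent.R154.NDAObj24
open Crest.Agent.R154.Hair738 (T U Core NDA)
open Crest.Agent.R154.Ren263 (Word Stay)
open Crest.Agent.R154.Flux132 (lev)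
open scoped ENNReal Topology

/-! ### almost sure version of `small_kol` -/

section ae
variable {Ω : Type*} [MeasurableSpace Ω] {P : Measure Ω} [IsProbabilityMeasure P] {V B : Ω → ℝ}

theorem small_kol_ae (hV : Measurable V) (hB : Measurable B) (h : ∀ᵐ ω ∂P, |V ω| ≤ B ω)
    (hne : P {ω | V ω ≠ 0} ≠ 0) (hN : NDA (T P B) (U P V B)) {η : ℝ} (hη : 0 < η) :
    ∃ A : ℕ, 1 ≤ A ∧ ∀ᶠ N : ℕ in atTop,
      2 * ((N : ℝ) * ∫ ω, min ((V ω / ((A * Hair738.wd P V B N : ℕ) : ℝ)) ^ 2) 1 ∂P)
        + N * P.real {ω | ((A * Hair738.wd P V B N : ℕ) : ℝ) < B ω} ≤ η := by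
  have eT := T_congr (Bh_ae h)
  have eU := U_congr hB (hB.max measurable_const) (Vh_ae h) (Bh_ae h)
  have ew : ∀ k, Hair738.wd P V B k = Hair738.wd P (Vh V B) (fun ω => max (B ω) 0) k := by
    intro k
    change Hair738.wdC (T P B) (U P V B) k = Hair738.wdC (T P _) (U P _ _) k
    rw [eT, eU]
  rw [eT, eU] at hN
  obtain ⟨A, hA, hev⟩ := small_kol (P := P) (measurable_Vh hV hB) (hB.max measurable_const) Vh_le
    (ne_ae h hne) hN hη
  refine ⟨A, hA, ?_⟩
  filter_upwards [hev] with N hN'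
  rw [ew N]
  refine le_trans (le_of_eq ?_) hN'
  have e1 : ∫ ω, min ((V ω / ((A * Hair738.wd P (Vh V B) (fun ω => max (B ω) 0) N : ℕ) : ℝ)) ^ 2) 1 ∂P
      = ∫ ω, min ((Vh V B ω / ((A * Hair738.wd P (Vh V B) (fun ω => max (B ω) 0) N : ℕ) : ℝ)) ^ 2) 1
        ∂P := by
    refine integral_congr_ae ?_
    filter_upwards [Vh_ae h] with ω hω
    rw [← hω]
  have e2 : P.real {ω | ((A * Hair738.wd P (Vh V B) (fun ω => max (B ω) 0) N : ℕ) : ℝ) < B ω}
      = P.real {ω | ((A * Hair738.wd P (Vh V B) (fun ω => max (B ω) 0) N : ℕ) : ℝ) < max (B ω) 0} := by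
    refine measureReal_congr ?_
    filter_upwards [Bh_ae h] with ω hω
    refine propext ?_
    change _ < B ω ↔ _ < max (B ω) 0
    rw [← hω]
  rw [e1, e2]

end ae

variable {d : ℕ} {u : Step d} {κ : ℝ} {R : ℕ} {Q : Measure (Environment d)}
  [IsProbabilityMeasure Q]

/-! ### the two laws of the natural walk -/

lemma nat0_eq (u : Step d) : Nat0 u 0 = Stay (mht (B2d.dirVec u)) := by
  ext s
  rw [stay_zh]
  constructor
  · intro h n
    exact_mod_cast h.2 n (Nat.zero_le _)
  · intro h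
    exact ⟨fun i hi => absurd hi (Nat.not_lt_zero _), fun n _ => by exact_mod_cast h n⟩

lemma natLaw_eq (Q : Measure (Environment d)) (κ : ℝ) (u : Step d) :
    natLaw κ Q u 0 = stL Q κ u := by
  unfold natLaw stL
  rw [nat0_eq]

lemma nat0_ne (F : Frame Q κ R) (hA : annealedProb Q 0 (escapeEvent (B2d.dirVec u)) ≠ 0) :
    mkAnn κ Q 0 (Nat0 u 0) ≠ 0 := by
  rw [nat0_eq]; exact F.hp _ hA

/-! ### THETA -/

/-- **ONE REAL SLOPE** -/
theorem theta_tube (F : Frame Q κ 0) (hA : annealedProb Q 0 (escapeEvent (B2d.dirVec u)) ≠ 0)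
    {i : Fin d} (hi : i ≠ u.1)
    (hN : NDA (T (triL Q κ 0 u (phi i)) Bt) (U (triL Q κ 0 u (phi i)) Vt Bt)) :
    ∃ θ : ℝ, ∀ ε : ℝ, 0 < ε → ∃ (A : ℝ) (N1 : ℕ), ∀ N, N1 ≤ N →
      1 - ε ≤ (stL Q κ u).real (TubeE u i N (A * wdJ Q κ 0 u i N) fun l => θ * l) := by
  have hprob := probTri F hA (phi i)
  have hW := probW F hA
  have H := core_tri F hA hi
  have hc := nat0_ne F hA
  have hst : IsProbabilityMeasure (stL Q κ u) := cond_isProbabilityMeasure (F.hp _ hA)
  rw [← natLaw_eq]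
  -- growth of the width
  obtain ⟨N0, hN0⟩ := eventually_atTop.1 (hN.wd_upper H 16 (by norm_num))
  have hreg : ∀ N, N0 ≤ N → (wdJ Q κ 0 u i (16 * N) : ℝ) ≤ 12 * wdJ Q κ 0 u i N := by
    intro N hN'
    have h1 := hN0 N hN'
    have h2 : Real.sqrt ((16 : ℕ) : ℝ) = 4 := by
      rw [show (((16 : ℕ) : ℝ)) = 4 ^ 2 by norm_num, Real.sqrt_sq (by norm_num)]
    rw [h2] at h1
    calc (wdJ Q κ 0 u i (16 * N) : ℝ) ≤ 3 * (4 * wdJ Q κ 0 u i N) := h1
      _ = _ := by ring
  refine tube_lin F hc i (wdJ Q κ 0 u i) (one_le_wdJ F hA hi) (fun a b hab => H.wd_mono hab)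
    (s := 16) (by norm_num) (q := 12) (by norm_num) (N0 := N0) hreg ?_
  intro ε hε
  obtain ⟨A, hA1, hev⟩ := small_kol_ae (P := triL Q κ 0 u (phi i)) (V := Vt) (B := Bt)
    measurable_fst (measurable_fst.comp measurable_snd)
    ((tri_le F hA (phi i)).mono fun t h => h.1) (tri_ne F hA hi (phi_step i)) hN hε
  obtain ⟨N1, hN1⟩ := eventually_atTop.1 hev
  refine ⟨2 * A, N1, fun N hNN => ?_⟩
  set w := wdJ Q κ 0 u i N with hw
  have hw1 : 1 ≤ w := one_le_wdJ F hA hi N
  have hr : (0 : ℝ) < ((A * w : ℕ) : ℝ) := by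
    have : 0 < A * w := Nat.mul_pos hA1 hw1
    exact_mod_cast this
  have h1 := hN1 N hNN
  -- change of law
  have hmt := measurable_wd (tri u (phi i)) (one_le_Yw u)
  have e1 : ∫ t, min ((Vt t / ((A * w : ℕ) : ℝ)) ^ 2) 1 ∂(triL Q κ 0 u (phi i))
      = Tube504.trV Q κ 0 u (phi i) ((A * w : ℕ) : ℝ) := by
    unfold triL jlawOf Tube504.trV
    rw [integral_map hmt.aemeasurable (by fun_prop)]
    rfl
  have e2 : (triL Q κ 0 u (phi i)).real {t | ((A * w : ℕ) : ℝ) < Bt t}
      = Tube504.tlB Q κ 0 u (phi i) ((A * w : ℕ) : ℝ) := by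
    unfold triL jlawOf Tube504.tlB
    have hSm : MeasurableSet {t : ℝ × ℝ × ℕ | ((A * w : ℕ) : ℝ) < Bt t} :=
      measurableSet_lt measurable_const (measurable_fst.comp measurable_snd)
    rw [measureReal_def, Measure.map_apply hmt hSm, ← measureReal_def]
    rfl
  rw [e1, e2] at h1
  obtain ⟨y, -, -, hy⟩ := Tube504.tube_nat F hA (phi i) hr N h1
  refine ⟨fun l => phi i (y l), ?_⟩
  rw [natLaw_eq]
  set S : Set (MPath d) := TubeE u i N (2 * (A : ℝ) * w) fun l => phi i (y l) with hS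
  have hcov : (univ : Set (MPath d)) ⊆ S ∪ {s | ∃ t, zh u s t < N ∧
      2 * ((A * w : ℕ) : ℝ) < |phi i (pos 0 s t) - phi i (y (zh u s t).toNat)|} := by
    intro s _
    by_cases h : s ∈ S
    · exact Or.inl h
    · right
      simp only [hS, TubeE, mem_setOf_eq, not_forall, not_le] at h
      obtain ⟨t, ht, h2⟩ := h
      refine ⟨t, ht, ?_⟩
      rw [phi_apply, phi_apply]
      rw [phi_apply] at h2
      push_cast
      linarith
  have h2 := (measureReal_mono (μ := stL Q κ u) hcov).trans (measureReal_union_le _ _)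
  rw [probReal_univ] at h2
  have h3 : (stL Q κ u).real {s | ∃ t, zh u s t < N ∧
      2 * ((A * w : ℕ) : ℝ) < |phi i (pos 0 s t) - phi i (y (zh u s t).toNat)|} ≤ ε := by
    rw [measureReal_def]
    refine (ENNReal.toReal_mono ENNReal.ofReal_ne_top hy).trans ?_
    rw [ENNReal.toReal_ofReal hε.le]
  linarith

/-! ### the annealed forms -/

section two
variable {u : Step 2} {i : Fin 2} {κ : ℝ} {Q : Measure (Environment 2)} [IsProbabilityMeasure Q]

/-- from the `θ`-tube of the natural law to the annealed climb inside the tube (unmarked) -/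
theorem climb_theta (F : Frame Q κ 0)
    (hA : annealedProb Q 0 (escapeEvent (B2d.dirVec u)) ≠ 0) {θ : ℝ} {wd : ℕ → ℕ}
    (hw1 : ∀ N, 1 ≤ wd N) {A ε : ℝ} {N : ℕ} (hA0 : 0 ≤ A)
    (h : 1 - ε ≤ (stL Q κ u).real (TubeE u i N (A * wd N) fun l => θ * l)) :
    mkAnn κ Q 0 (Stay (mht (B2d.dirVec u))) * ENNReal.ofReal (1 - ε) ≤ annealedProb Q 0
      {X | ∃ n, lev u (X n) = (N : ℤ) ∧ ∀ j < n, 0 ≤ lev u (X j) ∧ lev u (X j) < (N : ℤ) ∧
        |P2916.sl u i θ (X j)| ≤ (A + 4) * wd N} := by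
  set v : ℤ → ℤ := fun l => ⌊θ * l⌋ with hv
  set w : ℤ := ⌈A * wd N⌉ + 1 with hw
  have hst : IsProbabilityMeasure (stL Q κ u) := cond_isProbabilityMeasure (F.hp _ hA)
  have hsub : (stL Q κ u) (TubeE u i N (A * wd N) fun l => θ * l)
      ≤ stL Q κ u {s | ∀ t, zh u s t < N → |pos 0 s t i - v (zh u s t)| ≤ w} := by
    refine measure_mono_ae ?_
    filter_upwards [ae_regInfU F hA] with s hs hT
    intro t ht
    have h0 : 0 ≤ zh u s t := stay_zh.1 hs.1 t
    have h1 : |(pos 0 s t i : ℝ) - θ * ((zh u s t).toNat : ℝ)| ≤ A * wd N := hT t ht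
    have e : ((zh u s t).toNat : ℝ) = (zh u s t : ℝ) := by
      exact_mod_cast congrArg (Int.cast (R := ℝ)) (Int.toNat_of_nonneg h0)
    rw [e] at h1
    have h2 : (|pos 0 s t i - v (zh u s t)| : ℤ) ≤ w := by
      have h3 : ((|pos 0 s t i - v (zh u s t)| : ℤ) : ℝ) ≤ (w : ℝ) := by
        push_cast
        have h4 : |(v (zh u s t) : ℝ) - θ * (zh u s t : ℝ)| ≤ 1 := by
          simp only [hv]
          rw [abs_le]
          constructor
          · linarith [Int.lt_floor_add_one (θ * (zh u s t : ℝ))]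
          · linarith [Int.floor_le (θ * (zh u s t : ℝ))]
        have h5 : A * wd N ≤ (⌈A * wd N⌉ : ℤ) := Int.le_ceil _
        calc |(pos 0 s t i : ℝ) - (v (zh u s t) : ℝ)|
            = |((pos 0 s t i : ℝ) - θ * (zh u s t : ℝ)) -
              ((v (zh u s t) : ℝ) - θ * (zh u s t : ℝ))| := by congr 1; ring
          _ ≤ _ := abs_sub _ _
          _ ≤ A * wd N + 1 := add_le_add h1 h4
          _ ≤ _ := by rw [hw]; push_cast; linarith
      exact_mod_cast h3
    exact h2
  have hc : ENNReal.ofReal (1 - ε) ≤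
      stL Q κ u {s | ∀ t, zh u s t < N → |pos 0 s t i - v (zh u s t)| ≤ w} := by
    refine le_trans ?_ hsub
    rw [← ENNReal.ofReal_toReal (measure_ne_top (stL Q κ u) (TubeE u i N (A * wd N) fun l => θ * l))]
    exact ENNReal.ofReal_le_ofReal h
  refine (climb_of_tube F hA i v N w (w + 1) (by omega) hc).trans ?_
  unfold annealedProb
  refine lintegral_mono fun ω => measure_mono ?_
  rintro X ⟨n, hn, hX⟩
  refine ⟨n, hn, fun j hj => ⟨(hX j hj).1, (hX j hj).2.1, ?_⟩⟩
  have h1 := (hX j hj).2.2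
  have h2 : ((|X j i - v (lev u (X j))| : ℤ) : ℝ) < ((w + 1 : ℤ) : ℝ) := by exact_mod_cast h1
  push_cast at h2
  have h4 : |(v (lev u (X j)) : ℝ) - θ * (lev u (X j) : ℝ)| ≤ 1 := by
    simp only [hv]
    rw [abs_le]
    constructor
    · linarith [Int.lt_floor_add_one (θ * (lev u (X j) : ℝ))]
    · linarith [Int.floor_le (θ * (lev u (X j) : ℝ))]
  have hwr : (w : ℝ) ≤ A * wd N + 2 := by
    rw [hw]; push_cast
    linarith [Int.ceil_lt_add_one (A * (wd N : ℝ))]
  have hw1' : (1 : ℝ) ≤ wd N := by exact_mod_cast hw1 N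
  unfold P2916.sl
  calc |(X j i : ℝ) - θ * (lev u (X j) : ℝ)|
      = |((X j i : ℝ) - (v (lev u (X j)) : ℝ)) +
        ((v (lev u (X j)) : ℝ) - θ * (lev u (X j) : ℝ))| := by congr 1; ring
    _ ≤ _ := abs_add_le _ _
    _ ≤ (A * wd N + 2 + 1) + 1 := by linarith
    _ ≤ (A + 4) * wd N := by nlinarith

/-- **28's `TubeP`** -/
theorem tubeP (F : Frame Q κ 0) (hA : annealedProb Q 0 (escapeEvent (B2d.dirVec u)) ≠ 0)
    {θ : ℝ} {wd : ℕ → ℕ} (hw1 : ∀ N, 1 ≤ wd N)
    (h : ∀ ε : ℝ, 0 < ε → ∃ (A : ℝ) (N1 : ℕ), ∀ N, N1 ≤ N →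
      1 - ε ≤ (stL Q κ u).real (TubeE u i N (A * wd N) fun l => θ * l)) :
    ∃ A p0 : ℝ, 0 < A ∧ 0 < p0 ∧ ∃ H0 : ℕ, ∀ H ≥ H0, ENNReal.ofReal p0 ≤ annealedProb Q 0
      {X | ∃ n, lev u (X n) = (H : ℤ) ∧ ∀ j < n, 0 ≤ lev u (X j) ∧ lev u (X j) < (H : ℤ) ∧
        |P2916.sl u i θ (X j)| ≤ A * wd H} := by
  obtain ⟨A, N1, hAN⟩ := h (1 / 2) (by norm_num)
  set p := mkAnn κ Q 0 (Stay (mht (B2d.dirVec u))) with hp
  have hp0 : p ≠ 0 := F.hp _ hA
  have hpr : 0 < p.toReal := ENNReal.toReal_pos hp0 (measure_ne_top _ _)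
  refine ⟨|A| + 4, p.toReal / 2, by positivity, by positivity, N1, fun H hH => ?_⟩
  have h1 := hAN H hH
  have h2 : 1 - 1 / 2 ≤ (stL Q κ u).real (TubeE u i H (|A| * wd H) fun l => θ * l) := by
    have hst : IsProbabilityMeasure (stL Q κ u) := cond_isProbabilityMeasure (F.hp _ hA)
    refine h1.trans (measureReal_mono ?_)
    intro s hs t ht
    refine (hs t ht).trans ?_
    have := le_abs_self A
    gcongr
  refine le_trans ?_ (climb_theta F hA hw1 (abs_nonneg A) h2)
  rw [← ENNReal.ofReal_toReal (measure_ne_top (mkAnn κ Q 0) (Stay (mht (B2d.dirVec u)))), ← hp,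
    ← ENNReal.ofReal_mul hpr.le]
  refine ENNReal.ofReal_le_ofReal (le_of_eq ?_)
  ring

end two

end Crest.Agent.R154.TubeLin4
end

-- ▼ part R154/ThetaFin_4

/-!
Row 154, d = 2 (D2.5, helper4).  **THETA, unconditional for iid elliptic environments** of `ℤ²` with
positive annealed escape, and the scale package of the object width
`wdO ν u i := wdJ (iidEnvironmentLaw ν) 0 0 u i`.
-/

set_option autoImplicit false
set_option linter.unusedSectionVars false
set_option linter.deprecated false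

namespace Crest.Agent.R154.TubeLin4

open MeasureTheory ProbabilityTheory Filter Set Crest.ProbabilityR.RandomEnvironment
open Crest.Agent.R154.Mk561 Crest.Agent.R154.Bind263 Crest.Agent.R154.B4Inst797
open Crest.Agent.R154.J132 Crest.Agent.R154.J6_24 Crest.Agent.R154.NDAObj24
open Crest.Agent.R154.Hair738 (T U Core NDA)
open Crest.Agent.R154.Flux132 (lev)
open scoped ENNReal Topology

section two
variable {u : Step 2} {i : Fin 2}

/-- the width of the row-154 object, `d = 2` -/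
noncomputable abbrev wdO (ν : Measure (Row 2)) [IsProbabilityMeasure ν] (u : Step 2) (i : Fin 2) :
    ℕ → ℕ := wdJ (iidEnvironmentLaw ν) 0 0 u i

variable (ν : Measure (Row 2)) [IsProbabilityMeasure ν]
    (hν : ∀ᵐ q ∂ν, ∀ e : Step 2, 0 < q.1 e) (hi : i ≠ u.1)
    (hA : annealedProb (iidEnvironmentLaw ν) 0 (escapeEvent (B2d.dirVec u)) ≠ 0)

include hν hi hA

lemma core_obj : Core (T (triL (iidEnvironmentLaw ν) 0 0 u (phi i)) Bt)
      (U (triL (iidEnvironmentLaw ν) 0 0 u (phi i)) Vt Bt) :=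
  core_tri (frame_iid ν hν) hA hi

lemma one_le_wdO (N : ℕ) : 1 ≤ wdO ν u i N := one_le_wdJ (frame_iid ν hν) hA hi N

lemma wdO_mono : Monotone (wdO ν u i) := fun _ _ h => (core_obj ν hν hi hA).wd_mono h

/-- 36's `ScaleP` for the object width -/
theorem scaleP_obj : D2V36.ScaleP (wdO ν u i) :=
  (nda_obj ν hν hi hA).scaleP (core_obj ν hν hi hA)

/-- 916's `REG` for the object width -/
theorem reg_obj : P2916.REG (wdO ν u i) := (nda_obj ν hν hi hA).reg (core_obj ν hν hi hA)

/-- the object width tends to infinity -/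
theorem wdO_top (K : ℕ) : ∃ N0 : ℕ, ∀ N ≥ N0, K ≤ wdO ν u i N := (reg_obj ν hν hi hA).1 K

/-- doubling -/
theorem wdO_two : ∃ N0 : ℕ, ∀ N ≥ N0, (wdO ν u i (2 * N) : ℝ) ≤ 6 * wdO ν u i N := by
  obtain ⟨N0, hN0⟩ := eventually_atTop.1
    ((nda_obj ν hν hi hA).wd_upper (core_obj ν hν hi hA) 4 (by norm_num))
  refine ⟨N0, fun N hN => ?_⟩
  have h1 := hN0 N hN
  have h2 : Real.sqrt ((4 : ℕ) : ℝ) = 2 := by
    rw [show (((4 : ℕ) : ℝ)) = 2 ^ 2 by norm_num, Real.sqrt_sq (by norm_num)]
  rw [h2] at h1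
  have h3 : (wdO ν u i (2 * N) : ℝ) ≤ wdO ν u i (4 * N) := by
    exact_mod_cast wdO_mono ν hν hi hA (by omega)
  calc (wdO ν u i (2 * N) : ℝ) ≤ wdO ν u i (4 * N) := h3
    _ ≤ 3 * (2 * wdO ν u i N) := h1
    _ = _ := by ring

/-- **THETA**: one real slope, every scale, every probability. -/
theorem theta_obj : ∃ θ : ℝ, ∀ ε : ℝ, 0 < ε → ∃ (A : ℝ) (N1 : ℕ), ∀ N, N1 ≤ N →
      1 - ε ≤ (stL (iidEnvironmentLaw ν) 0 u).real
        (TubeE u i N (A * wdO ν u i N) fun l => θ * l) :=
  theta_tube (frame_iid ν hν) hA hi (nda_obj ν hν hi hA)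

/-- **THETA with 28's `TubeP`** (the same slope) -/
theorem theta_tubeP : ∃ θ : ℝ, (∀ ε : ℝ, 0 < ε → ∃ (A : ℝ) (N1 : ℕ), ∀ N, N1 ≤ N →
      1 - ε ≤ (stL (iidEnvironmentLaw ν) 0 u).real
        (TubeE u i N (A * wdO ν u i N) fun l => θ * l)) ∧
    ∃ A p0 : ℝ, 0 < A ∧ 0 < p0 ∧ ∃ H0 : ℕ, ∀ H ≥ H0,
      ENNReal.ofReal p0 ≤ annealedProb (iidEnvironmentLaw ν) 0
      {X | ∃ n, lev u (X n) = (H : ℤ) ∧ ∀ j < n, 0 ≤ lev u (X j) ∧ lev u (X j) < (H : ℤ) ∧
        |P2916.sl u i θ (X j)| ≤ A * wdO ν u i H} := by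
  obtain ⟨θ, h⟩ := theta_obj ν hν hi hA
  exact ⟨θ, h, tubeP (frame_iid ν hν) hA (one_le_wdO ν hν hi hA) h⟩

end two

end Crest.Agent.R154.TubeLin4
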