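import Crest.Agent.R154.D2WK_36_Mg
import Crest.Agent.R154.PIndC_546
import Crest.Agent.R154.JObj3_132
import Crest.Agent.R154.Esc_177_Mg
import Crest.Agent.R154.NDAObj_24
import Crest.Agent.R154.D2V_36
import Crest.Agent.R154.TubeObj_24
import Crest.Agent.R154.ExK_9
import Crest.Agent.R154.D1B_569
import Crest.Agent.R154.Slab_491
import Crest.Agent.R154.Kal_132
import Crest.Agent.R154.ThetaFin_4
import Crest.Agent.R154.WinB_956
import Crest.Agent.R154.QE_980

-- ▼ part R154/D2WL_36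
section

/-!
# Row 154, `d = 2`, D2.9 (helper36): `LLN` from the five literal inputs, no constants left
-/

set_option autoImplicit false

namespace Crest.Agent.R154.D2V36

open MeasureTheory ProbabilityTheory Crest.ProbabilityR.RandomEnvironment Crest.Agent.R154

theorem constsP : ConstsP := fun m _ _ _ _ _ _ hΛ hCs hCl hcl hCo hc0 _ hε =>
  consts36 m hΛ hCs hCl hcl hCo hc0 hε

/-- **D2.9: the quenched law of large numbers of the positions at the marked levels** -/
theorem lln {u : Step 2} {i : Fin 2} {θ : ℝ} {ν : Measure (Row 2)} [IsProbabilityMeasure ν]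
    {wd : ℕ → ℕ} (hO : OccP u i θ ν wd) (hSc : ScaleP wd)
    (hSl : SlabP u i θ ν wd) (hRe : ResidP u i θ ν) (hH : HitP u ν)
    (hwd : Filter.Tendsto wd Filter.atTop Filter.atTop) : LLN u i θ ν wd :=
  lln_of constsP hO hSc hSl hRe hH hwd

end Crest.Agent.R154.D2V36
end

-- ▼ part R154/EscObj_546
section

/-! Row 154, `d = 2`, leaf D2.8 (helper546), part 4: `(E0)`, `(E1)`, `(E2)` for the distance of two
walkers in the SAME environment, any start pair, any past. -/

set_option autoImplicit false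
set_option linter.unusedSectionVars false
set_option linter.deprecated false

namespace Crest.Agent.R154.EscObj546

open MeasureTheory ProbabilityTheory Filter Set Crest.ProbabilityR.RandomEnvironment
open Crest.Agent.R154.Q561 Crest.Agent.R154.Mk561 Crest.Agent.R154.B6I
open Crest.Agent.R154.Bind263
open Crest.Agent.R154.Flux132 (lev)
open Crest.Agent.R154.KB424 (NS)
open Crest.Agent.R154.B4Inst797 (zh)
open Crest.Agent.R154.PInd546
open Crest.Agent.R154.J132 (JG jw Vj Bj Rj Jk cutk cutW same_level zt_eq hit_iff' pos_start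
  one_le_Rj prL jlawOf prod_NS jg_ae probPr probJ measurable_jw law_jw indep_jw)
open scoped ENNReal Topology

variable {d : ℕ} {u : Step d} {κ : ℝ} {Q : Measure (Environment d)} [IsProbabilityMeasure Q]

/-! ### the dictionary -/

theorem dict {i : Fin d} {φ : Site d →+ ℝ} (hφ : ∀ z, φ z = (z i : ℝ)) (t : SP u)
    {π : PP d} (hπ : π ∈ JG u κ 0) :
    Dict i t π (fun k => Vj φ (jw u κ 0 k π)) (fun k => Bj u φ (jw u κ 0 k π))
      (fun k => Rj u (jw u κ 0 k π)) where
  ns1 := fun n => by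
    have := (cutk hπ 0).2.2.1 n (Nat.zero_le _)
    rw [zt_eq]; simpa [J132.Hk] using this
  ns2 := fun n => by
    have := (cutk hπ 0).2.2.2 n (Nat.zero_le _)
    rw [zt_eq]; simpa [J132.Hk] using this
  R1 := fun k => one_le_Rj hπ k
  cut := fun k => by
    obtain ⟨h1, h2, _, _⟩ := cutk hπ k
    refine ⟨(Jk u κ 0 k π).1, (Jk u κ 0 k π).2, (hit_iff' _ _ _).2 h1, (hit_iff' _ _ _).2 h2, ?_⟩
    have h3 := cutW hπ φ k
    rw [hφ, hφ] at h3
    have e1 : J132.Sk φ u κ 0 k π = ∑ j ∈ Finset.range k, Vj φ (jw u κ 0 j π) := rfl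
    rw [e1] at h3
    rw [pos_start t.1.1, pos_start t.1.2]
    simp only [Pi.add_apply, ldf]
    push_cast
    linarith
  lev := fun k n m h1 h2 h3 => by
    have e : zh u π.1 n = zh u π.2 m := by rw [← zt_eq, ← zt_eq, h3]
    rw [zt_eq] at h1 h2
    have h4 := same_level hπ φ e h1 h2
    rw [hφ, hφ] at h4
    have e1 : J132.Sk φ u κ 0 k π = ∑ j ∈ Finset.range k, Vj φ (jw u κ 0 j π) := rfl
    rw [e1] at h4
    rw [pos_start t.1.1, pos_start t.1.2]
    simp only [Pi.add_apply, ldf]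
    push_cast
    refine le_trans (le_of_eq ?_) h4
    congr 1
    ring

/-! ### the law of the real triple -/

/-- `(V, B, R)` of a joint word, real valued -/
noncomputable def tr3 (u : Step d) (φ : Site d →+ ℝ)
    (w : List (Ren263.Word (Mark d)) × List (Ren263.Word (Mark d))) : ℝ × ℝ × ℝ :=
  (Vj φ w, Bj u φ w, (Rj u w : ℝ))

/-- law of the real triple of a joint block -/
noncomputable def triR (Q : Measure (Environment d)) [IsProbabilityMeasure Q] (κ : ℝ) (u : Step d)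
    (φ : Site d →+ ℝ) : Measure (ℝ × ℝ × ℝ) := jlawOf (tr3 u φ) Q κ 0 u

/-- the sequence of triples -/
noncomputable def Zs (u : Step d) (κ : ℝ) (φ : Site d →+ ℝ) (k : ℕ) (π : PP d) : ℝ × ℝ × ℝ :=
  tr3 u φ (jw u κ 0 k π)

/-- filtration of the triples -/
@[instance_reducible] noncomputable def FZ (u : Step d) (κ : ℝ) (φ : Site d →+ ℝ) (k : ℕ) : MeasurableSpace (PP d) :=
  ⨆ i ∈ Set.Iio k, MeasurableSpace.comap (Zs u κ φ i) inferInstance

theorem sq (F : Frame Q κ 0) (hA : annealedProb Q 0 (escapeEvent (B2d.dirVec u)) ≠ 0)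
    (φ : Site d →+ ℝ) : Gam7.Sq (prL Q κ u) (FZ u κ φ) (triR Q κ u φ) (Zs u κ φ) := by
  have := probPr F hA
  have : IsProbabilityMeasure (triR Q κ u φ) := probJ (tr3 u φ) F hA
  exact Gam7.Sq.of_iIndep (fun k => measurable_jw (tr3 u φ) k) (indep_jw (tr3 u φ) F hA)
    (fun k => law_jw (tr3 u φ) F hA k)

/-! ### the level filtration -/

/-- events decided at level `j` -/
@[instance_reducible] def Fl (u : Step d) (j : ℕ) : MeasurableSpace (PP d) where
  MeasurableSet' B := MeasurableSet B ∧ Dt u j B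
  measurableSet_empty := ⟨MeasurableSet.empty, fun _ _ _ _ h => h.elim⟩
  measurableSet_compl B hB := ⟨hB.1.compl, hB.2.compl⟩
  measurableSet_iUnion f hf := ⟨MeasurableSet.iUnion fun i => (hf i).1, by
    rintro p q h1 h2 hp
    obtain ⟨i, hi⟩ := Set.mem_iUnion.1 hp
    exact Set.mem_iUnion.2 ⟨i, (hf i).2 p q h1 h2 hi⟩⟩


lemma Fl_mono : Monotone (Fl (d := d) u) := fun _ _ hij _ hB => ⟨hB.1, hB.2.mono hij⟩

lemma Fl_le (j : ℕ) : Fl (d := d) u j ≤ (inferInstance : MeasurableSpace (PP d)) :=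
  fun _ hB => hB.1

lemma meas_al (j : ℕ) : MeasurableSet {p : PP d | Al u j p} :=
  measurableSet_of_dt (fun _ h => h) (dt_al j)

/-- distance as a real process -/
noncomputable def Dr (i : Fin d) (s : SP u) (k : ℕ) (p : PP d) : ℝ := (Dd i s k p : ℝ)

lemma meas_Dd (i : Fin d) (s : SP u) (j : ℕ) (S : Set ℤ) :
    MeasurableSet {p : PP d | Dd i s j p ∈ S} := by
  have h1 : {p : PP d | Dd i s j p ∈ S}
      = ({p | Al u j p} ∩ {p | Dd i s j p ∈ S}) ∪ ({p | Al u j p}ᶜ ∩ {_p | |ldf i s| ∈ S}) := by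
    ext p
    simp only [mem_setOf_eq, mem_union, mem_inter_iff, mem_compl_iff]
    by_cases h : Al u j p
    · simp [h]
    · have : Dd i s j p = |ldf i s| := by
        unfold Dd tip; rw [dif_neg h]
      simp [h, this]
  rw [h1]
  refine (measurableSet_of_dt (u := u) (j := j) (fun _ h => h.1) ((dt_al j).inter
    (dt_Dd i s j S))).union ((meas_al j).compl.inter ?_)
  exact MeasurableSet.const _

lemma Dr_meas (i : Fin d) (s : SP u) (k : ℕ) : Measurable[Fl u k] (Dr i s k) := by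
  intro S _
  have : Dr i s k ⁻¹' S = {p | Dd i s k p ∈ (fun z : ℤ => (z : ℝ)) ⁻¹' S} := rfl
  rw [this]
  exact ⟨meas_Dd i s k _, dt_Dd i s k _⟩

/-! ### all levels are reached -/

lemma lev_sum (x : Site d) : ∑ i, (x i : ℝ) * B2d.dirVec u i = (lev u x : ℝ) := by
  rw [B2d.sum_mul_dirVec]
  unfold Flux132.lev
  split_ifs <;> simp

theorem alv_ae (F : Frame Q κ 0) (h1 : annealedProb Q 0 (escapeEvent (B2d.dirVec u)) = 1)
    (j : ℕ) : ∀ᵐ M ∂(mkAnn κ Q 0), Alv u j M := by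
  have hm := B2d.measurableSet_escapeEvent (B2d.dirVec u)
  have h2 := mkAnn_projection F.ell 0 hm
  rw [h1] at h2
  have h3 : ∀ᵐ M ∂(mkAnn κ Q 0), M ∈ mpath 0 ⁻¹' escapeEvent (B2d.dirVec u) := by
    rw [← prob_compl_eq_zero_iff (measurable_mpath 0 hm)] at h2
    exact h2
  filter_upwards [h3] with M hM
  have hM' : Tendsto (fun n => ∑ i, ((mpath 0 M n) i : ℝ) * B2d.dirVec u i) atTop atTop := hM
  obtain ⟨n, hn⟩ := (hM'.eventually_ge_atTop (j : ℝ)).exists
  rw [lev_sum] at hn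
  have h4 : lev u (mpath 0 M n) = zt u M n := by
    have := lev_pos u (0 : Site d) M n
    rw [B6I.lev_zero, zero_add] at this
    exact this
  rw [h4] at hn
  have h5 : (j : ℤ) ≤ zt u M n := by exact_mod_cast hn
  obtain ⟨m, _, hm'⟩ := exists_hit h5
  exact ⟨m, hm'⟩

theorem al_ae (F : Frame Q κ 0) (h1 : annealedProb Q 0 (escapeEvent (B2d.dirVec u)) = 1)
    (x y : Site d) (j : ℕ) : ∀ᵐ p ∂(PSm κ Q x y), Al u j p := by
  have hmA : MeasurableSet {M : MPath d | ¬ Alv u j M} := by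
    have h2 : {M : MPath d | ¬ Alv u j M}
        = (fun M : MPath d => ((M, M) : PP d)) ⁻¹' {p | Al u j p}ᶜ := by
      ext M
      simp [Al]
    rw [h2]
    exact (measurable_id.prodMk measurable_id) (meas_al j).compl
  have h2 : mkAnn κ Q 0 {M | ¬ Alv u j M} = 0 := alv_ae F h1 j
  have e1 : PSm κ Q x y {p | p.1 ∈ {M : MPath d | ¬ Alv u j M}} = 0 := by
    rw [PSm_fst κ Q x y hmA, mkAnn_stat F.stat, h2]
  have e2 : PSm κ Q x y {p | p.2 ∈ {M : MPath d | ¬ Alv u j M}} = 0 := by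
    rw [PSm_snd κ Q x y hmA, mkAnn_stat F.stat, h2]
  have h3 : ∀ᵐ p ∂(PSm κ Q x y), Alv u j p.1 := by
    refine measure_mono_null (fun p hp => ?_) e1
    exact hp
  have h4 : ∀ᵐ p ∂(PSm κ Q x y), Alv u j p.2 := by
    refine measure_mono_null (fun p hp => ?_) e2
    exact hp
  filter_upwards [h3, h4] with p a b
  exact ⟨a, b⟩

/-! ### attempts -/

/-- **lower bound for one attempt**, any past -/
theorem attempt' (hR : IsFiniteRangeDependent Q 0) (i : Fin d) (S : ℕ → Set (ℕ → ℤ)) (s : SP u)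
    {j : ℕ} (L : ℕ) {B : Set (PP d)} (hBa : ∀ p ∈ B, Al u j p) (hB : Dt u j B)
    {Bs : Set ℤ} (hBs : ∀ p ∈ B, ldf i (tip j s p) ∈ Bs) {c : ℝ≥0∞}
    (hc : ∀ t : SP u, ldf i t ∈ Bs →
      c ≤ PIm κ Q t.1.1 t.1.2 {q | ((t, q) : Om u) ∈ Suc (GS 0 i S) L}) :
    c * PSm κ Q s.1.1 s.1.2 B ≤ PSm κ Q s.1.1 s.1.2 (B ∩ Ev i s S j L) := by
  refine ((att_GS 0 i S).ge hR s L hBa hB fun p hp => hc _ (hBs p hp)).trans (measure_mono ?_)
  rintro p ⟨hp, l, hl, ⟨hN, _, f, hf, hfk⟩⟩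
  refine ⟨hp, l, hl, f, hf, fun k hk => ?_⟩
  rw [hfk k hk]
  have hal := hBa p hp
  have : Al u k (th u j p) := ⟨(hN.1.left hk).alv, (hN.2.left hk).alv⟩
  exact Dd_shift i s ((Al_shift (s := s) hal).1 this)

/-- independent environments from the law of two natural walkers -/
theorem PI_ge (F : Frame Q κ 0) (hA : annealedProb Q 0 (escapeEvent (B2d.dirVec u)) ≠ 0)
    (x y : Site d) {C E : Set (PP d)} (h : ∀ π ∈ JG u κ 0, π ∈ C → π ∈ E) :
    mkAnn κ Q 0 (NS u) ^ 2 * prL Q κ u C ≤ PIm κ Q x y E := by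
  have e1 : prL Q κ u C ≤ prL Q κ u E := by
    refine measure_mono_ae ?_
    filter_upwards [jg_ae F hA] with π hπ hC
    exact h π hπ hC
  calc mkAnn κ Q 0 (NS u) ^ 2 * prL Q κ u C ≤ mkAnn κ Q 0 (NS u) ^ 2 * prL Q κ u E := by gcongr
    _ = ((mkAnn κ Q x).prod (mkAnn κ Q y)) {π | π.1 ∈ NS u ∧ π.2 ∈ NS u ∧ π ∈ E} :=
        (prod_NS F hA x y E).symm
    _ ≤ _ := measure_mono fun π hπ => hπ.2.2

/-- from `ENNReal` to real, restoring the part of the past which is not alive -/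
lemma real_of {P : Measure (PP d)} [IsProbabilityMeasure P] {A B E E' : Set (PP d)}
    (hA : ∀ᵐ p ∂P, p ∈ A) {c : ℝ} (hc : 0 ≤ c)
    (h : ENNReal.ofReal c * P (B ∩ A) ≤ P ((B ∩ A) ∩ E)) (hE : (B ∩ A) ∩ E ⊆ E') :
    c * P.real B ≤ P.real (B ∩ E') := by
  have e1 : P (B ∩ A) = P B := by
    refine measure_congr ?_
    filter_upwards [hA] with p hp
    exact propext ⟨fun h => h.1, fun h => ⟨h, hp⟩⟩
  rw [e1] at h
  have h2 : ENNReal.ofReal c * P B ≤ P (B ∩ E') :=
    h.trans (measure_mono fun p hp => ⟨hp.1.1, hE hp⟩)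
  have h3 := (ENNReal.toReal_le_toReal (ENNReal.mul_ne_top ENNReal.ofReal_ne_top
    (measure_ne_top _ _)) (measure_ne_top _ _)).2 h2
  rwa [ENNReal.toReal_mul, ENNReal.toReal_ofReal hc] at h3

/-- probability (natural for ever) -/
noncomputable def pn (κ : ℝ) (Q : Measure (Environment d)) (u : Step d) : ℝ :=
  (mkAnn κ Q 0).real (NS u)

lemma pn_nonneg : 0 ≤ pn κ Q u := measureReal_nonneg

lemma pn_pos (F : Frame Q κ 0) (hA : annealedProb Q 0 (escapeEvent (B2d.dirVec u)) ≠ 0) :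
    0 < pn κ Q u := by
  unfold pn
  rw [J132.NS_eq]
  exact ENNReal.toReal_pos (F.hp _ hA) (measure_ne_top _ _)

/-- **(E0), any past.** -/
theorem E0 (F : Frame Q 0 0) (h1 : annealedProb Q 0 (escapeEvent (B2d.dirVec u)) = 1)
    {κ : ℝ} (hκ : 0 < κ) (hell : ∀ᵐ ω ∂Q, ∀ (z : Site d) (e : Step d), κ ≤ (ω z).1 e)
    {i : Fin d} (hi : i ≠ u.1) (W : ℝ) :
    ∃ H0 : ℕ, ∃ e0 : ℝ, 1 ≤ H0 ∧ 0 < e0 ∧ ∀ (s : SP u) (k : ℕ) (B : Set (PP d)),
      MeasurableSet[Fl u k] B → (PSm 0 Q s.1.1 s.1.2).real (B ∩ Esc177.Miss (Dr i s) W k H0)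
        ≤ (1 - e0) * (PSm 0 Q s.1.1 s.1.2).real B := by
  refine ⟨1, κ ^ (2 * (⌈W⌉₊ + 1)), le_rfl, by positivity, fun s k B hB => ?_⟩
  set P := PSm 0 Q s.1.1 s.1.2 with hP
  set n := ⌈W⌉₊ with hn
  have hc := PInd546.E0 hell hi n s (j := k) (B := B ∩ {p | Al u k p}) (fun p hp => hp.2)
    (hB.2.inter (dt_al k))
  rw [← ENNReal.ofReal_pow hκ.le] at hc
  have h2 := real_of (P := P) (A := {p | Al u k p}) (al_ae F h1 _ _ k) (by positivity) hc
    (E' := {p | 2 * (n : ℤ) ≤ Dd i s (k+1) p}) (fun p hp => hp.2.2)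
  have hm : MeasurableSet {p : PP d | 2 * (n : ℤ) ≤ Dd i s (k+1) p} :=
    meas_Dd i s (k+1) {z | 2 * (n : ℤ) ≤ z}
  have h3 : B ∩ Esc177.Miss (Dr i s) W k 1 ⊆ B \ {p | 2 * (n : ℤ) ≤ Dd i s (k+1) p} := by
    rintro p ⟨hp, hpm⟩
    refine ⟨hp, fun h4 => ?_⟩
    have h5 := hpm 1 le_rfl
    have h6 : (2 * (n : ℝ)) ≤ Dr i s (k+1) p := by
      unfold Dr
      have : ((2 * (n : ℤ) : ℤ) : ℝ) ≤ ((Dd i s (k+1) p : ℤ) : ℝ) := Int.cast_le.2 h4
      push_cast at this
      exact this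
    have h7 : W ≤ n := Nat.le_ceil W
    have h8 : (0:ℝ) ≤ n := Nat.cast_nonneg n
    linarith
  have h4 := measureReal_mono (μ := P) h3 (measure_ne_top _ _)
  have h5 := measureReal_inter_add_sdiff (μ := P) (s := B) hm
  linarith

section main

variable {φ : Site d →+ ℝ} {i : Fin d}

/-- **(E1), any past**: `q = p² / 4`. -/
theorem E1 (F : Frame Q κ 0) (h1 : annealedProb Q 0 (escapeEvent (B2d.dirVec u)) = 1)
    (hφ : ∀ z, φ z = (z i : ℝ)) (hμ : Gam7.Law (triR Q κ u φ))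
    (hR : Integrable (fun x : ℝ × ℝ × ℝ => x.2.2) (triR Q κ u φ)) {Λ : ℝ} (hΛ : 1 < Λ) :
    ∃ K w0 : ℝ, 0 < K ∧ 0 < w0 ∧ ∀ w, w0 ≤ w → 0 < Gam7.U (triR Q κ u φ) w ∧
      1 ≤ w ^ 2 / Gam7.U (triR Q κ u φ) w ∧
      ∀ (s : SP u) (k : ℕ) (B : Set (PP d)), MeasurableSet[Fl u k] B →
        B ⊆ {p | w ≤ Dr i s k p} →
        (pn κ Q u ^ 2 / 4 / Λ) * (PSm κ Q s.1.1 s.1.2).real B
          ≤ (PSm κ Q s.1.1 s.1.2).real (B ∩ Esc177.Up (Dr i s) (Λ * w) (w / 4) k
              ⌊K * (w ^ 2 / Gam7.U (triR Q κ u φ) w)⌋₊) := by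
  have hA : annealedProb Q 0 (escapeEvent (B2d.dirVec u)) ≠ 0 := by rw [h1]; exact one_ne_zero
  have := probPr F hA
  have : IsProbabilityMeasure (triR Q κ u φ) := probJ (tr3 u φ) F hA
  have hR0 : ∀ᵐ x ∂(triR Q κ u φ), 0 ≤ x.2.2 := by
    unfold triR
    rw [← law_jw (tr3 u φ) F hA 0]
    have hms : MeasurableSet {x : ℝ × ℝ × ℝ | 0 ≤ x.2.2} :=
      (measurable_snd.comp measurable_snd) measurableSet_Ici
    rw [ae_map_iff (measurable_jw (tr3 u φ) 0).aemeasurable hms]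
    exact Eventually.of_forall fun π => Nat.cast_nonneg _
  obtain ⟨K, w0, hK, hw0, hE⟩ := Gam7.E1 hμ hR hR0 hΛ (show (0:ℝ) < 1/4 by norm_num) le_rfl
  refine ⟨K, w0, hK, hw0, fun w hw => ?_⟩
  obtain ⟨hU, hh, n, hn, hcl⟩ := hE w hw
  refine ⟨hU, hh, fun s k B hB hBD => ?_⟩
  have hwp : 0 < w := hw0.trans_le hw
  have hΛ0 : 0 < Λ := by linarith
  set h := w ^ 2 / Gam7.U (triR Q κ u φ) w with hh'
  set L := ⌊K * h⌋₊ with hL
  have hsq := sq F hA φ
  have c1 := hcl (prL Q κ u) (FZ u κ φ) (Zs u κ φ) hsq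
  have c2 := hcl (prL Q κ u) (FZ u κ φ) _ (hsq.neg hμ)
  set S : ℕ → Set (ℕ → ℤ) := fun l => {f | Λ * w ≤ (f l : ℝ) ∧ ∀ k ≤ l, w / 2 - w / 4 ≤ (f k : ℝ)}
    with hS
  -- the letters give success
  have hsuc : ∀ (σ : ℝ), |σ| = 1 → ∀ (t : SP u), w ≤ σ * ldf i t → ∀ π ∈ JG u κ 0,
      π ∈ Gam7.Climb (fun k ω => (σ * (Zs u κ φ k ω).1, (Zs u κ φ k ω).2)) Λ (1/4) w (K * h) n →
      ((t, π) : Om u) ∈ Suc (GS 0 i S) L := by
    rintro σ hσ t ht π hπ ⟨⟨m, hmn, hup, hbel⟩, hBs, hRs⟩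
    refine (dict hφ t hπ).up hσ ht (b := w / 4) (lo := w / 2) (by positivity) (by linarith)
      (n := n) ⟨m, hmn, ?_, fun k hk => ?_⟩ (fun k hk => ?_) ?_
    · have : Gam7.Sm (fun k ω => (σ * (Zs u κ φ k ω).1)) m π
          = ∑ j ∈ Finset.range m, σ * Vj φ (jw u κ 0 j π) := rfl
      have h3 : (Λ - 1) * w ≤ ∑ j ∈ Finset.range m, σ * Vj φ (jw u κ 0 j π) := hup
      linarith
    · rcases Nat.lt_or_ge k m with hlt | hge
      · have h3 : -(w/2) < ∑ j ∈ Finset.range k, σ * Vj φ (jw u κ 0 j π) := (hbel k hlt).1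
        linarith
      · obtain rfl : k = m := le_antisymm hk hge
        have h3 : (Λ - 1) * w ≤ ∑ j ∈ Finset.range k, σ * Vj φ (jw u κ 0 j π) := hup
        nlinarith
    · have h3 : Bj u φ (jw u κ 0 k π) ≤ 1/4 * w := hBs k hk
      linarith
    · refine Nat.le_floor ?_
      have h3 : ∑ j ∈ Finset.range n, (Rj u (jw u κ 0 j π) : ℝ) ≤ K * h := hRs
      unfold Hc
      push_cast
      exact h3
  have hc0 : 0 ≤ pn κ Q u ^ 2 / 4 / Λ := by have := pn_nonneg (κ := κ) (Q := Q) (u := u); positivity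
  have hpr : ∀ C : Set (PP d), 1 / (4 * Λ) ≤ (prL Q κ u).real C →
      ENNReal.ofReal (pn κ Q u ^ 2 / 4 / Λ) ≤ mkAnn κ Q 0 (NS u) ^ 2 * prL Q κ u C := by
    intro C hC
    rw [show pn κ Q u ^ 2 / 4 / Λ = pn κ Q u ^ 2 * (1 / (4 * Λ)) by field_simp,
      ENNReal.ofReal_mul (by positivity)]
    gcongr
    · rw [ENNReal.ofReal_pow pn_nonneg]
      unfold pn
      rw [ofReal_measureReal]
    · rw [← ofReal_measureReal (μ := prL Q κ u) (s := C)]
      exact ENNReal.ofReal_le_ofReal hC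
  have key := attempt' (κ := κ) F.fin i S s L (B := B ∩ {p | Al u k p}) (j := k) (fun p hp => hp.2)
    (hB.2.inter (dt_al k)) (Bs := {z : ℤ | w ≤ |(z : ℝ)|}) (fun p hp => by
      have := hBD hp.1
      simp only [Dr, Dd, mem_setOf_eq, Int.cast_abs] at this
      exact this)
    (c := ENNReal.ofReal (pn κ Q u ^ 2 / 4 / Λ)) (fun t ht => by
      have ht' : w ≤ |(ldf i t : ℝ)| := ht
      rcases le_total 0 (ldf i t : ℝ) with h0 | h0
      · rw [abs_of_nonneg h0] at ht'
        refine (hpr _ c1).trans (PI_ge F hA _ _ fun π hπ hC => ?_)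
        refine hsuc 1 (by norm_num) t (by rwa [one_mul]) π hπ ?_
        simpa using hC
      · rw [abs_of_nonpos h0] at ht'
        refine (hpr _ c2).trans (PI_ge F hA _ _ fun π hπ hC => ?_)
        refine hsuc (-1) (by norm_num) t (by linarith) π hπ ?_
        simpa using hC)
  refine real_of (A := {p | Al u k p}) (al_ae F h1 _ _ k) hc0 key ?_
  rintro p ⟨_, l, hl, f, ⟨hf1, hf2⟩, hfk⟩
  refine ⟨l, hl, ?_, fun j hj => ?_⟩
  · rw [hfk l le_rfl] at hf1; exact hf1
  · have := hf2 j hj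
    rw [hfk j hj] at this
    unfold Dr
    linarith

/-- **(E2), any past**: `q' = p² / 2`. -/
theorem E2 (F : Frame Q κ 0) (h1 : annealedProb Q 0 (escapeEvent (B2d.dirVec u)) = 1)
    (hφ : ∀ z, φ z = (z i : ℝ)) (hμ : Gam7.Law (triR Q κ u φ)) :
    ∃ c w0 : ℝ, 0 < c ∧ 0 < w0 ∧ ∀ w, w0 ≤ w → 0 < Gam7.U (triR Q κ u φ) w ∧
      ∀ (s : SP u) (k : ℕ) (B : Set (PP d)), MeasurableSet[Fl u k] B →
        B ⊆ {p | w ≤ Dr i s k p} →
        (pn κ Q u ^ 2 / 2) * (PSm κ Q s.1.1 s.1.2).real B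
          ≤ (PSm κ Q s.1.1 s.1.2).real (B ∩ Esc177.Stay (Dr i s) (w / 2) k
              ⌊c * (w ^ 2 / Gam7.U (triR Q κ u φ) w)⌋₊) := by
  have hA : annealedProb Q 0 (escapeEvent (B2d.dirVec u)) ≠ 0 := by rw [h1]; exact one_ne_zero
  have := probPr F hA
  have : IsProbabilityMeasure (triR Q κ u φ) := probJ (tr3 u φ) F hA
  obtain ⟨c, w0, hc, hw0, hE⟩ := Gam7.E2 hμ (show (0:ℝ) < 1/4 by norm_num) (by norm_num)
    (show (0:ℝ) < 1/2 by norm_num)
  obtain ⟨w1, hw1⟩ := eventually_atTop.1 ((Gam7.h_tendsto hμ).eventually_ge_atTop (2 / c))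
  refine ⟨c / 2, max w0 w1, by positivity, lt_max_of_lt_left hw0, fun w hw => ?_⟩
  have hwp : 0 < w := hw0.trans_le ((le_max_left _ _).trans hw)
  obtain ⟨hU, hst⟩ := hE w ((le_max_left _ _).trans hw)
  have hh := hw1 w ((le_max_right _ _).trans hw)
  refine ⟨hU, fun s k B hB hBD => ?_⟩
  set h := w ^ 2 / Gam7.U (triR Q κ u φ) w with hh'
  set L := ⌊c / 2 * h⌋₊ with hL
  have hch : 2 ≤ c * h := by
    rw [div_le_iff₀ hc] at hh
    linarith
  have hLn : (((L + 1 : ℕ)) : ℝ) ≤ c * h := by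
    have := Nat.floor_le (show 0 ≤ c / 2 * h by linarith)
    rw [← hL] at this
    push_cast
    linarith
  have hsq := sq F hA φ
  have c1 := hst (L+1) hLn (prL Q κ u) (FZ u κ φ) (Zs u κ φ) hsq
  have c2 := hst (L+1) hLn (prL Q κ u) (FZ u κ φ) _ (hsq.neg hμ)
  set S : ℕ → Set (ℕ → ℤ) := fun l => {f | l = L ∧ ∀ k ≤ l, 3 * w / 4 - w / 4 ≤ (f k : ℝ)}
    with hS
  have hsuc : ∀ (σ : ℝ), |σ| = 1 → ∀ (t : SP u), w ≤ σ * ldf i t → ∀ π ∈ JG u κ 0,
      π ∈ Gam7.Stay (fun k ω => (σ * (Zs u κ φ k ω).1, (Zs u κ φ k ω).2)) (1/4) w (L+1) →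
      ((t, π) : Om u) ∈ Suc (GS 0 i S) L := by
    rintro σ hσ t ht π hπ ⟨hbel, hBs⟩
    refine (dict hφ t hπ).stay hσ ht (b := w / 4) (lo := 3 * w / 4) (by linarith)
      (n := L+1) (fun k hk => ?_) (fun k hk => ?_) ?_
    · have h3 : |∑ j ∈ Finset.range k, σ * Vj φ (jw u κ 0 j π)| < 1/4 * w := hbel k hk
      have := (abs_lt.1 h3).1
      linarith
    · have h3 : Bj u φ (jw u κ 0 k π) ≤ 1/4 * w := hBs k hk
      linarith
    · have := le_Hc (Rh := fun k => Rj u (jw u κ 0 k π)) (fun k => one_le_Rj hπ k) (L+1)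
      omega
  have hc0 : 0 ≤ pn κ Q u ^ 2 / 2 := by have := pn_nonneg (κ := κ) (Q := Q) (u := u); positivity
  have hpr : ∀ C : Set (PP d), 1 - 1 / 2 ≤ (prL Q κ u).real C →
      ENNReal.ofReal (pn κ Q u ^ 2 / 2) ≤ mkAnn κ Q 0 (NS u) ^ 2 * prL Q κ u C := by
    intro C hC
    rw [show pn κ Q u ^ 2 / 2 = pn κ Q u ^ 2 * (1 - 1 / 2) by ring,
      ENNReal.ofReal_mul (by positivity)]
    gcongr
    · rw [ENNReal.ofReal_pow pn_nonneg]
      unfold pn
      rw [ofReal_measureReal]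
    · rw [← ofReal_measureReal (μ := prL Q κ u) (s := C)]
      exact ENNReal.ofReal_le_ofReal hC
  have key := attempt' (κ := κ) F.fin i S s L (B := B ∩ {p | Al u k p}) (j := k) (fun p hp => hp.2)
    (hB.2.inter (dt_al k)) (Bs := {z : ℤ | w ≤ |(z : ℝ)|}) (fun p hp => by
      have := hBD hp.1
      simp only [Dr, Dd, mem_setOf_eq, Int.cast_abs] at this
      exact this)
    (c := ENNReal.ofReal (pn κ Q u ^ 2 / 2)) (fun t ht => by
      have ht' : w ≤ |(ldf i t : ℝ)| := ht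
      rcases le_total 0 (ldf i t : ℝ) with h0 | h0
      · rw [abs_of_nonneg h0] at ht'
        refine (hpr _ c1).trans (PI_ge F hA _ _ fun π hπ hC => ?_)
        refine hsuc 1 (by norm_num) t (by rwa [one_mul]) π hπ ?_
        simpa using hC
      · rw [abs_of_nonpos h0] at ht'
        refine (hpr _ c2).trans (PI_ge F hA _ _ fun π hπ hC => ?_)
        refine hsuc (-1) (by norm_num) t (by linarith) π hπ ?_
        simpa using hC)
  refine real_of (A := {p | Al u k p}) (al_ae F h1 _ _ k) hc0 key ?_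
  rintro p ⟨_, l, hl, f, ⟨hf1, hf2⟩, hfk⟩ j hj
  rw [hf1] at hf2 hfk
  have := hf2 j hj
  rw [hfk j hj] at this
  unfold Dr
  linarith

end main

end Crest.Agent.R154.EscObj546
end

-- ▼ part R154/OccPow_7
section

/-!
Row 154, d = 2 (helper7): **THE CHOICE OF CONSTANTS: (E0), (E1), (E2) at all scales ⟹ occupation
bound with a POWER of the near radius** (abstract adapted process; 177's `occ`).

* `Scale h a1 a2 Λ e K c w1` : the time scale `h`, the numbers of levels `a1` in (E1), `a2` in (E2).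
* `Esc3 ...` : (E0) at one distance `w0`, (E1) and (E2) at all `w ≥ w1`, any past.
* `occ_gen` : `Σ_{k<N} P(A ∩ {D k ≤ a wd N}) ≤ C a^c0 N P(A)`, `C`, `c0`, `N0(a)` depend on numbers
  only (uniform in `(Ω, P, F, D)`).
* `occ_pow` : version for `h(w) = w² / U(w)` of `Gam_7`.
-/

set_option autoImplicit false
set_option linter.unusedSectionVars false
set_option linter.unusedVariables false
set_option linter.deprecated false

namespace Crest.Agent.R154.OccPow7

open MeasureTheory Finset Filter Crest.Agent.R154.Esc177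
open Crest.Agent.R154.Gam7 (Law U)
open scoped Topology

universe u

/-- the numbers: time scale `h`, levels `a1` for a step up, `a2` for a stay -/
structure Scale (h : ℝ → ℝ) (a1 a2 : ℝ → ℕ) (Λ e K c w1 : ℝ) : Prop where
  w1_pos : 0 < w1
  Λ1 : 1 < Λ
  e_pos : 0 < e
  e_le : e ≤ 1
  K_pos : 0 < K
  c_pos : 0 < c
  one : ∀ w, w1 ≤ w → 1 ≤ h w
  grow : ∀ w, w1 ≤ w → 2 * h w ≤ e * h (Λ * w)
  a1_le : ∀ w, w1 ≤ w → (a1 w : ℝ) ≤ K * h w
  a2_ge : ∀ w, w1 ≤ w → c * h w ≤ (a2 w : ℝ) + 1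

/-- the process: (E0) at the distance `w0`, (E1), (E2) at all `w ≥ w1`, any past -/
structure Esc3 {Ω : Type u} {m0 : MeasurableSpace Ω} (P : Measure Ω) (F : ℕ → MeasurableSpace Ω)
    (D : ℕ → Ω → ℝ) (a1 a2 : ℝ → ℕ) (Λ e w1 q' lam w0 e0 : ℝ) (H0 : ℕ) : Prop where
  mono : Monotone F
  le : ∀ k, F k ≤ m0
  meas : ∀ k, Measurable[F k] (D k)
  E0 : ∀ k B, MeasurableSet[F k] B → P.real (B ∩ Miss D w0 k H0) ≤ (1 - e0) * P.real B
  E1 : ∀ w, w1 ≤ w → ∀ k B, MeasurableSet[F k] B → B ⊆ {ω | w ≤ D k ω} →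
    e * P.real B ≤ P.real (B ∩ Up D (Λ * w) (lam * w) k (a1 w))
  E2 : ∀ w, w1 ≤ w → ∀ k B, MeasurableSet[F k] B → B ⊆ {ω | w ≤ D k ω} →
    q' * P.real B ≤ P.real (B ∩ Stay D (lam * w) k (a2 w))

lemma up_mono {Ω : Type u} {D : ℕ → Ω → ℝ} {R r r' : ℝ} {k n n' : ℕ} (h : n ≤ n') (hr : r' ≤ r) :
    Up D R r k n ⊆ Up D R r' k n' := by
  rintro ω ⟨l, hl, h1, h2⟩
  exact ⟨l, hl.trans h, h1, fun j hj => hr.trans (h2 j hj)⟩

lemma stay_anti {Ω : Type u} {D : ℕ → Ω → ℝ} {R r : ℝ} {k n n' : ℕ} (h : r ≤ R) (hn : n' ≤ n) :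
    Stay D R k n ⊆ Stay D r k n' :=
  fun _ hω j hj => h.trans (hω j (hj.trans hn))

section gen

variable {h : ℝ → ℝ} {a1 a2 : ℝ → ℕ} {Λ e K c w1 q' lam w0 e0 : ℝ} {H0 : ℕ}

/-- the bound at the scales `Λ^m w0`, `Λ^(m+n) w0` -/
theorem occ_scale (hS : Scale h a1 a2 Λ e K c w1) (hlam : 0 < lam) (hq' : 0 < q') (hw : w1 ≤ w0)
    (hH0 : 1 ≤ H0) (he0 : 0 < e0) :
    ∃ C1 : ℝ, 0 < C1 ∧ ∀ m n N : ℕ, c * h (Λ ^ (m + n) * w0) ≤ N →
      ∀ {Ω : Type u} {m0 : MeasurableSpace Ω} (P : Measure Ω) [IsProbabilityMeasure P]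
        (F : ℕ → MeasurableSpace Ω) (D : ℕ → Ω → ℝ), Esc3 P F D a1 a2 Λ e w1 q' lam w0 e0 H0 →
        ∀ A, MeasurableSet[F 0] A →
        ∑ k ∈ range N, P.real (A ∩ {ω | D k ω < lam * (Λ ^ m * w0)}) ≤
          C1 * (1 / 2) ^ n * N * P.real A := by
  have hΛ1 := hS.Λ1
  have hΛ0 : 0 < Λ := by linarith
  have hK := hS.K_pos
  have hc := hS.c_pos
  have he := hS.e_pos
  have hw0 : 0 < w0 := hS.w1_pos.trans_le hw
  set ws : ℕ → ℝ := fun i => Λ ^ i * w0 with hws
  have hws0 : ∀ i, w0 ≤ ws i := fun i => by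
    have : (1 : ℝ) ≤ Λ ^ i := one_le_pow₀ hΛ1.le
    simp only [hws]; nlinarith
  have hws1 : ∀ i, w1 ≤ ws i := fun i => hw.trans (hws0 i)
  have hwsS : ∀ i, ws (i + 1) = Λ * ws i := fun i => by simp only [hws]; rw [pow_succ]; ring
  have hwsm : Monotone ws := monotone_nat_of_le_succ fun i => by
    rw [hwsS]; nlinarith [hws0 i]
  have hh1 : ∀ i, 1 ≤ h (ws i) := fun i => hS.one _ (hws1 i)
  have hgr : ∀ i, 2 * h (ws i) ≤ e * h (ws (i + 1)) := fun i => by
    rw [hwsS]; exact hS.grow _ (hws1 i)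
  -- the numbers g_i
  set A : ℝ := max 1 (H0 / (e0 * (K + 1))) with hA
  have hA1 : 1 ≤ A := le_max_left _ _
  have hA2 : H0 / (e0 * (K + 1)) ≤ A := le_max_right _ _
  have hK1 : 0 < K + 1 := by linarith
  set g : ℕ → ℝ := fun i => A * (K + 1) * h (ws i) with hgdef
  have g0 : ∀ i, 0 ≤ g i := fun i => by
    have := hh1 i
    simp only [hgdef]; positivity
  set H : ℕ → ℕ := fun i => a1 (ws i) + 1 with hH
  have hHle : ∀ i, (H i : ℝ) ≤ (K + 1) * h (ws i) := fun i => by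
    have h1 := hh1 i
    have h2 := hS.a1_le _ (hws1 i)
    simp only [hH]; push_cast; linarith
  have hg0 : (H0 : ℝ) ≤ e0 * g 0 := by
    have h1 := hh1 0
    rw [div_le_iff₀ (by positivity)] at hA2
    calc (H0 : ℝ) ≤ A * (e0 * (K + 1)) := hA2
      _ = A * (e0 * (K + 1)) * 1 := (mul_one _).symm
      _ ≤ A * (e0 * (K + 1)) * h (ws 0) := mul_le_mul_of_nonneg_left h1 (by positivity)
      _ = e0 * g 0 := by simp only [hgdef]; ring
  have hgstep : ∀ i, g i + H i ≤ e * g (i + 1) := fun i => by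
    have h1 := hh1 i
    calc g i + H i ≤ A * (K + 1) * h (ws i) + (K + 1) * h (ws i) := by
          have := hHle i
          simp only [hgdef]; linarith
      _ ≤ A * (K + 1) * h (ws i) + A * (K + 1) * h (ws i) := by
          have : (K + 1) * h (ws i) ≤ A * ((K + 1) * h (ws i)) :=
            le_mul_of_one_le_left (by positivity) hA1
          linarith
      _ = A * (K + 1) * (2 * h (ws i)) := by ring
      _ ≤ A * (K + 1) * (e * h (ws (i + 1))) := mul_le_mul_of_nonneg_left (hgr i) (by positivity)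
      _ = e * g (i + 1) := by simp only [hgdef]; ring
  -- power growth
  have hpow : ∀ m n, 2 ^ n * h (ws m) ≤ e ^ n * h (ws (m + n)) := by
    intro m n
    induction n with
    | zero => simp
    | succ n ih =>
      calc 2 ^ (n + 1) * h (ws m) = 2 * (2 ^ n * h (ws m)) := by rw [pow_succ]; ring
        _ ≤ 2 * (e ^ n * h (ws (m + n))) := mul_le_mul_of_nonneg_left ih (by positivity)
        _ = e ^ n * (2 * h (ws (m + n))) := by ring
        _ ≤ e ^ n * (e * h (ws (m + n + 1))) := mul_le_mul_of_nonneg_left (hgr _) (by positivity)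
        _ = _ := by rw [pow_succ]; ring_nf
  -- the bound
  set C1 : ℝ := 4 * (2 * (A * (K + 1)) + 2) / (q' * c) with hC1
  have hC1p : 0 < C1 := by positivity
  refine ⟨C1, hC1p, fun m n N hN => ?_⟩
  intro Ω m0 P _ F D hE Av hAv
  have hyp : Hyp P F D ws (fun i => lam * ws i) H H0 (a2 (ws (m + n))) m (m + n)
      e0 e q' (lam * ws m) :=
    { mono := hE.mono
      le := hE.le
      meas := hE.meas
      w_mono := hwsm
      ms := Nat.le_add_right _ _
      H0_pos := hH0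
      H_pos := fun i => Nat.succ_le_succ (Nat.zero_le _)
      e0_pos := he0
      e_pos := he
      e_le := hS.e_le
      c_pos := hq'
      low_ge := fun i hi _ => mul_le_mul_of_nonneg_left (hwsm hi) hlam.le
      E0 := fun k B hB => by
        have : ws 0 = w0 := by simp [hws]
        rw [this]; exact hE.E0 k B hB
      E1 := fun i _ k B hB hBs => by
        rw [hwsS]
        refine (hE.E1 (ws i) (hws1 i) k B hB hBs).trans (measureReal_mono ?_)
        exact Set.inter_subset_inter_right _ (up_mono (Nat.le_succ _) le_rfl)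
      E2 := fun k B hB hBs => by
        refine (hE.E2 (ws (m + n)) (hws1 _) k B hB hBs).trans (measureReal_mono ?_)
        exact Set.inter_subset_inter_right _
          (stay_anti (mul_le_mul_of_nonneg_left (hwsm (Nat.le_add_right _ _)) hlam.le) le_rfl) }
  have hhm := hh1 m
  have hhs := hh1 (m + n)
  set T1 : ℕ := ⌈2 * g m⌉₊ + 1 with hT1
  have hT1a : 1 ≤ T1 := Nat.succ_le_succ (Nat.zero_le _)
  have hT1b : 2 * g m ≤ T1 := by
    have := Nat.le_ceil (2 * g m)
    simp only [hT1]; push_cast; linarith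
  have hT1c : (T1 : ℝ) ≤ (2 * (A * (K + 1)) + 2) * h (ws m) := by
    have h1 := (Nat.ceil_lt_add_one (show 0 ≤ 2 * g m by have := g0 m; positivity)).le
    calc (T1 : ℝ) = ⌈2 * g m⌉₊ + 1 := by simp only [hT1]; push_cast; ring
      _ ≤ 2 * g m + 2 := by linarith
      _ = 2 * (A * (K + 1)) * h (ws m) + 2 * 1 := by simp only [hgdef]; ring
      _ ≤ _ := by linarith
  have h1 := occ hyp g0 hg0 (fun i _ => hgstep i) hT1a hT1b N hAv
  simp only [Nat.add_sub_cancel_left] at h1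
  set Sg : ℝ := ∑ k ∈ range N, P.real (Av ∩ {ω | D k ω < lam * ws m}) with hSg
  set T : ℕ := a2 (ws (m + n)) with hT
  have hch : 0 < c * h (ws (m + n)) := by positivity
  have hN' : c * h (ws (m + n)) ≤ N := hN
  have hTge : c * h (ws (m + n)) ≤ (T : ℝ) + 1 := hS.a2_ge _ (hws1 _)
  have hPA : 0 ≤ P.real Av := measureReal_nonneg
  have h2 : ((T1 * (N / (T + 1) + 1) : ℕ) : ℝ) ≤
      (2 * (A * (K + 1)) + 2) * h (ws m) * (2 * N / (c * h (ws (m + n)))) := by
    push_cast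
    refine mul_le_mul hT1c ?_ (by positivity) (by positivity)
    have h3 : ((N / (T + 1) : ℕ) : ℝ) ≤ N / (c * h (ws (m + n))) := by
      calc ((N / (T + 1) : ℕ) : ℝ) ≤ (N : ℝ) / ((T + 1 : ℕ) : ℝ) := Nat.cast_div_le
        _ ≤ _ := by
            push_cast
            exact div_le_div_of_nonneg_left (Nat.cast_nonneg _) hch hTge
    have h4 : 1 ≤ N / (c * h (ws (m + n))) := by
      rw [le_div_iff₀ hch]; linarith
    calc ((N / (T + 1) : ℕ) : ℝ) + 1
        ≤ N / (c * h (ws (m + n))) + N / (c * h (ws (m + n))) := add_le_add h3 h4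
      _ = _ := by ring
  have h6 : h (ws m) / h (ws (m + n)) ≤ (e * (1 / 2)) ^ n := by
    rw [div_le_iff₀ (by linarith), mul_pow, one_div, inv_pow]
    have h3 := hpow m n
    have h4 : h (ws m) ≤ (2 ^ n)⁻¹ * (e ^ n * h (ws (m + n))) := by
      rw [inv_mul_eq_div, le_div_iff₀ (by positivity)]; linarith
    linarith
  have h7 : e ^ n * (q' / 2) * Sg ≤ e ^ n * (q' / 2) * (C1 * (1 / 2) ^ n * N * P.real Av) := by
    calc e ^ n * (q' / 2) * Sg = e ^ n * q' / 2 * Sg := by ring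
      _ ≤ _ := h1
      _ ≤ (2 * (A * (K + 1)) + 2) * h (ws m) * (2 * N / (c * h (ws (m + n)))) * P.real Av :=
          mul_le_mul_of_nonneg_right h2 hPA
      _ = (2 * (A * (K + 1)) + 2) * (2 * N / c) * (h (ws m) / h (ws (m + n))) * P.real Av := by
          field_simp
      _ ≤ (2 * (A * (K + 1)) + 2) * (2 * N / c) * (e * (1 / 2)) ^ n * P.real Av :=
          mul_le_mul_of_nonneg_right (mul_le_mul_of_nonneg_left h6 (by positivity)) hPA
      _ = e ^ n * (q' / 2) * (C1 * (1 / 2) ^ n * N * P.real Av) := by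
          rw [mul_pow, hC1]; field_simp; ring
  exact le_of_mul_le_mul_left h7 (by positivity)

/-- **OCCUPATION, POWER FORM, uniform in the process.** -/
theorem occ_gen (hS : Scale h a1 a2 Λ e K c w1) (hlam : 0 < lam) (hq' : 0 < q') (hw : w1 ≤ w0)
    (hH0 : 1 ≤ H0) (he0 : 0 < e0) {wd : ℕ → ℝ} (hwd : Tendsto wd atTop atTop) {ρ : ℝ} (hρ : 0 < ρ)
    (fit : ∀ᶠ N : ℕ in atTop, ∀ w, ρ * wd N / Λ ≤ w → w ≤ ρ * wd N → c * h w ≤ N) :
    ∃ C c0 : ℝ, 0 < C ∧ 0 < c0 ∧ ∀ a : ℝ, 0 < a → a ≤ 1 → ∃ N0 : ℕ, ∀ N, N0 ≤ N →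
      ∀ {Ω : Type u} {m0 : MeasurableSpace Ω} (P : Measure Ω) [IsProbabilityMeasure P]
        (F : ℕ → MeasurableSpace Ω) (D : ℕ → Ω → ℝ), Esc3 P F D a1 a2 Λ e w1 q' lam w0 e0 H0 →
        ∀ A, MeasurableSet[F 0] A →
        ∑ k ∈ range N, P.real (A ∩ {ω | D k ω ≤ a * wd N}) ≤ C * a ^ c0 * N * P.real A := by
  obtain ⟨C1, hC1, hmain⟩ := occ_scale (h := h) hS hlam hq' hw hH0 he0
  have hΛ1 := hS.Λ1
  have hΛ0 : 0 < Λ := by linarith
  have hw0 : 0 < w0 := hS.w1_pos.trans_le hw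
  set c0 : ℝ := Real.logb Λ 2 with hc0
  have hc0p : 0 < c0 := Real.logb_pos hΛ1 one_lt_two
  have hΛc : Λ ^ c0 = 2 := Real.rpow_logb hΛ0 hΛ1.ne' two_pos
  set G : ℝ := Λ ^ 2 / (ρ * lam) with hG
  have hGp : 0 < G := by positivity
  refine ⟨(C1 + 1) * G ^ c0, c0, by positivity, hc0p, fun a ha ha1 => ?_⟩
  have e1 : ∀ᶠ N : ℕ in atTop, w0 ≤ ρ * wd N := by
    filter_upwards [hwd.eventually_ge_atTop (w0 / ρ)] with N hN
    rw [div_le_iff₀ hρ] at hN; linarith
  have e2 : ∀ᶠ N : ℕ in atTop, lam * w0 ≤ a * wd N := by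
    filter_upwards [hwd.eventually_ge_atTop (lam * w0 / a)] with N hN
    rw [div_le_iff₀ ha] at hN; linarith
  obtain ⟨N0, hN0⟩ := eventually_atTop.1 (e1.and (e2.and fit))
  refine ⟨N0, fun N hN => ?_⟩
  intro Ω m0 P _ F D hE Av hAv
  obtain ⟨f1, f2, f3⟩ := hN0 N hN
  have hPA : 0 ≤ P.real Av := measureReal_nonneg
  have hNn : (0 : ℝ) ≤ N := Nat.cast_nonneg _
  set W := wd N with hW
  have hWp : 0 < W := by
    by_contra hcon
    have := not_lt.1 hcon
    nlinarith
  have hb : (C1 + 1) * G ^ c0 * a ^ c0 = (C1 + 1) * (G * a) ^ c0 := by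
    rw [Real.mul_rpow hGp.le ha.le]; ring
  rw [hb]
  obtain ⟨s, hs1, hs2⟩ := exists_nat_pow_near (show 1 ≤ ρ * W / w0 by
    rw [le_div_iff₀ hw0]; linarith) hΛ1
  obtain ⟨m', hm1, hm2⟩ := exists_nat_pow_near (show 1 ≤ a * W / (lam * w0) by
    rw [le_div_iff₀ (by positivity)]; linarith) hΛ1
  rw [le_div_iff₀ hw0] at hs1
  rw [div_lt_iff₀ hw0] at hs2
  rw [le_div_iff₀ (by positivity)] at hm1
  rw [div_lt_iff₀ (by positivity)] at hm2
  rcases le_or_gt (m' + 1) s with hms | hms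
  · -- near radius below the scale `s`
    obtain ⟨n, rfl⟩ := Nat.exists_eq_add_of_le hms
    have k1 := f3 (Λ ^ (m' + 1 + n) * w0) (by
      rw [div_le_iff₀ hΛ0]
      calc ρ * W ≤ Λ ^ (m' + 1 + n + 1) * w0 := hs2.le
        _ = Λ ^ (m' + 1 + n) * w0 * Λ := by rw [pow_succ]; ring) hs1
    have k2 := hmain (m' + 1) n N k1 P F D hE Av hAv
    have k3 : ∑ k ∈ range N, P.real (Av ∩ {ω | D k ω ≤ a * W}) ≤
        ∑ k ∈ range N, P.real (Av ∩ {ω | D k ω < lam * (Λ ^ (m' + 1) * w0)}) := by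
      refine sum_le_sum fun k _ => measureReal_mono ?_
      refine Set.inter_subset_inter_right _ fun ω hω => ?_
      have : D k ω ≤ a * W := hω
      calc D k ω ≤ a * W := this
        _ < Λ ^ (m' + 1) * (lam * w0) := hm2
        _ = lam * (Λ ^ (m' + 1) * w0) := by ring
    have k4 : (1 / 2 : ℝ) ^ n ≤ (G * a) ^ c0 := by
      have k5 : 1 ≤ Λ ^ n * (G * a) := by
        have k6 : ρ * W < Λ ^ n * (Λ * Λ) * (Λ ^ m' * w0) := by
          calc ρ * W < Λ ^ (m' + 1 + n + 1) * w0 := hs2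
            _ = Λ ^ n * (Λ * Λ) * (Λ ^ m' * w0) := by ring
        have k7 : Λ ^ m' * w0 ≤ a * W / lam := by
          rw [le_div_iff₀ hlam]; linarith
        have k8 : ρ * W ≤ Λ ^ n * (Λ * Λ) * (a * W / lam) :=
          k6.le.trans (mul_le_mul_of_nonneg_left k7 (by positivity))
        have k9 : (ρ * W) * 1 ≤ (ρ * W) * (Λ ^ n * (G * a)) := by
          calc (ρ * W) * 1 = ρ * W := mul_one _
            _ ≤ _ := k8
            _ = (ρ * W) * (Λ ^ n * (G * a)) := by rw [hG]; field_simp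
        exact le_of_mul_le_mul_left k9 (by positivity)
      have k6 : 1 ≤ (Λ ^ n * (G * a)) ^ c0 := Real.one_le_rpow k5 hc0p.le
      rw [Real.mul_rpow (by positivity) (by positivity)] at k6
      have k7 : (Λ ^ n : ℝ) ^ c0 = 2 ^ n := by
        rw [← Real.rpow_natCast, ← Real.rpow_mul hΛ0.le, mul_comm, Real.rpow_mul hΛ0.le, hΛc,
          Real.rpow_natCast]
      rw [k7] at k6
      rw [one_div, inv_pow, inv_le_iff_one_le_mul₀ (by positivity)]
      linarith
    calc ∑ k ∈ range N, P.real (Av ∩ {ω | D k ω ≤ a * W}) ≤ _ := k3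
      _ ≤ C1 * (1 / 2) ^ n * N * P.real Av := k2
      _ ≤ C1 * (G * a) ^ c0 * N * P.real Av :=
          mul_le_mul_of_nonneg_right (mul_le_mul_of_nonneg_right
            (mul_le_mul_of_nonneg_left k4 hC1.le) hNn) hPA
      _ ≤ (C1 + 1) * (G * a) ^ c0 * N * P.real Av := by
          refine mul_le_mul_of_nonneg_right (mul_le_mul_of_nonneg_right
            (mul_le_mul_of_nonneg_right (by linarith) (by positivity)) hNn) hPA
  · -- trivial bound
    have k5 : 1 ≤ G * a := by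
      have k6 : Λ ^ s ≤ Λ ^ m' := pow_le_pow_right₀ hΛ1.le (by omega)
      have k7 : ρ * W ≤ (Λ ^ m' * Λ) * w0 := by
        calc ρ * W ≤ Λ ^ (s + 1) * w0 := hs2.le
          _ = (Λ ^ s * Λ) * w0 := by rw [pow_succ]
          _ ≤ (Λ ^ m' * Λ) * w0 := by
              refine mul_le_mul_of_nonneg_right (mul_le_mul_of_nonneg_right k6 hΛ0.le) hw0.le
      have k8 : Λ ^ m' * w0 ≤ a * W / lam := by
        rw [le_div_iff₀ hlam]; linarith
      have k9 : ρ * W ≤ Λ * Λ * (a * W / lam) := by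
        calc ρ * W ≤ (Λ ^ m' * Λ) * w0 := k7
          _ = Λ * 1 * (Λ ^ m' * w0) := by ring
          _ ≤ Λ * Λ * (Λ ^ m' * w0) := by
              refine mul_le_mul_of_nonneg_right (mul_le_mul_of_nonneg_left hΛ1.le hΛ0.le)
                (by positivity)
          _ ≤ _ := mul_le_mul_of_nonneg_left k8 (by positivity)
      have k10 : (ρ * W) * 1 ≤ (ρ * W) * (G * a) := by
        calc (ρ * W) * 1 = ρ * W := mul_one _
          _ ≤ _ := k9
          _ = (ρ * W) * (G * a) := by rw [hG]; field_simp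
      exact le_of_mul_le_mul_left k10 (by positivity)
    have k6 : 1 ≤ (G * a) ^ c0 := Real.one_le_rpow k5 hc0p.le
    calc ∑ k ∈ range N, P.real (Av ∩ {ω | D k ω ≤ a * W})
        ≤ ∑ k ∈ range N, P.real Av := sum_le_sum fun k _ => measureReal_mono Set.inter_subset_left
      _ = 1 * N * P.real Av := by simp
      _ ≤ (C1 + 1) * (G * a) ^ c0 * N * P.real Av := by
          refine mul_le_mul_of_nonneg_right (mul_le_mul_of_nonneg_right ?_ hNn) hPA
          nlinarith

end gen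

/-! ### the scale `h(w) = w² / U(w)` of a block law -/
section law

/-- the time scale `h(w) = w² / U(w)` -/
noncomputable abbrev hh (μ : Measure (ℝ × ℝ × ℝ)) (w : ℝ) : ℝ := w ^ 2 / U μ w

variable {μ : Measure (ℝ × ℝ × ℝ)} [IsProbabilityMeasure μ]

theorem scale_law (hμ : Law μ) {q K c : ℝ} (hq : 0 < q) (hq1 : q ≤ 1) (hK : 0 < K) (hc : 0 < c) :
    ∃ w1 : ℝ, ∀ w2, w1 ≤ w2 →
      Scale (hh μ) (fun w => ⌊K * hh μ w⌋₊) (fun w => ⌊c * hh μ w⌋₊) (4 / q) (q / (4 / q)) K c w2 := by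
  set Λ : ℝ := 4 / q with hΛdef
  have hΛ4 : 4 ≤ Λ := by
    rw [hΛdef, le_div_iff₀ hq]; linarith
  have hΛ1 : 1 < Λ := by linarith
  have hΛ0 : 0 < Λ := by linarith
  have hqΛ : q * Λ = 4 := by rw [hΛdef]; field_simp
  have he1 : q / Λ ≤ 1 := by
    rw [div_le_one hΛ0]; linarith
  have heΛ : q / Λ * Λ ^ 2 = 4 := by
    rw [← hqΛ]; field_simp
  obtain ⟨w3, h30, hg⟩ := Gam7.h_grow hμ hΛ1.le one_pos
  obtain ⟨w4, h4⟩ := eventually_atTop.1 ((Gam7.h_tendsto hμ).eventually_ge_atTop 1)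
  refine ⟨max w3 w4, fun w2 hw2 => ?_⟩
  have a3 : ∀ w, w2 ≤ w → w3 ≤ w := fun w hw => ((le_max_left _ _).trans hw2).trans hw
  have a4 : ∀ w, w2 ≤ w → w4 ≤ w := fun w hw => ((le_max_right _ _).trans hw2).trans hw
  have h1 : ∀ w, w2 ≤ w → 1 ≤ hh μ w := fun w hw => h4 w (a4 w hw)
  exact
    { w1_pos := h30.trans_le (a3 w2 le_rfl)
      Λ1 := hΛ1
      e_pos := by positivity
      e_le := he1
      K_pos := hK
      c_pos := hc
      one := h1
      grow := fun w hw => by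
        have h5 := (hg w (a3 w hw)).2
        have h6 : Λ ^ 2 * hh μ w ≤ 2 * hh μ (Λ * w) := by
          show Λ ^ 2 * (w ^ 2 / U μ w) ≤ 2 * ((Λ * w) ^ 2 / U μ (Λ * w))
          linarith
        have h7 : q / Λ * (Λ ^ 2 * hh μ w) ≤ q / Λ * (2 * hh μ (Λ * w)) :=
          mul_le_mul_of_nonneg_left h6 (by positivity)
        have h8 : q / Λ * (Λ ^ 2 * hh μ w) = 4 * hh μ w := by rw [← mul_assoc, heΛ]
        linarith
      a1_le := fun w hw => by
        have := h1 w hw
        exact Nat.floor_le (by positivity)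
      a2_ge := fun w hw => (Nat.lt_floor_add_one _).le }

theorem fit_law (hμ : Law μ) {wd : ℕ → ℝ} (hwd : Tendsto wd atTop atTop) {c1 : ℝ} (hc1 : 0 < c1)
    (hW : ∀ᶠ N : ℕ in atTop, c1 * wd N ^ 2 ≤ N * U μ (wd N)) {Λ c : ℝ} (hΛ : 1 < Λ) (hc : 0 < c) :
    ∃ ρ : ℝ, 0 < ρ ∧ ∀ᶠ N : ℕ in atTop, ∀ w, ρ * wd N / Λ ≤ w → w ≤ ρ * wd N →
      c * hh μ w ≤ N := by
  set ρ : ℝ := min 1 (c1 / (2 * c)) with hρ
  have hρ0 : 0 < ρ := by positivity
  have hρ1 : ρ ≤ 1 := min_le_left _ _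
  have hρ2 : ρ ^ 2 ≤ c1 / (2 * c) := by
    calc ρ ^ 2 = ρ * ρ := by ring
      _ ≤ 1 * (c1 / (2 * c)) := mul_le_mul hρ1 (min_le_right _ _) hρ0.le zero_le_one
      _ = _ := one_mul _
  have hΛ0 : 0 < Λ := by linarith
  have hδ1 : ρ / Λ ≤ 1 := by rw [div_le_one hΛ0]; linarith
  obtain ⟨w0, hw0, hs⟩ := Gam7.U_slow hμ (show 0 < ρ / Λ by positivity) hδ1 one_pos
  refine ⟨ρ, hρ0, ?_⟩
  filter_upwards [hwd.eventually_ge_atTop w0, hW] with N hN hWN
  intro w hw1 hw2
  have hWp : 0 < wd N := hw0.trans_le hN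
  obtain ⟨k1, k2⟩ := hs _ hN
  have hwp : 0 < w := lt_of_lt_of_le (by positivity) hw1
  have k3 : U μ (ρ / Λ * wd N) ≤ U μ w := Gam7.U_mono hμ (by positivity) (by
    calc ρ / Λ * wd N = ρ * wd N / Λ := by ring
      _ ≤ w := hw1)
  have hUw : 0 < U μ w := k1.trans_le k3
  have k4 : U μ (wd N) ≤ 2 * U μ w := by linarith
  have k5 : w ^ 2 ≤ c1 / (2 * c) * wd N ^ 2 := by
    calc w ^ 2 ≤ (ρ * wd N) ^ 2 := pow_le_pow_left₀ hwp.le hw2 2
      _ = ρ ^ 2 * wd N ^ 2 := by ring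
      _ ≤ _ := mul_le_mul_of_nonneg_right hρ2 (sq_nonneg _)
  show c * (w ^ 2 / U μ w) ≤ N
  rw [← mul_div_assoc, div_le_iff₀ hUw]
  calc c * w ^ 2 ≤ c * (c1 / (2 * c) * wd N ^ 2) := mul_le_mul_of_nonneg_left k5 hc.le
    _ = (c1 * wd N ^ 2) / 2 := by field_simp
    _ ≤ (N * U μ (wd N)) / 2 := by linarith
    _ ≤ (N * (2 * U μ w)) / 2 := by
        have := mul_le_mul_of_nonneg_left k4 (Nat.cast_nonneg (α := ℝ) N)
        linarith
    _ = N * U μ w := by ring

variable {Ω : Type u} {m0 : MeasurableSpace Ω} {P : Measure Ω} [IsProbabilityMeasure P]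
  {F : ℕ → MeasurableSpace Ω} {D : ℕ → Ω → ℝ}

/-- (E0): any distance `W` is reached from any state within `H0` levels with probability `e0` -/
def HE0 (P : Measure Ω) (F : ℕ → MeasurableSpace Ω) (D : ℕ → Ω → ℝ) : Prop :=
  ∀ W : ℝ, ∃ H0 : ℕ, ∃ e0 : ℝ, 0 < e0 ∧ ∀ k B, MeasurableSet[F k] B →
    P.real (B ∩ Miss D W k H0) ≤ (1 - e0) * P.real B

/-- (E1): from `D k ≥ w` the distance `Λ w` is reached within `K h(w)` levels, staying `≥ lam w`,
with probability `q / Λ` -/
def HE1 (P : Measure Ω) (F : ℕ → MeasurableSpace Ω) (D : ℕ → Ω → ℝ) (μ : Measure (ℝ × ℝ × ℝ))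
    (lam q : ℝ) : Prop :=
  ∀ Λ : ℝ, 1 < Λ → ∃ K w1 : ℝ, 0 < K ∧ ∀ w, w1 ≤ w → ∀ k B, MeasurableSet[F k] B →
    B ⊆ {ω | w ≤ D k ω} →
    q / Λ * P.real B ≤ P.real (B ∩ Up D (Λ * w) (lam * w) k ⌊K * hh μ w⌋₊)

/-- (E2): from `D k ≥ w` the process stays `≥ lam w` for `c h(w)` levels with probability `q'` -/
def HE2 (P : Measure Ω) (F : ℕ → MeasurableSpace Ω) (D : ℕ → Ω → ℝ) (μ : Measure (ℝ × ℝ × ℝ))
    (lam q' : ℝ) : Prop :=
  ∃ c w1 : ℝ, 0 < c ∧ ∀ w, w1 ≤ w → ∀ k B, MeasurableSet[F k] B →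
    B ⊆ {ω | w ≤ D k ω} →
    q' * P.real B ≤ P.real (B ∩ Stay D (lam * w) k ⌊c * hh μ w⌋₊)

/-- **OCCUPATION, POWER FORM, from the three quantifier Props.** -/
theorem occ_pow (hμ : Law μ) (hF : Monotone F) (hle : ∀ k, F k ≤ m0)
    (hD : ∀ k, Measurable[F k] (D k)) {l1 l2 q q' : ℝ} (hl1 : 0 < l1) (hl2 : 0 < l2)
    (hq : 0 < q) (hq1 : q ≤ 1) (hq' : 0 < q')
    (E0 : HE0 P F D) (E1 : HE1 P F D μ l1 q) (E2 : HE2 P F D μ l2 q')
    {wd : ℕ → ℝ} (hwd : Tendsto wd atTop atTop) {c1 : ℝ} (hc1 : 0 < c1)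
    (hW : ∀ᶠ N : ℕ in atTop, c1 * wd N ^ 2 ≤ N * U μ (wd N)) :
    ∃ C c0 : ℝ, 0 < C ∧ 0 < c0 ∧ ∀ a : ℝ, 0 < a → a ≤ 1 → ∃ N0 : ℕ, ∀ N, N0 ≤ N →
      ∀ A, MeasurableSet[F 0] A →
      ∑ k ∈ range N, P.real (A ∩ {ω | D k ω ≤ a * wd N}) ≤ C * a ^ c0 * N * P.real A := by
  have hΛ1 : 1 < 4 / q := by rw [lt_div_iff₀ hq]; linarith
  obtain ⟨K, w1, hK, hE1⟩ := E1 (4 / q) hΛ1
  obtain ⟨c, w2, hc, hE2⟩ := E2
  obtain ⟨w3, hsc⟩ := scale_law hμ hq hq1 hK hc
  set w0 : ℝ := max (max w1 w2) w3 with hw0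
  have b1 : w1 ≤ w0 := (le_max_left _ _).trans (le_max_left _ _)
  have b2 : w2 ≤ w0 := (le_max_right _ _).trans (le_max_left _ _)
  have hS := hsc w0 (le_max_right _ _)
  obtain ⟨H0, e0, he0, hE0⟩ := E0 w0
  obtain ⟨ρ, hρ, hfit⟩ := fit_law hμ hwd hc1 hW hΛ1 hc
  set lam : ℝ := min l1 l2 with hlam
  have hlam0 : 0 < lam := lt_min hl1 hl2
  obtain ⟨C, c0, hC, hc0, hfin⟩ := occ_gen (H0 := H0 + 1) (e0 := e0) (q' := q') (lam := lam) hS
    hlam0 hq' le_rfl (Nat.succ_le_succ (Nat.zero_le _)) he0 hwd hρ hfit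
  refine ⟨C, c0, hC, hc0, fun a ha ha1 => ?_⟩
  obtain ⟨N0, hN0⟩ := hfin a ha ha1
  refine ⟨N0, fun N hN => hN0 N hN P F D ?_⟩
  have hw0p : 0 < w0 := hS.w1_pos
  exact
    { mono := hF
      le := hle
      meas := hD
      E0 := fun k B hB => by
        refine (measureReal_mono ?_).trans (hE0 k B hB)
        refine Set.inter_subset_inter_right _ fun ω hω j hj => hω j (by omega)
      E1 := fun w hw k B hB hBs => by
        refine (hE1 w (b1.trans hw) k B hB hBs).trans (measureReal_mono ?_)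
        exact Set.inter_subset_inter_right _ (up_mono le_rfl
          (mul_le_mul_of_nonneg_right (min_le_left _ _) (hw0p.le.trans hw)))
      E2 := fun w hw k B hB hBs => by
        refine (hE2 w (b2.trans hw) k B hB hBs).trans (measureReal_mono ?_)
        exact Set.inter_subset_inter_right _ (stay_anti
          (mul_le_mul_of_nonneg_right (min_le_right _ _) (hw0p.le.trans hw)) le_rfl) }

end law

end Crest.Agent.R154.OccPow7
end

-- ▼ part R154/LawTri_546
section

/-! Row 154, `d = 2` (helper546): `Gam7.Law` of the real triple of a joint block from 738's NDA. -/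

set_option autoImplicit false
set_option linter.unusedSectionVars false
set_option linter.deprecated false

namespace Crest.Agent.R154.LawTri546

open MeasureTheory ProbabilityTheory Filter Set Crest.ProbabilityR.RandomEnvironment
open Crest.Agent.R154.Mk561 Crest.Agent.R154.Bind263
open Crest.Agent.R154.J132 (triL tri jlawOf probTri tri_symm tri_le measurable_wd one_le_Yw)
open Crest.Agent.R154.J6_24 (phi)
open Crest.Agent.R154.NDAObj24 (Vt Bt Rt core_tri integrable_Rt)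
open Crest.Agent.R154.EscObj546 (triR tr3)
open scoped ENNReal Topology

variable {d : ℕ} {u : Step d} {κ : ℝ} {Q : Measure (Environment d)} [IsProbabilityMeasure Q]

/-- cast of the height -/
def cst (t : ℝ × ℝ × ℕ) : ℝ × ℝ × ℝ := (t.1, t.2.1, (t.2.2 : ℝ))

lemma measurable_cst : Measurable cst :=
  measurable_fst.prodMk ((measurable_fst.comp measurable_snd).prodMk
    ((measurable_of_countable (fun n : ℕ => (n : ℝ))).comp (measurable_snd.comp measurable_snd)))

lemma triR_eq (φ : Site d →+ ℝ) : triR Q κ u φ = (triL Q κ 0 u φ).map cst := by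
  unfold triR triL jlawOf
  rw [Measure.map_map measurable_cst (measurable_wd _ (one_le_Yw u))]
  rfl

lemma U_eq (φ : Site d →+ ℝ) (t : ℝ) :
    Gam7.U (triR Q κ u φ) t = Hair738.U (triL Q κ 0 u φ) Vt Bt t := by
  have hm : MeasurableSet {x : ℝ × ℝ × ℝ | x.2.1 ≤ t} :=
    measurableSet_le (measurable_fst.comp measurable_snd) measurable_const
  have hm' : MeasurableSet {x : ℝ × ℝ × ℕ | Bt x ≤ t} :=
    measurableSet_le (measurable_fst.comp measurable_snd) measurable_const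
  unfold Gam7.U Hair738.U
  rw [triR_eq, integral_map measurable_cst.aemeasurable
    ((measurable_fst.pow_const 2).indicator hm).aestronglyMeasurable, ← integral_indicator hm']
  rfl

lemma Tl_eq (φ : Site d →+ ℝ) (t : ℝ) :
    Gam7.Tl (triR Q κ u φ) t = Hair738.T (triL Q κ 0 u φ) Bt t := by
  have hm : MeasurableSet {x : ℝ × ℝ × ℝ | t < x.2.1} :=
    measurableSet_lt measurable_const (measurable_fst.comp measurable_snd)
  unfold Gam7.Tl Hair738.T
  rw [triR_eq, measureReal_def, Measure.map_apply measurable_cst hm, ← measureReal_def]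
  rfl

/-- **`Gam7.Law` of the joint block, from 738's NDA** -/
theorem law (F : Frame Q κ 0) (hA : annealedProb Q 0 (escapeEvent (B2d.dirVec u)) ≠ 0)
    {i : Fin d} (hi : i ≠ u.1)
    (hN : Hair738.NDA (Hair738.T (triL Q κ 0 u (phi i)) Bt)
      (Hair738.U (triL Q κ 0 u (phi i)) Vt Bt)) : Gam7.Law (triR Q κ u (phi i)) where
  symm := by
    have hm : Measurable (fun x : ℝ × ℝ × ℝ => (-x.1, x.2)) :=
      measurable_fst.neg.prodMk measurable_snd
    have hm' : Measurable (fun x : ℝ × ℝ × ℕ => (-x.1, x.2)) :=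
      measurable_fst.neg.prodMk measurable_snd
    rw [triR_eq, Measure.map_map hm measurable_cst]
    have : (fun x : ℝ × ℝ × ℝ => (-x.1, x.2)) ∘ cst = cst ∘ (fun x : ℝ × ℝ × ℕ => (-x.1, x.2)) :=
      rfl
    rw [this, ← Measure.map_map measurable_cst hm', tri_symm F hA]
  bd := by
    have hm : MeasurableSet {x : ℝ × ℝ × ℝ | |x.1| ≤ 2 * x.2.1} :=
      measurableSet_le (measurable_norm.comp measurable_fst)
        ((measurable_fst.comp measurable_snd).const_mul 2)
    rw [triR_eq, ae_map_iff measurable_cst.aemeasurable hm]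
    filter_upwards [tri_le F hA (phi i)] with t ht
    have h0 := (abs_nonneg t.1).trans ht.1
    change |t.1| ≤ 2 * t.2.1
    linarith [ht.1]
  nd := by
    obtain ⟨w, hw⟩ := (core_tri F hA hi).Upos
    exact ⟨w, by rw [U_eq]; exact hw⟩
  nda := by
    have hc := core_tri F hA hi
    obtain ⟨w0, hw0⟩ := hc.Upos
    have hU : ∀ᶠ w : ℝ in atTop, 0 < Gam7.U (triR Q κ u (phi i)) w := by
      filter_upwards [eventually_ge_atTop w0] with w hw
      rw [U_eq]
      exact hw0.trans_le (hc.Umono hw)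
    rw [tendsto_order]
    constructor
    · intro a ha
      filter_upwards [hU] with w hw
      refine ha.trans_le ?_
      rw [Tl_eq]
      exact div_nonneg (mul_nonneg (sq_nonneg _) (hc.T0 w)) hw.le
    · intro a ha
      filter_upwards [hU, hN (a/2) (by positivity)] with w hw h1
      rw [div_lt_iff₀ hw, Tl_eq]
      rw [← U_eq] at h1
      nlinarith

/-- the height is integrable -/
theorem int_R (F : Frame Q κ 0) (hA : annealedProb Q 0 (escapeEvent (B2d.dirVec u)) ≠ 0)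
    (i : Fin d) : Integrable (fun x : ℝ × ℝ × ℝ => x.2.2) (triR Q κ u (phi i)) := by
  rw [triR_eq]
  have hm : Measurable (fun x : ℝ × ℝ × ℝ => x.2.2) := measurable_snd.comp measurable_snd
  exact (integrable_map_measure hm.aestronglyMeasurable measurable_cst.aemeasurable).2
    (integrable_Rt F hA i)

end Crest.Agent.R154.LawTri546
end

-- ▼ part R154/OccN_2
section

/-!
Row 154, `d = 2` (helper2): the near occupation of two walkers from `0` in the same environment in the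
letters `EK` (exit kernels of `{lev < l}`, D2V_36), bounded by the law of the distance `Dr` of the
same-environment pair of marked walkers (EscObj_546).

* `ek_le` : quenched, any `d`; `ek_PS` : annealed, any `d`;
* `ek_sl` : the same with 916's slanted coordinate, `d = 2`;
* `occP_of` : `D2V36.OccP` from the occupation bound of the process `Dr`.
-/

set_option autoImplicit false
set_option linter.unusedSectionVars false
set_option linter.deprecated false

namespace Crest.Agent.R154.OccN2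

open MeasureTheory ProbabilityTheory Filter Set Crest.ProbabilityR.RandomEnvironment
open Crest.Agent.R154.Q561 Crest.Agent.R154.Mk561 Crest.Agent.R154.B6I
open Crest.Agent.R154.Bind263
open Crest.Agent.R154.Flux132 (lev)
open Crest.Agent.R154.PInd546 Crest.Agent.R154.EscObj546
open Crest.Agent.R154.ExK9
open scoped ENNReal Topology

variable {d : ℕ} {u : Step d} {κ : ℝ} {Q : Measure (Environment d)} [IsProbabilityMeasure Q]

/-- both walkers start at `0` -/
def s00 (u : Step d) : SP u := ⟨(0, 0), rfl⟩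

/-- sites strictly below the level `l` -/
def Sbd (u : Step d) (l : ℕ) : Set (Site d) := {y | lev u y < (l : ℤ)}

/-- the first exit of `{lev < l}` is the first hit of the level `l` -/
lemma hit_of_exS {l : ℕ} {y : Site d} {M : MPath d} (h : mpath 0 M ∈ ExS (Sbd u l) y) :
    ∃ n, Hit u l M n ∧ pos 0 M n = y ∧ lev u y = l := by
  obtain ⟨hy, n, hn, hi⟩ := h
  have hn' : pos 0 M n = y := hn
  have hlev : ∀ m, lev u (pos 0 M m) = zt u M m := fun m => by
    rw [lev_pos, B6I.lev_zero, zero_add]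
  have hlt : ∀ k < n, zt u M k < l := fun k hk => by
    have := hi k hk
    rw [← hlev k]
    exact this
  have hge : (l : ℤ) ≤ zt u M n := by
    rw [← hlev n, hn']
    exact not_lt.1 hy
  have heq : zt u M n = l := by
    rcases Nat.eq_zero_or_pos n with h0 | hpos
    · subst h0
      rw [zt_zero] at hge ⊢
      have : (0 : ℤ) ≤ l := Int.natCast_nonneg l
      omega
    · have h1 := hlt (n-1) (by omega)
      have h2 := zt_step u M (n-1)
      rw [show n - 1 + 1 = n by omega] at h2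
      have := (abs_le.1 h2).2
      omega
  exact ⟨n, ⟨heq, hlt⟩, hn', by rw [← hn', hlev, heq]⟩

/-- distance at the first hits -/
lemma Dr_of_exS {i : Fin d} {l : ℕ} {y y' : Site d} {p : PP d}
    (h : mpath 0 p.1 ∈ ExS (Sbd u l) y) (h' : mpath 0 p.2 ∈ ExS (Sbd u l) y') :
    Dr i (s00 u) l p = |(y i : ℝ) - (y' i : ℝ)| ∧ lev u y = l ∧ lev u y' = l := by
  obtain ⟨n, hn, hy, hl⟩ := hit_of_exS h
  obtain ⟨n', hn', hy', hl'⟩ := hit_of_exS h'
  refine ⟨?_, hl, hl'⟩
  have h1 := tip_val (s00 u) hn hn'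
  have h2 : (tip l (s00 u) p).1 = (y, y') := by
    rw [h1]
    exact Prod.ext hy hy'
  unfold Dr Dd ldf
  rw [h2]
  push_cast
  rfl

/-- **quenched**: the pair of exits of `{lev < l}`, any set `T` of pairs of sites of the level `l` whose
distance in the coordinate `i` is at most `r`. -/
theorem ek_le {ω : Environment d} (hω : ∀ z e, kf d κ ≤ (ω z).1 e) (i : Fin d) (l : ℕ) {r : ℝ}
    {T : Set (Site d × Site d)}
    (hT : ∀ y y', (y, y') ∈ T → lev u y = l → lev u y' = l → |(y i : ℝ) - (y' i : ℝ)| ≤ r) :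
    ∑' y : Site d, ∑' y' : Site d, EK ω (Sbd u l) 0 y * EK ω (Sbd u l) 0 y' *
        T.indicator 1 (y, y')
      ≤ ((mkLaw κ ω 0).prod (mkLaw κ ω 0)) {p : PP d | Dr i (s00 u) l p ≤ r} := by
  classical
  set A := Sbd u l with hA
  set E : Site d → Set (MPath d) := fun y => mpath 0 ⁻¹' ExS A y with hE
  have hEm : ∀ y, MeasurableSet (E y) := fun y => measurable_mpath 0 (measurableSet_ExS A y)
  have hEK : ∀ y, EK ω A 0 y = mkLaw κ ω 0 (E y) := fun y => by
    unfold EK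
    rw [← mk_projection_of_le hω 0, Measure.map_apply (measurable_mpath 0)
      (measurableSet_ExS A y)]
  have hdis : ∀ y y', y ≠ y' → Disjoint (E y) (E y') := fun y y' h =>
    (ExS_disjoint A h).preimage _
  -- the sets of pairs
  set G : Site d × Site d → Set (PP d) := fun q => if q ∈ T then E q.1 ×ˢ E q.2 else ∅ with hG
  have hGm : ∀ q, MeasurableSet (G q) := fun q => by
    simp only [hG]
    split_ifs
    · exact (hEm _).prod (hEm _)
    · exact MeasurableSet.empty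
  have hGd : Pairwise (Function.onFun Disjoint G) := by
    intro q q' hne
    rw [Function.onFun, Set.disjoint_left]
    intro p hp hp'
    simp only [hG] at hp hp'
    split_ifs at hp hp' with a b
    · by_cases h1 : q.1 = q'.1
      · have h2 : q.2 ≠ q'.2 := fun h2 => hne (Prod.ext h1 h2)
        exact Set.disjoint_left.1 (hdis _ _ h2) hp.2 hp'.2
      · exact Set.disjoint_left.1 (hdis _ _ h1) hp.1 hp'.1
    · exact hp'
    · exact hp
    · exact hp
  have e1 : ∑' y : Site d, ∑' y' : Site d, EK ω A 0 y * EK ω A 0 y' * T.indicator 1 (y, y')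
      = ∑' q : Site d × Site d, ((mkLaw κ ω 0).prod (mkLaw κ ω 0)) (G q) := by
    rw [ENNReal.tsum_prod' (f := fun q => ((mkLaw κ ω 0).prod (mkLaw κ ω 0)) (G q))]
    refine tsum_congr fun y => tsum_congr fun y' => ?_
    by_cases h : (y, y') ∈ T
    · simp only [hG, if_pos h, Set.indicator_of_mem h, Pi.one_apply, mul_one]
      rw [Measure.prod_prod, hEK, hEK]
    · simp only [hG, if_neg h, Set.indicator_of_notMem h, mul_zero, measure_empty]
  rw [e1, ← measure_iUnion hGd hGm]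
  refine measure_mono (Set.iUnion_subset fun q => ?_)
  intro p hp
  simp only [hG] at hp
  split_ifs at hp with h
  · obtain ⟨h1, h2, h3⟩ := Dr_of_exS (i := i) (p := p) hp.1 hp.2
    change Dr i (s00 u) l p ≤ r
    rw [h1]
    exact hT q.1 q.2 h h2 h3
  · exact hp.elim

/-- **annealed** -/
theorem ek_PS (hell : ∀ᵐ ω ∂Q, ∀ z e, kf d κ ≤ (ω z).1 e) (i : Fin d) (l : ℕ) {r : ℝ}
    {T : Set (Site d × Site d)}
    (hT : ∀ y y', (y, y') ∈ T → lev u y = l → lev u y' = l → |(y i : ℝ) - (y' i : ℝ)| ≤ r) :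
    ∫⁻ ω, ∑' y : Site d, ∑' y' : Site d, EK ω (Sbd u l) 0 y * EK ω (Sbd u l) 0 y' *
        T.indicator 1 (y, y') ∂Q
      ≤ PSm κ Q 0 0 {p : PP d | Dr i (s00 u) l p ≤ r} := by
  have hm : MeasurableSet {p : PP d | Dr i (s00 u) l p ≤ r} :=
    Fl_le l _ (measurableSet_le (Dr_meas i (s00 u) l) (@measurable_const _ _ _ (Fl u l) r))
  rw [PSm_apply κ Q 0 0 hm]
  refine lintegral_mono_ae ?_
  filter_upwards [hell] with ω hω
  exact ek_le hω i l hT

/-! ### the occupation bound for the process `Dr` -/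

section occ

variable {i : Fin d}

lemma pn_le_one : pn κ Q u ≤ 1 := by
  unfold pn
  exact measureReal_le_one

/-- 7's three quantifier Props hold for the pair started from `s`; occupation bound, power form. -/
theorem occ_Dr (F : Frame Q 0 0) (h1 : annealedProb Q 0 (escapeEvent (B2d.dirVec u)) = 1)
    {κ' : ℝ} (hκ : 0 < κ') (hell : ∀ᵐ ω ∂Q, ∀ (z : Site d) (e : Step d), κ' ≤ (ω z).1 e)
    {i : Fin d} (hi : i ≠ u.1) {φ : Site d →+ ℝ} (hφ : ∀ z, φ z = (z i : ℝ))
    (hμ : Gam7.Law (triR Q 0 u φ))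
    (hR : Integrable (fun x : ℝ × ℝ × ℝ => x.2.2) (triR Q 0 u φ))
    {wd : ℕ → ℝ} (hwd : Tendsto wd atTop atTop) {c1 : ℝ} (hc1 : 0 < c1)
    (hW : ∀ᶠ N : ℕ in atTop, c1 * wd N ^ 2 ≤ N * Gam7.U (triR Q 0 u φ) (wd N)) (s : SP u) :
    ∃ C c0 : ℝ, 0 < C ∧ 0 < c0 ∧ ∀ a : ℝ, 0 < a → a ≤ 1 → ∃ N0 : ℕ, ∀ N, N0 ≤ N →
      ∑ k ∈ Finset.range N, (PSm 0 Q s.1.1 s.1.2).real {p : PP d | Dr i s k p ≤ a * wd N}
        ≤ C * a ^ c0 * N := by
  have hA : annealedProb Q 0 (escapeEvent (B2d.dirVec u)) ≠ 0 := by rw [h1]; exact one_ne_zero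
  have hpr := J132.probPr F hA
  have hpt : IsProbabilityMeasure (triR Q 0 u φ) := J132.probJ (tr3 u φ) F hA
  have hp : 0 < pn 0 Q u := pn_pos F hA
  have hp1 : pn 0 Q u ≤ 1 := pn_le_one
  have hpp : pn 0 Q u ^ 2 ≤ 1 := pow_le_one₀ hp.le hp1
  have E0' : OccPow7.HE0 (PSm 0 Q s.1.1 s.1.2) (Fl u) (Dr i s) := by
    intro W
    obtain ⟨H0, e0, _, he0, hE⟩ := EscObj546.E0 F h1 hκ hell hi W
    exact ⟨H0, e0, he0, fun k B hB => hE s k B hB⟩
  have E1' : OccPow7.HE1 (PSm 0 Q s.1.1 s.1.2) (Fl u) (Dr i s) (triR Q 0 u φ) (1/4)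
      (pn 0 Q u ^ 2 / 4) := by
    intro Λ hΛ
    obtain ⟨K, w0, hK, _, hE⟩ := EscObj546.E1 F h1 hφ hμ hR hΛ
    refine ⟨K, w0, hK, fun w hw k B hB hBD => ?_⟩
    have := (hE w hw).2.2 s k B hB hBD
    rw [show 1 / 4 * w = w / 4 by ring]
    exact this
  have E2' : OccPow7.HE2 (PSm 0 Q s.1.1 s.1.2) (Fl u) (Dr i s) (triR Q 0 u φ) (1/2)
      (pn 0 Q u ^ 2 / 2) := by
    obtain ⟨c, w0, hc, _, hE⟩ := EscObj546.E2 F h1 hφ hμ
    refine ⟨c, w0, hc, fun w hw k B hB hBD => ?_⟩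
    have := (hE w hw).2 s k B hB hBD
    rw [show 1 / 2 * w = w / 2 by ring]
    exact this
  obtain ⟨C, c0, hC, hc0, hocc⟩ := OccPow7.occ_pow (P := PSm 0 Q s.1.1 s.1.2) (F := Fl u)
    (D := Dr i s) hμ Fl_mono (fun k => Fl_le k) (Dr_meas i s) (l1 := 1/4) (l2 := 1/2)
    (by norm_num) (by norm_num) (by positivity) (by linarith) (by positivity) E0' E1' E2' hwd hc1 hW
  refine ⟨C, c0, hC, hc0, fun a ha ha1 => ?_⟩
  obtain ⟨N0, hN⟩ := hocc a ha ha1
  refine ⟨N0, fun N hNN => ?_⟩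
  have := hN N hNN Set.univ (@MeasurableSet.univ _ (Fl u 0))
  simpa using this

end occ

/-! ### `OccP` -/

section two

variable {u : Step 2} {i : Fin 2}


/-- **`OccP` from the occupation bound of the pair.** -/
theorem occP_of {ν : Measure (Row 2)} [IsProbabilityMeasure ν]
    (hν : ∀ᵐ q ∂ν, ∀ e : Step 2, 0 < q.1 e) (θ : ℝ) (wd : ℕ → ℕ)
    (h : ∃ C c0 : ℝ, 0 < C ∧ 0 < c0 ∧ ∀ a : ℝ, 0 < a → a ≤ 1 → ∃ N0 : ℕ, ∀ N, N0 ≤ N →
      ∑ k ∈ Finset.range N, (PSm 0 (iidEnvironmentLaw ν) 0 0).real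
        {p : PP 2 | Dr i (s00 u) k p ≤ a * (wd N : ℝ)} ≤ C * a ^ c0 * N) :
    D2V36.OccP u i θ ν wd := by
  obtain ⟨C, c0, hC, hc0, hocc⟩ := h
  refine ⟨C, c0, hC, hc0, fun a ha ha1 => ?_⟩
  obtain ⟨N0, hN⟩ := hocc a ha ha1
  refine ⟨N0, fun N hNN => ?_⟩
  have h2 := hN N hNN
  refine le_trans ?_ (ENNReal.ofReal_le_ofReal h2)
  rw [ENNReal.ofReal_sum_of_nonneg fun k _ => measureReal_nonneg]
  refine Finset.sum_le_sum fun l _ => ?_
  rw [ofReal_measureReal]
  have h3 := ek_PS (u := u) (κ := 0) (Q := iidEnvironmentLaw ν) (frame_iid ν hν).ell i l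
    (r := a * (wd N : ℝ))
    (T := {p : Site 2 × Site 2 | |P2916.sl u i θ p.1 - P2916.sl u i θ p.2| ≤ a * wd N})
    (fun y y' hyy h4 h5 => by
      have h6 : |P2916.sl u i θ y - P2916.sl u i θ y'| ≤ a * wd N := hyy
      unfold P2916.sl at h6
      rw [h4, h5] at h6
      refine le_trans (le_of_eq ?_) h6
      congr 1
      ring)
  exact h3

/-- 738's width fits `h = w² / U` -/
lemma fitJ (ν : Measure (Row 2)) [IsProbabilityMeasure ν]
    (hν' : ∀ᵐ q ∂ν, ∀ e : Step 2, 0 < q.1 e) (hi : i ≠ u.1)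
    (hA' : annealedProb (iidEnvironmentLaw ν) 0 (escapeEvent (B2d.dirVec u)) ≠ 0) :
    ∀ᶠ N : ℕ in atTop, (1/256 : ℝ) * (NDAObj24.wdJ (iidEnvironmentLaw ν) 0 0 u i N : ℝ) ^ 2 ≤
      N * Gam7.U (triR (iidEnvironmentLaw ν) 0 u (J6_24.phi i))
        (NDAObj24.wdJ (iidEnvironmentLaw ν) 0 0 u i N : ℝ) := by
  have hN := NDAObj24.nda_obj (u := u) ν hν' hi hA'
  have hc := NDAObj24.core_tri (frame_iid ν hν') hA' hi
  filter_upwards [hN.wd_sq_le hc] with N h
  rw [LawTri546.U_eq]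
  have h' : (NDAObj24.wdJ (iidEnvironmentLaw ν) 0 0 u i N : ℝ)^2 ≤ 256 * (N *
    Hair738.U (J132.triL (iidEnvironmentLaw ν) 0 0 u (J6_24.phi i)) NDAObj24.Vt NDAObj24.Bt
      (NDAObj24.wdJ (iidEnvironmentLaw ν) 0 0 u i N : ℝ)) := h
  linarith

lemma tendJ (ν : Measure (Row 2)) [IsProbabilityMeasure ν]
    (hν' : ∀ᵐ q ∂ν, ∀ e : Step 2, 0 < q.1 e) (hi : i ≠ u.1)
    (hA' : annealedProb (iidEnvironmentLaw ν) 0 (escapeEvent (B2d.dirVec u)) ≠ 0) :
    Tendsto (fun N : ℕ => (NDAObj24.wdJ (iidEnvironmentLaw ν) 0 0 u i N : ℝ)) atTop atTop := by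
  have hc := NDAObj24.core_tri (frame_iid ν hν') hA' hi
  have h := Hair738.wd_tendstoR hc
  exact h

/-- **`OccP` with the width of the joint blocks, UNCONDITIONAL.** -/
theorem occP (ν : Measure (Row 2)) [IsProbabilityMeasure ν] {κ' : ℝ} (hκ : 0 < κ')
    (hν : ∀ᵐ q ∂ν, ∀ e : Step 2, κ' ≤ q.1 e) (hi : i ≠ u.1)
    (hA : annealedProb (iidEnvironmentLaw ν) 0 (escapeEvent (B2d.dirVec u)) = 1) (θ : ℝ) :
    D2V36.OccP u i θ ν (NDAObj24.wdJ (iidEnvironmentLaw ν) 0 0 u i) := by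
  have hν' : ∀ᵐ q ∂ν, ∀ e : Step 2, 0 < q.1 e := by
    filter_upwards [hν] with q hq e
    exact hκ.trans_le (hq e)
  have F : Frame (iidEnvironmentLaw ν) 0 0 := frame_iid ν hν'
  have hA' : annealedProb (iidEnvironmentLaw ν) 0 (escapeEvent (B2d.dirVec u)) ≠ 0 := by
    rw [hA]; exact one_ne_zero
  have hell : ∀ᵐ ω ∂(iidEnvironmentLaw ν), ∀ (z : Site 2) (e : Step 2), κ' ≤ (ω z).1 e := by
    rw [ae_all_iff]
    intro x
    have hmap : (iidEnvironmentLaw ν).map (fun ω : Environment 2 => ω x) = ν := by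
      rw [iidEnvironmentLaw]
      exact Measure.infinitePi_map_eval _ _
    have := hν
    rw [← hmap] at this
    exact ae_of_ae_map (measurable_pi_apply x).aemeasurable this
  have hN := NDAObj24.nda_obj (u := u) ν hν' hi hA'
  have hc := NDAObj24.core_tri F hA' hi
  have hμ := LawTri546.law F hA' hi hN
  have hR := LawTri546.int_R (u := u) F hA' i
  exact occP_of hν' θ (NDAObj24.wdJ (iidEnvironmentLaw ν) 0 0 u i)
    (occ_Dr F hA hκ hell hi (φ := J6_24.phi i) (fun z => J6_24.phi_apply i z) hμ hR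
      (wd := fun N => (NDAObj24.wdJ (iidEnvironmentLaw ν) 0 0 u i N : ℝ))
      (tendJ ν hν' hi hA') (c1 := 1/256) (by norm_num) (fitJ ν hν' hi hA') (s00 u))

end two

end Crest.Agent.R154.OccN2
end

-- ▼ part R154/SlabUse_28
section

/-!
# Row 154, block d = 2 (helper28): consumers of the slab lemma on the real objects

* `Down u l` : the path ever visits a level `≤ l`; `tendsto_down`, `down_shift`;
* `Esc` is almost sure from every site, the killed slab kernel has mass close to one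
  (`lint_deficit`);
* `Out S s x K` : the path leaves the window `|s - s x| < K` before (or when) it leaves the slab;
  exit tails and second moments of the killed slab kernel from tails of `Out` (`lint_sq`);
* `noback` : the walk leaves the slab through the top, inside the window.
-/

set_option autoImplicit false
set_option linter.unusedVariables false
set_option linter.unusedSectionVars false
set_option linter.deprecated false

namespace Crest.Agent.R154.SlabUse28

open MeasureTheory ProbabilityTheory Filter Topology Crest.ProbabilityR.RandomEnvironment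
open Crest.Agent.R154 Crest.Agent.R154.B2d Crest.Agent.R154.ExK9
open Crest.Agent.R154.Flux132 (lev)
open Crest.Agent.R154.Half419 (HH)
open scoped ENNReal

variable {d : ℕ}

/-! ### dips -/

/-- the path ever visits a level `≤ l` -/
def Down (u : Step d) (l : ℤ) : Set (Path d) := {X | ∃ n, lev u (X n) ≤ l}

lemma measurableSet_Down (u : Step d) (l : ℤ) : MeasurableSet (Down u l) := by
  have e : Down u l = ⋃ n, {X : Path d | lev u (X n) ≤ l} := by
    ext X; simp [Down]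
  rw [e]
  exact MeasurableSet.iUnion fun n => measurableSet_of_agree n _ fun X Y h => by
    simp only [Set.mem_setOf_eq, h n le_rfl]

lemma Down_mono (u : Step d) {l l' : ℤ} (h : l ≤ l') : Down u l ⊆ Down u l' :=
  fun _ ⟨n, hn⟩ => ⟨n, hn.trans h⟩

lemma esc_lev {u : Step d} {X : Path d} (h : X ∈ escapeEvent (dirVec u)) :
    Tendsto (fun n => lev u (X n)) atTop atTop := by
  have h' : Tendsto (fun n => ((lev u (X n) : ℤ) : ℝ)) atTop atTop := by
    refine Tendsto.congr (fun n => ?_) h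
    rw [← D1S.HH_dirVec]; rfl
  exact tendsto_intCast_atTop_iff.1 h'

lemma esc_not_Down {u : Step d} {X : Path d} (h : X ∈ escapeEvent (dirVec u)) :
    ∃ r : ℕ, X ∉ Down u (-(r : ℤ)) := by
  obtain ⟨n0, hn0⟩ := eventually_atTop.1 ((esc_lev h).eventually_ge_atTop 0)
  refine ⟨1 + ∑ k ∈ Finset.range n0, (lev u (X k)).natAbs, ?_⟩
  rintro ⟨n, hn⟩
  rcases Nat.lt_or_ge n n0 with h1 | h1
  · have h2 : (lev u (X n)).natAbs ≤ ∑ k ∈ Finset.range n0, (lev u (X k)).natAbs :=
      Finset.single_le_sum (f := fun k => (lev u (X k)).natAbs) (fun _ _ => Nat.zero_le _)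
        (Finset.mem_range.2 h1)
    push_cast at hn
    have h3 : ((lev u (X n)).natAbs : ℤ) ≤ ∑ k ∈ Finset.range n0, ((lev u (X k)).natAbs : ℤ) := by
      exact_mod_cast h2
    rw [Int.natCast_natAbs] at h3
    simp only [Int.natCast_natAbs] at h3
    have h4 := neg_abs_le (lev u (X n))
    linarith
  · have h2 := hn0 n h1
    push_cast at hn
    have h3 : (0 : ℤ) ≤ ∑ k ∈ Finset.range n0, |lev u (X k)| :=
      Finset.sum_nonneg fun _ _ => abs_nonneg _
    linarith

/-- **(a)** deep dips are rare -/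
theorem tendsto_down {Q : Measure (Environment d)} [IsProbabilityMeasure Q] (u : Step d)
    (hA : annealedProb Q 0 (escapeEvent (dirVec u)) = 1) :
    Tendsto (fun r : ℕ => annealedProb Q 0 (Down u (-(r : ℤ)))) atTop (𝓝 0) := by
  have h1 : ∀ r : ℕ, annealedProb Q 0 (Down u (-(r : ℤ))) = annealed Q 0 (Down u (-(r : ℤ))) :=
    fun r => (annealed_apply Q 0 (measurableSet_Down u _)).symm
  simp only [h1]
  have hae : ∀ᵐ X ∂annealed Q 0, X ∈ escapeEvent (dirVec u) :=
    ae_of_one (by rw [annealed_apply Q 0 (measurableSet_escapeEvent _), hA])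
  have h2 : annealed Q 0 (⋂ r : ℕ, Down u (-(r : ℤ))) = 0 := by
    have h3 : ∀ᵐ X ∂annealed Q 0, X ∉ ⋂ r : ℕ, Down u (-(r : ℤ)) := by
      filter_upwards [hae] with X hX hcon
      obtain ⟨r, hr⟩ := esc_not_Down hX
      exact hr (Set.mem_iInter.1 hcon r)
    have h4 := ae_iff.1 h3
    simp only [not_not] at h4
    exact h4
  rw [← h2]
  refine tendsto_measure_iInter_atTop (fun r => (measurableSet_Down u _).nullMeasurableSet) ?_
    ⟨0, measure_ne_top _ _⟩
  intro r r' hrr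
  exact Down_mono u (by simp only [neg_le_neg_iff, Nat.cast_le]; exact hrr)

/-- translations of the annealed law -/
lemma annProb_shift {Q : Measure (Environment d)} {x z : Site d}
    (hQ : MeasurePreserving (shiftEnv z) Q Q) {B : Set (Path d)} (hB : MeasurableSet B) :
    annealedProb Q (x + z) B = annealedProb Q x (Q561.tr z ⁻¹' B) := by
  unfold annealedProb
  simp only [Q561.quenched_shift_apply z _ x hB]
  exact lint_shift hQ (f := fun ω => quenchedLaw ω x (Q561.tr z ⁻¹' B))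
    (Q561.measurable_quenched_apply x (Q561.measurable_tr z hB))


/-- the walk escapes from every site -/
lemma esc_site {Q : Measure (Environment d)} [IsProbabilityMeasure Q]
    (hQ : ∀ z : Site d, MeasurePreserving (shiftEnv z) Q Q) (u : Step d)
    (hA : annealedProb Q 0 (escapeEvent (dirVec u)) = 1) (x : Site d) :
    annealedProb Q x (escapeEvent (dirVec u)) = 1 := by
  have h := annProb_shift (x := 0) (hQ x) (measurableSet_escapeEvent (dirVec u))
  rw [zero_add] at h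
  rw [h]
  refine le_antisymm ?_ ?_
  · rw [← annealed_apply Q 0 (Q561.measurable_tr x (measurableSet_escapeEvent _))]
    exact prob_le_one
  · rw [← hA, ← annealed_apply Q 0 (Q561.measurable_tr x (measurableSet_escapeEvent _)),
      ← annealed_apply Q 0 (measurableSet_escapeEvent _)]
    refine measure_mono fun X hX => ?_
    have h1 := esc_lev hX
    show X ∈ Q561.tr x ⁻¹' escapeEvent (dirVec u)
    show Tendsto (fun n => ∑ i, (((X n + x) i : ℤ) : ℝ) * dirVec u i) atTop atTop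
    have h2 : ∀ n, ∑ i, (((X n + x) i : ℤ) : ℝ) * dirVec u i
        = ((lev u (X n) + lev u x : ℤ) : ℝ) := fun n => by
      rw [← D1S.lev_add, ← D1S.HH_dirVec]; rfl
    simp only [h2]
    exact tendsto_intCast_atTop_iff.2 (tendsto_atTop_add_const_right _ _ h1)

/-! ### failed attempts -/

/-- a failed attempt of height exactly `z` at level `l` -/
def Fz (u : Step d) (l : ℤ) (z : ℕ) : Set (Path d) :=
  {X | ∃ k, lev u (X k) < l ∧ (∀ i < k, l ≤ lev u (X i) ∧ lev u (X i) ≤ l + z) ∧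
    ∃ i < k, lev u (X i) = l + z}

lemma Fz_eq (u : Step d) (l : ℤ) (z : ℕ) : Fz u l z =
    ⋃ k : ℕ, {X : Path d | lev u (X k) < l ∧ (∀ i < k, l ≤ lev u (X i) ∧ lev u (X i) ≤ l + z) ∧
      ∃ i < k, lev u (X i) = l + z} := by
  ext X; simp [Fz]

lemma depOn_Fz (u : Step d) (l : ℤ) (z k : ℕ) :
    Q561.DepOn k {X : Path d | lev u (X k) < l ∧
      (∀ i < k, l ≤ lev u (X i) ∧ lev u (X i) ≤ l + z) ∧ ∃ i < k, lev u (X i) = l + z} := by
  rintro X Y h ⟨h1, h2, i, hi, h3⟩
  refine ⟨by rw [← h k le_rfl]; exact h1, fun j hj => ?_, i, hi, by rw [← h i hi.le]; exact h3⟩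
  rw [← h j hj.le]
  exact h2 j hj

lemma measurableSet_Fz (u : Step d) (l : ℤ) (z : ℕ) : MeasurableSet (Fz u l z) := by
  rw [Fz_eq]
  exact MeasurableSet.iUnion fun k => (depOn_Fz u l z k).measurableSet

lemma dec_Fz (u : Step d) (l : ℤ) (z : ℕ) {S : Set (Site d)}
    (hS : ∀ y, l ≤ lev u y → lev u y ≤ l + z → y ∈ S) : Q561.Dec S (Fz u l z) := by
  rw [Fz_eq]
  exact Q561.dec_iUnion fun k => Q561.dec_of_depOn (depOn_Fz u l z k)
    fun X hX i hi => hS _ (hX.2.1 i hi).1 (hX.2.1 i hi).2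

lemma disj_Fz (u : Step d) (l : ℤ) : Pairwise (Function.onFun Disjoint (Fz (d := d) u l)) := by
  intro z z' hne
  refine Set.disjoint_left.2 ?_
  rintro X ⟨k, h1, h2, i, hi, h3⟩ ⟨k', h1', h2', i', hi', h3'⟩
  have hk : k = k' := by
    rcases lt_trichotomy k k' with h | h | h
    · exact absurd h1 (not_lt.2 (h2' k h).1)
    · exact h
    · exact absurd h1' (not_lt.2 (h2 k' h).1)
  subst hk
  have h4 := (h2 i' hi').2
  have h5 := (h2' i hi).2
  exact hne (by omega)

lemma Fz_sub_Down (u : Step d) (l : ℤ) (z : ℕ) : Fz (d := d) u l z ⊆ Down u (l - 1) := by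
  rintro X ⟨k, h1, -⟩
  exact ⟨k, by omega⟩

/-- law of the height of a failed attempt -/
noncomputable def tz (Q : Measure (Environment d)) (u : Step d) (z : ℕ) : ℝ≥0∞ :=
  annealedProb Q 0 (Fz u 0 z)

lemma ann_Fz {Q : Measure (Environment d)}
    (hQ : ∀ z : Site d, MeasurePreserving (shiftEnv z) Q Q) (u : Step d) {x : Site d} {l : ℤ}
    (hx : lev u x = l) (z : ℕ) : annealedProb Q x (Fz u l z) = tz Q u z := by
  have h := annProb_shift (x := 0) (hQ x) (measurableSet_Fz u l z)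
  rw [zero_add] at h
  rw [h]
  unfold tz
  congr 1
  ext X
  show (∃ k, lev u (X k + x) < l ∧ (∀ i < k, l ≤ lev u (X i + x) ∧ lev u (X i + x) ≤ l + z) ∧
    ∃ i < k, lev u (X i + x) = l + z) ↔ (∃ k, lev u (X k) < 0 ∧
    (∀ i < k, 0 ≤ lev u (X i) ∧ lev u (X i) ≤ 0 + z) ∧ ∃ i < k, lev u (X i) = 0 + z)
  simp only [D1S.lev_add, hx]
  refine exists_congr fun k => ?_
  constructor
  · rintro ⟨h1, h2, i, hi, h3⟩
    exact ⟨by omega, fun j hj => by have := h2 j hj; omega, i, hi, by omega⟩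
  · rintro ⟨h1, h2, i, hi, h3⟩
    exact ⟨by omega, fun j hj => by have := h2 j hj; omega, i, hi, by omega⟩

lemma sum_tz_le {Q : Measure (Environment d)} [IsProbabilityMeasure Q] (u : Step d) :
    ∑' z, tz Q u z ≤ annealedProb Q 0 (Down u (-1)) := by
  have h1 : ∀ z, tz Q u z = annealed Q 0 (Fz u 0 z) :=
    fun z => (annealed_apply Q 0 (measurableSet_Fz u 0 z)).symm
  simp only [h1]
  rw [← measure_iUnion (disj_Fz u 0) (measurableSet_Fz u 0),
    ← annealed_apply Q 0 (measurableSet_Down u _)]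
  refine measure_mono (Set.iUnion_subset fun z => ?_)
  exact (Fz_sub_Down u 0 z).trans (by norm_num)

/-! ### strong Markov property with an event -/

/-- exit of `A`, with an event decided at the exit -/
theorem exit_markov_ev (ω : Environment d) (A : Set (Site d)) (x : Site d) {B F : Set (Path d)}
    (hB : MeasurableSet B) (hF : MeasurableSet F) (hdF : DetBy (exT A) (· ∈ F)) :
    quenchedLaw ω x (F ∩ {X | exT A X ≠ ⊤ ∧ shift (exT A X).toNat X ∈ B}) =
      ∑' z, quenchedLaw ω x (F ∩ ExS A z) * quenchedLaw ω z B := by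
  have hdet : ∀ z, DetBy (exT A) (· ∈ F ∩ ExS A z) := by
    intro z X Y n hXY hn
    have h2 : exT A Y = n := isStop_exT A X Y n hXY hn
    have h3 : (X ∈ F) = (Y ∈ F) := hdF X Y n hXY hn
    apply propext
    show (X ∈ F ∧ X ∈ ExS A z) ↔ (Y ∈ F ∧ Y ∈ ExS A z)
    rw [mem_ExS_iff, mem_ExS_iff, hn, h2, ENat.toNat_natCast, hXY n le_rfl, h3]
  have hm : ∀ z, MeasurableSet (F ∩ ExS A z) := fun z => hF.inter (measurableSet_ExS A z)
  have key : ∀ z, quenchedLaw ω x ({X | exT A X ≠ ⊤} ∩ (F ∩ ExS A z) ∩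
      {X | shift (exT A X).toNat X ∈ B}) = quenchedLaw ω x (F ∩ ExS A z) * quenchedLaw ω z B := by
    intro z
    rw [strong_markov_event ω x (isStop_exT A) (hdet z) (hm z) hB]
    have e : {X : Path d | exT A X ≠ ⊤} ∩ (F ∩ ExS A z) = F ∩ ExS A z := by
      ext X
      constructor
      · exact fun h => h.2
      · exact fun h => ⟨(mem_ExS_iff.1 h.2).1, h⟩
    rw [e, setLIntegral_congr_fun (g := fun _ => quenchedLaw ω z B) (hm z),
      setLIntegral_const, mul_comm]
    intro X hX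
    show quenchedLaw ω (X (exT A X).toNat) B = quenchedLaw ω z B
    rw [(mem_ExS_iff.1 hX.2).2]
  have e : F ∩ {X : Path d | exT A X ≠ ⊤ ∧ shift (exT A X).toNat X ∈ B} =
      ⋃ z, ({X | exT A X ≠ ⊤} ∩ (F ∩ ExS A z) ∩ {X | shift (exT A X).toNat X ∈ B}) := by
    ext X
    simp only [Set.mem_ofPred_eq, Set.mem_iUnion, Set.mem_inter_iff]
    constructor
    · rintro ⟨h0, h1, h2⟩
      exact ⟨X (exT A X).toNat, ⟨h1, h0, mem_ExS_iff.2 ⟨h1, rfl⟩⟩, h2⟩
    · rintro ⟨z, ⟨h1, h0, -⟩, h2⟩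
      exact ⟨h0, h1, h2⟩
  have hshift : Measurable fun X : Path d => shift (exT A X).toNat X := by
    refine measurable_pi_iff.2 fun i => ?_
    have h1 : Measurable fun X : Path d => (exT A X).toNat :=
      (measurable_of_countable ENat.toNat).comp (isStop_exT A).measurable
    have h2 : Measurable fun p : Path d × ℕ => p.1 (p.2 + i) :=
      measurable_from_prod_countable_left fun n => measurable_pi_apply (n + i)
    exact h2.comp (measurable_id.prodMk h1)
  rw [e, measure_iUnion]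
  · exact tsum_congr key
  · intro z z' hne
    refine Set.disjoint_left.2 fun X hX hX' => ?_
    exact Set.disjoint_left.1 (ExS_disjoint A hne) hX.1.2.2 hX'.1.2.2
  · intro z
    exact ((isStop_exT A).measurableSet_ne_top.inter (hm z)).inter (hshift hB)

/-- the levels below `l` -/
def Lo (u : Step d) (l : ℤ) : Set (Site d) := {z | lev u z < l}

lemma EK_Lo (u : Step d) (ω : Environment d) {l : ℤ} {x : Site d} (hx : lev u x ≤ l) {y : Site d}
    (hy : lev u y ≠ l) : EK ω (Lo u l) x y = 0 := by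
  have h : ∀ᵐ X ∂quenchedLaw ω x, X ∉ ExS (Lo u l) y := by
    filter_upwards [quenched_zero_eq ω x, quenched_nn ω x] with X h0 hnn hE
    obtain ⟨hyA, n, hn, hi'⟩ := hE
    have hT' : l ≤ lev u y := not_lt.1 hyA
    cases n with
    | zero =>
      rw [h0] at hn
      rw [hn] at hx
      exact hy (le_antisymm hx hT')
    | succ n =>
      obtain ⟨e, he⟩ := hnn n
      have h1 : lev u (X n) < l := hi' n (Nat.lt_succ_self n)
      have h2 := D1S.lev_stepVec_le u e
      have h3 : lev u (X (n + 1)) = lev u (X n) + lev u (stepVec e) := by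
        rw [← D1S.lev_add, he]
      rw [hn] at h3
      exact hy (by omega)
  have h2 := ae_iff.1 h
  unfold EK
  simpa using h2

/-! ### the bad event between two levels, any past -/

section bad

variable (u : Step d) (s : Site d → ℝ)

/-- between the first hit of level `a` (time `k`) and the first hit of level `b`, some time `m` is
below level `f` or at `s`-distance `> r` from the position at time `k` -/
def BadE (a b f : ℤ) (r : ℝ) : Set (Path d) :=
  {X | ∃ k m, k ≤ m ∧ a ≤ lev u (X k) ∧ (∀ i < k, lev u (X i) < a) ∧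
    (∀ i ≤ m, lev u (X i) < b) ∧ (lev u (X m) < f ∨ r < |s (X m) - s (X k)|)}

/-- displacement `> r` inside the slab `[l, b)` -/
def Wd (l b : ℤ) (r : ℝ) : Set (Path d) :=
  {X | ∃ k m, k ≤ m ∧ (∀ i ≤ m, l ≤ lev u (X i) ∧ lev u (X i) < b) ∧ r < |s (X m) - s (X k)|}

lemma measurableSet_BadE (a b f : ℤ) (r : ℝ) : MeasurableSet (BadE u s a b f r) := by
  have e : BadE u s a b f r = ⋃ k : ℕ, ⋃ m : ℕ, {X : Path d | k ≤ m ∧ a ≤ lev u (X k) ∧
      (∀ i < k, lev u (X i) < a) ∧ (∀ i ≤ m, lev u (X i) < b) ∧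
      (lev u (X m) < f ∨ r < |s (X m) - s (X k)|)} := by
    ext X; simp [BadE]
  rw [e]
  refine MeasurableSet.iUnion fun k => MeasurableSet.iUnion fun m => ?_
  refine Q561.DepOn.measurableSet (n := m) ?_
  rintro X Y h ⟨h0, h1, h2, h3, h4⟩
  refine ⟨h0, by rw [← h k h0]; exact h1, fun i hi => ?_, fun i hi => ?_, ?_⟩
  · rw [← h i (by omega)]; exact h2 i hi
  · rw [← h i hi]; exact h3 i hi
  · rw [← h m le_rfl, ← h k h0]; exact h4

lemma Wd_eq (l b : ℤ) (r : ℝ) : Wd u s l b r = ⋃ m : ℕ, {X : Path d | ∃ k, k ≤ m ∧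
    (∀ i ≤ m, l ≤ lev u (X i) ∧ lev u (X i) < b) ∧ r < |s (X m) - s (X k)|} := by
  ext X
  simp only [Wd, Set.mem_setOf_eq, Set.mem_iUnion]
  exact exists_comm

lemma depOn_Wd (l b : ℤ) (r : ℝ) (m : ℕ) : Q561.DepOn m {X : Path d | ∃ k, k ≤ m ∧
    (∀ i ≤ m, l ≤ lev u (X i) ∧ lev u (X i) < b) ∧ r < |s (X m) - s (X k)|} := by
  rintro X Y h ⟨k, hk, h1, h2⟩
  refine ⟨k, hk, fun i hi => ?_, ?_⟩
  · rw [← h i hi]; exact h1 i hi
  · rw [← h m le_rfl, ← h k hk]; exact h2

lemma measurableSet_Wd (l b : ℤ) (r : ℝ) : MeasurableSet (Wd u s l b r) := by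
  rw [Wd_eq]
  exact MeasurableSet.iUnion fun m => (depOn_Wd u s l b r m).measurableSet

lemma dec_Wd (l b : ℤ) (r : ℝ) {S : Set (Site d)} (hS : ∀ y, l ≤ lev u y → y ∈ S) :
    Q561.Dec S (Wd u s l b r) := by
  rw [Wd_eq]
  refine Q561.dec_iUnion fun m => Q561.dec_of_depOn (depOn_Wd u s l b r m) ?_
  rintro X ⟨k, hk, h1, h2⟩ i hi
  exact hS _ (h1 i hi.le).1

variable {u s}

/-- a path from level `l` in `BadE` is displaced inside the slab or fails at some height -/
lemma BadE_cases {a b f l : ℤ} {r : ℝ} (hf : f ≤ l) {X : Path d} (h0 : lev u (X 0) = l)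
    (hX : X ∈ BadE u s a b f r) :
    X ∈ Wd u s l b r ∨ ∃ z : ℕ, X ∈ Fz u l z := by
  classical
  obtain ⟨k, m, hkm, h1, h2, h3, h4⟩ := hX
  by_cases hlow : ∃ i ≤ m, lev u (X i) < l
  · right
    have hex : ∃ i, lev u (X i) < l := by
      obtain ⟨i, -, hi⟩ := hlow
      exact ⟨i, hi⟩
    set i0 := Nat.find hex with hi0
    have hi1 : lev u (X i0) < l := Nat.find_spec hex
    have hi2 : ∀ i < i0, l ≤ lev u (X i) := fun i hi => not_lt.1 (Nat.find_min hex hi)
    have hpos : 0 < i0 := by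
      rcases Nat.eq_zero_or_pos i0 with h | h
      · rw [h, h0] at hi1; exact absurd hi1 (lt_irrefl l)
      · exact h
    obtain ⟨j, hj, hmax⟩ := Finset.exists_max_image (Finset.range i0) (fun i => lev u (X i))
      ⟨0, Finset.mem_range.2 hpos⟩
    rw [Finset.mem_range] at hj
    refine ⟨(lev u (X j) - l).toNat, i0, hi1, fun i hi => ⟨hi2 i hi, ?_⟩, j, hj, ?_⟩
    · rw [Int.toNat_of_nonneg (by have := hi2 j hj; omega)]
      have := hmax i (Finset.mem_range.2 hi)
      omega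
    · rw [Int.toNat_of_nonneg (by have := hi2 j hj; omega)]
      omega
  · left
    push Not at hlow
    refine ⟨k, m, hkm, fun i hi => ⟨hlow i hi, h3 i hi⟩, ?_⟩
    rcases h4 with h4 | h4
    · exact absurd (hlow m le_rfl) (by omega)
    · exact h4

/-- `BadE` survives the shift to the first hit of a level `l' ≤ a` -/
lemma BadE_shift {a b f l' : ℤ} {r : ℝ} (hl : l' ≤ a) {X : Path d} (hX : X ∈ BadE u s a b f r) :
    exT (Lo u l') X ≠ ⊤ ∧ shift (exT (Lo u l') X).toNat X ∈ BadE u s a b f r := by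
  classical
  obtain ⟨k, m, hkm, h1, h2, h3, h4⟩ := hX
  have hex : ∃ n, l' ≤ lev u (X n) := ⟨k, hl.trans h1⟩
  have hT : exT (Lo u l') X = (Nat.find hex : ℕ) := by
    rw [exT_eq_iff]
    exact ⟨fun h => absurd (Nat.find_spec hex) (not_le.2 h),
      fun i hi => not_le.1 (Nat.find_min hex hi)⟩
  have hle : Nat.find hex ≤ k := Nat.find_min' hex (hl.trans h1)
  rw [hT, ENat.toNat_natCast]
  set n0 := Nat.find hex
  refine ⟨ENat.natCast_ne_top _, k - n0, m - n0, by omega, ?_, fun i hi => ?_, fun i hi => ?_, ?_⟩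
  · show a ≤ lev u (X (n0 + (k - n0)))
    rw [show n0 + (k - n0) = k by omega]; exact h1
  · exact h2 (n0 + i) (by omega)
  · exact h3 (n0 + i) (by omega)
  · show lev u (X (n0 + (m - n0))) < f ∨ r < |s (X (n0 + (m - n0))) - s (X (n0 + (k - n0)))|
    rw [show n0 + (m - n0) = m by omega, show n0 + (k - n0) = k by omega]
    exact h4

lemma detBy_Fz (l : ℤ) (z : ℕ) : DetBy (exT (Lo u (l + z + 1))) (· ∈ Fz u l z) := by
  have key : ∀ (X Y : Path d) (n : ℕ), Agree n X Y → exT (Lo u (l + z + 1)) X = n →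
      X ∈ Fz u l z → Y ∈ Fz u l z := by
    rintro X Y n hXY hn ⟨k, h1, h2, i, hi, h3⟩
    have hT := exT_eq_iff.1 hn
    have hk : k < n := by
      by_contra hcon
      push Not at hcon
      refine hT.1 ?_
      show lev u (X n) < l + z + 1
      rcases Nat.lt_or_ge n k with h | h
      · have := (h2 n h).2; omega
      · have : n = k := le_antisymm hcon h
        rw [this]; omega
    refine ⟨k, by rw [← hXY k hk.le]; exact h1, fun j hj => ?_, i, hi, ?_⟩
    · rw [← hXY j (by omega)]; exact h2 j hj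
    · rw [← hXY i (by omega)]; exact h3
  intro X Y n hXY hn
  have h2 : exT (Lo u (l + z + 1)) Y = n := isStop_exT _ X Y n hXY hn
  exact propext ⟨key X Y n hXY hn, key Y X n hXY.symm h2⟩

/-- one step: failure of height `z`, then `BadE` after the first hit of the next fresh level -/
lemma step_fail (ν : Measure (Row d)) [IsProbabilityMeasure ν] {a b f l : ℤ} {r : ℝ} {z : ℕ}
    (hl : l + z + 1 ≤ a) {x : Site d} (hx : lev u x = l) {β : ℝ≥0∞}
    (hβ : ∀ y : Site d, lev u y = l + z + 1 → ∀ Φ : Environment d → ℝ≥0∞,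
      Measurable[coordSigmaAlgebra (Lo u (l + z + 1))] Φ →
      ∫⁻ ω, Φ ω * quenchedLaw ω y (BadE u s a b f r) ∂(iidEnvironmentLaw ν) ≤
        β * ∫⁻ ω, Φ ω ∂(iidEnvironmentLaw ν))
    {Φ : Environment d → ℝ≥0∞} (hΦ : Measurable[coordSigmaAlgebra (Lo u l)] Φ) :
    ∫⁻ ω, Φ ω * quenchedLaw ω x (Fz u l z ∩ BadE u s a b f r) ∂(iidEnvironmentLaw ν) ≤
      tz (iidEnvironmentLaw ν) u z * β * ∫⁻ ω, Φ ω ∂(iidEnvironmentLaw ν) := by
  set Q := iidEnvironmentLaw ν with hQdef
  have hstat : ∀ z : Site d, MeasurePreserving (shiftEnv z) Q Q := fun z => Q561.iid_shift ν z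
  set L := Lo u (l + z + 1) with hL
  have hLl : Lo u l ⊆ L := fun y hy => by
    have : lev u y < l := hy
    show lev u y < l + z + 1
    omega
  have hBm := measurableSet_BadE u s a b f r
  have h1 : ∀ ω, quenchedLaw ω x (Fz u l z ∩ BadE u s a b f r) ≤
      ∑' y, quenchedLaw ω x (Fz u l z ∩ ExS L y) * quenchedLaw ω y (BadE u s a b f r) := by
    intro ω
    rw [← exit_markov_ev ω L x hBm (measurableSet_Fz u l z) (detBy_Fz l z)]
    refine measure_mono fun X hX => ⟨hX.1, ?_⟩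
    exact BadE_shift hl hX.2
  have hdF : Q561.Dec L (Fz u l z) := dec_Fz u l z fun y h1 h2 => by
    show lev u y < l + z + 1
    omega
  have hmF : ∀ y, Measurable[coordSigmaAlgebra L]
      fun ω : Environment d => quenchedLaw ω x (Fz u l z ∩ ExS L y) := fun y =>
    Q561.measurable_coord_quenched x ((measurableSet_Fz u l z).inter (measurableSet_ExS L y))
      (hdF.inter (dec_ExS L y))
  have hΦL : Measurable[coordSigmaAlgebra L] Φ := fun B hB => coord_mono hLl _ (hΦ hB)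
  have hΦm : Measurable Φ := fun B hB => Q561.coord_le _ _ (hΦ hB)
  have hmF' : ∀ y, Measurable fun ω : Environment d => quenchedLaw ω x (Fz u l z ∩ ExS L y) :=
    fun y => Q561.measurable_quenched_apply x
      ((measurableSet_Fz u l z).inter (measurableSet_ExS L y))
  have hmB : ∀ y, Measurable fun ω : Environment d => quenchedLaw ω y (BadE u s a b f r) :=
    fun y => Q561.measurable_quenched_apply y hBm
  have h2 : ∀ y, ∫⁻ ω, Φ ω * quenchedLaw ω x (Fz u l z ∩ ExS L y) *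
      quenchedLaw ω y (BadE u s a b f r) ∂Q ≤
      β * ∫⁻ ω, Φ ω * quenchedLaw ω x (Fz u l z ∩ ExS L y) ∂Q := by
    intro y
    by_cases hy : lev u y = l + z + 1
    · exact hβ y hy (fun ω => Φ ω * quenchedLaw ω x (Fz u l z ∩ ExS L y))
        (Measurable.mul hΦL (hmF y))
    · have h3 : ∀ ω, quenchedLaw ω x (Fz u l z ∩ ExS L y) = 0 := fun ω => by
        refine measure_mono_null Set.inter_subset_right ?_
        exact EK_Lo u ω (by rw [hx]; omega) hy
      simp [h3]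
  calc ∫⁻ ω, Φ ω * quenchedLaw ω x (Fz u l z ∩ BadE u s a b f r) ∂Q
      ≤ ∫⁻ ω, ∑' y, Φ ω * quenchedLaw ω x (Fz u l z ∩ ExS L y) *
          quenchedLaw ω y (BadE u s a b f r) ∂Q := by
        refine lintegral_mono fun ω => ?_
        calc Φ ω * quenchedLaw ω x (Fz u l z ∩ BadE u s a b f r)
            ≤ Φ ω * ∑' y, quenchedLaw ω x (Fz u l z ∩ ExS L y) *
              quenchedLaw ω y (BadE u s a b f r) := mul_le_mul' le_rfl (h1 ω)
          _ = _ := by
              rw [← ENNReal.tsum_mul_left]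
              exact tsum_congr fun y => by rw [mul_assoc]
    _ = ∑' y, ∫⁻ ω, Φ ω * quenchedLaw ω x (Fz u l z ∩ ExS L y) *
          quenchedLaw ω y (BadE u s a b f r) ∂Q := by
        rw [lintegral_tsum]
        exact fun y => ((hΦm.mul (hmF' y)).mul (hmB y)).aemeasurable
    _ ≤ ∑' y, β * ∫⁻ ω, Φ ω * quenchedLaw ω x (Fz u l z ∩ ExS L y) ∂Q :=
        ENNReal.tsum_le_tsum h2
    _ = β * ∫⁻ ω, Φ ω * ∑' y, quenchedLaw ω x (Fz u l z ∩ ExS L y) ∂Q := by
        rw [ENNReal.tsum_mul_left]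
        congr 1
        have h4 := lintegral_tsum (μ := Q) (f := fun (y : Site d) (ω : Environment d) =>
          Φ ω * quenchedLaw ω x (Fz u l z ∩ ExS L y))
          fun y => (hΦm.mul (hmF' y)).aemeasurable
        rw [← h4]
        exact lintegral_congr fun ω => ENNReal.tsum_mul_left
    _ ≤ β * ∫⁻ ω, Φ ω * quenchedLaw ω x (Fz u l z) ∂Q := by
        refine mul_le_mul' le_rfl (lintegral_mono fun ω => mul_le_mul' le_rfl ?_)
        rw [← measure_iUnion]
        · exact measure_mono (Set.iUnion_subset fun y => Set.inter_subset_left)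
        · intro y y' hne
          exact (ExS_disjoint L hne).mono Set.inter_subset_right Set.inter_subset_right
        · exact fun y => (measurableSet_Fz u l z).inter (measurableSet_ExS L y)
    _ = β * ((∫⁻ ω, Φ ω ∂Q) * ∫⁻ ω, quenchedLaw ω x (Fz u l z) ∂Q) := by
        congr 1
        refine lint_mul ν (S := Lo u l) (T := {y | l ≤ lev u y}) ?_ hΦ
          (Q561.measurable_coord_quenched x (measurableSet_Fz u l z)
            (dec_Fz u l z fun y h1 h2 => h1))
        exact Set.disjoint_left.2 fun y h1 h2 => absurd (show l ≤ lev u y from h2) (not_le.2 h1)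
    _ = _ := by
        have h3 : ∫⁻ ω, quenchedLaw ω x (Fz u l z) ∂Q = tz Q u z := ann_Fz hstat u hx z
        rw [h3]
        ring

/-- **dips and displacements after `T_a`, any past below the start level** -/
theorem bad_le (ν : Measure (Row d)) [IsProbabilityMeasure ν] {a b f : ℤ} {r : ℝ}
    {g : ℝ≥0∞} {m : ℕ}
    (hg : ∀ x : Site d, f ≤ lev u x → lev u x ≤ a →
      annealedProb (iidEnvironmentLaw ν) x (Wd u s (lev u x) b r) ≤ g) {c q T : ℝ≥0∞}
    (hq : ∑' z, tz (iidEnvironmentLaw ν) u z ≤ q)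
    (hT : ∑' z, tz (iidEnvironmentLaw ν) u (z + m) ≤ T) (hc : 1 + q * c ≤ c) (k : ℕ) :
    ∀ x : Site d, f ≤ lev u x → lev u x + k * m ≤ a → ∀ Φ : Environment d → ℝ≥0∞,
      Measurable[coordSigmaAlgebra (Lo u (lev u x))] Φ →
      ∫⁻ ω, Φ ω * quenchedLaw ω x (BadE u s a b f r) ∂(iidEnvironmentLaw ν) ≤
        (c * (g + T) + q ^ k) * ∫⁻ ω, Φ ω ∂(iidEnvironmentLaw ν) := by
  induction k with
  | zero =>
    intro x hfx hxa Φ hΦ
    rw [pow_zero]
    calc ∫⁻ ω, Φ ω * quenchedLaw ω x (BadE u s a b f r) ∂(iidEnvironmentLaw ν)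
        ≤ ∫⁻ ω, Φ ω ∂(iidEnvironmentLaw ν) := lintegral_mono fun ω => by
          calc Φ ω * quenchedLaw ω x (BadE u s a b f r) ≤ Φ ω * 1 :=
                mul_le_mul' le_rfl prob_le_one
            _ = Φ ω := mul_one _
      _ = 1 * ∫⁻ ω, Φ ω ∂(iidEnvironmentLaw ν) := (one_mul _).symm
      _ ≤ _ := mul_le_mul' le_add_self le_rfl
  | succ k ih =>
    intro x hfx hxa Φ hΦ
    set Q := iidEnvironmentLaw ν with hQdef
    set l := lev u x with hl
    have hΦm : Measurable Φ := fun B hB => Q561.coord_le _ _ (hΦ hB)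
    have hBm := measurableSet_BadE u s a b f r
    have hWm := measurableSet_Wd u s l b r
    have hmkm : (0 : ℤ) ≤ (k : ℤ) * m := by positivity
    -- decomposition
    have h1 : ∀ ω, quenchedLaw ω x (BadE u s a b f r) ≤ quenchedLaw ω x (Wd u s l b r) +
        ∑' z : ℕ, quenchedLaw ω x (Fz u l z ∩ BadE u s a b f r) := by
      intro ω
      calc quenchedLaw ω x (BadE u s a b f r)
          ≤ quenchedLaw ω x (Wd u s l b r ∪ ⋃ z : ℕ, (Fz u l z ∩ BadE u s a b f r)) := by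
            refine measure_mono_ae ?_
            filter_upwards [quenched_zero_eq ω x] with X h0 hX
            rcases BadE_cases (hfx) (by rw [h0]) hX with h | ⟨z, hz⟩
            · exact Or.inl h
            · exact Or.inr (Set.mem_iUnion.2 ⟨z, hz, hX⟩)
        _ ≤ _ := (measure_union_le _ _).trans (add_le_add le_rfl (measure_iUnion_le _))
    have hW : ∫⁻ ω, Φ ω * quenchedLaw ω x (Wd u s l b r) ∂Q ≤ g * ∫⁻ ω, Φ ω ∂Q := by
      rw [lint_mul ν (S := Lo u l) (T := {y | l ≤ lev u y})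
        (Set.disjoint_left.2 fun y h1 h2 => absurd (show l ≤ lev u y from h2) (not_le.2 h1)) hΦ
        (Q561.measurable_coord_quenched x hWm (dec_Wd u s l b r fun y hy => hy)), mul_comm]
      refine mul_le_mul' (hg x hfx ?_) le_rfl
      have : (0 : ℤ) ≤ ((k + 1 : ℕ) : ℤ) * m := by positivity
      omega
    have hz1 : ∀ z : ℕ, z < m → ∫⁻ ω, Φ ω * quenchedLaw ω x (Fz u l z ∩ BadE u s a b f r) ∂Q ≤
        tz Q u z * (c * (g + T) + q ^ k) * ∫⁻ ω, Φ ω ∂Q := by
      intro z hz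
      have hkm : (((k + 1 : ℕ) : ℤ)) * m = k * m + m := by push_cast; ring
      have hza : l + z + 1 ≤ a := by
        rw [hkm] at hxa
        have : (z : ℤ) < m := by exact_mod_cast hz
        omega
      refine step_fail ν hza (hl.symm ▸ rfl) ?_ hΦ
      intro y hy Ψ hΨ
      refine ih y (by omega) ?_ Ψ (by rw [hy]; exact hΨ)
      rw [hy]
      rw [hkm] at hxa
      have : (z : ℤ) < m := by exact_mod_cast hz
      omega
    have hz2 : ∀ z : ℕ, ∫⁻ ω, Φ ω * quenchedLaw ω x (Fz u l z ∩ BadE u s a b f r) ∂Q ≤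
        tz Q u z * ∫⁻ ω, Φ ω ∂Q := by
      intro z
      calc ∫⁻ ω, Φ ω * quenchedLaw ω x (Fz u l z ∩ BadE u s a b f r) ∂Q
          ≤ ∫⁻ ω, Φ ω * quenchedLaw ω x (Fz u l z) ∂Q :=
            lintegral_mono fun ω => mul_le_mul' le_rfl (measure_mono Set.inter_subset_left)
        _ = (∫⁻ ω, Φ ω ∂Q) * ∫⁻ ω, quenchedLaw ω x (Fz u l z) ∂Q := by
            refine lint_mul ν (S := Lo u l) (T := {y | l ≤ lev u y}) ?_ hΦ
              (Q561.measurable_coord_quenched x (measurableSet_Fz u l z)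
                (dec_Fz u l z fun y h1 h2 => h1))
            exact Set.disjoint_left.2 fun y h1 h2 => absurd (show l ≤ lev u y from h2) (not_le.2 h1)
        _ = _ := by
            have h3 : ∫⁻ ω, quenchedLaw ω x (Fz u l z) ∂Q = tz Q u z :=
              ann_Fz (fun z => Q561.iid_shift ν z) u hl.symm z
            rw [h3, mul_comm]
    set I := ∫⁻ ω, Φ ω ∂Q with hI
    set β := c * (g + T) + q ^ k with hβ
    have hsum : ∑' z : ℕ, ∫⁻ ω, Φ ω * quenchedLaw ω x (Fz u l z ∩ BadE u s a b f r) ∂Q ≤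
        (q * β + T) * I := by
      rw [← (ENNReal.summable).sum_add_tsum_nat_add' (k := m)]
      calc (∑ z ∈ Finset.range m, ∫⁻ ω, Φ ω * quenchedLaw ω x (Fz u l z ∩ BadE u s a b f r) ∂Q) +
            ∑' z : ℕ, ∫⁻ ω, Φ ω * quenchedLaw ω x (Fz u l (z + m) ∩ BadE u s a b f r) ∂Q
          ≤ (∑ z ∈ Finset.range m, tz Q u z * β * I) + ∑' z : ℕ, tz Q u (z + m) * I := by
            refine add_le_add (Finset.sum_le_sum fun z hz => hz1 z (Finset.mem_range.1 hz))
              (ENNReal.tsum_le_tsum fun z => ?_)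
            exact hz2 (z + m)
        _ = (∑ z ∈ Finset.range m, tz Q u z) * β * I + (∑' z : ℕ, tz Q u (z + m)) * I := by
            rw [ENNReal.tsum_mul_right, Finset.sum_mul, Finset.sum_mul]
        _ ≤ q * β * I + T * I := by
            gcongr
            exact (ENNReal.sum_le_tsum _).trans hq
        _ = _ := by ring
    calc ∫⁻ ω, Φ ω * quenchedLaw ω x (BadE u s a b f r) ∂Q
        ≤ ∫⁻ ω, (Φ ω * quenchedLaw ω x (Wd u s l b r) +
            ∑' z : ℕ, Φ ω * quenchedLaw ω x (Fz u l z ∩ BadE u s a b f r)) ∂Q := by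
          refine lintegral_mono fun ω => ?_
          rw [ENNReal.tsum_mul_left, ← mul_add]
          exact mul_le_mul' le_rfl (h1 ω)
      _ = ∫⁻ ω, Φ ω * quenchedLaw ω x (Wd u s l b r) ∂Q +
            ∑' z : ℕ, ∫⁻ ω, Φ ω * quenchedLaw ω x (Fz u l z ∩ BadE u s a b f r) ∂Q := by
          have h5 := lintegral_add_left (μ := Q)
            (f := fun ω : Environment d => Φ ω * quenchedLaw ω x (Wd u s l b r))
            (hΦm.mul (Q561.measurable_quenched_apply x hWm))
            (fun ω => ∑' z : ℕ, Φ ω * quenchedLaw ω x (Fz u l z ∩ BadE u s a b f r))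
          rw [h5, lintegral_tsum]
          exact fun z => (hΦm.mul (Q561.measurable_quenched_apply x
            ((measurableSet_Fz u l z).inter hBm))).aemeasurable
      _ ≤ g * I + (q * β + T) * I := add_le_add hW hsum
      _ = (g + T + q * β) * I := by ring
      _ ≤ (c * (g + T) + q ^ (k + 1)) * I := by
          refine mul_le_mul' ?_ le_rfl
          calc g + T + q * β = (1 + q * c) * (g + T) + q ^ (k + 1) := by
                rw [hβ, pow_succ]; ring
            _ ≤ c * (g + T) + q ^ (k + 1) := by gcongr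

end bad

end Crest.Agent.R154.SlabUse28
end

-- ▼ part R154/SlabP_28
section

/-!
# Row 154, block d = 2 (helper28): the literal `D2V36.SlabP`

Input: `TubeP` (tube of half width `A * wd H` around the line of slope `θ`, at every height).
-/

set_option autoImplicit false
set_option linter.unusedVariables false
set_option linter.unusedSectionVars false
set_option linter.deprecated false

namespace Crest.Agent.R154.SlabUse28

open MeasureTheory ProbabilityTheory Filter Topology Crest.ProbabilityR.RandomEnvironment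
open Crest.Agent.R154 Crest.Agent.R154.B2d Crest.Agent.R154.ExK9
open Crest.Agent.R154.Flux132 (lev)
open Crest.Agent.R154.Half419 (HH)
open Crest.Agent.R154.P2916 (sl)
open Crest.Agent.R154.River916 (Ev)
open scoped ENNReal

section gen

variable {d : ℕ}

/-- the first attempt succeeds with positive probability -/
lemma down_lt_one {Q : Measure (Environment d)} [IsProbabilityMeasure Q]
    (hQ : ∀ z : Site d, MeasurePreserving (shiftEnv z) Q Q) (u : Step d)
    (hA : annealedProb Q 0 (escapeEvent (dirVec u)) = 1) :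
    annealedProb Q 0 (Down u (-1)) < 1 := by
  have h0 : annealed Q 0 (escapeEvent (dirVec u)) ≠ 0 := by
    rw [annealed_apply Q 0 (measurableSet_escapeEvent _), hA]; exact one_ne_zero
  have h1 := Kal132.pD_pos hQ (dirVec u) h0
  have h2 : ∀ᵐ X ∂annealed Q 0, X 0 = 0 := by
    refine annealed_ae (A := {X : Path d | X 0 = 0}) ?_ (Eventually.of_forall fun ω => ?_)
    · exact measurableSet_of_agree 0 _ fun X Y h => by simp only [Set.mem_setOf_eq, h 0 le_rfl]
    · exact quenched_zero_eq ω 0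
  rw [← annealed_apply Q 0 (measurableSet_Down u _)]
  by_contra hcon
  have h3 : annealed Q 0 (Down u (-1)) = 1 := le_antisymm prob_le_one (not_lt.1 hcon)
  apply h1
  have h4 : annealed Q 0 (Down u (-1))ᶜ = 0 :=
    (prob_compl_eq_zero_iff (measurableSet_Down u _)).2 h3
  refine measure_mono_null_ae ?_ h4
  filter_upwards [h2] with X hX hS
  have hS' : X ∈ Kal132.Stay (dirVec u) := hS
  show X ∈ (Down u (-1))ᶜ
  rintro ⟨n, hn⟩
  have h5 := hS' n
  rw [hX] at h5
  have h6 : ∀ x : Site d, Kal132.L (dirVec u) x = (lev u x : ℝ) := fun x => by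
    rw [← D1S.HH_dirVec]; rfl
  rw [h6, h6, D1S.lev_zero] at h5
  have : (0 : ℤ) ≤ lev u (X n) := by exact_mod_cast h5
  omega

/-- the levels are reached almost surely -/
lemma hit_ae {Q : Measure (Environment d)} [IsProbabilityMeasure Q]
    (hQ : ∀ z : Site d, MeasurePreserving (shiftEnv z) Q Q) (u : Step d)
    (hA : annealedProb Q 0 (escapeEvent (dirVec u)) = 1) (l : ℤ) (y : Site d) :
    ∀ᵐ ω ∂Q, quenchedLaw ω y {X | exT (Lo u l) X = ⊤} = 0 := by
  have h1 := esc_site hQ u hA y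
  have hme := measurableSet_escapeEvent (d := d) (dirVec u)
  have h2 : ∫⁻ ω, quenchedLaw ω y (escapeEvent (dirVec u))ᶜ ∂Q = 0 := by
    have h3 : annealed Q y (escapeEvent (dirVec u)) = 1 := by rw [annealed_apply Q y hme, h1]
    have h4 : annealed Q y (escapeEvent (dirVec u))ᶜ = 0 := (prob_compl_eq_zero_iff hme).2 h3
    rw [annealed_apply Q y hme.compl] at h4
    exact h4
  rw [lintegral_eq_zero_iff (Q561.measurable_quenched_apply y hme.compl)] at h2
  filter_upwards [h2] with ω hω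
  refine measure_mono_null (fun X hX => ?_) hω
  show X ∉ escapeEvent (dirVec u)
  intro hesc
  obtain ⟨n, hn⟩ := ((esc_lev hesc).eventually_ge_atTop l).exists
  have h5 : ∀ i, X i ∈ Lo u l := exT_eq_top_iff.1 hX
  exact absurd hn (not_le.2 (h5 n))

/-- the mass of the failures is `< 1` -/
lemma sum_tz_lt {Q : Measure (Environment d)} [IsProbabilityMeasure Q]
    (hQ : ∀ z : Site d, MeasurePreserving (shiftEnv z) Q Q) (u : Step d)
    (hA : annealedProb Q 0 (escapeEvent (dirVec u)) = 1) : ∑' z, tz Q u z < 1 :=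
  (sum_tz_le u).trans_lt (down_lt_one hQ u hA)

lemma one_add_mul {q : ℝ≥0∞} (hq : q < 1) : 1 + q * (1 - q)⁻¹ ≤ (1 - q)⁻¹ := by
  have h1 : (1 - q) ≠ 0 := (tsub_pos_of_lt hq).ne'
  have h2 : (1 - q) ≠ ⊤ := ne_top_of_le_ne_top ENNReal.one_ne_top tsub_le_self
  have h3 : (1 - q) * (1 - q)⁻¹ = 1 := ENNReal.mul_inv_cancel h1 h2
  calc 1 + q * (1 - q)⁻¹ = (1 - q) * (1 - q)⁻¹ + q * (1 - q)⁻¹ := by rw [h3]
    _ = (1 - q + q) * (1 - q)⁻¹ := by rw [add_mul]
    _ = 1 * (1 - q)⁻¹ := by rw [tsub_add_cancel_of_le hq.le]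
    _ ≤ _ := by rw [one_mul]

/-- **dips and displacements after `T_a` for the annealed walk**: constants first -/
theorem exists_km (ν : Measure (Row d)) [IsProbabilityMeasure ν] (u : Step d)
    (hA : annealedProb (iidEnvironmentLaw ν) 0 (escapeEvent (dirVec u)) = 1) {ε : ℝ≥0∞}
    (hε : ε ≠ 0) : ∃ M : ℕ, ∀ (s : Site d → ℝ) (a b : ℤ) (r : ℝ) (g : ℝ≥0∞), a ≤ b →
      (∀ x : Site d, a - M ≤ lev u x → lev u x ≤ a →
        annealedProb (iidEnvironmentLaw ν) x (Wd u s (lev u x) b r) ≤ g) →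
      ∀ x : Site d, lev u x ≤ a - M →
      annealedProb (iidEnvironmentLaw ν) x (BadE u s a b (a - M) r) ≤
        (1 - ∑' z, tz (iidEnvironmentLaw ν) u z)⁻¹ * g + ε := by
  set Q := iidEnvironmentLaw ν with hQ
  have hstat : ∀ z : Site d, MeasurePreserving (shiftEnv z) Q Q := fun z => Q561.iid_shift ν z
  set q := ∑' z, tz Q u z with hqdef
  have hq1 : q < 1 := sum_tz_lt hstat u hA
  set c := (1 - q)⁻¹ with hc
  have hcpos : (1 - q) ≠ 0 := (tsub_pos_of_lt hq1).ne'
  have hctop : c ≠ ⊤ := ENNReal.inv_ne_top.2 hcpos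
  have hε2 : ε / 2 ≠ 0 := by simp [hε]
  obtain ⟨k, hk⟩ : ∃ k : ℕ, q ^ k ≤ ε / 2 := by
    have h1 := ENNReal.tendsto_pow_atTop_nhds_zero_of_lt_one hq1
    exact ((h1.eventually_le_const (pos_iff_ne_zero.2 hε2))).exists
  obtain ⟨m, hm⟩ : ∃ m : ℕ, c * ∑' z, tz Q u (z + m) ≤ ε / 2 := by
    have h1 := ENNReal.tendsto_sum_nat_add (tz Q u) (ne_top_of_lt hq1)
    have h2 : Tendsto (fun m => c * ∑' z, tz Q u (z + m)) atTop (𝓝 (c * 0)) :=
      ENNReal.Tendsto.const_mul h1 (Or.inr hctop)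
    rw [mul_zero] at h2
    exact (h2.eventually_le_const (pos_iff_ne_zero.2 hε2)).exists
  refine ⟨k * m, fun s a b r g hab hg x hx => ?_⟩
  set l0 : ℤ := a - (k * m : ℕ) with hl0
  have hbad := bad_le ν (u := u) (s := s) (a := a) (b := b) (f := l0) (r := r) (g := g) (m := m)
    (fun y hy1 hy2 => hg y hy1 hy2) (c := c) (q := q) (T := ∑' z, tz Q u (z + m)) le_rfl le_rfl
    (one_add_mul hq1) k
  have hBm := measurableSet_BadE u s a b l0 r
  have h1 : ∀ ω, quenchedLaw ω x (BadE u s a b l0 r) ≤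
      ∑' z, EK ω (Lo u l0) x z * quenchedLaw ω z (BadE u s a b l0 r) := by
    intro ω
    rw [← exit_markov ω (Lo u l0) x hBm]
    refine measure_mono fun X hX => BadE_shift (by rw [hl0]; omega) hX
  have h2 : ∀ z, ∫⁻ ω, EK ω (Lo u l0) x z * quenchedLaw ω z (BadE u s a b l0 r) ∂Q ≤
      (c * (g + ∑' z, tz Q u (z + m)) + q ^ k) * ∫⁻ ω, EK ω (Lo u l0) x z ∂Q := by
    intro z
    by_cases hz : lev u z = l0
    · refine hbad z (by rw [hz]) (by rw [hz, hl0]; push_cast; omega) (fun ω => EK ω (Lo u l0) x z) ?_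
      rw [hz]
      exact measA_EK _ x z
    · have h3 : ∀ ω : Environment d, EK ω (Lo u l0) x z = 0 := fun ω => EK_Lo u ω hx hz
      simp [h3]
  calc annealedProb Q x (BadE u s a b l0 r)
      = ∫⁻ ω, quenchedLaw ω x (BadE u s a b l0 r) ∂Q := rfl
    _ ≤ ∫⁻ ω, ∑' z, EK ω (Lo u l0) x z * quenchedLaw ω z (BadE u s a b l0 r) ∂Q :=
        lintegral_mono h1
    _ = ∑' z, ∫⁻ ω, EK ω (Lo u l0) x z * quenchedLaw ω z (BadE u s a b l0 r) ∂Q := by
        rw [lintegral_tsum]
        exact fun z => ((meas_EK _ x z).mul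
          (Q561.measurable_quenched_apply z hBm)).aemeasurable
    _ ≤ ∑' z, (c * (g + ∑' z, tz Q u (z + m)) + q ^ k) * ∫⁻ ω, EK ω (Lo u l0) x z ∂Q :=
        ENNReal.tsum_le_tsum h2
    _ = (c * (g + ∑' z, tz Q u (z + m)) + q ^ k) * ∫⁻ ω, ∑' z, EK ω (Lo u l0) x z ∂Q := by
        rw [ENNReal.tsum_mul_left, ← lintegral_tsum fun z => (meas_EK _ x z).aemeasurable]
    _ ≤ (c * (g + ∑' z, tz Q u (z + m)) + q ^ k) * 1 := by
        refine mul_le_mul' le_rfl ?_
        calc ∫⁻ ω, ∑' z, EK ω (Lo u l0) x z ∂Q ≤ ∫⁻ _, 1 ∂Q :=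
              lintegral_mono fun ω => tsum_EK_le ω _ x
          _ = 1 := by simp
    _ = c * g + (c * ∑' z, tz Q u (z + m) + q ^ k) := by ring
    _ ≤ c * g + (ε / 2 + ε / 2) := by gcongr
    _ = _ := by rw [ENNReal.add_halves]

end gen

section two

/-- tube of half width `A * wd H` around the line of slope `θ`, natural climb of height `H` -/
def TubeP (u : Step 2) (i : Fin 2) (θ : ℝ) (Q : Measure (Environment 2)) (wd : ℕ → ℕ) : Prop :=
  ∃ A p0 : ℝ, 0 < A ∧ 0 < p0 ∧ ∃ H0 : ℕ, ∀ H ≥ H0, ENNReal.ofReal p0 ≤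
    annealedProb Q 0 {X | ∃ n, lev u (X n) = H ∧ ∀ j < n, 0 ≤ lev u (X j) ∧
      lev u (X j) < H ∧ |sl u i θ (X j)| ≤ A * wd H}

lemma exists_site {u : Step 2} {i : Fin 2} (hi : i ≠ u.1) (l t : ℤ) :
    ∃ x : Site 2, lev u x = l ∧ x i = t := by
  classical
  refine ⟨fun j => if j = i then t else (if u.2 then l else -l), ?_, by simp⟩
  unfold Flux132.lev
  by_cases h : u.2
  · simp [h, hi.symm]
  · simp [h, hi.symm]


lemma meas_tube (u : Step 2) (i : Fin 2) (l0 l1 : ℤ) (v : ℤ → ℤ) (A : ℤ) :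
    MeasurableSet {X : Path 2 | ∃ n, lev u (X n) = l1 ∧
      ∀ j < n, l0 ≤ lev u (X j) ∧ lev u (X j) < l1 ∧ |X j i - v (lev u (X j))| < A} := by
  have e : {X : Path 2 | ∃ n, lev u (X n) = l1 ∧
      ∀ j < n, l0 ≤ lev u (X j) ∧ lev u (X j) < l1 ∧ |X j i - v (lev u (X j))| < A} =
      ⋃ n : ℕ, {X : Path 2 | lev u (X n) = l1 ∧
      ∀ j < n, l0 ≤ lev u (X j) ∧ lev u (X j) < l1 ∧ |X j i - v (lev u (X j))| < A} := by
    ext X; simp
  rw [e]
  refine MeasurableSet.iUnion fun n => Q561.DepOn.measurableSet (n := n) ?_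
  rintro X Y h ⟨h1, h2⟩
  refine ⟨by rw [← h n le_rfl]; exact h1, fun j hj => ?_⟩
  rw [← h j hj.le]
  exact h2 j hj

/-- displacement in a slab of height `H`, from ANY start in the slab -/
theorem slab_from (ν : Measure (Row 2)) [IsProbabilityMeasure ν]
    (hν : ∀ᵐ q ∂ν, ∀ e : Step 2, 0 < q.1 e) {u : Step 2} {i : Fin 2} (hi : i ≠ u.1) {θ : ℝ}
    {a p0 : ℝ} (ha : 0 ≤ a) {H : ℕ} (hH : 0 < H)
    (htube : ENNReal.ofReal p0 ≤ annealedProb (iidEnvironmentLaw ν) 0 {X | ∃ n, lev u (X n) = H ∧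
      ∀ j < n, 0 ≤ lev u (X j) ∧ lev u (X j) < H ∧ |sl u i θ (X j)| ≤ a})
    (x : Site 2) {l0 : ℤ} (h0 : l0 ≤ lev u x) (h1 : lev u x < l0 + H) (K : ℕ) {r : ℝ}
    (hr : 2 * (2 + 4 * (a + 3) * K) ≤ r) :
    annealedProb (iidEnvironmentLaw ν) x (Wd u (sl u i θ) l0 (l0 + H) r) ≤
      2 * (1 - ENNReal.ofReal p0) ^ K := by
  set Q := iidEnvironmentLaw ν with hQ
  have hstat : ∀ z : Site 2, MeasurePreserving (shiftEnv z) Q Q := fun z => Q561.iid_shift ν z
  set v : ℤ → ℤ := fun l' => x i + ⌊θ * ((l' - lev u x : ℤ) : ℝ)⌋ with hv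
  obtain ⟨xb, hxb1, hxb2⟩ := exists_site hi l0 (v l0)
  set A' : ℤ := ⌈a⌉ + 2 with hA'
  have hceil : (0 : ℤ) ≤ ⌈a⌉ := Int.ceil_nonneg ha
  have hA'pos : 0 < A' := by omega
  -- the tube from `xb`
  have hp : ENNReal.ofReal p0 ≤ annealedProb Q xb {X | ∃ n, lev u (X n) = l0 + H ∧
      ∀ j < n, l0 ≤ lev u (X j) ∧ lev u (X j) < l0 + H ∧ |X j i - v (lev u (X j))| < A'} := by
    have hsh := annProb_shift (x := 0) (hstat xb) (meas_tube u i l0 (l0 + H) v A')
    rw [zero_add] at hsh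
    rw [hsh]
    refine htube.trans ?_
    unfold annealedProb
    refine lintegral_mono fun ω => measure_mono ?_
    rintro X ⟨n, hn, hj⟩
    refine ⟨n, ?_, fun j hjn => ?_⟩
    · show lev u (X n + xb) = l0 + H
      rw [D1S.lev_add, hn, hxb1]; ring
    · obtain ⟨q1, q2, q3⟩ := hj j hjn
      have q4 : lev u (X j + xb) = lev u (X j) + l0 := by rw [D1S.lev_add, hxb1]
      refine ⟨?_, ?_, ?_⟩
      · show l0 ≤ lev u (X j + xb); rw [q4]; omega
      · show lev u (X j + xb) < l0 + H; rw [q4]; omega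
      · show |(X j + xb) i - v (lev u (X j + xb))| < A'
        rw [q4]
        have q5 : (X j + xb) i = X j i + v l0 := by rw [Pi.add_apply, hxb2]
        rw [q5]
        have q6 : |(((X j i + v l0 - v (lev u (X j) + l0) : ℤ)) : ℝ)| < a + 2 := by
          have f1 := Int.floor_le (θ * ((l0 - lev u x : ℤ) : ℝ))
          have f2 := Int.lt_floor_add_one (θ * ((l0 - lev u x : ℤ) : ℝ))
          have f3 := Int.floor_le (θ * ((lev u (X j) + l0 - lev u x : ℤ) : ℝ))
          have f4 := Int.lt_floor_add_one (θ * ((lev u (X j) + l0 - lev u x : ℤ) : ℝ))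
          have e1 : (((X j i + v l0 - v (lev u (X j) + l0) : ℤ)) : ℝ) = (X j i : ℝ) +
              (⌊θ * ((l0 - lev u x : ℤ) : ℝ)⌋ : ℝ) -
              (⌊θ * ((lev u (X j) + l0 - lev u x : ℤ) : ℝ)⌋ : ℝ) := by
            simp only [hv]
            push_cast
            ring
          rw [e1]
          have e2 : sl u i θ (X j) = (X j i : ℝ) - θ * (lev u (X j) : ℝ) := rfl
          rw [e2] at q3
          have q3' := abs_le.1 q3
          have e3 : θ * ((lev u (X j) + l0 - lev u x : ℤ) : ℝ) =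
              θ * (lev u (X j) : ℝ) + θ * ((l0 - lev u x : ℤ) : ℝ) := by
            push_cast; ring
          rw [abs_lt]
          constructor <;> linarith [q3'.1, q3'.2]
        have q7 : |X j i + v l0 - v (lev u (X j) + l0)| < A' := by
          have : ((|X j i + v l0 - v (lev u (X j) + l0)| : ℤ) : ℝ) < (A' : ℝ) := by
            rw [Int.cast_abs]
            refine q6.trans_le ?_
            rw [hA']
            push_cast
            linarith [Int.le_ceil a]
          exact_mod_cast this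
        exact q7
  have hmain := Slab491.slab2' ν hν u hi v (l0 := l0) (l1 := l0 + H) (A := A') (r := 1) hA'pos
    (by omega) (xb := xb) (x0 := x) hxb1 hxb2 hp h0 h1 (by simp [hv]) K
  refine le_trans ?_ hmain
  unfold annealedProb
  refine lintegral_mono fun ω => measure_mono ?_
  rintro X ⟨k, m, hkm, hslab, hdis⟩
  -- one of the two sites is far from `x`
  have hfar : r / 2 < |sl u i θ (X m) - sl u i θ x| ∨ r / 2 < |sl u i θ (X k) - sl u i θ x| := by
    by_contra hcon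
    push Not at hcon
    have h3 : |sl u i θ (X m) - sl u i θ (X k)| ≤
        |sl u i θ (X m) - sl u i θ x| + |sl u i θ (X k) - sl u i θ x| := by
      have := abs_sub_le (sl u i θ (X m)) (sl u i θ x) (sl u i θ (X k))
      rwa [abs_sub_comm (sl u i θ x)] at this
    linarith [hcon.1, hcon.2]
  have key : ∀ n, r / 2 < |sl u i θ (X n) - sl u i θ x| →
      1 + 4 * A' * K ≤ |X n i - v (lev u (X n))| := by
    intro n hn
    have f1 := Int.floor_le (θ * ((lev u (X n) - lev u x : ℤ) : ℝ))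
    have f2 := Int.lt_floor_add_one (θ * ((lev u (X n) - lev u x : ℤ) : ℝ))
    have e1 : (((X n i - v (lev u (X n)) : ℤ)) : ℝ) = (sl u i θ (X n) - sl u i θ x) +
        (θ * ((lev u (X n) - lev u x : ℤ) : ℝ) - (⌊θ * ((lev u (X n) - lev u x : ℤ) : ℝ)⌋ : ℝ)) := by
      unfold P2916.sl
      simp only [hv]
      push_cast
      ring
    have h3 : r / 2 - 1 ≤ |(((X n i - v (lev u (X n)) : ℤ)) : ℝ)| := by
      rw [e1]
      have h4 := abs_sub_abs_le_abs_sub (sl u i θ (X n) - sl u i θ x)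
        (-(θ * ((lev u (X n) - lev u x : ℤ) : ℝ) - (⌊θ * ((lev u (X n) - lev u x : ℤ) : ℝ)⌋ : ℝ)))
      rw [sub_neg_eq_add, abs_neg] at h4
      have h5 : |θ * ((lev u (X n) - lev u x : ℤ) : ℝ) -
          (⌊θ * ((lev u (X n) - lev u x : ℤ) : ℝ)⌋ : ℝ)| ≤ 1 := by
        rw [abs_le]; constructor <;> linarith
      linarith
    have h6 : ((1 + 4 * A' * K : ℤ) : ℝ) ≤ ((|X n i - v (lev u (X n))| : ℤ) : ℝ) := by
      rw [Int.cast_abs]
      refine le_trans ?_ h3
      push_cast [hA']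
      have h7 := Int.ceil_lt_add_one a
      have h8 : (⌈a⌉ : ℝ) + 2 ≤ a + 3 := by linarith
      have h9 : 4 * ((⌈a⌉ : ℝ) + 2) * K ≤ 4 * (a + 3) * K := by gcongr
      linarith
    exact_mod_cast h6
  rcases hfar with h | h
  · exact ⟨m, key m h, fun j hj => hslab j hj⟩
  · exact ⟨k, key k h, fun j hj => hslab j (hj.trans hkm)⟩

lemma Wd_mono {u : Step 2} {s : Site 2 → ℝ} {l b b' : ℤ} {r : ℝ} (h : b ≤ b') :
    Wd u s l b r ⊆ Wd u s l b' r := by
  rintro X ⟨k, m, hkm, h1, h2⟩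
  exact ⟨k, m, hkm, fun i hi => ⟨(h1 i hi).1, (h1 i hi).2.trans_le h⟩, h2⟩

lemma BadE_mono {u : Step 2} {s : Site 2 → ℝ} {a b f f' : ℤ} {r : ℝ} (h : f ≤ f') :
    BadE u s a b f r ⊆ BadE u s a b f' r := by
  rintro X ⟨k, m, hkm, h1, h2, h3, h4⟩
  exact ⟨k, m, hkm, h1, h2, h3, h4.imp (fun h5 => lt_of_lt_of_le h5 h) id⟩

lemma BadE_low {u : Step 2} {s : Site 2 → ℝ} {a b f : ℤ} {r : ℝ} :
    BadE u s a b f r ⊆ Down u (f - 1) ∪ Wd u s f b r := by
  rintro X ⟨k, m, hkm, h1, h2, h3, h4⟩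
  by_cases hlow : ∃ i ≤ m, lev u (X i) < f
  · obtain ⟨i, -, hi⟩ := hlow
    exact Or.inl ⟨i, by omega⟩
  · push Not at hlow
    refine Or.inr ⟨k, m, hkm, fun i hi => ⟨hlow i hi, h3 i hi⟩, ?_⟩
    rcases h4 with h4 | h4
    · exact absurd (hlow m le_rfl) (not_le.2 h4)
    · exact h4

lemma BadE_unshift {u : Step 2} {s : Site 2 → ℝ} {a b f : ℤ} {r : ℝ} (hab : a ≤ b) {X : Path 2}
    (hX : exT (Lo u a) X ≠ ⊤) (hs : shift (exT (Lo u a) X).toNat X ∈ BadE u s a b f r) :
    X ∈ BadE u s a b f r := by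
  obtain ⟨n, hn⟩ := ENat.ne_top_iff_exists.1 hX
  rw [← hn, ENat.toNat_natCast] at hs
  have hT := exT_eq_iff.1 hn.symm
  obtain ⟨k, m, hkm, h1, h2, h3, h4⟩ := hs
  refine ⟨n + k, n + m, by omega, h1, fun i hi => ?_, fun i hi => ?_, h4⟩
  · rcases Nat.lt_or_ge i n with h | h
    · exact hT.2 i h
    · have := h2 (i - n) (by omega)
      have e : shift n X (i - n) = X i := by
        show X (n + (i - n)) = X i
        rw [show n + (i - n) = i by omega]
      rw [← e]; exact this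
  · rcases Nat.lt_or_ge i n with h | h
    · exact lt_of_lt_of_le (hT.2 i h) hab
    · have := h3 (i - n) (by omega)
      have e : shift n X (i - n) = X i := by
        show X (n + (i - n)) = X i
        rw [show n + (i - n) = i by omega]
      rw [← e]; exact this

/-- the walk from a site of level `l` which reaches the level `l + g` leaves the column through
the top, unless `BadE` happens -/
lemma col_cases {u : Step 2} {i : Fin 2} {θ : ℝ} {l g h : ℕ} {r : ℝ} {y : Site 2}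
    (hy : lev u y = l) {X : Path 2} (h0 : X 0 = y) (hnn : ∀ n, ∃ e : Step 2, X (n + 1) = X n + stepVec e)
    (hX : X ∈ (Ev (D2V36.Col u i θ l g h r y) (D2V36.Lvl u (l + g)))ᶜ) :
    exT (Lo u ((l + g : ℕ) : ℤ)) X = ⊤ ∨
      X ∈ BadE u (sl u i θ) l ((l + g : ℕ) : ℤ) ((l : ℤ) - h) r := by
  classical
  by_cases hT : exT (Lo u ((l + g : ℕ) : ℤ)) X = ⊤
  · exact Or.inl hT
  right
  obtain ⟨n, hn⟩ := ENat.ne_top_iff_exists.1 hT
  have hTn := exT_eq_iff.1 hn.symm
  have h1 : ((l + g : ℕ) : ℤ) ≤ lev u (X n) := not_lt.1 hTn.1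
  have h2 : ∀ j < n, lev u (X j) < ((l + g : ℕ) : ℤ) := hTn.2
  have h3 : lev u (X n) = ((l + g : ℕ) : ℤ) := by
    cases n with
    | zero =>
      refine le_antisymm ?_ h1
      rw [h0, hy]; push_cast; omega
    | succ n =>
      refine le_antisymm ?_ h1
      obtain ⟨e, he⟩ := hnn n
      have h4 := h2 n (Nat.lt_succ_self n)
      have h5 := D1S.lev_stepVec_le u e
      have h6 : lev u (X (n + 1)) = lev u (X n) + lev u (stepVec e) := by
        rw [← D1S.lev_add, he]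
      omega
  by_cases hcol : ∀ j < n, X j ∈ D2V36.Col u i θ l g h r y
  · exact absurd (show X ∈ Ev (D2V36.Col u i θ l g h r y) (D2V36.Lvl u (l + g)) from
      ⟨n, h3, hcol⟩) hX
  · push Not at hcol
    obtain ⟨j, hj, hjc⟩ := hcol
    refine ⟨0, j, Nat.zero_le _, by rw [h0, hy], fun i hi => absurd hi (Nat.not_lt_zero i),
      fun i hi => h2 i (by omega), ?_⟩
    by_contra hcon
    push Not at hcon
    refine hjc ⟨hcon.1, ?_, ?_⟩
    · have := h2 j hj
      push_cast at this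
      exact this
    · rw [h0] at hcon
      exact hcon.2

/-- **`D2V36.SlabP`** -/
theorem slabP (ν : Measure (Row 2)) [IsProbabilityMeasure ν]
    (hν : ∀ᵐ q ∂ν, ∀ e : Step 2, 0 < q.1 e) {u : Step 2} {i : Fin 2} (hi : i ≠ u.1) {θ : ℝ}
    (hA : annealedProb (iidEnvironmentLaw ν) 0 (escapeEvent (dirVec u)) = 1) {wd : ℕ → ℕ}
    (hT : TubeP u i θ (iidEnvironmentLaw ν) wd) (hwd1 : ∃ N1, ∀ N ≥ N1, 1 ≤ wd N)
    (hwd2 : ∃ C2 : ℝ, ∃ N1 : ℕ, ∀ h ≥ N1, (wd (2 * h) : ℝ) ≤ C2 * wd h) :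
    D2V36.SlabP u i θ ν wd := by
  obtain ⟨A, p0, hA0, hp0, H0, htube⟩ := hT
  obtain ⟨N1, hN1⟩ := hwd1
  obtain ⟨C2, N2, hN2⟩ := hwd2
  set Q := iidEnvironmentLaw ν with hQ
  have hstat : ∀ z : Site 2, MeasurePreserving (shiftEnv z) Q Q := fun z => Q561.iid_shift ν z
  have hp1 : p0 ≤ 1 := by
    have h1 := htube H0 le_rfl
    have h2 : annealedProb Q 0 {X | ∃ n, lev u (X n) = H0 ∧ ∀ j < n, 0 ≤ lev u (X j) ∧
        lev u (X j) < H0 ∧ |sl u i θ (X j)| ≤ A * wd H0} ≤ 1 := by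
      calc _ ≤ ∫⁻ _, 1 ∂Q := lintegral_mono fun ω => prob_le_one
        _ = 1 := by simp
    have h3 := h1.trans h2
    rwa [← ENNReal.ofReal_one, ENNReal.ofReal_le_ofReal_iff (by norm_num)] at h3
  set q := ∑' z, tz Q u z with hqdef
  have hq1 : q < 1 := sum_tz_lt hstat u hA
  set cE := (1 - q)⁻¹ with hcE
  have hcpos : (1 - q) ≠ 0 := (tsub_pos_of_lt hq1).ne'
  have hctop : cE ≠ ⊤ := ENNReal.inv_ne_top.2 hcpos
  have hc1 : 1 ≤ cE := ENNReal.one_le_inv.2 tsub_le_self
  set C2' := max C2 1 with hC2'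
  have hC2p : 1 ≤ C2' := le_max_right _ _
  set B := A * C2' + 3 with hB
  have hBpos : 3 ≤ B := by
    rw [hB]
    have : 0 ≤ A * C2' := by positivity
    linarith
  set cc := p0 / (8 * B) with hcc
  have hccpos : 0 < cc := by rw [hcc]; positivity
  set Cf := cE.toReal * (2 * Real.exp (cc * (4 + 8 * B))) with hCf
  have hcEr : 1 ≤ cE.toReal := by
    rw [← ENNReal.toReal_one]
    exact ENNReal.toReal_mono hctop hc1
  refine ⟨Cf, cc, by rw [hCf]; positivity, hccpos, fun As hAs ε hε => ?_⟩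
  -- constants
  have hε2 : ENNReal.ofReal (ε / 2) ≠ 0 := by
    rw [Ne, ENNReal.ofReal_eq_zero, not_le]; positivity
  obtain ⟨M, hM⟩ := exists_km ν u hA hε2
  obtain ⟨r0, hr0⟩ : ∃ r0 : ℕ, annealedProb Q 0 (Down u (-(r0 : ℤ))) ≤ ENNReal.ofReal (ε / 2) := by
    have := (tendsto_down u hA).eventually_le_const (pos_iff_ne_zero.2 hε2)
    exact this.exists
  refine ⟨M + r0 + N1 + N2 + H0 + 1, fun h hh l g hg => ?_⟩
  have hhM : M ≤ h := by omega
  have hh0 : 0 < h := by omega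
  have hwdh : (1 : ℝ) ≤ wd h := by exact_mod_cast hN1 h (by omega)
  have hwd2h : (wd (2 * h) : ℝ) ≤ C2' * wd h :=
    (hN2 h (by omega)).trans (by gcongr; exact le_max_left _ _)
  set K : ℕ := ⌊(As - 4) / (8 * B)⌋₊ with hK
  set gv : ℝ≥0∞ := 2 * (1 - ENNReal.ofReal p0) ^ K with hgv
  set r := As * (wd h : ℝ) with hr
  -- the slab bound
  have hslab : ∀ (x : Site 2) (l0 b : ℤ), l0 ≤ lev u x → lev u x < l0 + (2 * h : ℕ) →
      b ≤ l0 + (2 * h : ℕ) → annealedProb Q x (Wd u (sl u i θ) l0 b r) ≤ gv := by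
    intro x l0 b h1 h2 h3
    by_cases hAs4 : As < 4
    · have hK0 : K = 0 := by
        rw [hK, Nat.floor_eq_zero]
        have : (As - 4) / (8 * B) < 0 := div_neg_of_neg_of_pos (by linarith) (by positivity)
        linarith
      rw [hgv, hK0, pow_zero, mul_one]
      calc annealedProb Q x (Wd u (sl u i θ) l0 b r) ≤ ∫⁻ _, 1 ∂Q :=
            lintegral_mono fun ω => prob_le_one
        _ = 1 := by simp
        _ ≤ 2 := by norm_num
    · push Not at hAs4
      refine le_trans (lintegral_mono fun ω => measure_mono (Wd_mono h3)) ?_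
      refine slab_from ν hν hi (a := A * wd (2 * h)) (by positivity) (H := 2 * h) (by omega)
        (htube (2 * h) (by omega)) x h1 h2 K ?_
      have h4 : (K : ℝ) ≤ (As - 4) / (8 * B) :=
        Nat.floor_le (div_nonneg (by linarith) (by positivity))
      have h5 : (K : ℝ) * (8 * B) ≤ As - 4 := by
        rwa [le_div_iff₀ (by positivity)] at h4
      have h6 : A * (wd (2 * h) : ℝ) + 3 ≤ B * wd h := by
        calc A * (wd (2 * h) : ℝ) + 3 ≤ A * (C2' * wd h) + 3 * wd h := by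
              gcongr; linarith
          _ = B * wd h := by rw [hB]; ring
      calc 2 * (2 + 4 * (A * (wd (2 * h) : ℝ) + 3) * K)
          ≤ 2 * (2 * wd h + 4 * (B * wd h) * K) := by gcongr; linarith
        _ = (4 + K * (8 * B)) * wd h := by ring
        _ ≤ (4 + (As - 4)) * wd h := by gcongr
        _ = r := by rw [hr]; ring
  -- numbers
  have hnum : cE * gv + ENNReal.ofReal (ε / 2) ≤
      ENNReal.ofReal (Cf * Real.exp (-(cc * As)) + ε) := by
    have h1 : (1 - ENNReal.ofReal p0) ^ K ≤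
        ENNReal.ofReal (Real.exp (cc * (4 + 8 * B)) * Real.exp (-(cc * As))) := by
      rw [← ENNReal.ofReal_one, ← ENNReal.ofReal_sub 1 hp0.le,
        ← ENNReal.ofReal_pow (by linarith)]
      refine ENNReal.ofReal_le_ofReal ?_
      have h2 : 1 - p0 ≤ Real.exp (-p0) := by
        have := Real.add_one_le_exp (-p0)
        linarith
      have h3 : (As - 4) / (8 * B) - 1 ≤ K := by
        have := Nat.lt_floor_add_one ((As - 4) / (8 * B))
        rw [hK]; linarith
      calc (1 - p0) ^ K ≤ Real.exp (-p0) ^ K := by gcongr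
        _ = Real.exp (-(p0 * K)) := by rw [← Real.exp_nat_mul]; ring_nf
        _ ≤ Real.exp (-(p0 * ((As - 4) / (8 * B) - 1))) := by
            apply Real.exp_le_exp.2
            nlinarith
        _ = Real.exp (cc * (4 + 8 * B)) * Real.exp (-(cc * As)) := by
            rw [← Real.exp_add]
            congr 1
            rw [hcc]
            field_simp
            ring
    have h4 : cE * gv ≤ ENNReal.ofReal (Cf * Real.exp (-(cc * As))) := by
      have h5 : cE = ENNReal.ofReal cE.toReal := (ENNReal.ofReal_toReal hctop).symm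
      calc cE * gv ≤ ENNReal.ofReal cE.toReal * (ENNReal.ofReal 2 *
            ENNReal.ofReal (Real.exp (cc * (4 + 8 * B)) * Real.exp (-(cc * As)))) := by
            rw [← h5, hgv]
            gcongr
            simp
        _ = ENNReal.ofReal (Cf * Real.exp (-(cc * As))) := by
            rw [← ENNReal.ofReal_mul (by norm_num), ← ENNReal.ofReal_mul (by linarith), hCf]
            congr 1
            ring
    calc cE * gv + ENNReal.ofReal (ε / 2)
        ≤ ENNReal.ofReal (Cf * Real.exp (-(cc * As))) + ENNReal.ofReal ε := by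
          refine add_le_add h4 (ENNReal.ofReal_le_ofReal (by linarith))
      _ = _ := by
          rw [← ENNReal.ofReal_add (by positivity) hε.le]
  -- annealed bound for the bad event
  have hbad : annealedProb Q 0 (BadE u (sl u i θ) l ((l + g : ℕ) : ℤ) ((l : ℤ) - h) r) ≤
      cE * gv + ENNReal.ofReal (ε / 2) := by
    rcases Nat.lt_or_ge l M with hlM | hlM
    · calc annealedProb Q 0 (BadE u (sl u i θ) l ((l + g : ℕ) : ℤ) ((l : ℤ) - h) r)
          ≤ annealedProb Q 0 (Down u (((l : ℤ) - h) - 1)) +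
            annealedProb Q 0 (Wd u (sl u i θ) ((l : ℤ) - h) ((l + g : ℕ) : ℤ) r) := by
            unfold annealedProb
            rw [← lintegral_add_left (Q561.measurable_quenched_apply 0 (measurableSet_Down u _))]
            exact lintegral_mono fun ω => (measure_mono BadE_low).trans (measure_union_le _ _)
        _ ≤ ENNReal.ofReal (ε / 2) + gv := by
            refine add_le_add ?_ ?_
            · refine le_trans (lintegral_mono fun ω => measure_mono (Down_mono u ?_)) hr0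
              push_cast; omega
            · refine hslab 0 _ _ ?_ ?_ ?_
              · rw [D1S.lev_zero]; omega
              · rw [D1S.lev_zero]; push_cast; omega
              · push_cast; omega
        _ ≤ ENNReal.ofReal (ε / 2) + cE * gv := by
            gcongr
            calc gv = 1 * gv := (one_mul _).symm
              _ ≤ cE * gv := by gcongr
        _ = _ := add_comm _ _
    · refine le_trans (lintegral_mono fun ω => measure_mono (BadE_mono (f' := (l : ℤ) - M) ?_))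
        (hM (sl u i θ) l ((l + g : ℕ) : ℤ) r gv (by push_cast; omega) (fun x hx1 hx2 => ?_) 0 ?_)
      · omega
      · refine hslab x _ _ le_rfl ?_ ?_
        · push_cast; omega
        · push_cast; omega
      · rw [D1S.lev_zero]; omega
  -- conclusion
  refine le_trans ?_ (hbad.trans hnum)
  have hae : ∀ᵐ ω ∂Q, ∀ y : Site 2,
      quenchedLaw ω y {X | exT (Lo u ((l + g : ℕ) : ℤ)) X = ⊤} = 0 :=
    ae_all_iff.2 fun y => hit_ae hstat u hA _ y
  have hBm := measurableSet_BadE u (sl u i θ) l ((l + g : ℕ) : ℤ) ((l : ℤ) - h) r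
  calc ∫⁻ ω, ∑' y : Site 2, EK ω (D2V36.Sb u l) 0 y * quenchedLaw ω y
        (Ev (D2V36.Col u i θ l g h (As * wd h) y) (D2V36.Lvl u (l + g)))ᶜ ∂Q
      ≤ ∫⁻ ω, ∑' y : Site 2, EK ω (Lo u l) 0 y * quenchedLaw ω y
          (BadE u (sl u i θ) l ((l + g : ℕ) : ℤ) ((l : ℤ) - h) r) ∂Q := by
        refine lintegral_mono_ae ?_
        filter_upwards [hae] with ω hω
        refine ENNReal.tsum_le_tsum fun y => ?_
        by_cases hy : lev u y = (l : ℤ)
        · refine mul_le_mul' le_rfl ?_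
          calc quenchedLaw ω y (Ev (D2V36.Col u i θ l g h (As * wd h) y)
                (D2V36.Lvl u (l + g)))ᶜ
              ≤ quenchedLaw ω y ({X | exT (Lo u ((l + g : ℕ) : ℤ)) X = ⊤} ∪
                BadE u (sl u i θ) l ((l + g : ℕ) : ℤ) ((l : ℤ) - h) r) := by
                refine measure_mono_ae ?_
                filter_upwards [quenched_zero_eq ω y, quenched_nn ω y] with X h0 hnn hX
                exact col_cases hy h0 hnn hX
            _ ≤ quenchedLaw ω y {X | exT (Lo u ((l + g : ℕ) : ℤ)) X = ⊤} +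
                quenchedLaw ω y (BadE u (sl u i θ) l ((l + g : ℕ) : ℤ) ((l : ℤ) - h) r) :=
                measure_union_le _ _
            _ = _ := by rw [hω y, zero_add]
        · have h3 : EK ω (D2V36.Sb u l) 0 y = 0 := by
            have := EK_Lo u ω (l := (l : ℤ)) (x := (0 : Site 2)) (by rw [D1S.lev_zero]; omega) hy
            exact this
          rw [h3, zero_mul]
          exact zero_le
    _ ≤ annealedProb Q 0 (BadE u (sl u i θ) l ((l + g : ℕ) : ℤ) ((l : ℤ) - h) r) := by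
        refine lintegral_mono fun ω => ?_
        rw [← exit_markov ω (Lo u l) 0 hBm]
        refine measure_mono ?_
        rintro X ⟨h1, h2⟩
        exact BadE_unshift (by push_cast; omega) h1 h2

end two

end Crest.Agent.R154.SlabUse28
end

-- ▼ part R154/SlabObj_28
section

/-!
# Row 154, block d = 2 (helper28): `D2V36.SlabP` on the object width, no open input
-/

set_option autoImplicit false
set_option linter.unusedVariables false
set_option linter.unusedSectionVars false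
set_option linter.deprecated false

namespace Crest.Agent.R154.SlabUse28

open MeasureTheory ProbabilityTheory Filter Topology Crest.ProbabilityR.RandomEnvironment
open Crest.Agent.R154 Crest.Agent.R154.B2d
open Crest.Agent.R154.TubeLin4 Crest.Agent.R154.Mk561 Crest.Agent.R154.Bind263
  Crest.Agent.R154.B4Inst797 Crest.Agent.R154.J132 Crest.Agent.R154.J6_24
  Crest.Agent.R154.NDAObj24
open Crest.Agent.R154.Flux132 (lev)
open scoped ENNReal

/-- **THETA + SlabP** for the object width, same slope. -/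
theorem theta_slabP (ν : Measure (Row 2)) [IsProbabilityMeasure ν]
    (hν : ∀ᵐ q ∂ν, ∀ e : Step 2, 0 < q.1 e) {u : Step 2} {i : Fin 2} (hi : i ≠ u.1)
    (hA : annealedProb (iidEnvironmentLaw ν) 0 (escapeEvent (B2d.dirVec u)) = 1) :
    ∃ θ : ℝ, (∀ ε : ℝ, 0 < ε → ∃ (A : ℝ) (N1 : ℕ), ∀ N, N1 ≤ N →
      1 - ε ≤ (stL (iidEnvironmentLaw ν) 0 u).real
        (TubeE u i N (A * wdO ν u i N) fun l => θ * l)) ∧
      TubeP u i θ (iidEnvironmentLaw ν) (wdO ν u i) ∧
      D2V36.SlabP u i θ ν (wdO ν u i) := by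
  have hA' : annealedProb (iidEnvironmentLaw ν) 0 (escapeEvent (B2d.dirVec u)) ≠ 0 := by
    rw [hA]; exact one_ne_zero
  obtain ⟨θ, h1, h2⟩ := theta_tubeP ν hν hi hA'
  have h3 : TubeP u i θ (iidEnvironmentLaw ν) (wdO ν u i) := h2
  obtain ⟨N0, hN0⟩ := wdO_two ν hν hi hA'
  exact ⟨θ, h1, h3, slabP ν hν hi hA h3 ⟨0, fun N _ => one_le_wdO ν hν hi hA' N⟩
    ⟨6, N0, fun h hh => hN0 h hh⟩⟩

end Crest.Agent.R154.SlabUse28
end

-- ▼ part R154/WinC_956

/-!
# Row 154, `d = 2`, D2.10, part C: the object.  (helper956)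

`dat` : the natural walk (132's letters, lateral coordinate `i`) is a `Dat` for 4's slope `θ` and the
width `wdO`; `win_of_spr` : 980's `WIN` from the spread of the natural walk.
-/

set_option autoImplicit false
set_option linter.unusedSectionVars false
set_option linter.deprecated false

namespace Crest.Agent.R154.Win956

open MeasureTheory ProbabilityTheory Filter Topology Set Crest.ProbabilityR.RandomEnvironment
open Crest.Agent.R154.Mk561 Crest.Agent.R154.Bind263 Crest.Agent.R154.B4Inst797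
open Crest.Agent.R154.J132 Crest.Agent.R154.J6_24 Crest.Agent.R154.NDAObj24
open Crest.Agent.R154.TubeLin4 (wdO core_obj one_le_wdO wdO_mono wdO_top wdO_two TubeE)
open Crest.Agent.R154.Ren263 (Word Stay measurableSet_Stay)
open Crest.Agent.R154.RenG263 (blks RegInf measurable_blks)
open Crest.Agent.R154.Flux132 (lev)
open Crest.Agent.R154.River916 (Ev meas_Ev)
open Crest.Agent.R154.P2916 (sl Rg Tg Tp)
open scoped ENNReal

/-- lateral displacement of a letter -/
noncomputable def XL (i : Fin 2) (w : Word (Mark 2)) : ℝ := Vw i i w 0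

/-- lateral position at the first hit of level `l` -/
noncomputable def xL (u : Step 2) (i : Fin 2) (l : ℕ) (a : ℕ → Word (Mark 2)) : ℝ := UW u i i l a 0

lemma meas_xL (u : Step 2) (i : Fin 2) (l : ℕ) : Measurable (xL u i l) :=
  (measurable_pi_apply 0).comp ((posW u i i).meas l)

lemma cov_xL (u : Step 2) (i : Fin 2) (a : ℕ → Word (Mark 2)) (j l : ℕ) (h : H (Yw u) j a ≤ l) :
    xL u i l a = T (XL i) j a + xL u i (l - H (Yw u) j a) (J132.sh j a) := by
  have h1 := (posW u i i).cov a j l h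
  have h2 := congrFun h1 0
  unfold xL
  rw [h2, Pi.add_apply]
  congr 1
  simp [Dd, T, XL]

section mean

variable {A : Type*} [MeasurableSpace A] [MeasurableSingletonClass A] [Countable A] [Inhabited A]
variable (μ : Measure A) [IsProbabilityMeasure μ]

/-- the mean height of a single letter is at most the one of a joint block -/
theorem lint_Y {Y : A → ℕ} (hY : ∀ a, 1 ≤ Y a) :
    ∫⁻ a, (Y a : ℝ≥0∞) ∂μ ≤ ∑' m : ℕ, pairL μ (NoCut Y m) := by
  rw [lintegral_nat_eq_tsum μ (measurable_of_countable Y)]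
  refine ENNReal.tsum_le_tsum fun m => ?_
  have hm : Measurable fun p : (ℕ → A) × (ℕ → A) => p.1 0 :=
    (measurable_pi_apply 0).comp measurable_fst
  have h1 : (pairL μ).map (fun p : (ℕ → A) × (ℕ → A) => p.1 0) = μ := by
    have e : (fun p : (ℕ → A) × (ℕ → A) => p.1 0) = (fun a : ℕ → A => a 0) ∘ Prod.fst := rfl
    rw [e, ← Measure.map_map (measurable_pi_apply 0) measurable_fst, Measure.map_fst_prod,
      measure_univ, one_smul]
    exact Measure.infinitePi_map_eval (fun _ : ℕ => μ) 0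
  have h2 : μ {a | m < Y a} = pairL μ {p | m < Y (p.1 0)} := by
    conv_lhs => rw [← h1]
    rw [Measure.map_apply hm (Set.to_countable _).measurableSet]
    rfl
  rw [h2]
  refine measure_mono ?_
  intro p hp l hl hlm hc
  simp only [mem_ofPred_eq] at hp
  obtain ⟨j, k, hj, hk⟩ := hc
  have hj1 : 1 ≤ j := by
    rcases Nat.eq_zero_or_pos j with h | h
    · rw [h, H_zero] at hj; omega
    · exact h
  have h3 : H Y 1 p.1 ≤ H Y j p.1 := (H_strictMono hY p.1).monotone hj1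
  have h4 : H Y 1 p.1 = Y (p.1 0) := by simp [H]
  omega

theorem int_Y {Y : A → ℕ} (hY : ∀ a, 1 ≤ Y a) (h : ∑' m : ℕ, pairL μ (NoCut Y m) ≠ ⊤) :
    Integrable (fun a => (Y a : ℝ)) μ := by
  refine ⟨(measurable_of_countable _).aestronglyMeasurable, ?_⟩
  rw [hasFiniteIntegral_iff_enorm]
  refine lt_of_le_of_lt ?_ (lt_of_le_of_lt (lint_Y μ hY) (lt_top_iff_ne_top.2 h))
  refine le_of_eq (lintegral_congr fun a => ?_)
  rw [Real.enorm_eq_ofReal (Nat.cast_nonneg _), ENNReal.ofReal_natCast]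

end mean

section two

variable {u : Step 2} {i : Fin 2} (ν : Measure (Row 2)) [IsProbabilityMeasure ν]
    (hν : ∀ᵐ q ∂ν, ∀ e : Step 2, 0 < q.1 e) (hi : i ≠ u.1)
    (hA : annealedProb (iidEnvironmentLaw ν) 0 (escapeEvent (B2d.dirVec u)) ≠ 0)

include hν hA

/-- position of the natural walk at the first hit of level `N` -/
lemma ae_hit (N : ℕ) : ∀ᵐ s ∂(stL (iidEnvironmentLaw ν) 0 u), ∃ n, Hit u N n s ∧
    (pos 0 s n i : ℝ) = xL u i N (blks (rhoU u 0 0) s) := by
  have F := frame_iid ν hν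
  filter_upwards [ae_regInfU F hA] with s hs
  obtain ⟨n, hn⟩ := exists_hit_regInf hs N
  refine ⟨n, hn, ?_⟩
  unfold xL
  have e : UW u i i N (blks (rhoU u 0 0) s) = UU u i i N s := (Uf_congr_ge i i hs).symm
  rw [e, (hit_eq i i hn).2]
  simp [lat]

/-- transfer of events -/
lemma real_le (N : ℕ) {S : Set ℝ} (hS : MeasurableSet S) {B : Set (MPath 2)}
    (h : ∀ s n, Hit u N n s → (pos 0 s n i : ℝ) ∈ S → s ∈ B) :
    (iidL (muW (iidEnvironmentLaw ν) 0 0 u)).real {a | xL u i N a ∈ S}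
      ≤ (stL (iidEnvironmentLaw ν) 0 u).real B := by
  have F := frame_iid ν hν
  have hst : IsProbabilityMeasure (stL (iidEnvironmentLaw ν) 0 u) :=
    cond_isProbabilityMeasure (F.hp _ hA)
  have hm : MeasurableSet {a | xL u i N a ∈ S} := meas_xL u i N hS
  rw [measureReal_def, measureReal_def, ← map_blksU F hA, Measure.map_apply (measurable_blks _) hm]
  refine ENNReal.toReal_mono (measure_ne_top _ _) (measure_mono_ae ?_)
  filter_upwards [ae_hit (i := i) ν hν hA N] with s ⟨n, hn, hp⟩ hs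
  refine h s n hn ?_
  rw [hp]; exact hs

lemma real_ge (N : ℕ) {S : Set ℝ} (hS : MeasurableSet S) {B : Set (MPath 2)}
    (h : ∀ s n, Hit u N n s → s ∈ B → (pos 0 s n i : ℝ) ∈ S) :
    (stL (iidEnvironmentLaw ν) 0 u).real B ≤
      (iidL (muW (iidEnvironmentLaw ν) 0 0 u)).real {a | xL u i N a ∈ S} := by
  have F := frame_iid ν hν
  have hst : IsProbabilityMeasure (stL (iidEnvironmentLaw ν) 0 u) :=
    cond_isProbabilityMeasure (F.hp _ hA)
  have hm : MeasurableSet {a | xL u i N a ∈ S} := meas_xL u i N hS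
  have e : (iidL (muW (iidEnvironmentLaw ν) 0 0 u)).real {a | xL u i N a ∈ S} =
      (stL (iidEnvironmentLaw ν) 0 u).real (blks (rhoU u 0 0) ⁻¹' {a | xL u i N a ∈ S}) := by
    rw [measureReal_def, measureReal_def, ← map_blksU F hA, Measure.map_apply (measurable_blks _) hm]
  rw [e, measureReal_def, measureReal_def]
  refine ENNReal.toReal_mono (measure_ne_top _ _) (measure_mono_ae ?_)
  filter_upwards [ae_hit (i := i) ν hν hA N] with s ⟨n, hn, hp⟩ hs
  change xL u i N (blks (rhoU u 0 0) s) ∈ S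
  rw [← hp]
  exact h s n hn hs

include hi

/-- the natural walk is a `Dat`, given its spread -/
theorem dat {θ : ℝ}
    (hθ : ∀ ε : ℝ, 0 < ε → ∃ (A : ℝ) (N1 : ℕ), ∀ N, N1 ≤ N →
      1 - ε ≤ (stL (iidEnvironmentLaw ν) 0 u).real
        (TubeE u i N (A * wdO ν u i N) fun l => θ * l))
    (hspr : ∃ s p : ℝ, 0 < s ∧ 0 < p ∧ ∀ᶠ N : ℕ in atTop,
      p ≤ (iidL (muW (iidEnvironmentLaw ν) 0 0 u)).real
        {a | s * (wdO ν u i N : ℝ) ≤ |UW u i i N a 0 - θ * N|}) :
    Dat (muW (iidEnvironmentLaw ν) 0 0 u) (Yw u) (XL i) (xL u i) θ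
      (fun N => (wdO ν u i N : ℝ)) := by
  have F := frame_iid ν hν
  have hW := probW F hA
  have hCore := core_obj ν hν hi hA
  have hN := nda_obj ν hν hi hA
  have hst : IsProbabilityMeasure (stL (iidEnvironmentLaw ν) 0 u) :=
    cond_isProbabilityMeasure (F.hp _ hA)
  refine ⟨one_le_Yw u, int_Y _ (one_le_Yw u) (sum_noCut_ne_top F hA), meas_xL u i,
    fun a j l h => cov_xL u i a j l h, ?_, ?_, ?_, ?_, ?_, hspr⟩
  · intro a b hab
    exact Nat.cast_le.2 (wdO_mono ν hν hi hA hab)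
  · refine tendsto_natCast_atTop_atTop.comp (tendsto_atTop.2 fun K => ?_)
    obtain ⟨N0, hN0⟩ := wdO_top ν hν hi hA K
    exact eventually_atTop.2 ⟨N0, hN0⟩
  · refine ⟨3, fun k hk => ?_⟩
    filter_upwards [hN.wd_upper hCore k hk] with N h
    have e : (3 : ℝ) * √(k : ℝ) * (wdO ν u i N : ℝ) = 3 * (√(k : ℝ) * (wdO ν u i N : ℝ)) := by ring
    rw [e]; exact h
  · intro δ hδ
    obtain ⟨K, hK⟩ := exists_nat_ge ((2 / δ) ^ 2 + 1)
    have hK1r : (1 : ℝ) ≤ K := by nlinarith [sq_nonneg (2 / δ)]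
    have hK1 : 1 ≤ K := by exact_mod_cast hK1r
    refine ⟨K, hK1, ?_⟩
    filter_upwards [hN.wd_lower hCore K hK1] with N h
    have h1 : 2 / δ ≤ √(K : ℝ) := Real.le_sqrt_of_sq_le (by linarith)
    have h2 : 2 ≤ √(K : ℝ) * δ := by rwa [div_le_iff₀ hδ] at h1
    have h3 : (0 : ℝ) ≤ wdO ν u i N := Nat.cast_nonneg _
    have h4 : (1 / 2) * (√(K : ℝ) * (wdO ν u i N : ℝ)) ≤ (wdO ν u i (K * N) : ℝ) := h
    calc (wdO ν u i N : ℝ) = 1 / 2 * (2 * (wdO ν u i N : ℝ)) := by ring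
      _ ≤ 1 / 2 * (√(K : ℝ) * δ * (wdO ν u i N : ℝ)) := by
          have := mul_le_mul_of_nonneg_right h2 h3
          linarith
      _ = δ * ((1 / 2) * (√(K : ℝ) * (wdO ν u i N : ℝ))) := by ring
      _ ≤ δ * (wdO ν u i (K * N) : ℝ) := mul_le_mul_of_nonneg_left h4 hδ.le
  · intro ε hε
    obtain ⟨A, N1, hA1⟩ := hθ ε hε
    obtain ⟨N2, hN2⟩ := wdO_two ν hν hi hA
    refine ⟨|A| * 6, ?_⟩
    filter_upwards [eventually_ge_atTop (max (max N1 N2) 1)] with N hNN
    have hN1 : N1 ≤ N + 1 := by omega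
    have hN2' : N2 ≤ N := by omega
    have hN3 : 1 ≤ N := by omega
    have h1 := hA1 (N + 1) hN1
    have h2 := hN2 N hN2'
    have h3 : (wdO ν u i (N + 1) : ℝ) ≤ wdO ν u i (2 * N) :=
      Nat.cast_le.2 (wdO_mono ν hν hi hA (by omega))
    have h4 : A * wdO ν u i (N + 1) ≤ |A| * 6 * wdO ν u i N := by
      calc A * wdO ν u i (N + 1) ≤ |A| * wdO ν u i (N + 1) :=
            mul_le_mul_of_nonneg_right (le_abs_self A) (Nat.cast_nonneg _)
        _ ≤ |A| * (6 * wdO ν u i N) := mul_le_mul_of_nonneg_left (h3.trans h2) (abs_nonneg _)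
        _ = _ := by ring
    have hS : MeasurableSet {t : ℝ | |t - θ * N| ≤ |A| * 6 * (wdO ν u i N : ℝ)} :=
      measurableSet_le (measurable_id.sub_const _).abs measurable_const
    have h5 := real_ge (i := i) ν hν hA N hS (B := TubeE u i (N + 1) (A * wdO ν u i (N + 1))
      fun l => θ * l) (by
        intro s n hn hT
        have h5 : zh u s n < ((N + 1 : ℕ) : ℤ) := by rw [hn.1]; push_cast; omega
        have h6 := hT n h5
        rw [hn.1] at h6
        simp only [Int.toNat_natCast] at h6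
        exact h6.trans h4)
    have hm : MeasurableSet {a | xL u i N a ∈ {t : ℝ | |t - θ * N| ≤
        |A| * 6 * (wdO ν u i N : ℝ)}} := meas_xL u i N hS
    have h6 : {a | |A| * 6 * (wdO ν u i N : ℝ) < |xL u i N a - θ * N|} =
        {a | xL u i N a ∈ {t : ℝ | |t - θ * N| ≤ |A| * 6 * (wdO ν u i N : ℝ)}}ᶜ := by
      ext a
      simp only [mem_ofPred_eq, mem_compl_iff, not_le]
    rw [h6, measureReal_compl hm, probReal_univ]
    linarith

/-- **980's `WIN`** from the spread of the natural walk -/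
theorem win_of_spr {θ : ℝ}
    (hθ : ∀ ε : ℝ, 0 < ε → ∃ (A : ℝ) (N1 : ℕ), ∀ N, N1 ≤ N →
      1 - ε ≤ (stL (iidEnvironmentLaw ν) 0 u).real
        (TubeE u i N (A * wdO ν u i N) fun l => θ * l))
    (hspr : ∃ s p : ℝ, 0 < s ∧ 0 < p ∧ ∀ᶠ N : ℕ in atTop,
      p ≤ (iidL (muW (iidEnvironmentLaw ν) 0 0 u)).real
        {a | s * (wdO ν u i N : ℝ) ≤ |UW u i i N a 0 - θ * N|}) :
    QE980.WIN u i θ (iidEnvironmentLaw ν) (wdO ν u i) := by
  intro α β hαβ
  have F := frame_iid ν hν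
  have hst : IsProbabilityMeasure (stL (iidEnvironmentLaw ν) 0 u) :=
    cond_isProbabilityMeasure (F.hp _ hA)
  have hW := probW F hA
  obtain ⟨c, hc, hev⟩ := (dat ν hν hi hA hθ hspr).window hαβ
  obtain ⟨N0, hN0⟩ := eventually_atTop.1 hev
  set P0 := mkAnn 0 (iidEnvironmentLaw ν) 0 (Stay (mht (B2d.dirVec u))) with hP0
  have hP0n : P0 ≠ 0 := F.hp _ hA
  have hP0t : P0 ≠ ⊤ := measure_ne_top _ _
  have hP0r : 0 < P0.toReal := ENNReal.toReal_pos hP0n hP0t
  refine ⟨P0.toReal * c, by positivity, N0, fun N hN => ?_⟩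
  set C : Set (Path 2) := Ev {y | lev u y < (N : ℤ)} (Tg u i θ (wdO ν u i N) α β N) with hC
  have hCm : MeasurableSet C := meas_Ev _ _
  have hS : MeasurableSet {t : ℝ | α * (wdO ν u i N : ℝ) ≤ t - θ * N ∧
      t - θ * N ≤ β * (wdO ν u i N : ℝ)} :=
    (measurableSet_le measurable_const (measurable_id.sub_const _)).inter
      (measurableSet_le (measurable_id.sub_const _) measurable_const)
  have h1 := real_le (i := i) ν hν hA N hS (B := mpath 0 ⁻¹' C) (by
    intro s n hn hs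
    refine ⟨n, ?_, fun j hj => ?_⟩
    · change pos 0 s n ∈ Tg u i θ (wdO ν u i N) α β N
      have h2 : lev u (pos 0 s n) = (N : ℤ) := by rw [J6_24.lev_pos]; exact hn.1
      refine ⟨h2, ?_, ?_⟩
      · unfold sl
        rw [h2]; exact_mod_cast hs.1
      · unfold sl
        rw [h2]; exact_mod_cast hs.2
    · change lev u (pos 0 s j) < (N : ℤ)
      rw [J6_24.lev_pos]; exact hn.2 j hj)
  have h2 : c ≤ (stL (iidEnvironmentLaw ν) 0 u).real (mpath 0 ⁻¹' C) := (hN0 N hN).trans h1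
  have h3 : stL (iidEnvironmentLaw ν) 0 u (mpath 0 ⁻¹' C) ≤
      P0⁻¹ * annealedProb (iidEnvironmentLaw ν) 0 C := by
    rw [stL, cond_apply (measurableSet_Stay _), ← F.prob_eq hCm]
    gcongr
    exact inter_subset_right
  have h4 : ENNReal.ofReal c ≤ stL (iidEnvironmentLaw ν) 0 u (mpath 0 ⁻¹' C) := by
    rw [← ENNReal.ofReal_toReal (measure_ne_top (stL (iidEnvironmentLaw ν) 0 u) _)]
    exact ENNReal.ofReal_le_ofReal h2
  rw [ENNReal.ofReal_mul hP0r.le, ENNReal.ofReal_toReal hP0t]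
  calc P0 * ENNReal.ofReal c ≤ P0 * (P0⁻¹ * annealedProb (iidEnvironmentLaw ν) 0 C) := by
        gcongr
        exact h4.trans h3
    _ = annealedProb (iidEnvironmentLaw ν) 0 C := by
        rw [← mul_assoc, ENNReal.mul_inv_cancel hP0n hP0t, one_mul]

end two

end Crest.Agent.R154.Win956
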