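import Crest.Agent.R154.ThetaFin_4
import Crest.Agent.R154.SpreadA_8
import Crest.Agent.R154.PhiE_215_Mg
import Crest.Agent.R154.WinC_956_Mg
import Crest.Agent.R154.KSe_402_Mg
import Crest.Agent.R154.Row_12
import Crest.Agent.R154.D2Asm_244
import Crest.Agent.R154.ChainFL_263
import Crest.Agent.R154.InitY_272_Mg
import Crest.Agent.R154.Top2_169

-- ▼ part R154/SprObj_4
section

/-!
Row 154, d = 2 (D2.10, W2, helper4).  **SPREAD ON THE OBJECT**: the position of the natural walk at the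
first hit of the level `N` is not concentrated at scale `wdO N` around any point; from the abstract
claim `SpreadA.spread` (8) applied to the joint blocks (132) and NDA (24, 738).
-/

set_option autoImplicit false
set_option linter.unusedSectionVars false
set_option linter.deprecated false

namespace Crest.Agent.R154.TubeLin4

open MeasureTheory ProbabilityTheory Filter Set Crest.ProbabilityR.RandomEnvironment
open Crest.Agent.R154.Mk561 Crest.Agent.R154.Bind263 Crest.Agent.R154.B4Inst797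
open Crest.Agent.R154.J132 Crest.Agent.R154.J6_24 Crest.Agent.R154.NDAObj24
open Crest.Agent.R154.Hair738 (T U Core NDA)
open Crest.Agent.R154.Ren263 (Word)
open Crest.Agent.R154.RenG263 (blks RegInf measurable_blks)
open scoped ENNReal Topology

section gen
variable {d : ℕ} {u : Step d} {κ : ℝ} {R : ℕ} {Q : Measure (Environment d)}
  [IsProbabilityMeasure Q]

/-- (A1), (A2) of the spread lemma for the joint blocks, and its conclusion -/
theorem spread_tri (F : Frame Q κ R) (hA : annealedProb Q 0 (escapeEvent (B2d.dirVec u)) ≠ 0)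
    {i : Fin d} (hi : i ≠ u.1)
    (hN : NDA (T (triL Q κ R u (phi i)) Bt) (U (triL Q κ R u (phi i)) Vt Bt)) :
    ∃ a : ℝ, 0 < a ∧ ∀ ε : ℝ, 0 < ε → ∀ᶠ N : ℕ in atTop, 1 / 20 ≤
      (Measure.infinitePi (fun _ : ℕ => triL Q κ R u (phi i))).real
      {w | ∃ k ≤ N, SpreadA.H k w ≤ N ∧ N < SpreadA.H (k + 1) w ∧
        a * (wdJ Q κ R u i N : ℝ) ≤ |SpreadA.S k w| ∧ (w k).2.1 ≤ ε * (wdJ Q κ R u i N : ℝ)} := by
  have := probTri F hA (phi i)
  have H := core_tri F hA hi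
  have hle := tri_le F hA (phi i)
  have hA2 : ∃ c : ℝ, c > 0 ∧ ∀ ε : ℝ, ε > 0 → ∀ᶠ N : ℕ in atTop,
      c * (wdJ Q κ R u i N : ℝ) ^ 2 ≤
        N * ∫ e in {e | e.2.1 ≤ ε * (wdJ Q κ R u i N : ℝ)}, e.1 ^ 2 ∂(triL Q κ R u (phi i)) := by
    refine ⟨1 / 512, by norm_num, fun ε hε => ?_⟩
    have h1 := hN.wd_sq_le H
    have h2 : ∀ᶠ w : ℝ in atTop, (1 : ℝ) / 2 < U (triL Q κ R u (phi i)) Vt Bt (ε * w) /
        U (triL Q κ R u (phi i)) Vt Bt w :=
      (tendsto_order.1 (hN.slow_tendsto H ε hε)).1 _ (by norm_num)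
    filter_upwards [h1, (Hair738.wd_tendstoR H).eventually h2,
      (Hair738.wd_tendstoR H).eventually (Hair738.ev_Upos H)] with N h1 h2 h3
    rw [lt_div_iff₀ h3] at h2
    have hNN : (0 : ℝ) ≤ N := Nat.cast_nonneg N
    have e : ∫ e in {e | e.2.1 ≤ ε * (wdJ Q κ R u i N : ℝ)}, e.1 ^ 2 ∂(triL Q κ R u (phi i))
        = U (triL Q κ R u (phi i)) Vt Bt
          (ε * (Hair738.wdC (T (triL Q κ R u (phi i)) Bt) (U (triL Q κ R u (phi i)) Vt Bt) N : ℝ)) := rfl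
    rw [e]
    have h4 := mul_le_mul_of_nonneg_left h2.le hNN
    have h1' : (wdJ Q κ R u i N : ℝ) ^ 2 ≤ 256 * (N * U (triL Q κ R u (phi i)) Vt Bt
      (Hair738.wdC (T (triL Q κ R u (phi i)) Bt) (U (triL Q κ R u (phi i)) Vt Bt) N : ℝ)) := h1
    linarith
  exact SpreadA.spread (μ := triL Q κ R u (phi i)) (wd := fun N => (wdJ Q κ R u i N : ℝ))
    (tri_symm F hA (phi i)) (hle.mono fun t h => h.1) (hle.mono fun t h => h.2)
    (tri_mean F hA (phi i))
    (Eventually.of_forall fun N => by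
      have := one_le_wdJ F hA hi N
      have h2 : 0 < wdJ Q κ R u i N := this
      exact_mod_cast h2)
    (fun ε hε => hN.hair H ε hε) hA2

lemma UW_phi (i : Fin d) {s : MPath d} (hs : s ∈ RegInf (rhoU u κ R)) {l n : ℕ}
    (hn : Hit u l n s) : UW u i i l (blks (rhoU u κ R) s) 0 = phi i (pos 0 s n) := by
  rw [← lat_Up i i hs l]
  unfold KB424.Up
  rw [B6I.hn_eq ((hit_iff' l s n).2 hn)]
  rfl

/-- **spread of the pair** -/
theorem spread_pair (F : Frame Q κ R) (hA : annealedProb Q 0 (escapeEvent (B2d.dirVec u)) ≠ 0)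
    {i : Fin d} (hi : i ≠ u.1)
    (hN : NDA (T (triL Q κ R u (phi i)) Bt) (U (triL Q κ R u (phi i)) Vt Bt)) :
    ∃ a : ℝ, 0 < a ∧ ∀ᶠ N : ℕ in atTop, 1 / 20 ≤ (pairL (muW Q κ R u)).real
      {p | a * (wdJ Q κ R u i N : ℝ) ≤ |UW u i i N p.1 0 - UW u i i N p.2 0|} := by
  have hW := probW F hA
  have hP := probPr F hA
  have hprob := probTri F hA (phi i)
  obtain ⟨a, ha, h⟩ := spread_tri F hA hi hN
  refine ⟨a / 2, by positivity, ?_⟩
  filter_upwards [h (a / 2) (by positivity)] with N hN'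
  set w : ℝ := (wdJ Q κ R u i N : ℝ) with hw
  refine hN'.trans ?_
  have hml : ∀ l, Measurable fun a : ℕ → Word (Mark d) => UW u i i l a 0 := fun l =>
    (measurable_pi_apply 0).comp ((posW u i i).meas l)
  have hC : MeasurableSet {p : (ℕ → Word (Mark d)) × (ℕ → Word (Mark d)) |
      a / 2 * w ≤ |UW u i i N p.1 0 - UW u i i N p.2 0|} :=
    measurableSet_le measurable_const
      (measurable_norm.comp (((hml N).comp measurable_fst).sub ((hml N).comp measurable_snd)))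
  have hE := SpreadA.measurableSet_Ev a (a / 2) w N
  have hmj : Measurable fun (π : MPath d × MPath d) (k : ℕ) => tri u (phi i) (jw u κ R k π) :=
    measurable_pi_lambda _ fun k => measurable_jw (tri u (phi i)) k
  change (Measure.infinitePi (fun _ : ℕ => jlawOf (tri u (phi i)) Q κ R u)).real
    (SpreadA.Ev a (a / 2) w N) ≤ _
  rw [← map_jw (tri u (phi i)) F hA, ← map_bp F hA, measureReal_def, measureReal_def,
    Measure.map_apply hmj hE, Measure.map_apply measurable_bp hC]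
  refine ENNReal.toReal_mono (measure_ne_top _ _) (measure_mono_ae ?_)
  filter_upwards [jg_ae F hA] with π hπ hE'
  obtain ⟨k, hk, h1, h2, h3, h4⟩ := hE'
  have hs1 : π.1 ∈ RegInf (rhoU u κ R) := hπ.1
  have hs2 : π.2 ∈ RegInf (rhoU u κ R) := hπ.2.1
  obtain ⟨n, hn⟩ := exists_hit_regInf hs1 N
  obtain ⟨m, hm⟩ := exists_hit_regInf hs2 N
  have e1 : SpreadA.H k (fun k => tri u (phi i) (jw u κ R k π)) = Hk u κ R k π := rfl
  have e2 : SpreadA.H (k + 1) (fun k => tri u (phi i) (jw u κ R k π)) = Hk u κ R (k + 1) π := rfl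
  have e3 : SpreadA.S k (fun k => tri u (phi i) (jw u κ R k π)) = Sk (phi i) u κ R k π := rfl
  have h5 := same_hit hπ (phi i) hn hm (e1 ▸ h1) (le_of_lt (e2 ▸ h2))
  have h3' : a * w ≤ |Sk (phi i) u κ R k π| := h3
  have h4' : Bj u (phi i) (jw u κ R k π) ≤ a / 2 * w := h4
  change a / 2 * w ≤ |UW u i i N (blks (rhoU u κ R) π.1) 0 - UW u i i N (blks (rhoU u κ R) π.2) 0|
  rw [UW_phi i hs1 hn, UW_phi i hs2 hm]
  have h6 := abs_sub_abs_le_abs_sub (Sk (phi i) u κ R k π)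
    (phi i (pos 0 π.1 n) - phi i (pos 0 π.2 m))
  rw [abs_sub_comm (Sk (phi i) u κ R k π)] at h6
  linarith

/-- **the field `spr`** -/
theorem spr_gen (F : Frame Q κ R) (hA : annealedProb Q 0 (escapeEvent (B2d.dirVec u)) ≠ 0)
    {i : Fin d} (hi : i ≠ u.1)
    (hN : NDA (T (triL Q κ R u (phi i)) Bt) (U (triL Q κ R u (phi i)) Vt Bt)) (θ : ℝ) :
    ∃ s p : ℝ, 0 < s ∧ 0 < p ∧ ∀ᶠ N : ℕ in atTop, p ≤ (iidL (muW Q κ R u)).real
      {a | s * (wdJ Q κ R u i N : ℝ) ≤ |UW u i i N a 0 - θ * N|} := by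
  have hW := probW F hA
  obtain ⟨a, ha, h⟩ := spread_pair F hA hi hN
  refine ⟨a / 2, 1 / 40, by positivity, by norm_num, ?_⟩
  filter_upwards [h] with N hN'
  set w : ℝ := (wdJ Q κ R u i N : ℝ) with hw
  set C : Set (ℕ → Word (Mark d)) := {b | a / 2 * w ≤ |UW u i i N b 0 - θ * N|} with hC
  have hml : Measurable fun a : ℕ → Word (Mark d) => UW u i i N a 0 :=
    (measurable_pi_apply 0).comp ((posW u i i).meas N)
  have hCm : MeasurableSet C := measurableSet_le measurable_const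
    (measurable_norm.comp (hml.sub measurable_const))
  have hsub : {p : (ℕ → Word (Mark d)) × (ℕ → Word (Mark d)) |
      a * w ≤ |UW u i i N p.1 0 - UW u i i N p.2 0|} ⊆ C ×ˢ univ ∪ univ ×ˢ C := by
    intro p hp
    by_contra hc
    simp only [mem_union, mem_prod, mem_univ, and_true, true_and, not_or, hC, mem_setOf_eq,
      not_le] at hc
    have hp' : a * w ≤ |UW u i i N p.1 0 - UW u i i N p.2 0| := hp
    have h1 : |UW u i i N p.1 0 - UW u i i N p.2 0|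
        ≤ |UW u i i N p.1 0 - θ * N| + |UW u i i N p.2 0 - θ * N| := by
      have := abs_sub (UW u i i N p.1 0 - θ * N) (UW u i i N p.2 0 - θ * N)
      simpa using this
    linarith [hc.1, hc.2]
  have h1 := (measureReal_mono (μ := pairL (muW Q κ R u)) hsub).trans (measureReal_union_le _ _)
  have e1 : (pairL (muW Q κ R u)).real (C ×ˢ univ) = (iidL (muW Q κ R u)).real C := by
    rw [measureReal_def, Measure.prod_prod, measure_univ, mul_one, measureReal_def]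
  have e2 : (pairL (muW Q κ R u)).real (univ ×ˢ C) = (iidL (muW Q κ R u)).real C := by
    rw [measureReal_def, Measure.prod_prod, measure_univ, one_mul, measureReal_def]
  rw [e1, e2] at h1
  have := hN'.trans h1
  linarith

end gen

section two
variable {u : Step 2} {i : Fin 2}

/-- **956's field `spr` on the object** (W2), any slope -/
theorem spr_obj (ν : Measure (Row 2)) [IsProbabilityMeasure ν]
    (hν : ∀ᵐ q ∂ν, ∀ e : Step 2, 0 < q.1 e) (hi : i ≠ u.1)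
    (hA : annealedProb (iidEnvironmentLaw ν) 0 (escapeEvent (B2d.dirVec u)) ≠ 0) (θ : ℝ) :
    ∃ s p : ℝ, 0 < s ∧ 0 < p ∧ ∀ᶠ N : ℕ in atTop, p ≤
      (iidL (muW (iidEnvironmentLaw ν) 0 0 u)).real
      {a | s * (wdO ν u i N : ℝ) ≤ |UW u i i N a 0 - θ * N|} :=
  spr_gen (frame_iid ν hν) hA hi (nda_obj ν hν hi hA) θ

end two

end Crest.Agent.R154.TubeLin4
end

-- ▼ part R154/D2Fin_36
section

/-!
# Row 154, block `d = 2` (helper36): `TileD2` and `FL2Prop1` with no open input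
-/

set_option autoImplicit false
set_option linter.unusedVariables false

namespace Crest.Agent.R154.D2Fin36

open MeasureTheory ProbabilityTheory Filter Crest.ProbabilityR.RandomEnvironment Crest.Agent.R154
open Crest.Agent.R154.D2V36 Crest.Agent.R154.TubeLin4
open Crest.Agent.R154.NDAObj24 (wdJ)

/-- **everything at one slope** -/
theorem leaves (ν : Measure (Row 2)) [IsProbabilityMeasure ν] {κ : ℝ} (hκ : 0 < κ)
    (hν : ∀ᵐ p ∂ν, ∀ e : Step 2, κ ≤ p.1 e) (u : Step 2)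
    (hu : annealed (iidEnvironmentLaw ν) 0 (escapeEvent (B2d.dirVec u)) = 1) (i : Fin 2)
    (hi : i ≠ u.1) :
    ∃ θ : ℝ, LLN u i θ ν (wdJ (iidEnvironmentLaw ν) 0 0 u i) ∧
      SlabP u i θ ν (wdJ (iidEnvironmentLaw ν) 0 0 u i) ∧
      QE980.WIN u i θ (iidEnvironmentLaw ν) (wdJ (iidEnvironmentLaw ν) 0 0 u i) := by
  have hν' : ∀ᵐ p ∂ν, ∀ e : Step 2, 0 < p.1 e := hν.mono fun p hp e => hκ.trans_le (hp e)
  have hA1 : annealedProb (iidEnvironmentLaw ν) 0 (escapeEvent (B2d.dirVec u)) = 1 := by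
    rw [← annealed_apply _ 0 (B2d.measurableSet_escapeEvent _), hu]
  have hA : annealedProb (iidEnvironmentLaw ν) 0 (escapeEvent (B2d.dirVec u)) ≠ 0 := by
    rw [hA1]
    exact one_ne_zero
  obtain ⟨θ, hT, hTP, hS⟩ := SlabUse28.theta_slabP ν hν' hi hA1
  have hwd : Tendsto (wdO ν u i) atTop atTop := by
    refine tendsto_atTop.2 fun K => ?_
    obtain ⟨N0, hN0⟩ := wdO_top ν hν' hi hA K
    exact eventually_atTop.2 ⟨N0, hN0⟩
  have hO := OccN2.occP ν hκ hν hi hA1 θ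
  have hL := lln hO (scaleP_obj ν hν' hi hA) hS (Phi215.residP ν u hu i θ) (Hit2569.hitP ν u hu) hwd
  exact ⟨θ, hL, hS, Win956.win_of_spr ν hν' hi hA hT (spr_obj ν hν' hi hA θ)⟩

/-- **`TileD2`: theorem** -/
theorem tileD2 : D2Asm244.TileD2 :=
  D2Joint244.tileD2_of_wdJ fun ν _ κ hκ hν u hu i hi => leaves ν hκ hν u hu i hi

/-- **`FL2Prop1`: theorem** -/
theorem fl2 : Spine.FL2Prop1 := D1S.fl2_of_tile tileD2

end Crest.Agent.R154.D2Fin36
end

-- ▼ part R154/BoxGeo_272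
section

/-!
Row 154, block B8 (helper272), (init): two-dimensional boxes of lateral coordinates in a sheared
frame: masses of the natural climb from box to box, and the row condition (ROW) for the family
`ℤ × ℤ` (planes x cells) of boxes.
-/

set_option autoImplicit false
set_option linter.unusedSectionVars false
set_option linter.unusedVariables false
set_option linter.deprecated false

namespace Crest.Agent.R154.Box272

open MeasureTheory ProbabilityTheory Set Filter Crest.ProbabilityR.RandomEnvironment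
open Crest.Agent.R154.Mk561 Crest.Agent.R154.Q561
open Crest.Agent.R154.Flux132 (lev)
open Crest.Agent.R154.RatioR872 Crest.Agent.R154.Tile872
open Crest.Agent.R154.KS480
open Crest.Agent.R154.MobW437 (wl wl_pos one_le_wl four_wl_le mob Sl)
open Crest.Agent.R154.B4Inst797 (Nat0 natLaw UU lat natLaw_apply lp natLaw_isProb)
open Crest.Agent.R154.Row12 (NearP)
open scoped ENNReal Topology

variable {d : ℕ}

/-! ### near cells at the height `K N` -/

section near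

variable {Q : Measure (Environment d)} [IsProbabilityMeasure Q] {κ : ℝ} {R : ℕ}

/-- **near cells**, climbs of `K N` levels (12's `near_cells`) -/
lemma near_cellsK (F : Bind263.Frame Q κ R) (u : Step d) {i1 i2 : Fin d} (h1 : i1 ≠ u.1)
    (h2 : i2 ≠ u.1) (h12 : i1 ≠ i2) (hc : mkAnn κ Q 0 (Nat0 u R) ≠ 0) (i : Fin 2)
    (hN : NearP u R κ Q) (K : ℕ) (hK : 1 ≤ K) {s δ : ℝ≥0∞} (hs : s ≠ 0) (hs1 : s ≤ 1)
    (hδ : δ ≠ 0) :
    ∃ p N0 : ℕ, ∀ N : ℕ, N0 ≤ N → 2 ^ p ∣ N → ∀ a : ℝ,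
      wl (lp F u h1 h2 h12 hc) i N / 80 ≤ a →
      ∀ (ℓ : ℕ) (x x' : Site d), lev u x = ℓ → lev u x' = ℓ →
        3 * a ≤ |lat i1 i2 x i - lat i1 i2 x' i| → ∀ T T' : Set (Site d),
        mt u R κ Q s ((ℓ + K * N : ℕ) : ℤ) T T' x x' ≤ δ := by
  have := natLaw_isProb hc
  obtain ⟨η, hη, hη2⟩ := hN s δ hs hs1 hδ
  obtain ⟨q, hq2, hq⟩ : ∃ q : ℕ, 2 ≤ q ∧ ENNReal.ofReal (6 / (100 * (2 ^ q : ℕ))) ≤ η := by
    rcases eq_or_ne η ⊤ with h | h
    · exact ⟨2, le_rfl, by rw [h]; exact le_top⟩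
    have hpos : 0 < η.toReal := ENNReal.toReal_pos hη h
    obtain ⟨q, hq⟩ := exists_nat_gt (1 / η.toReal)
    refine ⟨max 2 q, le_max_left _ _, ENNReal.ofReal_le_of_le_toReal ?_⟩
    have h3 : (q : ℝ) < 2 ^ (max 2 q) := by
      have h5 : max 2 q < 2 ^ (max 2 q) := Nat.lt_two_pow_self
      have h6 : q < 2 ^ (max 2 q) := lt_of_le_of_lt (le_max_right _ _) h5
      exact_mod_cast h6
    have h4 : 1 / η.toReal < 2 ^ (max 2 q) := hq.trans h3
    rw [div_lt_iff₀ hpos] at h4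
    rw [div_le_iff₀ (by positivity)]
    push_cast
    nlinarith
  obtain ⟨l0, hl0⟩ := Row12.short_tail (lp F u h1 h2 h12 hc) i q hq2
  obtain ⟨n0, hn0⟩ := hη2 (q + 35 + K)
  refine ⟨q + 35, max (2 ^ (q + 35) * l0) (max n0 1), ?_⟩
  rintro N hN0 ⟨l, rfl⟩ a ha ℓ x x' hx hx' hxx T T'
  have hl : l0 ≤ l := by
    have h3 := (le_max_left _ _).trans hN0
    exact Nat.le_of_mul_le_mul_left h3 (by positivity)
  obtain ⟨c, hcc⟩ := hl0 l hl
  have htail : natLaw κ Q u R {s | a < |UU u i1 i2 l s i - c|} ≤ η :=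
    (Row12.le_of_real (hcc a ha)).trans hq
  have ha0 : 0 < a := lt_of_lt_of_le (by have := wl_pos (lp F u h1 h2 h12 hc) i
                                          (2 ^ (q + 35) * l); positivity) ha
  have hln : l ≤ 2 ^ (q + 35) * l := Nat.le_mul_of_pos_left _ (by positivity)
  have hKn : 2 ^ (q + 35) * l ≤ K * (2 ^ (q + 35) * l) := Nat.le_mul_of_pos_left _ (by omega)
  have hK2 : K * (2 ^ (q + 35) * l) ≤ 2 ^ (q + 35 + K) * l := by
    have e : 2 ^ (q + 35 + K) * l = 2 ^ K * (2 ^ (q + 35) * l) := by rw [pow_add]; ring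
    rw [e]
    exact Nat.mul_le_mul_right _ (Nat.lt_two_pow_self).le
  have key := hn0 (K * (2 ^ (q + 35) * l))
    (((le_max_left _ _).trans ((le_max_right _ _).trans hN0)).trans hKn) l (hln.trans hKn)
    hK2 (ℓ : ℤ) x x' hx hx' {y | |lat i1 i2 y i - lat i1 i2 x i - c| ≤ a} ?_ ?_ T T'
  · have e : ((ℓ + K * (2 ^ (q + 35) * l) : ℕ) : ℤ)
        = (ℓ : ℤ) + ((K * (2 ^ (q + 35) * l) : ℕ) : ℤ) := by
      push_cast; ring
    rw [e]; exact key
  · have h3 := Row12.succ_out_le u i1 i2 i F hx hc htail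
      {y | |lat i1 i2 y i - lat i1 i2 x i - c| ≤ a}ᶜ (fun y hy _ => by
        simpa using hy)
    have e : ((ℓ + l : ℕ) : ℤ) = (ℓ : ℤ) + (l : ℤ) := by push_cast; ring
    rw [e] at h3; exact h3
  · have h3 := Row12.succ_out_le u i1 i2 i F hx' hc htail
      {y | |lat i1 i2 y i - lat i1 i2 x i - c| ≤ a} (fun y hy _ => by
        simp only [mem_setOf_eq] at hy
        have h4 : |lat i1 i2 x i - lat i1 i2 x' i| ≤ |lat i1 i2 y i - lat i1 i2 x' i - c| +
            |lat i1 i2 y i - lat i1 i2 x i - c| := by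
          have := abs_sub (lat i1 i2 y i - lat i1 i2 x' i - c) (lat i1 i2 y i - lat i1 i2 x i - c)
          have e : (lat i1 i2 y i - lat i1 i2 x' i - c) - (lat i1 i2 y i - lat i1 i2 x i - c) =
            lat i1 i2 x i - lat i1 i2 x' i := by ring
          rw [e] at this
          exact this
        linarith)
    have e : ((ℓ + l : ℕ) : ℤ) = (ℓ : ℤ) + (l : ℤ) := by push_cast; ring
    rw [e] at h3; exact h3

end near

/-! ### boxes -/

/-- the box of level `ℓ`, centre `(t1, t2)` in the sheared lateral coordinates -/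
def bx (u : Step d) (i1 i2 : Fin d) (σ A W : ℝ) (ℓ : ℕ) (t1 t2 : ℝ) : Set (Site d) :=
  {y | lev u y = ℓ ∧ |lat i1 i2 y 0 - t1| ≤ A ∧
    |lat i1 i2 y 1 - σ * lat i1 i2 y 0 - t2| ≤ W}

section mass

variable {Q : Measure (Environment d)} [IsProbabilityMeasure Q] {κ : ℝ} {R : ℕ}
variable {u : Step d} {i1 i2 : Fin d} {σ A W : ℝ}

/-- steering hypothesis: from every lateral displacement `(y₁, y₂)` to the own box -/
def Steer (u : Step d) (i1 i2 : Fin d) (R : ℕ) (κ : ℝ) (Q : Measure (Environment d))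
    (σ A W S c1 c2 : ℝ) (n : ℕ) (g : ℝ≥0∞) : Prop :=
  ∀ y₁ y₂ : ℝ, |y₁| ≤ S → |y₂| ≤ W → g ≤ natLaw κ Q u R
    {ω | |y₁ + UU u i1 i2 n ω 0 - c1| ≤ A ∧
      |y₂ + (UU u i1 i2 n ω 1 - σ * UU u i1 i2 n ω 0) - c2| ≤ W}

/-- mass into a box -/
lemma succ_bx_ge (F : Bind263.Frame Q κ R) (hc : mkAnn κ Q 0 (Nat0 u R) ≠ 0)
    {S c1 c2 : ℝ} {n : ℕ} {g : ℝ≥0∞} (hg : Steer u i1 i2 R κ Q σ A W S c1 c2 n g)
    {z : Site d} {ℓ : ℕ} (hz : lev u z = ℓ) {t1 t2 : ℝ}
    (hz1 : |lat i1 i2 z 0 + c1 - t1| ≤ S)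
    (hz2 : |lat i1 i2 z 1 - σ * lat i1 i2 z 0 + c2 - t2| ≤ W) :
    mkAnn κ Q 0 (Nat0 u R) * g ≤
      mkAnn κ Q z (succ u R ((ℓ + n : ℕ) : ℤ) (bx u i1 i2 σ A W (ℓ + n) t1 t2) z) := by
  rw [mkAnn_succ]
  have h1 := MobNat927.mass_lat F u i1 i2 z n
    {w | |w 0 - t1| ≤ A ∧ |w 1 - σ * w 0 - t2| ≤ W}
    (bx u i1 i2 σ A W (ℓ + n) t1 t2)
    (fun y hy hy2 => ⟨by rw [hy, hz]; push_cast; rfl, hy2.1, hy2.2⟩) hc
  have e : lev u z + (n : ℤ) = ((ℓ + n : ℕ) : ℤ) := by rw [hz]; push_cast; rfl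
  rw [e] at h1
  refine le_trans ?_ h1
  gcongr
  refine (hg _ _ hz1 hz2).trans (measure_mono ?_)
  rintro ω ⟨g1, g2⟩
  simp only [mem_setOf_eq, Pi.add_apply]
  constructor
  · have e1 : lat i1 i2 z 0 + UU u i1 i2 n ω 0 - t1
        = lat i1 i2 z 0 + c1 - t1 + UU u i1 i2 n ω 0 - c1 := by ring
    rw [e1]; exact g1
  · have e1 : lat i1 i2 z 1 + UU u i1 i2 n ω 1 - σ * (lat i1 i2 z 0 + UU u i1 i2 n ω 0) - t2
        = lat i1 i2 z 1 - σ * lat i1 i2 z 0 + c2 - t2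
          + (UU u i1 i2 n ω 1 - σ * UU u i1 i2 n ω 0) - c2 := by ring
    rw [e1]; exact g2

/-- upper bound: from a box into a box -/
lemma succ_bx_le (F : Bind263.Frame Q κ R) (hc : mkAnn κ Q 0 (Nat0 u R) ≠ 0)
    {n : ℕ} {x : Site d} {ℓ : ℕ} {t1 t2 t1' t2' : ℝ} (hx : x ∈ bx u i1 i2 σ A W ℓ t1' t2') :
    mkAnn κ Q x (succ u R ((ℓ + n : ℕ) : ℤ) (bx u i1 i2 σ A W (ℓ + n) t1 t2) x) ≤
      natLaw κ Q u R {ω | |UU u i1 i2 n ω 0 - (t1 - t1')| ≤ 2 * A ∧
        |UU u i1 i2 n ω 1 - σ * UU u i1 i2 n ω 0 - (t2 - t2')| ≤ 2 * W} := by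
  rw [mkAnn_succ]
  have hm : MeasurableSet {w : B4.V | |w 0 - t1| ≤ A ∧ |w 1 - σ * w 0 - t2| ≤ W} := by
    have m0 : Measurable fun w : B4.V => w 0 := measurable_pi_apply 0
    have m1 : Measurable fun w : B4.V => w 1 := measurable_pi_apply 1
    exact (measurableSet_le (m0.sub_const _).abs measurable_const).inter
      (measurableSet_le ((m1.sub (m0.const_mul σ)).sub_const _).abs measurable_const)
  have h1 := mass_lat_le F u i1 i2 x n {w | |w 0 - t1| ≤ A ∧ |w 1 - σ * w 0 - t2| ≤ W} hm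
    (bx u i1 i2 σ A W (ℓ + n) t1 t2) (fun y hy _ => ⟨hy.2.1, hy.2.2⟩) hc
  have e : lev u x + (n : ℤ) = ((ℓ + n : ℕ) : ℤ) := by rw [hx.1]; push_cast; rfl
  rw [e] at h1
  refine h1.trans (measure_mono ?_)
  rintro ω hω
  obtain ⟨-, hx1, hx2⟩ := hx
  simp only [mem_setOf_eq, Pi.add_apply] at hω ⊢
  obtain ⟨g1, g2⟩ := hω
  rw [abs_le] at hx1 hx2 g1 g2
  constructor
  · rw [abs_le]
    constructor <;> linarith [hx1.1, hx1.2, g1.1, g1.2]
  · rw [abs_le]
    constructor <;> nlinarith [hx2.1, hx2.2, g2.1, g2.2]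

end mass

/-! ### disjoint windows in the plane -/

section windows

variable {Ω : Type*} [MeasurableSpace Ω] {P : Measure Ω}

lemma sum_windows2 {Y1 Y2 : Ω → ℝ} (hY1 : Measurable Y1) (hY2 : Measurable Y2)
    {A W D D2 r1 r2 : ℝ} (hA : 0 ≤ A) (hW : 0 ≤ W) (hD : 4 * A < D) (hD2 : 4 * W < D2)
    (l : ℤ × ℤ) (o : ℤ)
    (K : Finset (ℤ × ℤ))
    (hK : ∀ l' ∈ K, (l'.1 = l.1 ∧ r1 < |((l.2 + o - l'.2 : ℤ) : ℝ)| * D - 2 * A) ∨
      (l'.1 ≠ l.1 ∧ r2 < D2 - 2 * W)) :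
    ∑ l' ∈ K, P {ω | |Y1 ω - ((l.2 + o - l'.2 : ℤ) : ℝ) * D| ≤ 2 * A ∧
        |Y2 ω - ((l.1 - l'.1 : ℤ) : ℝ) * D2| ≤ 2 * W} ≤
      P {ω | r1 < |Y1 ω|} + P {ω | r2 < |Y2 ω|} := by
  have hD0 : 0 < D := by linarith
  have hD20 : 0 < D2 := by linarith
  rw [← measure_biUnion_finset]
  · refine le_trans (measure_mono ?_) (measure_union_le _ _)
    intro ω hω
    simp only [mem_iUnion, mem_setOf_eq, exists_prop] at hω
    obtain ⟨l', hl', h1, h2⟩ := hω
    rcases hK l' hl' with ⟨h3, h4⟩ | ⟨h3, h4⟩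
    · left
      show r1 < |Y1 ω|
      have h5 : |((l.2 + o - l'.2 : ℤ) : ℝ) * D| ≤ |Y1 ω| + |Y1 ω - ((l.2 + o - l'.2 : ℤ) : ℝ) * D| := by
        have := abs_sub (Y1 ω) (Y1 ω - ((l.2 + o - l'.2 : ℤ) : ℝ) * D)
        have e : Y1 ω - (Y1 ω - ((l.2 + o - l'.2 : ℤ) : ℝ) * D) = ((l.2 + o - l'.2 : ℤ) : ℝ) * D := by
          ring
        rw [e] at this
        exact this
      rw [abs_mul, abs_of_pos hD0] at h5
      linarith
    · right
      show r2 < |Y2 ω|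
      have h6 : (1 : ℝ) ≤ |((l.1 - l'.1 : ℤ) : ℝ)| := by
        have : (1 : ℤ) ≤ |l.1 - l'.1| := Int.one_le_abs (sub_ne_zero.2 (Ne.symm h3))
        exact_mod_cast this
      have h5 : |((l.1 - l'.1 : ℤ) : ℝ) * D2| ≤ |Y2 ω| + |Y2 ω - ((l.1 - l'.1 : ℤ) : ℝ) * D2| := by
        have := abs_sub (Y2 ω) (Y2 ω - ((l.1 - l'.1 : ℤ) : ℝ) * D2)
        have e : Y2 ω - (Y2 ω - ((l.1 - l'.1 : ℤ) : ℝ) * D2) = ((l.1 - l'.1 : ℤ) : ℝ) * D2 := by
          ring
        rw [e] at this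
        exact this
      rw [abs_mul, abs_of_pos hD20] at h5
      nlinarith
  · intro k _ k' _ hkk
    refine Set.disjoint_left.2 fun ω h1 h2 => ?_
    simp only [mem_setOf_eq] at h1 h2
    obtain ⟨a1, a2⟩ := h1
    obtain ⟨b1, b2⟩ := h2
    rw [abs_le] at a1 a2 b1 b2
    by_cases h3 : k.1 = k'.1
    · have h4 : k.2 ≠ k'.2 := fun h => hkk (Prod.ext h3 h)
      have h5 : (1 : ℝ) ≤ |((k.2 - k'.2 : ℤ) : ℝ)| := by
        have : (1 : ℤ) ≤ |k.2 - k'.2| := Int.one_le_abs (sub_ne_zero.2 h4)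
        exact_mod_cast this
      have h6 : |((k.2 - k'.2 : ℤ) : ℝ) * D| ≤ 4 * A := by
        rw [abs_le]
        push_cast at a1 b1 ⊢
        constructor <;> nlinarith [a1.1, a1.2, b1.1, b1.2]
      rw [abs_mul, abs_of_pos hD0] at h6
      nlinarith
    · have h5 : (1 : ℝ) ≤ |((k.1 - k'.1 : ℤ) : ℝ)| := by
        have : (1 : ℤ) ≤ |k.1 - k'.1| := Int.one_le_abs (sub_ne_zero.2 h3)
        exact_mod_cast this
      have h6 : |((k.1 - k'.1 : ℤ) : ℝ) * D2| ≤ 4 * W := by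
        rw [abs_le]
        push_cast at a2 b2 ⊢
        constructor <;> nlinarith [a2.1, a2.2, b2.1, b2.2]
      rw [abs_mul, abs_of_pos hD20] at h6
      nlinarith
  · intro k _
    exact (measurableSet_le (hY1.sub_const _).abs measurable_const).inter
      (measurableSet_le (hY2.sub_const _).abs measurable_const)

end windows

/-! ### (ROW) for the boxes -/

section row

variable {Q : Measure (Environment d)} [IsProbabilityMeasure Q] {κ : ℝ} {R : ℕ}
variable {u : Step d} {i1 i2 : Fin d} {σ A W : ℝ}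

/-- **(ROW) for the family of boxes** at one height `n`, from the near bound, (CAP) and the two
tails. -/
theorem row_bx (F : Bind263.Frame Q κ R) (hc : mkAnn κ Q 0 (Nat0 u R) ≠ 0)
    {s κx H δ : ℝ≥0∞} {n R0 : ℕ} {a c1 c2 D D2 r1 r2 : ℝ} (hA : 0 ≤ A) (hW : 0 ≤ W)
    (hm0 : Measurable fun ω : MPath d => UU u i1 i2 n ω 0)
    (hm1 : Measurable fun ω : MPath d => UU u i1 i2 n ω 1)
    (hD : 4 * A < D) (hD2 : 4 * W < D2) (haD : 3 * a + 2 * A ≤ D)
    (hCAP : ∀ b : ℤ, CAP u R κ Q s b H)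
    (hnear : ∀ (ℓ : ℕ) (x x' : Site d), lev u x = ℓ → lev u x' = ℓ →
        3 * a ≤ |lat i1 i2 x 0 - lat i1 i2 x' 0| → ∀ T T' : Set (Site d),
        mt u R κ Q s ((ℓ + n : ℕ) : ℤ) T T' x x' ≤ δ)
    (hδ : ((2 * R0 + 1 : ℕ) : ℝ≥0∞) * δ ≤ κx / 2)
    (hr1 : r1 < R0 * D - 2 * A) (hr2 : r2 < D2 - 2 * W)
    (htail : H / s ^ 2 * (natLaw κ Q u R {ω | r1 < |UU u i1 i2 n ω 0 - c1|} +
      natLaw κ Q u R {ω | r2 < |UU u i1 i2 n ω 1 - σ * UU u i1 i2 n ω 0 - c2|}) ≤ κx / 2)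
    (ℓ : ℕ) (t1 t2 : ℝ) (o : ℤ) (ho : |o| ≤ 1) :
    ROW u R κ Q s ((ℓ + n : ℕ) : ℤ)
      (fun l : ℤ × ℤ => bx u i1 i2 σ A W ℓ (t1 + l.2 * D) (t2 + l.1 * D2))
      (fun l : ℤ × ℤ => bx u i1 i2 σ A W (ℓ + n) (t1 + c1 + (l.2 + o : ℤ) * D)
        (t2 + c2 + l.1 * D2)) κx := by
  have hprob := natLaw_isProb hc
  have hD0 : 0 < D := by linarith
  intro l x hx K hlK
  classical
  set Kn := K.filter fun l' => l'.1 = l.1 ∧ |l'.2 - l.2| ≤ R0 with hKn
  set Kf := K.filter fun l' => ¬ (l'.1 = l.1 ∧ |l'.2 - l.2| ≤ R0) with hKf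
  set T : ℤ × ℤ → Set (Site d) := fun l => bx u i1 i2 σ A W (ℓ + n) (t1 + c1 + (l.2 + o : ℤ) * D)
        (t2 + c2 + l.1 * D2) with hT
  set S : ℤ × ℤ → Set (Site d) := fun l => bx u i1 i2 σ A W ℓ (t1 + l.2 * D) (t2 + l.1 * D2)
    with hS
  show ∑ l' ∈ K, ⨆ x' ∈ S l', mt u R κ Q s ((ℓ + n : ℕ) : ℤ) (T l) (T l') x x' ≤ κx
  rw [← Finset.sum_filter_add_sum_filter_not K (fun l' => l'.1 = l.1 ∧ |l'.2 - l.2| ≤ R0),
    ← ENNReal.add_halves κx]
  refine add_le_add ?_ ?_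
  · -- near cells
    have hcard : Kn.card ≤ 2 * R0 + 1 := by
      have hsub : Kn ⊆ (Finset.Icc (l.2 - R0) (l.2 + R0)).image fun y => (l.1, y) := by
        intro l' hl'
        have h3 := (Finset.mem_filter.1 hl').2
        rw [Finset.mem_image]
        refine ⟨l'.2, ?_, Prod.ext h3.1.symm rfl⟩
        have h4 := h3.2
        rw [abs_le] at h4
        rw [Finset.mem_Icc]
        constructor <;> linarith [h4.1, h4.2]
      refine (Finset.card_le_card hsub).trans (Finset.card_image_le.trans (le_of_eq ?_))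
      rw [Int.card_Icc]
      omega
    have hle : ∀ l' ∈ Kn, (⨆ x' ∈ S l', mt u R κ Q s ((ℓ + n : ℕ) : ℤ) (T l) (T l') x x') ≤ δ := by
      intro l' hl'
      refine iSup₂_le fun x' hx' => ?_
      have h30 := (Finset.mem_filter.1 hl').2
      refine hnear ℓ x x' hx.1 hx'.1 ?_ _ _
      have hne : l.2 ≠ l'.2 := fun h => hlK (by
        have e : l = l' := Prod.ext h30.1.symm h
        rw [e]
        exact (Finset.mem_filter.1 hl').1)
      have h3 : (1 : ℝ) ≤ |(l.2 : ℝ) - l'.2| := by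
        have : (1 : ℤ) ≤ |l.2 - l'.2| := Int.one_le_abs (sub_ne_zero.2 hne)
        exact_mod_cast this
      have h4 : D ≤ |((l.2 : ℝ) - l'.2) * D| := by
        rw [abs_mul, abs_of_pos hD0]
        nlinarith
      have h5 := hx.2.1
      have h6 := hx'.2.1
      rw [abs_le] at h5 h6
      have h7 : |((l.2 : ℝ) - l'.2) * D| ≤ |lat i1 i2 x 0 - lat i1 i2 x' 0| + 2 * A := by
        have e : ((l.2 : ℝ) - l'.2) * D = (lat i1 i2 x 0 - lat i1 i2 x' 0) -
          ((lat i1 i2 x 0 - (t1 + l.2 * D)) - (lat i1 i2 x' 0 - (t1 + l'.2 * D))) := by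
          ring
        rw [e]
        refine (abs_sub _ _).trans (add_le_add le_rfl ?_)
        rw [abs_le]; constructor <;> linarith [h5.1, h5.2, h6.1, h6.2]
      linarith
    refine (Finset.sum_le_card_nsmul _ _ _ hle).trans ?_
    rw [nsmul_eq_mul]
    calc (Kn.card : ℝ≥0∞) * δ ≤ ((2 * R0 + 1 : ℕ) : ℝ≥0∞) * δ := by
          gcongr
      _ ≤ κx / 2 := hδ
  · -- far cells
    have hterm : ∀ l' ∈ Kf, (⨆ x' ∈ S l', mt u R κ Q s ((ℓ + n : ℕ) : ℤ) (T l) (T l') x x') ≤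
        H / s ^ 2 * natLaw κ Q u R
          {ω | |(UU u i1 i2 n ω 0 - c1) - ((l.2 + o - l'.2 : ℤ) : ℝ) * D| ≤ 2 * A ∧
            |(UU u i1 i2 n ω 1 - σ * UU u i1 i2 n ω 0 - c2) - ((l.1 - l'.1 : ℤ) : ℝ) * D2|
              ≤ 2 * W} := by
      intro l' _
      refine iSup₂_le fun x' hx' => ?_
      refine (hCAP _ _ _ x x' (by rw [hx.1, hx'.1])).trans (mul_le_mul' le_rfl ?_)
      have h3 := succ_bx_le (σ := σ) (A := A) (W := W) F (n := n)
        (t1 := t1 + c1 + (l.2 + o : ℤ) * D) (t2 := t2 + c2 + l.1 * D2) hc hx'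
      refine h3.trans (measure_mono ?_)
      rintro ω ⟨g1, g2⟩
      constructor
      · have e : (UU u i1 i2 n ω 0 - c1) - ((l.2 + o - l'.2 : ℤ) : ℝ) * D
            = UU u i1 i2 n ω 0 - (t1 + c1 + (l.2 + o : ℤ) * D - (t1 + l'.2 * D)) := by
          push_cast; ring
        rw [e]; exact g1
      · have e : (UU u i1 i2 n ω 1 - σ * UU u i1 i2 n ω 0 - c2) - ((l.1 - l'.1 : ℤ) : ℝ) * D2
            = UU u i1 i2 n ω 1 - σ * UU u i1 i2 n ω 0 - (t2 + c2 + l.1 * D2 - (t2 + l'.1 * D2)) := by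
          push_cast; ring
        rw [e]; exact g2
    refine (Finset.sum_le_sum hterm).trans ?_
    rw [← Finset.mul_sum]
    refine le_trans ?_ htail
    gcongr
    refine sum_windows2 (P := natLaw κ Q u R) (hm0.sub_const _)
      ((hm1.sub (hm0.const_mul σ)).sub_const _) hA hW hD hD2 l o Kf ?_
    intro l' hl'
    have h4 := (Finset.mem_filter.1 hl').2
    by_cases h5 : l'.1 = l.1
    · left
      refine ⟨h5, lt_of_lt_of_le hr1 ?_⟩
      have h6 : ¬ |l'.2 - l.2| ≤ R0 := fun h => h4 ⟨h5, h⟩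
      have h7 : (R0 : ℤ) ≤ |l.2 + o - l'.2| := by
        have h8 : |l'.2 - l.2| ≤ |l.2 + o - l'.2| + |o| := by
          have := abs_sub o (l.2 + o - l'.2)
          have e : o - (l.2 + o - l'.2) = l'.2 - l.2 := by ring
          rw [e] at this
          linarith
        omega
      have h8 : (R0 : ℝ) ≤ |((l.2 + o - l'.2 : ℤ) : ℝ)| := by exact_mod_cast h7
      nlinarith
    · right
      exact ⟨h5, hr2⟩

end row

end Crest.Agent.R154.Box272
end

-- ▼ part R154/BoxCls_272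
section

/-!
Row 154, block B8 (helper272), (init): the classes of laws on the boxes are not empty, with laws of
bounded support.
-/

set_option autoImplicit false
set_option linter.unusedSectionVars false
set_option linter.unusedVariables false
set_option linter.deprecated false

namespace Crest.Agent.R154.Box272

open MeasureTheory ProbabilityTheory Set Filter Crest.ProbabilityR.RandomEnvironment
open Crest.Agent.R154.Mk561 Crest.Agent.R154.Q561
open Crest.Agent.R154.Flux132 (lev)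
open Crest.Agent.R154.Fin804 (lev_add)
open Crest.Agent.R154.RatioR872 Crest.Agent.R154.Tile872
open Crest.Agent.R154.KS480
open Crest.Agent.R154.TileInst748 (clsM okM massM enM pushM outM single tsum_single tsum_single_mul
  out_mem)
open Crest.Agent.R154.B4Inst797 (Nat0 natLaw UU lat natLaw_apply lp natLaw_isProb)
open scoped ENNReal Topology

variable {d : ℕ}

/-- a site with prescribed level and two prescribed lateral coordinates -/
lemma exists_site2 {u : Step d} {i1 i2 : Fin d} (h1 : i1 ≠ u.1) (h2 : i2 ≠ u.1) (h12 : i1 ≠ i2)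
    (ℓ m1 m2 : ℤ) : ∃ z : Site d, lev u z = ℓ ∧ lat i1 i2 z 0 = m1 ∧ lat i1 i2 z 1 = m2 ∧
      ∀ c, |z c| ≤ |ℓ| + |m1| + |m2| := by
  classical
  refine ⟨fun j => if j = u.1 then (if u.2 then ℓ else -ℓ) else if j = i1 then m1 else
    if j = i2 then m2 else 0, ?_, ?_, ?_, ?_⟩
  · unfold lev
    split_ifs <;> simp
  · unfold lat
    simp [h1]
  · unfold lat
    simp [h2, h12.symm]
  · intro c
    have a1 := abs_nonneg ℓ
    have a2 := abs_nonneg m1
    have a3 := abs_nonneg m2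
    dsimp only
    split_ifs
    · linarith
    · rw [abs_neg]; linarith
    · linarith
    · linarith
    · rw [abs_zero]; linarith

section cls

variable {Q : Measure (Environment d)} [IsProbabilityMeasure Q] {κ : ℝ} {R : ℕ}
variable {u : Step d} {i1 i2 : Fin d} {σ A W : ℝ}

/-- a good environment exists -/
lemma exists_good (F : Bind263.Frame Q κ R) {ℓ n : ℕ} {z : Site d} (hz : lev u z = ℓ)
    {T : Set (Site d)} {g κ₁ ε : ℝ≥0∞} (hg0 : g ≠ 0) (hgt : g ≠ ∞) (hκ0 : κ₁ ≠ 0) (hκt : κ₁ ≠ ∞)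
    (hT : g ≤ mkAnn κ Q z (succ u R ((ℓ + n : ℕ) : ℤ) T z))
    (hE : ExitE u R κ Q ℓ (ℓ + n) (ℓ + n + n) ε) (hε : ε < κ₁ * (g / 2) ^ 3) :
    ∃ ω, okM T (Kc u R κ Q (ℓ + n) (ℓ + n + n)) κ₁ (g / 2) (single z)
      ((kS u R κ Q F.stat F.fin).G ℓ (ℓ + n) ω) := by
  have hsupp : ∀ x, lev u x ≠ (ℓ : ℤ) → single z x = 0 := by
    rw [single_eq_dl]
    exact dl_supp u hz
  have hm : Measurable fun ω => Fm u R κ univ ((ℓ + n : ℕ) : ℤ) T (single z) ω :=
    measurable_Fm u R κ univ _ T _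
  have hme : Measurable fun ω => en u R κ Q (ℓ + n) (ℓ + n + n)
      (outm u R κ univ ((ℓ + n : ℕ) : ℤ) T (single z) ω) :=
    (measurable_en u R κ Q _ _).comp
      (measurable_pi_lambda _ fun y => measurable_outm u R κ univ _ T _ y)
  have hg2 : g / 2 ≠ 0 := (ENNReal.div_pos hg0 (by norm_num)).ne'
  have hg2t : g / 2 ≠ ∞ := ENNReal.div_ne_top hgt (by norm_num)
  have hint : g ≤ ∫⁻ ω, Fm u R κ univ ((ℓ + n : ℕ) : ℤ) T (single z) ω ∂Q := by
    rw [lint_Fm, tsum_single_mul, ← mkAnn_succ]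
    exact hT
  have hF1 : ∀ ω, Fm u R κ univ ((ℓ + n : ℕ) : ℤ) T (single z) ω ≤ 1 := fun ω =>
    (Fm_le u R κ univ _ T _ ω).trans (tsum_single z).le
  have hen : ∫⁻ ω, en u R κ Q (ℓ + n) (ℓ + n + n)
      (outm u R κ univ ((ℓ + n : ℕ) : ℤ) T (single z) ω) ∂Q ≤ ε :=
    en_outm u R κ Q univ hE T hsupp (tsum_single z).le
  -- probability of a large mass
  have hP1 : g / 2 ≤ Q {ω | g / 2 ≤ Fm u R κ univ ((ℓ + n : ℕ) : ℤ) T (single z) ω} := by
    have h1 : ∫⁻ ω, Fm u R κ univ ((ℓ + n : ℕ) : ℤ) T (single z) ω ∂Q ≤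
        Q {ω | g / 2 ≤ Fm u R κ univ ((ℓ + n : ℕ) : ℤ) T (single z) ω} + g / 2 := by
      set E := {ω | g / 2 ≤ Fm u R κ univ ((ℓ + n : ℕ) : ℤ) T (single z) ω} with hEdef
      have hEm : MeasurableSet E := measurableSet_le measurable_const hm
      calc ∫⁻ ω, Fm u R κ univ ((ℓ + n : ℕ) : ℤ) T (single z) ω ∂Q
          ≤ ∫⁻ ω, (E.indicator (fun _ => (1 : ℝ≥0∞)) ω + g / 2) ∂Q := by
            refine lintegral_mono fun ω => ?_
            by_cases h : ω ∈ E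
            · rw [indicator_of_mem h]
              exact (hF1 ω).trans le_self_add
            · rw [indicator_of_notMem h, zero_add]
              have h' : ¬ g / 2 ≤ Fm u R κ univ ((ℓ + n : ℕ) : ℤ) T (single z) ω := h
              exact (not_le.1 h').le
        _ = Q E + g / 2 := by
            rw [lintegral_add_right _ measurable_const, lintegral_indicator_const hEm, one_mul,
              lintegral_const, measure_univ, mul_one]
    have h2 := hint.trans h1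
    have h3 : g / 2 + g / 2 ≤
        Q {ω | g / 2 ≤ Fm u R κ univ ((ℓ + n : ℕ) : ℤ) T (single z) ω} + g / 2 := by
      rw [ENNReal.add_halves]; exact h2
    exact (ENNReal.add_le_add_iff_right hg2t).1 h3
  by_contra hcon
  push Not at hcon
  have hsub : {ω | g / 2 ≤ Fm u R κ univ ((ℓ + n : ℕ) : ℤ) T (single z) ω} ⊆
      {ω | κ₁ * (g / 2) ^ 2 ≤ en u R κ Q (ℓ + n) (ℓ + n + n)
        (outm u R κ univ ((ℓ + n : ℕ) : ℤ) T (single z) ω)} := by
    intro ω hω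
    have hω' : g / 2 ≤ Fm u R κ univ ((ℓ + n : ℕ) : ℤ) T (single z) ω := hω
    by_contra hlt
    have hlt' : ¬ κ₁ * (g / 2) ^ 2 ≤ en u R κ Q (ℓ + n) (ℓ + n + n)
        (outm u R κ univ ((ℓ + n : ℕ) : ℤ) T (single z) ω) := hlt
    refine hcon ω ⟨?_, ?_⟩
    · rw [massM_eq u R κ Q F.stat F.fin T hsupp]
      exact hω'
    · rw [massM_eq u R κ Q F.stat F.fin T hsupp, enM_eq u R κ Q F.stat F.fin T hsupp]
      refine (not_le.1 hlt').le.trans ?_
      gcongr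
  have h4 := mul_meas_ge_le_lintegral (μ := Q) hme (κ₁ * (g / 2) ^ 2)
  have h5 : κ₁ * (g / 2) ^ 2 * (g / 2) ≤ ε := by
    calc κ₁ * (g / 2) ^ 2 * (g / 2) ≤ κ₁ * (g / 2) ^ 2 * Q {ω | κ₁ * (g / 2) ^ 2 ≤
          en u R κ Q (ℓ + n) (ℓ + n + n)
            (outm u R κ univ ((ℓ + n : ℕ) : ℤ) T (single z) ω)} := by
          gcongr
          exact hP1.trans (measure_mono hsub)
      _ ≤ _ := h4
      _ ≤ ε := hen
  have h6 : κ₁ * (g / 2) ^ 2 * (g / 2) = κ₁ * (g / 2) ^ 3 := by ring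
  rw [h6] at h5
  exact absurd hε (not_lt.2 h5)

/-- **a law in the class of every box, with bounded support** -/
theorem cls_bx (F : Bind263.Frame Q κ R) (h1 : i1 ≠ u.1) (h2 : i2 ≠ u.1) (h12 : i1 ≠ i2)
    (hc : mkAnn κ Q 0 (Nat0 u R) ≠ 0) {S c1 c2 : ℝ} {n : ℕ} {g' g κ₁ ε : ℝ≥0∞}
    (hSt : Steer u i1 i2 R κ Q σ A W S c1 c2 n g') (hgg : g ≤ mkAnn κ Q 0 (Nat0 u R) * g')
    (hg0 : g ≠ 0) (hgt : g ≠ ∞) (hκ0 : κ₁ ≠ 0) (hκt : κ₁ ≠ ∞) (hS : 1 / 2 ≤ S) (hW : 1 / 2 ≤ W)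
    (hE : ∀ ℓ : ℕ, ExitE u R κ Q ℓ (ℓ + n) (ℓ + n + n) ε) (hε : ε < κ₁ * (g / 2 / 2) ^ 3)
    {r : ℕ} (hr : ∀ (ℓ : ℕ) (z : Site d), lev u z = ℓ → mkAnn κ Q z
      (succ u R ((ℓ + n : ℕ) : ℤ) {y | ∃ c, (r : ℤ) < |y c - z c|} z) ≤ g / 2)
    (ℓ : ℕ) (t1 t2 : ℝ) :
    ∃ lam ∈ clsM (bx u i1 i2 σ A W ℓ t1 t2) (Kc u R κ Q ℓ (ℓ + n)) κ₁,
      ∀ y, lam y ≠ 0 → ∀ c, |(y c : ℝ)| ≤
        r + n + ℓ + (2 + |σ|) * (|t1| + |c1| + 1) + (|t2| + |c2| + 1) := by
  classical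
  -- the starting site
  set m1 : ℤ := round (t1 - c1) with hm1
  set m2 : ℤ := round (t2 - c2 + σ * m1) with hm2
  obtain ⟨z, hz, hz0, hz1, hzc⟩ := exists_site2 h1 h2 h12 (ℓ : ℤ) m1 m2
  have r1 := abs_sub_round (t1 - c1)
  have r2 := abs_sub_round (t2 - c2 + σ * m1)
  rw [← hm1] at r1
  rw [← hm2] at r2
  have hmass := succ_bx_ge (σ := σ) (A := A) (W := W) F hc hSt hz (t1 := t1) (t2 := t2) (by
    rw [hz0]
    have e : (m1 : ℝ) + c1 - t1 = -(t1 - c1 - m1) := by ring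
    rw [e, abs_neg]
    linarith) (by
    rw [hz0, hz1]
    have e : (m2 : ℝ) - σ * m1 + c2 - t2 = -(t2 - c2 + σ * m1 - m2) := by ring
    rw [e, abs_neg]
    linarith)
  set B := bx u i1 i2 σ A W (ℓ + n) t1 t2 with hB
  set T : Set (Site d) := B ∩ {y | ∀ c, |y c - z c| ≤ (r : ℤ)} with hT
  have hTm : g / 2 ≤ mkAnn κ Q z (succ u R ((ℓ + n : ℕ) : ℤ) T z) := by
    have hsub : succ u R ((ℓ + n : ℕ) : ℤ) B z ⊆ succ u R ((ℓ + n : ℕ) : ℤ) T z ∪
        succ u R ((ℓ + n : ℕ) : ℤ) {y | ∃ c, (r : ℤ) < |y c - z c|} z := by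
      intro M hM
      obtain ⟨m, hm, hmB⟩ := mem_iUnion.1 hM
      by_cases h : ∀ c, |pos z M m c - z c| ≤ (r : ℤ)
      · exact Or.inl (mem_iUnion.2 ⟨m, hm, hmB, h⟩)
      · push Not at h
        exact Or.inr (mem_iUnion.2 ⟨m, hm, h⟩)
    have h3 : g ≤ mkAnn κ Q z (succ u R ((ℓ + n : ℕ) : ℤ) T z) + g / 2 :=
      (hgg.trans hmass).trans (((measure_mono hsub).trans (measure_union_le _ _)).trans
        (add_le_add le_rfl (hr ℓ z hz)))
    have h4 : g / 2 + g / 2 ≤ mkAnn κ Q z (succ u R ((ℓ + n : ℕ) : ℤ) T z) + g / 2 := by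
      rw [ENNReal.add_halves]; exact h3
    exact (ENNReal.add_le_add_iff_right (ENNReal.div_ne_top hgt (by norm_num))).1 h4
  have hg2 : g / 2 ≠ 0 := (ENNReal.div_pos hg0 (by norm_num)).ne'
  have hg2t : g / 2 ≠ ∞ := ENNReal.div_ne_top hgt (by norm_num)
  obtain ⟨ω, hω⟩ := exists_good F hz hg2 hg2t hκ0 hκt hTm (hE ℓ) hε
  have h4 := out_mem T (Kc u R κ Q (ℓ + n) (ℓ + n + n))
    ((ENNReal.div_pos hg2 (by norm_num)).ne') (le_of_eq (tsum_single z))
    (fun y => (kS u R κ Q F.stat F.fin).mass ℓ (ℓ + n) ω y (by omega)) hω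
  set lam' := outM T (single z) ((kS u R κ Q F.stat F.fin).G ℓ (ℓ + n) ω) with hlam'
  obtain ⟨e, he, he0, he1, hec⟩ := exists_site2 h1 h2 h12 (n : ℤ) 0 0
  refine ⟨fun y => lam' (y + e), ⟨?_, ?_, ?_⟩, ?_⟩
  · rw [← h4.1]
    exact (Equiv.addRight e).tsum_eq lam'
  · intro y hy
    refine h4.2.1 _ fun hcon => hy ?_
    obtain ⟨g1, g2, g3⟩ := hcon.1
    refine ⟨?_, ?_, ?_⟩
    · rw [lev_add, he] at g1
      push_cast at g1
      linarith
    · rw [B4Inst797.lat_add] at g2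
      simp only [Pi.add_apply, he0, Int.cast_zero, add_zero] at g2
      exact g2
    · rw [B4Inst797.lat_add] at g3
      simp only [Pi.add_apply, he0, he1, Int.cast_zero, add_zero] at g3
      exact g3
  · refine le_trans (le_of_eq ?_) h4.2.2
    have e1 : ∀ y y', Kc u R κ Q ℓ (ℓ + n) y y' = Kc u R κ Q (ℓ + n) (ℓ + n + n) (y + e) (y' + e) :=
      fun y y' => (Kc_trans F.stat u y y' e (by omega)).symm
    simp only [e1]
    calc ∑' y, ∑' y', lam' (y + e) * lam' (y' + e) * Kc u R κ Q (ℓ + n) (ℓ + n + n) (y + e) (y' + e)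
        = ∑' y, ∑' y', lam' (y + e) * lam' y' * Kc u R κ Q (ℓ + n) (ℓ + n + n) (y + e) y' := by
          refine tsum_congr fun y => ?_
          exact (Equiv.addRight e).tsum_eq
            (fun y' => lam' (y + e) * lam' y' * Kc u R κ Q (ℓ + n) (ℓ + n + n) (y + e) y')
      _ = _ := (Equiv.addRight e).tsum_eq
            (fun y => ∑' y', lam' y * lam' y' * Kc u R κ Q (ℓ + n) (ℓ + n + n) y y')
  · intro y hy c
    have hmem : y + e ∈ T := by
      by_contra hcon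
      exact hy (h4.2.1 _ hcon)
    have g1 := hmem.2 c
    have g2 := hec c
    have g3 := hzc c
    have g4 : |y c| ≤ (r : ℤ) + |(ℓ : ℤ)| + |m1| + |m2| + |(n : ℤ)| := by
      have e2 : y c = ((y + e) c - z c) + z c - e c := by
        simp only [Pi.add_apply]; ring
      have g5 : |y c| ≤ |(y + e) c - z c| + |z c| + |e c| := by
        calc |y c| = |((y + e) c - z c) + z c - e c| := by rw [← e2]
          _ ≤ |((y + e) c - z c) + z c| + |e c| := abs_sub _ _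
          _ ≤ _ := add_le_add (abs_add_le _ _) le_rfl
      simp only [abs_zero, add_zero] at g2
      have g3' : |z c| ≤ |(ℓ : ℤ)| + |m1| + |m2| := g3
      have g1' : |(y + e) c - z c| ≤ (r : ℤ) := g1
      push_cast
      linarith
    have g6 : |(m1 : ℝ)| ≤ |t1| + |c1| + 1 := by
      have e2 : (m1 : ℝ) = (t1 - c1) - (t1 - c1 - m1) := by ring
      rw [e2]
      have := abs_sub (t1 - c1) (t1 - c1 - m1)
      have := abs_sub t1 c1
      linarith
    have g7 : |(m2 : ℝ)| ≤ |t2| + |c2| + |σ| * (|t1| + |c1| + 1) + 1 := by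
      have e2 : (m2 : ℝ) = (t2 - c2 + σ * m1) - (t2 - c2 + σ * m1 - m2) := by ring
      rw [e2]
      have a1 := abs_sub (t2 - c2 + σ * m1) (t2 - c2 + σ * m1 - m2)
      have a2 := abs_add_le (t2 - c2) (σ * m1)
      have a3 := abs_sub t2 c2
      have a4 : |σ * (m1 : ℝ)| ≤ |σ| * (|t1| + |c1| + 1) := by
        rw [abs_mul]
        exact mul_le_mul_of_nonneg_left g6 (abs_nonneg _)
      linarith
    have g8 : |(y c : ℝ)| ≤ r + ℓ + |(m1 : ℝ)| + |(m2 : ℝ)| + n := by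
      have : ((|y c| : ℤ) : ℝ) ≤ (((r : ℤ) + |(ℓ : ℤ)| + |m1| + |m2| + |(n : ℤ)| : ℤ) : ℝ) := by
        exact_mod_cast g4
      push_cast at this
      simpa using this
    nlinarith [abs_nonneg σ, abs_nonneg t1, abs_nonneg c1]

end cls

end Crest.Agent.R154.Box272
end

-- ▼ part R154/BoxMob_272
section

/-!
Row 154, block B8 (helper272), (init): steering in two lateral coordinates at the regular heights
(helper284's `mobility2` from helper437's `mob`), tightness, and the regular octaves.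
-/

set_option autoImplicit false
set_option linter.unusedSectionVars false
set_option linter.unusedVariables false
set_option linter.deprecated false

namespace Crest.Agent.R154.Box272

open MeasureTheory ProbabilityTheory Set Filter Crest.ProbabilityR.RandomEnvironment
open Crest.Agent.R154.B4
open Crest.Agent.R154.Mk561 Crest.Agent.R154.Q561
open Crest.Agent.R154.Flux132 (lev)
open Crest.Agent.R154.RatioR872 Crest.Agent.R154.Tile872
open Crest.Agent.R154.KS480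
open Crest.Agent.R154.MobW437 (wl wl_pos one_le_wl four_wl_le mob Sl telescope nfold tl_mono_of_Nf
  tl_pos)
open Crest.Agent.R154.B4Inst797 (Nat0 natLaw UU lat natLaw_apply lp natLaw_isProb)
open scoped ENNReal Topology

section tight

variable {Ω : Type*} [MeasurableSpace Ω]

/-- tightness of one real variable -/
lemma tight (P : Measure Ω) [IsFiniteMeasure P] {Y : Ω → ℝ} (hY : Measurable Y) {ε : ℝ≥0∞}
    (hε : ε ≠ 0) : ∃ n : ℕ, 1 ≤ n ∧ P {ω | (n : ℝ) < |Y ω|} ≤ ε := by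
  have h1 : Antitone fun n : ℕ => {ω | (n : ℝ) < |Y ω|} := by
    intro m n hmn ω hω
    have h2 : (m : ℝ) ≤ n := by exact_mod_cast hmn
    exact lt_of_le_of_lt h2 hω
  have h2 : ∀ n : ℕ, NullMeasurableSet {ω | (n : ℝ) < |Y ω|} P := fun n =>
    (measurableSet_lt measurable_const hY.abs).nullMeasurableSet
  have h3 := tendsto_measure_iInter_atTop h2 h1 ⟨0, measure_ne_top _ _⟩
  have h4 : ⋂ n : ℕ, {ω | (n : ℝ) < |Y ω|} = ∅ := by
    ext ω
    simp only [mem_iInter, mem_setOf_eq, mem_empty_iff_false, iff_false, not_forall, not_lt]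
    exact exists_nat_ge |Y ω|
  rw [h4, measure_empty] at h3
  have h5 := (tendsto_order.1 h3).2 ε (pos_iff_ne_zero.2 hε)
  obtain ⟨n, hn⟩ := h5.exists_forall_of_atTop
  exact ⟨max n 1, le_max_right _ _, (hn _ (le_max_left _ _)).le⟩

end tight

section octaves

variable {Ω : Type*} [mΩ : MeasurableSpace Ω] {P : Measure Ω} [IsProbabilityMeasure P]

/-- **infinitely many regular octaves** -/
lemma reg_octaves (L : LP P) (i : Fin 2) {C C' : ℝ} (hC : 0 ≤ C)
    (hg : ∀ k : ℕ, Real.logb 2 (wl L i (2 ^ k)) ≤ C * (k + 1))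
    (hS : ∀ J : ℕ, ∑ k ∈ Finset.range J, (Sl L i (2 ^ k) : ℝ) ≤ C' * (J + 1)) :
    ∃ A₀ : ℕ, 1 ≤ A₀ ∧ ∀ r : ℕ, 2 ≤ r → ∃ B : ℝ, 0 ≤ B ∧ ∀ k0 : ℕ, ∃ k, k0 ≤ k ∧
      Sl L i (2 ^ k) ≤ A₀ ∧ wl L i (2 ^ (k + r)) ≤ B * wl L i (2 ^ k) := by
  have hC' : 0 ≤ C' := by
    have := hS 0
    simp at this
    exact this
  set A₀ : ℕ := ⌈4 * C'⌉₊ + 1 with hA₀
  have hA₀4 : 4 * C' ≤ A₀ := by
    have := Nat.le_ceil (4 * C')
    rw [hA₀]; push_cast; linarith
  have hA₀1 : (1 : ℝ) ≤ A₀ := by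
    rw [hA₀]; push_cast
    have : (0 : ℝ) ≤ (⌈4 * C'⌉₊ : ℝ) := Nat.cast_nonneg _
    linarith
  refine ⟨A₀, by omega, fun r hr => ?_⟩
  set f : ℕ → ℝ := fun k => Real.logb 2 (wl L i (2 ^ k)) with hf
  have hf0 : ∀ k, 0 ≤ f k := fun k => Real.logb_nonneg (by norm_num) (one_le_wl L i _)
  set B' : ℝ := 4 * r * C + 1 with hB'
  have hr0 : (0 : ℝ) ≤ r := Nat.cast_nonneg r
  have hB'1 : 1 ≤ B' := by
    rw [hB']
    have : 0 ≤ 4 * r * C := by positivity
    linarith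
  refine ⟨2 ^ B', by positivity, fun k0 => ?_⟩
  obtain ⟨k1, hk1⟩ := nfold L i (2 ^ r) Nat.one_le_two_pow
  have h2r : 3 ≤ 2 ^ r := by
    calc 3 ≤ 2 ^ 2 := by norm_num
      _ ≤ 2 ^ r := Nat.pow_le_pow_right (by norm_num) hr
  have hmono : ∀ k, k1 ≤ k → f k ≤ f (k + r) := by
    intro k hk
    have h3 := hk1 (2 ^ k) (hk.trans (Nat.lt_two_pow_self (n := k)).le)
    have h4 := tl_mono_of_Nf h2r h3
    have e : 2 ^ r * 2 ^ k = 2 ^ (k + r) := by rw [pow_add]; ring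
    rw [e] at h4
    refine Real.logb_le_logb_of_le (by norm_num) (wl_pos L i _) ?_
    unfold wl
    exact one_div_le_one_div_of_le (tl_pos _ _ _) h4
  by_contra hcon
  push Not at hcon
  set a : ℕ := max k0 k1 with ha
  have hterm : ∀ k, a ≤ k → (1 : ℝ) ≤ (Sl L i (2 ^ k) : ℝ) / A₀ + (f (k + r) - f k) / B' := by
    intro k hk
    have h3 := hmono k ((le_max_right _ _).trans hk)
    have h4 : 0 ≤ (f (k + r) - f k) / B' := div_nonneg (by linarith) (by linarith)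
    by_cases h5 : Sl L i (2 ^ k) ≤ A₀
    · have h6 := hcon k ((le_max_left _ _).trans hk) h5
      have h7 : 1 ≤ (f (k + r) - f k) / B' := by
        rw [le_div_iff₀ (by linarith), one_mul]
        have h8 : Real.logb 2 (2 ^ B' * wl L i (2 ^ k)) ≤ f (k + r) :=
          Real.logb_le_logb_of_le (by norm_num) (by have := wl_pos L i (2 ^ k); positivity) h6.le
        rw [Real.logb_mul (by positivity) (wl_pos L i _).ne', Real.logb_rpow (by norm_num)
          (by norm_num)] at h8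
        simp only [hf] at h8 ⊢
        linarith
      have h8 : 0 ≤ (Sl L i (2 ^ k) : ℝ) / A₀ := by positivity
      linarith
    · push Not at h5
      have h6 : 1 ≤ (Sl L i (2 ^ k) : ℝ) / A₀ := by
        rw [le_div_iff₀ (by linarith), one_mul]
        exact_mod_cast h5.le
      linarith
  set J : ℕ := 2 * a + r + 10 with hJ
  -- sum over `[a, J)`
  have hsum1 : ((J - a : ℕ) : ℝ) ≤ ∑ k ∈ Finset.range (J - a),
      ((Sl L i (2 ^ (a + k)) : ℝ) / A₀ + (f (a + k + r) - f (a + k)) / B') := by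
    calc ((J - a : ℕ) : ℝ) = ∑ k ∈ Finset.range (J - a), (1 : ℝ) := by simp
      _ ≤ _ := Finset.sum_le_sum fun k _ => hterm (a + k) (by omega)
  rw [Finset.sum_add_distrib] at hsum1
  have hs1 : ∑ k ∈ Finset.range (J - a), (Sl L i (2 ^ (a + k)) : ℝ) / A₀ ≤ ((J : ℝ) + 1) / 4 := by
    rw [← Finset.sum_div]
    have h3 : ∑ k ∈ Finset.range (J - a), (Sl L i (2 ^ (a + k)) : ℝ) ≤
        ∑ k ∈ Finset.range J, (Sl L i (2 ^ k) : ℝ) := by
      have h4 : ∑ k ∈ Finset.range (J - a), (Sl L i (2 ^ (a + k)) : ℝ) =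
          ∑ k ∈ (Finset.range (J - a)).image (fun k => a + k), (Sl L i (2 ^ k) : ℝ) := by
        rw [Finset.sum_image (fun x _ y _ h => by simpa using h)]
      rw [h4]
      refine Finset.sum_le_sum_of_subset_of_nonneg ?_ fun _ _ _ => Nat.cast_nonneg _
      intro k hk
      rw [Finset.mem_image] at hk
      obtain ⟨j, hj, rfl⟩ := hk
      rw [Finset.mem_range] at hj ⊢
      omega
    rw [div_le_div_iff₀ (by linarith) (by norm_num)]
    have h5 := h3.trans (hS J)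
    have hJ0 : (0 : ℝ) ≤ J := Nat.cast_nonneg J
    nlinarith
  have hs2 : ∑ k ∈ Finset.range (J - a), (f (a + k + r) - f (a + k)) / B' ≤
      ((J : ℝ) + r + 1) / 4 := by
    rw [← Finset.sum_div]
    have h3 := telescope (fun k => f (a + k)) r (J - a)
    have h4 : ∑ k ∈ Finset.range (J - a), (f (a + k + r) - f (a + k)) =
        ∑ k ∈ Finset.range (J - a), ((fun k => f (a + k)) (k + r) - (fun k => f (a + k)) k) := by
      refine Finset.sum_congr rfl fun k _ => ?_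
      simp only
      rw [add_assoc]
    rw [h4, h3]
    have h5 : ∑ j ∈ Finset.range r, f (a + (J - a + j)) ≤ r * (C * (J + r + 1)) := by
      have h6 : ∀ j ∈ Finset.range r, f (a + (J - a + j)) ≤ C * (J + r + 1) := by
        intro j hj
        have h7 := hg (a + (J - a + j))
        have h8 : ((a + (J - a + j) : ℕ) : ℝ) + 1 ≤ (J : ℝ) + r + 1 := by
          have : a + (J - a + j) ≤ J + r := by
            rw [Finset.mem_range] at hj
            omega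
          have : ((a + (J - a + j) : ℕ) : ℝ) ≤ ((J + r : ℕ) : ℝ) := by exact_mod_cast this
          push_cast at this ⊢
          linarith
        exact h7.trans (mul_le_mul_of_nonneg_left h8 hC)
      refine (Finset.sum_le_card_nsmul _ _ _ h6).trans (le_of_eq ?_)
      rw [Finset.card_range, nsmul_eq_mul]
    have h6 : 0 ≤ ∑ j ∈ Finset.range r, f (a + j) := Finset.sum_nonneg fun j _ => hf0 _
    rw [div_le_div_iff₀ (by linarith) (by norm_num)]
    have hJ0 : (0 : ℝ) ≤ (J : ℝ) + r + 1 := by positivity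
    have h7 : r * (C * ((J : ℝ) + r + 1)) * 4 ≤ ((J : ℝ) + r + 1) * B' := by
      rw [hB']
      nlinarith
    linarith
  have hJa : ((J - a : ℕ) : ℝ) = (J : ℝ) - a := by
    rw [Nat.cast_sub (by omega)]
  rw [hJa] at hsum1
  have hJr : (J : ℝ) = 2 * a + r + 10 := by rw [hJ]; push_cast; ring
  have ha0 : (0 : ℝ) ≤ a := Nat.cast_nonneg a
  linarith

end octaves

section steer

variable {d : ℕ}
variable {Q : Measure (Environment d)} [IsProbabilityMeasure Q] {κ : ℝ} {R : ℕ}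

/-- **two-dimensional steering at a height with two windows** -/
theorem steer_of_windows (F : Bind263.Frame Q κ R) {u : Step d} {i1 i2 : Fin d} (h1 : i1 ≠ u.1)
    (h2 : i2 ≠ u.1) (h12 : i1 ≠ i2) (hc : mkAnn κ Q 0 (Nat0 u R) ≠ 0) {N : ℕ} {c1 c2 a g : ℝ}
    (ha : 0 < a) (h4 : 4 * a ≤ |c2 - c1|) (h8 : |c2 - c1| ≤ 8 * a) (hg : 0 < g)
    (w1 : g ≤ (natLaw κ Q u R).real {ω | UU u i1 i2 N ω 0 - c1 ∈ Ico 0 a})
    (w2 : g ≤ (natLaw κ Q u R).real {ω | UU u i1 i2 N ω 0 - c2 ∈ Ico 0 a}) :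
    ∃ σ W c c' : ℝ, 1 ≤ W ∧ Steer u i1 i2 R κ Q σ (5 * a) W (5 * a + 64 * a) (64 * c) (64 * c')
      (64 * N) (ENNReal.ofReal (((lp F u h1 h2 h12 hc).p * (g / 2 / 2)) ^ 64)) := by
  have hprob := natLaw_isProb hc
  set L := lp F u h1 h2 h12 hc with hL
  have hU : Measurable fun ω : MPath d => UU u i1 i2 N ω := measurable_pi_lambda _ fun j =>
    (MobW437.meas_U L N).eval (a := j)
  have m0 : Measurable fun ω : MPath d => UU u i1 i2 N ω 0 := (MobW437.meas_U L N).eval (a := 0)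
  have m1 : Measurable fun ω : MPath d => UU u i1 i2 N ω 1 := (MobW437.meas_U L N).eval (a := 1)
  -- the window of the second coordinate
  obtain ⟨n, hn1, hn⟩ := tight (natLaw κ Q u R) m1 (ε := ENNReal.ofReal (g / 2))
    (ENNReal.ofReal_pos.2 (by linarith)).ne'
  have hnr : (natLaw κ Q u R).real {ω | (n : ℝ) < |UU u i1 i2 N ω 1|} ≤ g / 2 := by
    rw [measureReal_def]
    refine ENNReal.toReal_le_of_le_ofReal (by linarith) hn
  have hn1' : (1 : ℝ) ≤ n := by exact_mod_cast hn1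
  set c : ℝ := (c1 + c2) / 2 + a / 2 with hcdef
  have key : ∀ (E E' : Set (MPath d)), g ≤ (natLaw κ Q u R).real E → E ⊆ E' →
      g / 2 ≤ (natLaw κ Q u R).real {ω | ω ∈ E' ∧ |UU u i1 i2 N ω 1 - 0| ≤ n} := by
    intro E E' hE hsub
    have h5 : E ⊆ {ω | ω ∈ E' ∧ |UU u i1 i2 N ω 1 - 0| ≤ n} ∪
        {ω | (n : ℝ) < |UU u i1 i2 N ω 1|} := by
      intro ω hω
      by_cases h6 : |UU u i1 i2 N ω 1| ≤ n
      · left
        exact ⟨hsub hω, by rw [sub_zero]; exact h6⟩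
      · right
        exact not_le.1 h6
    have h6 := (measureReal_mono h5 (μ := natLaw κ Q u R)).trans (measureReal_union_le _ _)
    linarith
  have hpair : g / 2 ≤ (natLaw κ Q u R).real {ω | (a ≤ UU u i1 i2 N ω 0 - c ∧
      UU u i1 i2 N ω 0 - c ≤ 5 * a) ∧ |UU u i1 i2 N ω 1 - 0| ≤ n} ∧
      g / 2 ≤ (natLaw κ Q u R).real {ω | (a ≤ -(UU u i1 i2 N ω 0 - c) ∧
      -(UU u i1 i2 N ω 0 - c) ≤ 5 * a) ∧ |UU u i1 i2 N ω 1 - 0| ≤ n} := by
    rcases le_or_gt c1 c2 with hle | hlt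
    · rw [abs_of_nonneg (by linarith)] at h4 h8
      refine ⟨key _ {ω | a ≤ UU u i1 i2 N ω 0 - c ∧ UU u i1 i2 N ω 0 - c ≤ 5 * a} w2 ?_,
        key _ {ω | a ≤ -(UU u i1 i2 N ω 0 - c) ∧ -(UU u i1 i2 N ω 0 - c) ≤ 5 * a} w1 ?_⟩
      · intro ω hω
        have hω' : UU u i1 i2 N ω 0 - c2 ∈ Ico 0 a := hω
        rw [mem_Ico] at hω'
        show a ≤ UU u i1 i2 N ω 0 - c ∧ UU u i1 i2 N ω 0 - c ≤ 5 * a
        rw [hcdef]
        constructor <;> linarith [hω'.1, hω'.2]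
      · intro ω hω
        have hω' : UU u i1 i2 N ω 0 - c1 ∈ Ico 0 a := hω
        rw [mem_Ico] at hω'
        show a ≤ -(UU u i1 i2 N ω 0 - c) ∧ -(UU u i1 i2 N ω 0 - c) ≤ 5 * a
        rw [hcdef]
        constructor <;> linarith [hω'.1, hω'.2]
    · rw [abs_of_neg (by linarith)] at h4 h8
      refine ⟨key _ {ω | a ≤ UU u i1 i2 N ω 0 - c ∧ UU u i1 i2 N ω 0 - c ≤ 5 * a} w1 ?_,
        key _ {ω | a ≤ -(UU u i1 i2 N ω 0 - c) ∧ -(UU u i1 i2 N ω 0 - c) ≤ 5 * a} w2 ?_⟩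
      · intro ω hω
        have hω' : UU u i1 i2 N ω 0 - c1 ∈ Ico 0 a := hω
        rw [mem_Ico] at hω'
        show a ≤ UU u i1 i2 N ω 0 - c ∧ UU u i1 i2 N ω 0 - c ≤ 5 * a
        rw [hcdef]
        constructor <;> linarith [hω'.1, hω'.2]
      · intro ω hω
        have hω' : UU u i1 i2 N ω 0 - c2 ∈ Ico 0 a := hω
        rw [mem_Ico] at hω'
        show a ≤ -(UU u i1 i2 N ω 0 - c) ∧ -(UU u i1 i2 N ω 0 - c) ≤ 5 * a
        rw [hcdef]
        constructor <;> linarith [hω'.1, hω'.2]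
  obtain ⟨σ, c', hσ, hmob⟩ := Steer284.mobility2 L (φ₁ := fun v : B4.V => v 0)
    (φ₂ := fun v : B4.V => v 1) (measurable_pi_apply 0) (measurable_pi_apply 1)
    (fun x y => rfl) (fun x y => rfl) (a := a) (A := 5 * a) (W := n) (c₁ := c) (v₂ := 0)
    (g := g / 2) ha (by linarith) (by linarith) N hpair.1 hpair.2
  refine ⟨σ, 2 * (n + (n / a + 1) * (5 * a)), c, c', ?_, ?_⟩
  · have h5 : 0 ≤ ((n : ℝ) / a + 1) * (5 * a) := by positivity
    linarith
  · intro y₁ y₂ hy₁ hy₂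
    have h5 := hmob y₁ y₂ 64 (by push_cast; exact hy₁) hy₂
    refine h5.trans (measure_mono ?_)
    rintro ω ⟨⟨h6, h7⟩, -⟩
    refine ⟨?_, ?_⟩
    · push_cast at h6
      exact h6
    · push_cast at h7
      exact h7

end steer

end Crest.Agent.R154.Box272
end

-- ▼ part R154/HIa_272
section

/-!
Row 154, block B8 (helper272), (init): the tile system of boxes with index `ℤ × ℤ`.
-/

set_option autoImplicit false
set_option linter.unusedSectionVars false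
set_option linter.unusedVariables false
set_option linter.deprecated false

namespace Crest.Agent.R154.Box272

open MeasureTheory ProbabilityTheory Set Filter Crest.ProbabilityR.RandomEnvironment
open Crest.Agent.R154.Mk561 Crest.Agent.R154.Q561
open Crest.Agent.R154.Flux132 (lev)
open Crest.Agent.R154.RatioR872 Crest.Agent.R154.Tile872
open Crest.Agent.R154.KS480
open Crest.Agent.R154.TileInst748 (clsM okM massM enM pushM outM single tsum_single)
open Crest.Agent.R154.MobW437 (wl wl_pos one_le_wl)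
open Crest.Agent.R154.B4Inst797 (Nat0 natLaw UU lat natLaw_apply lp natLaw_isProb)
open scoped ENNReal Topology NNReal

/-! ### tails -/

section tail

variable {d : ℕ} {Q : Measure (Environment d)} [IsProbabilityMeasure Q] {κ : ℝ} {R : ℕ}

/-- the exit site of a natural climb is tight, uniformly in the start -/
lemma exit_tail (F : Bind263.Frame Q κ R) (u : Step d) (n : ℕ) {e : ℝ≥0∞} (he : e ≠ 0) :
    ∃ r : ℕ, ∀ (ℓ : ℕ) (z : Site d), lev u z = ℓ → mkAnn κ Q z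
      (succ u R ((ℓ + n : ℕ) : ℤ) {y | ∃ c, (r : ℤ) < |y c - z c|} z) ≤ e := by
  set E : ℕ → Set (MPath d) := fun r => succ u R (n : ℤ) {y | ∃ c, (r : ℤ) < |y c|} 0 with hE
  have h1 : Antitone E := by
    intro r r' hrr M hM
    obtain ⟨m, hm, c, hc⟩ := mem_iUnion.1 hM
    exact mem_iUnion.2 ⟨m, hm, c, lt_of_le_of_lt (by exact_mod_cast hrr) hc⟩
  have h2 : ∀ r, NullMeasurableSet (E r) (mkAnn κ Q 0) := fun r =>
    (meas_succ u R _ _ _).nullMeasurableSet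
  have h3 := tendsto_measure_iInter_atTop h2 h1 ⟨0, measure_ne_top _ _⟩
  have h4 : ⋂ r, E r = ∅ := by
    ext M
    simp only [mem_iInter, mem_empty_iff_false, iff_false]
    intro hcon
    obtain ⟨m, hm, -⟩ := mem_iUnion.1 (hcon 0)
    obtain ⟨m', hm', c, hc⟩ := mem_iUnion.1 (hcon (∑ c, (pos 0 M m c).natAbs))
    have e := ClM_unique u R hm hm'
    subst e
    have h5 : (pos 0 M m c).natAbs ≤ ∑ c, (pos 0 M m c).natAbs :=
      Finset.single_le_sum (f := fun c => (pos 0 M m c).natAbs) (fun _ _ => Nat.zero_le _)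
        (Finset.mem_univ c)
    rw [Int.abs_eq_natAbs] at hc
    have h6 : ∑ c, (pos 0 M m c).natAbs < (pos 0 M m c).natAbs := by exact_mod_cast hc
    omega
  rw [h4, measure_empty] at h3
  have h5 := (tendsto_order.1 h3).2 e (pos_iff_ne_zero.2 he)
  obtain ⟨r, hr⟩ := h5.exists_forall_of_atTop
  refine ⟨r, fun ℓ z hz => ?_⟩
  have e1 : succ u R ((ℓ + n : ℕ) : ℤ) {y | ∃ c, (r : ℤ) < |y c - z c|} z ⊆ E r := by
    intro M hM
    obtain ⟨m, hm, c, hc⟩ := mem_iUnion.1 hM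
    refine mem_iUnion.2 ⟨m, ?_, c, ?_⟩
    · have h6 := ClM_shift u R (0 : Site d) z (n : ℤ) m
      rw [zero_add, hz] at h6
      have e2 : (n : ℤ) + (ℓ : ℤ) = ((ℓ + n : ℕ) : ℤ) := by push_cast; ring
      rw [e2] at h6
      rw [← h6]; exact hm
    · rw [B4Inst797.pos_start] at hc
      simpa using hc
  rw [mkAnn_stat F.stat κ z]
  exact (measure_mono e1).trans (hr r le_rfl).le

/-- change of centre -/
lemma centre_change {Ω : Type*} [MeasurableSpace Ω] {P : Measure Ω} [IsFiniteMeasure P]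
    {X : Ω → ℝ} {c d1 A w t p0 : ℝ} (h1 : p0 ≤ P.real {ω | |X ω - c| ≤ A})
    (h2 : P.real {ω | w < |X ω - d1|} ≤ t) (h : t < p0) :
    P.real {ω | A + 2 * w < |X ω - c|} ≤ t := by
  obtain ⟨ω, g1, g2⟩ : ∃ ω, |X ω - c| ≤ A ∧ |X ω - d1| ≤ w := by
    by_contra hcon
    push Not at hcon
    have h3 : P.real {ω | |X ω - c| ≤ A} ≤ P.real {ω | w < |X ω - d1|} :=
      measureReal_mono fun ω hω => hcon ω hω
    linarith
  have h3 : |c - d1| ≤ A + w := by
    have e : c - d1 = (X ω - d1) - (X ω - c) := by ring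
    rw [e]
    refine (abs_sub _ _).trans ?_
    linarith
  refine (measureReal_mono fun ω' hω' => ?_).trans h2
  have h4 : A + 2 * w < |X ω' - c| := hω'
  have h5 : |X ω' - c| ≤ |X ω' - d1| + |c - d1| := by
    have e : X ω' - c = (X ω' - d1) - (c - d1) := by ring
    rw [e]
    exact abs_sub _ _
  show w < |X ω' - d1|
  linarith

lemma exists_small {K τ : ℝ≥0∞} (hK : K ≠ ∞) (hτ : τ ≠ 0) :
    ∃ e : ℝ≥0∞, e ≠ 0 ∧ K * e ≤ τ := by
  refine ⟨τ / (K + 1), ?_, ?_⟩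
  · exact (ENNReal.div_pos hτ (by simp [hK])).ne'
  · calc K * (τ / (K + 1)) ≤ (K + 1) * (τ / (K + 1)) := by gcongr; exact le_self_add
      _ = τ := ENNReal.mul_div_cancel (by simp) (by simp [hK])

/-- a power of two with a small tail -/
lemma exists_pow {e : ℝ≥0∞} (he : e ≠ 0) {p0 : ℝ} (hp0 : 0 < p0) :
    ∃ j : ℕ, 2 ≤ j ∧ ENNReal.ofReal (6 / (100 * (2 ^ j : ℕ))) ≤ e ∧
      6 / (100 * ((2 ^ j : ℕ) : ℝ)) < p0 := by
  obtain ⟨e', he'0, he'⟩ : ∃ e' : ℝ, 0 < e' ∧ ENNReal.ofReal e' ≤ e := by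
    rcases eq_or_ne e ∞ with h | h
    · exact ⟨1, one_pos, by rw [h]; exact le_top⟩
    · exact ⟨e.toReal, ENNReal.toReal_pos he h, by rw [ENNReal.ofReal_toReal h]⟩
  obtain ⟨q, hq⟩ := exists_nat_gt (max (1 / e') (1 / p0))
  have h3 : (q : ℝ) < 2 ^ (max 2 q) := by
    have h5 : max 2 q < 2 ^ (max 2 q) := Nat.lt_two_pow_self
    have h6 : q < 2 ^ (max 2 q) := lt_of_le_of_lt (le_max_right _ _) h5
    exact_mod_cast h6
  have h4 : 1 / e' < 2 ^ (max 2 q) := (le_max_left _ _).trans_lt (hq.trans h3)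
  have h5 : 1 / p0 < 2 ^ (max 2 q) := (le_max_right _ _).trans_lt (hq.trans h3)
  rw [div_lt_iff₀ he'0] at h4
  rw [div_lt_iff₀ hp0] at h5
  refine ⟨max 2 q, le_max_left _ _, (ENNReal.ofReal_le_ofReal ?_).trans he', ?_⟩
  · rw [div_le_iff₀ (by positivity)]
    push_cast
    nlinarith
  · rw [div_lt_iff₀ (by positivity)]
    push_cast
    nlinarith

end tail

/-! ### the inputs -/

section inputs

variable {d : ℕ} {Q : Measure (Environment d)} [IsProbabilityMeasure Q] {κ : ℝ} {R : ℕ}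

/-- the cells -/
def CellB (u : Step d) (i1 i2 : Fin d) (σ A W c1 c2 D D2 : ℝ) (n : ℕ) (k : ℕ) (x : ℤ × ℤ) :
    Set (Site d) :=
  bx u i1 i2 σ A W (k * n) (k * c1 + x.2 * D) (k * c2 + x.1 * D2)

/-- the energies -/
noncomputable def EnB (u : Step d) (R : ℕ) (κ : ℝ) (Q : Measure (Environment d)) (n : ℕ) (k : ℕ) :
    Site d → Site d → ℝ≥0∞ := Kc u R κ Q (k * n) ((k + 1) * n)

theorem inputs_box (F : Bind263.Frame Q κ R) {u : Step d} {i1 i2 : Fin d}
    (hc : mkAnn κ Q 0 (Nat0 u R) ≠ 0) {s g γ κ₁ κx ε q g' : ℝ≥0∞} {n : ℕ}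
    {σ A W S c1 c2 D D2 : ℝ} (hKS : KSf u R κ Q g s γ κ₁ κx ε q)
    (hSt : Steer u i1 i2 R κ Q σ A W S c1 c2 n g') (hgg : g ≤ mkAnn κ Q 0 (Nat0 u R) * g')
    (hADS : A + D ≤ S) (hD : 0 ≤ D)
    (hrow : ∀ (ℓ : ℕ) (t1 t2 : ℝ) (o : ℤ), |o| ≤ 1 → ROW u R κ Q s ((ℓ + n : ℕ) : ℤ)
      (fun l : ℤ × ℤ => bx u i1 i2 σ A W ℓ (t1 + l.2 * D) (t2 + l.1 * D2))
      (fun l : ℤ × ℤ => bx u i1 i2 σ A W (ℓ + n) (t1 + c1 + (l.2 + o : ℤ) * D)
        (t2 + c2 + l.1 * D2)) κx)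
    (hE : ∀ ℓ : ℕ, ExitE u R κ Q ℓ (ℓ + n) (ℓ + n + n) ε)
    (hne : ∀ (ℓ : ℕ) (t1 t2 : ℝ),
      (clsM (bx u i1 i2 σ A W ℓ t1 t2) (Kc u R κ Q ℓ (ℓ + n)) κ₁).Nonempty) :
    InitY272.InputsY (kS u R κ Q F.stat F.fin) n Init272.shZ
      (CellB u i1 i2 σ A W c1 c2 D D2 n) (EnB u R κ Q n)
      (fun k x ω => kD u R κ Q s (k * n) ((k + 1) * n)
        (CellB u i1 i2 σ A W c1 c2 D D2 n (k + 1) x) ω)
      (fun k x ω => kD u R κ Q s (k * n) ((k + 1) * n)
        (CellB u i1 i2 σ A W c1 c2 D D2 n (k + 1) (Init272.shZ x)) ω) κ₁ γ q := by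
  have hlv : ∀ k : ℕ, k * n + n = (k + 1) * n := fun k => by ring
  constructor
  · exact ⟨fun k x ω y z => kD_le u R κ Q s F.stat F.fin _ _ _ ω y z,
      fun k x y z => measF_kD u R κ Q s F.stat F.fin _ _ _ y z,
      fun k x y z => measH_kD u R κ Q s F.stat F.fin _ _ _ y z⟩
  · exact ⟨fun k x ω y z => kD_le u R κ Q s F.stat F.fin _ _ _ ω y z,
      fun k x y z => measF_kD u R κ Q s F.stat F.fin _ _ _ y z,
      fun k x y z => measH_kD u R κ Q s F.stat F.fin _ _ _ y z⟩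
  · intro k x
    have h3 := hne (k * n) (k * c1 + x.2 * D) (k * c2 + x.1 * D2)
    rw [hlv k] at h3
    exact h3
  · intro k K lam hlam
    set b := k * n + n with hb
    have hbe : (k + 1) * n = b := (hlv k).symm
    have hbe2 : (k + 1 + 1) * n = b + n := by rw [hb]; ring
    set t1 : ℝ := k * c1 with ht1
    set t2 : ℝ := k * c2 with ht2
    have r1 := hrow (k * n) t1 t2 0 (by norm_num)
    have r2 := hrow (k * n) t1 t2 1 (by norm_num)
    have hcell1 : ∀ x : ℤ × ℤ, CellB u i1 i2 σ A W c1 c2 D D2 n (k + 1) x =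
        bx u i1 i2 σ A W b (t1 + c1 + (x.2 + 0 : ℤ) * D) (t2 + c2 + x.1 * D2) := by
      intro x
      unfold CellB
      rw [hbe, ht1, ht2]
      congr 1
      · push_cast; ring
      · push_cast; ring
    have hcell2 : ∀ x : ℤ × ℤ, CellB u i1 i2 σ A W c1 c2 D D2 n (k + 1) (Init272.shZ x) =
        bx u i1 i2 σ A W b (t1 + c1 + (x.2 + 1 : ℤ) * D) (t2 + c2 + x.1 * D2) := by
      intro x
      unfold CellB
      have e1 : (Init272.shZ x).1 = x.1 := rfl
      have e2 : (Init272.shZ x).2 = x.2 + 1 := rfl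
      rw [hbe, ht1, ht2, e1, e2]
      congr 1
      · push_cast; ring
      · push_cast; ring
    have hw : ∀ x ∈ K, lam x ∈ Cls u R κ Q
        (bx u i1 i2 σ A W (k * n) (t1 + x.2 * D) (t2 + x.1 * D2)) (k * n) b κ₁ := by
      intro x _
      have h3 := hlam x
      unfold EnB at h3
      rw [hbe] at h3
      exact h3
    have hmass : ∀ (o : ℤ), |o| ≤ 1 → ∀ (l : ℤ × ℤ),
        ∀ x ∈ bx u i1 i2 σ A W (k * n) (t1 + l.2 * D) (t2 + l.1 * D2),
        g ≤ mkAnn κ Q x (succ u R (b : ℤ) (bx u i1 i2 σ A W b (t1 + c1 + (l.2 + o : ℤ) * D)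
          (t2 + c2 + l.1 * D2)) x) := by
      intro o ho l x hx
      refine hgg.trans (succ_bx_ge F hc hSt hx.1 ?_ ?_)
      · have h5 := hx.2.1
        have e : lat i1 i2 x 0 + c1 - (t1 + c1 + (l.2 + o : ℤ) * D) =
          (lat i1 i2 x 0 - (t1 + l.2 * D)) - o * D := by push_cast; ring
        rw [e]
        refine (abs_sub _ _).trans ?_
        rw [abs_mul, abs_of_nonneg hD]
        have h6 : |(o : ℝ)| ≤ 1 := by exact_mod_cast ho
        nlinarith
      · have h5 := hx.2.2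
        have e : lat i1 i2 x 1 - σ * lat i1 i2 x 0 + c2 - (t2 + c2 + l.1 * D2) =
          lat i1 i2 x 1 - σ * lat i1 i2 x 0 - (t2 + l.1 * D2) := by ring
        rw [e]
        exact h5
    have h4 := hKS (k * n) b (b + n) (by omega) (by omega) (ℤ × ℤ)
      (fun l : ℤ × ℤ => bx u i1 i2 σ A W (k * n) (t1 + l.2 * D) (t2 + l.1 * D2))
      (fun l : ℤ × ℤ => bx u i1 i2 σ A W b (t1 + c1 + (l.2 + 0 : ℤ) * D)
        (t2 + c2 + l.1 * D2))
      (fun l : ℤ × ℤ => bx u i1 i2 σ A W b (t1 + c1 + (l.2 + 1 : ℤ) * D)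
        (t2 + c2 + l.1 * D2))
      (fun l y hy => hy.1) (hmass 0 (by norm_num)) (hmass 1 (by norm_num)) r1 r2 (hE (k * n))
      lam K hw
    refine le_trans (measure_mono ?_) h4
    intro ω hω x hx hcon
    refine hω x hx ?_
    have hsupp : ∀ y, lev u y ≠ ((k * n : ℕ) : ℤ) → lam x y = 0 :=
      fun y hy => (hw x hx).2.1 y fun h => hy h.1
    have g1 := okM_kD_of_GoodD hsupp hcon.1
    have g2 := okM_kD_of_GoodD hsupp hcon.2
    refine ⟨?_, ?_⟩
    · change okM (CellB u i1 i2 σ A W c1 c2 D D2 n (k + 1) x)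
        (Kc u R κ Q ((k + 1) * n) ((k + 1 + 1) * n)) κ₁ γ (lam x)
        (kD u R κ Q s (k * n) ((k + 1) * n) (CellB u i1 i2 σ A W c1 c2 D D2 n (k + 1) x) ω)
      rw [hcell1, hbe, hbe2]
      exact g1
    · change okM (CellB u i1 i2 σ A W c1 c2 D D2 n (k + 1) (Init272.shZ x))
        (Kc u R κ Q ((k + 1) * n) ((k + 1 + 1) * n)) κ₁ γ (lam x)
        (kD u R κ Q s (k * n) ((k + 1) * n)
          (CellB u i1 i2 σ A W c1 c2 D D2 n (k + 1) (Init272.shZ x)) ω)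
      rw [hcell2, hbe, hbe2]
      exact g2

/-- the inputs do not see the energy of the kernel system -/
lemma inputsY_congr {u : Step d} {hstat : ∀ z : Site d, MeasurePreserving (shiftEnv z) Q Q}
    {hR : IsFiniteRangeDependent Q R} {K K' : ℕ → ℕ → Site d → Site d → ℝ≥0∞} {hK hK'} {N : ℕ}
    {X : Type*} {sh : Equiv.Perm X} {Cell : ℕ → X → Set (Site d)}
    {En : ℕ → Site d → Site d → ℝ≥0∞} {kL kR : ℕ → X → Environment d → Site d → Site d → ℝ≥0∞}
    {κ₁ γ q : ℝ≥0∞}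
    (h : InitY272.InputsY (kerSys u R κ Q hstat hR K hK) N sh Cell En kL kR κ₁ γ q) :
    InitY272.InputsY (kerSys u R κ Q hstat hR K' hK') N sh Cell En kL kR κ₁ γ q :=
  ⟨⟨h.subL.le, h.subL.measF, h.subL.measH⟩, ⟨h.subR.le, h.subR.measF, h.subR.measH⟩, h.nonempty,
    h.kset⟩

end inputs

end Crest.Agent.R154.Box272
end

-- ▼ part R154/HIb_272
section

/-!
Row 154, block B8 (helper272), (init): the geometric data at the regular heights.
-/

set_option autoImplicit false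
set_option linter.unusedSectionVars false
set_option linter.unusedVariables false
set_option linter.deprecated false

namespace Crest.Agent.R154.Box272

open MeasureTheory ProbabilityTheory Set Filter Crest.ProbabilityR.RandomEnvironment
open Crest.Agent.R154.Mk561 Crest.Agent.R154.Q561
open Crest.Agent.R154.Flux132 (lev)
open Crest.Agent.R154.RatioR872 Crest.Agent.R154.Tile872
open Crest.Agent.R154.KS480
open Crest.Agent.R154.TileInst748 (clsM okM massM enM pushM outM single tsum_single)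
open Crest.Agent.R154.MobW437 (wl wl_pos one_le_wl Sl)
open Crest.Agent.R154.B4Inst797 (Nat0 natLaw UU lat natLaw_apply lp natLaw_isProb)
open scoped ENNReal Topology NNReal

section geom

variable {d : ℕ} {Q : Measure (Environment d)} [IsProbabilityMeasure Q] {κ : ℝ} {R : ℕ}

/-- **the geometric data at infinitely many heights** -/
theorem geom (F : Bind263.Frame Q κ R) (hd : 3 ≤ d) {u : Step d} {i1 i2 : Fin d}
    (h1 : i1 ≠ u.1) (h2 : i2 ≠ u.1) (h12 : i1 ≠ i2)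
    (hA : annealedProb Q 0 (escapeEvent (B2d.dirVec u)) ≠ 0) (hHalf : KB424.Half κ Q)
    (hc : mkAnn κ Q 0 (Nat0 u R) ≠ 0) :
    ∃ g g' : ℝ≥0∞, g ≠ 0 ∧ g ≤ 1 ∧ g ≤ mkAnn κ Q 0 (Nat0 u R) * g' ∧
      ∀ κx : ℝ≥0∞, κx ≠ 0 → ∀ k0 : ℕ, ∃ N : ℕ, k0 ≤ N ∧
      ∃ σ A W S c1 c2 D D2 : ℝ, 1 / 2 ≤ S ∧ 1 / 2 ≤ W ∧ A + D ≤ S ∧ 0 ≤ D ∧
        Steer u i1 i2 R κ Q σ A W S c1 c2 (64 * N) g' ∧
        ∀ (ℓ : ℕ) (t1 t2 : ℝ) (o : ℤ), |o| ≤ 1 →
          ROW u R κ Q (g / 2) ((ℓ + 64 * N : ℕ) : ℤ)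
          (fun l : ℤ × ℤ => bx u i1 i2 σ A W ℓ (t1 + l.2 * D) (t2 + l.1 * D2))
          (fun l : ℤ × ℤ => bx u i1 i2 σ A W (ℓ + 64 * N) (t1 + c1 + (l.2 + o : ℤ) * D)
            (t2 + c2 + l.1 * D2)) κx := by
  haveI : IsProbabilityMeasure (natLaw κ Q u R) := natLaw_isProb hc
  obtain ⟨C, hC, hgr⟩ := MobW437.growth F u h1 h2 h12 hc hA 0
  obtain ⟨C', hS⟩ := MobW437.sum_Sl_lp F u h1 h2 h12 hc hA 0
  set L := lp F u h1 h2 h12 hc with hL
  obtain ⟨A₀, hA₀, hreg⟩ := reg_octaves L 0 hC hgr hS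
  have hA0r : (1 : ℝ) ≤ A₀ := by exact_mod_cast hA₀
  set g₁ : ℝ := 1 / (51200 * A₀) with hg₁
  have hg₁0 : 0 < g₁ := by positivity
  have hLp := L.p_pos
  set p0 : ℝ := (L.p * (g₁ / 2 / 2)) ^ 64 with hp0
  have hp00 : 0 < p0 := by positivity
  set g' : ℝ≥0∞ := ENNReal.ofReal p0 with hg'
  have hg'0 : g' ≠ 0 := (ENNReal.ofReal_pos.2 hp00).ne'
  set g : ℝ≥0∞ := min (mkAnn κ Q 0 (Nat0 u R) * g') 1 with hg
  have hg0 : g ≠ 0 := (lt_min (pos_iff_ne_zero.2 (mul_ne_zero hc hg'0)) one_pos).ne'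
  have hg1 : g ≤ 1 := min_le_right _ _
  refine ⟨g, g', hg0, hg1, min_le_left _ _, fun κx hκx k0 => ?_⟩
  obtain ⟨H, hH, hCAP⟩ := Cap923.cap_frame (u := u) F hHalf
  have hs0 : g / 2 ≠ 0 := (ENNReal.div_pos hg0 (by norm_num)).ne'
  have hs1 : g / 2 ≤ 1 := ENNReal.half_le_self.trans hg1
  have hst : g / 2 ≠ ∞ := ne_top_of_le_ne_top ENNReal.one_ne_top hs1
  have hx2 : κx / 2 ≠ 0 := (ENNReal.div_pos hκx (by norm_num)).ne'
  have hx4 : κx / 2 / 2 ≠ 0 := (ENNReal.div_pos hx2 (by norm_num)).ne'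
  obtain ⟨e, he0, he⟩ := exists_small (K := H / (g / 2) ^ 2) (τ := κx / 2 / 2)
    (ENNReal.div_ne_top hH (pow_ne_zero 2 hs0)) hx4
  obtain ⟨j, hj, hje, hjp⟩ := exists_pow he0 hp00
  obtain ⟨B, hB, hoct⟩ := hreg (6 + j) (by omega)
  set R0 : ℕ := ⌈24 * B⌉₊ + 1 with hR0
  have hR0r : 24 * B + 1 ≤ R0 := by
    have := Nat.le_ceil (24 * B)
    rw [hR0]; push_cast; linarith
  set δ : ℝ≥0∞ := κx / 2 / ((2 * R0 + 1 : ℕ) : ℝ≥0∞) with hδ
  have hδ0 : δ ≠ 0 := (ENNReal.div_pos hx2 (ENNReal.natCast_ne_top _)).ne'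
  have hδle : ((2 * R0 + 1 : ℕ) : ℝ≥0∞) * δ ≤ κx / 2 := by
    rw [hδ, ENNReal.mul_div_cancel (by positivity) (ENNReal.natCast_ne_top _)]
  obtain ⟨p, N0, hnear⟩ := near_cellsK F u h1 h2 h12 hc 0 (Row12.nearP F hd u hA hHalf) 64
    (by norm_num) hs0 hs1 hδ0
  obtain ⟨l0, hmob⟩ := MobW437.mob L 0 (2 ^ j)
  obtain ⟨k, hk, hSl, hwl⟩ := hoct (p + N0 + l0 + k0)
  set N : ℕ := 2 ^ k with hN
  have hkN : k ≤ N := (Nat.lt_two_pow_self (n := k)).le
  obtain ⟨hS1, hw128, c1, c2, a, q1, q2, q3, q4, q5, q6, q7⟩ := hmob N (by omega)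
  obtain ⟨-, -, d1, d2, a', -, -, -, -, -, -, q7'⟩ := hmob (64 * N) (by omega)
  have hwN := wl_pos L 0 N
  have hwN1 := one_le_wl L 0 N
  have ha : 0 < a := lt_of_lt_of_le (by positivity) q1
  have hSr : (Sl L 0 N : ℝ) ≤ A₀ := by exact_mod_cast hSl
  have hSr1 : (1 : ℝ) ≤ Sl L 0 N := by exact_mod_cast hS1
  have w1 : g₁ ≤ (natLaw κ Q u R).real {ω | UU u i1 i2 N ω 0 - c1 ∈ Ico 0 a} := by
    have h5 := q5 0 0 ⟨le_rfl, by linarith⟩
    simp only [zero_add] at h5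
    refine le_trans ?_ h5
    exact one_div_le_one_div_of_le (by norm_num) (by nlinarith)
  have w2 : g₁ ≤ (natLaw κ Q u R).real {ω | UU u i1 i2 N ω 0 - c2 ∈ Ico 0 a} := by
    have h5 := q6 0 0 ⟨le_rfl, by linarith⟩
    simp only [zero_add] at h5
    refine le_trans ?_ h5
    exact one_div_le_one_div_of_le (by positivity) (by nlinarith)
  obtain ⟨σ, W, c, c', hW, hSt⟩ := steer_of_windows F h1 h2 h12 hc ha q3 q4 hg₁0 w1 w2
  have m0 : Measurable fun ω : MPath d => UU u i1 i2 (64 * N) ω 0 :=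
    (MobW437.meas_U L (64 * N)).eval (a := 0)
  have m1 : Measurable fun ω : MPath d => UU u i1 i2 (64 * N) ω 1 :=
    (MobW437.meas_U L (64 * N)).eval (a := 1)
  -- the tail of the first coordinate
  have hreal : p0 ≤ (natLaw κ Q u R).real {ω | |UU u i1 i2 (64 * N) ω 0 - 64 * c| ≤ 5 * a} := by
    have h5 := hSt 0 0 (by rw [abs_zero]; positivity) (by rw [abs_zero]; linarith)
    have h6 : ENNReal.ofReal p0 ≤
        natLaw κ Q u R {ω | |UU u i1 i2 (64 * N) ω 0 - 64 * c| ≤ 5 * a} := by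
      refine h5.trans (measure_mono ?_)
      rintro ω ⟨g1, g2⟩
      rw [zero_add] at g1
      exact g1
    rw [measureReal_def]
    exact (ENNReal.ofReal_le_iff_le_toReal (measure_ne_top _ _)).1 h6
  have hT0 := q7' (2 ^ j) (by
    calc 3 ≤ 2 ^ 2 := by norm_num
      _ ≤ 2 ^ j := Nat.pow_le_pow_right (by norm_num) hj) le_rfl
  have hT1 := centre_change (P := natLaw κ Q u R)
    (X := fun ω => UU u i1 i2 (64 * N) ω 0) hreal hT0 (by
    push_cast at hjp ⊢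
    exact hjp)
  set w : ℝ := 9 * wl L 0 (2 ^ j * (64 * N)) with hw
  have hpow : 2 ^ j * (64 * N) = 2 ^ (k + (6 + j)) := by
    rw [hN, pow_add, pow_add]; ring
  have hwle : w ≤ 720 * (B * a) := by
    rw [hw, hpow]
    have h5 : B * wl L 0 (2 ^ k) ≤ B * (80 * a) :=
      mul_le_mul_of_nonneg_left (by rw [← hN]; linarith) hB
    nlinarith
  have hT2 : natLaw κ Q u R {ω | 5 * a + 2 * w < |UU u i1 i2 (64 * N) ω 0 - 64 * c|} ≤ e := by
    rw [← ENNReal.ofReal_toReal (measure_ne_top (natLaw κ Q u R) _)]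
    refine (ENNReal.ofReal_le_ofReal hT1).trans (le_trans (le_of_eq ?_) hje)
    push_cast
    rfl
  -- the tail of the second coordinate
  have mY : Measurable fun ω : MPath d =>
      UU u i1 i2 (64 * N) ω 1 - σ * UU u i1 i2 (64 * N) ω 0 - 64 * c' :=
    (m1.sub (m0.const_mul σ)).sub_const _
  obtain ⟨n2, hn21, hn2⟩ := tight (natLaw κ Q u R) mY he0
  have hn2r : (1 : ℝ) ≤ n2 := by exact_mod_cast hn21
  refine ⟨N, by omega, σ, 5 * a, W, 5 * a + 64 * a, 64 * c, 64 * c', 60 * a, n2 + 4 * W + 1,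
    by linarith, by linarith, by linarith, by linarith, hSt, ?_⟩
  intro ℓ t1 t2 o ho
  refine row_bx F (H := H) (δ := δ) (n := 64 * N) (R0 := R0) (a := a) (r1 := 5 * a + 2 * w)
    (r2 := n2) hc (by linarith) (by linarith) m0 m1 (by linarith) (by linarith) (by linarith)
    (fun b => hCAP _ hs0 hst b) ?_ hδle ?_ (by linarith) ?_ ℓ t1 t2 o ho
  · intro ℓ x x' hx hx' hxx T T'
    exact hnear N (by omega) (Nat.pow_dvd_pow 2 (by omega)) a q1 ℓ x x' hx hx' hxx T T'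
  · have h5 : (24 * B + 1) * (60 * a) ≤ R0 * (60 * a) :=
      mul_le_mul_of_nonneg_right hR0r (by linarith)
    nlinarith
  · calc H / (g / 2) ^ 2 * (natLaw κ Q u R {ω | 5 * a + 2 * w < |UU u i1 i2 (64 * N) ω 0 - 64 * c|}
          + natLaw κ Q u R {ω | (n2 : ℝ) < |UU u i1 i2 (64 * N) ω 1 -
            σ * UU u i1 i2 (64 * N) ω 0 - 64 * c'|})
        ≤ H / (g / 2) ^ 2 * (e + e) := by gcongr
      _ = H / (g / 2) ^ 2 * e + H / (g / 2) ^ 2 * e := by rw [mul_add]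
      _ ≤ κx / 2 / 2 + κx / 2 / 2 := add_le_add he he
      _ = κx / 2 := ENNReal.add_halves _

end geom

end Crest.Agent.R154.Box272
end

-- ▼ part R154/HI_272

/-!
Row 154, block B8 (helper272): **(init) is a theorem**, `Top169.HIProp`.
-/

set_option autoImplicit false
set_option linter.unusedSectionVars false
set_option linter.unusedVariables false
set_option linter.deprecated false

namespace Crest.Agent.R154.Box272

open MeasureTheory ProbabilityTheory Set Filter Crest.ProbabilityR.RandomEnvironment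
open Crest.Agent.R154.Mk561 Crest.Agent.R154.Q561
open Crest.Agent.R154.Flux132 (lev)
open Crest.Agent.R154.RatioR872 Crest.Agent.R154.Tile872
open Crest.Agent.R154.KS480
open Crest.Agent.R154.TileInst748 (clsM okM massM enM pushM outM single tsum_single)
open Crest.Agent.R154.B4Inst797 (Nat0 natLaw UU lat natLaw_apply lp natLaw_isProb)
open scoped ENNReal Topology NNReal

section ball

variable {d : ℕ}

lemma card_bl_le (u : Step d) (r : ℕ) : (ChainFL.bl u r).card ≤ (2 * r + 1) ^ d := by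
  classical
  unfold ChainFL.bl
  refine (Finset.card_filter_le _ _).trans (le_of_eq ?_)
  rw [Pi.card_Icc]
  simp only [Int.card_Icc]
  rw [Finset.prod_const, Finset.card_univ, Fintype.card_fin]
  congr 1
  omega

/-- the uniform law on the ball has no small atoms -/
lemma bmu_ge (u : Step d) (hd : 0 < d) {η δ' : ℝ} (hη : 0 < η) (hδ : 0 < δ') :
    ∃ n0 : ℕ, ∀ n : ℕ, n0 ≤ n → ∀ z ∈ ChainFL.bl u ⌊η * n⌋₊,
      ENNReal.ofReal (Real.exp (-(δ' * n / 4))) ≤ ChainFL.bmu u ⌊η * n⌋₊ z := by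
  have hd0 : (0 : ℝ) < d := by exact_mod_cast hd
  set α : ℝ := δ' / (4 * d) with hα
  have hα0 : 0 < α := by positivity
  obtain ⟨n0, hn0⟩ := exists_nat_ge (4 * η / α ^ 2)
  refine ⟨n0, fun n hn z hz => ?_⟩
  have hnr : 4 * η / α ^ 2 ≤ n := hn0.trans (by exact_mod_cast hn)
  rw [div_le_iff₀ (by positivity)] at hnr
  have hn00 : (0 : ℝ) ≤ n := Nat.cast_nonneg n
  rw [ChainFL.bmu_apply hz, Real.exp_neg, ENNReal.ofReal_inv_of_pos (Real.exp_pos _)]
  refine ENNReal.inv_le_inv.2 ?_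
  rw [← ENNReal.ofReal_natCast]
  refine ENNReal.ofReal_le_ofReal ?_
  have h1 : ((ChainFL.bl u ⌊η * n⌋₊).card : ℝ) ≤ (2 * (⌊η * n⌋₊ : ℝ) + 1) ^ d := by
    exact_mod_cast card_bl_le u ⌊η * n⌋₊
  have h2 : (⌊η * n⌋₊ : ℝ) ≤ η * n := Nat.floor_le (by positivity)
  have h3 : 2 * (⌊η * n⌋₊ : ℝ) + 1 ≤ Real.exp (α * n) := by
    have h4 := Real.quadratic_le_exp_of_nonneg (x := α * n) (by positivity)
    have h5 : 2 * (η * n) ≤ (α * n) ^ 2 / 2 := by nlinarith
    have h6 : 0 ≤ α * n := by positivity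
    linarith
  calc ((ChainFL.bl u ⌊η * n⌋₊).card : ℝ) ≤ (2 * (⌊η * n⌋₊ : ℝ) + 1) ^ d := h1
    _ ≤ (Real.exp (α * n)) ^ d := pow_le_pow_left₀ (by positivity) h3 d
    _ = Real.exp (δ' * n / 4) := by
        rw [← Real.exp_nat_mul]
        congr 1
        rw [hα]
        field_simp

end ball

section main

variable {d : ℕ} {Q : Measure (Environment d)} [IsProbabilityMeasure Q] {κ : ℝ} {R : ℕ}

/-- **the tile system of (init)** -/
theorem tiles_box (F : Bind263.Frame Q κ R) (hd : 3 ≤ d) (u : Step d)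
    (hA : annealedProb Q 0 (escapeEvent (B2d.dirVec u)) ≠ 0) (hHalf : KB424.Half κ Q)
    {η b δ' : ℝ} (hη : 0 < η) (hb : 0 < b) (hδ : 0 < δ') :
    InitY272.InitTilesY (D2Asm244.kT u R κ Q F.stat F.fin)
      (fun n : ℕ => ChainFL.bmu u ⌊η * n⌋₊) b δ' := by
  classical
  have hc := B4Inst797.nat_ne_zero F u hA
  obtain ⟨i1, i2, h1, h2, h12⟩ := KB424.lateral hd u.1
  obtain ⟨g, g', hg0, hg1, hgg, hgeom⟩ := geom F hd h1 h2 h12 hA hHalf hc
  have hq0 : ((1 / 96 : ℝ≥0) : ℝ≥0∞) ≠ 0 := by norm_num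
  obtain ⟨κ₁, κx, ε, hκ0, hκ1, hx0, hx1, hε0, hKS⟩ :=
    ksf_all u R κ Q F.stat F.fin (halfE u R κ Q F.fin) hg0 hg1 hq0
  obtain ⟨n0, hL⟩ := KB424.lateHyp F hd hA hHalf
  have hgt : g ≠ ∞ := ne_top_of_le_ne_top ENNReal.one_ne_top hg1
  have hκt : κ₁ ≠ ∞ := ne_top_of_le_ne_top ENNReal.one_ne_top hκ1
  have hg20 : g / 2 ≠ 0 := (ENNReal.div_pos hg0 (by norm_num)).ne'
  have hg40 : g / 2 / 2 ≠ 0 := (ENNReal.div_pos hg20 (by norm_num)).ne'
  have hg4t : g / 2 / 2 ≠ ∞ := ENNReal.div_ne_top (ENNReal.div_ne_top hgt (by norm_num))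
    (by norm_num)
  set τ : ℝ≥0∞ := κ₁ * (g / 2 / 2) ^ 3 with hτ
  have hτ0 : τ ≠ 0 := mul_ne_zero hκ0 (pow_ne_zero 3 hg40)
  have hτt : τ ≠ ∞ := ENNReal.mul_ne_top hκt (ENNReal.pow_ne_top hg4t)
  have hε20 : τ / 2 ≠ 0 := (ENNReal.div_pos hτ0 (by norm_num)).ne'
  have hlt : τ / 2 < τ := ENNReal.half_lt_self hτ0 hτt
  -- the cost
  set γ : ℝ≥0∞ := g / 8 with hγ
  have hγ0 : γ ≠ 0 := (ENNReal.div_pos hg0 (by norm_num)).ne'
  have hγg : γ ≤ g := ENNReal.div_le_of_le_mul (by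
    calc g = g * 1 := (mul_one _).symm
      _ ≤ g * 8 := by gcongr; norm_num)
  have hγ1 : γ ≤ 1 := hγg.trans hg1
  have hγt : γ ≠ ∞ := ne_top_of_le_ne_top ENNReal.one_ne_top hγ1
  set γr : ℝ := γ.toReal with hγr
  have hγrpos : 0 < γr := ENNReal.toReal_pos hγ0 hγt
  have hγrle : γr ≤ 1 := ENNReal.toReal_le_of_le_ofReal (by norm_num) (by simpa using hγ1)
  set m : ℝ := -Real.log γr with hm
  have hexpm : ENNReal.ofReal (Real.exp (-m)) = γ := by
    rw [hm, neg_neg, Real.exp_log hγrpos, hγr, ENNReal.ofReal_toReal hγt]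
  have hm0 : 0 ≤ m := by
    have := Real.log_nonpos hγrpos.le hγrle
    linarith
  obtain ⟨k1, hk1⟩ := exists_nat_ge (4 * m * b / δ')
  obtain ⟨N, hN, σ, A, W, S, c1, c2, D, D2, hS, hW, hADS, hD, hSt, hrow⟩ :=
    hgeom κx hx0 (n0 2 ε + n0 2 (τ / 2) + k1 + 1)
  set n : ℕ := 64 * N with hn
  obtain ⟨r, hr⟩ := exit_tail F u n (e := g / 2) hg20
  have hE : ∀ ℓ : ℕ, ExitE u R κ Q ℓ (ℓ + n) (ℓ + n + n) ε := fun ℓ =>
    TileReg872.exitE_of_late F.fin hL hε0 (n := n) (r := 2) (by omega) (by omega) (by omega)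
  have hE2 : ∀ ℓ : ℕ, ExitE u R κ Q ℓ (ℓ + n) (ℓ + n + n) (τ / 2) := fun ℓ =>
    TileReg872.exitE_of_late F.fin hL hε20 (n := n) (r := 2) (by omega) (by omega) (by omega)
  have hcls := fun (ℓ : ℕ) (t1 t2 : ℝ) =>
    cls_bx F h1 h2 h12 hc hSt hgg hg0 hgt hκ0 hκt hS hW hE2 hlt hr ℓ t1 t2
  have hne : ∀ (ℓ : ℕ) (t1 t2 : ℝ),
      (clsM (bx u i1 i2 σ A W ℓ t1 t2) (Kc u R κ Q ℓ (ℓ + n)) κ₁).Nonempty := by
    intro ℓ t1 t2
    obtain ⟨lam, hlam, -⟩ := hcls ℓ t1 t2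
    exact ⟨lam, hlam⟩
  choose lam hlam hsupp using fun x : ℤ × ℤ =>
    hcls (0 * n) (((0 : ℕ) : ℝ) * c1 + x.2 * D) (((0 : ℕ) : ℝ) * c2 + x.1 * D2)
  obtain ⟨n1, hn1⟩ := bmu_ge u (by omega) hη hδ
  set C0 : ℝ := r + n + (2 + |σ|) * (|c1| + 1) + |c2| + 1 with hC0
  set C1 : ℝ := (2 + |σ|) * D + |D2| with hC1
  have hσ := abs_nonneg σ
  have hC1p : 0 ≤ C1 := by
    have := abs_nonneg D2
    have : 0 ≤ (2 + |σ|) * D := by positivity
    linarith
  set ρ : ℝ := η / (2 * (C1 + 1)) with hρ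
  have hρ0 : 0 < ρ := by positivity
  obtain ⟨n2, hn2⟩ := exists_nat_ge (2 * (C0 + 1) / η)
  refine ⟨n, m, ρ, κ₁, γ, CellB u i1 i2 σ A W c1 c2 D D2 n, EnB u R κ Q n,
      (fun k x ω => kD u R κ Q (g / 2) (k * n) ((k + 1) * n)
        (CellB u i1 i2 σ A W c1 c2 D D2 n (k + 1) x) ω),
      (fun k x ω => kD u R κ Q (g / 2) (k * n) ((k + 1) * n)
        (CellB u i1 i2 σ A W c1 c2 D D2 n (k + 1) (Init272.shZ x)) ω), lam, max n1 n2,
      by omega, hm0, ?_, hexpm.le,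
      inputsY_congr (inputs_box F hc hKS hSt hgg hADS hD hrow hE hne), ?_, hρ0, ?_⟩
  · -- cost
    have h5 : (k1 : ℝ) ≤ n := by
      have : k1 ≤ n := by omega
      exact_mod_cast this
    rw [div_le_iff₀ hδ] at hk1
    nlinarith
  · intro x
    have h5 := hlam x
    have e : 0 * n + n = (0 + 1) * n := by ring
    rw [e] at h5
    exact h5
  · intro n' hn' s y hs hy z hz
    have hn1' : n1 ≤ n' := (le_max_left _ _).trans hn'
    have hn2' : n2 ≤ n' := (le_max_right _ _).trans hn'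
    refine hn1 n' hn1' z ?_
    have h5 : 2 * (C0 + 1) / η ≤ n' := hn2.trans (by exact_mod_cast hn2')
    rw [div_le_iff₀ hη] at h5
    have hs0 : (0 : ℝ) ≤ s := Nat.cast_nonneg s
    have hy0 : (0 : ℝ) ≤ y := Nat.cast_nonneg y
    rw [ChainFL.mem_bl]
    constructor
    · rw [Fin804.nrm_le_iff (Int.natCast_nonneg _)]
      intro c
      have h6 := hsupp ((s : ℤ), (y : ℤ)) z hz c
      simp only [Nat.cast_zero, zero_mul, zero_add, Int.cast_natCast, add_zero] at h6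
      rw [abs_mul, abs_mul, abs_of_nonneg hD, abs_of_nonneg hs0, abs_of_nonneg hy0] at h6
      have h7 : (2 + |σ|) * (y * D + |c1| + 1) + (s * |D2| + |c2| + 1) + r + n ≤
          C0 + C1 * (ρ * n') := by
        have a1 : (2 + |σ|) * (y * D) ≤ (2 + |σ|) * (ρ * n' * D) :=
          mul_le_mul_of_nonneg_left (mul_le_mul_of_nonneg_right hy hD) (by positivity)
        have a2 : s * |D2| ≤ ρ * n' * |D2| := mul_le_mul_of_nonneg_right hs (abs_nonneg _)
        rw [hC0, hC1]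
        nlinarith
      have h8 : C1 * (ρ * n') ≤ η * n' / 2 := by
        have a1 : C1 * ρ ≤ η / 2 := by
          rw [hρ, mul_div_assoc', div_le_div_iff₀ (by positivity) (by norm_num)]
          nlinarith
        have a2 : (0 : ℝ) ≤ n' := Nat.cast_nonneg n'
        nlinarith
      have h9 : |(z c : ℝ)| ≤ η * n' - 1 := by linarith
      have h10 := Nat.lt_floor_add_one (η * n')
      have h11 : ((|z c| : ℤ) : ℝ) < ((⌊η * n'⌋₊ : ℤ) : ℝ) := by
        push_cast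
        linarith
      have h12 : |z c| < (⌊η * n'⌋₊ : ℤ) := by exact_mod_cast h11
      exact h12.le
    · have h6 := (hlam ((s : ℤ), (y : ℤ))).2.1 z
      by_contra hcon
      refine hz (h6 fun hmem => hcon ?_)
      have h7 := hmem.1
      simpa using h7

end main

/-- **(init)**, no open input -/
theorem hiProp : Top169.HIProp := by
  intro d hd Q _ κ R F hHalf u hA
  intro η b δ' M hη hb hδ hM
  have hst : ∀ n : ℕ, (D2Asm244.kT u R κ Q F.stat F.fin).Start (ChainFL.bmu u ⌊η * n⌋₊) :=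
    fun n => ChainFL.bmu_start F u _
  exact InitY272.init_of_tilesY (D2Asm244.kT u R κ Q F.stat F.fin)
    (fun n : ℕ => ChainFL.bmu u ⌊η * n⌋₊) hst
    (fun n : ℕ => D2Asm244.aa (D2Asm244.kT u R κ Q F.stat F.fin) (ChainFL.bmu u ⌊η * n⌋₊))
    (fun n i => D2Asm244.aa_eq (hst n) (D2Asm244.Sh_pos F u hA _ (hst n)) i)
    (fun b δ' hb hδ => tiles_box F hd u hA hHalf hη hb hδ) b δ' M hb hδ hM

end Crest.Agent.R154.Box272


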