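import Crest.Agent.R154.Top2_169
import Crest.Agent.R154.HI_272_Mg

/-!
Row 154 (helper796), TOP GLUE for the SPLIT: `(W)` is asked only for UNIFORMLY ELLIPTIC frames
(`0 < κ`, coins `κ`), S0219 comes from `Spine.NBProp` (no two opposite escape directions, iid,
merely elliptic, `d ≥ 3`), independent of (W).
-/

set_option autoImplicit false

namespace Crest.Agent.R154.Split796

open MeasureTheory ProbabilityTheory Crest.ProbabilityR.RandomEnvironment Crest.Agent.R154
open Crest.Agent.R154.Spine Crest.Agent.R154.Mk561
open scoped ENNReal




/-- **S0219** from the no-opposite-escape property alone (no (W)). -/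
theorem t0219 (hNB : NBProp) : T0219 :=
  s0219' hNB



end Crest.Agent.R154.Split796
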