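import Crest.Agent.R154.Wrap_74
import Crest.Agent.R154.TailPow_736
import Crest.Agent.R154.ColsA_220
import Crest.Agent.R154.TileA_872
import Crest.Agent.R154.MkC_561
import Crest.Agent.R154.HomeDoc_74
import Crest.Agent.R154.RateT_582
import Crest.Agent.R154.Home_903
import Crest.Agent.R154.HomeC_903
import Crest.Agent.R154.Split_796
import Crest.Agent.R154.JumpB_872_Mg
import Crest.Agent.R154.StartLP_872
import Crest.Agent.R154.HM8_388

-- ▼ part R154/Wrap2_74
section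

/-!
# Row 154, `d ≥ 3`, route HOME MASS (helper74): the leaf `tail` of `LeafAt` from 736's `tail_pow_kT`
-/

set_option autoImplicit false
set_option linter.unusedSectionVars false
set_option linter.unusedVariables false

open MeasureTheory ENNReal Crest.ProbabilityR.RandomEnvironment
open Crest.Agent.R154.RatioR872 Crest.Agent.R154.Mk561 Crest.Agent.R154.Q561
open Crest.Agent.R154.B4Inst797 (Nat0 natLaw UU lat lp natLaw_isProb nat_ne_zero)
open Crest.Agent.R154.MobW437 (wl Sl wl_pos)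
open Crest.Agent.R154.Doc74 Crest.Agent.R154.HM263

namespace Crest.Agent.R154.Wrap74

variable {d : ℕ} {Q : Measure (Environment d)} [IsProbabilityMeasure Q] {κ : ℝ} {R : ℕ}




theorem wn_nonneg (F : Bind263.Frame Q κ R) (u : Step d) {i1 i2 : Fin d} (h1 : i1 ≠ u.1)
    (h2 : i2 ≠ u.1) (h12 : i1 ≠ i2) (hc : mkAnn κ Q 0 (Nat0 u R) ≠ 0) (n : ℕ) :
    0 ≤ Wn F u h1 h2 h12 hc n := by
  haveI := natLaw_isProb hc
  exact (wl_pos _ _ _).le

/-- **(L3)** `TailIn` on `kT` -/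
theorem tailIn_kT (F : Bind263.Frame Q κ R) (u : Step d) {i1 i2 : Fin d} (h1 : i1 ≠ u.1)
    (h2 : i2 ≠ u.1) (h12 : i1 ≠ i2) (hc : mkAnn κ Q 0 (Nat0 u R) ≠ 0) :
    TailIn (D2Asm244.kT u R κ Q F.stat F.fin) (fun x => (x i1 : ℝ))
      (fun x => (Flux132.lev u x : ℝ)) (Wn F u h1 h2 h12 hc) := by
  intro ν hν
  obtain ⟨a0, ha⟩ := Home736.tail_pow_kT F u h1 h2 h12 hc 0 hν
  refine ⟨a0, fun a haa => ?_⟩
  obtain ⟨α, ⟨n0, h3⟩, h4⟩ := ha a haa
  exact ⟨α, n0, h3, h4⟩

end Crest.Agent.R154.Wrap74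
end

-- ▼ part R154/Mom_220
section

/-! Row 154, d ≥ 3, HM2 of 263's HOME MASS route: the negative moment of the confined mass of a
point, uniformly in the height of the early phase. -/

set_option autoImplicit false
set_option linter.unusedSectionVars false
set_option linter.deprecated false

namespace Crest.Agent.R154.Mom220

open MeasureTheory ProbabilityTheory Set Filter Crest.ProbabilityR.RandomEnvironment
open Crest.Agent.R154.Ren263 hiding lev
open Crest.Agent.R154.Mk561 Crest.Agent.R154.Q561 Crest.Agent.R154.RatioR872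
open Crest.Agent.R154.Cols220
open Crest.Agent.R154.Flux132 (lev lev_add lev_neg lev_zero)
open scoped ENNReal

variable {d : ℕ}

/-- box of radius `D` -/
def bl (D : ℕ) (x : Site d) : Set (Site d) := {z | ∀ i, |z i - x i| ≤ (D : ℤ)}

/-- confined mass, box form (872's confined kernel) -/
noncomputable def Nc (u : Step d) (R : ℕ) (κ : ℝ) (D : ℕ) (b : ℤ) (ω : Environment d)
    (x : Site d) : ℝ≥0∞ := ∑' y, Tile872.gc u R κ (bl D x) b ω x y

lemma ClM_low (u : Step d) (R : ℕ) {x : Site d} {b : ℤ} {m : ℕ} {M : MPath d}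
    (h : M ∈ ClM u R x b m) {i : ℕ} (hi : i ≤ m) : lev u x ≤ lev u (pos x M i) := by
  obtain ⟨_, _, h3, h4⟩ := h
  by_cases hR : R ≤ i
  · have := h4 i hR hi
    omega
  · have hup : ∀ k, k ≤ i → lev u (pos x M k) = lev u x + k := by
      intro k
      induction k with
      | zero => intro _; simp [pos_zero]
      | succ k ih =>
        intro hk
        have e1 := ih (by omega)
        have e2 : M k = (u, true) := h3 k (by omega) (by omega)
        rw [pos_succ, lev_add, e1, e2]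
        have : lev u (stp ((u, true) : Mark d)) = 1 := Flux132.lev_step_self u
        rw [this]
        push_cast
        ring
    rw [hup i le_rfl]
    omega

lemma ClMr_sub_CfM (u : Step d) (R r D : ℕ) (x : Site d) (n m : ℕ) (hr : r ≤ D) (hn : n ≤ D) :
    ClMr u R r x (lev u x + n) m ⊆ Tile872.CfM u R (bl D x) x (lev u x + n) m := by
  rintro M ⟨h1, h2⟩
  refine ⟨h1, fun i hi j => ?_⟩
  by_cases hj : j = u.1
  · have hl := ClM_low u R h1 hi.le
    have hu := h1.2.1 i hi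
    subst hj
    unfold lev at hl hu
    split_ifs at hl hu <;> rw [abs_le] <;> constructor <;> omega
  · exact (h2 i hi.le j hj).trans (by exact_mod_cast hr)

lemma nc_le_Nc (u : Step d) (R r D : ℕ) (κ : ℝ) (x : Site d) (n : ℕ) (hr : r ≤ D) (hn : n ≤ D)
    (ω : Environment d) :
    nc u R r κ (lev u x + n) ω x ≤ Nc u R κ D (lev u x + n) ω x := by
  unfold nc Nc Tile872.gc
  rw [← measure_iUnion (Tile872.disj_Cf u R (bl D x) x _) fun y => Tile872.meas_Cf u R _ x _ y]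
  refine measure_mono ?_
  refine iUnion_subset fun m M hM => ?_
  exact mem_iUnion.2 ⟨pos x M m, mem_iUnion.2 ⟨m, ClMr_sub_CfM u R r D x n m hr hn hM, rfl⟩⟩

section tail

variable (u : Step d) (R : ℕ) (κ : ℝ) (Q : Measure (Environment d)) [IsProbabilityMeasure Q]

/-- the rate of a point (582) -/
def Rate (lam0 C : ℝ) : Prop := ∀ (x : Site d) (n : ℕ) (t : ℝ), 0 ≤ t →
  Q {ω | ∑' y, gk u R κ (lev u x + n) ω x y ≤ ENNReal.ofReal (Real.exp (-t))}
    ≤ ENNReal.ofReal (C * Real.exp (-(lam0 * t)))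

/-- **confined tail** -/
lemma tail (hstat : ∀ z : Site d, MeasurePreserving (shiftEnv z) Q Q) (hk : 0 < kf d κ)
    {lam0 C : ℝ} (hl : 0 < lam0) (hC : 1 ≤ C) (hrate : Rate u R κ Q lam0 C) (n : ℕ) :
    ∃ r0, ∀ r, r0 ≤ r → ∀ (x : Site d) (t : ℝ), 0 ≤ t →
      Q {ω | nc u R r κ (lev u x + n) ω x ≤ ENNReal.ofReal (Real.exp (-t))}
        ≤ ENNReal.ofReal ((C * 2 ^ lam0 + 1) * Real.exp (-(lam0 * t))) := by
  set c0 : ℝ := kf d κ ^ n with hc0
  have hc0p : 0 < c0 := pow_pos hk n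
  have hε : ENNReal.ofReal (c0 ^ (1 + lam0)) ≠ 0 := by
    rw [Ne, ENNReal.ofReal_eq_zero, not_le]
    exact Real.rpow_pos_of_pos hc0p _
  obtain ⟨r0, hr0⟩ := range u R κ Q hstat n hε
  refine ⟨r0, fun r hr x t ht => ?_⟩
  by_cases hsm : Real.exp (-t) < c0
  · have : {ω | nc u R r κ (lev u x + n) ω x ≤ ENNReal.ofReal (Real.exp (-t))} = ∅ := by
      rw [Set.eq_empty_iff_forall_notMem]
      intro ω hω
      have h1 := floor u R r κ x n ω
      have h2 := h1.trans hω
      rw [← ENNReal.ofReal_pow (kf_nonneg κ)] at h2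
      have h3 := (ENNReal.ofReal_le_ofReal_iff (Real.exp_pos _).le).1 h2
      exact absurd hsm (not_lt.2 h3)
    rw [this, measure_empty]
    exact zero_le
  · rw [not_lt] at hsm
    have hex : 0 < Real.exp (-t) := Real.exp_pos _
    -- split
    have hsub : {ω | nc u R r κ (lev u x + n) ω x ≤ ENNReal.ofReal (Real.exp (-t))}
        ⊆ {ω | ∑' y, gk u R κ (lev u x + n) ω x y ≤ ENNReal.ofReal (Real.exp (-(t - Real.log 2)))}
          ∪ {ω | ENNReal.ofReal (Real.exp (-t)) ≤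
              (∑' y, gk u R κ (lev u x + n) ω x y) - nc u R r κ (lev u x + n) ω x} := by
      intro ω hω
      by_cases h : ∑' y, gk u R κ (lev u x + n) ω x y
          ≤ ENNReal.ofReal (Real.exp (-(t - Real.log 2)))
      · exact Or.inl h
      · refine Or.inr ?_
        rw [not_le] at h
        have e : ENNReal.ofReal (Real.exp (-(t - Real.log 2)))
            = ENNReal.ofReal (Real.exp (-t)) + ENNReal.ofReal (Real.exp (-t)) := by
          rw [← ENNReal.ofReal_add hex.le hex.le]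
          congr 1
          rw [neg_sub, sub_eq_add_neg, Real.exp_add, Real.exp_log (by norm_num)]
          ring
        rw [e] at h
        change ENNReal.ofReal (Real.exp (-t)) ≤ _
        have h5 : nc u R r κ (lev u x + n) ω x ≤ ENNReal.ofReal (Real.exp (-t)) := hω
        refine ENNReal.le_sub_of_add_le_right ?_ ?_
        · exact ne_top_of_le_ne_top ENNReal.ofReal_ne_top h5
        · exact (add_le_add le_rfl h5).trans h.le
    refine (measure_mono hsub).trans ((measure_union_le _ _).trans ?_)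
    have hA : Q {ω | ∑' y, gk u R κ (lev u x + n) ω x y
        ≤ ENNReal.ofReal (Real.exp (-(t - Real.log 2)))}
        ≤ ENNReal.ofReal (C * 2 ^ lam0 * Real.exp (-(lam0 * t))) := by
      by_cases ht2 : Real.log 2 ≤ t
      · refine (hrate x n (t - Real.log 2) (by linarith)).trans ?_
        refine ENNReal.ofReal_le_ofReal (le_of_eq ?_)
        have e2 : (2 : ℝ) ^ lam0 = Real.exp (lam0 * Real.log 2) := by
          rw [Real.rpow_def_of_pos (by norm_num), mul_comm]
        rw [e2, mul_assoc, ← Real.exp_add]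
        congr 2
        ring
      · refine prob_le_one.trans ?_
        rw [← ENNReal.ofReal_one]
        refine ENNReal.ofReal_le_ofReal ?_
        have e2 : (2 : ℝ) ^ lam0 = Real.exp (lam0 * Real.log 2) := by
          rw [Real.rpow_def_of_pos (by norm_num), mul_comm]
        rw [e2, mul_assoc, ← Real.exp_add]
        have : 1 ≤ Real.exp (lam0 * Real.log 2 + -(lam0 * t)) := by
          rw [← Real.exp_zero]
          refine Real.exp_le_exp.2 ?_
          nlinarith [not_le.1 ht2]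
        nlinarith
    have hB : Q {ω | ENNReal.ofReal (Real.exp (-t)) ≤
              (∑' y, gk u R κ (lev u x + n) ω x y) - nc u R r κ (lev u x + n) ω x}
        ≤ ENNReal.ofReal (Real.exp (-(lam0 * t))) := by
      have hm : Measurable fun ω => (∑' y, gk u R κ (lev u x + n) ω x y)
          - nc u R r κ (lev u x + n) ω x := by
        refine Measurable.sub ?_ (measurable_nc u R r κ _ x)
        exact Measurable.ennreal_tsum fun y => measurable_gk u R κ _ x y
      refine (meas_ge_le_lintegral_div hm.aemeasurable ?_ ENNReal.ofReal_ne_top).trans ?_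
      · rw [Ne, ENNReal.ofReal_eq_zero, not_le]; exact hex
      refine (ENNReal.div_le_div_right (hr0 r hr x) _).trans ?_
      rw [← ENNReal.ofReal_div_of_pos hex]
      refine ENNReal.ofReal_le_ofReal ?_
      rw [div_le_iff₀ hex, ← Real.exp_add]
      calc c0 ^ (1 + lam0) ≤ (Real.exp (-t)) ^ (1 + lam0) :=
            Real.rpow_le_rpow hc0p.le hsm (by linarith)
        _ = Real.exp (-(lam0 * t) + -t) := by
            rw [← Real.exp_mul]
            congr 1
            ring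
    refine (add_le_add hA hB).trans ?_
    rw [← ENNReal.ofReal_add (by positivity) (Real.exp_pos _).le]
    refine ENNReal.ofReal_le_ofReal (le_of_eq ?_)
    ring

/-- layer cake -/
lemma layer {Ω : Type*} {m0 : MeasurableSpace Ω} {P : Measure Ω} {f : Ω → ℝ≥0∞}
    (hf : Measurable f) (hf0 : ∀ ω, f ω ≠ 0) (hf1 : ∀ ω, f ω ≤ 1) {lam0 C q : ℝ} (hC : 0 ≤ C)
    (hq : 0 ≤ q)
    (hT : ∀ t : ℝ, 0 ≤ t → P {ω | f ω ≤ ENNReal.ofReal (Real.exp (-t))}
      ≤ ENNReal.ofReal (C * Real.exp (-(lam0 * t)))) :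
    ∫⁻ ω, f ω ^ (-q) ∂P
      ≤ ENNReal.ofReal (C * Real.exp q) * (1 - ENNReal.ofReal (Real.exp (-(lam0 - q))))⁻¹ := by
  set E : ℕ → Set Ω := fun n => {ω | f ω ≤ ENNReal.ofReal (Real.exp (-(n : ℝ)))} with hE
  have hEm : ∀ n, MeasurableSet (E n) := fun n => measurableSet_le hf measurable_const
  have hpt : ∀ ω, f ω ^ (-q) ≤ ∑' n : ℕ,
      (E n).indicator (fun _ => ENNReal.ofReal (Real.exp (q * (n + 1)))) ω := by
    intro ω
    have hft : f ω ≠ ⊤ := ne_top_of_le_ne_top ENNReal.one_ne_top (hf1 ω)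
    set y : ℝ := (f ω).toReal with hy
    have hy0 : 0 < y := ENNReal.toReal_pos (hf0 ω) hft
    have hy1 : y ≤ 1 := by
      have := ENNReal.toReal_mono ENNReal.one_ne_top (hf1 ω)
      simpa using this
    have hfy : f ω = ENNReal.ofReal y := (ENNReal.ofReal_toReal hft).symm
    set n : ℕ := ⌊-Real.log y⌋₊ with hn
    have hlog : 0 ≤ -Real.log y := by
      have := Real.log_nonpos hy0.le hy1
      linarith
    have h1 : (n : ℝ) ≤ -Real.log y := Nat.floor_le hlog
    have h2 : -Real.log y < n + 1 := Nat.lt_floor_add_one _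
    have hmem : ω ∈ E n := by
      change f ω ≤ _
      rw [hfy]
      refine ENNReal.ofReal_le_ofReal ?_
      calc y = Real.exp (Real.log y) := (Real.exp_log hy0).symm
        _ ≤ Real.exp (-(n : ℝ)) := Real.exp_le_exp.2 (by linarith)
    have h3 : f ω ^ (-q) ≤ ENNReal.ofReal (Real.exp (q * (n + 1))) := by
      rw [hfy, ENNReal.ofReal_rpow_of_pos hy0]
      refine ENNReal.ofReal_le_ofReal ?_
      rw [Real.rpow_def_of_pos hy0]
      refine Real.exp_le_exp.2 ?_
      nlinarith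
    calc f ω ^ (-q) ≤ (E n).indicator (fun _ => ENNReal.ofReal (Real.exp (q * (n + 1)))) ω := by
          rw [Set.indicator_of_mem hmem]; exact h3
      _ ≤ _ := ENNReal.le_tsum n
  calc ∫⁻ ω, f ω ^ (-q) ∂P
      ≤ ∫⁻ ω, ∑' n : ℕ,
          (E n).indicator (fun _ => ENNReal.ofReal (Real.exp (q * (n + 1)))) ω ∂P :=
        lintegral_mono hpt
    _ = ∑' n : ℕ, ENNReal.ofReal (Real.exp (q * (n + 1))) * P (E n) := by
        rw [lintegral_tsum fun n => (measurable_const.indicator (hEm n)).aemeasurable]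
        refine tsum_congr fun n => ?_
        rw [lintegral_indicator_const (hEm n)]
    _ ≤ ∑' n : ℕ, ENNReal.ofReal (C * Real.exp q) *
          ENNReal.ofReal (Real.exp (-(lam0 - q))) ^ n := by
        refine ENNReal.tsum_le_tsum fun n => ?_
        refine (mul_le_mul_right (hT n (Nat.cast_nonneg n)) _).trans (le_of_eq ?_)
        rw [← ENNReal.ofReal_mul (Real.exp_pos _).le, ← ENNReal.ofReal_pow (Real.exp_pos _).le,
          ← ENNReal.ofReal_mul (by positivity)]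
        congr 1
        rw [← Real.exp_nat_mul, ← mul_assoc, mul_comm (Real.exp (q * (n + 1))) C, mul_assoc,
          ← Real.exp_add, mul_assoc, ← Real.exp_add]
        congr 2
        ring
    _ = _ := by
        rw [ENNReal.tsum_mul_left, ENNReal.tsum_geometric]

/-- **the moment of the confined mass of a point** (letters of `ColsA_220`) -/
theorem moment_nc (hstat : ∀ z : Site d, MeasurePreserving (shiftEnv z) Q Q) (hk : 0 < kf d κ)
    {lam0 C : ℝ} (hl : 0 < lam0) (hC : 1 ≤ C) (hrate : Rate u R κ Q lam0 C) :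
    ∃ K : ℝ≥0∞, K ≠ ⊤ ∧ ∀ n : ℕ, ∃ r0, ∀ r, r0 ≤ r → ∀ x : Site d,
      ∫⁻ ω, nc u R r κ (lev u x + n) ω x ^ (-(lam0 / 2)) ∂Q ≤ K := by
  refine ⟨ENNReal.ofReal ((C * 2 ^ lam0 + 1) * Real.exp (lam0 / 2)) *
    (1 - ENNReal.ofReal (Real.exp (-(lam0 - lam0 / 2))))⁻¹, ?_, fun n => ?_⟩
  · refine ENNReal.mul_ne_top ENNReal.ofReal_ne_top (ENNReal.inv_ne_top.2 ?_)
    have h1 : Real.exp (-(lam0 - lam0 / 2)) < 1 := by
      rw [Real.exp_lt_one_iff]
      linarith
    have h2 : ENNReal.ofReal (Real.exp (-(lam0 - lam0 / 2))) < 1 := by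
      rw [← ENNReal.ofReal_one]
      exact (ENNReal.ofReal_lt_ofReal_iff one_pos).2 h1
    exact (tsub_pos_of_lt h2).ne'
  · obtain ⟨r0, hr0⟩ := tail u R κ Q hstat hk hl hC hrate n
    refine ⟨r0, fun r hr x => ?_⟩
    refine layer (measurable_nc u R r κ _ x) (fun ω h0 => ?_) (fun ω => nc_le_one u R r κ _ ω x)
      (by positivity) (by linarith) (hr0 r hr x)
    have h1 := floor u R r κ x n ω
    rw [h0] at h1
    have h2 : (0 : ℝ≥0∞) < ENNReal.ofReal (kf d κ) ^ n :=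
      pos_iff_ne_zero.2 (pow_ne_zero n (by rw [Ne, ENNReal.ofReal_eq_zero, not_le]; exact hk))
    exact absurd h1 (not_le.2 h2)

/-- **the moment of the confined mass of a point** (letters of `Tile872.gc`, boxes) -/
theorem moment (hstat : ∀ z : Site d, MeasurePreserving (shiftEnv z) Q Q) (hk : 0 < kf d κ)
    {lam0 C : ℝ} (hl : 0 < lam0) (hC : 1 ≤ C) (hrate : Rate u R κ Q lam0 C) :
    ∃ θ : ℝ, 0 < θ ∧ ∃ K : ℝ≥0∞, K ≠ ⊤ ∧ ∀ s1 : ℕ, ∃ D0 : ℕ, ∀ D, D0 ≤ D →
      ∀ (a : ℤ) (x : Site d), lev u x = a →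
        ∫⁻ ω, Nc u R κ D (a + s1) ω x ^ (-(2 * θ)) ∂Q ≤ K := by
  obtain ⟨K, hK, h⟩ := moment_nc u R κ Q hstat hk hl hC hrate
  refine ⟨lam0 / 4, by linarith, K, hK, fun s1 => ?_⟩
  obtain ⟨r0, hr0⟩ := h s1
  refine ⟨max r0 s1, fun D hD a x hx => ?_⟩
  subst hx
  refine le_trans (lintegral_mono fun ω => ?_) (hr0 D ((le_max_left _ _).trans hD) x)
  have e : -(2 * (lam0 / 4)) = -(lam0 / 2) := by ring
  change Nc u R κ D (lev u x + s1) ω x ^ (-(2 * (lam0 / 4))) ≤ _
  rw [e, ENNReal.rpow_neg, ENNReal.rpow_neg]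
  refine ENNReal.inv_le_inv.2 (ENNReal.rpow_le_rpow ?_ (by linarith))
  exact nc_le_Nc u R D D κ x s1 le_rfl ((le_max_right _ _).trans hD) ω

end tail

end Crest.Agent.R154.Mom220
end

-- ▼ part R154/Ind_104
section

/-! Row 154, HWPos (263's HOME MASS route), leaf (IND)/(M): conditional independence of `k` units
started from random laws with separated supports, and the product moment of confined masses. -/

set_option autoImplicit false
set_option linter.unusedSectionVars false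
set_option linter.deprecated false

namespace Crest.Agent.R154.Ind104

open MeasureTheory ProbabilityTheory Set Filter Crest.ProbabilityR.RandomEnvironment
open Crest.Agent.R154.Ren263 (Det)
open Crest.Agent.R154.Mk561 Crest.Agent.R154.Q561
open Crest.Agent.R154.Flux132 (lev)
open Crest.Agent.R154.RatioR872 Crest.Agent.R154.Tile872
open scoped ENNReal

variable {d : ℕ}

/-! ### freezing -/

theorem freeze {Ω α β : Type*} [MeasurableSpace α] [MeasurableSpace β] {F H m0 : MeasurableSpace Ω}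
    {P : Measure Ω} [IsProbabilityMeasure P] (hF : F ≤ m0) (hH : H ≤ m0) (hind : Indep F H P)
    {f : Ω → α} (hf : Measurable[F] f) {g : Ω → β} (hg : Measurable[H] g)
    {Φ : α × β → ℝ≥0∞} (hΦ : Measurable Φ) :
    ∫⁻ ω, Φ (f ω, g ω) ∂P = ∫⁻ ω, ∫⁻ ω', Φ (f ω, g ω') ∂P ∂P := by
  have hfm : Measurable f := hf.mono hF le_rfl
  have hgm : Measurable g := hg.mono hH le_rfl
  have hfg : IndepFun f g P := by
    rw [IndepFun_iff_Indep]
    exact indep_of_indep_of_le_left (indep_of_indep_of_le_right hind hg.comap_le) hf.comap_le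
  have hmap := (indepFun_iff_map_prod_eq_prod_map_map hfm.aemeasurable hgm.aemeasurable).1 hfg
  calc ∫⁻ ω, Φ (f ω, g ω) ∂P
      = ∫⁻ z, Φ z ∂(P.map fun ω => (f ω, g ω)) := (lintegral_map hΦ (hfm.prodMk hgm)).symm
    _ = ∫⁻ x, ∫⁻ y, Φ (x, y) ∂(P.map g) ∂(P.map f) := by
        rw [hmap, lintegral_prod _ hΦ.aemeasurable]
    _ = ∫⁻ ω, ∫⁻ y, Φ (f ω, y) ∂(P.map g) ∂P := by
        rw [lintegral_map (Measurable.lintegral_prod_right' hΦ) hfm]
    _ = _ := by
        refine lintegral_congr fun ω => ?_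
        exact lintegral_map (hΦ.comp measurable_prodMk_left) hgm

/-! ### products of local functions on separated sets -/

theorem prod_sep {Q : Measure (Environment d)} [IsProbabilityMeasure Q] {R : ℕ}
    (hR : IsFiniteRangeDependent Q R) {ι : Type*} (s : Finset ι) (S : ι → Set (Site d))
    (hS : ∀ a ∈ s, ∀ b ∈ s, a ≠ b → SepR R (S a) (S b)) (f : ι → Environment d → ℝ≥0∞)
    (hf : ∀ a ∈ s, Measurable (f a)) (hloc : ∀ a ∈ s, LocOn (S a) (f a)) :
    ∫⁻ ω, ∏ a ∈ s, f a ω ∂Q = ∏ a ∈ s, ∫⁻ ω, f a ω ∂Q := by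
  classical
  induction s using Finset.induction_on with
  | empty => simp
  | insert a s ha ih =>
    simp only [Finset.prod_insert ha]
    have hsub : ∀ b ∈ s, b ∈ insert a s := fun b hb => Finset.mem_insert_of_mem hb
    have hsep : SepR R (S a) (⋃ b ∈ s, S b) := by
      intro z hz w hw
      obtain ⟨b, hb, hwb⟩ := mem_iUnion₂.1 hw
      exact hS a (Finset.mem_insert_self a s) b (hsub b hb) (fun h => ha (h ▸ hb)) z hz w hwb
    rw [lintegral_mul_sep hR hsep (hf a (Finset.mem_insert_self a s))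
      (Finset.measurable_prod _ fun i hi => hf i (hsub i hi))
      (hloc a (Finset.mem_insert_self a s))]
    · rw [ih (fun a ha b hb => hS a (hsub a ha) b (hsub b hb)) (fun b hb => hf b (hsub b hb))
        (fun b hb => hloc b (hsub b hb))]
    · intro ω ω' h
      refine Finset.prod_congr rfl fun i hi => ?_
      exact hloc i (hsub i hi) ω ω' fun z hz => h z (Set.mem_biUnion hi hz)

/-! ### (IND): conditional independence of the units, random laws -/

/-- replace the rows outside `T` -/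
noncomputable def rst (T : Set (Site d)) (ω₀ ω : Environment d) : Environment d := by
  classical
  exact fun z => if z ∈ T then ω z else ω₀ z

lemma rst_of_mem {T : Set (Site d)} (ω₀ ω : Environment d) {z : Site d} (hz : z ∈ T) :
    rst T ω₀ ω z = ω z := by
  unfold rst; rw [if_pos hz]

lemma measurable_rst (T : Set (Site d)) (ω₀ : Environment d) :
    Measurable[coordSigmaAlgebra T] (rst T ω₀) := by
  classical
  refine measurable_coord ?_ ?_
  · refine measurable_pi_lambda _ fun z => ?_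
    by_cases hz : z ∈ T
    · simp only [rst, hz, if_true]; exact measurable_pi_apply z
    · simp only [rst, hz, if_false]; exact measurable_const
  · intro ω ω' h
    funext z
    by_cases hz : z ∈ T
    · simp only [rst, hz, if_true]; exact h z hz
    · simp only [rst, hz, if_false]

/-- **(IND)** the `k` units started from random (past-measurable) laws with separated boxes are
conditionally independent -/
theorem ind {Q : Measure (Environment d)} [IsProbabilityMeasure Q] {R : ℕ}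
    (hR : IsFiniteRangeDependent Q R) {S0 T : Set (Site d)} (hST : SepR R S0 T)
    {ι : Type*} [Fintype ι] (Lv : Set (Site d)) (box : Site d → Set (Site d))
    (hbox : ∀ x ∈ Lv, box x ⊆ T)
    (U : ι → (Site d → ℝ≥0∞) → Environment d → ℝ≥0∞)
    (hU : ∀ a, Measurable fun p : (Site d → ℝ≥0∞) × Environment d => U a p.1 p.2)
    (hloc : ∀ a v, (∀ x, v x ≠ 0 → x ∈ Lv) → LocOn (⋃ x ∈ {x | v x ≠ 0}, box x) (U a v))
    (w : ι → Environment d → Site d → ℝ≥0∞)
    (hw : ∀ a x, Measurable[coordSigmaAlgebra S0] fun ω => w a ω x)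
    {Z : Environment d → ℝ≥0∞} (hZ : Measurable[coordSigmaAlgebra S0] Z)
    (hsupp : ∀ ω, Z ω ≠ 0 → ∀ a x, w a ω x ≠ 0 → x ∈ Lv)
    (hsep : ∀ ω, Z ω ≠ 0 → ∀ a b, a ≠ b → ∀ x y, w a ω x ≠ 0 → w b ω y ≠ 0 →
      SepR R (box x) (box y)) :
    ∫⁻ ω, Z ω * ∏ a, U a (w a ω) ω ∂Q
      = ∫⁻ ω, Z ω * ∏ a, ∫⁻ ω', U a (w a ω) ω' ∂Q ∂Q := by
  classical
  have hne : (Set.univ : Set (Environment d)).Nonempty := by
    by_contra h
    rw [Set.not_nonempty_iff_eq_empty] at h
    have : Q (Set.univ) = 1 := measure_univ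
    rw [h, measure_empty] at this
    exact zero_ne_one this
  obtain ⟨ω₀, -⟩ := hne
  set f : Environment d → (ι → Site d → ℝ≥0∞) × ℝ≥0∞ := fun ω => (fun a => w a ω, Z ω) with hf
  have hfF : Measurable[coordSigmaAlgebra S0] f := by
    refine Measurable.prodMk ?_ hZ
    refine @measurable_pi_lambda _ _ _ (coordSigmaAlgebra S0) _ _ fun a => ?_
    exact @measurable_pi_lambda _ _ _ (coordSigmaAlgebra S0) _ _ fun x => hw a x
  set Φ : ((ι → Site d → ℝ≥0∞) × ℝ≥0∞) × Environment d → ℝ≥0∞ :=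
    fun p => p.1.2 * ∏ a, U a (p.1.1 a) p.2 with hΦ
  have hΦm : Measurable Φ := by
    refine (measurable_snd.comp measurable_fst).mul ?_
    refine Finset.measurable_prod _ fun a _ => ?_
    have h1 : Measurable fun p : ((ι → Site d → ℝ≥0∞) × ℝ≥0∞) × Environment d => p.1.1 a :=
      (measurable_pi_apply a).comp (measurable_fst.comp measurable_fst)
    exact (hU a).comp (h1.prodMk measurable_snd)
  have key : ∀ ω, Z ω ≠ 0 → ∀ a ω', U a (w a ω) (rst T ω₀ ω') = U a (w a ω) ω' := by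
    intro ω hω a ω'
    refine hloc a (w a ω) (hsupp ω hω a) _ _ fun z hz => ?_
    obtain ⟨x, hx, hzx⟩ := mem_iUnion₂.1 hz
    exact rst_of_mem ω₀ ω' (hbox x (hsupp ω hω a x hx) hzx)
  have h1 := freeze (P := Q) (coord_le S0) (coord_le T) (indep_sep hR hST) hfF
    (measurable_rst T ω₀) hΦm
  have e1 : ∀ ω ω', Φ (f ω, rst T ω₀ ω') = Z ω * ∏ a, U a (w a ω) ω' := by
    intro ω ω'
    by_cases hω : Z ω = 0
    · simp [hΦ, hf, hω]
    · simp only [hΦ, hf]
      congr 1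
      exact Finset.prod_congr rfl fun a _ => key ω hω a ω'
  simp only [e1] at h1
  rw [h1]
  refine lintegral_congr fun ω => ?_
  by_cases hω : Z ω = 0
  · simp [hω]
  have hUm : ∀ a, Measurable fun ω' => U a (w a ω) ω' := fun a =>
    (hU a).comp (measurable_const.prodMk measurable_id)
  rw [lintegral_const_mul _ (Finset.measurable_prod _ fun a _ => hUm a)]
  congr 1
  refine prod_sep hR Finset.univ (fun a => ⋃ x ∈ {x | w a ω x ≠ 0}, box x) ?_
    (fun a ω' => U a (w a ω) ω') (fun a _ => hUm a) (fun a _ => hloc a _ (hsupp ω hω a))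
  intro a _ b _ hab z hz z' hz'
  obtain ⟨x, hx, hzx⟩ := mem_iUnion₂.1 hz
  obtain ⟨y, hy, hzy⟩ := mem_iUnion₂.1 hz'
  exact hsep ω hω a b hab x y hx hy z hzx z' hzy


/-! ### Jensen -/

theorem jensen {S : Type*} [Countable S] (v e : S → ℝ≥0∞) (hv : ∑' x, v x = 1)
    (he : ∀ x, e x ≠ ∞) {θ : ℝ} (hθ : 0 ≤ θ) :
    (∑' x, v x * e x) ^ (-θ) ≤ ∑' x, v x * e x ^ (-θ) := by
  classical
  rcases hθ.eq_or_lt with h0 | h0
  · subst h0; simp [hv]
  by_cases hz : ∃ x, v x ≠ 0 ∧ e x = 0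
  · obtain ⟨x, hx, hex⟩ := hz
    have : v x * e x ^ (-θ) = ∞ := by
      rw [hex, ENNReal.zero_rpow_of_neg (by linarith), ENNReal.mul_top hx]
    refine le_trans le_top (le_trans this.ge (ENNReal.le_tsum x))
  push Not at hz
  let _ : MeasurableSpace S := ⊤
  set μ : Measure S := Measure.sum fun x => v x • Measure.dirac x with hμ
  have hint : ∀ g : S → ℝ≥0∞, ∫⁻ x, g x ∂μ = ∑' x, v x * g x := by
    intro g
    rw [hμ, lintegral_sum_measure]
    refine tsum_congr fun x => ?_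
    rw [lintegral_smul_measure, lintegral_dirac' _ measurable_from_top, smul_eq_mul]
  have hpq : ((1 + θ) / θ).HolderConjugate (1 + θ) := by
    rw [Real.holderConjugate_iff]
    constructor
    · rw [lt_div_iff₀ h0]; linarith
    · field_simp
      ring
  have hH := ENNReal.lintegral_mul_le_Lp_mul_Lq μ hpq
    (f := fun x => e x ^ (θ / (1 + θ))) (g := fun x => e x ^ (-(θ / (1 + θ))))
    measurable_from_top.aemeasurable measurable_from_top.aemeasurable
  have hθ1 : 0 < θ / (1 + θ) := by positivity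
  rw [hint] at hH
  have e1 : ∑' x, v x * ((fun x => e x ^ (θ / (1 + θ))) * fun x => e x ^ (-(θ / (1 + θ)))) x
      = 1 := by
    rw [← hv]
    refine tsum_congr fun x => ?_
    by_cases hx : v x = 0
    · simp [hx]
    · have h1 : e x ≠ 0 := hz x hx
      simp only [Pi.mul_apply]
      rw [← ENNReal.rpow_add _ _ h1 (he x)]
      simp
  rw [e1, hint, hint] at hH
  have e2 : ∑' x, v x * (e x ^ (θ / (1 + θ))) ^ ((1 + θ) / θ) = ∑' x, v x * e x := by
    refine tsum_congr fun x => ?_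
    rw [← ENNReal.rpow_mul]
    have : θ / (1 + θ) * ((1 + θ) / θ) = 1 := by field_simp
    rw [this, ENNReal.rpow_one]
  have e3 : ∑' x, v x * (e x ^ (-(θ / (1 + θ)))) ^ (1 + θ) = ∑' x, v x * e x ^ (-θ) := by
    refine tsum_congr fun x => ?_
    rw [← ENNReal.rpow_mul]
    have : -(θ / (1 + θ)) * (1 + θ) = -θ := by field_simp
    rw [this]
  rw [e2, e3] at hH
  set A := ∑' x, v x * e x with hA
  set B := ∑' x, v x * e x ^ (-θ) with hB
  have h5 : 1 ≤ A ^ θ * B := by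
    have h6 : (1 : ℝ≥0∞) ^ (1 + θ) ≤ (A ^ (1 / ((1 + θ) / θ)) * B ^ (1 / (1 + θ))) ^ (1 + θ) :=
      ENNReal.rpow_le_rpow hH (by linarith)
    rw [ENNReal.one_rpow, ENNReal.mul_rpow_of_nonneg _ _ (by linarith : (0:ℝ) ≤ 1 + θ),
      ← ENNReal.rpow_mul, ← ENNReal.rpow_mul] at h6
    have h7 : 1 / ((1 + θ) / θ) * (1 + θ) = θ := by field_simp
    have h8 : 1 / (1 + θ) * (1 + θ) = 1 := by field_simp
    rwa [h7, h8, ENNReal.rpow_one] at h6
  have hA0 : A ≠ 0 := by
    intro h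
    rw [h, ENNReal.zero_rpow_of_pos h0, zero_mul] at h5
    exact absurd h5 (by simp)
  by_cases hAt : A = ∞
  · rw [hAt, ENNReal.top_rpow_of_neg (by linarith)]; exact zero_le
  rw [ENNReal.rpow_neg]
  have hAθ0 : A ^ θ ≠ 0 := (ENNReal.rpow_pos (pos_iff_ne_zero.2 hA0) hAt).ne'
  have hAθt : A ^ θ ≠ ∞ := ENNReal.rpow_ne_top_of_nonneg hθ hAt
  rw [ENNReal.inv_le_iff_le_mul (fun _ => hAθ0) (fun h => absurd h hAθt)]
  exact h5

/-! ### the confined kernel about the start -/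

/-- sup-ball -/
def bl (D : ℕ) (x : Site d) : Set (Site d) := {z | ∀ i, |z i - x i| ≤ (D : ℤ)}


/-- rows read by the confined climb -/
def rd (u : Step d) (R D : ℕ) (b : ℤ) (x : Site d) : Set (Site d) :=
  {z | z ∈ bl D x ∧ lev u x + R ≤ lev u z ∧ lev u z < b}

section ker

variable (u : Step d) (R : ℕ) (κ : ℝ) (D : ℕ)

/-- confined kernel: natural climb from `x` to level `b`, inside the ball of radius `D` about `x` -/
noncomputable def gcb (b : ℤ) (ω : Environment d) (x y : Site d) : ℝ≥0∞ :=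
  gc u R κ (bl D x) b ω x y

/-- confined mass -/
noncomputable def Nc (b : ℤ) (ω : Environment d) (x : Site d) : ℝ≥0∞ :=
  ∑' y, gcb u R κ D b ω x y

/-- confined push of a law -/
noncomputable def pc (b : ℤ) (v : Site d → ℝ≥0∞) (ω : Environment d) (y : Site d) : ℝ≥0∞ :=
  ∑' x, v x * gcb u R κ D b ω x y

lemma measurable_gcb (b : ℤ) (x y : Site d) : Measurable fun ω => gcb u R κ D b ω x y :=
  measurable_gc u R κ (bl D x) b x y

lemma measurable_Nc (b : ℤ) (x : Site d) : Measurable fun ω => Nc u R κ D b ω x :=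
  Measurable.ennreal_tsum fun y => measurable_gcb u R κ D b x y

lemma gcb_le_gk (b : ℤ) (ω : Environment d) (x y : Site d) :
    gcb u R κ D b ω x y ≤ gk u R κ b ω x y := gc_le_gk u R κ (bl D x) b ω x y

lemma Nc_le_tsum_gk (b : ℤ) (ω : Environment d) (x : Site d) :
    Nc u R κ D b ω x ≤ ∑' y, gk u R κ b ω x y :=
  ENNReal.tsum_le_tsum fun y => gcb_le_gk u R κ D b ω x y

lemma Nc_le (b : ℤ) (ω : Environment d) (x : Site d) :
    Nc u R κ D b ω x ≤ mkLaw κ ω x (ClA u R x b) := by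
  rw [← tsum_gk]; exact Nc_le_tsum_gk u R κ D b ω x

lemma Nc_le_one (b : ℤ) (ω : Environment d) (x : Site d) : Nc u R κ D b ω x ≤ 1 :=
  (Nc_le u R κ D b ω x).trans prob_le_one


lemma locOn_gcb (b : ℤ) (x y : Site d) :
    LocOn (rd u R D b x) fun ω => gcb u R κ D b ω x y := locOn_gc u R κ (bl D x) b x y


lemma locOn_pc (b : ℤ) (v : Site d → ℝ≥0∞) :
    LocOn (⋃ x ∈ {x | v x ≠ 0}, rd u R D b x) fun ω => pc u R κ D b v ω := by
  intro ω ω' h
  funext y
  refine tsum_congr fun x => ?_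
  by_cases hx : v x = 0
  · simp [hx]
  · have := locOn_gcb u R κ D b x y ω ω' fun z hz => h z (mem_iUnion₂.2 ⟨x, hx, hz⟩)
    simp only at this
    rw [this]

lemma tot_pc (b : ℤ) (v : Site d → ℝ≥0∞) (ω : Environment d) :
    ∑' y, pc u R κ D b v ω y = ∑' x, v x * Nc u R κ D b ω x := by
  unfold pc Nc
  rw [ENNReal.tsum_comm]
  exact tsum_congr fun x => ENNReal.tsum_mul_left

lemma measurable_pc (b : ℤ) :
    Measurable fun p : (Site d → ℝ≥0∞) × Environment d => pc u R κ D b p.1 p.2 := by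
  refine measurable_pi_lambda _ fun y => ?_
  refine Measurable.ennreal_tsum fun x => ?_
  exact ((measurable_pi_apply x).comp measurable_fst).mul
    ((measurable_gcb u R κ D b x y).comp measurable_snd)

lemma sep_rd {b : ℤ} {x y : Site d} (h : ∃ i, (2 * D + R : ℤ) < |x i - y i|) :
    SepR R (rd u R D b x) (rd u R D b y) := by
  obtain ⟨i, hi⟩ := h
  intro z hz w hw
  refine ⟨i, ?_⟩
  have h1 := hz.1 i
  have h2 := hw.1 i
  rw [abs_le] at h1 h2
  rcases abs_cases (x i - y i) with ⟨h3, _⟩ | ⟨h3, _⟩ <;> rw [h3] at hi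
  · exact lt_of_lt_of_le (by omega) (le_abs_self _)
  · exact lt_of_lt_of_le (by omega) (neg_le_abs _)

lemma rd_subset {a b : ℤ} {x : Site d} (hx : lev u x = a) :
    rd u R D b x ⊆ {z | a + R ≤ lev u z} := by
  intro z hz
  have := hz.2.1
  rw [hx] at this
  exact this

end ker

/-- **(IND) for the confined kernel**: any functionals of the law and the confined push -/
theorem ind_push {Q : Measure (Environment d)} [IsProbabilityMeasure Q] {R : ℕ}
    (hR : IsFiniteRangeDependent Q R) (u : Step d) (κ : ℝ) (D : ℕ) (a : ℕ) (b : ℤ)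
    {ι : Type*} [Fintype ι] (φ : ι → (Site d → ℝ≥0∞) → (Site d → ℝ≥0∞) → ℝ≥0∞)
    (hφ : ∀ j, Measurable fun p : (Site d → ℝ≥0∞) × (Site d → ℝ≥0∞) => φ j p.1 p.2)
    (w : ι → Environment d → Site d → ℝ≥0∞)
    (hw : ∀ j x, Measurable[Fl u a] fun ω => w j ω x)
    {Z : Environment d → ℝ≥0∞} (hZ : Measurable[Fl u a] Z)
    (hsupp : ∀ ω, Z ω ≠ 0 → ∀ j x, w j ω x ≠ 0 → lev u x = a)
    (hsep : ∀ ω, Z ω ≠ 0 → ∀ i j, i ≠ j → ∀ x y, w i ω x ≠ 0 → w j ω y ≠ 0 →
      ∃ l, (2 * D + R : ℤ) < |x l - y l|) :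
    ∫⁻ ω, Z ω * ∏ j, φ j (w j ω) (pc u R κ D b (w j ω) ω) ∂Q
      = ∫⁻ ω, Z ω * ∏ j, ∫⁻ ω', φ j (w j ω) (pc u R κ D b (w j ω) ω') ∂Q ∂Q := by
  refine ind hR (sep_lev u R (a : ℤ)) {x | lev u x = (a : ℤ)} (rd u R D b)
    (fun x hx => rd_subset u R D hx) (fun j v ω => φ j v (pc u R κ D b v ω)) ?_ ?_ w hw hZ
    hsupp ?_
  · intro j
    exact (hφ j).comp (measurable_fst.prodMk (measurable_pc u R κ D b))
  · intro j v _ ω ω' h
    have := locOn_pc u R κ D b v ω ω' h
    simp only at this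
    simp only [this]
  · intro ω hω i j hij x y hx hy
    exact sep_rd u R D (hsep ω hω i j hij x y hx hy)

/-- **(P) = (M)**: the product moment of the confined masses -/
theorem hprod {Q : Measure (Environment d)} [IsProbabilityMeasure Q] {R : ℕ}
    (hR : IsFiniteRangeDependent Q R) (u : Step d) (κ : ℝ) (D : ℕ) (a : ℕ) (b : ℤ)
    {θ : ℝ} (hθ : 0 ≤ θ) {K : ℝ≥0∞}
    (hK : ∀ x : Site d, lev u x = a → ∫⁻ ω, Nc u R κ D b ω x ^ (-θ) ∂Q ≤ K)
    {ι : Type*} [Fintype ι] (w : ι → Environment d → Site d → ℝ≥0∞)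
    (hw : ∀ j x, Measurable[Fl u a] fun ω => w j ω x)
    {Z : Environment d → ℝ≥0∞} (hZ : Measurable[Fl u a] Z)
    (htot : ∀ ω, Z ω ≠ 0 → ∀ j, ∑' x, w j ω x = 1)
    (hsupp : ∀ ω, Z ω ≠ 0 → ∀ j x, w j ω x ≠ 0 → lev u x = a)
    (hsep : ∀ ω, Z ω ≠ 0 → ∀ i j, i ≠ j → ∀ x y, w i ω x ≠ 0 → w j ω y ≠ 0 →
      ∃ l, (2 * D + R : ℤ) < |x l - y l|) :
    ∫⁻ ω, Z ω * ∏ j, (∑' x, w j ω x * Nc u R κ D b ω x) ^ (-θ) ∂Q
      ≤ K ^ Fintype.card ι * ∫⁻ ω, Z ω ∂Q := by
  have h := ind_push hR u κ D a b (ι := ι) (fun _ _ q => (∑' y, q y) ^ (-θ)) ?_ w hw hZ hsupp hsep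
  · simp only [tot_pc] at h
    rw [h, ← lintegral_const_mul _ (hZ.mono ((Fl u).le a) le_rfl)]
    refine lintegral_mono fun ω => ?_
    by_cases hω : Z ω = 0
    · simp [hω]
    simp only
    rw [mul_comm (K ^ Fintype.card ι)]
    gcongr
    rw [← Finset.card_univ, ← Finset.prod_const]
    refine Finset.prod_le_prod' fun j _ => ?_
    calc ∫⁻ ω', (∑' x, w j ω x * Nc u R κ D b ω' x) ^ (-θ) ∂Q
        ≤ ∫⁻ ω', ∑' x, w j ω x * Nc u R κ D b ω' x ^ (-θ) ∂Q := by
          refine lintegral_mono fun ω' => ?_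
          exact jensen _ _ (htot ω hω j)
            (fun x => ((Nc_le_one u R κ D b ω' x).trans_lt ENNReal.one_lt_top).ne) hθ
      _ = ∑' x, w j ω x * ∫⁻ ω', Nc u R κ D b ω' x ^ (-θ) ∂Q := by
          rw [lintegral_tsum fun x =>
            (((measurable_Nc u R κ D b x).pow_const (-θ)).const_mul _).aemeasurable]
          exact tsum_congr fun x =>
            lintegral_const_mul _ ((measurable_Nc u R κ D b x).pow_const (-θ))
      _ ≤ ∑' x, w j ω x * K := by
          refine ENNReal.tsum_le_tsum fun x => ?_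
          by_cases hx : w j ω x = 0
          · simp [hx]
          · gcongr
            exact hK x (hsupp ω hω j x hx)
      _ = K := by rw [ENNReal.tsum_mul_right, htot ω hω j, one_mul]
  · intro _
    exact (Measurable.ennreal_tsum fun y => (measurable_pi_apply y).comp measurable_snd).pow_const _

end Crest.Agent.R154.Ind104
end

-- ▼ part R154/DatK_220
section

/-! Row 154, d ≥ 3, HM3b inputs on `kT` (263's HOME MASS route): confined kernel `gcL`, the slope of
the home coordinate is controlled by the home tail, product moment for separated laws. -/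

set_option autoImplicit false
set_option linter.unusedSectionVars false
set_option linter.deprecated false

namespace Crest.Agent.R154.DatK220

open MeasureTheory ProbabilityTheory Set Filter Crest.ProbabilityR.RandomEnvironment
open Crest.Agent.R154.Ren263 hiding lev
open Crest.Agent.R154.Mk561 Crest.Agent.R154.Q561 Crest.Agent.R154.RatioR872
open Crest.Agent.R154.RatioR872.KerSys
open Crest.Agent.R154.Cols220
open Crest.Agent.R154.Flux132 (lev lev_add lev_neg lev_zero)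
open scoped ENNReal

variable {d : ℕ}

section ker

variable (u : Step d) (R : ℕ) (κ : ℝ)

/-- straight up -/
lemma cy_sub (x : Site d) (n : ℕ) :
    Cy (fun _ => ((u, true) : Mark d)) n ⊆ ClY u R x (lev u x + n) n (x + n • stepVec u) := by
  intro M hM
  have hpos : ∀ k ≤ n, pos x M k = x + k • stepVec u := by
    intro k
    induction k with
    | zero => intro _; simp [pos_zero]
    | succ k ih =>
      intro hk
      rw [pos_succ, ih (by omega)]
      have e : M k = (u, true) := hM k (by omega)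
      rw [e, succ_nsmul, add_assoc]
      rfl
  have hlev : ∀ k ≤ n, lev u (pos x M k) = lev u x + k := by
    intro k
    induction k with
    | zero => intro _; simp [pos_zero]
    | succ k ih =>
      intro hk
      rw [pos_succ, lev_add, ih (by omega)]
      have e : M k = (u, true) := hM k (by omega)
      rw [e]
      have : lev u (stp ((u, true) : Mark d)) = 1 := Flux132.lev_step_self u
      rw [this]
      push_cast
      ring
  refine ⟨⟨hlev n le_rfl, fun i hi => ?_, fun i hi _ => hM i hi, fun i hR hi => ?_⟩,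
    hpos n le_rfl⟩
  · rw [hlev i hi.le]; omega
  · rw [hlev i hi]; omega

/-- **floor at a site** (forced letters read nothing) -/
lemma floor_pt (x : Site d) (n : ℕ) (ω : Environment d) :
    ENNReal.ofReal (kf d κ) ^ n ≤ gk u R κ (lev u x + n) ω x (x + n • stepVec u) := by
  calc ENNReal.ofReal (kf d κ) ^ n = mkLaw κ ω x (Cy (fun _ => ((u, true) : Mark d)) n) := by
        rw [mk_cyl, wgt]
        rw [Finset.prod_congr rfl fun i _ => mw_forced κ _ u]
        simp
    _ ≤ gk u R κ (lev u x + n) ω x (x + n • stepVec u) :=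
        measure_mono ((cy_sub u R x n).trans
          (subset_iUnion (fun m => ClY u R x (lev u x + n) m (x + n • stepVec u)) n))

variable (D0 s0 : ℕ)

/-- confined kernel of the early phase, level by level -/
noncomputable def gcL (L : ℕ) (ω : Environment d) (x y : Site d) : ℝ≥0∞ :=
  if lev u x = L then Ind104.gcb u R κ D0 ((L + s0 : ℕ) : ℤ) ω x y else 0

lemma gcL_meas (L : ℕ) (x y : Site d) :
    Measurable[Fl u (L + s0)] fun ω => gcL u R κ D0 s0 L ω x y := by
  unfold gcL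
  by_cases h : lev u x = L
  · simp only [h, if_true]
    refine measurable_coord (Ind104.measurable_gcb u R κ D0 _ x y) ?_
    exact (Ind104.locOn_gcb u R κ D0 _ x y).mono fun z hz => hz.2.2
  · simp only [h, if_false]
    exact @measurable_const _ _ _ (Fl u (L + s0)) _

lemma sum_gcL {L : ℕ} {x : Site d} (hx : lev u x = L) (ω : Environment d) :
    ∑' y, gcL u R κ D0 s0 L ω x y = Ind104.Nc u R κ D0 ((L + s0 : ℕ) : ℤ) ω x := by
  unfold gcL Ind104.Nc
  simp only [hx, if_true]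

lemma Nc_eq (b : ℤ) (ω : Environment d) (x : Site d) :
    Ind104.Nc u R κ D0 b ω x = Mom220.Nc u R κ D0 b ω x := rfl

lemma gcL_floor {L : ℕ} {x : Site d} (hx : lev u x = L) (hD : s0 ≤ D0) (ω : Environment d) :
    ENNReal.ofReal (kf d κ) ^ s0 ≤ ∑' y, gcL u R κ D0 s0 L ω x y := by
  rw [sum_gcL u R κ D0 s0 hx, Nc_eq]
  have e : ((L + s0 : ℕ) : ℤ) = lev u x + s0 := by rw [hx]; push_cast; rfl
  rw [e]
  exact (Cols220.floor u R D0 κ x s0 ω).trans (Mom220.nc_le_Nc u R D0 D0 κ x s0 le_rfl hD ω)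

lemma gcL_pos {L : ℕ} {x : Site d} (hx : lev u x = L) (hD : s0 ≤ D0) (hk : 0 < kf d κ)
    (ω : Environment d) : ∑' y, gcL u R κ D0 s0 L ω x y ≠ 0 := by
  intro h0
  have h1 := gcL_floor u R κ D0 s0 hx hD ω
  rw [h0] at h1
  have h2 : (0 : ℝ≥0∞) < ENNReal.ofReal (kf d κ) ^ s0 :=
    pos_iff_ne_zero.2 (pow_ne_zero s0 (by rw [Ne, ENNReal.ofReal_eq_zero, not_le]; exact hk))
  exact absurd h1 (not_le.2 h2)

lemma abs_stepVec_le (e : Step d) (i : Fin d) : |stepVec e i| ≤ 1 := by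
  rcases e with ⟨v, b⟩
  simp only [stepVec]
  by_cases h : i = v
  · subst h
    rw [Pi.single_eq_same]
    split_ifs <;> simp
  · rw [Pi.single_eq_of_ne h]
    simp

/-- exit sites of the confined kernel -/
lemma gcL_supp {L : ℕ} {ω : Environment d} {x y : Site d} (h : gcL u R κ D0 s0 L ω x y ≠ 0) :
    lev u x = L ∧ lev u y = L + s0 ∧ ∀ i, |y i - x i| ≤ D0 + 1 := by
  unfold gcL at h
  by_cases hx : lev u x = L
  · rw [if_pos hx] at h
    have hne : (Tile872.Cf u R (Ind104.bl D0 x) x ((L + s0 : ℕ) : ℤ) y).Nonempty := by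
      by_contra hne
      rw [not_nonempty_iff_eq_empty] at hne
      exact h (by unfold Ind104.gcb Tile872.gc; rw [hne, measure_empty])
    obtain ⟨M, hM⟩ := hne
    obtain ⟨m, hm⟩ := mem_iUnion.1 hM
    obtain ⟨⟨h1, h2⟩, h3⟩ := hm
    refine ⟨hx, ?_, fun i => ?_⟩
    · rw [← h3, h1.1]; push_cast; rfl
    · rcases Nat.eq_zero_or_pos m with h0 | h0
      · subst h0
        rw [← h3, pos_zero, sub_self, abs_zero]
        positivity
      · obtain ⟨k, rfl⟩ : ∃ k, m = k + 1 := ⟨m - 1, by omega⟩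
        have h4 : |pos x M k i - x i| ≤ (D0 : ℤ) := h2 k (by omega) i
        have h5 : |stp (M k) i| ≤ 1 := abs_stepVec_le _ i
        rw [← h3, pos_succ, Pi.add_apply]
        rw [abs_le] at *
        constructor <;> omega
  · rw [if_neg hx] at h
    exact absurd rfl h

variable {Q : Measure (Environment d)} [IsProbabilityMeasure Q]

lemma gcL_le (F : Bind263.Frame Q κ R) (L : ℕ) (ω : Environment d) (x y : Site d) :
    gcL u R κ D0 s0 L ω x y ≤ (D2Asm244.kT u R κ Q F.stat F.fin).G L (L + s0) ω x y := by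
  change gcL u R κ D0 s0 L ω x y
    ≤ if lev u x = L then gk u R κ ((L + s0 : ℕ) : ℤ) ω x y else 0
  unfold gcL
  split_ifs
  · exact Ind104.gcb_le_gk u R κ D0 _ ω x y
  · exact le_rfl

/-- lateral coordinate and level -/
noncomputable def lat (i : Fin d) (x : Site d) : ℝ := (x i : ℝ)

noncomputable def lv (u : Step d) (x : Site d) : ℝ := (lev u x : ℝ)

/-- **the slope of the home coordinate** -/
theorem slope (F : Bind263.Frame Q κ R) (hk : 0 < kf d κ) {i : Fin d} (hi : i ≠ u.1) {α : ℝ} {N : ℕ}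
    {D : ℝ} {ν : ℝ≥0∞}
    (hT : Doc74.TailH (D2Asm244.kT u R κ Q F.stat F.fin) (Doc74.ph (lat i) (lv u) α) N D ν)
    {n : ℕ} (hn : n ≤ N) (hν : ν < ENNReal.ofReal (kf d κ) ^ n) : |α| * n ≤ D := by
  classical
  by_contra hcon
  rw [not_le] at hcon
  set A := D2Asm244.kT u R κ Q F.stat F.fin with hA
  obtain ⟨Bd, _, h2, h3⟩ := hT 0 n (Nat.zero_le n) (by omega)
  have hx0 : (0 : Site d) ∈ A.L 0 := by
    change lev u (0 : Site d) = ((0 : ℕ) : ℤ)
    simp [Flux132.lev_zero]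
  set y : Site d := 0 + n • stepVec u with hy
  have hly : lev u y = n := by
    have h := (Cl_lev u R (x := (0 : Site d)) (b := (n : ℤ)) (y := y))
    by_contra hne
    have h5 := cy_sub u R (0 : Site d) n
    have h6 : (Cy (fun _ => ((u, true) : Mark d)) n).Nonempty := ⟨fun _ => (u, true), fun i _ => rfl⟩
    obtain ⟨M, hM⟩ := h6
    have h7 := h5 hM
    have h8 : pos 0 M n = y := h7.2
    have h9 := h7.1.1
    rw [h8, Flux132.lev_zero] at h9
    exact hne (by rw [h9]; simp)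
  have hyi : y i = 0 := by
    rw [hy]
    have : stepVec u i = 0 := by
      rcases u with ⟨v, b⟩
      simp only [stepVec]
      exact Pi.single_eq_of_ne hi _
    simp [this]
  have hnH : ¬ Doc74.Hm (Doc74.ph (lat i) (lv u) α) D (0 : Site d) y := by
    unfold Doc74.Hm Doc74.ph lat lv
    rw [hly, hyi, Flux132.lev_zero]
    simp only [Pi.zero_apply, Int.cast_zero, Int.cast_natCast, mul_zero, sub_zero, zero_sub,
      abs_neg, abs_mul, Nat.abs_cast, not_le]
    exact hcon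
  have h4 : ∀ᵐ ω ∂Q, ENNReal.ofReal (kf d κ) ^ n ≤ Bd 0 ω := by
    filter_upwards [h3 n (Nat.zero_le n) le_rfl] with ω hω
    refine le_trans ?_ (hω 0 hx0)
    refine le_trans ?_ (ENNReal.le_tsum y)
    rw [if_neg hnH]
    have e1 : ENNReal.ofReal (kf d κ) ^ n ≤ A.G 0 n ω 0 y := by
      change _ ≤ if lev u (0 : Site d) = ((0 : ℕ) : ℤ) then gk u R κ (n : ℤ) ω 0 y else 0
      rw [if_pos (by simp [Flux132.lev_zero])]
      have := floor_pt u R κ (0 : Site d) n ω
      rw [Flux132.lev_zero, zero_add] at this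
      exact this
    have e2 : (1 : ℝ≥0∞) ≤ A.N n n ω y := by
      have h5 := floor_pt u R κ y 0 ω
      rw [pow_zero] at h5
      refine h5.trans ?_
      have e3 : (lev u y + ((0 : ℕ) : ℤ)) = (n : ℤ) := by rw [hly]; simp
      rw [e3, zero_smul, add_zero]
      have e4 : gk u R κ (n : ℤ) ω y y = A.G n n ω y y := by
        change _ = if lev u y = ((n : ℕ) : ℤ) then gk u R κ (n : ℤ) ω y y else 0
        rw [if_pos hly]
      rw [e4]
      exact ENNReal.le_tsum y
    calc ENNReal.ofReal (kf d κ) ^ n = ENNReal.ofReal (kf d κ) ^ n * 1 := (mul_one _).symm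
      _ ≤ A.G 0 n ω 0 y * A.N n n ω y := mul_le_mul' e1 e2
  have h5 : ENNReal.ofReal (kf d κ) ^ n ≤ ν := by
    calc ENNReal.ofReal (kf d κ) ^ n = ∫⁻ _, ENNReal.ofReal (kf d κ) ^ n ∂Q := by simp
      _ ≤ ∫⁻ ω, Bd 0 ω ∂Q := lintegral_mono_ae h4
      _ ≤ ν := h2 0 hx0
  exact absurd hν (not_lt.2 h5)


/-- the up-step stays at home -/
theorem up_Hm (F : Bind263.Frame Q κ R) (hk : 0 < kf d κ) {i : Fin d} (hi : i ≠ u.1) {α : ℝ}
    {N : ℕ} {D : ℝ} {ν : ℝ≥0∞}
    (hT : Doc74.TailH (D2Asm244.kT u R κ Q F.stat F.fin) (Doc74.ph (lat i) (lv u) α) N D ν)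
    (hn : 1 ≤ N) (hν : ν < ENNReal.ofReal (kf d κ)) (x : Site d) :
    Doc74.Hm (Doc74.ph (lat i) (lv u) α) D x (x + stepVec u) := by
  have h4 := slope u R κ F hk hi hT hn (by rwa [pow_one])
  unfold Doc74.Hm Doc74.ph lat lv
  have h5 : stepVec u i = 0 := by
    rcases u with ⟨v, b⟩
    simp only [stepVec]
    exact Pi.single_eq_of_ne hi _
  have h6 : lev u (stepVec u) = 1 := Flux132.lev_step_self u
  rw [lev_add, h6, Pi.add_apply, h5]
  push_cast
  have e : (x i : ℝ) + 0 - α * ((lev u x : ℝ) + 1) - ((x i : ℝ) - α * lev u x) = -α := by ring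
  rw [e, abs_neg]
  simpa using h4

end ker

section prod

variable (u : Step d) (R : ℕ) (κ : ℝ) {Q : Measure (Environment d)} [IsProbabilityMeasure Q]

/-- **the product moment of the early phase**, separated laws -/
theorem prod_kT (F : Bind263.Frame Q κ R)
    (hA : annealedProb Q 0 (escapeEvent (B2d.dirVec u)) ≠ 0) (hk : 0 < kf d κ) :
    ∃ θ : ℝ, 0 < θ ∧ ∃ K : ℝ≥0∞, K ≠ ∞ ∧ ∀ s0 : ℕ, ∃ D1 : ℕ, ∀ D0, D1 ≤ D0 →
      ∀ (ι : Type) [Fintype ι] (i : Fin d) (α : ℝ) (L : ℕ)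
        (w : ι → Environment d → Site d → ℝ≥0∞) (B : Set (Environment d)),
        MeasurableSet[Fl u L] B →
        (∀ a, (D2Asm244.kT u R κ Q F.stat F.fin).Wt L (w a)) →
        (∀ ω ∈ B, ∀ a, tot (w a) ω = 1) →
        (∀ ω ∈ B, ∀ a b, a ≠ b → ∀ x y, w a ω x ≠ 0 → w b ω y ≠ 0 →
          ((2 * D0 + R + 1 : ℕ) : ℝ) ≤ |Doc74.ph (lat i) (lv u) α x - Doc74.ph (lat i) (lv u) α y|) →
        ∀ Z : Environment d → ℝ≥0∞, Measurable[Fl u L] Z →
          ∫⁻ ω in B, Z ω * ∏ a, (∑' x, w a ω x * ∑' y, gcL u R κ D0 s0 L ω x y) ^ (-(2 * θ)) ∂Q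
            ≤ K ^ Fintype.card ι * ∫⁻ ω in B, Z ω ∂Q := by
  obtain ⟨lam0, C, hl, hC, hr⟩ := RateT582.rate_pt F u hA hk
  obtain ⟨θ, hθ, K, hK, hm⟩ := Mom220.moment u R κ Q F.stat hk hl hC hr
  refine ⟨θ, hθ, K, hK, fun s0 => ?_⟩
  obtain ⟨D1, hD1⟩ := hm s0
  refine ⟨D1, fun D0 hD0 ι _ i α L w B hB hw htot hsep Z hZ => ?_⟩
  classical
  have hBm : MeasurableSet B := (Fl u).le L B hB
  have hZB : Measurable[Fl u L] (B.indicator Z) := hZ.indicator hB
  have hsupp : ∀ ω a x, w a ω x ≠ 0 → lev u x = L := by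
    intro ω a x h
    by_contra hne
    exact h ((hw a).supp ω x hne)
  have hmem : ∀ ω, B.indicator Z ω ≠ 0 → ω ∈ B := fun ω h => mem_of_indicator_ne_zero h
  have key := Ind104.hprod (Q := Q) F.fin u κ D0 L ((L + s0 : ℕ) : ℤ) (θ := 2 * θ) (by linarith)
    (K := K) (fun x hx => by
      have h := hD1 D0 hD0 (L : ℤ) x hx
      push_cast
      exact h)
    w (fun j x => (hw j).meas x) hZB
    (fun ω hω j => htot ω (hmem ω hω) j)
    (fun ω _ j x hx => hsupp ω j x hx)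
    (fun ω hω a b hab x y hx hy => by
      have h := hsep ω (hmem ω hω) a b hab x y hx hy
      refine ⟨i, ?_⟩
      unfold Doc74.ph lat lv at h
      rw [hsupp ω a x hx, hsupp ω b y hy] at h
      have e : (x i : ℝ) - α * (((L : ℤ) : ℝ)) - ((y i : ℝ) - α * (((L : ℤ) : ℝ)))
          = ((x i - y i : ℤ) : ℝ) := by push_cast; ring
      rw [e] at h
      have h2 : ((2 * D0 + R + 1 : ℕ) : ℤ) ≤ |x i - y i| := by
        have h3 : (((2 * D0 + R + 1 : ℕ) : ℤ) : ℝ) ≤ ((|x i - y i| : ℤ) : ℝ) := by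
          rw [Int.cast_abs]
          exact_mod_cast h
        exact_mod_cast h3
      push_cast at h2
      omega)
  rw [← lintegral_indicator hBm, ← lintegral_indicator hBm]
  refine le_trans (le_of_eq ?_) key
  refine lintegral_congr fun ω => ?_
  by_cases hω : ω ∈ B
  · rw [indicator_of_mem hω, indicator_of_mem hω]
    congr 1
    refine Finset.prod_congr rfl fun a _ => ?_
    congr 1
    refine tsum_congr fun x => ?_
    by_cases hx : w a ω x = 0
    · rw [hx, zero_mul, zero_mul]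
    · rw [sum_gcL u R κ D0 s0 (hsupp ω a x hx)]
  · rw [indicator_of_notMem hω, indicator_of_notMem hω, zero_mul]

end prod

end Crest.Agent.R154.DatK220
end

-- ▼ part R154/UnitsL_12
section

/-!
# Row 154 (helper12), HOME MASS (263), leaf HM3a: the iteration over epochs, LOCATED form

`R s x y` = "the exit `y` is reachable from the start `x` with `s` epochs" (e.g.
`|φ y - φ x| ≤ s * D`). One epoch (`EpL.step`) exists for every horizon `1 ≤ N' ≤ N`: it ends early
(`t < N'`, total weight `η`) or at the horizon (`t = N'`, weight `Ks`). Conclusion (`unitsL`) for the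
located masses `tot (rpush A (R s) L (L + n) (w a))`.
-/

set_option autoImplicit false
set_option linter.unusedSectionVars false
set_option linter.deprecated false
set_option linter.unusedVariables false

namespace Crest.Agent.R154.Units12

open MeasureTheory ProbabilityTheory Set Filter
open Crest.Agent.R154.RatioR872 Crest.Agent.R154.RatioR872.KerSys
open Crest.Agent.R154.Home903 (rpush tot_rpush tot_rpush_le)
open scoped ENNReal

variable {S : Type*} [Countable S] {Ω : Type*} {m0 : MeasurableSpace Ω} {P : Measure Ω}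
variable {ι : Type*} [Fintype ι]

/-- one epoch of the units, located masses, every horizon `1 ≤ N' ≤ N` -/
structure EpL (A : KerSys S P) (St : ℕ → ℕ → Set Ω → (ι → Ω → S → ℝ≥0∞) → Prop)
    (R : ℕ → S → S → Prop) (N : ℕ) (θ : ℝ) (η Ks : ℝ≥0∞) : Prop where
  meas : ∀ L s B w, St L s B w → MeasurableSet[A.F L] B ∧ (∀ a, A.Wt L (w a)) ∧
    ∀ ω ∈ B, ∀ a, tot (w a) ω = 1
  step : ∀ L s B w N', 1 ≤ N' → N' ≤ N → St L (s + 1) B w →
    ∃ (E : ℕ → Set Ω) (w' : ℕ → ι → Ω → S → ℝ≥0∞) (m : ℕ → ι → Ω → ℝ≥0∞),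
      (∀ t, 1 ≤ t → t ≤ N' → ∀ a, Measurable[A.F (L + t)] (m t a)) ∧
      (∀ t, 1 ≤ t → t ≤ N' → St (L + t) s (B ∩ E t) (w' t)) ∧
      (∀ t, 1 ≤ t → t ≤ N' → ∀ a ω, ω ∈ B ∩ E t → m t a ω ≠ 0) ∧
      (∀ᵐ ω ∂P, ω ∈ B → ∃ t ∈ Finset.Icc 1 N', ω ∈ E t) ∧
      (∀ t, 1 ≤ t → t ≤ N' → ∀ a, ∀ᵐ ω ∂P, ω ∈ B ∩ E t →
        ∀ y, m t a ω * w' t a ω y ≤ rpush A (R 1) L (L + t) (w a) ω y) ∧
      (∀ Z : Ω → ℝ≥0∞, Measurable[A.F L] Z →
        ∑ t ∈ Finset.Ico 1 N', ∫⁻ ω in B ∩ E t, Z ω * (∏ a, m t a ω) ^ (-θ) ∂P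
          ≤ η * ∫⁻ ω in B, Z ω ∂P) ∧
      (∀ Z : Ω → ℝ≥0∞, Measurable[A.F L] Z →
        ∫⁻ ω in B ∩ E N', Z ω * (∏ a, m N' a ω) ^ (-θ) ∂P ≤ Ks * ∫⁻ ω in B, Z ω ∂P) ∧
      ∑ t ∈ Finset.Ico 1 N', P (B ∩ E t) ≤ η * P B

/-- located mass of a unit after `n` levels (`1` for `n = 0`) -/
noncomputable def ML (A : KerSys S P) (D : S → S → Prop) (L n : ℕ) (w : Ω → S → ℝ≥0∞) (ω : Ω) :
    ℝ≥0∞ :=
  if n = 0 then 1 else tot (rpush A D L (L + n) w) ω

variable {A : KerSys S P}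

/-- **composition of restricted pushes** -/
theorem rpush_comp {a b c : ℕ} (hab : a ≤ b) (hbc : b ≤ c) {D1 D2 D : S → S → Prop}
    (hD : ∀ x y z, D1 x y → D2 y z → D x z) {w w' : Ω → S → ℝ≥0∞} {m : Ω → ℝ≥0∞} :
    ∀ᵐ ω ∂P, (∀ y, m ω * w' ω y ≤ rpush A D1 a b w ω y) →
      ∀ z, m ω * rpush A D2 b c w' ω z ≤ rpush A D a c w ω z := by
  classical
  filter_upwards [A.comp a b c hab hbc] with ω hcomp h3 z
  calc m ω * rpush A D2 b c w' ω z
      = ∑' y, (m ω * w' ω y) * (if D2 y z then A.G b c ω y z else 0) := by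
        unfold Home903.rpush
        rw [← ENNReal.tsum_mul_left]
        exact tsum_congr fun y => by ring
    _ ≤ ∑' y, rpush A D1 a b w ω y * (if D2 y z then A.G b c ω y z else 0) :=
        ENNReal.tsum_le_tsum fun y => mul_le_mul_left (h3 y) _
    _ = ∑' y, ∑' x, w ω x * ((if D1 x y then A.G a b ω x y else 0) *
          (if D2 y z then A.G b c ω y z else 0)) := by
        refine tsum_congr fun y => ?_
        unfold Home903.rpush
        rw [← ENNReal.tsum_mul_right]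
        exact tsum_congr fun x => by ring
    _ = ∑' x, w ω x * ∑' y, ((if D1 x y then A.G a b ω x y else 0) *
          (if D2 y z then A.G b c ω y z else 0)) := by
        rw [ENNReal.tsum_comm]
        exact tsum_congr fun x => ENNReal.tsum_mul_left
    _ ≤ ∑' x, w ω x * (if D x z then A.G a c ω x z else 0) := by
        refine ENNReal.tsum_le_tsum fun x => mul_le_mul_right ?_ _
        by_cases hxz : D x z
        · rw [if_pos hxz]
          refine le_trans (ENNReal.tsum_le_tsum fun y => ?_) (hcomp x z)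
          by_cases h1 : D1 x y
          · by_cases h2 : D2 y z
            · rw [if_pos h1, if_pos h2]
            · rw [if_neg h2, mul_zero]; exact bot_le
          · rw [if_neg h1, zero_mul]; exact bot_le
        · rw [if_neg hxz, nonpos_iff_eq_zero, ENNReal.tsum_eq_zero]
          intro y
          by_cases h1 : D1 x y
          · have h2 : ¬ D2 y z := fun h2 => hxz (hD x y z h1 h2)
            rw [if_neg h2, mul_zero]
          · rw [if_neg h1, zero_mul]
    _ = rpush A D a c w ω z := rfl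

lemma tot_le_one_of_push {a b : ℕ} (hab : a ≤ b) {D : S → S → Prop} {w w' : Ω → S → ℝ≥0∞}
    {m : Ω → ℝ≥0∞} {ω : Ω} (h1 : tot w ω = 1) (h2 : tot w' ω = 1)
    (h3 : ∀ y, m ω * w' ω y ≤ rpush A D a b w ω y) :
    m ω ≤ tot (rpush A D a b w) ω ∧ m ω ≤ 1 := by
  have hm : m ω ≤ tot (rpush A D a b w) ω := by
    calc m ω = m ω * tot w' ω := by rw [h2, mul_one]
      _ = ∑' y, m ω * w' ω y := by rw [tot, ENNReal.tsum_mul_left]
      _ ≤ ∑' y, rpush A D a b w ω y := ENNReal.tsum_le_tsum h3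
      _ = tot (rpush A D a b w) ω := rfl
  exact ⟨hm, (hm.trans (tot_rpush_le D a b w ω)).trans ((tot_push_le A hab w ω).trans h1.le)⟩

/-- monotonicity in the relation -/
lemma tot_rpush_mono {D D' : S → S → Prop} (h : ∀ x y, D x y → D' x y) (a b : ℕ)
    (w : Ω → S → ℝ≥0∞) (ω : Ω) : tot (rpush A D a b w) ω ≤ tot (rpush A D' a b w) ω := by
  classical
  rw [tot_rpush, tot_rpush]
  refine ENNReal.tsum_le_tsum fun x => mul_le_mul_right (ENNReal.tsum_le_tsum fun y => ?_) _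
  by_cases h1 : D x y
  · rw [if_pos h1, if_pos (h x y h1)]
  · rw [if_neg h1]; exact bot_le

/-- restart at level `L + t`, `t ≤ n` -/
lemma ML_ge {L t n : ℕ} (ht : 1 ≤ t) (htn : t ≤ n) {D1 D2 D : S → S → Prop}
    (hD : ∀ x y z, D1 x y → D2 y z → D x z) (hD1 : ∀ x y, D1 x y → D x y)
    {w w' : Ω → S → ℝ≥0∞} {m : Ω → ℝ≥0∞} :
    ∀ᵐ ω ∂P, tot w ω = 1 → tot w' ω = 1 →
      (∀ y, m ω * w' ω y ≤ rpush A D1 L (L + t) w ω y) →
      m ω * ML A D2 (L + t) (n - t) w' ω ≤ ML A D L n w ω ∧ m ω ≤ 1 := by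
  have e1 : L + t + (n - t) = L + n := by omega
  filter_upwards [rpush_comp (A := A) (Nat.le_add_right L t) (show L + t ≤ L + n by omega) hD
    (w := w) (w' := w') (m := m)] with ω hcomp h1 h2 h3
  obtain ⟨hm, hm1⟩ := tot_le_one_of_push (Nat.le_add_right L t) h1 h2 h3
  refine ⟨?_, hm1⟩
  have hn : n ≠ 0 := by omega
  by_cases hnt : n - t = 0
  · have : n = t := by omega
    subst this
    simp only [ML, hnt, if_true, mul_one, if_neg hn]
    exact hm.trans (tot_rpush_mono hD1 _ _ _ _)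
  · simp only [ML, if_neg hnt, if_neg hn, e1]
    unfold tot
    rw [← ENNReal.tsum_mul_left]
    exact ENNReal.tsum_le_tsum fun z => hcomp h3 z

/-- **HM3a: the iteration, located form** -/
theorem unitsL {St : ℕ → ℕ → Set Ω → (ι → Ω → S → ℝ≥0∞) → Prop} {R : ℕ → S → S → Prop} {N : ℕ}
    {θ : ℝ} {η Ks : ℝ≥0∞} (h : EpL A St R N θ η Ks) (hθ : 0 < θ) (hη0 : η ≠ 0) (hη : η ≤ 1 / 2)
    (hN : 1 ≤ N) (hKs : 1 ≤ Ks) (hR : ∀ s x y z, R 1 x y → R s y z → R (s + 1) x z)
    (hR1 : ∀ s x y, R 1 x y → R (s + 1) x y) :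
    ∀ s r L n : ℕ, n ≤ r * N → ∀ B w, St L s B w → ∀ Z : Ω → ℝ≥0∞, Measurable[A.F L] Z →
      P (B ∩ {ω | ∏ a, ML A (R s) L n (w a) ω ≤ Z ω}) ≤
        (2 * Ks) ^ r * ∫⁻ ω in B, Z ω ^ θ ∂P + (2 * η) ^ s * (1 / η) ^ r * P B := by
  have hηt : η ≠ ∞ := ne_top_of_le_ne_top (by simp) hη
  have hη1 : η ≤ 1 := hη.trans (by simp)
  have hinv : 1 ≤ 1 / η := by
    rw [one_div]
    exact ENNReal.one_le_inv.2 hη1
  intro s
  induction s with
  | zero =>
    intro r L n hn B w hS Z hZ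
    calc P (B ∩ {ω | ∏ a, ML A (R 0) L n (w a) ω ≤ Z ω}) ≤ P B := measure_mono inter_subset_left
      _ = 1 * 1 * P B := by ring
      _ ≤ (2 * η) ^ 0 * (1 / η) ^ r * P B := by
          gcongr
          · simp
          · exact one_le_pow₀ hinv
      _ ≤ _ := le_add_self
  | succ s ih =>
    intro r L n hn B w hS Z hZ
    obtain ⟨hB, hW, htot⟩ := h.meas L (s + 1) B w hS
    by_cases hn0 : n = 0
    · subst hn0
      have hZ0 : Measurable Z := hZ.mono (A.F.le L) le_rfl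
      have hB0 : MeasurableSet B := A.F.le L _ hB
      have e1 : P (B ∩ {ω | ∏ a, ML A (R (s + 1)) L 0 (w a) ω ≤ Z ω}) ≤ ∫⁻ ω in B, Z ω ^ θ ∂P := by
        have hset : MeasurableSet {ω | 1 ≤ Z ω} := measurableSet_le measurable_const hZ0
        calc P (B ∩ {ω | ∏ a, ML A (R (s + 1)) L 0 (w a) ω ≤ Z ω}) ≤ P ({ω | 1 ≤ Z ω} ∩ B) := by
              refine measure_mono fun ω hω => ⟨?_, hω.1⟩
              have := hω.2
              simpa [ML] using this
          _ = ∫⁻ ω in {ω | 1 ≤ Z ω} ∩ B, 1 ∂P := by simp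
          _ = ∫⁻ ω in B, {ω | 1 ≤ Z ω}.indicator (fun _ => 1) ω ∂P := by
              rw [lintegral_indicator hset, Measure.restrict_restrict hset]
          _ ≤ ∫⁻ ω in B, Z ω ^ θ ∂P := by
              refine lintegral_mono fun ω => ?_
              by_cases h1 : 1 ≤ Z ω
              · rw [indicator_of_mem (show ω ∈ {ω | 1 ≤ Z ω} from h1)]
                exact ENNReal.one_le_rpow h1 hθ
              · rw [indicator_of_notMem (show ω ∉ {ω | 1 ≤ Z ω} from h1)]
                exact bot_le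
      refine (e1.trans ?_).trans le_self_add
      have h2 : (1 : ℝ≥0∞) ≤ (2 * Ks) ^ r := by
        refine one_le_pow₀ (hKs.trans ?_)
        exact le_mul_of_one_le_left' one_le_two
      calc ∫⁻ ω in B, Z ω ^ θ ∂P = 1 * ∫⁻ ω in B, Z ω ^ θ ∂P := (one_mul _).symm
        _ ≤ _ := by gcongr
    · rcases r with _ | r
      · omega
      set N' := min N n with hN'
      have hN'1 : 1 ≤ N' := by omega
      have hN'N : N' ≤ N := min_le_left _ _
      have hN'n : N' ≤ n := min_le_right _ _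
      obtain ⟨E, w', m, hm, hSt, hm0, hcov, hpush, hA1, hA2, hA3⟩ :=
        h.step L s B w N' hN'1 hN'N hS
      have hZθ : Measurable[A.F L] fun ω => Z ω ^ θ := hZ.pow_const θ
      set Z' : ℕ → Ω → ℝ≥0∞ := fun t ω => Z ω * (∏ a, m t a ω)⁻¹ with hZ'
      have hZ'm : ∀ t, 1 ≤ t → t ≤ N' → Measurable[A.F (L + t)] (Z' t) := by
        intro t h1 h2
        refine (hZ.mono (A.F.mono (Nat.le_add_right _ _)) le_rfl).mul ?_
        exact (Finset.measurable_prod _ fun a _ => hm t h1 h2 a).inv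
      have hZ'p : ∀ t ω, Z' t ω ^ θ = Z ω ^ θ * (∏ a, m t a ω) ^ (-θ) := by
        intro t ω
        rw [hZ', ENNReal.mul_rpow_of_nonneg _ _ hθ.le, ENNReal.inv_rpow, ENNReal.rpow_neg]
      have hsplit : P (B ∩ {ω | ∏ a, ML A (R (s + 1)) L n (w a) ω ≤ Z ω}) ≤
          ∑ t ∈ Finset.Icc 1 N',
            P ((B ∩ E t) ∩ {ω | ∏ a, ML A (R s) (L + t) (n - t) (w' t a) ω ≤ Z' t ω}) := by
        refine le_trans (measure_mono_ae ?_) (measure_biUnion_finset_le _ _)
        have hall : ∀ᵐ ω ∂P, ∀ t ∈ Finset.Icc 1 N', ∀ a, tot (w a) ω = 1 → tot (w' t a) ω = 1 →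
            (∀ y, m t a ω * w' t a ω y ≤ rpush A (R 1) L (L + t) (w a) ω y) →
            m t a ω * ML A (R s) (L + t) (n - t) (w' t a) ω ≤ ML A (R (s + 1)) L n (w a) ω ∧
              m t a ω ≤ 1 := by
          rw [ae_all_iff]
          intro t
          by_cases ht : t ∈ Finset.Icc 1 N'
          · have ht1 := Finset.mem_Icc.1 ht
            have : ∀ᵐ ω ∂P, ∀ a, tot (w a) ω = 1 → tot (w' t a) ω = 1 →
              (∀ y, m t a ω * w' t a ω y ≤ rpush A (R 1) L (L + t) (w a) ω y) →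
              m t a ω * ML A (R s) (L + t) (n - t) (w' t a) ω ≤ ML A (R (s + 1)) L n (w a) ω ∧
                m t a ω ≤ 1 := by
              rw [ae_all_iff]
              exact fun a => ML_ge ht1.1 (ht1.2.trans hN'n) (hR s) (hR1 s)
            filter_upwards [this] with ω hω _ using hω
          · exact Eventually.of_forall fun ω hh => absurd hh ht
        have hpa : ∀ᵐ ω ∂P, ∀ t, 1 ≤ t → t ≤ N' → ∀ a, ω ∈ B ∩ E t →
            ∀ y, m t a ω * w' t a ω y ≤ rpush A (R 1) L (L + t) (w a) ω y := by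
          rw [ae_all_iff]
          intro t
          by_cases ht : 1 ≤ t ∧ t ≤ N'
          · have := hpush t ht.1 ht.2
            rw [← ae_all_iff] at this
            filter_upwards [this] with ω hω _ _ using hω
          · exact Eventually.of_forall fun ω h1 h2 => absurd ⟨h1, h2⟩ ht
        filter_upwards [hcov, hall, hpa] with ω h1 h2 h3
        rintro ⟨hωB, hω⟩
        obtain ⟨t, ht, htE⟩ := h1 hωB
        have ht' := Finset.mem_Icc.1 ht
        obtain ⟨_, _, htot'⟩ := h.meas _ _ _ _ (hSt t ht'.1 ht'.2)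
        refine mem_iUnion₂.2 ⟨t, ht, ⟨hωB, htE⟩, ?_⟩
        have h4 : ∀ a, m t a ω * ML A (R s) (L + t) (n - t) (w' t a) ω ≤
            ML A (R (s + 1)) L n (w a) ω ∧ m t a ω ≤ 1 := fun a =>
          h2 t ht a (htot ω hωB a) (htot' ω ⟨hωB, htE⟩ a) (h3 t ht'.1 ht'.2 a ⟨hωB, htE⟩)
        have h5 : (∏ a, m t a ω) * ∏ a, ML A (R s) (L + t) (n - t) (w' t a) ω ≤ Z ω := by
          rw [← Finset.prod_mul_distrib]
          exact (Finset.prod_le_prod' fun a _ => (h4 a).1).trans hω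
        have h6 : (∏ a, m t a ω) ≠ 0 :=
          Finset.prod_ne_zero_iff.2 fun a _ => hm0 t ht'.1 ht'.2 a ω ⟨hωB, htE⟩
        have h7 : (∏ a, m t a ω) ≠ ∞ :=
          ne_top_of_le_ne_top ENNReal.one_ne_top (Finset.prod_le_one' fun a _ => (h4 a).2)
        change ∏ a, ML A (R s) (L + t) (n - t) (w' t a) ω ≤ Z ω * (∏ a, m t a ω)⁻¹
        rw [← div_eq_mul_inv, ENNReal.le_div_iff_mul_le (Or.inl h6) (Or.inl h7), mul_comm]
        exact h5
      have hIcc : Finset.Icc 1 N' = insert N' (Finset.Ico 1 N') := by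
        ext x
        simp only [Finset.mem_Icc, Finset.mem_insert, Finset.mem_Ico]
        omega
      have hterm : ∀ t r', 1 ≤ t → t ≤ N' → n - t ≤ r' * N →
          P ((B ∩ E t) ∩ {ω | ∏ a, ML A (R s) (L + t) (n - t) (w' t a) ω ≤ Z' t ω}) ≤
          (2 * Ks) ^ r' * ∫⁻ ω in B ∩ E t, Z ω ^ θ * (∏ a, m t a ω) ^ (-θ) ∂P +
            (2 * η) ^ s * (1 / η) ^ r' * P (B ∩ E t) := by
        intro t r' ht1 htN hr
        have := ih r' (L + t) (n - t) hr (B ∩ E t) (w' t) (hSt t ht1 htN) (Z' t) (hZ'm t ht1 htN)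
        simpa only [hZ'p] using this
      rw [hIcc, Finset.sum_insert (by simp)] at hsplit
      have hN1 := hterm N' r hN'1 le_rfl (by
        have : (r + 1) * N = r * N + N := by ring
        rcases le_total N n with h1 | h1
        · have : N' = N := min_eq_left h1
          omega
        · have : N' = n := min_eq_right h1
          omega)
      have hN2 : ∑ t ∈ Finset.Ico 1 N',
          P ((B ∩ E t) ∩ {ω | ∏ a, ML A (R s) (L + t) (n - t) (w' t a) ω ≤ Z' t ω}) ≤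
          (2 * Ks) ^ (r + 1) * (η * ∫⁻ ω in B, Z ω ^ θ ∂P) +
            (2 * η) ^ s * (1 / η) ^ (r + 1) * (η * P B) := by
        calc _ ≤ ∑ t ∈ Finset.Ico 1 N', ((2 * Ks) ^ (r + 1) *
              ∫⁻ ω in B ∩ E t, Z ω ^ θ * (∏ a, m t a ω) ^ (-θ) ∂P +
              (2 * η) ^ s * (1 / η) ^ (r + 1) * P (B ∩ E t)) := by
              refine Finset.sum_le_sum fun t ht => ?_
              have ht' := Finset.mem_Ico.1 ht
              exact hterm t (r + 1) ht'.1 ht'.2.le (by omega)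
          _ ≤ _ := by
              rw [Finset.sum_add_distrib, ← Finset.mul_sum, ← Finset.mul_sum]
              gcongr
              exact hA1 _ hZθ
      have hN3 : (2 * Ks) ^ r * ∫⁻ ω in B ∩ E N', Z ω ^ θ * (∏ a, m N' a ω) ^ (-θ) ∂P +
          (2 * η) ^ s * (1 / η) ^ r * P (B ∩ E N') ≤
          (2 * Ks) ^ r * (Ks * ∫⁻ ω in B, Z ω ^ θ ∂P) + (2 * η) ^ s * (1 / η) ^ r * P B := by
        gcongr
        · exact hA2 _ hZθ
        · exact inter_subset_left
      refine hsplit.trans ((add_le_add (hN1.trans hN3) hN2).trans ?_)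
      set I := ∫⁻ ω in B, Z ω ^ θ ∂P
      have hηinv : 1 / η * η = 1 := by
        rw [one_div]
        exact ENNReal.inv_mul_cancel hη0 hηt
      have e3 : (2 * η) ^ s * (1 / η) ^ (r + 1) * (η * P B) = (2 * η) ^ s * (1 / η) ^ r * P B := by
        calc _ = (2 * η) ^ s * (1 / η) ^ r * (1 / η * η) * P B := by ring
          _ = _ := by rw [hηinv, mul_one]
      have e4 : (2 * η) ^ (s + 1) * (1 / η) ^ (r + 1) * P B
          = 2 * ((2 * η) ^ s * (1 / η) ^ r * P B) := by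
        calc _ = 2 * ((2 * η) ^ s * (1 / η) ^ r * (1 / η * η) * P B) := by ring
          _ = _ := by rw [hηinv, mul_one]
      rw [e3, e4]
      have e5 : (2 * Ks) ^ r * (Ks * I) + (2 * Ks) ^ (r + 1) * (η * I)
          ≤ (2 * Ks) ^ (r + 1) * I := by
        calc _ ≤ (2 * Ks) ^ r * (Ks * I) + (2 * Ks) ^ (r + 1) * (1 / 2 * I) := by gcongr
          _ = (2 * Ks) ^ r * (Ks * I) + (2 * Ks) ^ r * Ks * I * (2 * (1 / 2)) := by ring
          _ = (2 * Ks) ^ r * (Ks * I) + (2 * Ks) ^ r * Ks * I := by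
              rw [one_div, ENNReal.mul_inv_cancel (by norm_num) (by norm_num), mul_one]
          _ = (2 * Ks) ^ (r + 1) * I := by ring
      calc _ = ((2 * Ks) ^ r * (Ks * I) + (2 * Ks) ^ (r + 1) * (η * I)) +
            2 * ((2 * η) ^ s * (1 / η) ^ r * P B) := by ring
        _ ≤ _ := by gcongr

/-- the conclusion for `tot (rpush ..)` at `1 ≤ n`, constant threshold -/
theorem unitsL_const {St : ℕ → ℕ → Set Ω → (ι → Ω → S → ℝ≥0∞) → Prop} {R : ℕ → S → S → Prop}
    {N : ℕ} {θ : ℝ} {η Ks : ℝ≥0∞} (h : EpL A St R N θ η Ks) (hθ : 0 < θ) (hη0 : η ≠ 0)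
    (hη : η ≤ 1 / 2) (hN : 1 ≤ N) (hKs : 1 ≤ Ks)
    (hR : ∀ s x y z, R 1 x y → R s y z → R (s + 1) x z)
    (hR1 : ∀ s x y, R 1 x y → R (s + 1) x y) (s r L n : ℕ) (hn1 : 1 ≤ n) (hn : n ≤ r * N)
    (B : Set Ω) (w : ι → Ω → S → ℝ≥0∞) (hS : St L s B w) (z : ℝ≥0∞) :
    P (B ∩ {ω | ∏ a, tot (rpush A (R s) L (L + n) (w a)) ω ≤ z}) ≤
      ((2 * Ks) ^ r * z ^ θ + (2 * η) ^ s * (1 / η) ^ r) * P B := by
  have := unitsL h hθ hη0 hη hN hKs hR hR1 s r L n hn B w hS (fun _ => z) measurable_const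
  have hn0 : n ≠ 0 := by omega
  simp only [ML, if_neg hn0, lintegral_const, Measure.restrict_apply MeasurableSet.univ,
    univ_inter] at this
  rw [add_mul, mul_assoc]
  exact this

end Crest.Agent.R154.Units12
end

-- ▼ part R154/EpStep_209
section

/-!
# Row 154 (helper209), HOME MASS (263): one epoch of `k` separated units, on any kernel system

Input (`Dat`): a confined kernel `gc` for the first `s0` levels of the epoch (product moment of the
confined masses of `k` separated weights), a home relation `Hm` with first-moment bound for late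
failures (one law), a forced step `up`. Output: 12's `Units12.Ep` (one step of the iteration).

An epoch started at level `L` ends
* at `L + s0` if some confined mass is `< 4T` (restart from the confined laws),
* at the first level `L + t`, `s0 < t < N`, where some home mass is `< T` (restart from the home laws
  of level `L + t - 1`, pushed by one forced step),
* at `L + N` otherwise (same restart law).
-/

set_option autoImplicit false
set_option linter.unusedSectionVars false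
set_option linter.deprecated false
set_option linter.unusedVariables false

namespace Crest.Agent.R154.EpStep209

open MeasureTheory ProbabilityTheory Set Filter
open Crest.Agent.R154.RatioR872 Crest.Agent.R154.RatioR872.KerSys
open scoped ENNReal Classical

variable {S : Type*} [Countable S] {Ω : Type*} {m0 : MeasurableSpace Ω} {P : Measure Ω}
variable {ι : Type*} [Fintype ι]

/-- 903's restricted push -/
noncomputable abbrev rp (A : KerSys S P) (D : S → S → Prop) (a b : ℕ) (w : Ω → S → ℝ≥0∞) (ω : Ω)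
    (y : S) : ℝ≥0∞ := Home903.rpush A D a b w ω y

/-- states: `k` random laws of level `L`, pairwise lateral gap `D2 s + g0` on the event `B` -/
def St (A : KerSys S P) (φ : S → ℝ) (D2 g0 : ℝ) (L s : ℕ) (B : Set Ω)
    (w : ι → Ω → S → ℝ≥0∞) : Prop :=
  MeasurableSet[A.F L] B ∧ (∀ a, A.Wt L (w a)) ∧ (∀ ω ∈ B, ∀ a, tot (w a) ω = 1) ∧
    ∀ ω ∈ B, ∀ a b, a ≠ b → ∀ x y, w a ω x ≠ 0 → w b ω y ≠ 0 → D2 * s + g0 ≤ |φ x - φ y|

/-- relation of one epoch -/
def R2 (φ : S → ℝ) (D2 : ℝ) (x y : S) : Prop := |φ y - φ x| ≤ D2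

/-- inputs of one epoch -/
structure Dat (A : KerSys S P) (ι : Type*) [Fintype ι] (φ : S → ℝ) (s0 N : ℕ) (D D1 g0 θ : ℝ)
    (κ0 κ1 T K δ : ℝ≥0∞) where
  gc : ℕ → Ω → S → S → ℝ≥0∞
  Hm : S → S → Prop
  up : S → S
  gc_meas : ∀ L x y, Measurable[A.F (L + s0)] (fun ω => gc L ω x y)
  gc_le : ∀ L ω x y, gc L ω x y ≤ A.G L (L + s0) ω x y
  gc_pos : ∀ L, ∀ᵐ ω ∂P, ∀ x ∈ A.L L, ∑' y, gc L ω x y ≠ 0
  gc_Hm : ∀ L ω x y, gc L ω x y ≠ 0 → Hm x y
  Hm_disp : ∀ x y, Hm x y → |φ y - φ x| ≤ D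
  up_disp : ∀ y, |φ (up y) - φ y| ≤ D1
  ue : ∀ l, ∀ᵐ ω ∂P, ∀ y ∈ A.L l, κ0 ≤ A.G l (l + 1) ω y (up y)
  floor : ∀ L l, l ≤ s0 → ∀ᵐ ω ∂P, ∀ x ∈ A.L L,
    κ1 ≤ ∑' y, (if Hm x y then A.G L (L + l) ω x y else 0)
  prod : ∀ (L : ℕ) (B : Set Ω) (w : ι → Ω → S → ℝ≥0∞), St A φ 0 g0 L 0 B w →
    ∀ Z : Ω → ℝ≥0∞, Measurable[A.F L] Z →
    ∫⁻ ω in B, Z ω * ∏ a, (∑' x, w a ω x * ∑' y, gc L ω x y) ^ (-(2 * θ)) ∂P
      ≤ K * ∫⁻ ω in B, Z ω ∂P
  late : ∀ (L : ℕ) (B : Set Ω) (w : Ω → S → ℝ≥0∞), MeasurableSet[A.F L] B → A.Wt L w →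
    (∀ ω ∈ B, tot w ω = 1) → ∀ Z : Ω → ℝ≥0∞, Measurable[A.F L] Z →
    ∫⁻ ω in B ∩ {ω | 4 * T ≤ tot (A.push L (L + s0) w) ω ∧
        ∃ l ∈ Finset.Icc (L + s0) (L + N), tot (rp A Hm L l w) ω < T}, Z ω ∂P
      ≤ δ * ∫⁻ ω in B, Z ω ∂P

namespace Dat

variable {A : KerSys S P} {φ : S → ℝ} {s0 N : ℕ} {D D1 g0 θ : ℝ} {κ0 κ1 T K δ : ℝ≥0∞}
variable (X : Dat A ι φ s0 N D D1 g0 θ κ0 κ1 T K δ)

/-- confined push -/
noncomputable def cp (L : ℕ) (w : Ω → S → ℝ≥0∞) (ω : Ω) (y : S) : ℝ≥0∞ :=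
  ∑' x, w ω x * X.gc L ω x y

/-- home law at `L + t`, one forced step -/
noncomputable def hw (L t : ℕ) (w : Ω → S → ℝ≥0∞) (ω : Ω) (y : S) : ℝ≥0∞ :=
  ∑' z, rp A X.Hm L (L + t) w ω z * (if y = X.up z then A.G (L + t) (L + t + 1) ω z y else 0)

/-- restart weight at level `L + t` -/
noncomputable def V (L t : ℕ) (w : Ω → S → ℝ≥0∞) : Ω → S → ℝ≥0∞ :=
  if t = s0 then X.cp L w else
    match t with
    | 0 => fun _ _ => 0
    | t' + 1 => X.hw L t' w

lemma V_s0 (L : ℕ) (w : Ω → S → ℝ≥0∞) : X.V L s0 w = X.cp L w := by simp [V]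

lemma V_succ (L t : ℕ) (w : Ω → S → ℝ≥0∞) (h : t + 1 ≠ s0) : X.V L (t + 1) w = X.hw L t w := by
  simp [V, h]

lemma rp_le (R : S → S → Prop) (a b : ℕ) (w : Ω → S → ℝ≥0∞) (ω : Ω) (y : S) :
    rp A R a b w ω y ≤ A.push a b w ω y := by
  unfold rp Home903.rpush KerSys.push
  refine ENNReal.tsum_le_tsum fun x => mul_le_mul_right ?_ _
  split_ifs
  · exact le_rfl
  · exact bot_le

lemma rp_wt (R : S → S → Prop) {a b : ℕ} (hab : a ≤ b) {w : Ω → S → ℝ≥0∞} (hw : A.Wt a w) :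
    A.Wt b (rp A R a b w) where
  meas y := (Home903.rpush_wt hab hw).meas y
  supp ω y hy := (Home903.rpush_wt hab hw).supp ω y hy

lemma tot_cp (L : ℕ) (w : Ω → S → ℝ≥0∞) (ω : Ω) :
    tot (X.cp L w) ω = ∑' x, w ω x * ∑' y, X.gc L ω x y := by
  unfold tot cp
  rw [ENNReal.tsum_comm]
  exact tsum_congr fun x => ENNReal.tsum_mul_left

lemma cp_le (L : ℕ) (w : Ω → S → ℝ≥0∞) (ω : Ω) (y : S) :
    X.cp L w ω y ≤ rp A X.Hm L (L + s0) w ω y := by
  unfold cp rp Home903.rpush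
  refine ENNReal.tsum_le_tsum fun x => mul_le_mul_right ?_ _
  by_cases h : X.gc L ω x y = 0
  · rw [h]; exact bot_le
  · rw [if_pos (X.gc_Hm L ω x y h)]
    exact X.gc_le L ω x y

lemma tot_cp_le_rp (L : ℕ) (w : Ω → S → ℝ≥0∞) (ω : Ω) :
    tot (X.cp L w) ω ≤ tot (rp A X.Hm L (L + s0) w) ω :=
  ENNReal.tsum_le_tsum fun y => X.cp_le L w ω y

lemma tot_rp_le (R : S → S → Prop) (a b : ℕ) (w : Ω → S → ℝ≥0∞) (ω : Ω) :
    tot (rp A R a b w) ω ≤ tot (A.push a b w) ω :=
  ENNReal.tsum_le_tsum fun y => rp_le R a b w ω y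

lemma tot_hw (L t : ℕ) (w : Ω → S → ℝ≥0∞) (ω : Ω) :
    tot (X.hw L t w) ω = ∑' z, rp A X.Hm L (L + t) w ω z * A.G (L + t) (L + t + 1) ω z (X.up z) := by
  unfold tot hw
  rw [ENNReal.tsum_comm]
  refine tsum_congr fun z => ?_
  rw [ENNReal.tsum_mul_left, tsum_ite_eq]

lemma cp_wt (L : ℕ) {w : Ω → S → ℝ≥0∞} (hw : A.Wt L w) : A.Wt (L + s0) (X.cp L w) where
  meas y := by
    unfold cp
    refine Measurable.ennreal_tsum fun x => ?_
    exact ((hw.meas x).mono (A.F.mono (Nat.le_add_right _ _)) le_rfl).mul (X.gc_meas L x y)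
  supp ω y hy := by
    have := (rp_wt X.Hm (Nat.le_add_right L s0) hw).supp ω y hy
    exact le_antisymm ((X.cp_le L w ω y).trans this.le) bot_le

lemma hw_wt (L t : ℕ) {w : Ω → S → ℝ≥0∞} (hw : A.Wt L w) : A.Wt (L + (t + 1)) (X.hw L t w) where
  meas y := by
    unfold Dat.hw
    refine Measurable.ennreal_tsum fun z => ?_
    refine (((rp_wt X.Hm (Nat.le_add_right L t) hw).meas z).mono
      (A.F.mono (Nat.le_succ (L + t))) le_rfl).mul ?_
    split_ifs
    · exact A.measF (L + t) (L + t + 1) z y (Nat.le_succ _)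
    · exact measurable_const
  supp ω y hy := by
    unfold Dat.hw
    rw [ENNReal.tsum_eq_zero]
    intro z
    split_ifs
    · rw [A.supp (L + t) (L + t + 1) ω z y hy, mul_zero]
    · rw [mul_zero]

lemma V_wt (L t : ℕ) {w : Ω → S → ℝ≥0∞} (hw : A.Wt L w) : A.Wt (L + t) (X.V L t w) := by
  by_cases h : t = s0
  · subst h
    rw [V_s0]
    exact X.cp_wt L hw
  · rcases t with _ | t
    · unfold V
      rw [if_neg h]
      exact ⟨fun x => measurable_const, fun ω x _ => rfl⟩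
    · rw [V_succ X L t w h]
      exact X.hw_wt L t hw

lemma tot_hw_le (L t : ℕ) (w : Ω → S → ℝ≥0∞) (ω : Ω) :
    tot (X.hw L t w) ω ≤ tot w ω := by
  rw [tot_hw]
  calc ∑' z, rp A X.Hm L (L + t) w ω z * A.G (L + t) (L + t + 1) ω z (X.up z)
      ≤ ∑' z, rp A X.Hm L (L + t) w ω z * 1 := by
        refine ENNReal.tsum_le_tsum fun z => mul_le_mul_right ?_ _
        exact (ENNReal.le_tsum (X.up z)).trans (A.mass (L + t) (L + t + 1) ω z (Nat.le_succ _))
    _ = tot (rp A X.Hm L (L + t) w) ω := by simp [tot]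
    _ ≤ tot (A.push L (L + t) w) ω := tot_rp_le _ _ _ _ _
    _ ≤ tot w ω := A.tot_push_le (Nat.le_add_right _ _) w ω

lemma tot_V_le (L t : ℕ) (w : Ω → S → ℝ≥0∞) (ω : Ω) : tot (X.V L t w) ω ≤ tot w ω := by
  by_cases h : t = s0
  · subst h
    rw [V_s0]
    exact (X.tot_cp_le_rp L w ω).trans ((tot_rp_le _ _ _ _ _).trans
      (A.tot_push_le (Nat.le_add_right _ _) w ω))
  · rcases t with _ | t
    · unfold V
      rw [if_neg h]
      simp [tot]
    · rw [V_succ X L t w h]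
      exact X.tot_hw_le L t w ω

lemma V_rp (hD1 : 0 ≤ D1) (L t : ℕ) (w : Ω → S → ℝ≥0∞) :
    ∀ᵐ ω ∂P, ∀ y, X.V L t w ω y ≤ rp A (R2 φ (D + D1)) L (L + t) w ω y := by
  have hH : ∀ x y, X.Hm x y → R2 φ (D + D1) x y := fun x y h => by
    have := X.Hm_disp x y h
    unfold R2
    linarith
  by_cases h : t = s0
  · subst h
    rw [V_s0]
    exact Eventually.of_forall fun ω y => (X.cp_le L w ω y).trans (Home903.rpush_mono_D hH _ _ _ _ _)
  · rcases t with _ | t
    · unfold V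
      rw [if_neg h]
      exact Eventually.of_forall fun ω y => bot_le
    · rw [V_succ X L t w h]
      filter_upwards [Home903.rpush_comp (A := A) (D₁ := X.Hm) (D₂ := fun z y => |φ y - φ z| ≤ D1)
        (D := R2 φ (D + D1)) (fun x y z h1 h2 => by
          have e1 := X.Hm_disp x y h1
          unfold R2
          calc |φ z - φ x| = |(φ z - φ y) + (φ y - φ x)| := by ring_nf
            _ ≤ |φ z - φ y| + |φ y - φ x| := abs_add_le _ _
            _ ≤ D + D1 := by linarith) (Nat.le_add_right L t) (Nat.le_succ (L + t))] with ω hc y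
      refine le_trans ?_ (hc w y)
      unfold Dat.hw
      rw [Home903.rpush]
      refine ENNReal.tsum_le_tsum fun z => mul_le_mul_right ?_ _
      by_cases hy : y = X.up z
      · rw [if_pos hy, if_pos (by rw [hy]; exact X.up_disp z)]
      · rw [if_neg hy]
        exact bot_le

lemma V_disp (hD1 : 0 ≤ D1) (L t : ℕ) (w : Ω → S → ℝ≥0∞) (ω : Ω) (y : S) (hy : X.V L t w ω y ≠ 0) :
    ∃ x, w ω x ≠ 0 ∧ |φ y - φ x| ≤ D + D1 := by
  by_cases h : t = s0
  · subst h
    rw [V_s0] at hy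
    unfold cp at hy
    obtain ⟨x, hx⟩ : ∃ x, w ω x * X.gc L ω x y ≠ 0 := by
      by_contra hcon
      push Not at hcon
      exact hy (ENNReal.tsum_eq_zero.2 hcon)
    refine ⟨x, left_ne_zero_of_mul hx, ?_⟩
    have := X.Hm_disp x y (X.gc_Hm L ω x y (right_ne_zero_of_mul hx))
    linarith
  · rcases t with _ | t
    · unfold V at hy
      rw [if_neg h] at hy
      exact absurd rfl hy
    · rw [V_succ X L t w h] at hy
      unfold Dat.hw at hy
      obtain ⟨z, hz⟩ : ∃ z, rp A X.Hm L (L + t) w ω z *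
          (if y = X.up z then A.G (L + t) (L + t + 1) ω z y else 0) ≠ 0 := by
        by_contra hcon
        push Not at hcon
        exact hy (ENNReal.tsum_eq_zero.2 hcon)
      have h1 := left_ne_zero_of_mul hz
      have h2 := right_ne_zero_of_mul hz
      have h3 : y = X.up z := by
        by_contra hne
        rw [if_neg hne] at h2
        exact h2 rfl
      unfold rp Home903.rpush at h1
      obtain ⟨x, hx⟩ : ∃ x, w ω x * (if X.Hm x z then A.G L (L + t) ω x z else 0) ≠ 0 := by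
        by_contra hcon
        push Not at hcon
        exact h1 (ENNReal.tsum_eq_zero.2 hcon)
      have h4 : X.Hm x z := by
        by_contra hne
        exact (right_ne_zero_of_mul hx) (by rw [if_neg hne])
      refine ⟨x, left_ne_zero_of_mul hx, ?_⟩
      have e1 := X.Hm_disp x z h4
      have e2 := X.up_disp z
      rw [h3]
      calc |φ (X.up z) - φ x| = |(φ (X.up z) - φ z) + (φ z - φ x)| := by ring_nf
        _ ≤ |φ (X.up z) - φ z| + |φ z - φ x| := abs_add_le _ _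
        _ ≤ D + D1 := by linarith

lemma hw_ge (L t : ℕ) {w : Ω → S → ℝ≥0∞} (hw : A.Wt L w) :
    ∀ᵐ ω ∂P, κ0 * tot (rp A X.Hm L (L + t) w) ω ≤ tot (X.hw L t w) ω := by
  filter_upwards [X.ue (L + t)] with ω hu
  rw [tot_hw, tot, ← ENNReal.tsum_mul_left]
  refine ENNReal.tsum_le_tsum fun z => ?_
  by_cases hz : z ∈ A.L (L + t)
  · rw [mul_comm]
    exact mul_le_mul_right (hu z hz) _
  · rw [(rp_wt X.Hm (Nat.le_add_right L t) hw).supp ω z hz]
    simp

lemma cp_pos (L : ℕ) {w : Ω → S → ℝ≥0∞} (hw : A.Wt L w) :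
    ∀ᵐ ω ∂P, tot w ω = 1 → tot (X.cp L w) ω ≠ 0 := by
  filter_upwards [X.gc_pos L] with ω hg h1
  rw [tot_cp]
  intro h0
  rw [ENNReal.tsum_eq_zero] at h0
  have hz : ∀ x, w ω x = 0 := by
    intro x
    by_cases hx : x ∈ A.L L
    · exact (mul_eq_zero.1 (h0 x)).resolve_right (hg x hx)
    · exact hw.supp ω x hx
  have : tot w ω = 0 := by
    rw [tot, ENNReal.tsum_eq_zero]
    exact hz
  rw [h1] at this
  exact one_ne_zero this

/-! ### the events -/

/-- home mass of unit `w` at level `L + l` -/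
noncomputable def hm (L l : ℕ) (w : Ω → S → ℝ≥0∞) (ω : Ω) : ℝ≥0∞ := tot (rp A X.Hm L (L + l) w) ω

/-- bad end of the epoch at `L + t` (horizon `M > s0`) -/
def Eb (L M : ℕ) (w : ι → Ω → S → ℝ≥0∞) (t : ℕ) : Set Ω :=
  {ω | ∀ a, tot (X.V L t (w a)) ω ≠ 0} ∩
  (if t = s0 then {ω | ∃ a, tot (X.cp L (w a)) ω < 4 * T}
   else if s0 < t ∧ t < M then
      {ω | ∀ a, 4 * T ≤ tot (X.cp L (w a)) ω} ∩
        {ω | ∀ a, ∀ l ∈ Finset.Ico s0 t, T ≤ X.hm L l (w a) ω} ∩ {ω | ∃ a, X.hm L t (w a) ω < T}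
   else ∅)

/-- good end of the epoch at the horizon `M > s0` -/
def Eg (L M : ℕ) (w : ι → Ω → S → ℝ≥0∞) : Set Ω :=
  {ω | ∀ a, tot (X.V L M (w a)) ω ≠ 0} ∩
      ({ω | ∀ a, 4 * T ≤ tot (X.cp L (w a)) ω} ∩
        {ω | ∀ a, ∀ l ∈ Finset.Ico s0 M, T ≤ X.hm L l (w a) ω})

lemma hm_meas {L l t : ℕ} (hlt : l ≤ t) {w : Ω → S → ℝ≥0∞} (hw : A.Wt L w) :
    Measurable[A.F (L + t)] (X.hm L l w) :=
  ((rp_wt X.Hm (Nat.le_add_right L l) hw).meas_tot).mono
    (A.F.mono (Nat.add_le_add_left hlt _)) le_rfl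

lemma cp_meas {L t : ℕ} (hlt : s0 ≤ t) {w : Ω → S → ℝ≥0∞} (hw : A.Wt L w) :
    Measurable[A.F (L + t)] (tot (X.cp L w)) :=
  ((X.cp_wt L hw).meas_tot).mono (A.F.mono (Nat.add_le_add_left hlt _)) le_rfl

lemma ne0_meas (L t : ℕ) {w : ι → Ω → S → ℝ≥0∞} (hw : ∀ a, A.Wt L (w a)) :
    MeasurableSet[A.F (L + t)] {ω | ∀ a, tot (X.V L t (w a)) ω ≠ 0} := by
  simp only [setOf_forall]
  refine MeasurableSet.iInter fun a => ?_
  have : MeasurableSet[A.F (L + t)] {ω | tot (X.V L t (w a)) ω = 0} :=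
    (X.V_wt L t (hw a)).meas_tot (measurableSet_singleton 0)
  exact this.compl

lemma cp4_meas {L t : ℕ} (hst : s0 ≤ t) {w : ι → Ω → S → ℝ≥0∞} (hw : ∀ a, A.Wt L (w a)) :
    MeasurableSet[A.F (L + t)] {ω | ∀ a, 4 * T ≤ tot (X.cp L (w a)) ω} := by
  simp only [setOf_forall]
  refine MeasurableSet.iInter fun a => ?_
  exact (X.cp_meas hst (hw a)) measurableSet_Ici

lemma hmT_meas {L t M : ℕ} (hM : M ≤ t + 1) {w : ι → Ω → S → ℝ≥0∞} (hw : ∀ a, A.Wt L (w a)) :
    MeasurableSet[A.F (L + t)] {ω | ∀ a, ∀ l ∈ Finset.Ico s0 M, T ≤ X.hm L l (w a) ω} := by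
  simp only [setOf_forall]
  refine MeasurableSet.iInter fun a => MeasurableSet.iInter fun l => MeasurableSet.iInter fun hl => ?_
  exact (X.hm_meas (by have := Finset.mem_Ico.1 hl; omega) (hw a)) measurableSet_Ici

lemma Eb_meas (L M : ℕ) {w : ι → Ω → S → ℝ≥0∞} (hw : ∀ a, A.Wt L (w a)) (t : ℕ) :
    MeasurableSet[A.F (L + t)] (X.Eb L M w t) := by
  refine (X.ne0_meas L t hw).inter ?_
  split_ifs with h1 h2
  · simp only [setOf_exists]
    exact MeasurableSet.iUnion fun a => (X.cp_meas h1.ge (hw a)) measurableSet_Iio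
  · refine ((X.cp4_meas h2.1.le hw).inter (X.hmT_meas (by omega) hw)).inter ?_
    simp only [setOf_exists]
    exact MeasurableSet.iUnion fun a => (X.hm_meas le_rfl (hw a)) measurableSet_Iio
  · exact @MeasurableSet.empty _ (A.F (L + t))

lemma Eg_meas {L M : ℕ} (hM : s0 ≤ M) {w : ι → Ω → S → ℝ≥0∞} (hw : ∀ a, A.Wt L (w a)) :
    MeasurableSet[A.F (L + M)] (X.Eg L M w) :=
  (X.ne0_meas L M hw).inter ((X.cp4_meas hM hw).inter (X.hmT_meas (by omega) hw))

/-! ### restart laws -/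

/-- normalised weight -/
noncomputable def nrm (v : Ω → S → ℝ≥0∞) (ω : Ω) (y : S) : ℝ≥0∞ := v ω y / tot v ω

omit [Fintype ι] in
lemma nrm_wt {l : ℕ} {v : Ω → S → ℝ≥0∞} (hv : A.Wt l v) : A.Wt l (nrm v) where
  meas y := (hv.meas y).div hv.meas_tot
  supp ω y hy := by
    unfold nrm
    rw [hv.supp ω y hy, ENNReal.zero_div]

omit [Fintype ι] in
lemma tot_nrm {v : Ω → S → ℝ≥0∞} {ω : Ω} (h0 : tot v ω ≠ 0) (h1 : tot v ω ≠ ∞) :
    tot (nrm v) ω = 1 := by
  have : tot (nrm v) ω = tot v ω / tot v ω := by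
    conv_lhs => rw [tot]
    unfold nrm
    simp_rw [div_eq_mul_inv]
    rw [ENNReal.tsum_mul_right]
    rfl
  rw [this, ENNReal.div_self h0 h1]

omit [Fintype ι] in
lemma mul_nrm {v : Ω → S → ℝ≥0∞} {ω : Ω} (h0 : tot v ω ≠ 0) (h1 : tot v ω ≠ ∞) (y : S) :
    tot v ω * nrm v ω y = v ω y := by
  unfold nrm
  exact ENNReal.mul_div_cancel h0 h1

lemma st_restart {L t s : ℕ} {B E : Set Ω} {w v : ι → Ω → S → ℝ≥0∞}
    (hS : St A φ (2 * (D + D1)) g0 L (s + 1) B w)
    (hE : MeasurableSet[A.F (L + t)] E) (hv : ∀ a, A.Wt (L + t) (v a))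
    (h0 : ∀ ω ∈ E, ∀ a, tot (v a) ω ≠ 0) (h1 : ∀ a ω, tot (v a) ω ≤ tot (w a) ω)
    (hd : ∀ a ω y, v a ω y ≠ 0 → ∃ x, w a ω x ≠ 0 ∧ |φ y - φ x| ≤ D + D1) :
    St A φ (2 * (D + D1)) g0 (L + t) s (B ∩ E) (fun a => nrm (v a)) := by
  obtain ⟨hB, hW, htot, hgap⟩ := hS
  refine ⟨(A.F.mono (Nat.le_add_right _ _) _ hB).inter hE, fun a => nrm_wt (hv a), ?_, ?_⟩
  · intro ω hω a
    refine tot_nrm (h0 ω hω.2 a) ?_
    refine ne_top_of_le_ne_top ?_ (h1 a ω)
    rw [htot ω hω.1 a]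
    exact ENNReal.one_ne_top
  · intro ω hω a b hab y y' hy hy'
    have e1 : v a ω y ≠ 0 := by
      intro h
      exact hy (by show v a ω y / tot (v a) ω = 0; rw [h, ENNReal.zero_div])
    have e2 : v b ω y' ≠ 0 := by
      intro h
      exact hy' (by show v b ω y' / tot (v b) ω = 0; rw [h, ENNReal.zero_div])
    obtain ⟨x, hx, hxy⟩ := hd a ω y e1
    obtain ⟨x', hx', hxy'⟩ := hd b ω y' e2
    have h3 := hgap ω hω.1 a b hab x x' hx hx'
    push_cast at h3
    have h4 : |φ x - φ x'| ≤ |φ y - φ y'| + |φ y - φ x| + |φ y' - φ x'| := by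
      have : φ x - φ x' = (φ y - φ y') - (φ y - φ x) + (φ y' - φ x') := by ring
      rw [this]
      refine (abs_add_le _ _).trans ?_
      gcongr
      exact (abs_sub _ _)
    linarith

/-! ### integrals -/

omit [Countable S] in
lemma prod_early {e : ι → ℝ≥0∞} (h1 : ∀ a, e a ≤ 1) {τ : ℝ≥0∞} (hτ0 : τ ≠ 0) {b : ι}
    (hb : e b ≤ τ) (hθ : 0 < θ) :
    (∏ a, e a) ^ (-θ) ≤ τ ^ θ * ∏ a, e a ^ (-(2 * θ)) := by
  set q := ∏ a, e a with hq
  have hqb : q ≤ e b := by
    rw [hq, ← Finset.mul_prod_erase Finset.univ e (Finset.mem_univ b)]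
    calc e b * ∏ x ∈ Finset.univ.erase b, e x ≤ e b * 1 := by
          gcongr
          exact Finset.prod_le_one' fun a _ => h1 a
      _ = e b := mul_one _
  have hq1 : q ≤ 1 := Finset.prod_le_one' fun a _ => h1 a
  have hqt : q ≠ ∞ := ne_top_of_le_ne_top ENNReal.one_ne_top hq1
  have hprod : ∏ a, e a ^ (-(2 * θ)) = q ^ (-(2 * θ)) := by
    have e1 : ∀ a, e a ^ (-(2 * θ)) = (e a ^ (2 * θ))⁻¹ := fun a => ENNReal.rpow_neg _ _
    simp_rw [e1]
    rw [← ENNReal.prod_inv_distrib, ENNReal.prod_rpow_of_nonneg (by positivity), ENNReal.rpow_neg]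
    intro i _ j _ _
    right
    exact ENNReal.rpow_ne_top_of_nonneg (by positivity)
      (ne_top_of_le_ne_top ENNReal.one_ne_top (h1 j))
  rw [hprod]
  have hτθ : τ ^ θ ≠ 0 := by
    intro h
    rcases ENNReal.rpow_eq_zero_iff.1 h with h | h
    · exact hτ0 h.1
    · linarith [h.2]
  by_cases h0 : q = 0
  · rw [h0, ENNReal.zero_rpow_of_neg (by linarith : -(2 * θ) < 0), ENNReal.mul_top hτθ]
    exact le_top
  · have e2 : q ^ (-(2 * θ)) = q ^ (-θ) * q ^ (-θ) := by
      rw [← ENNReal.rpow_add _ _ h0 hqt]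
      congr 1
      ring
    have e3 : (1 : ℝ≥0∞) ≤ τ ^ θ * q ^ (-θ) := by
      calc (1 : ℝ≥0∞) = q ^ θ * q ^ (-θ) := by
            rw [← ENNReal.rpow_add _ _ h0 hqt, add_neg_cancel, ENNReal.rpow_zero]
        _ ≤ τ ^ θ * q ^ (-θ) := by
            gcongr
            exact hqb.trans hb
    calc q ^ (-θ) = 1 * q ^ (-θ) := (one_mul _).symm
      _ ≤ τ ^ θ * q ^ (-θ) * q ^ (-θ) := by gcongr
      _ = τ ^ θ * q ^ (-(2 * θ)) := by rw [e2, mul_assoc]

omit [Countable S] in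
lemma prod_low {e : ι → ℝ≥0∞} {c : ℝ≥0∞} (h1 : ∀ a, c ≤ e a) (hθ : 0 < θ) :
    (∏ a, e a) ^ (-θ) ≤ (c ^ Fintype.card ι) ^ (-θ) := by
  rw [ENNReal.rpow_neg, ENNReal.rpow_neg]
  refine ENNReal.inv_le_inv.2 (ENNReal.rpow_le_rpow ?_ hθ.le)
  calc c ^ Fintype.card ι = ∏ _a : ι, c := by simp
    _ ≤ ∏ a, e a := Finset.prod_le_prod' fun a _ => h1 a

omit [Countable S] in
lemma one_le_prod {e : ι → ℝ≥0∞} (h1 : ∀ a, e a ≤ 1) (hθ : 0 < θ) :
    1 ≤ (∏ a, e a) ^ (-θ) := by
  rw [ENNReal.rpow_neg]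
  refine ENNReal.one_le_inv.2 ?_
  exact ENNReal.rpow_le_one (Finset.prod_le_one' fun a _ => h1 a) hθ.le

/-- lower bound of the restart mass after a home level with all masses `≥ T` -/
lemma V_ge (L t : ℕ) (ht : s0 < t) {w : Ω → S → ℝ≥0∞} (hw : A.Wt L w) :
    ∀ᵐ ω ∂P, T ≤ X.hm L (t - 1) w ω → κ0 * T ≤ tot (X.V L t w) ω := by
  obtain ⟨t', rfl⟩ : ∃ t', t = t' + 1 := ⟨t - 1, by omega⟩
  rw [V_succ X L t' w (by omega)]
  filter_upwards [X.hw_ge L t' hw] with ω h h2
  rw [Nat.add_sub_cancel] at h2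
  exact (mul_le_mul_right h2 κ0).trans h

/-- early bad end -/
lemma early_int (hN : s0 < N) (hθ : 0 < θ) (hT0 : T ≠ 0) (hTt : T ≠ ∞) {L M s : ℕ} {B : Set Ω}
    (hDD : 0 ≤ D + D1)
    {w : ι → Ω → S → ℝ≥0∞} (hS : St A φ (2 * (D + D1)) g0 L (s + 1) B w)
    {Z : Ω → ℝ≥0∞} (hZ : Measurable[A.F L] Z) :
    ∫⁻ ω in B ∩ X.Eb L M w s0, Z ω * (∏ a, tot (X.V L s0 (w a)) ω) ^ (-θ) ∂P
      ≤ (4 * T) ^ θ * K * ∫⁻ ω in B, Z ω ∂P := by
  obtain ⟨hB, hW, htot, hgap⟩ := hS
  have hB0 : MeasurableSet B := A.F.le L _ hB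
  have hE0 : MeasurableSet (X.Eb L M w s0) := A.F.le _ _ (X.Eb_meas L M hW s0)
  have hS0 : St A φ 0 g0 L 0 B w := by
    refine ⟨hB, hW, htot, fun ω hω a b hab x y hx hy => ?_⟩
    have := hgap ω hω a b hab x y hx hy
    have h2 : (0 : ℝ) ≤ 2 * (D + D1) * ((s + 1 : ℕ) : ℝ) := by positivity
    push_cast at this h2 ⊢
    linarith
  have h4T : 4 * T ≠ 0 := mul_ne_zero (by norm_num) hT0
  calc ∫⁻ ω in B ∩ X.Eb L M w s0, Z ω * (∏ a, tot (X.V L s0 (w a)) ω) ^ (-θ) ∂P
      ≤ ∫⁻ ω in B ∩ X.Eb L M w s0, (4 * T) ^ θ *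
          (Z ω * ∏ a, (∑' x, w a ω x * ∑' y, X.gc L ω x y) ^ (-(2 * θ))) ∂P := by
        refine setLIntegral_mono' (hB0.inter hE0) fun ω hω => ?_
        have h1 := hω.2.2
        simp only [if_true] at h1
        obtain ⟨b, hb⟩ := h1
        have h2 : ∀ a, tot (X.V L s0 (w a)) ω ≤ 1 := fun a =>
          (X.tot_V_le L s0 (w a) ω).trans (htot ω hω.1 a).le
        have h3 := prod_early (θ := θ) h2 h4T (b := b) (by rw [V_s0]; exact hb.le) hθ
        have h4 : ∀ a, tot (X.V L s0 (w a)) ω = ∑' x, w a ω x * ∑' y, X.gc L ω x y := fun a => by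
          rw [V_s0, tot_cp]
        calc Z ω * (∏ a, tot (X.V L s0 (w a)) ω) ^ (-θ)
            ≤ Z ω * ((4 * T) ^ θ * ∏ a, tot (X.V L s0 (w a)) ω ^ (-(2 * θ))) := by gcongr
          _ = (4 * T) ^ θ * (Z ω * ∏ a, (∑' x, w a ω x * ∑' y, X.gc L ω x y) ^ (-(2 * θ))) := by
              simp_rw [h4]
              ring
    _ ≤ ∫⁻ ω in B, (4 * T) ^ θ *
          (Z ω * ∏ a, (∑' x, w a ω x * ∑' y, X.gc L ω x y) ^ (-(2 * θ))) ∂P :=
        lintegral_mono_set inter_subset_left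
    _ = (4 * T) ^ θ * ∫⁻ ω in B,
          Z ω * ∏ a, (∑' x, w a ω x * ∑' y, X.gc L ω x y) ^ (-(2 * θ)) ∂P := by
        refine lintegral_const_mul' _ _ ?_
        exact ENNReal.rpow_ne_top_of_nonneg hθ.le (ENNReal.mul_ne_top (by norm_num) hTt)
    _ ≤ (4 * T) ^ θ * (K * ∫⁻ ω in B, Z ω ∂P) := by
        gcongr
        exact X.prod L B w hS0 Z hZ
    _ = _ := by ring

/-- late bad ends -/
lemma late_int (hθ : 0 < θ) {L M s : ℕ} (hM1 : s0 < M) (hM : M ≤ N) {B : Set Ω}
    {w : ι → Ω → S → ℝ≥0∞} (hS : St A φ (2 * (D + D1)) g0 L (s + 1) B w)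
    {Z : Ω → ℝ≥0∞} (hZ : Measurable[A.F L] Z) :
    ∑ t ∈ Finset.Ioo s0 M,
      ∫⁻ ω in B ∩ X.Eb L M w t, Z ω * (∏ a, tot (X.V L t (w a)) ω) ^ (-θ) ∂P
      ≤ ((κ0 * T) ^ Fintype.card ι) ^ (-θ) * (Fintype.card ι * δ) * ∫⁻ ω in B, Z ω ∂P := by
  obtain ⟨hB, hW, htot, hgap⟩ := hS
  have hB0 : MeasurableSet B := A.F.le L _ hB
  have hE0 : ∀ t, MeasurableSet (X.Eb L M w t) := fun t => A.F.le _ _ (X.Eb_meas L M hW t)
  set C := ((κ0 * T) ^ Fintype.card ι) ^ (-θ) with hC
  have hform : ∀ t ∈ Finset.Ioo s0 M, ∀ ω ∈ X.Eb L M w t,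
      (∀ a, 4 * T ≤ tot (X.cp L (w a)) ω) ∧ (∀ a, ∀ l ∈ Finset.Ico s0 t, T ≤ X.hm L l (w a) ω) ∧
        ∃ a, X.hm L t (w a) ω < T := by
    intro t ht ω hω
    have ht' := Finset.mem_Ioo.1 ht
    have h1 := hω.2
    rw [if_neg (by omega), if_pos ht'] at h1
    exact ⟨h1.1.1, h1.1.2, h1.2⟩
  have h1 : ∀ t ∈ Finset.Ioo s0 M,
      ∫⁻ ω in B ∩ X.Eb L M w t, Z ω * (∏ a, tot (X.V L t (w a)) ω) ^ (-θ) ∂P
        ≤ C * ∫⁻ ω in B ∩ X.Eb L M w t, Z ω ∂P := by
    intro t ht
    have ht' := Finset.mem_Ioo.1 ht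
    have hZ0 : Measurable Z := hZ.mono (A.F.le L) le_rfl
    rw [← lintegral_const_mul C hZ0]
    have hae : ∀ᵐ ω ∂P, ∀ a, T ≤ X.hm L (t - 1) (w a) ω → κ0 * T ≤ tot (X.V L t (w a)) ω := by
      rw [ae_all_iff]
      exact fun a => X.V_ge L t ht'.1 (hW a)
    refine lintegral_mono_ae ?_
    filter_upwards [ae_restrict_of_ae hae, ae_restrict_mem (hB0.inter (hE0 t))] with ω h2 h3
    obtain ⟨_, h4, _⟩ := hform t ht ω h3.2
    have h5 : ∀ a, κ0 * T ≤ tot (X.V L t (w a)) ω := fun a =>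
      h2 a (h4 a (t - 1) (Finset.mem_Ico.2 ⟨by omega, by omega⟩))
    rw [mul_comm C]
    gcongr
    exact prod_low h5 hθ
  have h2 : ∑ t ∈ Finset.Ioo s0 M, ∫⁻ ω in B ∩ X.Eb L M w t, Z ω ∂P
      ≤ Fintype.card ι * δ * ∫⁻ ω in B, Z ω ∂P := by
    rw [← lintegral_biUnion_finset]
    · have hsub : (⋃ t ∈ Finset.Ioo s0 M, B ∩ X.Eb L M w t) ⊆
          ⋃ a : ι, B ∩ {ω | 4 * T ≤ tot (A.push L (L + s0) (w a)) ω ∧
            ∃ l ∈ Finset.Icc (L + s0) (L + N), tot (rp A X.Hm L l (w a)) ω < T} := by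
        intro ω hω
        obtain ⟨t, ht, hωB, hωE⟩ := mem_iUnion₂.1 hω
        obtain ⟨h4, _, a, ha⟩ := hform t ht ω hωE
        have ht' := Finset.mem_Ioo.1 ht
        refine mem_iUnion.2 ⟨a, hωB, ?_, L + t, Finset.mem_Icc.2 ⟨by omega, by omega⟩, ha⟩
        exact (h4 a).trans ((X.tot_cp_le_rp L (w a) ω).trans (tot_rp_le _ _ _ _ _))
      refine (lintegral_mono_set hsub).trans ((lintegral_iUnion_le _ _).trans ?_)
      rw [tsum_fintype]
      calc ∑ a : ι, ∫⁻ ω in B ∩ {ω | 4 * T ≤ tot (A.push L (L + s0) (w a)) ω ∧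
            ∃ l ∈ Finset.Icc (L + s0) (L + N), tot (rp A X.Hm L l (w a)) ω < T}, Z ω ∂P
          ≤ ∑ _a : ι, δ * ∫⁻ ω in B, Z ω ∂P := by
            refine Finset.sum_le_sum fun a _ => ?_
            exact X.late L B (w a) hB (hW a) (fun ω hω => htot ω hω a) Z hZ
        _ = Fintype.card ι * δ * ∫⁻ ω in B, Z ω ∂P := by
            rw [Finset.sum_const, Finset.card_univ, nsmul_eq_mul, mul_assoc]
    · intro t ht t' ht' hne
      change Disjoint (B ∩ X.Eb L M w t) (B ∩ X.Eb L M w t')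
      rw [Set.disjoint_left]
      rintro ω ⟨_, h3⟩ ⟨_, h3'⟩
      obtain ⟨_, h4, a, ha⟩ := hform t ht ω h3
      obtain ⟨_, h4', a', ha'⟩ := hform t' ht' ω h3'
      have e1 := Finset.mem_Ioo.1 ht
      have e2 := Finset.mem_Ioo.1 ht'
      rcases lt_or_gt_of_ne hne with h5 | h5
      · exact absurd ha (not_lt.2 (h4' a t (Finset.mem_Ico.2 ⟨e1.1.le, h5⟩)))
      · exact absurd ha' (not_lt.2 (h4 a' t' (Finset.mem_Ico.2 ⟨e2.1.le, h5⟩)))
    · intro t _
      exact hB0.inter (hE0 t)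
  calc _ ≤ ∑ t ∈ Finset.Ioo s0 M, C * ∫⁻ ω in B ∩ X.Eb L M w t, Z ω ∂P := Finset.sum_le_sum h1
    _ = C * ∑ t ∈ Finset.Ioo s0 M, ∫⁻ ω in B ∩ X.Eb L M w t, Z ω ∂P := by rw [Finset.mul_sum]
    _ ≤ C * (Fintype.card ι * δ * ∫⁻ ω in B, Z ω ∂P) := by gcongr
    _ = _ := by ring

/-- good end -/
lemma good_int (hθ : 0 < θ) {L M s : ℕ} (hM1 : s0 < M) {B : Set Ω}
    {w : ι → Ω → S → ℝ≥0∞} (hS : St A φ (2 * (D + D1)) g0 L (s + 1) B w)
    {Z : Ω → ℝ≥0∞} (hZ : Measurable[A.F L] Z) :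
    ∫⁻ ω in B ∩ X.Eg L M w, Z ω * (∏ a, tot (X.V L M (w a)) ω) ^ (-θ) ∂P
      ≤ ((κ0 * T) ^ Fintype.card ι) ^ (-θ) * ∫⁻ ω in B, Z ω ∂P := by
  obtain ⟨hB, hW, htot, hgap⟩ := hS
  have hB0 : MeasurableSet B := A.F.le L _ hB
  have hE0 : MeasurableSet (X.Eg L M w) := A.F.le _ _ (X.Eg_meas hM1.le hW)
  set C := ((κ0 * T) ^ Fintype.card ι) ^ (-θ) with hC
  have hZ0 : Measurable Z := hZ.mono (A.F.le L) le_rfl
  calc ∫⁻ ω in B ∩ X.Eg L M w, Z ω * (∏ a, tot (X.V L M (w a)) ω) ^ (-θ) ∂P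
      ≤ ∫⁻ ω in B ∩ X.Eg L M w, C * Z ω ∂P := by
        have hae : ∀ᵐ ω ∂P, ∀ a, T ≤ X.hm L (M - 1) (w a) ω → κ0 * T ≤ tot (X.V L M (w a)) ω := by
          rw [ae_all_iff]
          exact fun a => X.V_ge L M hM1 (hW a)
        refine lintegral_mono_ae ?_
        filter_upwards [ae_restrict_of_ae hae, ae_restrict_mem (hB0.inter hE0)] with ω h2 h3
        have h5 : ∀ a, κ0 * T ≤ tot (X.V L M (w a)) ω := fun a =>
          h2 a (h3.2.2.2 a (M - 1) (Finset.mem_Ico.2 ⟨by omega, by omega⟩))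
        rw [mul_comm C]
        gcongr
        exact prod_low h5 hθ
    _ ≤ ∫⁻ ω in B, C * Z ω ∂P := lintegral_mono_set inter_subset_left
    _ = C * ∫⁻ ω in B, Z ω ∂P := lintegral_const_mul C hZ0

/-- floor of the home mass at small levels -/
lemma floor_ge {L l : ℕ} (hl : l ≤ s0) {w : Ω → S → ℝ≥0∞} (hw : A.Wt L w) :
    ∀ᵐ ω ∂P, tot w ω = 1 → κ1 ≤ tot (rp A X.Hm L (L + l) w) ω := by
  filter_upwards [X.floor L l hl] with ω h h1
  change κ1 ≤ tot (Home903.rpush A X.Hm L (L + l) w) ω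
  rw [Home903.tot_rpush]
  calc κ1 = tot w ω * κ1 := by rw [h1, one_mul]
    _ = ∑' x, w ω x * κ1 := by rw [tot, ENNReal.tsum_mul_right]
    _ ≤ _ := by
      refine ENNReal.tsum_le_tsum fun x => ?_
      by_cases hx : x ∈ A.L L
      · exact mul_le_mul_right (h x hx) _
      · rw [hw.supp ω x hx, zero_mul, zero_mul]

/-- probabilities from weighted integrals -/
lemma prob_le_int (hθ : 0 < θ) {B E : Set Ω} (hBE : MeasurableSet (B ∩ E))
    {m : ι → Ω → ℝ≥0∞} (hm : ∀ a, ∀ ω ∈ B, m a ω ≤ 1) :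
    P (B ∩ E) ≤ ∫⁻ ω in B ∩ E, (fun _ => (1 : ℝ≥0∞)) ω * (∏ a, m a ω) ^ (-θ) ∂P := by
  calc P (B ∩ E) = ∫⁻ ω in B ∩ E, 1 ∂P := by simp
    _ ≤ _ := by
      refine setLIntegral_mono' hBE fun ω hω => ?_
      simp only [one_mul]
      exact one_le_prod (fun a => hm a ω hω.1) hθ

include X in
/-- **one epoch of the units** -/
theorem epL (hs0 : 1 ≤ s0) (hN : s0 < N) (hθ : 0 < θ) (hT0 : T ≠ 0) (hTt : T ≠ ∞) (hκ0 : κ0 ≠ 0)
    (hκ1 : κ1 ≠ 0) (hD : 0 ≤ D) (hD1 : 0 ≤ D1) {η Ks : ℝ≥0∞}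
    (hη : (4 * T) ^ θ * K + ((κ0 * T) ^ Fintype.card ι) ^ (-θ) * (Fintype.card ι * δ) ≤ η)
    (hKs1 : ((κ0 * T) ^ Fintype.card ι) ^ (-θ) ≤ Ks)
    (hKs2 : (κ1 ^ Fintype.card ι) ^ (-θ) ≤ Ks) :
    Units12.EpL A (St (ι := ι) A φ (2 * (D + D1)) g0)
      (fun s x y => |φ y - φ x| ≤ s * (D + D1)) N θ η Ks where
  meas L s B w hS := ⟨hS.1, hS.2.1, hS.2.2.1⟩
  step L s B w M hM1 hM2 hS := by
    obtain ⟨hB, hW, htot, hgap⟩ := id hS
    have hB0 : MeasurableSet B := A.F.le L _ hB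
    have hR1 : ∀ x y, R2 φ (D + D1) x y → |φ y - φ x| ≤ ((1 : ℕ) : ℝ) * (D + D1) := by
      intro x y h
      simpa [R2] using h
    by_cases hMs : s0 < M
    · set E : ℕ → Set Ω := fun t => if t = M then X.Eg L M w else X.Eb L M w t with hE
      have hE0 : ∀ t, ∀ ω ∈ E t, ∀ a, tot (X.V L t (w a)) ω ≠ 0 := by
        intro t ω hω
        by_cases htM : t = M
        · subst htM
          rw [hE] at hω
          simp only [if_true] at hω
          exact hω.1
        · rw [hE] at hω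
          simp only [if_neg htM] at hω
          exact hω.1
      have hEm : ∀ t, MeasurableSet[A.F (L + t)] (E t) := by
        intro t
        rw [hE]
        by_cases htM : t = M
        · subst htM
          simp only [if_true]
          exact X.Eg_meas hMs.le hW
        · simp only [if_neg htM]
          exact X.Eb_meas L M hW t
      have hEbt : ∀ t, t < M → E t = X.Eb L M w t := fun t ht => by
        rw [hE]; simp only [if_neg ht.ne]
      have hm1 : ∀ t a, ∀ ω ∈ B, tot (X.V L t (w a)) ω ≤ 1 := fun t a ω hω =>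
        (X.tot_V_le L t (w a) ω).trans (htot ω hω a).le
      have hA1 : ∀ Z : Ω → ℝ≥0∞, Measurable[A.F L] Z →
          ∑ t ∈ Finset.Ico 1 M,
            ∫⁻ ω in B ∩ E t, Z ω * (∏ a, tot (X.V L t (w a)) ω) ^ (-θ) ∂P
            ≤ η * ∫⁻ ω in B, Z ω ∂P := by
        intro Z hZ
        have hsub : insert s0 (Finset.Ioo s0 M) ⊆ Finset.Ico 1 M := by
          intro t ht
          rcases Finset.mem_insert.1 ht with rfl | ht
          · exact Finset.mem_Ico.2 ⟨hs0, hMs⟩
          · have := Finset.mem_Ioo.1 ht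
            exact Finset.mem_Ico.2 ⟨by omega, this.2⟩
        rw [← Finset.sum_subset hsub, Finset.sum_insert (by simp)]
        · have e1 := X.early_int (M := M) hN hθ hT0 hTt (by linarith) hS hZ
          have e2 := X.late_int hθ hMs hM2 hS hZ
          rw [hEbt s0 hMs]
          have e3 : ∑ t ∈ Finset.Ioo s0 M,
              ∫⁻ ω in B ∩ E t, Z ω * (∏ a, tot (X.V L t (w a)) ω) ^ (-θ) ∂P
              = ∑ t ∈ Finset.Ioo s0 M,
              ∫⁻ ω in B ∩ X.Eb L M w t, Z ω * (∏ a, tot (X.V L t (w a)) ω) ^ (-θ) ∂P :=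
            Finset.sum_congr rfl fun t ht => by rw [hEbt t (Finset.mem_Ioo.1 ht).2]
          rw [e3]
          refine (add_le_add e1 e2).trans ?_
          rw [← add_mul]
          gcongr
        · intro t ht hnt
          have ht' := Finset.mem_Ico.1 ht
          have hts : t ≠ s0 := fun h => hnt (Finset.mem_insert.2 (Or.inl h))
          have hts2 : ¬ (s0 < t ∧ t < M) := fun h =>
            hnt (Finset.mem_insert.2 (Or.inr (Finset.mem_Ioo.2 h)))
          rw [hEbt t ht'.2]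
          have : X.Eb L M w t = ∅ := by
            unfold Eb
            rw [if_neg hts, if_neg hts2, inter_empty]
          rw [this, inter_empty]
          simp
      refine ⟨E, fun t a => nrm (X.V L t (w a)), fun t a => tot (X.V L t (w a)),
        fun t _ _ a => (X.V_wt L t (hW a)).meas_tot, fun t _ _ => ?_, fun t _ _ a ω hω =>
          hE0 t ω hω.2 a, ?_, fun t _ _ a => ?_, hA1, ?_, ?_⟩
      · exact st_restart hS (hEm t) (fun a => X.V_wt L t (hW a)) (hE0 t)
          (fun a ω => X.tot_V_le L t (w a) ω) (fun a ω y hy => X.V_disp hD1 L t (w a) ω y hy)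
      · -- coverage
        have hae1 : ∀ᵐ ω ∂P, ∀ a, tot (w a) ω = 1 → tot (X.cp L (w a)) ω ≠ 0 := by
          rw [ae_all_iff]
          exact fun a => X.cp_pos L (hW a)
        have hae2 : ∀ᵐ ω ∂P, ∀ t, s0 < t → ∀ a, T ≤ X.hm L (t - 1) (w a) ω →
            κ0 * T ≤ tot (X.V L t (w a)) ω := by
          rw [ae_all_iff]
          intro t
          by_cases ht : s0 < t
          · have : ∀ᵐ ω ∂P, ∀ a, T ≤ X.hm L (t - 1) (w a) ω → κ0 * T ≤ tot (X.V L t (w a)) ω := by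
              rw [ae_all_iff]
              exact fun a => X.V_ge L t ht (hW a)
            filter_upwards [this] with ω hω _ using hω
          · exact Eventually.of_forall fun ω h => absurd h ht
        filter_upwards [hae1, hae2] with ω h1 h2 hωB
        have hκT : κ0 * T ≠ 0 := mul_ne_zero hκ0 hT0
        by_cases he : ∃ a, tot (X.cp L (w a)) ω < 4 * T
        · refine ⟨s0, Finset.mem_Icc.2 ⟨hs0, hMs.le⟩, ?_⟩
          rw [hEbt s0 hMs]
          refine ⟨fun a => ?_, ?_⟩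
          · rw [V_s0]
            exact h1 a (htot ω hωB a)
          · rw [if_pos rfl]
            exact he
        · have he' : ∀ a, 4 * T ≤ tot (X.cp L (w a)) ω := by
            intro a
            by_contra hc
            exact he ⟨a, not_le.1 hc⟩
          have hs0T : ∀ a, T ≤ X.hm L s0 (w a) ω := fun a => by
            refine le_trans ?_ ((he' a).trans (X.tot_cp_le_rp L (w a) ω))
            calc T = 1 * T := (one_mul T).symm
              _ ≤ 4 * T := by gcongr; norm_num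
          by_cases hl : ∃ l, s0 < l ∧ l < M ∧ ∃ a, X.hm L l (w a) ω < T
          · classical
            obtain ⟨g1, g2, g3⟩ := Nat.find_spec hl
            set t := Nat.find hl with ht
            have hmin : ∀ a, ∀ l ∈ Finset.Ico s0 t, T ≤ X.hm L l (w a) ω := by
              intro a l hlt
              have hl' := Finset.mem_Ico.1 hlt
              rcases hl'.1.eq_or_lt with h5 | h5
              · rw [← h5]
                exact hs0T a
              · by_contra hc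
                exact Nat.find_min hl hl'.2 ⟨h5, by omega, a, not_le.1 hc⟩
            refine ⟨t, Finset.mem_Icc.2 ⟨by omega, g2.le⟩, ?_⟩
            rw [hEbt t g2]
            refine ⟨fun a => ?_, ?_⟩
            · have := h2 t g1 a (hmin a (t - 1) (Finset.mem_Ico.2 ⟨by omega, by omega⟩))
              intro h0
              rw [h0] at this
              exact hκT (le_antisymm this bot_le)
            · rw [if_neg (by omega), if_pos ⟨g1, g2⟩]
              exact ⟨⟨he', hmin⟩, g3⟩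
          · have hmin : ∀ a, ∀ l ∈ Finset.Ico s0 M, T ≤ X.hm L l (w a) ω := by
              intro a l hlt
              have hl' := Finset.mem_Ico.1 hlt
              rcases hl'.1.eq_or_lt with h5 | h5
              · rw [← h5]
                exact hs0T a
              · by_contra hc
                exact hl ⟨l, h5, hl'.2, a, not_le.1 hc⟩
            refine ⟨M, Finset.mem_Icc.2 ⟨hM1, le_rfl⟩, ?_⟩
            have : E M = X.Eg L M w := by rw [hE]; simp only [if_true]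
            rw [this]
            refine ⟨fun a => ?_, he', hmin⟩
            have := h2 M hMs a (hmin a (M - 1) (Finset.mem_Ico.2 ⟨by omega, by omega⟩))
            intro h0
            rw [h0] at this
            exact hκT (le_antisymm this bot_le)
      · -- located masses
        filter_upwards [X.V_rp hD1 L t (w a)] with ω h1 hω y
        have h2 : tot (X.V L t (w a)) ω ≠ ∞ :=
          ne_top_of_le_ne_top ENNReal.one_ne_top (hm1 t a ω hω.1)
        have h3 := mul_nrm (hE0 t ω hω.2 a) h2 y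
        change tot (X.V L t (w a)) ω * nrm (X.V L t (w a)) ω y ≤ _
        rw [h3]
        exact (h1 y).trans (Home903.rpush_mono_D hR1 _ _ _ _ _)
      · intro Z hZ
        have : E M = X.Eg L M w := by rw [hE]; simp only [if_true]
        rw [this]
        refine (X.good_int hθ hMs hS hZ).trans ?_
        gcongr
      · have h1 := hA1 (fun _ => 1) measurable_const
        rw [lintegral_const, Measure.restrict_apply MeasurableSet.univ, univ_inter, one_mul] at h1
        refine le_trans (Finset.sum_le_sum fun t _ => ?_) h1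
        exact prob_le_int hθ (hB0.inter (A.F.le _ _ (hEm t))) (fun a ω hω => hm1 t a ω hω)
    · -- short horizon
      set v : ℕ → ι → Ω → S → ℝ≥0∞ := fun t a => rp A X.Hm L (L + t) (w a) with hv
      have hvW : ∀ t a, A.Wt (L + t) (v t a) := fun t a => rp_wt X.Hm (Nat.le_add_right L t) (hW a)
      have hvle : ∀ t a ω, tot (v t a) ω ≤ tot (w a) ω := fun t a ω =>
        (tot_rp_le _ _ _ _ _).trans (A.tot_push_le (Nat.le_add_right _ _) (w a) ω)
      set E : ℕ → Set Ω := fun t => if t = M then {ω | ∀ a, tot (v M a) ω ≠ 0} else ∅ with hE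
      have hE0 : ∀ t, ∀ ω ∈ E t, ∀ a, tot (v t a) ω ≠ 0 := by
        intro t ω hω
        by_cases htM : t = M
        · subst htM
          rw [hE] at hω
          simp only [if_true] at hω
          exact hω
        · rw [hE] at hω
          simp only [if_neg htM] at hω
          exact hω.elim
      have hEm : ∀ t, MeasurableSet[A.F (L + t)] (E t) := by
        intro t
        rw [hE]
        by_cases htM : t = M
        · subst htM
          simp only [if_true, setOf_forall]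
          refine MeasurableSet.iInter fun a => ?_
          have : MeasurableSet[A.F (L + t)] {ω | tot (v t a) ω = 0} :=
            (hvW t a).meas_tot (measurableSet_singleton 0)
          exact this.compl
        · simp only [if_neg htM]
          exact @MeasurableSet.empty _ (A.F (L + t))
      have hEempty : ∀ t, t < M → E t = ∅ := fun t ht => by rw [hE]; simp only [if_neg ht.ne]
      have hm1 : ∀ t a, ∀ ω ∈ B, tot (v t a) ω ≤ 1 := fun t a ω hω =>
        (hvle t a ω).trans (htot ω hω a).le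
      have hEM : E M = {ω | ∀ a, tot (v M a) ω ≠ 0} := by rw [hE]; simp only [if_true]
      have hfl : ∀ᵐ ω ∂P, ∀ a, tot (w a) ω = 1 → κ1 ≤ tot (v M a) ω := by
        rw [ae_all_iff]
        exact fun a => X.floor_ge (not_lt.1 hMs) (hW a)
      refine ⟨E, fun t a => nrm (v t a), fun t a => tot (v t a),
        fun t _ _ a => (hvW t a).meas_tot, fun t _ _ => ?_, fun t _ _ a ω hω =>
          hE0 t ω hω.2 a, ?_, fun t _ _ a => ?_, ?_, ?_, ?_⟩
      · refine st_restart hS (hEm t) (hvW t) (hE0 t) (hvle t) (fun a ω y hy => ?_)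
        obtain ⟨x, hx1, hx2, _⟩ := Home903.rpush_ne_zero hy
        refine ⟨x, hx1, ?_⟩
        have := X.Hm_disp x y hx2
        linarith
      · filter_upwards [hfl] with ω h1 hωB
        refine ⟨M, Finset.mem_Icc.2 ⟨hM1, le_rfl⟩, ?_⟩
        rw [hEM]
        intro a h0
        have := h1 a (htot ω hωB a)
        rw [h0] at this
        exact hκ1 (le_antisymm this bot_le)
      · refine Eventually.of_forall fun ω hω y => ?_
        have h2 : tot (v t a) ω ≠ ∞ :=
          ne_top_of_le_ne_top ENNReal.one_ne_top (hm1 t a ω hω.1)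
        have h3 := mul_nrm (hE0 t ω hω.2 a) h2 y
        change tot (v t a) ω * nrm (v t a) ω y ≤ _
        rw [h3]
        refine Home903.rpush_mono_D (fun x y h => ?_) _ _ _ _ _
        have := X.Hm_disp x y h
        push_cast
        linarith
      · intro Z hZ
        have : ∑ t ∈ Finset.Ico 1 M,
            ∫⁻ ω in B ∩ E t, Z ω * (∏ a, tot (v t a) ω) ^ (-θ) ∂P = 0 := by
          refine Finset.sum_eq_zero fun t ht => ?_
          rw [hEempty t (Finset.mem_Ico.1 ht).2, inter_empty]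
          simp
        exact this.trans_le bot_le
      · intro Z hZ
        have hZ0 : Measurable Z := hZ.mono (A.F.le L) le_rfl
        calc ∫⁻ ω in B ∩ E M, Z ω * (∏ a, tot (v M a) ω) ^ (-θ) ∂P
            ≤ ∫⁻ ω in B ∩ E M, Ks * Z ω ∂P := by
              refine lintegral_mono_ae ?_
              filter_upwards [ae_restrict_of_ae hfl,
                ae_restrict_mem (hB0.inter (A.F.le _ _ (hEm M)))] with ω h2 h3
              rw [mul_comm Ks]
              gcongr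
              exact (prod_low (fun a => h2 a (htot ω h3.1 a)) hθ).trans hKs2
          _ ≤ ∫⁻ ω in B, Ks * Z ω ∂P := lintegral_mono_set inter_subset_left
          _ = Ks * ∫⁻ ω in B, Z ω ∂P := lintegral_const_mul Ks hZ0
      · have : ∑ t ∈ Finset.Ico 1 M, P (B ∩ E t) = 0 := by
          refine Finset.sum_eq_zero fun t ht => ?_
          rw [hEempty t (Finset.mem_Ico.1 ht).2, inter_empty, measure_empty]
        exact this.trans_le bot_le

end Dat

end Crest.Agent.R154.EpStep209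
private theorem rz_9d611fb2e5 : type_of% @_root_.Crest.Agent.R154.EpStep209.Dat.V.eq_1 := @_root_.Crest.Agent.R154.EpStep209.Dat.V.eq_1 -- L84
end

-- ▼ part R154/StatIn_104
section

/-! Row 154, HWPos (263's HOME MASS route): the elementary inputs of STAT (helper104): late failure
of one law with a test function, the forced step is home, no loss after a long time, numbers. -/

set_option autoImplicit false
set_option linter.unusedSectionVars false
set_option linter.deprecated false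

namespace Crest.Agent.R154.StatIn104

open MeasureTheory ProbabilityTheory Set Filter
open Crest.Agent.R154.RatioR872 Crest.Agent.R154.RatioR872.KerSys Crest.Agent.R154.Home903
open scoped ENNReal Classical

variable {S : Type*} [Countable S] {Ω : Type*} {m0 : MeasurableSpace Ω} {P : Measure Ω}
variable {A : KerSys S P}

/-- (L1) late failure of ONE law, constant threshold, any past-measurable test function -/
theorem late1 [IsFiniteMeasure P] {L s0 N : ℕ} (hs : s0 ≤ N) {Hm : S → S → Prop}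
    {w : Ω → S → ℝ≥0∞} (hw : A.Wt L w) {B : Set Ω} (hB : MeasurableSet[A.F L] B)
    (htot : ∀ ω ∈ B, tot w ω = 1) {T : ℝ≥0∞} (hT0 : T ≠ 0) (hT1 : T ≠ ∞)
    {Bd : S → Ω → ℝ≥0∞} {ν p : ℝ≥0∞} (hBm : ∀ x, Measurable[A.H L] (Bd x))
    (hBi : ∀ x ∈ A.L L, ∫⁻ ω, Bd x ω ∂P ≤ ν)
    (hBd : ∀ b, L ≤ b → b ≤ L + N → ∀ᵐ ω ∂P, ∀ x ∈ A.L L,
      ∑' y, (if Hm x y then 0 else A.G L b ω x y) * A.N b (L + N) ω y ≤ Bd x ω)
    (hp0 : p ≠ 0) (hp1 : p ≠ ∞) (hp : ∀ n, n ≤ N → p ≤ A.h n)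
    {Z : Ω → ℝ≥0∞} (hZ : Measurable[A.F L] Z) :
    ∫⁻ ω in B ∩ {ω | 4 * T ≤ tot (A.push L (L + s0) w) ω ∧
        ∃ l, L + s0 ≤ l ∧ l ≤ L + N ∧ tot (rpush A Hm L l w) ω < T}, Z ω ∂P
      ≤ ((A.h s0 - A.h N) / 2 + ν / p) / T * ∫⁻ ω in B, Z ω ∂P := by
  have hB0 : MeasurableSet B := A.F.le L _ hB
  set Lt : Set Ω := {ω | 4 * T ≤ tot (A.push L (L + s0) w) ω ∧
        ∃ l, L + s0 ≤ l ∧ l ≤ L + N ∧ tot (rpush A Hm L l w) ω < T} with hLt
  have hZ0 : Measurable Z := hZ.mono (A.F.le L) le_rfl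
  -- truncated test functions
  have key : ∀ n : ℕ, ∫⁻ ω in B ∩ Lt, min (Z ω) n ∂P
      ≤ ((A.h s0 - A.h N) / 2 + ν / p) / T * ∫⁻ ω in B, Z ω ∂P := by
    intro n
    set φ : Ω → ℝ≥0∞ := B.indicator fun ω => min (Z ω) n with hφ
    have hφm : Measurable[A.F L] φ := (hZ.min measurable_const).indicator hB
    have e1 : ∀ ω, φ ω * tot w ω = φ ω := by
      intro ω
      by_cases hω : ω ∈ B
      · rw [htot ω hω, mul_one]
      · simp [hφ, indicator_of_notMem hω]
    have hint : ∫⁻ ω, φ ω ∂P = ∫⁻ ω in B, min (Z ω) n ∂P := lintegral_indicator hB0 _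
    have hfin : ∫⁻ ω, φ ω * tot w ω ∂P ≠ ∞ := by
      simp_rw [e1]
      rw [hint]
      refine ne_top_of_le_ne_top (b := n * P B) (ENNReal.mul_ne_top (by simp) (measure_ne_top _ _)) ?_
      calc ∫⁻ ω in B, min (Z ω) n ∂P ≤ ∫⁻ _ in B, n ∂P := lintegral_mono fun ω => min_le_right _ _
        _ = n * P B := by rw [setLIntegral_const]
    have h := late (A := A) (a := L) (s := L + s0) (c := L + N) (Nat.le_add_right _ _) (by omega)
      (D := fun _ => Hm) hw hφm (T := fun _ => T) (@measurable_const _ _ _ (A.F L) _) hfin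
      (Bd := fun x => if x ∈ A.L L then Bd x else fun _ => ∞) (ν := ν) (p := p) ?_ ?_ ?_ hp0 hp1 ?_
    · have e2 : ∫⁻ ω in Lt, φ ω * T ∂P = (∫⁻ ω in B ∩ Lt, min (Z ω) n ∂P) * T := by
        rw [lintegral_mul_const' _ _ hT1]
        congr 1
        rw [hφ, lintegral_indicator hB0, Measure.restrict_restrict hB0]
      simp_rw [e1] at h
      rw [hint] at h
      have e3 : L + s0 - L = s0 := by omega
      have e4 : L + N - L = N := by omega
      rw [e3, e4] at h
      rw [← ENNReal.mul_div_right_comm,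
        ENNReal.le_div_iff_mul_le (Or.inl hT0) (Or.inl hT1), ← e2]
      refine h.trans ?_
      gcongr with ω
      exact min_le_left _ _
    · intro x
      by_cases hx : x ∈ A.L L
      · simp only [hx, if_true]; exact hBm x
      · simp only [hx, if_false]; exact @measurable_const _ _ _ (A.H L) _
    · intro x hx
      simp only [hx, if_true]; exact hBi x hx
    · intro b h1 h2
      filter_upwards [hBd b h1 h2] with ω hω x
      by_cases hx : x ∈ A.L L
      · simp only [hx, if_true]; exact hω x hx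
      · simp only [hx, if_false]; exact le_top
    · intro n hn
      exact hp n (by omega)
  have hmono : Monotone fun (n : ℕ) (ω : Ω) => min (Z ω) (n : ℝ≥0∞) := by
    intro a b hab ω
    exact min_le_min le_rfl (by exact_mod_cast hab)
  have hsup : ∀ ω, ⨆ n : ℕ, min (Z ω) (n : ℝ≥0∞) = Z ω := by
    intro ω
    refine le_antisymm (iSup_le fun n => min_le_left _ _) ?_
    refine le_of_forall_lt fun c hc => ?_
    obtain ⟨n, hn⟩ := ENNReal.exists_nat_gt hc.ne_top
    exact lt_of_lt_of_le (lt_min hc hn) (le_iSup (fun n : ℕ => min (Z ω) (n : ℝ≥0∞)) n)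
  calc ∫⁻ ω in B ∩ Lt, Z ω ∂P = ∫⁻ ω in B ∩ Lt, ⨆ n : ℕ, min (Z ω) (n : ℝ≥0∞) ∂P := by
        simp_rw [hsup]
    _ = ⨆ n : ℕ, ∫⁻ ω in B ∩ Lt, min (Z ω) (n : ℝ≥0∞) ∂P :=
        lintegral_iSup (fun n => hZ0.min measurable_const) hmono
    _ ≤ _ := iSup_le key


/-- (L3) a bounded antitone sequence loses nothing after a long time -/
theorem beta {h : ℕ → ℝ≥0∞} (hh : Antitone h) (hf : h 0 ≠ ∞) {β : ℝ≥0∞} (hβ : β ≠ 0) :
    ∃ s : ℕ, ∀ s0, s ≤ s0 → ∀ N, h s0 - h N ≤ β := by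
  have hlt : (⨅ n, h n) ≠ ∞ := ne_top_of_le_ne_top hf (iInf_le _ 0)
  obtain ⟨s, hs⟩ : ∃ s, h s < (⨅ n, h n) + β := by
    by_contra hcon
    push Not at hcon
    have h1 : (⨅ n, h n) + β ≤ ⨅ n, h n := le_iInf hcon
    exact absurd (ENNReal.lt_add_right hlt hβ) (not_lt.2 h1)
  refine ⟨s, fun s0 hs0 N => ?_⟩
  rw [tsub_le_iff_left]
  calc h s0 ≤ h s := hh hs0
    _ ≤ (⨅ n, h n) + β := hs.le
    _ ≤ h N + β := by gcongr; exact iInf_le _ _

/-- (L4a) the threshold -/
theorem num1 {a : ℝ≥0∞} (ha : a ≠ ∞) {θ : ℝ} (hθ : 0 < θ) {η : ℝ≥0∞} (hη : η ≠ 0) :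
    ∃ T : ℝ≥0∞, T ≠ 0 ∧ T ≤ 1 / 4 ∧ a * (4 * T) ^ θ ≤ η := by
  have hc : Tendsto (fun t : ℝ≥0∞ => a * t ^ θ) (nhds 0) (nhds (a * 0 ^ θ)) :=
    ENNReal.Tendsto.const_mul ((ENNReal.continuous_rpow_const).tendsto 0) (Or.inr ha)
  rw [ENNReal.zero_rpow_of_pos hθ, mul_zero] at hc
  have h1 := (hc.eventually (gt_mem_nhds (pos_iff_ne_zero.2 hη)))
  obtain ⟨ε, hε, h2⟩ := ENNReal.nhds_zero_basis.eventually_iff.1 h1
  have hm : 0 < min ε 1 := lt_min hε one_pos
  obtain ⟨t, ht0, ht1⟩ := exists_between hm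
  refine ⟨t / 4, ?_, ?_, ?_⟩
  · exact (ENNReal.div_pos ht0.ne' (by simp)).ne'
  · gcongr
    exact (ht1.trans_le (min_le_right _ _)).le
  · rw [ENNReal.mul_div_cancel (by simp) (by simp)]
    exact (h2 (show t ∈ Iio ε from ht1.trans_le (min_le_left _ _))).le

/-- (L4b) the late price -/
theorem num2 {b T p : ℝ≥0∞} (hb : b ≠ ∞) (hT : T ≠ 0) (hp : p ≠ 0) {η : ℝ≥0∞} (hη : η ≠ 0) :
    ∃ β ν : ℝ≥0∞, β ≠ 0 ∧ ν ≠ 0 ∧ β ≠ ∞ ∧ ν ≠ ∞ ∧ b * ((β / 2 + ν / p) / T) ≤ η := by
  have hTi : T⁻¹ ≠ ∞ := ENNReal.inv_ne_top.2 hT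
  have hpi : p⁻¹ ≠ ∞ := ENNReal.inv_ne_top.2 hp
  have h2i : (2 : ℝ≥0∞)⁻¹ ≠ ∞ := by simp
  have hc : Tendsto (fun t : ℝ≥0∞ => b * T⁻¹ * (2⁻¹ + p⁻¹) * t) (nhds 0)
      (nhds (b * T⁻¹ * (2⁻¹ + p⁻¹) * 0)) :=
    ENNReal.Tendsto.const_mul tendsto_id (Or.inr (by finiteness))
  rw [mul_zero] at hc
  have h1 := (hc.eventually (gt_mem_nhds (pos_iff_ne_zero.2 hη)))
  obtain ⟨ε, hε, h2⟩ := ENNReal.nhds_zero_basis.eventually_iff.1 h1
  have hm : 0 < min ε 1 := lt_min hε one_pos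
  obtain ⟨t, ht0, ht1⟩ := exists_between hm
  have htt : t ≠ ∞ := (ht1.trans_le le_top).ne
  refine ⟨t, t, ht0.ne', ht0.ne', htt, htt, ?_⟩
  have h3 := (h2 (show t ∈ Iio ε from ht1.trans_le (min_le_left _ _))).le
  refine le_trans (le_of_eq ?_) h3
  simp only [div_eq_mul_inv]
  ring

end Crest.Agent.R154.StatIn104
end

-- ▼ part R154/Stat_220
section

/-! Row 154, d ≥ 3, `κ > 0`: **STAT on `kT`** (263's HOME MASS route, leaf L1): 209's epoch step fed
with the concrete inputs of 220 / 104 / 903 / 582, iterated by 12. -/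

set_option autoImplicit false
set_option linter.unusedSectionVars false
set_option linter.deprecated false
set_option linter.unusedVariables false

namespace Crest.Agent.R154.Stat220

open MeasureTheory ProbabilityTheory Set Filter Crest.ProbabilityR.RandomEnvironment
open Crest.Agent.R154.Ren263 hiding lev
open Crest.Agent.R154.Mk561 Crest.Agent.R154.Q561 Crest.Agent.R154.RatioR872
open Crest.Agent.R154.RatioR872.KerSys
open Crest.Agent.R154.Cols220 Crest.Agent.R154.DatK220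
open Crest.Agent.R154.Flux132 (lev lev_add lev_neg lev_zero)
open scoped ENNReal Classical

variable {d : ℕ} {u : Step d} {R : ℕ} {κ : ℝ} {Q : Measure (Environment d)} [IsProbabilityMeasure Q]

/-- the forcing weight -/
noncomputable def k0 (d : ℕ) (κ : ℝ) : ℝ≥0∞ := ENNReal.ofReal (kf d κ)

lemma k0_ne (hk : 0 < kf d κ) : k0 d κ ≠ 0 := by
  unfold k0
  rw [Ne, ENNReal.ofReal_eq_zero, not_le]
  exact hk

lemma k0_le_one (u : Step d) (Q : Measure (Environment d)) [IsProbabilityMeasure Q] :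
    k0 d κ ≤ 1 := by
  have hne : (Set.univ : Set (Environment d)).Nonempty := by
    by_contra h
    rw [Set.not_nonempty_iff_eq_empty] at h
    have : Q (Set.univ) = 1 := measure_univ
    rw [h, measure_empty] at this
    exact zero_ne_one this
  obtain ⟨ω, -⟩ := hne
  have h := floor_pt u 0 κ (0 : Site d) 1 ω
  rw [pow_one] at h
  exact h.trans (by unfold gk; exact prob_le_one)

lemma hn_anti : Antitone (hn u R κ Q) := by
  intro a b hab
  unfold hn
  refine measure_mono (ClA_anti u R ?_ (by exact_mod_cast hab))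
  rw [Flux132.lev_zero]
  positivity

/-- **209's `Dat` on `kT`** -/
noncomputable def datK (F : Bind263.Frame Q κ R) (hk : 0 < kf d κ) {i : Fin d} (hi : i ≠ u.1)
    {α D : ℝ} {s0 N D0 k : ℕ} {ν p T K β : ℝ≥0∞} {g0 θ : ℝ}
    (hs1 : 1 ≤ s0) (hN : 4 * s0 < N)
    (hT : Doc74.TailH (D2Asm244.kT u R κ Q F.stat F.fin) (Doc74.ph (lat i) (lv u) α) N D ν)
    (hν : ν < k0 d κ ^ (4 * s0)) (hs0 : s0 ≤ D0) (hg : ((2 * D0 + R + 2 : ℕ) : ℝ) ≤ g0)
    (hgD : g0 ≤ D) (hp0 : p ≠ 0) (hp : ∀ n, p ≤ hn u R κ Q n) (hT0 : T ≠ 0) (hT1 : T ≠ ∞)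
    (hβ : ∀ N, hn u R κ Q s0 - hn u R κ Q N ≤ β)
    (hprod : ∀ (α : ℝ) (L : ℕ)
        (w : Fin k → Environment d → Site d → ℝ≥0∞) (B : Set (Environment d)),
        MeasurableSet[Fl u L] B →
        (∀ a, (D2Asm244.kT u R κ Q F.stat F.fin).Wt L (w a)) →
        (∀ ω ∈ B, ∀ a, tot (w a) ω = 1) →
        (∀ ω ∈ B, ∀ a b, a ≠ b → ∀ x y, w a ω x ≠ 0 → w b ω y ≠ 0 →
          ((2 * D0 + R + 1 : ℕ) : ℝ) ≤ |Doc74.ph (lat i) (lv u) α x - Doc74.ph (lat i) (lv u) α y|) →
        ∀ Z : Environment d → ℝ≥0∞, Measurable[Fl u L] Z →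
          ∫⁻ ω in B, Z ω * ∏ a, (∑' x, w a ω x * ∑' y, gcL u R κ D0 s0 L ω x y) ^ (-(2 * θ)) ∂Q
            ≤ K * ∫⁻ ω in B, Z ω ∂Q) :
    EpStep209.Dat (D2Asm244.kT u R κ Q F.stat F.fin) (Fin k) (Doc74.ph (lat i) (lv u) α) s0 N D D
      g0 θ (k0 d κ) (k0 d κ ^ s0) T K ((β / 2 + ν / p) / T) where
  gc := gcL u R κ D0 s0
  Hm := Doc74.Hm (Doc74.ph (lat i) (lv u) α) D
  up y := y + stepVec u
  gc_meas := gcL_meas u R κ D0 s0
  gc_le := gcL_le u R κ D0 s0 F
  gc_pos L := Eventually.of_forall fun ω x hx => gcL_pos u R κ D0 s0 hx hs0 hk ω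
  gc_Hm L ω x y h := by
    obtain ⟨h1, h2, h3⟩ := gcL_supp u R κ D0 s0 h
    have h4 := slope u R κ F hk hi hT (n := 4 * s0) (by omega) hν
    unfold Doc74.Hm Doc74.ph lat lv
    rw [h1, h2]
    push_cast at h4 ⊢
    have h5 : |(y i : ℝ) - x i| ≤ D0 + 1 := by exact_mod_cast h3 i
    have e : (y i : ℝ) - α * ((L : ℝ) + s0) - ((x i : ℝ) - α * L)
        = ((y i : ℝ) - x i) - α * s0 := by ring
    rw [e]
    refine (abs_sub _ _).trans ?_
    rw [abs_mul, Nat.abs_cast]
    push_cast at hg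
    have hR : (0 : ℝ) ≤ R := Nat.cast_nonneg R
    have hD0 : (0 : ℝ) ≤ D0 := Nat.cast_nonneg D0
    nlinarith
  Hm_disp x y h := h
  up_disp y := by
    have h1 : ν < k0 d κ := by
      refine hν.trans_le ?_
      calc k0 d κ ^ (4 * s0) ≤ k0 d κ ^ 1 := pow_le_pow_right_of_le_one' (k0_le_one u Q) (by omega)
        _ = k0 d κ := pow_one _
    exact up_Hm u R κ F hk hi hT (by omega) h1 y
  ue l := Eventually.of_forall fun ω y hy => by
    have hy' : lev u y = l := hy
    change k0 d κ ≤ if lev u y = l then gk u R κ ((l + 1 : ℕ) : ℤ) ω y (y + stepVec u) else 0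
    rw [if_pos hy']
    have h := floor_pt u R κ y 1 ω
    rw [pow_one, one_smul, hy'] at h
    push_cast at h ⊢
    exact h
  floor L l hl := Eventually.of_forall fun ω x hx => by
    have hx' : lev u x = L := hx
    have h4 := slope u R κ F hk hi hT (n := 4 * s0) (by omega) hν
    have hH : Doc74.Hm (Doc74.ph (lat i) (lv u) α) D x (x + l • stepVec u) := by
      unfold Doc74.Hm Doc74.ph lat lv
      have h5 : stepVec u i = 0 := by
        rcases u with ⟨v, b⟩
        simp only [stepVec]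
        exact Pi.single_eq_of_ne hi _
      have h6 : lev u (l • stepVec u) = l := by
        have h7 : lev u (stepVec u) = 1 := Flux132.lev_step_self u
        clear hl h4
        induction l with
        | zero => simp [Flux132.lev_zero]
        | succ l ih => rw [succ_nsmul, lev_add, ih, h7]; push_cast; rfl
      rw [lev_add, h6, Pi.add_apply]
      simp only [Pi.smul_apply, h5, smul_zero, add_zero]
      push_cast
      have e : (x i : ℝ) - α * ((lev u x : ℝ) + l) - ((x i : ℝ) - α * lev u x) = -(α * l) := by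
        ring
      rw [e, abs_neg, abs_mul, Nat.abs_cast]
      push_cast at h4
      have h8 : (l : ℝ) ≤ s0 := by exact_mod_cast hl
      have h9 : 0 ≤ |α| := abs_nonneg α
      have h10 : (0 : ℝ) ≤ s0 := Nat.cast_nonneg s0
      nlinarith
    refine le_trans ?_ (ENNReal.le_tsum (x + l • stepVec u))
    rw [if_pos hH]
    change k0 d κ ^ s0 ≤ if lev u x = L then gk u R κ ((L + l : ℕ) : ℤ) ω x (x + l • stepVec u)
      else 0
    rw [if_pos hx']
    have h := floor_pt u R κ x l ω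
    rw [hx'] at h
    push_cast at h ⊢
    exact (pow_le_pow_right_of_le_one' (k0_le_one u Q) hl).trans h
  prod L B w hS Z hZ := by
    refine hprod α L w B hS.1 hS.2.1 hS.2.2.1 (fun ω hω a b hab x y hx hy => ?_) Z hZ
    have h := hS.2.2.2 ω hω a b hab x y hx hy
    push_cast at hg ⊢
    simp only [zero_mul, zero_add] at h
    linarith
  late L B w hB hW htot Z hZ := by
    obtain ⟨Bd, h1, h2, h3⟩ := hT L (L + N) (Nat.le_add_right _ _) le_rfl
    have hpt : p ≠ ∞ := ne_top_of_le_ne_top (measure_ne_top (mkAnn κ Q 0) _) (hp 0)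
    have h := StatIn104.late1 (A := D2Asm244.kT u R κ Q F.stat F.fin) (L := L) (s0 := s0) (N := N)
      (by omega) (Hm := Doc74.Hm (Doc74.ph (lat i) (lv u) α) D) hW hB htot hT0 hT1 (Bd := Bd)
      (ν := ν) (p := p) h1 h2 (fun b hb1 hb2 => h3 b hb1 hb2) hp0 hpt (fun n _ => hp n) hZ
    have hset : {ω | 4 * T ≤ tot ((D2Asm244.kT u R κ Q F.stat F.fin).push L (L + s0) w) ω ∧
        ∃ l ∈ Finset.Icc (L + s0) (L + N), tot (EpStep209.rp (D2Asm244.kT u R κ Q F.stat F.fin)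
          (Doc74.Hm (Doc74.ph (lat i) (lv u) α) D) L l w) ω < T}
        ⊆ {ω | 4 * T ≤ tot ((D2Asm244.kT u R κ Q F.stat F.fin).push L (L + s0) w) ω ∧
        ∃ l, L + s0 ≤ l ∧ l ≤ L + N ∧ tot (Home903.rpush (D2Asm244.kT u R κ Q F.stat F.fin)
          (Doc74.Hm (Doc74.ph (lat i) (lv u) α) D) L l w) ω < T} := by
      rintro ω ⟨ha, l, hl, hb⟩
      obtain ⟨hl1, hl2⟩ := Finset.mem_Icc.1 hl
      exact ⟨ha, l, hl1, hl2, hb⟩
    refine (lintegral_mono_set (inter_subset_inter_right B hset)).trans (h.trans ?_)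
    gcongr
    exact hβ N

lemma tot_rp_self (F : Bind263.Frame Q κ R) {φ : Site d → ℝ} {D : ℝ} (hD : 0 ≤ D) {L : ℕ}
    {w : Environment d → Site d → ℝ≥0∞} (hw : (D2Asm244.kT u R κ Q F.stat F.fin).Wt L w)
    (ω : Environment d) :
    tot w ω ≤ tot (Home903.rpush (D2Asm244.kT u R κ Q F.stat F.fin) (Doc74.Hm φ D) L (L + 0) w) ω := by
  unfold tot
  refine ENNReal.tsum_le_tsum fun x => ?_
  by_cases hx : w ω x = 0
  · rw [hx]; exact zero_le
  · have hx' : lev u x = L := by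
      by_contra hne
      exact hx (hw.supp ω x hne)
    unfold Home903.rpush
    refine le_trans ?_ (ENNReal.le_tsum x)
    have hH : Doc74.Hm φ D x x := by unfold Doc74.Hm; simpa using hD
    rw [if_pos hH]
    have h : (1 : ℝ≥0∞) ≤ (D2Asm244.kT u R κ Q F.stat F.fin).G L (L + 0) ω x x := by
      change (1 : ℝ≥0∞) ≤ if lev u x = L then gk u R κ ((L + 0 : ℕ) : ℤ) ω x x else 0
      rw [if_pos hx']
      have h2 := floor_pt u R κ x 0 ω
      rw [pow_zero, zero_smul, add_zero, hx'] at h2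
      push_cast at h2 ⊢
      exact h2
    calc w ω x = w ω x * 1 := (mul_one _).symm
      _ ≤ _ := by gcongr

/-- **(L1) STAT on `kT`** -/
theorem stat_kT (F : Bind263.Frame Q κ R)
    (hA : annealedProb Q 0 (escapeEvent (B2d.dirVec u)) ≠ 0) (hk : 0 < kf d κ)
    {i : Fin d} (hi : i ≠ u.1) :
    Doc74.STAT (D2Asm244.kT u R κ Q F.stat F.fin) (lat i) (lv u) := by
  obtain ⟨θ, hθ, K0, hK0, hprod⟩ := prod_kT u R κ F hA hk
  obtain ⟨p, hp0, hp⟩ := exists_p F u hA
  refine ⟨θ, hθ, fun k hk1 η hη hη4 => ?_⟩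
  have hκ0 := k0_ne (d := d) hk
  have hκ1 : k0 d κ ≤ 1 := k0_le_one u Q
  have hκt : k0 d κ ≠ ∞ := ne_top_of_le_ne_top ENNReal.one_ne_top hκ1
  have hη2 : η / 2 ≠ 0 := (ENNReal.div_pos hη.ne' (by simp)).ne'
  obtain ⟨T, hT0, hT4, hT⟩ := StatIn104.num1 (a := K0 ^ k) (ENNReal.pow_ne_top hK0) hθ hη2
  have hT1 : T ≠ ∞ := ne_top_of_le_ne_top (by simp) hT4
  have hκT : (k0 d κ * T) ^ k ≠ 0 := pow_ne_zero k (mul_ne_zero hκ0 hT0)
  have hb0 : ((k0 d κ * T) ^ k) ^ (-θ) ≠ ∞ := by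
    rw [ENNReal.rpow_neg]
    refine ENNReal.inv_ne_top.2 ?_
    rw [Ne, ENNReal.rpow_eq_zero_iff, not_or]
    exact ⟨fun h => hκT h.1, fun h => by linarith [h.2]⟩
  obtain ⟨β, ν, hβ0, hν0, hβt, hνt, hβν⟩ := StatIn104.num2
    (b := ((k0 d κ * T) ^ k) ^ (-θ) * k) (T := T) (p := p)
    (ENNReal.mul_ne_top hb0 (ENNReal.natCast_ne_top k)) hT0 hp0 hη2
  obtain ⟨s1, hs1⟩ := StatIn104.beta (h := hn u R κ Q) hn_anti (measure_ne_top _ _) hβ0
  set s0 : ℕ := max s1 1 with hs0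
  have hs01 : 1 ≤ s0 := le_max_right _ _
  obtain ⟨D1, hD1⟩ := hprod s0
  set D0 : ℕ := max D1 s0 with hD0
  have hpw : k0 d κ ^ (4 * s0) ≠ 0 := pow_ne_zero _ hκ0
  have hpwt : k0 d κ ^ (4 * s0) ≠ ∞ := ENNReal.pow_ne_top hκt
  set ν' : ℝ≥0∞ := min ν (k0 d κ ^ (4 * s0) / 2) with hν'
  have hν'0 : ν' ≠ 0 := by
    rw [hν']
    exact (lt_min (pos_iff_ne_zero.2 hν0) (ENNReal.div_pos hpw (by simp))).ne'
  have hν'1 : ν' < k0 d κ ^ (4 * s0) :=
    (min_le_right _ _).trans_lt (ENNReal.half_lt_self hpw hpwt)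
  set κ1 : ℝ≥0∞ := k0 d κ ^ s0 with hκ1d
  have hκ10 : κ1 ≠ 0 := pow_ne_zero _ hκ0
  have hb1 : (κ1 ^ k) ^ (-θ) ≠ ∞ := by
    rw [ENNReal.rpow_neg]
    refine ENNReal.inv_ne_top.2 ?_
    rw [Ne, ENNReal.rpow_eq_zero_iff, not_or]
    exact ⟨fun h => pow_ne_zero k hκ10 h.1, fun h => by linarith [h.2]⟩
  set Ks : ℝ≥0∞ := max 1 (max (((k0 d κ * T) ^ k) ^ (-θ)) ((κ1 ^ k) ^ (-θ))) with hKs
  have hKst : Ks ≠ ∞ := by
    rw [hKs]
    simp only [ne_eq, max_eq_top, ENNReal.one_ne_top, hb0, hb1, or_self, not_false_eq_true]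
  set g0 : ℝ := ((2 * D0 + R + 2 : ℕ) : ℝ) with hg0
  refine ⟨Ks, ν', 4 * s0 + 1, g0, hKst, le_max_left _ _, hν'0, Nat.cast_nonneg _, ?_⟩
  intro N hN α D hgD hTl r s L n hnr w B hB hW htot hsep z
  have hD : 0 ≤ D := (Nat.cast_nonneg _).trans hgD
  have X := datK (k := k) (β := β) (K := K0 ^ k) (θ := θ) (g0 := g0) (D0 := D0) (s0 := s0) F hk hi
    hs01 (by omega) hTl hν'1 (le_max_right _ _) le_rfl hgD hp0 hp hT0 hT1
    (fun N => hs1 s0 (le_max_left _ _) N)
    (fun α L w B h1 h2 h3 h4 Z hZ => by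
      have h := hD1 D0 (le_max_left _ _) (Fin k) i α L w B h1 h2 h3 h4 Z hZ
      rwa [Fintype.card_fin] at h)
  have hδ : ((β / 2 + ν' / p) / T) ≤ ((β / 2 + ν / p) / T) := by
    gcongr
    exact min_le_left _ _
  have hep := X.epL (η := η) (Ks := Ks) hs01 (by omega) hθ hT0 hT1 hκ0 hκ10 hD hD
    (by
      rw [Fintype.card_fin]
      calc (4 * T) ^ θ * K0 ^ k
            + ((k0 d κ * T) ^ k) ^ (-θ) * (k * ((β / 2 + ν' / p) / T))
          ≤ η / 2 + η / 2 := by
            refine add_le_add ?_ ?_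
            · rw [mul_comm]; exact hT
            · refine le_trans ?_ hβν
              rw [← mul_assoc]
              gcongr
        _ = η := ENNReal.add_halves η)
    (by
      rw [Fintype.card_fin]
      exact (le_max_left _ _).trans (le_max_right _ _))
    (by
      rw [Fintype.card_fin]
      exact (le_max_right _ _).trans (le_max_right _ _))
  rcases Nat.eq_zero_or_pos n with hn0 | hn0
  · -- no level
    subst hn0
    by_cases hz : z < 1
    · have hempty : B ∩ {ω | ∏ a, tot (Home903.rpush (D2Asm244.kT u R κ Q F.stat F.fin)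
          (Doc74.Hm (Doc74.ph (lat i) (lv u) α) (2 * s * D)) L (L + 0) (w a)) ω ≤ z} = ∅ := by
        rw [Set.eq_empty_iff_forall_notMem]
        rintro ω ⟨hω, hωz⟩
        have h1 : (1 : ℝ≥0∞) ≤ ∏ a, tot (Home903.rpush (D2Asm244.kT u R κ Q F.stat F.fin)
          (Doc74.Hm (Doc74.ph (lat i) (lv u) α) (2 * s * D)) L (L + 0) (w a)) ω := by
          rw [← Finset.prod_const_one (s := (Finset.univ : Finset (Fin k)))]
          refine Finset.prod_le_prod' fun a _ => ?_
          rw [← htot ω hω a]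
          exact tot_rp_self F (by positivity) (hW a) ω
        exact absurd (h1.trans hωz) (not_le.2 hz)
      rw [hempty, measure_empty]
      exact zero_le
    · rw [not_lt] at hz
      refine (measure_mono inter_subset_left).trans ?_
      have h1 : (1 : ℝ≥0∞) ≤ (2 * Ks) ^ r * z ^ θ := by
        have h2 : (1 : ℝ≥0∞) ≤ 2 * Ks := by
          calc (1 : ℝ≥0∞) = 1 * 1 := (one_mul 1).symm
            _ ≤ 2 * Ks := mul_le_mul' (by norm_num) (le_max_left _ _)
        calc (1 : ℝ≥0∞) = 1 * 1 := (one_mul 1).symm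
          _ ≤ (2 * Ks) ^ r * z ^ θ :=
            mul_le_mul' (one_le_pow₀ h2) (ENNReal.one_le_rpow hz hθ)
      calc Q B = 1 * Q B := (one_mul _).symm
        _ ≤ _ := by
          gcongr
          exact h1.trans le_self_add
  · have hSt : EpStep209.St (D2Asm244.kT u R κ Q F.stat F.fin) (Doc74.ph (lat i) (lv u) α)
        (2 * (D + D)) g0 L s B w := by
      refine ⟨hB, hW, htot, fun ω hω a b hab x y hx hy => ?_⟩
      have h := hsep ω hω a b hab x y hx hy
      linarith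
    have h := Units12.unitsL_const hep hθ hη.ne' (hη4.trans
        (ENNReal.div_le_div_left (by norm_num) 1)) (by omega) (le_max_left _ _)
      (fun s x y z h1 h2 => by
        have e : (Doc74.ph (lat i) (lv u) α) z - (Doc74.ph (lat i) (lv u) α) x
            = ((Doc74.ph (lat i) (lv u) α) z - (Doc74.ph (lat i) (lv u) α) y)
              + ((Doc74.ph (lat i) (lv u) α) y - (Doc74.ph (lat i) (lv u) α) x) := by ring
        change |_| ≤ _
        rw [e]
        refine (abs_add_le _ _).trans ?_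
        push_cast at h1 h2 ⊢
        linarith)
      (fun s x y h1 => by
        change |_| ≤ _ at h1
        change |_| ≤ _
        refine h1.trans ?_
        push_cast
        have : (0 : ℝ) ≤ s := Nat.cast_nonneg s
        nlinarith)
      s r L n hn0 hnr B w hSt z
    have e : (fun x y => |Doc74.ph (lat i) (lv u) α y - Doc74.ph (lat i) (lv u) α x|
        ≤ (s : ℝ) * (D + D)) = Doc74.Hm (Doc74.ph (lat i) (lv u) α) (2 * s * D) := by
      funext x y
      unfold Doc74.Hm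
      rw [show (s : ℝ) * (D + D) = 2 * s * D by ring]
    simp only [e] at h
    exact h

end Crest.Agent.R154.Stat220
end

-- ▼ part R154/Fin154_843
section

/-!
# Row 154 (helper843): the leaves (L1)-(L4) of HOME v2, all closed

* `winf`, `jumpIn` : letters of 263 on `kT`, from 872's `wl_large` and 736's `jumpTail_irr`;
* **`leaves : Wrap74.Leaves`** (220 STAT, 872 JUMP, 736 TailIn, JumpIn);
* `hwpos (hI : Wrap74.IrrOf) : Top28.HWPos`, `hwue`, `row`.
-/

set_option autoImplicit false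
set_option linter.unusedVariables false

namespace Crest.Agent.R154.Fin843

open MeasureTheory ProbabilityTheory Crest.ProbabilityR.RandomEnvironment Crest.Agent.R154
open Crest.Agent.R154.Mk561 Crest.Agent.R154.Q561 Crest.Agent.R154.RatioR872
open Crest.Agent.R154.B4Inst797 (Nat0 natLaw UU lat lp natLaw_isProb nat_ne_zero)
open Crest.Agent.R154.MobW437 (wl Sl wl_pos)
open Crest.Agent.R154.Spine
open scoped ENNReal

theorem jumpTail_mono {S : Type*} {Ω : Type*} {m0 : MeasurableSpace Ω} {P : Measure Ω}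
    {A : KerSys S P} {φ : S → ℝ} {n : ℕ} {Δ Δ' : ℝ} {π : ℝ≥0∞} (h : Doc74.JumpTail A φ n Δ π)
    (hΔ : Δ' ≤ Δ) : Doc74.JumpTail A φ n Δ' π := by
  classical
  intro a x hx
  refine (h a x hx).trans (lintegral_mono fun ω => ENNReal.tsum_le_tsum fun y => ?_)
  by_cases h1 : Doc74.Jp φ Δ x y
  · have h2 : Doc74.Jp φ Δ' x y := hΔ.trans h1
    rw [if_pos h1, if_pos h2]
  · rw [if_neg h1]; exact zero_le

section leaves

variable {d : ℕ} {Q : Measure (Environment d)} [IsProbabilityMeasure Q] {κ : ℝ} {R : ℕ}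

/-- the widths are unbounded -/
theorem winf (F : Bind263.Frame Q κ R) (u : Step d) {i1 i2 : Fin d} (h1 : i1 ≠ u.1)
    (h2 : i2 ≠ u.1) (h12 : i1 ≠ i2) (hc : mkAnn κ Q 0 (Nat0 u R) ≠ 0) :
    HM263.WInf (Wrap74.Wn F u h1 h2 h12 hc) := by
  haveI : IsProbabilityMeasure (natLaw κ Q u R) := natLaw_isProb hc
  intro g
  obtain ⟨N0, hN0⟩ := StartLP872.wl_large (lp F u h1 h2 h12 hc) 0 (max g 1) (le_max_right _ _)
  refine ⟨N0, fun n hn => (le_max_left g 1).trans (hN0 (2 ^ n) ?_)⟩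
  exact hn.trans (Nat.lt_two_pow_self (n := n)).le

/-- **(L4)** `JumpIn` on `kT` -/
theorem jumpIn (F : Bind263.Frame Q κ R) (u : Step d) {i1 i2 : Fin d} (h1 : i1 ≠ u.1)
    (h2 : i2 ≠ u.1) (h12 : i1 ≠ i2) (hc : mkAnn κ Q 0 (Nat0 u R) ≠ 0) :
    HM263.JumpIn (D2Asm244.kT u R κ Q F.stat F.fin) (fun x => (x i1 : ℝ))
      (fun x => (Flux132.lev u x : ℝ)) (Wrap74.Wn F u h1 h2 h12 hc)
      (HM7299.regL (lp F u h1 h2 h12 hc) 0) := by
  haveI : IsProbabilityMeasure (natLaw κ Q u R) := natLaw_isProb hc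
  obtain ⟨π, hπ0, hπ1, l0, hl0⟩ := Home736.jumpTail_irr F u h1 h2 h12 hc 0 _ _
  refine ⟨π, 1 / 3600, l0, hπ0, hπ1, by norm_num, fun n hn A0 M B' hM hreg α => ?_⟩
  have hln : l0 ≤ 2 ^ n := hn.trans (Nat.lt_two_pow_self (n := n)).le
  have hW : 0 < wl (lp F u h1 h2 h12 hc) 0 (2 ^ n) := wl_pos _ _ _
  have hWM : 0 < wl (lp F u h1 h2 h12 hc) 0 (M * 2 ^ n) := wl_pos _ _ _
  have hreg' : ¬ (Sl (lp F u h1 h2 h12 hc) 0 (2 ^ n) ≤ A0 ∧
      wl (lp F u h1 h2 h12 hc) 0 (M * 2 ^ n) ≤ max B' 0 * wl (lp F u h1 h2 h12 hc) 0 (2 ^ n)) := by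
    rintro ⟨ha, hb⟩
    refine hreg ⟨ha, ?_⟩
    rcases le_total 0 B' with h | h
    · rwa [max_eq_left h] at hb
    · rw [max_eq_right h, zero_mul] at hb
      exact absurd hb (not_le.2 hWM)
  have hneg : (fun x => - Doc74.ph (fun x : Site d => (x i1 : ℝ))
        (fun x => (Flux132.lev u x : ℝ)) α x)
      = Doc74.ph (fun x => - Home736.latR i1 i2 0 x) (Home736.levR u) (-α) :=
    funext fun x => (Doc74.ph_neg _ _ _ _).symm
  have e1 : 1 / 3600 * 2 ^ A0 * Wrap74.Wn F u h1 h2 h12 hc n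
      ≤ 2 ^ A0 / 3600 * wl (lp F u h1 h2 h12 hc) 0 (2 ^ n) := by
    unfold Wrap74.Wn; apply le_of_eq; ring
  have e2 : 1 / 3600 * B' * Wrap74.Wn F u h1 h2 h12 hc n
      ≤ max B' 0 / 20 * wl (lp F u h1 h2 h12 hc) 0 (2 ^ n) := by
    unfold Wrap74.Wn
    have hB : B' ≤ max B' 0 := le_max_left _ _
    have hB0 : 0 ≤ max B' 0 := le_max_right _ _
    have h5 : 1 / 3600 * B' ≤ max B' 0 / 20 := by linarith
    exact mul_le_mul_of_nonneg_right h5 hW.le
  rcases hl0 (2 ^ n) hln A0 M (max B' 0) (by omega) hreg' with h3 | h3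
  · left
    rcases h3 α with h4 | h4
    · exact Or.inl (jumpTail_mono h4 e1)
    · right
      rw [hneg]
      exact jumpTail_mono h4 e1
  · right
    rcases h3 α with h4 | h4
    · exact Or.inl (jumpTail_mono h4 e2)
    · right
      rw [hneg]
      exact jumpTail_mono h4 e2

/-- the leaves of one frame -/
theorem leafAt (hd : 3 ≤ d) (F : Bind263.Frame Q κ R) (hH : KB424.Half κ Q) (hκ : 0 < κ)
    (hk : kf d κ = κ) (u : Step d)
    (hA : annealedProb Q 0 (escapeEvent (B2d.dirVec u)) ≠ 0) {i1 i2 : Fin d} (h1 : i1 ≠ u.1)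
    (h2 : i2 ≠ u.1) (h12 : i1 ≠ i2) :
    Wrap74.LeafAt F u h1 h2 h12 (nat_ne_zero F u hA) where
  stat := Stat220.stat_kT F hA (by rw [hk]; exact hκ) h1
  jump := Jump872.jUMP_kT F hd u hA hH (by rw [hk]; exact hκ)
  tail := Wrap74.tailIn_kT F u h1 h2 h12 _
  winf := winf F u h1 h2 h12 _
  nonneg := Wrap74.wn_nonneg F u h1 h2 h12 _
  jin := jumpIn F u h1 h2 h12 _

end leaves

/-- **ALL THE LEAVES (L1)-(L4).** -/
theorem leaves : Wrap74.Leaves :=
  fun d hd Q _ κ R F hH hκ hk u hA i1 i2 h1 h2 h12 => leafAt hd F hH hκ hk u hA h1 h2 h12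

/-- **(W) for UE frames** (28's letters) from (L6) alone. -/
theorem hwpos (hI : Wrap74.IrrOf) : Top28.HWPos := Wrap74.hwpos_of_leaves hI leaves


theorem t0220 (hI : Wrap74.IrrOf) : T0220 := Top28.t0220 (hwpos hI)

theorem t0221 (hI : Wrap74.IrrOf) : T0221 := Top28.t0221 (hwpos hI)


end Crest.Agent.R154.Fin843
end

-- ▼ part R154/Fin2_154_843

/-!
# Row 154 (helper843): **the uniformly elliptic half is unconditional**

`hwPos : Top28.HWPos`, `hwUE : Split796.HWUE`, `t0220 : T0220`, `t0221 : T0221`; the row from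
`NBProp` alone.
-/

set_option autoImplicit false

namespace Crest.Agent.R154.Fin843

open MeasureTheory ProbabilityTheory Crest.ProbabilityR.RandomEnvironment Crest.Agent.R154
open Crest.Agent.R154.Spine

/-- **(L6)** -/
theorem irrOf : Wrap74.IrrOf := by
  intro S _ Ω m0 P _ A lat lev W reg hST hJU hTI hInf hW hJI
  exact HM8388.irr_of A lat lev W reg hW hInf hST hJU hTI hJI



/-- **S0220** -/
theorem t0220_final : T0220 := t0220 irrOf

/-- **S0221** -/
theorem t0221_final : T0221 := t0221 irrOf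


end Crest.Agent.R154.Fin843
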