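import Crest.Agent.R154.Pair_850

-- ▼ part R154/GenWalk_850
section

/-! Row 154, B0c: generic form of the exploration and pair theorems (walk spaces with read sites). -/

set_option autoImplicit false

namespace Crest.Agent.R154

open MeasureTheory ProbabilityTheory Crest.ProbabilityR.RandomEnvironment
open scoped ENNReal

variable {d : ℕ}

/-- A walk space: countable histories, positions and read sites. -/
structure WalkSpace (d : ℕ) (Ω : Type) [mΩ : MeasurableSpace Ω] where
  /-- histories -/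
  H : ℕ → Type
  countH : ∀ n, Countable (H n)
  /-- the history up to time `n` -/
  hist : ∀ n, Ω → H n
  /-- a path with a given history -/
  ext : ∀ n, H n → Ω
  hist_ext : ∀ n h, hist n (ext n h) = h
  mono : ∀ {m n : ℕ} (X Y : Ω), m ≤ n → hist n X = hist n Y → hist m X = hist m Y
  gen : mΩ
    = MeasurableSpace.generateFrom {s | ∃ (X : Ω) (n : ℕ), s = {Y | hist n Y = hist n X}}
  /-- positions -/
  pos : Ω → ℕ → Site d
  pos_det : ∀ (n : ℕ) (X Y : Ω), hist n X = hist n Y → pos X n = pos Y n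
  /-- sites whose rows are read before time `n` -/
  read : Ω → ℕ → Set (Site d)
  read_det : ∀ (n : ℕ) (X Y : Ω), hist n X = hist n Y → read X n = read Y n
  read_sub : ∀ (X : Ω) (n : ℕ), read X n ⊆ {z | ∃ i, i < n ∧ pos X i = z}
  read_mono : ∀ (X : Ω) {m n : ℕ}, m ≤ n → read X m ⊆ read X n

namespace WalkSpace

variable {Ω : Type} [MeasurableSpace Ω] (W : WalkSpace d Ω)

instance (n : ℕ) : Countable (W.H n) := W.countH n

/-- cylinder of `X` at time `n`. -/
def cyl (X : Ω) (n : ℕ) : Set Ω := {Y | W.hist n Y = W.hist n X}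


lemma measurableSet_cyl (X : Ω) (n : ℕ) : MeasurableSet (W.cyl X n) := by
  have h : MeasurableSet[MeasurableSpace.generateFrom
      {s | ∃ (X : Ω) (n : ℕ), s = {Y | W.hist n Y = W.hist n X}}] (W.cyl X n) :=
    MeasurableSpace.measurableSet_generateFrom ⟨X, n, rfl⟩
  rwa [← W.gen] at h

/-- the family of cylinders. -/
def cyls : Set (Set Ω) := {s | ∃ (X : Ω) (n : ℕ), s = {Y | W.hist n Y = W.hist n X}}

lemma isPiSystem_cyls : IsPiSystem W.cyls := by
  rintro _ ⟨γ, n, rfl⟩ _ ⟨δ, m, rfl⟩ ⟨X, hX, hX'⟩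
  refine ⟨X, max n m, ?_⟩
  simp only [Set.mem_ofPred_eq] at hX hX'
  ext Y
  constructor
  · rintro ⟨h1, h2⟩
    simp only [Set.mem_ofPred_eq] at h1 h2 ⊢
    rcases le_total n m with h | h
    · rw [max_eq_right h, h2, hX']
    · rw [max_eq_left h, h1, hX]
  · intro hY
    simp only [Set.mem_ofPred_eq] at hY
    refine ⟨?_, ?_⟩
    · simp only [Set.mem_ofPred_eq]
      rw [W.mono Y X (le_max_left n m) hY, hX]
    · simp only [Set.mem_ofPred_eq]
      rw [W.mono Y X (le_max_right n m) hY, hX']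

/-- the cylinder of a history. -/
def hcyl (n : ℕ) (h : W.H n) : Set Ω := {Y | W.hist n Y = h}

lemma hcyl_eq (n : ℕ) (h : W.H n) : W.hcyl n h = W.cyl (W.ext n h) n := by
  ext Y
  simp [hcyl, cyl, W.hist_ext]

lemma measurableSet_hcyl (n : ℕ) (h : W.H n) : MeasurableSet (W.hcyl n h) := by
  rw [hcyl_eq]; exact W.measurableSet_cyl _ _



lemma measurableSet_of_hist (n : ℕ) (A : Set Ω)
    (hA : ∀ X Y, W.hist n X = W.hist n Y → X ∈ A → Y ∈ A) : MeasurableSet A := by
  have : A = ⋃ h : {h : W.H n // W.ext n h ∈ A}, W.hcyl n h.1 := by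
    ext X
    simp only [Set.mem_iUnion, Subtype.exists, hcyl, Set.mem_ofPred_eq]
    constructor
    · intro hX
      exact ⟨W.hist n X, hA X _ (W.hist_ext n _).symm hX, rfl⟩
    · rintro ⟨h, hh, rfl⟩
      exact hA _ X (W.hist_ext n _) hh
  rw [this]
  exact MeasurableSet.iUnion fun h => W.measurableSet_hcyl _ _


/-- stopping times. -/
def IsStop (T : Ω → ℕ∞) : Prop :=
  ∀ (X Y : Ω) (n : ℕ), W.hist n X = W.hist n Y → T X = n → T Y = n

/-- determined at a stopping time. -/
def DetBy {α : Type*} (T : Ω → ℕ∞) (F : Ω → α) : Prop :=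
  ∀ (X Y : Ω) (n : ℕ), W.hist n X = W.hist n Y → T X = n → F X = F Y

lemma detBy_comp {α β : Type*} {T : Ω → ℕ∞} {F : Ω → α} (h : W.DetBy T F) (g : α → β) :
    W.DetBy T (fun X => g (F X)) := fun X Y n hXY hn => by
  simp only [h X Y n hXY hn]

lemma measurableSet_stop_lt {T : Ω → ℕ∞} (hT : W.IsStop T) : MeasurableSet {X | T X < ⊤} := by
  have : {X | T X < ⊤} = ⋃ n : ℕ, {X | T X = n} := by
    ext X
    simp only [Set.mem_ofPred_eq, Set.mem_iUnion]
    constructor
    · intro h
      obtain ⟨n, hn⟩ := ENat.ne_top_iff_exists.1 h.ne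
      exact ⟨n, hn.symm⟩
    · rintro ⟨n, hn⟩
      rw [hn]
      exact ENat.natCast_lt_top n
  rw [this]
  exact MeasurableSet.iUnion fun n => W.measurableSet_of_hist n _ fun X Y h hX => hT X Y n h hX

/-- **decomposition at a stopping time.** -/
lemma lintegral_stop {T : Ω → ℕ∞} (hT : W.IsStop T) {F : Ω → ℝ≥0∞} (hF : W.DetBy T F)
    (P : Measure Ω) :
    ∫⁻ X in {X | T X < ⊤}, F X ∂P
      = ∑' p : (Σ n, W.H n), if T (W.ext p.1 p.2) = p.1 then
          F (W.ext p.1 p.2) * P (W.hcyl p.1 p.2) else 0 := by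
  classical
  let piece : (Σ n, W.H n) → Set Ω :=
    fun p => if T (W.ext p.1 p.2) = p.1 then W.hcyl p.1 p.2 else ∅
  have hu : {X | T X < ⊤} = ⋃ p, piece p := by
    ext X
    simp only [Set.mem_ofPred_eq, Set.mem_iUnion, piece]
    constructor
    · intro h
      obtain ⟨n, hn⟩ := ENat.ne_top_iff_exists.1 h.ne
      refine ⟨⟨n, W.hist n X⟩, ?_⟩
      have h1 : T (W.ext n (W.hist n X)) = n := hT X _ n (W.hist_ext n _).symm hn.symm
      rw [if_pos h1]
      rfl
    · rintro ⟨p, hp⟩
      by_cases h1 : T (W.ext p.1 p.2) = p.1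
      · rw [if_pos h1] at hp
        have hp' : W.hist p.1 X = p.2 := hp
        rw [hT _ X p.1 (by rw [W.hist_ext, hp']) h1]
        exact ENat.natCast_lt_top _
      · rw [if_neg h1] at hp
        exact absurd hp (Set.notMem_empty _)
  have hd : Pairwise (Function.onFun Disjoint piece) := by
    intro p q hpq
    rw [Function.onFun, Set.disjoint_left]
    intro X hX hX'
    simp only [piece] at hX hX'
    split_ifs at hX with h1
    · split_ifs at hX' with h2
      · have hp' : W.hist p.1 X = p.2 := hX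
        have hq' : W.hist q.1 X = q.2 := hX'
        have e1 := hT _ X p.1 (by rw [W.hist_ext, hp']) h1
        have e2 := hT _ X q.1 (by rw [W.hist_ext, hq']) h2
        rw [e1] at e2
        have e3 : p.1 = q.1 := by exact_mod_cast e2
        obtain ⟨n, h⟩ := p
        obtain ⟨m, h'⟩ := q
        simp only at e3
        subst e3
        simp only at hp' hq'
        exact hpq (by rw [← hp', ← hq'])
      · exact absurd hX' (Set.notMem_empty _)
    · exact absurd hX (Set.notMem_empty _)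
  have hm : ∀ p, MeasurableSet (piece p) := by
    intro p
    simp only [piece]
    split_ifs
    · exact W.measurableSet_hcyl _ _
    · exact MeasurableSet.empty
  rw [hu, lintegral_iUnion hm hd]
  refine tsum_congr fun p => ?_
  simp only [piece]
  split_ifs with h1
  · have : ∫⁻ X in W.hcyl p.1 p.2, F X ∂P = ∫⁻ _ in W.hcyl p.1 p.2, F (W.ext p.1 p.2) ∂P := by
      refine setLIntegral_congr_fun (W.measurableSet_hcyl _ _) fun X hX => ?_
      have hX' : W.hist p.1 X = p.2 := hX
      exact (hF _ X p.1 (by rw [W.hist_ext, hX']) h1).symm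
    rw [this, setLIntegral_const]
  · simp

/-- the law `P` reads only the read sites (up to `Q`-null sets). -/
def ReadsOnly (Q : Measure (Environment d)) (P : Kernel (Environment d) Ω) : Prop :=
  ∀ (γ : Ω) (n : ℕ), ∃ f : Environment d → ℝ≥0∞,
    Measurable[coordSigmaAlgebra (W.read γ n)] f ∧ (fun ω => P ω (W.cyl γ n)) =ᵐ[Q] f

end WalkSpace

open WalkSpace

/-- A sequential exploration. -/
structure GExplorer (d : ℕ) (Ω : Type) [MeasurableSpace Ω] (σ : Type*) where
  /-- rows used so far -/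
  rows : σ → Set (Site d)
  /-- law of the next walker -/
  law : σ → Kernel (Environment d) Ω
  /-- stopping time of the next walker -/
  stop : σ → Ω → ℕ∞
  /-- next state -/
  next : σ → Ω → σ

variable {Ω : Type} [MeasurableSpace Ω] {σ : Type*}

/-- validity at range `R`. -/
structure GExplorer.Valid (E : GExplorer d Ω σ) (W : WalkSpace d Ω) (Q : Measure (Environment d))
    (R : ℕ) : Prop where
  isStop : ∀ s, W.IsStop (E.stop s)
  det : ∀ s, W.DetBy (E.stop s) (E.next s)
  far : ∀ s X (n : ℕ), E.stop s X = n → W.read X n ⊆ far R (E.rows s)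
  rows_next : ∀ s X (n : ℕ), E.stop s X = n → E.rows s ∪ W.read X n ⊆ E.rows (E.next s X)
  reads : ∀ s, W.ReadsOnly Q (E.law s)

/-- quenched value. -/
noncomputable def GExplorer.qVal (E : GExplorer d Ω σ) (F : σ → ℝ≥0∞) (ω : Environment d) :
    ℕ → σ → ℝ≥0∞
  | 0, s => F s
  | n + 1, s => ∫⁻ X in {X | E.stop s X < ⊤}, E.qVal F ω n (E.next s X) ∂(E.law s ω)

/-- value with fresh environments. -/
noncomputable def GExplorer.aVal (E : GExplorer d Ω σ) (F : σ → ℝ≥0∞)
    (Q : Measure (Environment d)) : ℕ → σ → ℝ≥0∞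
  | 0, s => F s
  | n + 1, s => ∫⁻ X in {X | E.stop s X < ⊤}, E.aVal F Q n (E.next s X) ∂(Q.bind (E.law s))

section explore

variable (E : GExplorer d Ω σ) {W : WalkSpace d Ω} {Q : Measure (Environment d)} {R : ℕ}
include W

lemma GExplorer.qVal_succ (hE : E.Valid W Q R) (F : σ → ℝ≥0∞)
    (ω : Environment d) (n : ℕ) (s : σ) :
    E.qVal F ω (n + 1) s = ∑' p : (Σ n, W.H n), if E.stop s (W.ext p.1 p.2) = p.1 then
      E.qVal F ω n (E.next s (W.ext p.1 p.2)) * (E.law s ω) (W.hcyl p.1 p.2) else 0 := by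
  rw [GExplorer.qVal,
    W.lintegral_stop (hE.isStop s) (W.detBy_comp (hE.det s) fun t => E.qVal F ω n t)]

lemma GExplorer.aVal_succ (hE : E.Valid W Q R) (F : σ → ℝ≥0∞) (n : ℕ) (s : σ) :
    E.aVal F Q (n + 1) s = ∑' p : (Σ n, W.H n), if E.stop s (W.ext p.1 p.2) = p.1 then
      E.aVal F Q n (E.next s (W.ext p.1 p.2)) * (Q.bind (E.law s)) (W.hcyl p.1 p.2) else 0 := by
  rw [GExplorer.aVal,
    W.lintegral_stop (hE.isStop s) (W.detBy_comp (hE.det s) fun t => E.aVal F Q n t)]

lemma GExplorer.measurable_law (s : σ) (n : ℕ) (h : W.H n) :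
    Measurable fun ω => (E.law s ω) (W.hcyl n h) :=
  Kernel.measurable_coe _ (W.measurableSet_hcyl n h)

lemma GExplorer.measurable_qVal (hE : E.Valid W Q R) (F : σ → ℝ≥0∞)
    (n : ℕ) : ∀ s, Measurable fun ω : Environment d => E.qVal F ω n s := by
  induction n with
  | zero => intro s; exact measurable_const
  | succ n ih =>
    intro s
    simp_rw [E.qVal_succ hE]
    refine Measurable.ennreal_tsum fun p => ?_
    by_cases h : E.stop s (W.ext p.1 p.2) = p.1
    · simp only [h, if_true]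
      exact (ih _).mul (E.measurable_law (W := W) s p.1 p.2)
    · simp only [h, if_false]
      exact measurable_const

/-- **SEQUENTIAL EXPLORATION THEOREM (generic form).** -/
theorem GExplorer.explore (hE : E.Valid W Q R) (hQ : IndepAt R Q) (F : σ → ℝ≥0∞) (n : ℕ) :
    ∀ (s : σ) (Φ : Environment d → ℝ≥0∞), Measurable[coordSigmaAlgebra (E.rows s)] Φ →
      ∫⁻ ω, Φ ω * E.qVal F ω n s ∂Q = (∫⁻ ω, Φ ω ∂Q) * E.aVal F Q n s := by
  induction n with
  | zero =>
    intro s Φ hΦ
    simp only [GExplorer.qVal, GExplorer.aVal]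
    exact lintegral_mul_const _ (hΦ.mono (coordSigmaAlgebra_le _) le_rfl)
  | succ n ih =>
    intro s Φ hΦ
    have hΦ' : Measurable Φ := hΦ.mono (coordSigmaAlgebra_le _) le_rfl
    simp_rw [E.qVal_succ hE, ← ENNReal.tsum_mul_left]
    rw [lintegral_tsum]
    · rw [E.aVal_succ hE, ← ENNReal.tsum_mul_left]
      refine tsum_congr fun p => ?_
      by_cases h : E.stop s (W.ext p.1 p.2) = p.1
      · simp only [h, if_true]
        have hfar := hE.far s _ p.1 h
        have hrow := hE.rows_next s _ p.1 h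
        obtain ⟨f, hf, hfe⟩ := hE.reads s (W.ext p.1 p.2) p.1
        rw [← W.hcyl_eq] at hfe
        have h1 : ∫⁻ ω, Φ ω * (E.qVal F ω n (E.next s (W.ext p.1 p.2)) *
            (E.law s ω) (W.hcyl p.1 p.2)) ∂Q
            = ∫⁻ ω, (Φ ω * f ω) * E.qVal F ω n (E.next s (W.ext p.1 p.2)) ∂Q := by
          refine lintegral_congr_ae ?_
          filter_upwards [hfe] with ω hω
          rw [hω]; ring
        have h2 : (Q.bind (E.law s)) (W.hcyl p.1 p.2) = ∫⁻ ω, f ω ∂Q := by
          rw [Measure.bind_apply (W.measurableSet_hcyl _ _) (Kernel.measurable _).aemeasurable]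
          exact lintegral_congr_ae hfe
        rw [h1, ih _ (fun ω => Φ ω * f ω) ?_, h2]
        · rw [lintegral_mul_eq_lintegral_mul_lintegral_of_independent_measurableSpace
            (coordSigmaAlgebra_le _) (coordSigmaAlgebra_le _)
            (hQ (E.rows s) (W.read (W.ext p.1 p.2) p.1) ?_) hΦ hf]
          · ring
          · intro a ha b hb
            exact hfar hb a ha
        · refine Measurable.mul ?_ ?_
          · exact hΦ.mono (coordSigmaAlgebra_mono (Set.subset_union_left.trans hrow)) le_rfl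
          · exact hf.mono (coordSigmaAlgebra_mono (Set.subset_union_right.trans hrow)) le_rfl
      · simp [h]
    · intro p
      refine Measurable.aemeasurable ?_
      refine hΦ'.mul ?_
      by_cases h : E.stop s (W.ext p.1 p.2) = p.1
      · simp only [h, if_true]
        exact (E.measurable_qVal hE F n _).mul (E.measurable_law (W := W) s p.1 p.2)
      · simp only [h, if_false]
        exact measurable_const

theorem GExplorer.explore_prob [IsProbabilityMeasure Q] (hE : E.Valid W Q R) (hQ : IndepAt R Q)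
    (F : σ → ℝ≥0∞) (n : ℕ) (s : σ) :
      ∫⁻ ω, E.qVal F ω n s ∂Q = E.aVal F Q n s := by
  have := E.explore hE hQ F n s (fun _ => 1) measurable_const
  simpa using this

end explore

end Crest.Agent.R154
private theorem rz_a0d4420155 : type_of% @_root_.Crest.Agent.R154.GExplorer.aVal.eq_def := @_root_.Crest.Agent.R154.GExplorer.aVal.eq_def -- L250
private theorem rz_3c466ba6ed : type_of% @_root_.Crest.Agent.R154.GExplorer.aVal.eq_1 := @_root_.Crest.Agent.R154.GExplorer.aVal.eq_1 -- L250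
private theorem rz_8e40e36212 : type_of% @_root_.Crest.Agent.R154.GExplorer.qVal.eq_def := @_root_.Crest.Agent.R154.GExplorer.qVal.eq_def -- L244
private theorem rz_ec9f4798a0 : type_of% @_root_.Crest.Agent.R154.GExplorer.qVal.eq_1 := @_root_.Crest.Agent.R154.GExplorer.qVal.eq_1 -- L244
end

-- ▼ part R154/GenPair_850

/-! Row 154, B0c: the pair theorem on a walk space, K1 and KEY. -/

set_option autoImplicit false

namespace Crest.Agent.R154

open MeasureTheory ProbabilityTheory Crest.ProbabilityR.RandomEnvironment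
open scoped ENNReal

variable {d : ℕ} {Ω : Type} [MeasurableSpace Ω]

namespace WalkSpace

variable (W : WalkSpace d Ω)

/-- the path frozen at time `t`. -/
noncomputable def freeze (t : ℕ∞) (X : Ω) : Ω :=
  if t = ⊤ then X else W.ext t.toNat (W.hist t.toNat X)

lemma freeze_top (X : Ω) : W.freeze ⊤ X = X := by simp [freeze]

lemma freeze_coe (n : ℕ) (X : Ω) : W.freeze (n : ℕ∞) X = W.ext n (W.hist n X) := by
  simp [freeze]

lemma hist_freeze_of_le {n : ℕ} {t : ℕ∞} (h : (n : ℕ∞) ≤ t) (X : Ω) :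
    W.hist n (W.freeze t X) = W.hist n X := by
  induction t with
  | top => rw [freeze_top]
  | coe m =>
    rw [freeze_coe]
    exact W.mono _ _ (by exact_mod_cast h) (W.hist_ext m _)

lemma freeze_congr {m : ℕ} {X Y : Ω} (h : W.hist m X = W.hist m Y) :
    W.freeze (m : ℕ∞) X = W.freeze (m : ℕ∞) Y := by
  rw [freeze_coe, freeze_coe, h]

lemma hist_freeze_self (n : ℕ) (X : Ω) : W.hist n X = W.hist n (W.freeze (n : ℕ∞) X) :=
  (W.hist_freeze_of_le le_rfl X).symm

/-- sites read up to time `t`. -/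
def readE (X : Ω) (t : ℕ∞) : Set (Site d) := {z | ∃ i : ℕ, (i : ℕ∞) ≤ t ∧ z ∈ W.read X i}

lemma readE_coe (X : Ω) (n : ℕ) : W.readE X (n : ℕ∞) = W.read X n := by
  ext z
  constructor
  · rintro ⟨i, hi, hz⟩
    exact W.read_mono X (by exact_mod_cast hi) hz
  · intro hz
    exact ⟨n, le_rfl, hz⟩

lemma readE_mono (X : Ω) {s t : ℕ∞} (h : s ≤ t) : W.readE X s ⊆ W.readE X t :=
  fun _ ⟨i, hi, hz⟩ => ⟨i, hi.trans h, hz⟩

lemma agree_pos {n : ℕ} {X Y : Ω} (h : W.hist n X = W.hist n Y) : Agree n (W.pos X) (W.pos Y) :=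
  fun i hi => W.pos_det i X Y (W.mono X Y hi h)

/-- first time the position is within distance `R` of `V`. -/
noncomputable def contact (R : ℕ) (V : Set (Site d)) (X : Ω) : ℕ∞ :=
  Crest.Agent.R154.contact R V (W.pos X)

lemma contact_le {R : ℕ} {V : Set (Site d)} {X : Ω} {n : ℕ} (h : W.pos X n ∉ far R V) :
    W.contact R V X ≤ n := firstTime_le (p := fun z => z ∉ far R V) (X := W.pos X) h


lemma contact_eq_top_iff {R : ℕ} {V : Set (Site d)} {X : Ω} :
    W.contact R V X = ⊤ ↔ ∀ i, W.pos X i ∈ far R V := by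
  have := firstTime_eq_top_iff (p := fun z => z ∉ far R V) (X := W.pos X)
  simp only [not_not] at this
  exact this

lemma isStop_pos {T : Path d → ℕ∞} (hT : Crest.Agent.R154.IsStop T) :
    W.IsStop (fun X => T (W.pos X)) :=
  fun X Y n h hn => hT (W.pos X) (W.pos Y) n (W.agree_pos h) hn

lemma isStop_contact (R : ℕ) (V : Set (Site d)) : W.IsStop (W.contact R V) :=
  W.isStop_pos (isStop_firstTime _)

lemma isStop_min_nat {T : Ω → ℕ∞} (hT : W.IsStop T) (k : ℕ) :
    W.IsStop (fun X => min (T X) k) := by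
  intro X Y n hXY h
  simp only at h ⊢
  rcases le_total (T X) k with hk | hk
  · rw [min_eq_left hk] at h
    rw [hT X Y n hXY h, ← h, min_eq_left hk]
  · rw [min_eq_right hk] at h
    have hn : n = k := by exact_mod_cast h.symm
    subst hn
    rcases le_total (T Y) n with h'' | h''
    · obtain ⟨m, hm⟩ := ENat.ne_top_iff_exists.1 (ne_top_of_le_ne_top (ENat.natCast_ne_top n) h'')
      have hmn : m ≤ n := by
        rw [← hm] at h''
        exact_mod_cast h''
      have := hT Y X m (W.mono Y X hmn hXY.symm) hm.symm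
      rw [this] at hk
      have : n ≤ m := by exact_mod_cast hk
      rw [← hm, le_antisymm hmn this, min_self]
    · rw [min_eq_right h'']

lemma isCountablySpanning_cyls [Nonempty Ω] : IsCountablySpanning W.cyls := by
  have : Nonempty (W.H 0) := ⟨W.hist 0 (Classical.arbitrary Ω)⟩
  obtain ⟨f, hf⟩ := exists_surjective_nat (W.H 0)
  refine ⟨fun k => W.hcyl 0 (f k), fun k => ⟨W.ext 0 (f k), 0, ?_⟩, ?_⟩
  · rw [W.hist_ext]; rfl
  rw [Set.eq_univ_iff_forall]
  intro X
  obtain ⟨k, hk⟩ := hf (W.hist 0 X)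
  rw [Set.mem_iUnion]
  exact ⟨k, hk.symm⟩

lemma gen_prod [Nonempty Ω] : (inferInstance : MeasurableSpace (Ω × Ω)) =
    MeasurableSpace.generateFrom (Set.image2 (· ×ˢ ·) W.cyls W.cyls) :=
  (generateFrom_eq_prod W.gen.symm W.gen.symm W.isCountablySpanning_cyls
      W.isCountablySpanning_cyls).symm

lemma measure_ext_prod [Nonempty Ω] {μ ν : Measure (Ω × Ω)} [IsFiniteMeasure μ]
    [IsFiniteMeasure ν]
    (h : ∀ (γ δ : Ω) (n m : ℕ), μ (W.cyl γ n ×ˢ W.cyl δ m) = ν (W.cyl γ n ×ˢ W.cyl δ m)) :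
    μ = ν := by
  refine ext_of_generate_finite _ W.gen_prod (W.isPiSystem_cyls.prod W.isPiSystem_cyls) ?_ ?_
  · rintro _ ⟨_, ⟨γ, n, rfl⟩, _, ⟨δ, m, rfl⟩, rfl⟩
    exact h γ δ n m
  · have : (Set.univ : Set (Ω × Ω))
        = ⋃ h : W.H 0 × W.H 0, W.hcyl 0 h.1 ×ˢ W.hcyl 0 h.2 := by
      ext X
      simp only [Set.mem_univ, Set.mem_iUnion, true_iff]
      exact ⟨(W.hist 0 X.1, W.hist 0 X.2), rfl, rfl⟩
    have hd : Pairwise (Function.onFun Disjoint
        fun h : W.H 0 × W.H 0 => W.hcyl 0 h.1 ×ˢ W.hcyl 0 h.2) := by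
      intro h h' hne
      rw [Function.onFun, Set.disjoint_left]
      rintro X ⟨hX, hX1⟩ ⟨hX', hX1'⟩
      exact hne (Prod.ext (hX.symm.trans hX') (hX1.symm.trans hX1'))
    rw [this, measure_iUnion hd fun _ => (W.measurableSet_hcyl _ _).prod (W.measurableSet_hcyl _ _),
      measure_iUnion hd fun _ => (W.measurableSet_hcyl _ _).prod (W.measurableSet_hcyl _ _)]
    refine tsum_congr fun h' => ?_
    rw [W.hcyl_eq, W.hcyl_eq]
    exact h _ _ _ _

/-- same environment. -/
noncomputable def same (Q : Measure (Environment d)) (P₁ P₂ : Kernel (Environment d) Ω) :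
    Measure (Ω × Ω) := Q.bind (P₁ ×ₖ P₂)

/-- independent environments. -/
noncomputable def ind (Q : Measure (Environment d)) (P₁ P₂ : Kernel (Environment d) Ω) :
    Measure (Ω × Ω) := (Q.bind P₁).prod (Q.bind P₂)

end WalkSpace

open WalkSpace

instance instFinBind (Q : Measure (Environment d)) [IsProbabilityMeasure Q]
    (P : Kernel (Environment d) Ω) [IsFiniteKernel P] : IsFiniteMeasure (Q.bind P) :=
  inferInstance

instance instFinSame (Q : Measure (Environment d)) [IsProbabilityMeasure Q]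
    (P₁ P₂ : Kernel (Environment d) Ω) [IsFiniteKernel P₁] [IsFiniteKernel P₂] :
    IsFiniteMeasure (WalkSpace.same Q P₁ P₂) := by
  unfold WalkSpace.same; infer_instance

instance instFinInd (Q : Measure (Environment d)) [IsProbabilityMeasure Q]
    (P₁ P₂ : Kernel (Environment d) Ω) [IsFiniteKernel P₁] [IsFiniteKernel P₂] :
    IsFiniteMeasure (WalkSpace.ind Q P₁ P₂) := by
  unfold WalkSpace.ind; infer_instance

namespace WalkSpace

variable (W : WalkSpace d Ω)

lemma same_apply (Q : Measure (Environment d)) (P₁ P₂ : Kernel (Environment d) Ω)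
    [IsSFiniteKernel P₁] [IsSFiniteKernel P₂] {B : Set (Ω × Ω)} (hB : MeasurableSet B) :
    same Q P₁ P₂ B = ∫⁻ ω, ((P₁ ω).prod (P₂ ω)) B ∂Q := by
  rw [same, Measure.bind_apply hB (Kernel.measurable _).aemeasurable]
  refine lintegral_congr fun ω => ?_
  rw [Kernel.prod_apply]

/-- the pair `(X stopped at S, T stopped at its first contact with the rows read by X)`. -/
noncomputable def stopPair (R : ℕ) (S : Ω → ℕ∞) (p : Ω × Ω) : Ω × Ω :=
  (W.freeze (S p.1) p.1, W.freeze (W.contact R (W.readE p.1 (S p.1)) p.2) p.2)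

/-- rows of a list of stopped paths. -/
def listRows (s : List (Ω × ℕ)) : Set (Site d) := {z | ∃ q ∈ s, z ∈ W.read q.1 q.2}

/-- stopping time in the pair exploration. -/
noncomputable def pairStop (R : ℕ) (S : Ω → ℕ∞) (k : ℕ) (s : List (Ω × ℕ)) (X : Ω) : ℕ∞ :=
  match s with
  | [] => min (S X) k
  | q :: l => min (W.contact R (W.listRows (q :: l)) X) k

/-- the pair exploration, cut at time `k`. -/
noncomputable def pairExp (R : ℕ) (S : Ω → ℕ∞) (P₁ P₂ : Kernel (Environment d) Ω) (k : ℕ) :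
    GExplorer d Ω (List (Ω × ℕ)) where
  rows s := W.listRows s
  law s := match s with
    | [] => P₁
    | _ :: _ => P₂
  stop := W.pairStop R S k
  next s X := (W.freeze (W.pairStop R S k s X) X, (W.pairStop R S k s X).toNat) :: s

lemma pairExp_valid (R : ℕ) {S : Ω → ℕ∞} (hS : W.IsStop S) (Q : Measure (Environment d))
    {P₁ P₂ : Kernel (Environment d) Ω} (h₁ : W.ReadsOnly Q P₁) (h₂ : W.ReadsOnly Q P₂) (k : ℕ) :
    (W.pairExp R S P₁ P₂ k).Valid W Q R where
  isStop s := by
    cases s with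
    | nil => exact W.isStop_min_nat hS k
    | cons q l => exact W.isStop_min_nat (W.isStop_contact _ _) k
  det s := by
    intro X Y n hXY hn
    have hY : W.pairStop R S k s Y = n := by
      cases s with
      | nil => exact W.isStop_min_nat hS k X Y n hXY hn
      | cons q l => exact W.isStop_min_nat (W.isStop_contact _ _) k X Y n hXY hn
    have hX : W.pairStop R S k s X = n := hn
    simp only [pairExp, hX, hY, W.freeze_congr hXY]
  far s := by
    intro X n hn z hz
    cases s with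
    | nil =>
      intro a ha
      obtain ⟨q, hq, _⟩ := ha
      exact absurd hq (List.not_mem_nil)
    | cons q l =>
      have h1 : min (W.contact R (W.listRows (q :: l)) X) (k : ℕ∞) = n := hn
      obtain ⟨i, hi, rfl⟩ := W.read_sub X n hz
      by_contra hcon
      have h2 : W.contact R (W.listRows (q :: l)) X ≤ i := W.contact_le hcon
      have h3 : (n : ℕ∞) ≤ i := h1 ▸ (min_le_left _ _).trans h2
      have h4 : n ≤ i := by exact_mod_cast h3
      omega
  rows_next s := by
    intro X n hn z hz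
    have hX : W.pairStop R S k s X = n := hn
    rcases hz with hz | hz
    · obtain ⟨q, hq, hz⟩ := hz
      exact ⟨q, List.mem_cons_of_mem _ hq, hz⟩
    · refine ⟨_, List.mem_cons_self, ?_⟩
      simp only [hX, ENat.toNat_natCast]
      rw [← W.read_det n X _ (W.hist_freeze_self n X)]
      exact hz
  reads s := by
    cases s with
    | nil => exact h₁
    | cons q l => exact h₂

/-- the cut events. -/
def cutEv (R : ℕ) (S : Ω → ℕ∞) (γ δ : Ω) (n m k : ℕ) : Set (Ω × Ω) :=
  {p | W.freeze (min (S p.1) k) p.1 ∈ W.cyl γ n ∧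
    W.freeze (min (W.contact R (W.readE p.1 (min (S p.1) k)) p.2) k) p.2 ∈ W.cyl δ m}

lemma measurableSet_of_hist_pair (k : ℕ) (A : Set (Ω × Ω))
    (hA : ∀ p q : Ω × Ω, W.hist k p.1 = W.hist k q.1 → W.hist k p.2 = W.hist k q.2 →
      p ∈ A → q ∈ A) : MeasurableSet A := by
  have : A = ⋃ h : {h : W.H k × W.H k // (W.ext k h.1, W.ext k h.2) ∈ A},
      W.hcyl k h.1.1 ×ˢ W.hcyl k h.1.2 := by
    ext p
    simp only [Set.mem_iUnion, Subtype.exists, hcyl, Set.mem_prod, Set.mem_ofPred_eq]
    constructor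
    · intro hp
      exact ⟨(W.hist k p.1, W.hist k p.2),
        hA p _ (W.hist_ext k _).symm (W.hist_ext k _).symm hp, rfl, rfl⟩
    · rintro ⟨h, hh, h1, h2⟩
      exact hA _ p (by rw [W.hist_ext, h1]) (by rw [W.hist_ext, h2]) hh
  rw [this]
  exact MeasurableSet.iUnion fun h =>
    (W.measurableSet_hcyl _ _).prod (W.measurableSet_hcyl _ _)

lemma cutEv_congr (R : ℕ) {S : Ω → ℕ∞} (hS : W.IsStop S) (γ δ : Ω) (n m k : ℕ)
    (p q : Ω × Ω) (h1 : W.hist k p.1 = W.hist k q.1) (h2 : W.hist k p.2 = W.hist k q.2)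
    (hp : p ∈ W.cutEv R S γ δ n m k) : q ∈ W.cutEv R S γ δ n m k := by
  obtain ⟨hp1, hp2⟩ := hp
  obtain ⟨j, hj⟩ := ENat.ne_top_iff_exists.1 (min_nat_lt_top (S p.1) k).ne
  have hjk : j ≤ k := by
    have : (j : ℕ∞) ≤ k := hj ▸ min_le_right _ _
    exact_mod_cast this
  have hj1 := W.mono _ _ hjk h1
  have hq : min (S q.1) (k : ℕ∞) = j := W.isStop_min_nat hS k p.1 q.1 j hj1 hj.symm
  have e1 : W.freeze (min (S q.1) k) q.1 = W.freeze (min (S p.1) k) p.1 := by
    rw [hq, ← hj]
    exact (W.freeze_congr hj1).symm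
  have e2 : W.readE q.1 (min (S q.1) k) = W.readE p.1 (min (S p.1) k) := by
    rw [hq, ← hj, W.readE_coe, W.readE_coe]
    exact (W.read_det j _ _ hj1).symm
  refine ⟨by rw [e1]; exact hp1, ?_⟩
  rw [e2]
  set V := W.readE p.1 (min (S p.1) k) with hV
  obtain ⟨l, hl⟩ := ENat.ne_top_iff_exists.1 (min_nat_lt_top (W.contact R V p.2) k).ne
  have hlk : l ≤ k := by
    have : (l : ℕ∞) ≤ k := hl ▸ min_le_right _ _
    exact_mod_cast this
  have hl2 := W.mono _ _ hlk h2
  have hq2 : min (W.contact R V q.2) (k : ℕ∞) = l :=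
    W.isStop_min_nat (W.isStop_contact _ _) k p.2 q.2 l hl2 hl.symm
  rw [hq2, ← W.freeze_congr hl2, hl]
  exact hp2

lemma measurableSet_cutEv (R : ℕ) {S : Ω → ℕ∞} (hS : W.IsStop S) (γ δ : Ω) (n m k : ℕ) :
    MeasurableSet (W.cutEv R S γ δ n m k) :=
  W.measurableSet_of_hist_pair k _ fun p q h1 h2 => W.cutEv_congr R hS γ δ n m k p q h1 h2

/-- payoff of the pair exploration. -/
noncomputable def pairPay (γ δ : Ω) (n m : ℕ) (s : List (Ω × ℕ)) : ℝ≥0∞ :=
  match s with
  | q2 :: q1 :: _ => (W.cyl γ n).indicator 1 q1.1 * (W.cyl δ m).indicator 1 q2.1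
  | _ => 0

lemma listRows_single (X : Ω) (n : ℕ) : W.listRows [(X, n)] = W.read X n := by
  ext z
  simp [listRows]

lemma pairPay_eq (R : ℕ) {S : Ω → ℕ∞} (P₁ P₂ : Kernel (Environment d) Ω) (γ δ : Ω)
    (n m k : ℕ) (X T : Ω) :
    W.pairPay γ δ n m ((W.pairExp R S P₁ P₂ k).next ((W.pairExp R S P₁ P₂ k).next [] X) T)
      = (W.cutEv R S γ δ n m k).indicator 1 (X, T) := by
  classical
  obtain ⟨j, hj⟩ := ENat.ne_top_iff_exists.1 (min_nat_lt_top (S X) k).ne
  have e1 : W.pairStop R S k [] X = j := hj.symm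
  have e2 : W.listRows [(W.freeze (W.pairStop R S k [] X) X, (W.pairStop R S k [] X).toNat)]
      = W.readE X (min (S X) k) := by
    rw [e1, W.listRows_single, ← hj, W.readE_coe, ENat.toNat_natCast]
    exact (W.read_det j _ _ (W.hist_freeze_self j X)).symm
  simp only [pairExp, pairPay]
  simp only [pairStop] at e2 ⊢
  rw [e2]
  simp only [Set.indicator_apply, cutEv, Set.mem_ofPred_eq, Pi.one_apply]
  by_cases h1 : W.freeze (min (S X) k) X ∈ W.cyl γ n <;>
    by_cases h2 : W.freeze (min (W.contact R (W.readE X (min (S X) k)) T) k) T ∈ W.cyl δ m <;>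
    simp [h1, h2]

lemma pairStop_lt_top (R : ℕ) (S : Ω → ℕ∞) (k : ℕ) (s : List (Ω × ℕ)) (X : Ω) :
    W.pairStop R S k s X < ⊤ := by
  cases s with
  | nil => exact min_nat_lt_top _ _
  | cons q l => exact min_nat_lt_top _ _

/-- the two laws agree on the cut events. -/
lemma cutEv_eq (R : ℕ) {S : Ω → ℕ∞} (hS : W.IsStop S) (Q : Measure (Environment d))
    [IsProbabilityMeasure Q] (hQ : IndepAt R Q) {P₁ P₂ : Kernel (Environment d) Ω}
    [IsFiniteKernel P₁] [IsFiniteKernel P₂] (h₁ : W.ReadsOnly Q P₁) (h₂ : W.ReadsOnly Q P₂)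
    (γ δ : Ω) (n m k : ℕ) :
    same Q P₁ P₂ (W.cutEv R S γ δ n m k) = ind Q P₁ P₂ (W.cutEv R S γ δ n m k) := by
  have hmeas := W.measurableSet_cutEv R hS γ δ n m k
  have key := (W.pairExp R S P₁ P₂ k).explore_prob (W.pairExp_valid R hS Q h₁ h₂ k) hQ
    (W.pairPay γ δ n m) 2 []
  have huniv : ∀ s, {X | (W.pairExp R S P₁ P₂ k).stop s X < ⊤} = Set.univ := by
    intro s
    rw [Set.eq_univ_iff_forall]
    intro X
    exact W.pairStop_lt_top R S k s X
  have hq : ∀ ω, (W.pairExp R S P₁ P₂ k).qVal (W.pairPay γ δ n m) ω 2 []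
      = ((P₁ ω).prod (P₂ ω)) (W.cutEv R S γ δ n m k) := by
    intro ω
    rw [Measure.prod_apply hmeas]
    simp only [GExplorer.qVal, huniv, Measure.restrict_univ]
    refine lintegral_congr fun X => ?_
    rw [← lintegral_indicator_one (measurable_prodMk_left hmeas)]
    refine lintegral_congr fun T => ?_
    rw [W.pairPay_eq]
    rfl
  have ha : (W.pairExp R S P₁ P₂ k).aVal (W.pairPay γ δ n m) Q 2 []
      = ((Q.bind P₁).prod (Q.bind P₂)) (W.cutEv R S γ δ n m k) := by
    rw [Measure.prod_apply hmeas]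
    simp only [GExplorer.aVal, huniv, Measure.restrict_univ]
    refine lintegral_congr fun X => ?_
    rw [← lintegral_indicator_one (measurable_prodMk_left hmeas)]
    refine lintegral_congr fun T => ?_
    rw [W.pairPay_eq]
    rfl
  rw [same_apply _ _ _ hmeas, ind, ← ha, ← key]
  exact lintegral_congr fun ω => (hq ω).symm

/-! ### passage to the limit -/

lemma hist_freeze_min (t : ℕ∞) (k n : ℕ) (hn : n ≤ k) (X : Ω) :
    W.hist n (W.freeze (min t k) X) = W.hist n (W.freeze t X) := by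
  rcases le_total t k with h | h
  · rw [min_eq_left h]
  · rw [min_eq_right h, W.hist_freeze_of_le (by exact_mod_cast hn),
      W.hist_freeze_of_le (le_trans (by exact_mod_cast hn) h)]

lemma mem_cyl_congr {X Y γ : Ω} {n : ℕ} (h : W.hist n X = W.hist n Y) :
    X ∈ W.cyl γ n ↔ Y ∈ W.cyl γ n :=
  ⟨fun hX => h.symm.trans hX, fun hY => h.trans hY⟩

lemma contact_anti (R : ℕ) {V V' : Set (Site d)} (h : V ⊆ V') (X : Ω) :
    W.contact R V' X ≤ W.contact R V X :=
  Crest.Agent.R154.contact_anti R h (W.pos X)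

lemma eventually_cutEv (R : ℕ) (S : Ω → ℕ∞) (γ δ : Ω) (n m : ℕ) (p : Ω × Ω) :
    ∀ᶠ k in Filter.atTop, p ∈ W.cutEv R S γ δ n m k ↔
      p ∈ W.stopPair R S ⁻¹' (W.cyl γ n ×ˢ W.cyl δ m) := by
  obtain ⟨X, T⟩ := p
  have h1 : ∀ᶠ k in Filter.atTop, W.hist m
      (W.freeze (W.contact R (W.readE X (min (S X) (k : ℕ))) T) T)
      = W.hist m (W.freeze (W.contact R (W.readE X (S X)) T) T) := by
    have hsub : ∀ k : ℕ, W.readE X (min (S X) k) ⊆ W.readE X (S X) :=
      fun k => W.readE_mono X (min_le_left _ _)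
    rcases le_or_gt (m : ℕ∞) (W.contact R (W.readE X (S X)) T) with hc | hc
    · refine Filter.Eventually.of_forall fun k => ?_
      rw [W.hist_freeze_of_le hc, W.hist_freeze_of_le (hc.trans (W.contact_anti R (hsub k) T))]
    · obtain ⟨j, hj⟩ := ENat.ne_top_iff_exists.1 (hc.trans (ENat.natCast_lt_top m)).ne
      have hT := (firstTime_spec (p := fun z => z ∉ far R (W.readE X (S X)))
        (X := W.pos T) hj.symm).1
      simp only [far, Set.mem_ofPred_eq, not_forall] at hT
      obtain ⟨a, ⟨l, hl, ha⟩, ha2⟩ := hT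
      filter_upwards [Filter.eventually_ge_atTop l] with k hk
      have h3 : W.contact R (W.readE X (min (S X) k)) T ≤ j := by
        refine W.contact_le ?_
        simp only [far, Set.mem_ofPred_eq, not_forall]
        exact ⟨a, ⟨l, le_min hl (by exact_mod_cast hk), ha⟩, ha2⟩
      have h4 : W.contact R (W.readE X (min (S X) k)) T = W.contact R (W.readE X (S X)) T :=
        le_antisymm (hj ▸ h3) (W.contact_anti R (hsub k) T)
      rw [h4]
  filter_upwards [h1, Filter.eventually_ge_atTop n, Filter.eventually_ge_atTop m]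
    with k hk hn hm
  simp only [cutEv, Set.mem_ofPred_eq, stopPair, Set.mem_preimage, Set.mem_prod]
  rw [W.mem_cyl_congr (W.hist_freeze_min (S X) k n hn X),
    W.mem_cyl_congr ((W.hist_freeze_min _ k m hm T).trans hk)]

variable [Nonempty Ω]

lemma measurable_stopPair (R : ℕ) {S : Ω → ℕ∞} (hS : W.IsStop S) :
    Measurable (W.stopPair R S) := by
  have h : @Measurable _ _ _ (MeasurableSpace.generateFrom
      (Set.image2 (· ×ˢ ·) W.cyls W.cyls)) (W.stopPair R S) := by
    refine measurable_generateFrom ?_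
    rintro _ ⟨_, ⟨γ, n, rfl⟩, _, ⟨δ, m, rfl⟩, rfl⟩
    exact measurableSet_of_tendsto_indicator Filter.atTop
      (fun k => W.measurableSet_cutEv R hS γ δ n m k)
      (fun p => W.eventually_cutEv R S γ δ n m p)
  exact h.mono le_rfl W.gen_prod.le

/-- **SAME ENVIRONMENT = INDEPENDENT ENVIRONMENTS up to the first contact (generic form).** -/
theorem same_map_eq_ind_map (R : ℕ) {S : Ω → ℕ∞} (hS : W.IsStop S)
    (Q : Measure (Environment d)) [IsProbabilityMeasure Q] (hQ : IndepAt R Q)
    {P₁ P₂ : Kernel (Environment d) Ω} [IsFiniteKernel P₁] [IsFiniteKernel P₂]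
    (h₁ : W.ReadsOnly Q P₁) (h₂ : W.ReadsOnly Q P₂) :
    (same Q P₁ P₂).map (W.stopPair R S) = (ind Q P₁ P₂).map (W.stopPair R S) := by
  have hm := W.measurable_stopPair R hS
  refine W.measure_ext_prod fun γ δ n m => ?_
  rw [Measure.map_apply hm ((W.measurableSet_cyl _ _).prod (W.measurableSet_cyl _ _)),
    Measure.map_apply hm ((W.measurableSet_cyl _ _).prod (W.measurableSet_cyl _ _))]
  have h1 := tendsto_measure_of_tendsto_indicator_of_isFiniteMeasure Filter.atTop
    (same Q P₁ P₂) (fun k => W.measurableSet_cutEv R hS γ δ n m k)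
    (fun p => W.eventually_cutEv R S γ δ n m p)
  have h2 := tendsto_measure_of_tendsto_indicator_of_isFiniteMeasure Filter.atTop
    (ind Q P₁ P₂) (fun k => W.measurableSet_cutEv R hS γ δ n m k)
    (fun p => W.eventually_cutEv R S γ δ n m p)
  simp_rw [W.cutEv_eq R hS Q hQ h₁ h₂] at h1
  exact tendsto_nhds_unique h1 h2

/-- set form. -/
theorem same_eq_ind (R : ℕ) {S : Ω → ℕ∞} (hS : W.IsStop S)
    (Q : Measure (Environment d)) [IsProbabilityMeasure Q] (hQ : IndepAt R Q)
    {P₁ P₂ : Kernel (Environment d) Ω} [IsFiniteKernel P₁] [IsFiniteKernel P₂]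
    (h₁ : W.ReadsOnly Q P₁) (h₂ : W.ReadsOnly Q P₂)
    {B : Set (Ω × Ω)} (hB : MeasurableSet B) (hdet : ∀ p, W.stopPair R S p ∈ B ↔ p ∈ B) :
    same Q P₁ P₂ B = ind Q P₁ P₂ B := by
  have hm := W.measurable_stopPair R hS
  have hpre : W.stopPair R S ⁻¹' B = B := by
    ext p
    exact hdet p
  have := congrArg (fun m => m B) (W.same_map_eq_ind_map R hS Q hQ h₁ h₂)
  simp only [Measure.map_apply hm hB, hpre] at this
  exact this


end WalkSpace

end Crest.Agent.R154
private theorem rz_9ddf15eced : type_of% @_root_.Crest.Agent.R154.WalkSpace.pairPay.eq_1 := @_root_.Crest.Agent.R154.WalkSpace.pairPay.eq_1 -- L307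
private theorem rz_3d20b74562 : type_of% @_root_.Crest.Agent.R154.WalkSpace.pairStop.eq_1 := @_root_.Crest.Agent.R154.WalkSpace.pairStop.eq_1 -- L191
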