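import Crest.Agent.R154.WindowK_299
import Crest.Agent.R154.ChainFL_263
import Crest.Agent.R154.KSe_402_Mg
import Crest.Agent.R154.Row_12
import Crest.Agent.R154.D2Asm_244

/-!
# (HM7): the last joint of the home-mass route

At every window `i` and strength `v` the octave `2 ^ n ~ K1 10 ^ i / v` is regular (a tile system:
`window_param`) or irregular (`Irr`, output of the home-mass argument).
-/

set_option autoImplicit false
set_option linter.deprecated false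
set_option linter.unusedVariables false
set_option linter.unusedSectionVars false

open MeasureTheory ENNReal Crest.Agent.R154.RatioR872 Crest.Agent.R154.WindowK299

namespace Crest.Agent.R154.HM7299

variable {S : Type*} {Ω : Type*} {m0 : MeasurableSpace Ω} {P : Measure Ω}

/-- (W) for one window and one strength, all start laws -/
def WinAt (A : KerSys S P) (lam : ℝ) (i : ℕ) (v : ℝ) : Prop :=
  ∀ μ : S → ℝ≥0∞, A.Start μ → ∀ B, MeasurableSet[A.F (10 ^ i)] B →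
    P (B ∩ {ω | A.Sh μ (10 ^ (i + 1)) ω ≠ 0 ∧ A.Sh μ (10 ^ (i + 2)) ω ≤
      ENNReal.ofReal (Real.exp (-v)) * A.Sh μ (10 ^ (i + 1)) ω}) ≤
      ENNReal.ofReal (Real.exp (-(lam * v))) * P B

/-- output of the irregular side -/
def Irr (A : KerSys S P) (reg : ℕ → ℕ → ℝ → ℕ → Prop) : Prop :=
  ∀ lam : ℝ, 1 ≤ lam → ∃ C2 : ℝ, ∀ K1 : ℝ, 1 ≤ K1 → C2 ≤ K1 → ∀ A0 : ℕ, C2 * K1 ≤ 2 ^ A0 →
    ∀ M : ℕ, 3 ≤ M → ∃ (B' : ℝ) (n0 : ℕ) (v0 : ℝ), ∀ n : ℕ, n0 ≤ n → ¬ reg A0 M B' n →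
      ∀ (i : ℕ) (v : ℝ), v0 ≤ v → v * 2 ^ n ≤ K1 * 10 ^ i → K1 * 10 ^ i ≤ 2 * (v * 2 ^ n) →
        WinAt A lam i v

variable [Countable S] {A : KerSys S P}

theorem WinAt.mono {lam lam' v : ℝ} {i : ℕ} (h : WinAt A lam' i v) (hl : lam ≤ lam')
    (hv : 0 ≤ v) : WinAt A lam i v := fun μ hμ B hB => (h μ hμ B hB).trans (by
  gcongr)

/-- **the dichotomy** -/
theorem win_of (reg : ℕ → ℕ → ℝ → ℕ → Prop) (mA : ℕ → ℝ) (hmA : ∀ A0, 1 ≤ A0 → 1 ≤ mA A0)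
    (hgrow : ∀ C : ℝ, ∃ A0 : ℕ, 1 ≤ A0 ∧ C ≤ mA A0 ∧ 800 * C * mA A0 ≤ 2 ^ A0)
    (hReg : ∀ A0 : ℕ, 1 ≤ A0 → ∀ Λ : ℝ, ∃ (m1 : ℝ) (M : ℕ), 3 ≤ M ∧ ∀ B' : ℝ, ∃ n0 : ℕ,
      ∀ n : ℕ, n0 ≤ n → reg A0 M B' n →
        TileSys A (2 ^ n) (ENNReal.ofReal (Real.exp (-m1))) (ENNReal.ofReal (Real.exp (-(mA A0))))
          (ENNReal.ofReal (Real.exp (-(Λ * mA A0)))))
    (hIrr : Irr A reg) :
    ∀ lam : ℝ, 0 < lam → ∃ u0 c : ℝ, 0 < c ∧ 1 ≤ u0 ∧ ∀ (i : ℕ) (v : ℝ), u0 ≤ v →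
      v ≤ c * 10 ^ i → WinAt A lam i v := by
  classical
  intro lam0 hlam0
  set lam : ℝ := max lam0 1 with hlam
  have hlam1 : 1 ≤ lam := le_max_right _ _
  obtain ⟨C2, hC2⟩ := hIrr lam hlam1
  obtain ⟨A0, hA0, hA0C, hA0g⟩ := hgrow C2
  have hm := hmA A0 hA0
  set K1 : ℝ := 800 * mA A0 with hK1
  have hK11 : 1 ≤ K1 := by rw [hK1]; linarith
  set Λ : ℝ := (lam + 2) * K1 / 9 + 2 with hΛ
  obtain ⟨m1, M, hM, hB⟩ := hReg A0 hA0 Λ
  obtain ⟨B', n1, v1, hI⟩ := hC2 K1 hK11 (by rw [hK1]; linarith) A0 (by rw [hK1]; linarith) M hM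
  obtain ⟨n2, hT⟩ := hB B'
  set n0 : ℕ := max n1 n2 with hn0
  refine ⟨max (max K1 v1) (2 * m1), 1 / 2 ^ n0, by positivity,
    hK11.trans ((le_max_left _ _).trans (le_max_left _ _)), ?_⟩
  intro i v hv hvc
  have hvK : K1 ≤ v := ((le_max_left _ _).trans (le_max_left _ _)).trans hv
  have hv1 : v1 ≤ v := ((le_max_right _ _).trans (le_max_left _ _)).trans hv
  have hvm : 2 * m1 ≤ v := (le_max_right _ _).trans hv
  have hv0 : 0 < v := by linarith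
  have hx : (0 : ℝ) < 10 ^ i := by positivity
  set Nr : ℝ := K1 * 10 ^ i / v with hNr
  have hNrv : Nr * v = K1 * 10 ^ i := by rw [hNr]; field_simp
  have hNr0 : (2 : ℝ) ^ n0 ≤ Nr := by
    rw [hNr, le_div_iff₀ hv0]
    have h1 : (2 : ℝ) ^ n0 * v ≤ 2 ^ n0 * (1 / 2 ^ n0 * 10 ^ i) := by gcongr
    refine h1.trans ?_
    have h2 : (2 : ℝ) ^ n0 * (1 / 2 ^ n0 * 10 ^ i) = 10 ^ i := by field_simp
    rw [h2]
    nlinarith
  have hNr1 : 1 ≤ Nr := le_trans (one_le_pow₀ (by norm_num)) hNr0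
  have hfl1 : 1 ≤ ⌊Nr⌋₊ := (Nat.one_le_floor_iff _).2 hNr1
  set n : ℕ := Nat.log 2 ⌊Nr⌋₊ with hn
  have hn_le : 2 ^ n ≤ ⌊Nr⌋₊ := Nat.pow_log_le_self 2 (by omega)
  have hn_lt : ⌊Nr⌋₊ < 2 ^ (n + 1) := Nat.lt_pow_succ_log_self (by norm_num) _
  have hnR : (2 : ℝ) ^ n ≤ Nr := by
    have h1 : ((2 ^ n : ℕ) : ℝ) ≤ ⌊Nr⌋₊ := by exact_mod_cast hn_le
    have h2 : (⌊Nr⌋₊ : ℝ) ≤ Nr := Nat.floor_le (by linarith)
    push_cast at h1
    linarith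
  have hnR' : Nr ≤ 2 * 2 ^ n := by
    have h1 : Nr < ⌊Nr⌋₊ + 1 := Nat.lt_floor_add_one _
    have h2 : ((⌊Nr⌋₊ + 1 : ℕ) : ℝ) ≤ ((2 ^ (n + 1) : ℕ) : ℝ) := by exact_mod_cast hn_lt
    push_cast at h2
    rw [pow_succ] at h2
    linarith
  have hn0n : n0 ≤ n := by
    rw [hn]
    refine (Nat.le_log_iff_pow_le (by norm_num) (by omega)).2 (Nat.le_floor ?_)
    push_cast
    exact hNr0
  have hc1 : v * 2 ^ n ≤ K1 * 10 ^ i := by
    rw [← hNrv, mul_comm]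
    gcongr
  have hc2 : K1 * 10 ^ i ≤ 2 * (v * 2 ^ n) := by
    rw [← hNrv]
    calc Nr * v ≤ 2 * 2 ^ n * v := by gcongr
      _ = 2 * (v * 2 ^ n) := by ring
  refine WinAt.mono (lam' := lam) ?_ (le_max_left _ _) hv0.le
  by_cases hr : reg A0 M B' n
  · -- regular octave
    have hTS := hT n ((le_max_right _ _).trans hn0n) hr
    intro μ hμ B hB
    have h2n : (0 : ℝ) < 2 ^ n := by positivity
    have hΛm : Λ ≤ Λ * mA A0 := by
      have : 0 ≤ Λ := by rw [hΛ]; positivity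
      nlinarith
    have hΛ2 : 2 ≤ Λ := by
      rw [hΛ]
      have : 0 ≤ (lam + 2) * K1 / 9 := by positivity
      linarith
    refine window_param (A := A) (N := 2 ^ n) (by positivity) hm (hΛ2.trans hΛm) hTS
      (i := i) ?_ (v := v) (E := lam * v) ?_ (by linarith) ?_ hμ hB
    · have h1 : K1 * 2 ^ n ≤ K1 * 10 ^ i := (by gcongr : K1 * 2 ^ n ≤ v * 2 ^ n).trans hc1
      have h3 : ((2 : ℝ) ^ n) ≤ 10 ^ i := le_of_mul_le_mul_left h1 (by linarith)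
      exact_mod_cast h3
    · push_cast
      have : 400 * 10 ^ i * mA A0 = K1 * 10 ^ i / 2 := by rw [hK1]; ring
      rw [this]
      linarith
    · push_cast
      have h1 : (lam * v + 2) * 2 ^ n ≤ (lam + 2) * (v * 2 ^ n) := by
        have h2 : lam * v + 2 ≤ (lam + 2) * v := by nlinarith
        calc (lam * v + 2) * 2 ^ n ≤ ((lam + 2) * v) * 2 ^ n := by gcongr
          _ = _ := by ring
      have h3 : (lam + 2) * (v * 2 ^ n) ≤ (lam + 2) * (K1 * 10 ^ i) := by gcongr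
      have h4 : (lam + 2) * (K1 * 10 ^ i) = 9 * 10 ^ i * (Λ - 2) := by rw [hΛ]; ring
      have h5 : 9 * 10 ^ i * (Λ - 2) ≤ 9 * 10 ^ i * (Λ * mA A0 - 1) := by
        gcongr
        linarith
      linarith
  · exact hI n ((le_max_left _ _).trans hn0n) hr i v hv1 hc1 hc2

section frame

open ChainFL Crest.ProbabilityR.RandomEnvironment

variable {d : ℕ} {Q : Measure (Environment d)} [IsProbabilityMeasure Q] {κ : ℝ} {R : ℕ}

/-- HW from one-window bounds -/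
theorem hW_of_win (F : Bind263.Frame Q κ R) (u : Step d)
    (h : ∀ lam : ℝ, 0 < lam → ∃ u0 c : ℝ, 0 < c ∧ 1 ≤ u0 ∧ ∀ (i : ℕ) (v : ℝ), u0 ≤ v →
      v ≤ c * 10 ^ i → WinAt (D2Asm244.kT u R κ Q F.stat F.fin) lam i v) :
    ChainFL.HW (D2Asm244.kT u R κ Q F.stat F.fin) := by
  intro lam ε' hlam hε'
  obtain ⟨u0, c, hc, hu0, h⟩ := h lam hlam
  refine ⟨u0, c, hc, fun _ => 0, fun _ => le_rfl, fun J => ?_, fun μ hμ hpos => ?_⟩
  · simp only [Finset.sum_const_zero]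
    have : (0 : ℝ) ≤ J := Nat.cast_nonneg J
    nlinarith
  · intro i v hv hvc B hB
    simp only [add_zero] at hvc ⊢
    exact (WindowK299.log_event hμ hpos (D2Asm244.aa (D2Asm244.kT u R κ Q F.stat F.fin) μ)
      (D2Asm244.aa_eq hμ hpos) i v B).trans (h i v hv hvc μ hμ B hB)

end frame

end Crest.Agent.R154.HM7299
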