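import Crest.Agent.R154.B5Abs_566

-- ▼ part R154/FP_178
section

/-! Row 154 (helper178), ROAD 801, leaf (R): single-walker renewal on lists of blocks.
`fp ht a L`: the list `L` is the first passage of depth `a`. -/

set_option autoImplicit false

namespace Crest.Agent.R154.FP178

open scoped ENNReal
open Crest.Agent.R154.B5A

variable {B : Type*} (Λ : B → ℝ≥0∞) (ht : B → ℕ)

/-- first passage of depth `a` -/
def fp : ℕ → List B → Prop
  | a, [] => a = 0
  | a, b :: L => 0 < a ∧ fp (a - ht b) L

lemma fp_nil (a : ℕ) : fp ht a [] ↔ a = 0 := Iff.rfl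

lemma fp_cons (a : ℕ) (b : B) (L : List B) : fp ht a (b :: L) ↔ 0 < a ∧ fp ht (a - ht b) L := Iff.rfl

lemma fp_zero (L : List B) : fp ht 0 L ↔ L = [] := by
  cases L with
  | nil => simp [fp]
  | cons b L => simp [fp]

lemma le_HT_of_fp {a : ℕ} {L : List B} (h : fp ht a L) : a ≤ HT ht L := by
  induction L generalizing a with
  | nil => rw [fp_nil] at h; omega
  | cons b L ih =>
    rw [fp_cons] at h
    have := ih h.2
    rw [HT_cons]; omega


open Classical in
/-- (R1) decomposition at the first passage of depth `a`. -/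
theorem split (h1 : ∀ b, 1 ≤ ht b) (a : ℕ) (f : List B → ℝ≥0∞) :
    ∑' L, (if a ≤ HT ht L then LW Λ L * f L else 0)
      = ∑' L1, (if fp ht a L1 then LW Λ L1 * ∑' L2, LW Λ L2 * f (L1 ++ L2) else 0) := by
  induction a using Nat.strong_induction_on generalizing f with
  | _ a ih =>
    rcases Nat.eq_zero_or_pos a with rfl | ha
    · have hR : ∑' L1, (if fp ht 0 L1 then LW Λ L1 * ∑' L2, LW Λ L2 * f (L1 ++ L2) else 0)
          = ∑' L2, LW Λ L2 * f L2 := by
        rw [tsum_eq_single ([] : List B)]
        · rw [if_pos ((fp_nil ht 0).2 rfl), LW_nil, one_mul]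
          rfl
        · intro L hL
          rw [if_neg (by rw [fp_zero]; exact hL)]
      rw [hR]
      refine tsum_congr fun L => ?_
      rw [if_pos (Nat.zero_le _)]
    · rw [tsum_list, tsum_list (fun L1 => if fp ht a L1 then
        LW Λ L1 * ∑' L2, LW Λ L2 * f (L1 ++ L2) else 0)]
      rw [if_neg (by rw [HT_nil]; omega), if_neg (by rw [fp_nil]; omega)]
      congr 1
      refine tsum_congr fun b => ?_
      have e1 : ∀ L : List B, (if a ≤ HT ht (b :: L) then LW Λ (b :: L) * f (b :: L) else 0)
          = Λ b * (if a - ht b ≤ HT ht L then LW Λ L * f (b :: L) else 0) := by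
        intro L
        by_cases h : a - ht b ≤ HT ht L
        · rw [if_pos h, if_pos (by rw [HT_cons]; omega), LW_cons, mul_assoc]
        · rw [if_neg h, if_neg (by rw [HT_cons]; omega), mul_zero]
      have e2 : ∀ L1 : List B, (if fp ht a (b :: L1) then
          LW Λ (b :: L1) * ∑' L2, LW Λ L2 * f ((b :: L1) ++ L2) else 0)
          = Λ b * (if fp ht (a - ht b) L1 then
            LW Λ L1 * ∑' L2, LW Λ L2 * f (b :: (L1 ++ L2)) else 0) := by
        intro L1
        by_cases h : fp ht (a - ht b) L1
        · rw [if_pos h, if_pos ((fp_cons ht a b L1).2 ⟨ha, h⟩), LW_cons, mul_assoc]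
          rfl
        · rw [if_neg h, if_neg (fun h' => h ((fp_cons ht a b L1).1 h').2), mul_zero]
      rw [tsum_congr e1, tsum_congr e2, ENNReal.tsum_mul_left, ENNReal.tsum_mul_left]
      congr 1
      exact ih (a - ht b) (by have := h1 b; omega) (fun L => f (b :: L))

open Classical in
/-- one step of a first passage sum -/
lemma sum_fp_step (a : ℕ) (ha : 0 < a) (f : List B → ℝ≥0∞) :
    ∑' L, (if fp ht a L then LW Λ L * f L else 0)
      = ∑' b, Λ b * ∑' L, (if fp ht (a - ht b) L then LW Λ L * f (b :: L) else 0) := by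
  rw [tsum_list]
  rw [if_neg (by rw [fp_nil]; omega), zero_add]
  refine tsum_congr fun b => ?_
  rw [← ENNReal.tsum_mul_left]
  refine tsum_congr fun L => ?_
  by_cases h : fp ht (a - ht b) L
  · rw [if_pos h, if_pos ((fp_cons ht a b L).2 ⟨ha, h⟩), LW_cons, mul_assoc]
  · rw [if_neg h, if_neg (fun h' => h ((fp_cons ht a b L).1 h').2), mul_zero]

open Classical in
lemma sum_fp_zero (f : List B → ℝ≥0∞) :
    ∑' L, (if fp ht 0 L then LW Λ L * f L else 0) = f [] := by
  rw [tsum_eq_single ([] : List B)]
  · rw [if_pos ((fp_nil ht 0).2 rfl), LW_nil, one_mul]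
  · intro L hL
    rw [if_neg (by rw [fp_zero]; exact hL)]

open Classical in
/-- (R2) -/
theorem sum_FP (h1 : ∀ b, 1 ≤ ht b) (hΛ : ∑' b, Λ b ≤ 1) (a : ℕ) :
    ∑' L, (if fp ht a L then LW Λ L else 0) ≤ 1 := by
  induction a using Nat.strong_induction_on with
  | _ a ih =>
    rcases Nat.eq_zero_or_pos a with rfl | ha
    · have := sum_fp_zero Λ ht (fun _ => 1)
      simp only [mul_one] at this
      exact this.le
    · have := sum_fp_step Λ ht a ha (fun _ => 1)
      simp only [mul_one] at this
      rw [this]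
      calc ∑' b, Λ b * ∑' L, (if fp ht (a - ht b) L then LW Λ L else 0)
          ≤ ∑' b, Λ b * 1 := by
            refine ENNReal.tsum_le_tsum fun b => mul_le_mul_right ?_ _
            exact ih (a - ht b) (by have := h1 b; omega)
        _ ≤ 1 := by simpa using hΛ

open Classical in
/-- (R4') a first passage of `a` begins with a first passage of `τ ≤ a`. -/
theorem fp_split (h1 : ∀ b, 1 ≤ ht b) (τ a : ℕ) (hτ : τ ≤ a) (f : List B → ℝ≥0∞) :
    ∑' L, (if fp ht a L then LW Λ L * f L else 0)
      = ∑' A, (if fp ht τ A then LW Λ A *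
          ∑' L, (if fp ht (a - HT ht A) L then LW Λ L * f (A ++ L) else 0) else 0) := by
  induction τ using Nat.strong_induction_on generalizing a f with
  | _ τ ih =>
    rcases Nat.eq_zero_or_pos τ with rfl | hτ0
    · rw [sum_fp_zero Λ ht (fun A => ∑' L, (if fp ht (a - HT ht A) L then LW Λ L * f (A ++ L)
        else 0))]
      simp [HT_nil]
    · rw [sum_fp_step Λ ht a (by omega) f, sum_fp_step Λ ht τ hτ0 (fun A => ∑' L,
        (if fp ht (a - HT ht A) L then LW Λ L * f (A ++ L) else 0))]
      refine tsum_congr fun b => ?_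
      congr 1
      rw [ih (τ - ht b) (by have := h1 b; omega) (a - ht b) (by omega) (fun L => f (b :: L))]
      refine tsum_congr fun A => ?_
      rw [HT_cons, Nat.sub_sub]
      rfl

open Classical in
/-- (R3) exact form of the overshoot. -/
lemma over_eq (h1 : ∀ b, 1 ≤ ht b) (i a : ℕ) :
    ∑' L, (if fp ht a L ∧ a + i < HT ht L then LW Λ L else 0)
      = ∑' L, (if HT ht L < a then LW Λ L * tail Λ ht (a + i - HT ht L) else 0) := by
  induction a using Nat.strong_induction_on with
  | _ a ih =>
    rcases Nat.eq_zero_or_pos a with rfl | ha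
    · have e1 : ∀ L : List B, (if fp ht 0 L ∧ 0 + i < HT ht L then LW Λ L else 0) = 0 := by
        intro L
        rw [if_neg]
        rintro ⟨h, h'⟩
        rw [fp_zero] at h
        subst h
        rw [HT_nil] at h'
        omega
      have e2 : ∀ L : List B, (if HT ht L < 0 then LW Λ L * tail Λ ht (0 + i - HT ht L) else 0)
          = 0 := by
        intro L
        rw [if_neg (by omega)]
      rw [tsum_congr e1, tsum_congr e2]
    · have hL := sum_fp_step Λ ht a ha (fun L => if a + i < HT ht L then 1 else 0)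
      have e1 : ∀ (a' c : ℕ) (L : List B),
          (if fp ht a' L ∧ c < HT ht L then LW Λ L else 0)
          = (if fp ht a' L then LW Λ L * (if c < HT ht L then 1 else 0) else 0) := by
        intro a' c L
        by_cases h : fp ht a' L <;> by_cases h' : c < HT ht L <;> simp [h, h']
      rw [tsum_congr (e1 a (a + i)), hL, tsum_list (fun L =>
        if HT ht L < a then LW Λ L * tail Λ ht (a + i - HT ht L) else 0)]
      rw [if_pos (by rw [HT_nil]; omega), LW_nil, one_mul, HT_nil, Nat.sub_zero]
      have e2 : ∀ b : B, Λ b * ∑' L, (if fp ht (a - ht b) L then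
            LW Λ L * (if a + i < HT ht (b :: L) then 1 else 0) else 0)
          = (if a + i < ht b then Λ b else 0) + ∑' L, (if HT ht (b :: L) < a then
            LW Λ (b :: L) * tail Λ ht (a + i - HT ht (b :: L)) else 0) := by
        intro b
        by_cases hb : ht b < a
        · rw [if_neg (by omega), zero_add]
          have e3 : ∀ L : List B, (if HT ht (b :: L) < a then
              LW Λ (b :: L) * tail Λ ht (a + i - HT ht (b :: L)) else 0)
              = Λ b * (if HT ht L < a - ht b then
                LW Λ L * tail Λ ht (a - ht b + i - HT ht L) else 0) := by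
            intro L
            rw [HT_cons, LW_cons]
            by_cases h : HT ht L < a - ht b
            · rw [if_pos h, if_pos (by omega), mul_assoc,
                show a + i - (ht b + HT ht L) = a - ht b + i - HT ht L by omega]
            · rw [if_neg h, if_neg (by omega), mul_zero]
          rw [tsum_congr e3, ENNReal.tsum_mul_left, ← ih (a - ht b) (by have := h1 b; omega)]
          congr 1
          refine tsum_congr fun L => ?_
          rw [e1 (a - ht b) (a - ht b + i) L, HT_cons]
          by_cases h : a - ht b + i < HT ht L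
          · have hh : a + i < ht b + HT ht L := by omega
            rw [if_pos h, if_pos hh]
          · have hh : ¬ (a + i < ht b + HT ht L) := by omega
            rw [if_neg h, if_neg hh]
        · have h0 : a - ht b = 0 := by omega
          rw [h0, sum_fp_zero Λ ht (fun L => if a + i < HT ht (b :: L) then 1 else 0)]
          have e3 : ∀ L : List B, (if HT ht (b :: L) < a then
              LW Λ (b :: L) * tail Λ ht (a + i - HT ht (b :: L)) else 0) = 0 := by
            intro L
            rw [if_neg (by rw [HT_cons]; omega)]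
          rw [tsum_congr e3, tsum_zero, add_zero, HT_cons, HT_nil, add_zero]
          by_cases h : a + i < ht b <;> simp [h]
      rw [tsum_congr e2, ENNReal.tsum_add]
      rfl

open Classical in
/-- (R3) the overshoot of a first passage. -/
theorem overshoot (h1 : ∀ b, 1 ≤ ht b) (hU1 : ∀ n, U Λ ht n ≤ 1) (i a : ℕ) :
    ∑' L, (if fp ht a L ∧ a + i < HT ht L then LW Λ L else 0) ≤ ∑' k, tail Λ ht (i + k) := by
  rw [over_eq Λ ht h1 i a]
  have e1 : ∑' L, (if HT ht L < a then LW Λ L * tail Λ ht (a + i - HT ht L) else 0)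
      = ∑ k ∈ Finset.range a, U Λ ht k * tail Λ ht (a + i - k) := by
    have : ∀ L : List B, (if HT ht L < a then LW Λ L * tail Λ ht (a + i - HT ht L) else 0)
        = ∑ k ∈ Finset.range a, (if HT ht L = k then LW Λ L else 0) * tail Λ ht (a + i - k) := by
      intro L
      by_cases h : HT ht L < a
      · rw [if_pos h, Finset.sum_eq_single (HT ht L)]
        · rw [if_pos rfl]
        · intro k _ hk; rw [if_neg hk.symm, zero_mul]
        · intro hn; exact absurd (Finset.mem_range.2 h) hn
      · rw [if_neg h, Finset.sum_eq_zero]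
        intro k hk
        have := Finset.mem_range.1 hk
        rw [if_neg (by omega), zero_mul]
    rw [tsum_congr this, Summable.tsum_finsetSum (fun _ _ => ENNReal.summable)]
    refine Finset.sum_congr rfl fun k _ => ?_
    rw [ENNReal.tsum_mul_right, U]
  rw [e1]
  calc ∑ k ∈ Finset.range a, U Λ ht k * tail Λ ht (a + i - k)
      ≤ ∑ k ∈ Finset.range a, tail Λ ht (a + i - k) := by
        refine Finset.sum_le_sum fun k _ => ?_
        calc U Λ ht k * tail Λ ht (a + i - k) ≤ 1 * tail Λ ht (a + i - k) :=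
              mul_le_mul_left (hU1 k) _
          _ = _ := one_mul _
    _ = ∑ k ∈ Finset.range a, tail Λ ht (i + (k + 1)) := by
        rw [← Finset.sum_range_reflect (fun k => tail Λ ht (a + i - k))]
        refine Finset.sum_congr rfl fun k hk => ?_
        have := Finset.mem_range.1 hk
        congr 1
        omega
    _ ≤ ∑' k, tail Λ ht (i + (k + 1)) := ENNReal.sum_le_tsum _
    _ ≤ ∑' k, tail Λ ht (i + k) :=
        ENNReal.tsum_comp_le_tsum_of_injective (add_left_injective 1) (fun k => tail Λ ht (i + k))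

end Crest.Agent.R154.FP178
private theorem rz_a1b43c0526 : type_of% @_root_.Crest.Agent.R154.FP178.fp.eq_def := @_root_.Crest.Agent.R154.FP178.fp.eq_def -- L16
private theorem rz_03e1d4a833 : type_of% @_root_.Crest.Agent.R154.FP178.fp.eq_1 := @_root_.Crest.Agent.R154.FP178.fp.eq_1 -- L16
end

-- ▼ part R154/JHit_139

/-! Row 154, road 801, assembly in the joint-cut frame, part 1 (helper139): the relative
displacement at the first joint cut of depth `≥ a` rarely falls in a set which is small on the
scale of the pieces of exact height `H`. -/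

set_option autoImplicit false

namespace Crest.Agent.R154.JAsm139

open scoped ENNReal
open Crest.Agent.R154.B5A
open Crest.Agent.R154.FP178

variable {B W : Type*} (Λ : B → ℝ≥0∞) (ht : B → ℕ) (dl : B → W → W)

/-- cardinal of a set as a sum -/
noncomputable def card (S : Set W) : ℝ≥0∞ := ∑' w, S.indicator (fun _ => (1 : ℝ≥0∞)) w

open Classical in
/-- mass of the first passages of depth `a` which end in `S` -/
noncomputable def hitS (a : ℕ) (S : Set W) (w : W) : ℝ≥0∞ :=
  ∑' L : List B, if fp ht a L then LW Λ L * S.indicator (fun _ => (1 : ℝ≥0∞)) (act dl L w) else 0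

open Classical in
/-- `S` is small on the scale of the pieces of exact height `H`: there are pieces (`Sc`) of mass
at least `q` whose displacement has density at most `th`, with `th * |S| ≤ η`. -/
def Good (q η : ℝ≥0∞) (H : ℕ) (S : Set W) : Prop :=
  ∃ (Sc : Set (List B)) (th : ℝ≥0∞),
    q ≤ ∑' L : List B, (if HT ht L = H ∧ L ∈ Sc then LW Λ L else 0) ∧
    (∀ w w', ∑' L : List B, (if HT ht L = H ∧ L ∈ Sc ∧ act dl L w = w' then LW Λ L else 0) ≤ th) ∧
    th * card S ≤ η

lemma act_inj (hinj : ∀ b, Function.Injective (dl b)) (L : List B) :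
    Function.Injective (act dl L) := by
  induction L with
  | nil => exact fun _ _ h => h
  | cons b L ih => exact fun x y h => hinj b (ih h)

lemma fp_of_HT (h1 : ∀ b, 1 ≤ ht b) (L : List B) : ∀ a, HT ht L = a → fp ht a L := by
  induction L with
  | nil => intro a h; rw [fp_nil]; simpa [HT_nil] using h.symm
  | cons b L ih =>
    intro a h
    rw [HT_cons] at h
    rw [fp_cons]
    exact ⟨by have := h1 b; omega, ih _ (by omega)⟩

lemma sum_hitS (h1 : ∀ b, 1 ≤ ht b) (hΛ : ∑' b, Λ b ≤ 1)
    (hinj : ∀ b, Function.Injective (dl b)) (a : ℕ) (S : Set W) :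
    ∑' w, hitS Λ ht dl a S w ≤ card S := by
  classical
  simp only [hitS]
  rw [ENNReal.tsum_comm]
  calc _ ≤ ∑' L : List B, (if fp ht a L then LW Λ L else 0) * card S := by
        refine ENNReal.tsum_le_tsum fun L => ?_
        by_cases h : fp ht a L
        · simp only [if_pos h]
          rw [ENNReal.tsum_mul_left]
          refine mul_le_mul_right ?_ _
          exact ENNReal.tsum_comp_le_tsum_of_injective (act_inj dl hinj L)
            (fun w => S.indicator (fun _ => (1 : ℝ≥0∞)) w)
        · simp [if_neg h]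
    _ = (∑' L : List B, (if fp ht a L then LW Λ L else 0)) * card S := ENNReal.tsum_mul_right
    _ ≤ 1 * card S := mul_le_mul_left (sum_FP Λ ht h1 hΛ a) _
    _ = _ := one_mul _

lemma hitS_le_one (h1 : ∀ b, 1 ≤ ht b) (hΛ : ∑' b, Λ b ≤ 1) (a : ℕ) (S : Set W) (w : W) :
    hitS Λ ht dl a S w ≤ 1 := by
  classical
  refine le_trans (ENNReal.tsum_le_tsum fun L => ?_) (sum_FP Λ ht h1 hΛ a)
  by_cases h : fp ht a L
  · rw [if_pos h, if_pos h]
    calc LW Λ L * _ ≤ LW Λ L * 1 := mul_le_mul_right (Set.indicator_le_self' (by simp) _ |>.trans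
          (by simp)) _
      _ = _ := mul_one _
  · rw [if_neg h, if_neg h]

/-- one attempt -/
lemma hit_step (h1 : ∀ b, 1 ≤ ht b) (hΛ : ∑' b, Λ b = 1) (hU1 : ∀ n, U Λ ht n ≤ 1)
    (hinj : ∀ b, Function.Injective (dl b)) (q η : ℝ≥0∞) (H : ℕ) (S : Set W)
    (hG : Good Λ ht dl q η H S) (N : ℕ) (v : ℝ≥0∞)
    (hv : ∀ a, N ≤ a → ∀ w, hitS Λ ht dl a S w ≤ v) (a : ℕ) (ha : N + 2 * H ≤ a) (w : W) :
    hitS Λ ht dl a S w ≤ (1 - q) * v + η + ∑' k, tail Λ ht (H + k) := by
  classical
  obtain ⟨Sc, th, hq, hd, hS⟩ := hG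
  have e1 : hitS Λ ht dl a S w
      = ∑' A : List B, (if fp ht H A then LW Λ A * hitS Λ ht dl (a - HT ht A) S (act dl A w)
          else 0) := by
    rw [hitS, fp_split Λ ht h1 H a (by omega)
      (fun L => S.indicator (fun _ => (1 : ℝ≥0∞)) (act dl L w))]
    refine tsum_congr fun A => ?_
    simp only [act_append]
    rfl
  rw [e1]
  set g : List B → ℝ≥0∞ := fun A => hitS Λ ht dl (a - HT ht A) S (act dl A w) with hg
  have hsplit : ∀ A : List B, (if fp ht H A then LW Λ A * g A else 0)
      ≤ (if fp ht H A ∧ ¬ (HT ht A = H ∧ A ∈ Sc) then LW Λ A else 0) * v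
        + (if HT ht A = H ∧ A ∈ Sc then LW Λ A * g A else 0)
        + (if fp ht H A ∧ H + H < HT ht A then LW Λ A else 0) := by
    intro A
    by_cases hf : fp ht H A
    · rw [if_pos hf]
      by_cases hs : HT ht A = H ∧ A ∈ Sc
      · rw [if_pos hs]
        exact le_add_right (le_add_left le_rfl)
      · rw [if_neg hs, if_pos (⟨hf, hs⟩ : fp ht H A ∧ ¬ (HT ht A = H ∧ A ∈ Sc))]
        by_cases hh : H + H < HT ht A
        · rw [if_pos ⟨hf, hh⟩]
          refine le_add_left ?_
          calc LW Λ A * g A ≤ LW Λ A * 1 :=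
                mul_le_mul_right (hitS_le_one Λ ht dl h1 hΛ.le _ _ _) _
            _ = _ := mul_one _
        · refine le_add_right (le_add_right (mul_le_mul_right ?_ _))
          exact hv _ (by omega) _
    · rw [if_neg hf]; exact zero_le
  have hmass : (∑' A : List B, (if fp ht H A ∧ ¬ (HT ht A = H ∧ A ∈ Sc) then LW Λ A else 0))
      ≤ 1 - q := by
    refine ENNReal.le_sub_of_add_le_right (ne_top_of_le_ne_top ENNReal.one_ne_top
      (hq.trans ((ENNReal.tsum_le_tsum fun L => ?_).trans (hU1 H)))) ?_
    · by_cases h : HT ht L = H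
      · rw [if_pos h]; split_ifs <;> simp
      · rw [if_neg h, if_neg (fun h' => h h'.1)]
    · calc _ ≤ (∑' A : List B, (if fp ht H A ∧ ¬ (HT ht A = H ∧ A ∈ Sc) then LW Λ A else 0))
            + ∑' L : List B, (if HT ht L = H ∧ L ∈ Sc then LW Λ L else 0) := by gcongr
        _ = ∑' A : List B, ((if fp ht H A ∧ ¬ (HT ht A = H ∧ A ∈ Sc) then LW Λ A else 0)
            + (if HT ht A = H ∧ A ∈ Sc then LW Λ A else 0)) := ENNReal.tsum_add.symm
        _ ≤ ∑' A : List B, (if fp ht H A then LW Λ A else 0) := by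
          refine ENNReal.tsum_le_tsum fun A => ?_
          by_cases hs : HT ht A = H ∧ A ∈ Sc
          · rw [if_neg (fun h => h.2 hs), if_pos hs, if_pos (fp_of_HT ht h1 A H hs.1), zero_add]
          · rw [if_neg hs, add_zero]
            by_cases hf : fp ht H A
            · rw [if_pos hf, if_pos ⟨hf, hs⟩]
            · rw [if_neg hf, if_neg (fun h => hf h.1)]
        _ ≤ 1 := sum_FP Λ ht h1 hΛ.le H
  have hsucc : (∑' A : List B, (if HT ht A = H ∧ A ∈ Sc then LW Λ A * g A else 0)) ≤ η := by
    have e2 : ∀ A : List B, (if HT ht A = H ∧ A ∈ Sc then LW Λ A * g A else 0)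
        = ∑' w', (if HT ht A = H ∧ A ∈ Sc ∧ act dl A w = w' then LW Λ A else 0)
            * hitS Λ ht dl (a - H) S w' := by
      intro A
      rw [tsum_eq_single (act dl A w)]
      · by_cases hs : HT ht A = H ∧ A ∈ Sc
        · rw [if_pos hs, if_pos ⟨hs.1, hs.2, rfl⟩, hg]
          simp only [hs.1]
        · rw [if_neg hs, if_neg (fun h => hs ⟨h.1, h.2.1⟩), zero_mul]
      · intro w' hw'
        rw [if_neg (fun h => hw' h.2.2.symm), zero_mul]
    rw [tsum_congr e2, ENNReal.tsum_comm]
    calc _ ≤ ∑' w', th * hitS Λ ht dl (a - H) S w' := by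
          refine ENNReal.tsum_le_tsum fun w' => ?_
          rw [ENNReal.tsum_mul_right]
          exact mul_le_mul_left (hd w w') _
      _ = th * ∑' w', hitS Λ ht dl (a - H) S w' := ENNReal.tsum_mul_left
      _ ≤ th * card S := mul_le_mul_right (sum_hitS Λ ht dl h1 hΛ.le hinj _ _) _
      _ ≤ η := hS
  calc _ ≤ ∑' A : List B, ((if fp ht H A ∧ ¬ (HT ht A = H ∧ A ∈ Sc) then LW Λ A else 0) * v
        + (if HT ht A = H ∧ A ∈ Sc then LW Λ A * g A else 0)
        + (if fp ht H A ∧ H + H < HT ht A then LW Λ A else 0)) := ENNReal.tsum_le_tsum hsplit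
    _ = (∑' A : List B, (if fp ht H A ∧ ¬ (HT ht A = H ∧ A ∈ Sc) then LW Λ A else 0)) * v
        + (∑' A : List B, (if HT ht A = H ∧ A ∈ Sc then LW Λ A * g A else 0))
        + ∑' A : List B, (if fp ht H A ∧ H + H < HT ht A then LW Λ A else 0) := by
          rw [ENNReal.tsum_add, ENNReal.tsum_add, ENNReal.tsum_mul_right]
    _ ≤ (1 - q) * v + η + ∑' k, tail Λ ht (H + k) := by
          gcongr
          exact overshoot Λ ht h1 hU1 H H

/-- **hitting a small set** after `J` attempts -/
theorem hit_le (h1 : ∀ b, 1 ≤ ht b) (hΛ : ∑' b, Λ b = 1) (hU1 : ∀ n, U Λ ht n ≤ 1)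
    (hinj : ∀ b, Function.Injective (dl b)) (q η : ℝ≥0∞) (H : ℕ) (S : Set W)
    (hG : Good Λ ht dl q η H S) (J : ℕ) (a : ℕ) (ha : J * (2 * H) ≤ a) (w : W) :
    hitS Λ ht dl a S w ≤ (1 - q) ^ J + J * (η + ∑' k, tail Λ ht (H + k)) := by
  induction J generalizing a w with
  | zero => simpa using hitS_le_one Λ ht dl h1 hΛ.le a S w
  | succ J ih =>
    have := hit_step Λ ht dl h1 hΛ hU1 hinj q η H S hG (J * (2 * H)) _
      (fun a ha w => ih a ha w) a (by linarith [Nat.succ_mul J (2 * H)]) w
    refine this.trans ?_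
    set e := ∑' k, tail Λ ht (H + k)
    calc (1 - q) * ((1 - q) ^ J + J * (η + e)) + η + e
        = (1 - q) ^ (J + 1) + (1 - q) * (J * (η + e)) + (η + e) := by ring
      _ ≤ (1 - q) ^ (J + 1) + 1 * (J * (η + e)) + (η + e) := by
          gcongr
          exact tsub_le_self
      _ = (1 - q) ^ (J + 1) + ((J + 1 : ℕ) : ℝ≥0∞) * (η + e) := by push_cast; ring

end Crest.Agent.R154.JAsm139
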