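import Crest.Agent.R154.Joint2_132

/-! Row 154, B4 trunk side, part 3: the blocks between joint cuts are iid. -/

set_option autoImplicit false
set_option linter.unusedSectionVars false

namespace Crest.Agent.R154.J132

open MeasureTheory ProbabilityTheory Filter Topology Set
open scoped ENNReal

variable {A : Type*}

/-- displacement after `n` letters -/
def Dd (V : A → (Fin 2 → ℝ)) (n : ℕ) (a : ℕ → A) : Fin 2 → ℝ := ∑ i ∈ Finset.range n, V (a i)

lemma Dd_zero (V : A → (Fin 2 → ℝ)) (a : ℕ → A) : Dd V 0 a = 0 := by simp [Dd]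

lemma Dd_add (V : A → (Fin 2 → ℝ)) (n m : ℕ) (a : ℕ → A) :
    Dd V (n + m) a = Dd V n a + Dd V m (sh n a) := by
  simp [Dd, Finset.sum_range_add, sh]

lemma Dd_congr {V : A → (Fin 2 → ℝ)} {n : ℕ} {a b : ℕ → A} (h : ∀ i < n, a i = b i) :
    Dd V n a = Dd V n b :=
  Finset.sum_congr rfl fun i hi => by rw [h i (Finset.mem_range.1 hi)]

/-- `q` is the index pair of the first joint cut. -/
def Fst (Y : A → ℕ) (q : ℕ × ℕ) : Set ((ℕ → A) × (ℕ → A)) :=
  {p | 1 ≤ q.1 ∧ H Y q.1 p.1 = H Y q.2 p.2 ∧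
    ∀ i j, 1 ≤ i → i < q.1 → j < q.2 → H Y i p.1 ≠ H Y j p.2}

lemma det2_Fst (Y : A → ℕ) (q : ℕ × ℕ) : Det2 q.1 q.2 (Fst Y q) := by
  intro p p' h1 h2
  have e1 : ∀ i ≤ q.1, H Y i p.1 = H Y i p'.1 := fun i hi => H_congr fun k hk => h1 k (by omega)
  have e2 : ∀ j ≤ q.2, H Y j p.2 = H Y j p'.2 := fun i hi => H_congr fun k hk => h2 k (by omega)
  simp only [Fst, mem_ofPred_eq]
  constructor
  · rintro ⟨a, b, c⟩
    refine ⟨a, ?_, fun i j hi hi' hj => ?_⟩
    · rw [← e1 _ le_rfl, ← e2 _ le_rfl]; exact b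
    · rw [← e1 _ hi'.le, ← e2 _ hj.le]; exact c i j hi hi' hj
  · rintro ⟨a, b, c⟩
    refine ⟨a, ?_, fun i j hi hi' hj => ?_⟩
    · rw [e1 _ le_rfl, e2 _ le_rfl]; exact b
    · rw [e1 _ hi'.le, e2 _ hj.le]; exact c i j hi hi' hj

lemma fst_nocut {Y : A → ℕ} (hY : ∀ a, 1 ≤ Y a) {p : (ℕ → A) × (ℕ → A)} {q : ℕ × ℕ}
    (hp : p ∈ Fst Y q) {l : ℕ} (h1 : 1 ≤ l) (h2 : l < H Y q.1 p.1) : ¬ JCut Y p l := by
  rintro ⟨i, j, hi, hj⟩
  have hiq : i < q.1 := (H_strictMono hY p.1).lt_iff_lt.1 (by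
    change H Y i p.1 < H Y q.1 p.1; omega)
  have hjq : j < q.2 := (H_strictMono hY p.2).lt_iff_lt.1 (by
    change H Y j p.2 < H Y q.2 p.2; rw [← hp.2.1]; omega)
  have hi1 : 1 ≤ i := by
    rcases Nat.eq_zero_or_pos i with h | h
    · rw [h, H_zero] at hi; omega
    · exact h
  exact hp.2.2 i j hi1 hiq hjq (hi.trans hj.symm)

lemma exists_fst {Y : A → ℕ} (hY : ∀ a, 1 ≤ Y a) {p : (ℕ → A) × (ℕ → A)}
    (h : ∃ l, 1 ≤ l ∧ JCut Y p l) : ∃ q, p ∈ Fst Y q := by
  classical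
  obtain ⟨h1, i, j, hi, hj⟩ := Nat.find_spec h
  refine ⟨(i, j), ?_, hi.trans hj.symm, fun i' j' hi1 hi' hj' he => ?_⟩
  · rcases Nat.eq_zero_or_pos i with h0 | h0
    · rw [h0, H_zero] at hi; omega
    · exact h0
  · have h3 : H Y i' p.1 < Nat.find h := by
      rw [← hi]; exact H_strictMono hY p.1 hi'
    exact Nat.find_min h h3 ⟨hi1.trans (le_H hY i' p.1), i', j', rfl, he.symm⟩

lemma fst_unique {Y : A → ℕ} (hY : ∀ a, 1 ≤ Y a) {p : (ℕ → A) × (ℕ → A)} {q q' : ℕ × ℕ}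
    (hp : p ∈ Fst Y q) (hp' : p ∈ Fst Y q') : q = q' := by
  have hl : 1 ≤ H Y q.1 p.1 := hp.1.trans (le_H hY _ _)
  have hl' : 1 ≤ H Y q'.1 p.1 := hp'.1.trans (le_H hY _ _)
  have h1 : ¬ H Y q.1 p.1 < H Y q'.1 p.1 := fun h =>
    fst_nocut hY hp' hl h ⟨q.1, q.2, rfl, hp.2.1.symm⟩
  have h2 : ¬ H Y q'.1 p.1 < H Y q.1 p.1 := fun h =>
    fst_nocut hY hp hl' h ⟨q'.1, q'.2, rfl, hp'.2.1.symm⟩
  have h3 : H Y q.1 p.1 = H Y q'.1 p.1 := by omega
  refine Prod.ext ((H_strictMono hY p.1).injective h3) ((H_strictMono hY p.2).injective ?_)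
  change H Y q.2 p.2 = H Y q'.2 p.2
  rw [← hp.2.1, ← hp'.2.1]; exact h3

lemma disj_Fst {Y : A → ℕ} (hY : ∀ a, 1 ≤ Y a) : Pairwise (Function.onFun Disjoint (Fst Y)) := by
  intro q q' hne
  rw [Function.onFun, Set.disjoint_left]
  intro p hp hp'
  exact hne (fst_unique hY hp hp')

lemma fst_swap {Y : A → ℕ} (hY : ∀ a, 1 ≤ Y a) {p : (ℕ → A) × (ℕ → A)} {q : ℕ × ℕ}
    (hp : p ∈ Fst Y q) : p.swap ∈ Fst Y q.swap := by
  refine ⟨?_, hp.2.1.symm, fun i j hi hi' hj he => ?_⟩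
  · change 1 ≤ q.2
    rcases Nat.eq_zero_or_pos q.2 with h | h
    · have h1 := hp.2.1
      rw [h, H_zero] at h1
      have := hp.1.trans (le_H hY q.1 p.1)
      omega
    · exact h
  · change H Y i p.2 = H Y j p.1 at he
    have hj1 : 1 ≤ j := by
      rcases Nat.eq_zero_or_pos j with h | h
      · rw [h, H_zero] at he
        have := hi.trans (le_H hY i p.2)
        omega
      · exact h
    exact hp.2.2 j i hj1 hj hi' he.symm

/-- there is a joint cut at a positive level -/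
def Good (Y : A → ℕ) : Set ((ℕ → A) × (ℕ → A)) := ⋃ q, Fst Y q

/-- index pair of the first joint cut -/
noncomputable def idx (Y : A → ℕ) (p : (ℕ → A) × (ℕ → A)) : ℕ × ℕ := by
  classical exact if h : ∃ q, p ∈ Fst Y q then h.choose else (0, 0)

lemma idx_eq {Y : A → ℕ} (hY : ∀ a, 1 ≤ Y a) {p : (ℕ → A) × (ℕ → A)} {q : ℕ × ℕ}
    (hp : p ∈ Fst Y q) : idx Y p = q := by
  have h : ∃ q, p ∈ Fst Y q := ⟨q, hp⟩
  unfold idx
  rw [dif_pos h]
  exact fst_unique hY h.choose_spec hp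

lemma idx_none {Y : A → ℕ} {p : (ℕ → A) × (ℕ → A)} (h : ¬ ∃ q, p ∈ Fst Y q) :
    idx Y p = (0, 0) := by
  unfold idx
  rw [dif_neg h]

lemma mem_fst_idx {Y : A → ℕ} (hY : ∀ a, 1 ≤ Y a) {p : (ℕ → A) × (ℕ → A)} (hp : p ∈ Good Y) :
    p ∈ Fst Y (idx Y p) := by
  obtain ⟨q, hq⟩ := mem_iUnion.1 hp
  rw [idx_eq hY hq]; exact hq

/-- the pair after the first joint cut -/
noncomputable def rest (Y : A → ℕ) (p : (ℕ → A) × (ℕ → A)) : (ℕ → A) × (ℕ → A) :=
  sh2 (idx Y p).1 (idx Y p).2 p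

/-- displacement difference of the first joint block -/
noncomputable def X0 (Y : A → ℕ) (V : A → (Fin 2 → ℝ)) (p : (ℕ → A) × (ℕ → A)) : Fin 2 → ℝ :=
  Dd V (idx Y p).1 p.1 - Dd V (idx Y p).2 p.2

/-- height of the first joint block -/
noncomputable def R0 (Y : A → ℕ) (p : (ℕ → A) × (ℕ → A)) : ℕ := H Y (idx Y p).1 p.1

/-- the first joint block -/
noncomputable def blk (Y : A → ℕ) (V : A → (Fin 2 → ℝ)) (p : (ℕ → A) × (ℕ → A)) :
    (Fin 2 → ℝ) × ℕ := (X0 Y V p, R0 Y p)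

/-- index pair of the `k`-th joint cut -/
noncomputable def Qk (Y : A → ℕ) : ℕ → (ℕ → A) × (ℕ → A) → ℕ × ℕ
  | 0, _ => (0, 0)
  | k + 1, p => idx Y p + Qk Y k (rest Y p)

lemma Qk_succ (Y : A → ℕ) (k : ℕ) (p : (ℕ → A) × (ℕ → A)) :
    Qk Y (k + 1) p = idx Y p + Qk Y k (rest Y p) := rfl

lemma sum_X (Y : A → ℕ) (V : A → (Fin 2 → ℝ)) (k : ℕ) (p : (ℕ → A) × (ℕ → A)) :
    ∑ i ∈ Finset.range k, X0 Y V ((rest Y)^[i] p)
      = Dd V (Qk Y k p).1 p.1 - Dd V (Qk Y k p).2 p.2 := by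
  induction k generalizing p with
  | zero => simp [Qk, Dd_zero]
  | succ k ih =>
    rw [Finset.sum_range_succ']
    simp only [Function.iterate_succ_apply, Function.iterate_zero_apply]
    rw [ih (rest Y p), Qk_succ, Prod.fst_add, Prod.snd_add, Dd_add, Dd_add, X0]
    simp only [rest, sh2]
    abel

lemma sum_R (Y : A → ℕ) (k : ℕ) (p : (ℕ → A) × (ℕ → A)) :
    ∑ i ∈ Finset.range k, R0 Y ((rest Y)^[i] p) = H Y (Qk Y k p).1 p.1 := by
  induction k generalizing p with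
  | zero => simp [Qk, H_zero]
  | succ k ih =>
    rw [Finset.sum_range_succ']
    simp only [Function.iterate_succ_apply, Function.iterate_zero_apply]
    rw [ih (rest Y p), Qk_succ, Prod.fst_add, H_add, R0]
    simp only [rest, sh2]
    omega

/-- infinitely many joint cuts -/
def AllGood (Y : A → ℕ) : Set ((ℕ → A) × (ℕ → A)) := {p | ∀ k, (rest Y)^[k] p ∈ Good Y}

lemma allGood_rest {Y : A → ℕ} {p : (ℕ → A) × (ℕ → A)} (hp : p ∈ AllGood Y) :
    rest Y p ∈ AllGood Y := fun k => by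
  have := hp (k + 1)
  rwa [Function.iterate_succ_apply] at this

/-- every joint cut is a `Qk` -/
lemma exists_Qk {Y : A → ℕ} (hY : ∀ a, 1 ≤ Y a) (i : ℕ) : ∀ {p : (ℕ → A) × (ℕ → A)} (j : ℕ),
    p ∈ AllGood Y → H Y i p.1 = H Y j p.2 → ∃ k, Qk Y k p = (i, j) := by
  induction i using Nat.strong_induction_on with
  | _ i ih =>
    intro p j hp he
    rcases Nat.eq_zero_or_pos i with h0 | h0
    · subst h0
      rw [H_zero] at he
      have : j = 0 := by
        have := le_H hY j p.2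
        omega
      exact ⟨0, by rw [this]; rfl⟩
    · have hg : p ∈ Good Y := hp 0
      have hq := mem_fst_idx hY hg
      set q := idx Y p with hqd
      have hlev : H Y q.1 p.1 ≤ H Y i p.1 := by
        by_contra hcon
        push Not at hcon
        exact fst_nocut hY hq (le_trans (Nat.succ_le_of_lt h0) (le_H hY i p.1)) hcon
          ⟨i, j, rfl, he.symm⟩
      have h1 : q.1 ≤ i := (H_strictMono hY p.1).le_iff_le.1 hlev
      have h2 : q.2 ≤ j := (H_strictMono hY p.2).le_iff_le.1 (by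
        change H Y q.2 p.2 ≤ H Y j p.2
        rw [← hq.2.1, ← he]; exact hlev)
      have e1 := H_add Y q.1 (i - q.1) p.1
      have e2 := H_add Y q.2 (j - q.2) p.2
      rw [Nat.add_sub_cancel' h1] at e1
      rw [Nat.add_sub_cancel' h2] at e2
      have hq1 := hq.1
      have hq2 := hq.2.1
      have e3 : H Y (i - q.1) (rest Y p).1 = H Y (j - q.2) (rest Y p).2 := by
        change H Y (i - q.1) (sh q.1 p.1) = H Y (j - q.2) (sh q.2 p.2)
        omega
      obtain ⟨k, hk⟩ := ih (i - q.1) (by omega) (j - q.2) (allGood_rest hp) e3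
      refine ⟨k + 1, ?_⟩
      rw [Qk_succ, hk, ← hqd]
      refine Prod.ext ?_ ?_
      · change q.1 + (i - q.1) = i; omega
      · change q.2 + (j - q.2) = j; omega

lemma le_Qk {Y : A → ℕ} (hY : ∀ a, 1 ≤ Y a) (k : ℕ) {p : (ℕ → A) × (ℕ → A)}
    (hp : p ∈ AllGood Y) : k ≤ (Qk Y k p).1 := by
  induction k generalizing p with
  | zero => exact Nat.zero_le _
  | succ k ih =>
    have h1 := (mem_fst_idx hY (hp 0)).1
    have h2 := ih (allGood_rest hp)
    simp only [Function.iterate_zero, id_eq] at h1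
    rw [Qk_succ, Prod.fst_add]
    omega

variable [MeasurableSpace A] [MeasurableSingletonClass A] [Countable A] [Inhabited A]

lemma measurableSet_good (Y : A → ℕ) : MeasurableSet (Good Y) :=
  MeasurableSet.iUnion fun q => (det2_Fst Y q).measurableSet

lemma measurable_idx {Y : A → ℕ} (hY : ∀ a, 1 ≤ Y a) : Measurable (idx Y) := by
  refine measurable_to_countable' fun q => ?_
  have : idx Y ⁻¹' {q} = Fst Y q ∪ (if q = (0, 0) then (Good Y)ᶜ else ∅) := by
    ext p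
    simp only [mem_preimage, mem_singleton_iff, mem_union]
    constructor
    · intro h
      by_cases hg : p ∈ Good Y
      · left; rw [← h]; exact mem_fst_idx hY hg
      · right
        have h0 : idx Y p = (0, 0) := idx_none fun ⟨q, hq⟩ => hg (mem_iUnion.2 ⟨q, hq⟩)
        rw [if_pos (h.symm.trans h0)]
        exact hg
    · rintro (h | h)
      · exact idx_eq hY h
      · by_cases hq : q = (0, 0)
        · rw [if_pos hq] at h
          rw [hq]
          exact idx_none fun ⟨q, hq⟩ => h (mem_iUnion.2 ⟨q, hq⟩)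
        · rw [if_neg hq] at h; exact h.elim
  rw [this]
  refine (det2_Fst Y q).measurableSet.union ?_
  split_ifs
  · exact (measurableSet_good Y).compl
  · exact MeasurableSet.empty

lemma measurable_idx_comp {Y : A → ℕ} (hY : ∀ a, 1 ≤ Y a) {B : Type*} [MeasurableSpace B]
    {f : ℕ × ℕ → (ℕ → A) × (ℕ → A) → B} (hf : ∀ q, Measurable (f q)) :
    Measurable fun p => f (idx Y p) p := by
  have h1 : Measurable (fun x : (ℕ × ℕ) × ((ℕ → A) × (ℕ → A)) => f x.1 x.2) :=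
    measurable_from_prod_countable_right hf
  exact h1.comp ((measurable_idx hY).prodMk measurable_id)

lemma measurable_rest {Y : A → ℕ} (hY : ∀ a, 1 ≤ Y a) : Measurable (rest Y) :=
  measurable_idx_comp hY fun q => measurable_sh2 q.1 q.2


lemma measurable_Dd (V : A → (Fin 2 → ℝ)) (n : ℕ) : Measurable (Dd V n) := by
  unfold Dd
  exact Finset.measurable_sum _ fun i _ => (measurable_of_countable V).comp (measurable_pi_apply i)

lemma measurable_H (Y : A → ℕ) (n : ℕ) : Measurable (H Y n) := by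
  unfold H
  exact Finset.measurable_sum _ fun i _ => (measurable_of_countable Y).comp (measurable_pi_apply i)

lemma measurable_X0 {Y : A → ℕ} (hY : ∀ a, 1 ≤ Y a) (V : A → (Fin 2 → ℝ)) :
    Measurable (X0 Y V) :=
  measurable_idx_comp (f := fun q p => Dd V q.1 p.1 - Dd V q.2 p.2) hY fun q =>
    ((measurable_Dd V q.1).comp measurable_fst).sub ((measurable_Dd V q.2).comp measurable_snd)

lemma measurable_R0 {Y : A → ℕ} (hY : ∀ a, 1 ≤ Y a) : Measurable (R0 Y) :=
  measurable_idx_comp (f := fun q p => H Y q.1 p.1) hY fun q =>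
    (measurable_H Y q.1).comp measurable_fst

lemma measurable_blk {Y : A → ℕ} (hY : ∀ a, 1 ≤ Y a) (V : A → (Fin 2 → ℝ)) :
    Measurable (blk Y V) := (measurable_X0 hY V).prodMk (measurable_R0 hY)

lemma good_ae (μ : Measure A) [IsProbabilityMeasure μ] {Y : A → ℕ} (hY : ∀ a, 1 ≤ Y a)
    (hN : Tendsto (fun m => pairL μ (NoCut Y m)) atTop (𝓝 0)) : pairL μ (Good Y)ᶜ = 0 := by
  have h : ∀ m, pairL μ (Good Y)ᶜ ≤ pairL μ (NoCut Y m) := fun m => by
    refine measure_mono fun p hp l hl _ hc => hp ?_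
    obtain ⟨q, hq⟩ := exists_fst hY ⟨l, hl, hc⟩
    exact mem_iUnion.2 ⟨q, hq⟩
  exact le_antisymm (ge_of_tendsto' hN h) (zero_le)

/-- **general step** -/
theorem step (μ : Measure A) [IsProbabilityMeasure μ] {Y : A → ℕ} (hY : ∀ a, 1 ≤ Y a)
    (hg : pairL μ (Good Y)ᶜ = 0) {G : ℕ × ℕ → Set ((ℕ → A) × (ℕ → A))}
    (hG : ∀ q, Det2 q.1 q.2 (G q)) {B : Set ((ℕ → A) × (ℕ → A))} (hB : MeasurableSet B) :
    pairL μ {p | p ∈ G (idx Y p) ∧ rest Y p ∈ B}
      = pairL μ {p | p ∈ G (idx Y p)} * pairL μ B := by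
  have hd : Pairwise (Function.onFun Disjoint fun q => Fst Y q ∩ G q) := fun q q' h =>
    (disj_Fst hY h).mono inter_subset_left inter_subset_left
  have hdet : ∀ q : ℕ × ℕ, Det2 q.1 q.2 (Fst Y q ∩ G q) := fun q p p' h1 h2 =>
    and_congr (det2_Fst Y q p p' h1 h2) (hG q p p' h1 h2)
  have key := restart_family μ _ hdet hd hB
  have e1 : (⋃ q, (Fst Y q ∩ G q ∩ sh2 q.1 q.2 ⁻¹' B))
      = {p | p ∈ G (idx Y p) ∧ rest Y p ∈ B} ∩ Good Y := by
    ext p
    simp only [mem_iUnion, mem_inter_iff, mem_ofPred_eq, mem_preimage]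
    constructor
    · rintro ⟨q, ⟨h1, h2⟩, h3⟩
      have := idx_eq hY h1
      refine ⟨⟨by rw [this]; exact h2, ?_⟩, mem_iUnion.2 ⟨q, h1⟩⟩
      rw [rest, this]; exact h3
    · rintro ⟨⟨h1, h2⟩, h3⟩
      exact ⟨idx Y p, ⟨mem_fst_idx hY h3, h1⟩, h2⟩
  have e2 : (⋃ q, (Fst Y q ∩ G q)) = {p | p ∈ G (idx Y p)} ∩ Good Y := by
    ext p
    simp only [mem_iUnion, mem_inter_iff, mem_ofPred_eq]
    constructor
    · rintro ⟨q, h1, h2⟩
      have := idx_eq hY h1
      exact ⟨by rw [this]; exact h2, mem_iUnion.2 ⟨q, h1⟩⟩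
    · rintro ⟨h1, h3⟩
      exact ⟨idx Y p, mem_fst_idx hY h3, h1⟩
  rw [e1, e2, measure_inter_conull hg, measure_inter_conull hg] at key
  exact key

lemma det2_blk (Y : A → ℕ) (V : A → (Fin 2 → ℝ)) (T : Set ((Fin 2 → ℝ) × ℕ)) (q : ℕ × ℕ) :
    Det2 q.1 q.2 {p | (Dd V q.1 p.1 - Dd V q.2 p.2, H Y q.1 p.1) ∈ T} := by
  intro p p' h1 h2
  simp only [mem_ofPred_eq]
  rw [Dd_congr h1, Dd_congr h2, H_congr h1]

theorem step_blk (μ : Measure A) [IsProbabilityMeasure μ] {Y : A → ℕ} (hY : ∀ a, 1 ≤ Y a)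
    (hg : pairL μ (Good Y)ᶜ = 0) (V : A → (Fin 2 → ℝ)) (T : Set ((Fin 2 → ℝ) × ℕ))
    {B : Set ((ℕ → A) × (ℕ → A))} (hB : MeasurableSet B) :
    pairL μ {p | blk Y V p ∈ T ∧ rest Y p ∈ B}
      = pairL μ {p | blk Y V p ∈ T} * pairL μ B :=
  step μ hY hg (det2_blk Y V T) hB

/-- `n` blocks and the rest -/
theorem steps (μ : Measure A) [IsProbabilityMeasure μ] {Y : A → ℕ} (hY : ∀ a, 1 ≤ Y a)
    (hg : pairL μ (Good Y)ᶜ = 0) (V : A → (Fin 2 → ℝ)) (n : ℕ) :
    ∀ (T : ℕ → Set ((Fin 2 → ℝ) × ℕ)), (∀ k, MeasurableSet (T k)) →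
    ∀ {B : Set ((ℕ → A) × (ℕ → A))}, MeasurableSet B →
    pairL μ {p | (∀ k < n, blk Y V ((rest Y)^[k] p) ∈ T k) ∧ (rest Y)^[n] p ∈ B}
      = (∏ k ∈ Finset.range n, pairL μ {p | blk Y V p ∈ T k}) * pairL μ B := by
  induction n with
  | zero =>
    intro T hT B hB
    simp
  | succ n ih =>
    intro T hT B hB
    have hB' : MeasurableSet {p : (ℕ → A) × (ℕ → A) |
        (∀ k < n, blk Y V ((rest Y)^[k] p) ∈ T (k + 1)) ∧ (rest Y)^[n] p ∈ B} := by
      have : {p : (ℕ → A) × (ℕ → A) |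
        (∀ k < n, blk Y V ((rest Y)^[k] p) ∈ T (k + 1)) ∧ (rest Y)^[n] p ∈ B}
        = (⋂ k : ℕ, ⋂ _ : k < n, (fun p => blk Y V ((rest Y)^[k] p)) ⁻¹' T (k + 1))
          ∩ (rest Y)^[n] ⁻¹' B := by
        ext p; simp
      rw [this]
      refine (MeasurableSet.iInter fun k => MeasurableSet.iInter fun _ => ?_).inter ?_
      · exact ((measurable_blk hY V).comp ((measurable_rest hY).iterate k)) (hT _)
      · exact ((measurable_rest hY).iterate n) hB
    have key := step_blk μ hY hg V (T 0) hB'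
    rw [ih (fun k => T (k + 1)) (fun k => hT _) hB] at key
    rw [Finset.prod_range_succ', mul_comm (∏ k ∈ Finset.range n, _) _, mul_assoc, ← key]
    congr 1
    ext p
    simp only [mem_ofPred_eq, Function.iterate_succ_apply]
    constructor
    · rintro ⟨h1, h2⟩
      refine ⟨h1 0 (by omega), fun k hk => ?_, h2⟩
      have := h1 (k + 1) (by omega)
      rwa [Function.iterate_succ_apply] at this
    · rintro ⟨h0, h1, h2⟩
      refine ⟨fun k hk => ?_, h2⟩
      cases k with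
      | zero => exact h0
      | succ k => rw [Function.iterate_succ_apply]; exact h1 k (by omega)

theorem preserving_rest (μ : Measure A) [IsProbabilityMeasure μ] {Y : A → ℕ}
    (hY : ∀ a, 1 ≤ Y a) (hg : pairL μ (Good Y)ᶜ = 0) :
    MeasurePreserving (rest Y) (pairL μ) (pairL μ) := by
  refine ⟨measurable_rest hY, ?_⟩
  ext B hB
  rw [Measure.map_apply (measurable_rest hY) hB]
  have := step μ hY hg (G := fun _ => univ) (fun q p p' _ _ => by simp) hB
  simp only [mem_univ, true_and] at this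
  have e : {p : (ℕ → A) × (ℕ → A) | True} = univ := by ext; simp
  rw [e, measure_univ, one_mul] at this
  exact this

theorem allGood_ae (μ : Measure A) [IsProbabilityMeasure μ] {Y : A → ℕ}
    (hY : ∀ a, 1 ≤ Y a) (hg : pairL μ (Good Y)ᶜ = 0) : pairL μ (AllGood Y)ᶜ = 0 := by
  have : (AllGood Y)ᶜ = ⋃ k : ℕ, (rest Y)^[k] ⁻¹' (Good Y)ᶜ := by
    ext p; simp [AllGood]
  rw [this, measure_iUnion_null_iff]
  intro k
  rw [((preserving_rest μ hY hg).iterate k).measure_preimage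
    (measurableSet_good Y).compl.nullMeasurableSet]
  exact hg

/-- **(JC1)** the blocks are iid -/
theorem map_blocks (μ : Measure A) [IsProbabilityMeasure μ] {Y : A → ℕ} (hY : ∀ a, 1 ≤ Y a)
    (hg : pairL μ (Good Y)ᶜ = 0) (V : A → (Fin 2 → ℝ)) :
    (pairL μ).map (fun p (k : ℕ) => blk Y V ((rest Y)^[k] p))
      = Measure.infinitePi fun _ : ℕ => (pairL μ).map (blk Y V) := by
  have : IsProbabilityMeasure ((pairL μ).map (blk Y V)) :=
    Measure.isProbabilityMeasure_map (measurable_blk hY V).aemeasurable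
  classical
  refine Measure.eq_infinitePi _ fun s t ht => ?_
  have hm : Measurable (fun (p : (ℕ → A) × (ℕ → A)) (k : ℕ) => blk Y V ((rest Y)^[k] p)) :=
    measurable_pi_lambda _ fun k => (measurable_blk hY V).comp ((measurable_rest hY).iterate k)
  rw [Measure.map_apply hm (MeasurableSet.pi s.countable_toSet fun i _ => ht i)]
  obtain ⟨n, hn⟩ : ∃ n, s ⊆ Finset.range n :=
    ⟨s.sup id + 1, fun i hi => Finset.mem_range.2 (Nat.lt_succ_of_le (Finset.le_sup (f := id) hi))⟩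
  have key := steps μ hY hg V n (fun k => if k ∈ s then t k else univ) (fun k => by
    split_ifs; exacts [ht k, MeasurableSet.univ]) (B := univ) MeasurableSet.univ
  rw [measure_univ, mul_one] at key
  have e1 : (fun (p : (ℕ → A) × (ℕ → A)) (k : ℕ) => blk Y V ((rest Y)^[k] p)) ⁻¹'
      Set.pi (s : Set ℕ) t = {p | (∀ k < n, blk Y V ((rest Y)^[k] p) ∈
        (if k ∈ s then t k else univ)) ∧ (rest Y)^[n] p ∈ univ} := by
    ext p
    simp only [mem_preimage, Set.mem_pi, Finset.mem_coe, mem_ofPred_eq, mem_univ, and_true]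
    constructor
    · intro h k _
      split_ifs with hk
      · exact h k hk
      · trivial
    · intro h k hk
      have := h k (Finset.mem_range.1 (hn hk))
      rwa [if_pos hk] at this
  rw [e1, key]
  rw [← Finset.prod_subset hn]
  · refine Finset.prod_congr rfl fun k hk => ?_
    rw [if_pos hk, Measure.map_apply (measurable_blk hY V) (ht k)]
    rfl
  · intro k _ hk
    rw [if_neg hk]
    simp

/-- law of the displacement difference of a joint block -/
noncomputable def jlaw (μ : Measure A) (Y : A → ℕ) (V : A → (Fin 2 → ℝ)) : Measure (Fin 2 → ℝ) :=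
  (pairL μ).map (X0 Y V)

theorem law_X (μ : Measure A) [IsProbabilityMeasure μ] {Y : A → ℕ} (hY : ∀ a, 1 ≤ Y a)
    (hg : pairL μ (Good Y)ᶜ = 0) (V : A → (Fin 2 → ℝ)) (k : ℕ) :
    (pairL μ).map (fun p => X0 Y V ((rest Y)^[k] p)) = jlaw μ Y V := by
  have := ((preserving_rest μ hY hg).iterate k).map_eq
  rw [jlaw]
  conv_rhs => rw [← this]
  rw [Measure.map_map (measurable_X0 hY V) ((measurable_rest hY).iterate k)]
  rfl

theorem indep_X (μ : Measure A) [IsProbabilityMeasure μ] {Y : A → ℕ} (hY : ∀ a, 1 ≤ Y a)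
    (hg : pairL μ (Good Y)ᶜ = 0) (V : A → (Fin 2 → ℝ)) :
    iIndepFun (fun (k : ℕ) p => X0 Y V ((rest Y)^[k] p)) (pairL μ) := by
  have hlaw : ∀ k : ℕ, (pairL μ).map (fun p => blk Y V ((rest Y)^[k] p))
      = (pairL μ).map (blk Y V) := fun k => by
    have := ((preserving_rest μ hY hg).iterate k).map_eq
    conv_rhs => rw [← this]
    rw [Measure.map_map (measurable_blk hY V) ((measurable_rest hY).iterate k)]
    rfl
  have h1 : iIndepFun (fun (k : ℕ) p => blk Y V ((rest Y)^[k] p)) (pairL μ) := by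
    have hm : ∀ k : ℕ, Measurable (fun p => blk Y V ((rest Y)^[k] p)) := fun k =>
      (measurable_blk hY V).comp ((measurable_rest hY).iterate k)
    rw [iIndepFun_iff_map_fun_eq_infinitePi_map hm]
    simp_rw [hlaw]
    exact map_blocks μ hY hg V
  exact h1.comp (fun _ => Prod.fst) fun _ => measurable_fst

/-- the law is symmetric -/
theorem jlaw_symm (μ : Measure A) [IsProbabilityMeasure μ] {Y : A → ℕ} (hY : ∀ a, 1 ≤ Y a)
    (hg : pairL μ (Good Y)ᶜ = 0) (V : A → (Fin 2 → ℝ)) :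
    (jlaw μ Y V).map (fun x => -x) = jlaw μ Y V := by
  have hs : (pairL μ).map Prod.swap = pairL μ := Measure.prod_swap
  rw [jlaw, Measure.map_map measurable_neg (measurable_X0 hY V)]
  conv_rhs => rw [← hs]
  rw [Measure.map_map (measurable_X0 hY V) measurable_swap]
  refine Measure.map_congr ?_
  have hg' : ∀ᵐ p ∂(pairL μ), p ∈ Good Y := hg
  filter_upwards [hg'] with p hp
  have h1 := mem_fst_idx hY hp
  have h2 := idx_eq hY (fst_swap hY h1)
  simp only [Function.comp_apply, X0]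
  rw [h2]
  simp only [Prod.fst_swap, Prod.snd_swap]
  abel

end Crest.Agent.R154.J132
private theorem rz_aafcff48b2 : type_of% @_root_.Crest.Agent.R154.J132.Qk.eq_def := @_root_.Crest.Agent.R154.J132.Qk.eq_def -- L151
private theorem rz_0f52cc4dd9 : type_of% @_root_.Crest.Agent.R154.J132.Qk.eq_1 := @_root_.Crest.Agent.R154.J132.Qk.eq_1 -- L151
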