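import Crest.Agent.R154.Win2_22
import Crest.Agent.R154.E3_168
import Crest.Agent.R154.JHit_139
import Crest.Agent.R154.B5First_181
import Mathlib
import Crest.Agent.R154.B5Rec_566
import Crest.Agent.R154.B5Abs_566
import Crest.Agent.R154.NBDefs_28
import Crest.Agent.R154.Kal_132
import Crest.Agent.R154.DoobQ_804
import Crest.Agent.R154.B2d_419
import Crest.Agent.R154.B5Br_657
import Crest.Agent.R154.Flux2_566
import Crest.Agent.R154.NBSurg_28
import Crest.Agent.R154.B5Weak_865
import Crest.Agent.R154.B5Words_657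
import Crest.Agent.R154.Spine_796
import Crest.Agent.R154.HW_725
import Crest.Agent.R154.Split_796

-- ▼ part R154/E2_22
section

/-! Row 154, ROAD 801: E2 (912 #40669) = the window lemma with `X` local in joint-cut frame
(helper22). -/

set_option autoImplicit false

namespace Crest.Agent.R154.W22

open MeasureTheory ProbabilityTheory Crest.ProbabilityR.RandomEnvironment Crest.Agent.R154
open Crest.Agent.R154.Flux132 (lev opp)
open Crest.Agent.R154.Flux566 (lw endp sitesL measurable_lw endp_append)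
open Crest.Agent.R154.NB28 (IsUp IsDn aw Cm mem_sitesL_iff mem_sitesL_add lev_opp)
open scoped ENNReal

variable {d : ℕ}

open Classical in
theorem E2 (ν : Measure (Row d)) [IsProbabilityMeasure ν] (u : Step d) :
    ∀ (s H : ℕ) (E : Finset (Site d)) (μ : Site d → ℝ≥0∞) (M lam : ℝ≥0∞),
      ∑' x, μ x ≤ 1 → (∀ x, μ x ≤ M) → lam ≠ 0 → lam ≠ ⊤ →
      ∑' x, (if lev u x = 0 then μ x * ∑' π, ∑' γ, (if IsUp u H π ∧ endp 0 π ∈ E ∧
        IsDn u H γ ∧ (∃ k, k ∈ Cm u x π γ) ∧ (∀ k ∈ Cm u x π γ, s < k)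
        then aw ν π * aw ν γ else 0) else 0)
        ≤ 1 * (lam + M * E.card * us ν u s / lam + us ν u s) := by
  intro s H E μ M lam hμ hM h0 _
  set o : Site d := stepVec (opp u) with ho
  have hlo : lev u o = -1 := lev_opp u
  set μ' : Site d → ℝ≥0∞ := fun y => if lev u (y - o) = 0 then μ (y - o) else 0 with hμ'
  have h1 : ∑' y, μ' y ≤ 1 := by
    calc ∑' y, μ' y = ∑' y, (fun x => if lev u x = 0 then μ x else 0) ((Equiv.subRight o) y) := rfl
      _ = ∑' x, (if lev u x = 0 then μ x else 0) :=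
          (Equiv.subRight o).tsum_eq (fun x => if lev u x = 0 then μ x else 0)
      _ ≤ ∑' x, μ x := ENNReal.tsum_le_tsum fun x => by split_ifs <;> simp
      _ ≤ 1 := hμ
  have h2 : ∀ y, μ' y ≤ M := by
    intro y
    simp only [hμ']
    split_ifs
    · exact hM _
    · exact zero_le
  have h3 : ∀ y, μ' y ≠ 0 → lev u y = -((0 : ℕ) : ℤ) - 1 := by
    intro y hy
    simp only [hμ'] at hy
    have h4 : lev u (y - o) = 0 := by
      by_contra hh; exact hy (if_neg hh)
    have h5 : lev u y = lev u (y - o) + lev u o := by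
      rw [← Flux132.lev_add]; congr 1; abel
    rw [h5, h4, hlo]; norm_num
  have key := win2 ν u H H 0 s (E.image fun x => -x) μ' h1 M h2 h3 lam h0
  have hcard : ((E.image fun x => -x).card : ℝ≥0∞) ≤ E.card := by
    exact_mod_cast Finset.card_image_le
  refine le_trans (le_trans (b := ∑' y, μ' y * ∑' π, ∑' γ,
    (if Cond u H H s (E.image fun x => -x) (endp 0 π + y) π γ then aw ν π * aw ν γ else 0))
    ?_ key) ?_
  · rw [← (Equiv.addRight o).tsum_eq (fun y => μ' y * ∑' π, ∑' γ,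
      (if Cond u H H s (E.image fun x => -x) (endp 0 π + y) π γ then aw ν π * aw ν γ else 0))]
    refine ENNReal.tsum_le_tsum fun x => ?_
    by_cases hx : lev u x = 0
    · rw [if_pos hx]
      have e1 : μ' ((Equiv.addRight o) x) = μ x := by
        simp only [hμ', Equiv.coe_addRight, add_sub_cancel_right, if_pos hx]
      rw [e1]
      refine mul_le_mul_right (ENNReal.tsum_le_tsum fun π => ENNReal.tsum_le_tsum fun γ => ?_) _
      by_cases hh : IsUp u H π ∧ endp 0 π ∈ E ∧
        IsDn u H γ ∧ (∃ k, k ∈ Cm u x π γ) ∧ (∀ k ∈ Cm u x π γ, s < k)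
      · rw [if_pos hh, if_pos]
        obtain ⟨a1, a2, a3, ⟨k, y, b1, b2, b3⟩, a5⟩ := hh
        have ez : endp 0 π + (Equiv.addRight o) x = x + o + endp 0 π := by
          simp only [Equiv.coe_addRight]; abel
        have lz : lev u (endp 0 π + (Equiv.addRight o) x) = H - 1 := by
          rw [ez, Flux132.lev_add, Flux132.lev_add, hx, hlo, a1.2]; ring
        refine ⟨a1, a3, Finset.mem_image.2 ⟨_, a2, rfl⟩, ⟨y + endp 0 π, ?_, ?_⟩, ?_⟩
        · have := (mem_sitesL_add π (-endp 0 π) (endp 0 π) y).2 b1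
          rwa [neg_add_cancel] at this
        · rw [ez]
          exact (mem_sitesL_add γ (x + o) (endp 0 π) y).2 b2
        · intro v hv1 hv2
          have c1 : v - endp 0 π ∈ sitesL (-endp 0 π) π := by
            refine (mem_sitesL_add π (-endp 0 π) (endp 0 π) _).1 ?_
            rwa [neg_add_cancel, sub_add_cancel]
          have c2 : v - endp 0 π ∈ sitesL (x + o) γ := by
            refine (mem_sitesL_add γ (x + o) (endp 0 π) _).1 ?_
            rwa [sub_add_cancel, ← ez]
          have c3 : lev u v = lev u (v - endp 0 π) + lev u (endp 0 π) := by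
            rw [← Flux132.lev_add]; congr 1; abel
          have c4 := (a1.1 v hv1).2
          have c5 := a1.2
          have c6 := a5 (-lev u (v - endp 0 π)).toNat ⟨_, c1, c2, by omega⟩
          rw [lz]
          omega
      · rw [if_neg hh]; exact zero_le
    · rw [if_neg hx]; exact zero_le
  · rw [one_mul]
    refine le_trans (add_le_add le_rfl ?_) le_self_add
    rw [ENNReal.div_eq_inv_mul]
    calc lam⁻¹ * (M * (((E.image fun x => -x).card : ℝ≥0∞) * us ν u s))
        ≤ lam⁻¹ * (M * ((E.card : ℝ≥0∞) * us ν u s)) := by gcongr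
      _ = _ := by ring

end Crest.Agent.R154.W22
end

-- ▼ part R154/E23_168
section

/-! Row 154, ROAD 801 (helper168): `E2` and `E3` of 912 (#40669) with one common `us → 0`. -/

set_option autoImplicit false

namespace Crest.Agent.R154.E23168

open MeasureTheory ProbabilityTheory Crest.ProbabilityR.RandomEnvironment Crest.Agent.R154
open Crest.Agent.R154.Flux132 (lev opp)
open Crest.Agent.R154.Flux566 (lw endp sitesL)
open Crest.Agent.R154.NB28 (IsUp IsDn Cm aw)
open scoped ENNReal Classical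

variable {d : ℕ}

/-- common turning weight -/
noncomputable def uc (ν : Measure (Row d)) [IsProbabilityMeasure ν] (u : Step d) (s : ℕ) : ℝ≥0∞ :=
  W22.us ν u s + us ν (opp u) s

theorem uc_tendsto (ν : Measure (Row d)) [IsProbabilityMeasure ν] (u : Step d) :
    Filter.Tendsto (uc ν u) Filter.atTop (nhds 0) := by
  have h1 : Filter.Tendsto (W22.us ν u) Filter.atTop (nhds 0) := by
    rw [ENNReal.tendsto_atTop_zero]
    intro ε hε
    obtain ⟨s0, h⟩ := W22.us_small ν u ε hε.ne'
    exact ⟨s0, fun n hn => h n hn⟩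
  have h2 := us_tendsto ν (opp u)
  have h3 := h1.add h2
  rw [add_zero] at h3
  exact h3

theorem e2c (ν : Measure (Row d)) [IsProbabilityMeasure ν] (u : Step d) :
    ∀ (s H : ℕ) (E : Finset (Site d)) (μ : Site d → ℝ≥0∞) (M lam : ℝ≥0∞),
      ∑' x, μ x ≤ 1 → (∀ x, μ x ≤ M) → lam ≠ 0 → lam ≠ ⊤ →
      ∑' x, (if lev u x = 0 then μ x * ∑' π, ∑' γ, (if IsUp u H π ∧ endp 0 π ∈ E ∧
        IsDn u H γ ∧ (∃ k, k ∈ Cm u x π γ) ∧ (∀ k ∈ Cm u x π γ, s < k)
        then aw ν π * aw ν γ else 0) else 0)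
        ≤ 4 * (lam + M * E.card * uc ν u s / lam + uc ν u s) := by
  intro s H E μ M lam hμ hM h0 ht
  refine (W22.E2 ν u s H E μ M lam hμ hM h0 ht).trans ?_
  have hle : W22.us ν u s ≤ uc ν u s := le_self_add
  refine mul_le_mul' (by norm_num) ?_
  refine add_le_add (add_le_add le_rfl ?_) hle
  exact ENNReal.div_le_div_right (mul_le_mul_right hle _) _

theorem e3c (ν : Measure (Row d)) [IsProbabilityMeasure ν] (u : Step d) :
    ∀ (s H : ℕ) (E : Finset (Site d)) (μ : Site d → ℝ≥0∞) (M lam : ℝ≥0∞),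
      ∑' x, μ x ≤ 1 → (∀ x, μ x ≤ M) → lam ≠ 0 → lam ≠ ⊤ →
      ∑' x, (if lev u x = 0 then μ x * ∑' π, ∑' γ, (if IsUp u H π ∧ endp 0 γ ∈ E ∧
        IsDn u H γ ∧ (∃ k, k ∈ Cm u x π γ) ∧ (∀ k ∈ Cm u x π γ, k + s ≤ H)
        then aw ν π * aw ν γ else 0) else 0)
        ≤ 4 * (lam + M * E.card * uc ν u s / lam + uc ν u s) := by
  intro s H E μ M lam hμ hM h0 ht
  refine (E3' ν u s H E μ M lam hμ hM h0 ht).trans ?_
  have hle : us ν (opp u) s ≤ uc ν u s := le_add_self
  refine mul_le_mul' le_rfl ?_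
  refine add_le_add (add_le_add le_rfl ?_) hle
  exact ENNReal.div_le_div_right (mul_le_mul_right hle _) _

end Crest.Agent.R154.E23168
end

-- ▼ part R154/JWin_139
section

/-! Row 154, road 801, assembly in the joint-cut frame, part 2 (helper139): one window. -/

set_option autoImplicit false

namespace Crest.Agent.R154.JAsm139

open scoped ENNReal
open Crest.Agent.R154.B5A
open Crest.Agent.R154.FP178

variable {B W : Type*} (Λ : B → ℝ≥0∞) (ht : B → ℕ) (dl : B → W → W) (cd : W → B → Set ℕ)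

open Classical in
/-- first contact in `(a, a+q]`, crossings of height `n` -/
noncomputable def Kwin (n a q : ℕ) (w : W) : ℝ≥0∞ :=
  ∑' L : List B, if HT ht L = n ∧ (∀ k ∈ CD ht dl cd L w, a < k) ∧
    (∃ k ∈ CD ht dl cd L w, k ≤ a + q) then LW Λ L else 0

open Classical in
/-- pieces of height `N` without contact at depth `≤ s` and with a contact at depth `≤ b` -/
noncomputable def DD (N s b : ℕ) (w : W) : ℝ≥0∞ :=
  ∑' L : List B, if HT ht L = N ∧ (∀ k ∈ CD ht dl cd L w, s < k) ∧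
    (∃ k ∈ CD ht dl cd L w, k ≤ b) then LW Λ L else 0

open Classical in
/-- 818's window mass -/
noncomputable def WL (H s : ℕ) (w : W) : ℝ≥0∞ :=
  ∑' L : List B, if HT ht L = H ∧ CD ht dl cd L w ≠ ∅ ∧
    (∀ k ∈ CD ht dl cd L w, s < k ∧ k + s ≤ H) then LW Λ L else 0

open Classical in
/-- the bottom slab -/
noncomputable def SLB (H s : ℕ) (w : W) : ℝ≥0∞ :=
  ∑' L : List B, if HT ht L = H ∧ (∃ k ∈ CD ht dl cd L w, H < k + s) then LW Λ L else 0

/-- overshoot mass -/
noncomputable def ov (q : ℕ) : ℝ≥0∞ := ∑' k, tail Λ ht (q + k)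


lemma WL_le (H s : ℕ) (w : W) : WL Λ ht dl cd H s w ≤ U Λ ht H := by
  classical
  refine ENNReal.tsum_le_tsum fun L => ?_
  by_cases h : HT ht L = H
  · rw [if_pos h]; split_ifs <;> simp
  · rw [if_neg h, if_neg (fun h' => h h'.1)]

lemma DD_split (H s b : ℕ) (w : W) :
    DD Λ ht dl cd H s b w ≤ SLB Λ ht dl cd H s w + WL Λ ht dl cd H s w := by
  classical
  rw [DD, SLB, WL, ← ENNReal.tsum_add]
  refine ENNReal.tsum_le_tsum fun L => ?_
  by_cases h : HT ht L = H ∧ (∀ k ∈ CD ht dl cd L w, s < k) ∧ (∃ k ∈ CD ht dl cd L w, k ≤ b)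
  · obtain ⟨hH, hall, k, hk, _⟩ := h
    rw [if_pos ⟨hH, hall, k, hk, by assumption⟩]
    by_cases h2 : ∃ k ∈ CD ht dl cd L w, H < k + s
    · rw [if_pos ⟨hH, h2⟩]; exact le_add_right le_rfl
    · push Not at h2
      rw [if_pos (⟨hH, Set.nonempty_iff_ne_empty.1 ⟨k, hk⟩, fun k hk => ⟨hall k hk, h2 k hk⟩⟩ :
        HT ht L = H ∧ CD ht dl cd L w ≠ ∅ ∧ (∀ k ∈ CD ht dl cd L w, s < k ∧ k + s ≤ H))]
      exact le_add_left le_rfl
  · rw [if_neg h]; exact zero_le

open Classical in
/-- the common middle term -/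
noncomputable def MM (s b : ℕ) (w : W) (X : ℕ) : ℝ≥0∞ :=
  ∑' R : List B, if fp ht b R ∧ (∀ k ∈ CD ht dl cd R w, s < k) ∧ (∃ k ∈ CD ht dl cd R w, k ≤ b) ∧
    HT ht R ≤ X then LW Λ R else 0

lemma sum_ext (n : ℕ) (L1 : List B) (x : ℝ≥0∞) :
    ∑' L2 : List B, (if HT ht (L1 ++ L2) = n then LW Λ L2 * x else 0)
      = (if HT ht L1 ≤ n then U Λ ht (n - HT ht L1) else 0) * x := by
  classical
  by_cases h : HT ht L1 ≤ n
  · rw [if_pos h, U, ← ENNReal.tsum_mul_right]
    refine tsum_congr fun L2 => ?_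
    rw [HT_append]
    by_cases h2 : HT ht L1 + HT ht L2 = n
    · rw [if_pos h2, if_pos (by omega)]
    · rw [if_neg h2, if_neg (by omega), zero_mul]
  · rw [if_neg h, zero_mul]
    refine ENNReal.tsum_eq_zero.2 fun L2 => ?_
    rw [HT_append, if_neg (by omega)]

/-- from height `N` down to the middle term -/
lemma DD_le_MM (h1 : ∀ b, 1 ≤ ht b) (hU1 : ∀ n, U Λ ht n ≤ 1)
    (hcd : ∀ w b k, k ∈ cd w b → 1 ≤ k ∧ k ≤ ht b) (N s b q : ℕ) (hN : b ≤ N) (w : W) :
    DD Λ ht dl cd N s b w ≤ MM Λ ht dl cd s b w (b + q) + ov Λ ht q := by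
  classical
  set f : List B → ℝ≥0∞ := fun L => if HT ht L = N ∧ (∀ k ∈ CD ht dl cd L w, s < k) ∧
    (∃ k ∈ CD ht dl cd L w, k ≤ b) then 1 else 0 with hf
  have e1 : DD Λ ht dl cd N s b w = ∑' L, (if b ≤ HT ht L then LW Λ L * f L else 0) := by
    refine tsum_congr fun L => ?_
    simp only [hf]
    by_cases h : HT ht L = N ∧ (∀ k ∈ CD ht dl cd L w, s < k) ∧ (∃ k ∈ CD ht dl cd L w, k ≤ b)
    · rw [if_pos h, if_pos h, if_pos (by omega), mul_one]
    · rw [if_neg h, if_neg h, mul_zero, ite_self]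
  rw [e1, split Λ ht h1 b f]
  have key : ∀ R : List B, (if fp ht b R then LW Λ R * ∑' L2, LW Λ L2 * f (R ++ L2) else 0)
      ≤ (if fp ht b R ∧ (∀ k ∈ CD ht dl cd R w, s < k) ∧ (∃ k ∈ CD ht dl cd R w, k ≤ b) ∧
          HT ht R ≤ b + q then LW Λ R else 0)
        + (if fp ht b R ∧ b + q < HT ht R then LW Λ R else 0) := by
    intro R
    by_cases hR : fp ht b R
    · rw [if_pos hR]
      have hb := le_HT_of_fp ht hR
      have hle1 : ∑' L2, LW Λ L2 * f (R ++ L2) ≤ 1 := by
        calc ∑' L2, LW Λ L2 * f (R ++ L2)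
            ≤ ∑' L2 : List B, (if HT ht (R ++ L2) = N then LW Λ L2 * 1 else 0) := by
              refine ENNReal.tsum_le_tsum fun L2 => ?_
              simp only [hf]
              by_cases h2 : HT ht (R ++ L2) = N
              · rw [if_pos h2]; refine mul_le_mul_right ?_ _; split_ifs <;> simp
              · rw [if_neg h2, if_neg (fun h' => h2 h'.1), mul_zero]
          _ = (if HT ht R ≤ N then U Λ ht (N - HT ht R) else 0) * 1 := sum_ext Λ ht N R 1
          _ ≤ 1 := by
            rw [mul_one]; split_ifs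
            · exact hU1 _
            · simp
      by_cases hq : HT ht R ≤ b + q
      · by_cases hc : (∀ k ∈ CD ht dl cd R w, s < k) ∧ (∃ k ∈ CD ht dl cd R w, k ≤ b)
        · rw [if_pos ⟨hR, hc.1, hc.2, hq⟩]
          refine le_add_right ?_
          calc LW Λ R * _ ≤ LW Λ R * 1 := mul_le_mul_right hle1 _
            _ = _ := mul_one _
        · have hz : ∑' L2, LW Λ L2 * f (R ++ L2) = 0 := by
            refine ENNReal.tsum_eq_zero.2 fun L2 => ?_
            simp only [hf]
            rw [if_neg, mul_zero]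
            rintro ⟨_, hall, k, hk, hkb⟩
            rw [CD_append] at hall hk
            refine hc ⟨fun k hk => hall k (Or.inl hk), ?_⟩
            rcases hk with hk | ⟨k2, hk2, rfl⟩
            · exact ⟨k, hk, hkb⟩
            · have := CD_pos ht dl cd hcd _ _ _ hk2
              simp only at hkb
              omega
          rw [hz, mul_zero]; exact zero_le
      · rw [if_pos (⟨hR, by omega⟩ : fp ht b R ∧ b + q < HT ht R)]
        refine le_add_left ?_
        calc LW Λ R * _ ≤ LW Λ R * 1 := mul_le_mul_right hle1 _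
          _ = _ := mul_one _
    · rw [if_neg hR]; exact zero_le
  calc _ ≤ _ := ENNReal.tsum_le_tsum key
    _ = _ := ENNReal.tsum_add
    _ ≤ _ := by
      rw [MM, ov]
      gcongr
      exact overshoot Λ ht h1 hU1 q b

/-- from the middle term to exact height `H` -/
lemma MM_le_DD (h1 : ∀ b, 1 ≤ ht b) (c : ℝ≥0∞) (hU : ∀ n, c ≤ U Λ ht n)
    (H s b X : ℕ) (hsb : s ≤ b) (hX : X ≤ H) (hb : b ≤ H) (w : W) :
    c * MM Λ ht dl cd s b w X ≤ DD Λ ht dl cd H s b w := by
  classical
  set f : List B → ℝ≥0∞ := fun L => if HT ht L = H ∧ (∀ k ∈ CD ht dl cd L w, s < k) ∧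
    (∃ k ∈ CD ht dl cd L w, k ≤ b) then 1 else 0 with hf
  have e1 : DD Λ ht dl cd H s b w = ∑' L, (if b ≤ HT ht L then LW Λ L * f L else 0) := by
    refine tsum_congr fun L => ?_
    simp only [hf]
    by_cases h : HT ht L = H ∧ (∀ k ∈ CD ht dl cd L w, s < k) ∧ (∃ k ∈ CD ht dl cd L w, k ≤ b)
    · rw [if_pos h, if_pos h, if_pos (by omega), mul_one]
    · rw [if_neg h, if_neg h, mul_zero, ite_self]
  rw [e1, split Λ ht h1 b f, MM, ← ENNReal.tsum_mul_left]
  refine ENNReal.tsum_le_tsum fun R => ?_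
  by_cases hR : fp ht b R ∧ (∀ k ∈ CD ht dl cd R w, s < k) ∧ (∃ k ∈ CD ht dl cd R w, k ≤ b) ∧
      HT ht R ≤ X
  · obtain ⟨hf1, hall, ⟨k, hk, hkb⟩, hRX⟩ := hR
    rw [if_pos ⟨hf1, hall, ⟨k, hk, hkb⟩, hRX⟩, if_pos hf1, mul_comm]
    refine mul_le_mul_right ?_ _
    have hbR := le_HT_of_fp ht hf1
    calc c ≤ U Λ ht (H - HT ht R) := hU _
      _ = (if HT ht R ≤ H then U Λ ht (H - HT ht R) else 0) * 1 := by
          rw [if_pos (by omega), mul_one]
      _ = ∑' L2 : List B, (if HT ht (R ++ L2) = H then LW Λ L2 * 1 else 0) :=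
          (sum_ext Λ ht H R 1).symm
      _ ≤ _ := by
          refine ENNReal.tsum_le_tsum fun L2 => ?_
          by_cases h2 : HT ht (R ++ L2) = H
          · rw [if_pos h2]
            refine mul_le_mul_right ?_ _
            simp only [hf]
            rw [if_pos]
            refine ⟨h2, ?_, k, ?_, hkb⟩
            · intro k' hk'
              rw [CD_append] at hk'
              rcases hk' with hk' | ⟨k2, hk2, rfl⟩
              · exact hall k' hk'
              · by_contra hcon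
                simp only [not_lt] at hcon
                have := hall k hk
                omega
            · rw [CD_append]; exact Or.inl hk
          · rw [if_neg h2]; exact zero_le
  · rw [if_neg hR, mul_zero]; exact zero_le

end Crest.Agent.R154.JAsm139
end

-- ▼ part R154/JNum_139
section

/-! Row 154, road 801, joint-cut frame: choice of `J` and `u` (helper139). -/

set_option autoImplicit false

namespace Crest.Agent.R154.JAsm139

open scoped ENNReal Topology
open Filter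

lemma num (c1 : ℝ≥0∞) (h0 : c1 ≠ 0) (h1 : c1 ≤ 1) (δ : ℝ≥0∞) (hδ : δ ≠ 0) :
    ∃ (J : ℕ) (u : ℝ≥0∞), u ≠ 0 ∧ u ≤ 1 ∧
      ((8 * J + 4 : ℕ) : ℝ≥0∞) * (u * u + 2 * (1 - c1 * u) ^ J) ≤ δ := by
  have hc1t : c1 ≠ ⊤ := ne_top_of_le_ne_top ENNReal.one_ne_top h1
  set r := c1.toReal with hr'
  have hr : 0 < r := ENNReal.toReal_pos h0 hc1t
  have hr1 : r ≤ 1 := by
    have := ENNReal.toReal_mono ENNReal.one_ne_top h1
    simpa using this
  have hc1 : c1 = ENNReal.ofReal r := (ENNReal.ofReal_toReal hc1t).symm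
  obtain ⟨δ', hδ'0, hδ'⟩ : ∃ δ' : ℝ, 0 < δ' ∧ ENNReal.ofReal δ' ≤ δ := by
    rcases eq_or_ne δ ⊤ with h | h
    · exact ⟨1, one_pos, by simp [h]⟩
    · exact ⟨δ.toReal, ENNReal.toReal_pos hδ h, by rw [ENNReal.ofReal_toReal h]⟩
  have t0 : Tendsto (fun N : ℕ => r * (N : ℝ)) atTop atTop :=
    (tendsto_natCast_atTop_atTop).const_mul_atTop hr
  have t2 : Tendsto (fun N : ℕ => (r * (N : ℝ)) ^ 3 * Real.exp (-(r * N))) atTop (𝓝 0) :=
    (Real.tendsto_pow_mul_exp_neg_atTop_nhds_zero 3).comp t0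
  have t3 : Tendsto (fun N : ℕ => 1 / (N : ℝ)) atTop (𝓝 0) := tendsto_one_div_atTop_nhds_zero_nat
  have t1 : Tendsto (fun N : ℕ => 12 * (1 / (N : ℝ))
      + 24 / r ^ 3 * ((r * (N : ℝ)) ^ 3 * Real.exp (-(r * N)))) atTop
      (𝓝 (12 * 0 + 24 / r ^ 3 * 0)) := (t3.const_mul 12).add (t2.const_mul _)
  have t4 := t1.eventually_lt_const (show 12 * 0 + 24 / r ^ 3 * 0 < δ' by simpa using hδ'0)
  obtain ⟨N, hN, hN1⟩ := (t4.and (eventually_ge_atTop 1)).exists
  have hNr : (1 : ℝ) ≤ N := by exact_mod_cast hN1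
  have hN0 : (0 : ℝ) < N := by linarith
  refine ⟨N ^ 3, ENNReal.ofReal (1 / (N : ℝ) ^ 2), ?_, ?_, ?_⟩
  · rw [Ne, ENNReal.ofReal_eq_zero, not_le]; positivity
  · rw [← ENNReal.ofReal_one]
    refine ENNReal.ofReal_le_ofReal ?_
    rw [div_le_one (by positivity)]
    exact one_le_pow₀ hNr
  · refine le_trans ?_ hδ'
    have hx0 : 0 ≤ 1 - r * (1 / (N : ℝ) ^ 2) := by
      have : r * (1 / (N : ℝ) ^ 2) ≤ 1 * 1 := by
        refine mul_le_mul hr1 ?_ (by positivity) (by norm_num)
        rw [div_le_one (by positivity)]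
        exact one_le_pow₀ hNr
      linarith
    have e1 : (1 - c1 * ENNReal.ofReal (1 / (N : ℝ) ^ 2)) ^ (N ^ 3)
        = ENNReal.ofReal ((1 - r * (1 / (N : ℝ) ^ 2)) ^ (N ^ 3)) := by
      rw [hc1, ← ENNReal.ofReal_mul hr.le, ← ENNReal.ofReal_one,
        ← ENNReal.ofReal_sub _ (by positivity), ENNReal.ofReal_pow hx0]
    have e2 : (1 - r * (1 / (N : ℝ) ^ 2)) ^ (N ^ 3) ≤ Real.exp (-(r * N)) := by
      calc (1 - r * (1 / (N : ℝ) ^ 2)) ^ (N ^ 3)
          ≤ (Real.exp (-(r * (1 / (N : ℝ) ^ 2)))) ^ (N ^ 3) := by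
            refine pow_le_pow_left₀ hx0 ?_ _
            have := Real.add_one_le_exp (-(r * (1 / (N : ℝ) ^ 2)))
            linarith
        _ = Real.exp (-(r * N)) := by
            rw [← Real.exp_nat_mul]
            congr 1
            push_cast
            field_simp
    have e3 : ((8 * N ^ 3 + 4 : ℕ) : ℝ≥0∞) = ENNReal.ofReal (8 * (N : ℝ) ^ 3 + 4) := by
      rw [← ENNReal.ofReal_natCast]; push_cast; rfl
    rw [e1, e3, ← ENNReal.ofReal_mul (by positivity),
      show (2 : ℝ≥0∞) = ENNReal.ofReal 2 by simp, ← ENNReal.ofReal_mul (by norm_num),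
      ← ENNReal.ofReal_add (by positivity) (by positivity), ← ENNReal.ofReal_mul (by positivity)]
    refine ENNReal.ofReal_le_ofReal ?_
    have h12 : 8 * (N : ℝ) ^ 3 + 4 ≤ 12 * (N : ℝ) ^ 3 := by
      have : (1 : ℝ) ≤ (N : ℝ) ^ 3 := one_le_pow₀ hNr
      linarith
    calc (8 * (N : ℝ) ^ 3 + 4) * (1 / (N : ℝ) ^ 2 * (1 / (N : ℝ) ^ 2)
          + 2 * (1 - r * (1 / (N : ℝ) ^ 2)) ^ (N ^ 3))
        ≤ (12 * (N : ℝ) ^ 3) * (1 / (N : ℝ) ^ 2 * (1 / (N : ℝ) ^ 2)
          + 2 * Real.exp (-(r * N))) := by gcongr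
      _ = 12 * (1 / (N : ℝ)) + 24 / r ^ 3 * ((r * (N : ℝ)) ^ 3 * Real.exp (-(r * N))) := by
          field_simp
          ring
      _ ≤ δ' := hN.le

end Crest.Agent.R154.JAsm139
end

-- ▼ part R154/JAsm_139
section

/-! Row 154, road 801, assembly in the joint-cut frame, part 3 (helper139). -/

set_option autoImplicit false

namespace Crest.Agent.R154.JAsm139

open scoped ENNReal
open Crest.Agent.R154.B5A
open Crest.Agent.R154.FP178

variable {B W : Type*} (Λ : B → ℝ≥0∞) (ht : B → ℕ) (dl : B → W → W) (cd : W → B → Set ℕ)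

/-- one window -/
lemma Kwin_le (h1 : ∀ b, 1 ≤ ht b) (hΛ : ∑' b, Λ b = 1) (hU1 : ∀ n, U Λ ht n ≤ 1)
    (hcd : ∀ w b k, k ∈ cd w b → 1 ≤ k ∧ k ≤ ht b)
    (c : ℝ≥0∞) (hc : c ≠ 0) (hct : c ≠ ⊤) (hU : ∀ n, c ≤ U Λ ht n)
    (q s a n : ℕ) (hs : s ≤ q) (ha : q + s ≤ a) (hn : a + 2 * q ≤ n)
    (S1 S2 : Set W) (η' ε' : ℝ≥0∞)
    (hW : ∀ w, w ∉ S1 → w ∉ S2 → WL Λ ht dl cd (4 * q) s w ≤ η')
    (hS : ∀ w, SLB Λ ht dl cd (4 * q) s w ≤ ε') (w : W) :
    Kwin Λ ht dl cd n a q w ≤ ov Λ ht q + (ov Λ ht q + c⁻¹ * (ε' + η'))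
      + c⁻¹ * (hitS Λ ht dl (a - (q + s)) S1 w + hitS Λ ht dl (a - (q + s)) S2 w) := by
  classical
  set a0 := a - (q + s) with ha0
  set f : List B → ℝ≥0∞ := fun L => if HT ht L = n ∧ (∀ k ∈ CD ht dl cd L w, a < k) ∧
    (∃ k ∈ CD ht dl cd L w, k ≤ a + q) then 1 else 0 with hf
  have e1 : Kwin Λ ht dl cd n a q w = ∑' L, (if a0 ≤ HT ht L then LW Λ L * f L else 0) := by
    refine tsum_congr fun L => ?_
    simp only [hf]
    by_cases h : HT ht L = n ∧ (∀ k ∈ CD ht dl cd L w, a < k) ∧ (∃ k ∈ CD ht dl cd L w, k ≤ a + q)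
    · rw [if_pos h, if_pos h, if_pos (by omega), mul_one]
    · rw [if_neg h, if_neg h, mul_zero, ite_self]
  rw [e1, split Λ ht h1 a0 f]
  set C := ov Λ ht q + c⁻¹ * (ε' + η') with hC
  set I1 : W → ℝ≥0∞ := S1.indicator (fun _ => (1 : ℝ≥0∞)) with hI1
  set I2 : W → ℝ≥0∞ := S2.indicator (fun _ => (1 : ℝ≥0∞)) with hI2
  have hpiece : ∀ N w', 2 * q + s ≤ N → DD Λ ht dl cd N s (2 * q + s) w'
      ≤ C + c⁻¹ * (I1 w' + I2 w') := by
    intro N w' hN
    have hWL : WL Λ ht dl cd (4 * q) s w' ≤ η' + (I1 w' + I2 w') := by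
      by_cases m1 : w' ∈ S1
      · refine ((WL_le Λ ht dl cd _ _ _).trans (hU1 _)).trans (le_add_left (le_add_right ?_))
        simp [hI1, m1]
      · by_cases m2 : w' ∈ S2
        · refine ((WL_le Λ ht dl cd _ _ _).trans (hU1 _)).trans (le_add_left (le_add_left ?_))
          simp [hI2, m2]
        · exact (hW w' m1 m2).trans (le_add_right le_rfl)
    have hM : MM Λ ht dl cd s (2 * q + s) w' (2 * q + s + q)
        ≤ c⁻¹ * DD Λ ht dl cd (4 * q) s (2 * q + s) w' := by
      rw [← ENNReal.div_eq_inv_mul, ENNReal.le_div_iff_mul_le (Or.inl hc) (Or.inl hct), mul_comm]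
      exact MM_le_DD Λ ht dl cd h1 c hU (4 * q) s (2 * q + s) (2 * q + s + q) (by omega) (by omega)
        (by omega) w'
    calc DD Λ ht dl cd N s (2 * q + s) w'
        ≤ MM Λ ht dl cd s (2 * q + s) w' (2 * q + s + q) + ov Λ ht q :=
          DD_le_MM Λ ht dl cd h1 hU1 hcd N s (2 * q + s) q hN w'
      _ ≤ c⁻¹ * (ε' + (η' + (I1 w' + I2 w'))) + ov Λ ht q := by
          gcongr
          refine hM.trans (mul_le_mul_right ((DD_split Λ ht dl cd _ _ _ _).trans ?_) _)
          exact add_le_add (hS w') hWL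
      _ = C + c⁻¹ * (I1 w' + I2 w') := by rw [hC]; ring
  have key : ∀ L1 : List B, (if fp ht a0 L1 then LW Λ L1 * ∑' L2, LW Λ L2 * f (L1 ++ L2) else 0)
      ≤ (if fp ht a0 L1 ∧ a0 + q < HT ht L1 then LW Λ L1 else 0)
        + (if fp ht a0 L1 then LW Λ L1 else 0) * C
        + c⁻¹ * ((if fp ht a0 L1 then LW Λ L1 * I1 (act dl L1 w) else 0)
          + (if fp ht a0 L1 then LW Λ L1 * I2 (act dl L1 w) else 0)) := by
    intro L1
    by_cases hL : fp ht a0 L1
    · simp only [if_pos hL]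
      by_cases hov : a0 + q < HT ht L1
      · rw [if_pos (⟨hL, hov⟩ : fp ht a0 L1 ∧ a0 + q < HT ht L1)]
        refine le_add_right (le_add_right ?_)
        have hle1 : ∑' L2, LW Λ L2 * f (L1 ++ L2) ≤ 1 := by
          calc ∑' L2, LW Λ L2 * f (L1 ++ L2)
              ≤ ∑' L2 : List B, (if HT ht (L1 ++ L2) = n then LW Λ L2 * 1 else 0) := by
                refine ENNReal.tsum_le_tsum fun L2 => ?_
                simp only [hf]
                by_cases h2 : HT ht (L1 ++ L2) = n
                · rw [if_pos h2]; refine mul_le_mul_right ?_ _; split_ifs <;> simp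
                · rw [if_neg h2, if_neg (fun h' => h2 h'.1), mul_zero]
            _ = (if HT ht L1 ≤ n then U Λ ht (n - HT ht L1) else 0) * 1 := sum_ext Λ ht n L1 1
            _ ≤ 1 := by
              rw [mul_one]; split_ifs
              · exact hU1 _
              · simp
        calc LW Λ L1 * _ ≤ LW Λ L1 * 1 := mul_le_mul_right hle1 _
          _ = _ := mul_one _
      · rw [if_neg (fun h => hov h.2), zero_add]
        have hge := le_HT_of_fp ht hL
        have hinner : ∑' L2, LW Λ L2 * f (L1 ++ L2)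
            ≤ DD Λ ht dl cd (n - HT ht L1) s (2 * q + s) (act dl L1 w) := by
          refine ENNReal.tsum_le_tsum fun L2 => ?_
          simp only [hf]
          by_cases hcond : HT ht (L1 ++ L2) = n ∧ (∀ k ∈ CD ht dl cd (L1 ++ L2) w, a < k) ∧
            (∃ k ∈ CD ht dl cd (L1 ++ L2) w, k ≤ a + q)
          · rw [if_pos hcond, mul_one, if_pos]
            obtain ⟨hH, hall, k, hk, hkq⟩ := hcond
            rw [HT_append] at hH
            refine ⟨by omega, ?_, ?_⟩
            · intro k' hk'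
              have := hall (HT ht L1 + k') (by
                rw [CD_append]; exact Or.inr ⟨k', hk', rfl⟩)
              omega
            · have hak := hall k hk
              rw [CD_append] at hk
              rcases hk with hk | ⟨k2, hk2, rfl⟩
              · have := CD_pos ht dl cd hcd _ _ _ hk
                omega
              · refine ⟨k2, hk2, ?_⟩
                simp only at hkq
                omega
          · rw [if_neg hcond, mul_zero]; exact zero_le
        calc LW Λ L1 * ∑' L2, LW Λ L2 * f (L1 ++ L2)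
            ≤ LW Λ L1 * (C + c⁻¹ * (I1 (act dl L1 w) + I2 (act dl L1 w))) := by
              refine mul_le_mul_right (hinner.trans (hpiece _ _ (by omega))) _
          _ = _ := by ring
    · simp only [if_neg hL]; exact zero_le
  calc _ ≤ _ := ENNReal.tsum_le_tsum key
    _ = (∑' L1 : List B, (if fp ht a0 L1 ∧ a0 + q < HT ht L1 then LW Λ L1 else 0))
        + (∑' L1 : List B, (if fp ht a0 L1 then LW Λ L1 else 0)) * C
        + c⁻¹ * (hitS Λ ht dl a0 S1 w + hitS Λ ht dl a0 S2 w) := by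
        rw [ENNReal.tsum_add, ENNReal.tsum_add, ENNReal.tsum_mul_right, ENNReal.tsum_mul_left,
          ENNReal.tsum_add]
        rfl
    _ ≤ ov Λ ht q + 1 * C + _ := by
        gcongr
        · exact overshoot Λ ht h1 hU1 q a0
        · exact sum_FP Λ ht h1 hΛ.le a0
    _ = _ := by rw [one_mul]

/-- extension at the bottom -/
lemma Kap1_ext (h1 : ∀ b, 1 ≤ ht b)
    (hcd : ∀ w b k, k ∈ cd w b → 1 ≤ k ∧ k ≤ ht b)
    (c : ℝ≥0∞) (hU : ∀ n, c ≤ U Λ ht n) (n m r : ℕ) (hn : 2 * m ≤ n) (w : W) :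
    c * Kap1 Λ ht dl cd n m w ≤ Kap1 Λ ht dl cd (n + r) m w := by
  classical
  set f : List B → ℝ≥0∞ := fun L => if HT ht L = n + r ∧ (∀ k ∈ CD ht dl cd L w, m < k) ∧
    (∃ k ∈ CD ht dl cd L w, k ≤ 2 * m) then 1 else 0 with hf
  have e1 : Kap1 Λ ht dl cd (n + r) m w = ∑' L, (if n ≤ HT ht L then LW Λ L * f L else 0) := by
    refine tsum_congr fun L => ?_
    simp only [hf]
    by_cases h : HT ht L = n + r ∧ (∀ k ∈ CD ht dl cd L w, m < k) ∧
      (∃ k ∈ CD ht dl cd L w, k ≤ 2 * m)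
    · rw [if_pos h, if_pos h, if_pos (by omega), mul_one]
    · rw [if_neg h, if_neg h, mul_zero, ite_self]
  rw [e1, split Λ ht h1 n f, Kap1, ← ENNReal.tsum_mul_left]
  refine ENNReal.tsum_le_tsum fun L => ?_
  by_cases hL : HT ht L = n ∧ (∀ k ∈ CD ht dl cd L w, m < k) ∧ ∃ k ∈ CD ht dl cd L w, k ≤ 2 * m
  · rw [if_pos hL]
    obtain ⟨hH, hall, k, hk, hk2⟩ := hL
    rw [if_pos (fp_of_HT ht h1 L n hH), mul_comm]
    refine mul_le_mul_right ?_ _
    calc c ≤ U Λ ht (n + r - HT ht L) := hU _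
      _ = (if HT ht L ≤ n + r then U Λ ht (n + r - HT ht L) else 0) * 1 := by
          rw [if_pos (by omega), mul_one]
      _ = ∑' L2 : List B, (if HT ht (L ++ L2) = n + r then LW Λ L2 * 1 else 0) :=
          (sum_ext Λ ht (n + r) L 1).symm
      _ ≤ _ := by
          refine ENNReal.tsum_le_tsum fun L2 => ?_
          by_cases h2 : HT ht (L ++ L2) = n + r
          · rw [if_pos h2]
            refine mul_le_mul_right ?_ _
            simp only [hf]
            rw [if_pos]
            refine ⟨h2, ?_, k, ?_, hk2⟩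
            · intro k' hk'
              rw [CD_append] at hk'
              rcases hk' with hk' | ⟨k2, hk2', rfl⟩
              · exact hall k' hk'
              · have := hall k hk
                simp only
                omega
            · rw [CD_append]; exact Or.inl hk
          · rw [if_neg h2]; exact zero_le
  · rw [if_neg hL, mul_zero]; exact zero_le

/-- the windows cover the octave -/
lemma Kap1_cover (n m q K : ℕ) (hq : 1 ≤ q) (hK : m ≤ K * q) (w : W) :
    Kap1 Λ ht dl cd n m w ≤ ∑ i ∈ Finset.range K, Kwin Λ ht dl cd n (m + i * q) q w := by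
  classical
  simp only [Kwin]
  rw [Kap1, ← Summable.tsum_finsetSum (fun _ _ => ENNReal.summable)]
  refine ENNReal.tsum_le_tsum fun L => ?_
  by_cases hL : HT ht L = n ∧ (∀ k ∈ CD ht dl cd L w, m < k) ∧ ∃ k ∈ CD ht dl cd L w, k ≤ 2 * m
  · rw [if_pos hL]
    obtain ⟨hH, hall, k, hk, hk2⟩ := hL
    have hex : ∃ k, k ∈ CD ht dl cd L w := ⟨k, hk⟩
    set k0 := Nat.find hex with hk0
    have hk0m := Nat.find_spec hex
    rw [← hk0] at hk0m
    have hmin : ∀ k ∈ CD ht dl cd L w, k0 ≤ k := fun k hk => Nat.find_min' hex hk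
    have h3 := hall k0 hk0m
    have h4 := hmin k hk
    set i := (k0 - m - 1) / q with hi
    have h5 : i * q ≤ k0 - m - 1 := Nat.div_mul_le_self _ _
    have h6 : k0 - m - 1 < i * q + q := Nat.lt_div_mul_add (by omega)
    have h7 : i < K := by
      rw [hi, Nat.div_lt_iff_lt_mul (by omega)]
      omega
    refine le_trans ?_ (Finset.single_le_sum (f := fun i => if HT ht L = n ∧
      (∀ k ∈ CD ht dl cd L w, m + i * q < k) ∧ (∃ k ∈ CD ht dl cd L w, k ≤ m + i * q + q)
      then LW Λ L else 0) (fun _ _ => zero_le) (Finset.mem_range.2 h7))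
    rw [if_pos]
    refine ⟨hH, fun k' hk' => ?_, k0, hk0m, ?_⟩
    · have := hmin k' hk'
      omega
    · omega
  · rw [if_neg hL]; exact zero_le

/-- `ov → 0` -/
lemma ov_small (h1 : ∀ b, 1 ≤ ht b) (hΛ : ∑' b, Λ b = 1)
    (c : ℝ≥0∞) (hc : c ≠ 0) (hct : c ≠ ⊤) (hU : ∀ n, c ≤ U Λ ht n) (ρ : ℝ≥0∞) (hρ : ρ ≠ 0) :
    ∃ q0, ∀ q, q0 ≤ q → ov Λ ht q ≤ ρ := by
  have hE : ∑' b, Λ b * (ht b : ℝ≥0∞) ≠ ⊤ :=
    ne_top_of_le_ne_top (ENNReal.inv_ne_top.2 hc) (mean_le Λ ht h1 hΛ c hc hct 0 (fun n _ => hU n))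
  have hsum : ∑' k, tail Λ ht k ≠ ⊤ := by rw [← sum_tail Λ ht hΛ]; exact hE
  have ht0 : Filter.Tendsto (fun i0 : ℕ => ∑' k : ℕ, tail Λ ht (k + i0)) Filter.atTop (nhds 0) :=
    ENNReal.tendsto_sum_nat_add _ hsum
  have := ht0.eventually_le_const (pos_iff_ne_zero.2 hρ)
  obtain ⟨q0, hq0⟩ := Filter.eventually_atTop.1 this
  refine ⟨q0, fun q hq => ?_⟩
  rw [ov]
  refine le_trans (le_of_eq (tsum_congr fun k => ?_)) (hq0 q hq)
  rw [add_comm]

/-- **ASSEMBLY in the joint-cut frame**: the one-height window input `hW` and the bottom slab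
`hSl` give the first-contact form of KAPPA'. -/
theorem kap1_of (h1 : ∀ b, 1 ≤ ht b)
    (hcd : ∀ w b k, k ∈ cd w b → 1 ≤ k ∧ k ≤ ht b)
    (hinj : ∀ b, Function.Injective (dl b))
    (c : ℝ≥0∞) (hc : c ≠ 0) (hU : ∀ n, c ≤ U Λ ht n) (hU1 : ∀ n, U Λ ht n ≤ 1)
    (c1 : ℝ≥0∞) (hc1 : c1 ≠ 0) (hc11 : c1 ≤ 1)
    (hW : ∀ u η : ℝ≥0∞, u ≠ 0 → u ≤ 1 → η ≠ 0 → ∃ s H0 : ℕ, ∀ H, H0 ≤ H → ∃ S1 S2 : Set W,
      Good Λ ht dl (c1 * u) η H S1 ∧ Good Λ ht dl (c1 * u) η H S2 ∧
      ∀ w, w ∉ S1 → w ∉ S2 → WL Λ ht dl cd H s w ≤ u * u + η)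
    (hSl : ∀ (s : ℕ) (ε : ℝ≥0∞), ε ≠ 0 → ∃ H0 : ℕ, ∀ H, H0 ≤ H → ∀ w,
      SLB Λ ht dl cd H s w ≤ ε) :
    ∀ ε : ℝ≥0∞, ε ≠ 0 → ∃ M : ℕ, ∀ m, M ≤ m → ∀ n, 2 * m ≤ n → ∀ w,
      Kap1 Λ ht dl cd n m w ≤ ε := by
  intro ε hε
  have hcle : c ≤ 1 := (hU 0).trans (hU1 0)
  have hct : c ≠ ⊤ := ne_top_of_le_ne_top ENNReal.one_ne_top hcle
  have hΛ : ∑' b, Λ b = 1 :=
    le_antisymm (mass_le_one Λ ht h1 hU1) (mass_ge_one Λ ht c hc 0 (fun n _ => hU n))
  have hci : c⁻¹ ≠ ⊤ := ENNReal.inv_ne_top.2 hc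
  have hci0 : c⁻¹ ≠ 0 := ENNReal.inv_ne_zero.2 hct
  -- finite version of `ε`
  set ε1 := min ε 1 with hε1
  have hε10 : ε1 ≠ 0 := by
    rw [hε1]; exact (lt_min (pos_iff_ne_zero.2 hε) one_pos).ne'
  have hε1t : ε1 ≠ ⊤ := ne_top_of_le_ne_top ENNReal.one_ne_top (min_le_right _ _)
  -- `J` and `u`
  set δ := ε1 / 2 / (2 * (c⁻¹ * c⁻¹)) with hδ
  have hcc : 2 * (c⁻¹ * c⁻¹) ≠ ⊤ := ENNReal.mul_ne_top (by simp) (ENNReal.mul_ne_top hci hci)
  have hcc0 : 2 * (c⁻¹ * c⁻¹) ≠ 0 := mul_ne_zero (by simp) (mul_ne_zero hci0 hci0)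
  have hδ0 : δ ≠ 0 :=
    ENNReal.div_ne_zero.2 ⟨ENNReal.div_ne_zero.2 ⟨hε10, by simp⟩, hcc⟩
  obtain ⟨J, u, hu0, hu1, hJ⟩ := num c1 hc1 hc11 δ hδ0
  set K : ℕ := 8 * J + 4 with hK
  -- the small parameter
  set X : ℝ≥0∞ := c⁻¹ * ((2 * K : ℕ) * (2 + c⁻¹ * 2 + c⁻¹ * (2 * (J * 2)))) with hX
  have hXt : X ≠ ⊤ := by
    rw [hX]
    refine ENNReal.mul_ne_top hci (ENNReal.mul_ne_top (ENNReal.natCast_ne_top _) ?_)
    refine ENNReal.add_ne_top.2 ⟨ENNReal.add_ne_top.2 ⟨by simp, ENNReal.mul_ne_top hci (by simp)⟩,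
      ENNReal.mul_ne_top hci (ENNReal.mul_ne_top (by simp)
        (ENNReal.mul_ne_top (ENNReal.natCast_ne_top _) (by simp)))⟩
  set t := ε1 / 2 / X with ht'
  have ht0 : t ≠ 0 :=
    ENNReal.div_ne_zero.2 ⟨ENNReal.div_ne_zero.2 ⟨hε10, by simp⟩, hXt⟩
  obtain ⟨s, H0, hW'⟩ := hW u t hu0 hu1 ht0
  obtain ⟨H1, hS'⟩ := hSl s t ht0
  obtain ⟨q0, hq0⟩ := ov_small Λ ht h1 hΛ c hc hct hU t ht0
  refine ⟨K * (H0 + H1 + q0 + s + 1), fun m hm n hn w => ?_⟩
  set q := m / K with hq
  have hK0 : 0 < K := by omega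
  have hq1 : H0 + H1 + q0 + s + 1 ≤ q := by
    rw [hq, Nat.le_div_iff_mul_le hK0, mul_comm]; exact hm
  have hqm : q * K ≤ m := Nat.div_mul_le_self m K
  have hmq : m < q * K + K := Nat.lt_div_mul_add hK0
  have hm2 : m ≤ (2 * K) * q := by
    have : K * 1 ≤ K * q := Nat.mul_le_mul_left K (by omega)
    nlinarith
  obtain ⟨S1, S2, hG1, hG2, hWL⟩ := hW' (4 * q) (by omega)
  have hwin : ∀ i ∈ Finset.range (2 * K), Kwin Λ ht dl cd (n + 8 * m) (m + i * q) q w
      ≤ 2 * t + c⁻¹ * (u * u + 2 * t)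
        + c⁻¹ * (2 * ((1 - c1 * u) ^ J + J * (2 * t))) := by
    intro i hi
    have hi' := Finset.mem_range.1 hi
    have hiq : i * q ≤ 2 * m := by
      calc i * q ≤ 2 * K * q := Nat.mul_le_mul_right q hi'.le
        _ = 2 * (q * K) := by ring
        _ ≤ _ := by omega
    have hq4 : 4 * q ≤ m := by
      calc 4 * q ≤ K * q := Nat.mul_le_mul_right q (by omega)
        _ = q * K := by ring
        _ ≤ _ := hqm
    have hk := Kwin_le Λ ht dl cd h1 hΛ hU1 hcd c hc hct hU q s (m + i * q) (n + 8 * m)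
      (by omega) (by omega) (by omega) S1 S2 (u * u + t) t hWL (hS' (4 * q) (by omega)) w
    have hJq : J * (2 * (4 * q)) ≤ m + i * q - (q + s) := by
      have e : J * (2 * (4 * q)) + 4 * q = q * K := by rw [hK]; ring
      omega
    have hA : ov Λ ht q ≤ t := hq0 q (by omega)
    have hB : (∑' k, tail Λ ht (4 * q + k)) ≤ t := hq0 (4 * q) (by omega)
    have hh1 := hit_le Λ ht dl h1 hΛ hU1 hinj _ _ _ S1 hG1 J _ hJq w
    have hh2 := hit_le Λ ht dl h1 hΛ hU1 hinj _ _ _ S2 hG2 J _ hJq w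
    refine hk.trans ?_
    calc _ ≤ t + (t + c⁻¹ * (t + (u * u + t)))
          + c⁻¹ * (((1 - c1 * u) ^ J + J * (t + t)) + ((1 - c1 * u) ^ J + J * (t + t))) := by
          gcongr
          · exact hh1.trans (by gcongr)
          · exact hh2.trans (by gcongr)
      _ = _ := by ring
  have hext : Kap1 Λ ht dl cd n m w ≤ c⁻¹ * Kap1 Λ ht dl cd (n + 8 * m) m w := by
    rw [← ENNReal.div_eq_inv_mul, ENNReal.le_div_iff_mul_le (Or.inl hc) (Or.inl hct), mul_comm]
    exact Kap1_ext Λ ht dl cd h1 hcd c hU n m (8 * m) hn w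
  calc Kap1 Λ ht dl cd n m w ≤ c⁻¹ * Kap1 Λ ht dl cd (n + 8 * m) m w := hext
    _ ≤ c⁻¹ * ∑ i ∈ Finset.range (2 * K), Kwin Λ ht dl cd (n + 8 * m) (m + i * q) q w := by
        gcongr
        exact Kap1_cover Λ ht dl cd _ m q (2 * K) (by omega) hm2 w
    _ ≤ c⁻¹ * ∑ _i ∈ Finset.range (2 * K), (2 * t + c⁻¹ * (u * u + 2 * t)
        + c⁻¹ * (2 * ((1 - c1 * u) ^ J + J * (2 * t)))) := by
        gcongr with i hi
        exact hwin i hi
    _ = c⁻¹ * ((2 * K : ℕ) * (2 * t + c⁻¹ * (u * u + 2 * t)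
        + c⁻¹ * (2 * ((1 - c1 * u) ^ J + J * (2 * t))))) := by
        rw [Finset.sum_const, Finset.card_range, nsmul_eq_mul]
    _ = (2 * (c⁻¹ * c⁻¹)) * ((K : ℕ) * (u * u + 2 * (1 - c1 * u) ^ J)) + X * t := by
        rw [hX]; push_cast; ring
    _ ≤ (2 * (c⁻¹ * c⁻¹)) * δ + X * t := by gcongr
    _ ≤ ε1 / 2 + ε1 / 2 := by
        gcongr
        · rw [hδ]; exact ENNReal.mul_div_le
        · rw [ht']; exact ENNReal.mul_div_le
    _ = ε1 := ENNReal.add_halves _
    _ ≤ ε := min_le_left _ _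

end Crest.Agent.R154.JAsm139
end

-- ▼ part R154/Slab_689
section

/-! Row 154, ROAD 801 (helper689): the thin slab at the bottom of a crossing, joint-cut lists. -/

set_option autoImplicit false

namespace Crest.Agent.R154.Slab689

open scoped ENNReal
open Filter Topology
open Crest.Agent.R154.B5A

variable {B W : Type*} (Λ : B → ℝ≥0∞) (ht : B → ℕ) (dl : B → W → W) (cd : W → B → Set ℕ)

lemma CD_far (hinj : ∀ b, Function.Injective (dl b)) (hfar : ∀ b, {w | cd w b ≠ ∅}.Finite)
    (L : List B) : {w | CD ht dl cd L w ≠ ∅}.Finite := by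
  induction L with
  | nil => simp [CD]
  | cons b L ih =>
    refine ((hfar b).union (ih.preimage ((hinj b).injOn))).subset ?_
    intro w hw
    by_contra hne
    simp only [Set.mem_union, Set.mem_ofPred_eq, Set.mem_preimage, not_or, not_not] at hne
    exact hw (by simp [CD, hne.1, hne.2])

open Classical in
/-- splitting off the last `s` blocks -/
lemma tsum_last_le (s : ℕ) (g : List B → ℝ≥0∞) :
    ∑' L : List B, (if s ≤ L.length then g L else 0)
      ≤ ∑' L2 : List B, (if L2.length = s then ∑' L1 : List B, g (L1 ++ L2) else 0) := by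
  have hinj : Function.Injective (fun L : {L : List B // s ≤ L.length} =>
      ((L.1.drop (L.1.length - s), L.1.take (L.1.length - s)) : List B × List B)) := by
    rintro ⟨L, hL⟩ ⟨L', hL'⟩ h
    simp only [Prod.mk.injEq] at h
    apply Subtype.ext
    have h1 := List.take_append_drop (L.length - s) L
    have h2 := List.take_append_drop (L'.length - s) L'
    change L = L'
    rw [← h1, ← h2, h.1, h.2]
  have e1 : ∑' L : List B, (if s ≤ L.length then g L else 0)
      = ∑' L : {L : List B // s ≤ L.length}, g L.1 := by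
    have := tsum_subtype {L : List B | s ≤ L.length} g
    rw [show (∑' L : {L : List B // s ≤ L.length}, g L.1)
      = ∑' L : {L : List B | s ≤ L.length}, g L.1 from rfl, this]
    refine tsum_congr fun L => ?_
    simp [Set.indicator_apply]
  have e2 : ∑' L2 : List B, (if L2.length = s then ∑' L1 : List B, g (L1 ++ L2) else 0)
      = ∑' p : List B × List B, (if p.1.length = s then g (p.2 ++ p.1) else 0) := by
    rw [ENNReal.tsum_prod (f := fun (a b : List B) => if a.length = s then g (b ++ a) else 0)]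
    refine tsum_congr fun L2 => ?_
    by_cases h : L2.length = s <;> simp [h]
  rw [e1, e2]
  refine le_trans (le_of_eq ?_) (ENNReal.tsum_comp_le_tsum_of_injective hinj _)
  refine tsum_congr fun L => ?_
  obtain ⟨L, hL⟩ := L
  simp only
  rw [if_pos (by rw [List.length_drop]; omega), List.take_append_drop]

open Classical in
/-- **thin slab**: contact in the last `s` levels of a crossing of exact height `δ`. -/
theorem slab (h1 : ∀ b, 1 ≤ ht b)
    (hcd : ∀ w b k, k ∈ cd w b → 1 ≤ k ∧ k ≤ ht b)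
    (hinj : ∀ b, Function.Injective (dl b)) (hfar : ∀ b, {w | cd w b ≠ ∅}.Finite)
    (hΛ : ∑' b, Λ b = 1)
    (hU1 : ∀ n, U Λ ht n ≤ 1)
    (hconc : ∀ ε : ℝ≥0∞, ε ≠ 0 → ∃ D : ℕ, ∀ n, D ≤ n → ∀ w w' : W,
      ∑' L : List B, (if HT ht L = n ∧ act dl L w = w' then LW Λ L else 0) ≤ ε) :
    ∀ s : ℕ, ∀ ε : ℝ≥0∞, ε ≠ 0 → ∃ D0 : ℕ, ∀ δ, D0 ≤ δ → ∀ w,
      ∑' L : List B, (if HT ht L = δ ∧ ∃ k ∈ CD ht dl cd L w, δ < k + s then LW Λ L else 0)
        ≤ ε := by
  intro s ε hε
  by_cases hεt : ε = ⊤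
  · exact ⟨0, fun δ _ w => by rw [hεt]; exact le_top⟩
  -- finite set of bottom lists
  set f : List B → ℝ≥0∞ := fun L => if L.length = s then LW Λ L else 0 with hf
  have hf1 : ∑' L, f L = 1 := by
    have := SL_one Λ hΛ s
    rw [SL] at this
    simpa [hf] using this
  have hlim := ENNReal.tendsto_tsum_compl_atTop_zero (f := f) (by rw [hf1]; simp)
  have hε3 : (0 : ℝ≥0∞) < ε / 3 := ENNReal.div_pos hε (by norm_num)
  obtain ⟨S, hS⟩ := ((hlim.eventually (ge_mem_nhds hε3)).exists)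
  -- number of displacements in contact
  set N : ℕ := ∑ L ∈ S, ((CD_far ht dl cd hinj hfar L).toFinset).card with hN
  set H0 : ℕ := ∑ L ∈ S, HT ht L with hH0
  obtain ⟨D, hD⟩ := hconc (ε / 3 / (N + 1)) (by
    refine (ENNReal.div_pos hε3.ne' ?_).ne'
    exact_mod_cast ENNReal.natCast_ne_top (N + 1))
  -- short lists
  obtain ⟨D1, hD1⟩ : ∃ D1 : ℕ, ∀ δ, D1 ≤ δ → ∑' L : List B,
      (if L.length < s ∧ HT ht L = δ then LW Λ L else 0) ≤ ε / 3 := by
    have hsum : ∑' L : List B, (if L.length < s then LW Λ L else 0) ≠ ⊤ := by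
      have : ∑' L : List B, (if L.length < s then LW Λ L else 0)
          ≤ ∑ j ∈ Finset.range s, SL Λ j (fun _ => 1) := by
        simp only [SL]
        rw [← Summable.tsum_finsetSum (fun _ _ => ENNReal.summable)]
        refine ENNReal.tsum_le_tsum fun L => ?_
        by_cases h : L.length < s
        · rw [if_pos h]
          refine le_trans ?_ (Finset.single_le_sum (f := fun j =>
            if L.length = j then LW Λ L * 1 else 0) (fun _ _ => zero_le)
            (Finset.mem_range.2 h))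
          simp
        · rw [if_neg h]; exact zero_le
      refine ne_top_of_le_ne_top ?_ this
      simp [SL_one Λ hΛ]
    have hlim2 := ENNReal.tendsto_tsum_compl_atTop_zero hsum
    obtain ⟨S', hS'⟩ := ((hlim2.eventually (ge_mem_nhds hε3)).exists)
    refine ⟨(∑ L ∈ S', HT ht L) + 1, fun δ hδ => ?_⟩
    refine le_trans ?_ hS'
    have e := tsum_subtype {x | x ∉ S'} (fun L : List B => if L.length < s then LW Λ L else 0)
    rw [show (∑' b : {x // x ∉ S'}, (fun L : List B => if L.length < s then LW Λ L else 0) b)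
      = ∑' b : {x | x ∉ S'}, (fun L : List B => if L.length < s then LW Λ L else 0) b from rfl, e]
    refine ENNReal.tsum_le_tsum fun L => ?_
    by_cases h : L.length < s ∧ HT ht L = δ
    · rw [if_pos h, Set.indicator_of_mem, if_pos h.1]
      intro hL
      have := Finset.single_le_sum (f := fun L => HT ht L) (fun _ _ => Nat.zero_le _) hL
      omega
    · rw [if_neg h]; exact zero_le
  refine ⟨D + H0 + D1 + s + 1, fun δ hδ w => ?_⟩
  -- split in short and long lists
  have hsplit : ∑' L : List B,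
      (if HT ht L = δ ∧ ∃ k ∈ CD ht dl cd L w, δ < k + s then LW Λ L else 0)
      ≤ ∑' L : List B, (if L.length < s ∧ HT ht L = δ then LW Λ L else 0)
        + ∑' L : List B, (if s ≤ L.length then
          (if HT ht L = δ ∧ ∃ k ∈ CD ht dl cd L w, δ < k + s then LW Λ L else 0) else 0) := by
    rw [← ENNReal.tsum_add]
    refine ENNReal.tsum_le_tsum fun L => ?_
    by_cases hA : HT ht L = δ ∧ ∃ k ∈ CD ht dl cd L w, δ < k + s
    · rcases lt_or_ge L.length s with hL | hL
      · simp [hA, hL]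
      · simp [hA, hL]
    · rw [if_neg hA]; exact zero_le
  refine hsplit.trans ?_
  have hlong : ∑' L : List B, (if s ≤ L.length then
          (if HT ht L = δ ∧ ∃ k ∈ CD ht dl cd L w, δ < k + s then LW Λ L else 0) else 0)
      ≤ ε / 3 + ε / 3 := by
    refine (tsum_last_le s _).trans ?_
    -- bound for one bottom list
    have hone : ∀ L2 : List B, L2.length = s → ∑' L1 : List B,
        (if HT ht (L1 ++ L2) = δ ∧ ∃ k ∈ CD ht dl cd (L1 ++ L2) w, δ < k + s
          then LW Λ (L1 ++ L2) else 0)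
        ≤ LW Λ L2 * ∑' L1 : List B, (if HT ht L1 + HT ht L2 = δ ∧
          CD ht dl cd L2 (act dl L1 w) ≠ ∅ then LW Λ L1 else 0) := by
      intro L2 hL2
      rw [← ENNReal.tsum_mul_left]
      refine ENNReal.tsum_le_tsum fun L1 => ?_
      by_cases hA : HT ht (L1 ++ L2) = δ ∧ ∃ k ∈ CD ht dl cd (L1 ++ L2) w, δ < k + s
      · obtain ⟨hA1, k, hk, hk2⟩ := hA
        rw [HT_append] at hA1
        have hs : s ≤ HT ht L2 := by rw [← hL2]; exact length_le_HT ht h1 L2
        have hc : CD ht dl cd L2 (act dl L1 w) ≠ ∅ := by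
          rw [CD_append] at hk
          rcases hk with hk | ⟨k', hk', rfl⟩
          · have := CD_pos ht dl cd hcd L1 w k hk
            omega
          · exact fun h => by rw [h] at hk'; exact hk'
        rw [if_pos ⟨by rw [HT_append]; exact hA1, k, hk, hk2⟩, if_pos ⟨hA1, hc⟩, LW_append,
          mul_comm]
      · rw [if_neg hA]; exact zero_le
    have hle1 : ∀ L2 : List B, ∑' L1 : List B, (if HT ht L1 + HT ht L2 = δ ∧
          CD ht dl cd L2 (act dl L1 w) ≠ ∅ then LW Λ L1 else 0) ≤ 1 := by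
      intro L2
      refine le_trans ?_ (hU1 (δ - HT ht L2))
      rw [U]
      refine ENNReal.tsum_le_tsum fun L1 => ?_
      by_cases hA : HT ht L1 + HT ht L2 = δ ∧ CD ht dl cd L2 (act dl L1 w) ≠ ∅
      · rw [if_pos hA, if_pos (by omega)]
      · rw [if_neg hA]; exact zero_le
    have hfin : ∀ L2 ∈ S, ∑' L1 : List B, (if HT ht L1 + HT ht L2 = δ ∧
          CD ht dl cd L2 (act dl L1 w) ≠ ∅ then LW Λ L1 else 0) ≤ ε / 3 := by
      intro L2 hL2
      have hH : HT ht L2 ≤ H0 :=
        Finset.single_le_sum (f := fun L => HT ht L) (fun _ _ => Nat.zero_le _) hL2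
      set Fs := (CD_far ht dl cd hinj hfar L2).toFinset with hFs
      have hcard : Fs.card ≤ N := Finset.single_le_sum
        (f := fun L => ((CD_far ht dl cd hinj hfar L).toFinset).card)
        (fun _ _ => Nat.zero_le _) hL2
      calc ∑' L1 : List B, (if HT ht L1 + HT ht L2 = δ ∧
          CD ht dl cd L2 (act dl L1 w) ≠ ∅ then LW Λ L1 else 0)
          ≤ ∑' L1 : List B, ∑ w' ∈ Fs, (if HT ht L1 = δ - HT ht L2 ∧ act dl L1 w = w'
              then LW Λ L1 else 0) := by
            refine ENNReal.tsum_le_tsum fun L1 => ?_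
            by_cases hA : HT ht L1 + HT ht L2 = δ ∧ CD ht dl cd L2 (act dl L1 w) ≠ ∅
            · rw [if_pos hA]
              have hm : act dl L1 w ∈ Fs := by
                rw [hFs, Set.Finite.mem_toFinset]; exact hA.2
              refine le_trans ?_ (Finset.single_le_sum (f := fun w' =>
                if HT ht L1 = δ - HT ht L2 ∧ act dl L1 w = w' then LW Λ L1 else 0)
                (fun _ _ => zero_le) hm)
              simp only
              rw [if_pos ⟨by omega, trivial⟩]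
            · rw [if_neg hA]; exact zero_le
        _ = ∑ w' ∈ Fs, ∑' L1 : List B, (if HT ht L1 = δ - HT ht L2 ∧ act dl L1 w = w'
              then LW Λ L1 else 0) :=
            Summable.tsum_finsetSum (fun _ _ => ENNReal.summable)
        _ ≤ ∑ _w' ∈ Fs, ε / 3 / (N + 1) :=
            Finset.sum_le_sum fun w' _ => hD _ (by omega) _ _
        _ = Fs.card * (ε / 3 / (N + 1)) := by rw [Finset.sum_const, nsmul_eq_mul]
        _ ≤ (N + 1 : ℝ≥0∞) * (ε / 3 / (N + 1)) := by
            refine mul_le_mul_left ?_ _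
            have : (Fs.card : ℝ≥0∞) ≤ (N : ℝ≥0∞) := by exact_mod_cast hcard
            exact this.trans le_self_add
        _ ≤ ε / 3 := ENNReal.mul_div_le
    calc ∑' L2 : List B, (if L2.length = s then ∑' L1 : List B,
        (if HT ht (L1 ++ L2) = δ ∧ ∃ k ∈ CD ht dl cd (L1 ++ L2) w, δ < k + s
          then LW Λ (L1 ++ L2) else 0) else 0)
        ≤ ∑' L2 : List B, (f L2 * (ε / 3) + (if L2 ∈ S then 0 else f L2)) := by
          refine ENNReal.tsum_le_tsum fun L2 => ?_
          by_cases h : L2.length = s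
          · rw [if_pos h]
            refine (hone L2 h).trans ?_
            by_cases hL : L2 ∈ S
            · rw [if_pos hL, add_zero]
              simp only [hf, if_pos h]
              exact mul_le_mul_right (hfin L2 hL) _
            · rw [if_neg hL]
              refine le_trans ?_ le_add_self
              simp only [hf, if_pos h]
              exact (mul_le_mul_right (hle1 L2) _).trans (mul_one _).le
          · rw [if_neg h]; exact zero_le
      _ = ε / 3 + ∑' L2 : List B, (if L2 ∈ S then 0 else f L2) := by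
          rw [ENNReal.tsum_add, ENNReal.tsum_mul_right, hf1, one_mul]
      _ ≤ ε / 3 + ε / 3 := by
          refine add_le_add le_rfl (le_trans (le_of_eq ?_) hS)
          have e := tsum_subtype {x | x ∉ S} f
          rw [show (∑' b : {x // x ∉ S}, f b) = ∑' b : {x | x ∉ S}, f b from rfl, e]
          refine tsum_congr fun L => ?_
          by_cases hL : L ∈ S <;> simp [Set.indicator_apply, hL]
  refine (add_le_add (hD1 δ (by omega)) hlong).trans (le_of_eq ?_)
  rw [← add_assoc, ENNReal.add_thirds]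

end Crest.Agent.R154.Slab689
end

-- ▼ part R154/Conc_430
section

/-! Row 154, ROAD 801, leaf (C) (helper430): concentration of the displacement at a renewal height,
in the list letters of B5Abs_566. -/

set_option autoImplicit false

namespace Crest.Agent.R154.Conc430

open scoped ENNReal
open Crest.Agent.R154.B5A

section coin

variable {G : Type*} [AddCommGroup G]

/-- expectation over `c` fair coins of step `v` -/
noncomputable def E (v : G) : ℕ → (G → ℝ≥0∞) → G → ℝ≥0∞
  | 0, ψ, y => ψ y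
  | c + 1, ψ, y => (E v c ψ y + E v c ψ (y + v)) / 2

lemma E_trans (v a : G) (c : ℕ) (ψ : G → ℝ≥0∞) (y : G) :
    E v c (fun z => ψ (a + z)) y = E v c ψ (a + y) := by
  induction c generalizing y with
  | zero => rfl
  | succ c ih => simp only [E]; rw [ih, ih, add_assoc]

lemma half_add (b : ℝ≥0∞) : (b + b) / 2 = b := by
  rw [ENNReal.add_div, ENNReal.add_halves]

lemma E_le (v : G) (c : ℕ) (ψ : G → ℝ≥0∞) (b : ℝ≥0∞) (h : ∀ y, ψ y ≤ b) (y : G) :
    E v c ψ y ≤ b := by
  induction c generalizing y with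
  | zero => exact h y
  | succ c ih =>
    simp only [E]
    calc _ ≤ (b + b) / 2 := ENNReal.div_le_div_right (add_le_add (ih _) (ih _)) _
      _ = b := half_add b

lemma E_add_le (v : G) (c0 k : ℕ) (ψ : G → ℝ≥0∞) (b : ℝ≥0∞) (h : ∀ y, E v c0 ψ y ≤ b) (y : G) :
    E v (c0 + k) ψ y ≤ b := by
  induction k generalizing y with
  | zero => exact h y
  | succ k ih =>
    rw [← add_assoc]
    simp only [E]
    calc _ ≤ (b + b) / 2 := ENNReal.div_le_div_right (add_le_add (ih _) (ih _)) _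
      _ = b := half_add b

lemma E_zero (v : G) (c : ℕ) (y : G) : E v c (fun _ => 0) y = 0 := by
  have := E_le v c (fun _ => 0) 0 (fun _ => le_rfl) y
  exact le_antisymm this zero_le

open Classical in
/-- indicator of a point -/
noncomputable def ind (x : G) : G → ℝ≥0∞ := fun y => if y = x then 1 else 0

lemma E_ind_zero (v x : G) (c : ℕ) (y : G) (h : ∀ k : ℕ, y + k • v ≠ x) :
    E v c (ind x) y = 0 := by
  induction c generalizing y with
  | zero =>
    have := h 0
    simp only [zero_smul, add_zero] at this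
    simp [E, ind, this]
  | succ c ih =>
    simp only [E]
    rw [ih y h, ih (y + v)]
    · simp
    · intro k hk
      apply h (k + 1)
      rw [← hk, succ_nsmul']
      abel

lemma E_ind (v x : G) (hv : ∀ k : ℕ, k ≠ 0 → k • v ≠ 0) (c : ℕ) (k : ℕ) (y : G)
    (h : y + k • v = x) : E v c (ind x) y = (c.choose k : ℝ≥0∞) / 2 ^ c := by
  induction c generalizing y k with
  | zero =>
    rcases k with _ | k
    · simp only [zero_smul, add_zero] at h
      simp [E, ind, h]
    · have : y ≠ x := by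
        intro hy
        apply hv (k + 1) (by omega)
        rw [hy] at h
        simpa using h
      simp [E, ind, this]
  | succ c ih =>
    simp only [E]
    have h2 : (2 : ℝ≥0∞) ^ (c + 1) = 2 ^ c * 2 := pow_succ _ _
    rcases k with _ | k
    · rw [ih 0 y h, E_ind_zero v x c (y + v)]
      · rw [h2]
        simp only [Nat.choose_zero_right, Nat.cast_one, add_zero, one_div]
        rw [ENNReal.mul_inv (by simp) (by simp), ENNReal.div_eq_inv_mul, mul_comm]
      · intro k hk
        simp only [zero_smul, add_zero] at h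
        apply hv (k + 1) (by omega)
        rw [succ_nsmul']
        rw [h, add_assoc] at hk
        simpa using hk
    · rw [ih (k + 1) y h, ih k (y + v)]
      · rw [Nat.choose_succ_succ, h2, ← ENNReal.add_div, ENNReal.div_eq_inv_mul,
          ENNReal.div_eq_inv_mul, ENNReal.div_eq_inv_mul, ENNReal.mul_inv (by simp) (by simp)]
        push_cast
        ring
      · rw [← h, succ_nsmul']
        abel

lemma cb_sq (n : ℕ) : n.centralBinom ^ 2 * (2 * n + 1) ≤ 16 ^ n := by
  induction n with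
  | zero => simp
  | succ n ih =>
    have h := Nat.succ_mul_centralBinom_succ n
    have h1 : (n + 1) ^ 2 * ((n + 1).centralBinom ^ 2 * (2 * (n + 1) + 1))
        ≤ (n + 1) ^ 2 * 16 ^ (n + 1) := by
      calc (n + 1) ^ 2 * ((n + 1).centralBinom ^ 2 * (2 * (n + 1) + 1))
          = ((n + 1) * (n + 1).centralBinom) ^ 2 * (2 * n + 3) := by ring
        _ = (2 * (2 * n + 1) * n.centralBinom) ^ 2 * (2 * n + 3) := by rw [h]
        _ = (n.centralBinom ^ 2 * (2 * n + 1)) * (4 * ((2 * n + 1) * (2 * n + 3))) := by ring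
        _ ≤ 16 ^ n * (4 * ((2 * n + 1) * (2 * n + 3))) := Nat.mul_le_mul_right _ ih
        _ ≤ 16 ^ n * (16 * (n + 1) ^ 2) := Nat.mul_le_mul_left _ (by nlinarith)
        _ = (n + 1) ^ 2 * 16 ^ (n + 1) := by ring
    exact Nat.le_of_mul_le_mul_left h1 (by positivity)

lemma cb_small (ε : ℝ≥0∞) (hε : ε ≠ 0) :
    ∃ n : ℕ, (n.centralBinom : ℝ≥0∞) / 4 ^ n ≤ ε := by
  set δ : ℝ := (min ε 1).toReal with hδ
  have hmt : min ε 1 ≠ ⊤ := ne_top_of_le_ne_top ENNReal.one_ne_top (min_le_right _ _)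
  have hδ0 : 0 < δ := ENNReal.toReal_pos (by simp [hε]) hmt
  obtain ⟨n, hn⟩ := exists_nat_gt (1 / δ ^ 2)
  refine ⟨n, ?_⟩
  have h1 : (n.centralBinom : ℝ) / 4 ^ n ≤ δ := by
    have h2 : (n.centralBinom : ℝ) ^ 2 * (2 * n + 1) ≤ 16 ^ n := by exact_mod_cast cb_sq n
    have h3 : 1 ≤ δ ^ 2 * (2 * n + 1) := by
      have : 1 < n * δ ^ 2 := by rwa [div_lt_iff₀ (by positivity)] at hn
      nlinarith [sq_nonneg δ, hδ0]
    have h4 : (n.centralBinom : ℝ) ^ 2 ≤ (δ * 4 ^ n) ^ 2 := by
      have h5 : (δ * 4 ^ n) ^ 2 = δ ^ 2 * 16 ^ n := by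
        rw [mul_pow, ← pow_mul, mul_comm n 2, pow_mul]; norm_num
      rw [h5]
      have h6 : (0 : ℝ) ≤ (n.centralBinom : ℝ) ^ 2 := by positivity
      have h7 : (0:ℝ) < δ ^ 2 := by positivity
      calc (n.centralBinom : ℝ) ^ 2 ≤ (n.centralBinom : ℝ) ^ 2 * (δ ^ 2 * (2 * n + 1)) := by
            nlinarith
        _ = δ ^ 2 * ((n.centralBinom : ℝ) ^ 2 * (2 * n + 1)) := by ring
        _ ≤ δ ^ 2 * 16 ^ n := by gcongr
    have h8 : (n.centralBinom : ℝ) ≤ δ * 4 ^ n := by
      exact (pow_le_pow_iff_left₀ (by positivity) (by positivity) (by norm_num)).1 h4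
    rw [div_le_iff₀ (by positivity)]
    exact h8
  calc (n.centralBinom : ℝ≥0∞) / 4 ^ n = ENNReal.ofReal ((n.centralBinom : ℝ) / 4 ^ n) := by
        rw [ENNReal.ofReal_div_of_pos (by positivity), ENNReal.ofReal_natCast,
          ENNReal.ofReal_pow (by norm_num)]
        norm_num
    _ ≤ ENNReal.ofReal δ := ENNReal.ofReal_le_ofReal h1
    _ = min ε 1 := ENNReal.ofReal_toReal hmt
    _ ≤ ε := min_le_left _ _

lemma E_ind_le (v x : G) (hv : ∀ k : ℕ, k ≠ 0 → k • v ≠ 0) (n : ℕ) (y : G) :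
    E v (2 * n) (ind x) y ≤ (n.centralBinom : ℝ≥0∞) / 4 ^ n := by
  by_cases h : ∃ k : ℕ, y + k • v = x
  · obtain ⟨k, hk⟩ := h
    rw [E_ind v x hv (2 * n) k y hk, show (2 : ℝ≥0∞) ^ (2 * n) = 4 ^ n by rw [pow_mul]; norm_num]
    exact ENNReal.div_le_div_right (by exact_mod_cast Nat.choose_le_centralBinom k n) _
  · push Not at h
    rw [E_ind_zero v x _ y h]
    exact zero_le

end coin

section lists

lemma tsum_option {B : Type*} (F : Option B → ℝ≥0∞) : ∑' o, F o = F none + ∑' b, F (some b) := by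
  classical
  rw [ENNReal.tsum_eq_add_tsum_ite (none : Option B)]
  congr 1
  have hs : Function.support (fun o : Option B => if o = none then 0 else F o)
      ⊆ Set.range (some : B → Option B) := by
    intro o ho
    cases o with
    | none => simp at ho
    | some b => exact ⟨b, rfl⟩
  have e := (Option.some_injective B).tsum_eq hs
  calc _ = ∑' o : Option B, (if o = none then 0 else F o) :=
        tsum_congr fun o => by by_cases h : o = none <;> simp [h]
    _ = _ := e.symm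
    _ = _ := tsum_congr fun b => by simp

variable {B G : Type*} [AddCommGroup G]

/-- number of coins -/
def cc : List (Option B) → ℕ
  | [] => 0
  | none :: P => cc P + 1
  | some _ :: P => cc P

/-- heights / displacements extended to the coin -/
def ext {A : Type*} (f : B → A) (a : A) : Option B → A
  | none => a
  | some b => f b

/-- total displacement -/
def DS (dsp : B → G) (L : List B) : G := (L.map dsp).sum

lemma DS_cons (dsp : B → G) (b : B) (L : List B) : DS dsp (b :: L) = dsp b + DS dsp L := by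
  simp [DS]

variable (Λ : B → ℝ≥0∞) (ht : B → ℕ) (dsp : B → G) (b1 b2 : B) (q : ℝ≥0∞)

open Classical in
/-- residual weight -/
noncomputable def Rs (b : B) : ℝ≥0∞ := Λ b - (if b = b1 ∨ b = b2 then q else 0)

open Classical in
lemma Rs_add (hq1 : q ≤ Λ b1) (hq2 : q ≤ Λ b2) (b : B) :
    Λ b = Rs Λ b1 b2 q b + (if b = b1 ∨ b = b2 then q else 0) := by
  rw [Rs, tsub_add_cancel_of_le]
  split_ifs with h
  · rcases h with rfl | rfl <;> assumption
  · exact zero_le

open Classical in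
lemma tsum_two (hne : b1 ≠ b2) (T : B → ℝ≥0∞) :
    ∑' b, (if b = b1 ∨ b = b2 then q else 0) * T b = q * T b1 + q * T b2 := by
  have : ∀ b, (if b = b1 ∨ b = b2 then q else 0) * T b
      = (if b = b1 then q * T b1 else 0) + (if b = b2 then q * T b2 else 0) := by
    intro b
    by_cases h1 : b = b1
    · subst h1; simp [hne]
    · by_cases h2 : b = b2
      · subst h2; simp [h1]
      · simp [h1, h2]
  simp_rw [this]
  rw [ENNReal.tsum_add, tsum_ite_eq, tsum_ite_eq]

lemma claim1 (hne : b1 ≠ b2) (hh : ht b1 = ht b2) (hq1 : q ≤ Λ b1) (hq2 : q ≤ Λ b2) (j : ℕ)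
    (φ : ℕ → G → ℝ≥0∞) :
    SL Λ j (fun L => φ (HT ht L) (DS dsp L))
      = SL (ext (Rs Λ b1 b2 q) (2 * q)) j (fun P => E (dsp b2 - dsp b1) (cc P)
          (φ (HT (ext ht (ht b1)) P)) (DS (ext dsp (dsp b1)) P)) := by
  classical
  induction j generalizing φ with
  | zero => simp [SL_zero, HT, DS, cc, E]
  | succ j ih =>
    rw [SL_succ, SL_succ, tsum_option]
    simp only [HT_cons, DS_cons, cc, ext]
    set w := ext (Rs Λ b1 b2 q) (2 * q) with hw
    set v := dsp b2 - dsp b1 with hv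
    set T : B → ℝ≥0∞ := fun b => SL w j (fun P => E v (cc P)
      (φ (ht b + HT (ext ht (ht b1)) P)) (dsp b + DS (ext dsp (dsp b1)) P)) with hT
    have hL : ∀ b, SL Λ j (fun L => φ (ht b + HT ht L) (dsp b + DS dsp L)) = T b := by
      intro b
      rw [ih (fun n y => φ (ht b + n) (dsp b + y))]
      rw [hT]
      refine SL_congr w j fun P _ => ?_
      exact E_trans v (dsp b) (cc P) _ _
    simp_rw [hL]
    have hcoin : 2 * q * SL w j (fun P => E v (cc P + 1)
        (φ (ht b1 + HT (ext ht (ht b1)) P)) (dsp b1 + DS (ext dsp (dsp b1)) P))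
        = q * T b1 + q * T b2 := by
      have e1 : (fun P : List (Option B) => E v (cc P + 1)
        (φ (ht b1 + HT (ext ht (ht b1)) P)) (dsp b1 + DS (ext dsp (dsp b1)) P))
          = fun P => 2⁻¹ * ((fun P => E v (cc P)
        (φ (ht b1 + HT (ext ht (ht b1)) P)) (dsp b1 + DS (ext dsp (dsp b1)) P)) P
          + (fun P => E v (cc P)
        (φ (ht b2 + HT (ext ht (ht b1)) P)) (dsp b2 + DS (ext dsp (dsp b1)) P)) P) := by
        funext P
        simp only [E]
        rw [ENNReal.div_eq_inv_mul, ← hh]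
        congr 3
        rw [hv]; abel
      rw [e1, SL_const_mul, SL_add_fun, ← mul_assoc, mul_comm (2 : ℝ≥0∞) q, mul_assoc q 2 2⁻¹,
        ENNReal.mul_inv_cancel (by norm_num) (by norm_num), mul_one, mul_add]
    rw [hcoin]
    have : ∀ b, Λ b * T b = (if b = b1 ∨ b = b2 then q else 0) * T b + Rs Λ b1 b2 q b * T b := by
      intro b
      conv_lhs => rw [Rs_add Λ b1 b2 q hq1 hq2 b]
      rw [add_mul, add_comm]
    simp_rw [this]
    rw [ENNReal.tsum_add, tsum_two b1 b2 q hne]

lemma LW_coin (P : List (Option B)) :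
    LW (ext (Rs Λ b1 b2 q) q) P = LW (ext (Rs Λ b1 b2 q) (2 * q)) P * (2⁻¹) ^ cc P := by
  induction P with
  | nil => simp [LW, cc]
  | cons o P ih =>
    cases o with
    | none =>
      simp only [LW_cons, cc, ext]
      rw [ih, pow_succ]
      have h2 : (2 : ℝ≥0∞) * 2⁻¹ = 1 := ENNReal.mul_inv_cancel (by norm_num) (by norm_num)
      set W := LW (ext (Rs Λ b1 b2 q) (2 * q)) P
      calc q * (W * 2⁻¹ ^ cc P) = (2 * 2⁻¹) * (q * (W * 2⁻¹ ^ cc P)) := by rw [h2, one_mul]
        _ = 2 * q * W * (2⁻¹ ^ cc P * 2⁻¹) := by ring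
    | some b =>
      simp only [LW_cons, cc, ext]
      rw [ih]; ring

lemma U_sum : ∑' n, U Λ ht n = (1 - ∑' b, Λ b)⁻¹ := by
  simp only [U]
  rw [ENNReal.tsum_comm, ← ENNReal.tsum_geometric]
  simp_rw [← SL_pow]
  rw [← tsum_eq_tsum_SL]
  refine tsum_congr fun L => ?_
  rw [tsum_eq_single (HT ht L)]
  · simp
  · intro j hj; simp [hj.symm]

lemma U_le_one (h1 : ∀ b, 1 ≤ ht b) (hΛ : ∑' b, Λ b = 1) (n : ℕ) : U Λ ht n ≤ 1 := by
  have ht0 : tail Λ ht 0 = 1 := by
    rw [← hΛ, tail]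
    refine tsum_congr fun b => ?_
    rw [if_pos (by have := h1 b; omega)]
  have h := renewal_one Λ ht h1 hΛ n
  calc U Λ ht n = U Λ ht (n - 0) * tail Λ ht 0 := by rw [ht0, mul_one]; simp
    _ ≤ ∑ k ∈ Finset.range (n + 1), U Λ ht (n - k) * tail Λ ht k :=
      Finset.single_le_sum (f := fun k => U Λ ht (n - k) * tail Λ ht k)
        (fun _ _ => zero_le) (Finset.mem_range.2 (by omega))
    _ = 1 := h

open Classical in
/-- **concentration**: the mass of the lists of height `n` and displacement `x` tends to `0`,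
uniformly in `x`. -/
theorem conc (h1 : ∀ b, 1 ≤ ht b) (hΛ : ∑' b, Λ b = 1) (hh : ht b1 = ht b2)
    (hb1 : Λ b1 ≠ 0) (hb2 : Λ b2 ≠ 0)
    (hv : ∀ k : ℕ, k ≠ 0 → k • (dsp b2 - dsp b1) ≠ 0) (ε : ℝ≥0∞) (hε : ε ≠ 0) :
    ∃ N : ℕ, ∀ n, N ≤ n → ∀ x, ∑' L : List B,
      (if HT ht L = n ∧ (L.map dsp).sum = x then LW Λ L else 0) ≤ ε := by
  have hne : b1 ≠ b2 := by
    rintro rfl
    exact hv 1 one_ne_zero (by simp)
  set q := min (Λ b1) (Λ b2) with hq
  have hq1 : q ≤ Λ b1 := min_le_left _ _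
  have hq2 : q ≤ Λ b2 := min_le_right _ _
  have hq0 : q ≠ 0 := by
    rw [hq]; simp [hb1, hb2]
  have hqt : q ≠ ⊤ := ne_top_of_le_ne_top ENNReal.one_ne_top
    (hq1.trans ((ENNReal.le_tsum b1).trans hΛ.le))
  set w := ext (Rs Λ b1 b2 q) (2 * q) with hw
  set w' := ext (Rs Λ b1 b2 q) q with hw'
  set hh' := ext ht (ht b1) with hhh
  have hsum : 2 * q + ∑' b, Rs Λ b1 b2 q b = 1 := by
    rw [← hΛ]
    have h3 := tsum_two b1 b2 q hne (fun _ => 1)
    simp only [mul_one] at h3
    calc 2 * q + ∑' b, Rs Λ b1 b2 q b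
        = ∑' b, (if b = b1 ∨ b = b2 then q else 0) + ∑' b, Rs Λ b1 b2 q b := by
          rw [h3, two_mul]
      _ = ∑' b, Λ b := by
          rw [← ENNReal.tsum_add]
          refine tsum_congr fun b => ?_
          rw [add_comm]
          exact (Rs_add Λ b1 b2 q hq1 hq2 b).symm
  have hwsum : ∑' o, w o = 1 := by rw [tsum_option]; exact hsum
  have hw'sum : ∑' o, w' o ≤ 1 - q := by
    rw [tsum_option]
    change q + ∑' b, Rs Λ b1 b2 q b ≤ 1 - q
    refine ENNReal.le_sub_of_add_le_right hqt ?_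
    rw [← hsum]
    exact le_of_eq (by ring)
  have hh1 : ∀ o, 1 ≤ hh' o := by
    intro o
    cases o with
    | none => exact h1 b1
    | some b => exact h1 b
  have hlt : ∑' o, w' o < 1 := lt_of_le_of_lt hw'sum
    (ENNReal.sub_lt_self ENNReal.one_ne_top one_ne_zero hq0)
  have hfin : ∑' n, U w' hh' n ≠ ⊤ := by
    rw [U_sum, Ne, ENNReal.inv_eq_top, tsub_eq_zero_iff_le]
    exact not_le.2 hlt
  have htend := ENNReal.tendsto_atTop_zero_of_tsum_ne_top hfin
  have hε2 : ε / 2 ≠ 0 := by simp [hε]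
  obtain ⟨m, hm⟩ := cb_small (ε / 2) hε2
  set K : ℝ≥0∞ := 2 ^ (2 * m) with hK
  have hK0 : K ≠ 0 := by simp [hK]
  have hKt : K ≠ ⊤ := by simp [hK]
  have hε3 : 0 < ε / 2 / K := ENNReal.div_pos hε2 hKt
  obtain ⟨N, hN⟩ := Filter.eventually_atTop.1 (htend.eventually_le_const hε3)
  refine ⟨N, fun n hn x => ?_⟩
  have e0 : ∑' L : List B, (if HT ht L = n ∧ (L.map dsp).sum = x then LW Λ L else 0)
      = ∑' L, LW Λ L * (if HT ht L = n then ind x (DS dsp L) else 0) := by
    refine tsum_congr fun L => ?_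
    by_cases ha : HT ht L = n
    · by_cases hb : (L.map dsp).sum = x
      · simp [ha, hb, ind, DS]
      · simp [ha, hb, ind, DS]
    · simp [ha]
  rw [e0, tsum_eq_tsum_SL]
  have e1 : ∀ j, SL Λ j (fun L => if HT ht L = n then ind x (DS dsp L) else 0)
      = SL w j (fun P => E (dsp b2 - dsp b1) (cc P)
          (fun y => if HT hh' P = n then ind x y else 0) (DS (ext dsp (dsp b1)) P)) := by
    intro j
    exact claim1 Λ ht dsp b1 b2 q hne hh hq1 hq2 j (fun h y => if h = n then ind x y else 0)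
  simp_rw [e1]
  rw [← tsum_eq_tsum_SL]
  have key : ∀ P : List (Option B), LW w P * E (dsp b2 - dsp b1) (cc P)
          (fun y => if HT hh' P = n then ind x y else 0) (DS (ext dsp (dsp b1)) P)
        ≤ (ε / 2) * (if HT hh' P = n then LW w P else 0)
          + K * (if HT hh' P = n then LW w' P else 0) := by
    intro P
    by_cases hP : HT hh' P = n
    · simp only [hP, if_true]
      have hE : E (dsp b2 - dsp b1) (cc P) (fun y => ind x y) (DS (ext dsp (dsp b1)) P)
          ≤ ε / 2 + K * 2⁻¹ ^ cc P := by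
        by_cases hc : 2 * m ≤ cc P
        · obtain ⟨k, hk⟩ := Nat.exists_eq_add_of_le hc
          rw [hk]
          exact (E_add_le _ (2 * m) k (ind x) (ε / 2)
            (fun y => (E_ind_le _ x hv m y).trans hm) _).trans le_self_add
        · refine (E_le _ _ _ 1 (fun y => ?_) _).trans ?_
          · simp only [ind]; split_ifs <;> simp
          · refine le_trans ?_ le_add_self
            rw [hK]
            have h5 : (2 : ℝ≥0∞) ^ cc P * 2⁻¹ ^ cc P = 1 := by
              rw [← mul_pow, ENNReal.mul_inv_cancel (by norm_num) (by norm_num), one_pow]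
            rw [← h5]
            refine mul_le_mul_left ?_ _
            exact pow_le_pow_right₀ (by norm_num) (by omega)
      calc LW w P * E (dsp b2 - dsp b1) (cc P) (fun y => ind x y) (DS (ext dsp (dsp b1)) P)
          ≤ LW w P * (ε / 2 + K * 2⁻¹ ^ cc P) := mul_le_mul_right hE _
        _ = (ε / 2) * LW w P + K * LW w' P := by
            rw [hw', LW_coin Λ b1 b2 q P]; ring
    · simp [hP, E_zero]
  refine (ENNReal.tsum_le_tsum key).trans ?_
  rw [ENNReal.tsum_add, ENNReal.tsum_mul_left, ENNReal.tsum_mul_left]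
  change (ε / 2) * U w hh' n + K * U w' hh' n ≤ ε
  calc (ε / 2) * U w hh' n + K * U w' hh' n
      ≤ (ε / 2) * 1 + K * (ε / 2 / K) :=
        add_le_add (mul_le_mul_right (U_le_one w hh' hh1 hwsum n) _)
          (mul_le_mul_right (hN n hn) _)
    _ = ε := by
        rw [mul_one, ENNReal.mul_div_cancel hK0 hKt, ENNReal.add_halves]

end lists

end Crest.Agent.R154.Conc430
private theorem rz_d952399e70 : type_of% @_root_.Crest.Agent.R154.Conc430.E.eq_def := @_root_.Crest.Agent.R154.Conc430.E.eq_def -- L18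
private theorem rz_111f2aa48d : type_of% @_root_.Crest.Agent.R154.Conc430.E.eq_1 := @_root_.Crest.Agent.R154.Conc430.E.eq_1 -- L18
private theorem rz_7e99ae942a : type_of% @_root_.Crest.Agent.R154.Conc430.cc.eq_def := @_root_.Crest.Agent.R154.Conc430.cc.eq_def -- L192
private theorem rz_e382464e4d : type_of% @_root_.Crest.Agent.R154.Conc430.cc.eq_1 := @_root_.Crest.Agent.R154.Conc430.cc.eq_1 -- L192
private theorem rz_feff83c42f : type_of% @_root_.Crest.Agent.R154.Conc430.ext.eq_1 := @_root_.Crest.Agent.R154.Conc430.ext.eq_1 -- L198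
end

-- ▼ part R154/WMass_286
section

/-! Row 154: total annealed mass of crossings of `n` levels, in the words of `Flux2_566` /
`NBDefs_28`: at most `1`, at least a constant independent of `n` (helper286). -/

set_option autoImplicit false

open MeasureTheory ProbabilityTheory Crest.ProbabilityR.RandomEnvironment
open scoped ENNReal

namespace Crest.Agent.R154.WM286

open Crest.Agent.R154.Flux132 (lev opp)
open Crest.Agent.R154.Flux566 (lw endp sitesL)

variable {d : ℕ}

/-- a word which reads only `S` and ends in `T` -/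
def Ex (S T : Set (Site d)) : Site d → List (Step d) → Prop
  | x, [] => x ∈ T
  | x, e :: l => x ∈ S ∧ Ex S T (x + stepVec e) l

lemma ex_iff (S T : Set (Site d)) (x : Site d) (l : List (Step d)) :
    Ex S T x l ↔ (∀ y ∈ sitesL x l, y ∈ S) ∧ endp x l ∈ T := by
  induction l generalizing x with
  | nil => simp [Ex, sitesL, endp]
  | cons e l ih =>
    simp only [Ex, sitesL, endp, ih, List.mem_cons, forall_eq_or_imp]
    tauto

open Classical in
/-- total quenched mass -/
noncomputable def G (S T : Set (Site d)) (ω : Environment d) (x : Site d) : ℝ≥0∞ :=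
  ∑' l : List (Step d), if Ex S T x l then lw ω x l else 0

open Classical in
/-- total quenched mass of words of length `≤ N` -/
noncomputable def GN (S T : Set (Site d)) (ω : Environment d) (N : ℕ) (x : Site d) : ℝ≥0∞ :=
  ∑' l : List (Step d), if l.length ≤ N ∧ Ex S T x l then lw ω x l else 0

open Classical in
lemma G_rec (S T : Set (Site d)) (ω : Environment d) (x : Site d) :
    G S T ω x = (if x ∈ T then 1 else 0) + (if x ∈ S then
      ∑ e : Step d, ENNReal.ofReal ((ω x).1 e) * G S T ω (x + stepVec e) else 0) := by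
  rw [G, B5A.tsum_list]
  congr 1
  rw [tsum_fintype]
  by_cases hx : x ∈ S
  · rw [if_pos hx]
    refine Finset.sum_congr rfl fun e _ => ?_
    rw [G, ← ENNReal.tsum_mul_left]
    refine tsum_congr fun l => ?_
    by_cases h : Ex S T (x + stepVec e) l
    · rw [if_pos h, if_pos ⟨hx, h⟩]; rfl
    · rw [if_neg h, if_neg fun h' => h h'.2, mul_zero]
  · rw [if_neg hx]
    refine Finset.sum_eq_zero fun e _ => ?_
    rw [ENNReal.tsum_eq_zero]
    intro l
    exact if_neg fun h' => hx h'.1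

open Classical in
lemma GN_succ (S T : Set (Site d)) (ω : Environment d) (N : ℕ) (x : Site d) :
    GN S T ω (N + 1) x = (if x ∈ T then 1 else 0) + (if x ∈ S then
      ∑ e : Step d, ENNReal.ofReal ((ω x).1 e) * GN S T ω N (x + stepVec e) else 0) := by
  rw [GN, B5A.tsum_list]
  congr 1
  · simp [Ex, lw]
  rw [tsum_fintype]
  by_cases hx : x ∈ S
  · rw [if_pos hx]
    refine Finset.sum_congr rfl fun e _ => ?_
    rw [GN, ← ENNReal.tsum_mul_left]
    refine tsum_congr fun l => ?_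
    simp only [List.length_cons, add_le_add_iff_right]
    by_cases h : l.length ≤ N ∧ Ex S T (x + stepVec e) l
    · rw [if_pos h, if_pos ⟨h.1, hx, h.2⟩]; rfl
    · rw [if_neg h, if_neg fun h' => h ⟨h'.1, h'.2.2⟩, mul_zero]
  · rw [if_neg hx]
    refine Finset.sum_eq_zero fun e _ => ?_
    rw [ENNReal.tsum_eq_zero]
    intro l
    exact if_neg fun h' => hx h'.2.1

lemma row_sum (ω : Environment d) (x : Site d) :
    ∑ e : Step d, ENNReal.ofReal ((ω x).1 e) = 1 := by
  have hx := (ω x).2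
  rw [← ENNReal.ofReal_sum_of_nonneg (fun e _ => hx.1 e), hx.2, ENNReal.ofReal_one]

lemma GN_le_one {S T : Set (Site d)} (hST : Disjoint S T) (ω : Environment d) (N : ℕ)
    (x : Site d) : GN S T ω N x ≤ 1 := by
  classical
  induction N generalizing x with
  | zero =>
    rw [GN, tsum_eq_single ([] : List (Step d))]
    · split_ifs <;> simp [lw]
    · intro l hl
      rw [if_neg]
      rintro ⟨h, _⟩
      exact hl (List.length_eq_zero_iff.1 (by omega))
  | succ N ih =>
    rw [GN_succ]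
    by_cases hT : x ∈ T
    · have hS : x ∉ S := fun h => Set.disjoint_left.1 hST h hT
      simp [hT, hS]
    · rw [if_neg hT, zero_add]
      split_ifs with hS
      · calc ∑ e : Step d, ENNReal.ofReal ((ω x).1 e) * GN S T ω N (x + stepVec e)
            ≤ ∑ e : Step d, ENNReal.ofReal ((ω x).1 e) * 1 :=
              Finset.sum_le_sum fun e _ => mul_le_mul_right (ih _) _
          _ = 1 := by simp only [mul_one]; exact row_sum ω x
      · exact zero_le

lemma G_le_one {S T : Set (Site d)} (hST : Disjoint S T) (ω : Environment d)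
    (x : Site d) : G S T ω x ≤ 1 := by
  classical
  rw [G, ENNReal.tsum_eq_iSup_sum]
  refine iSup_le fun s => ?_
  refine le_trans ?_ (GN_le_one hST ω (s.sup List.length) x)
  rw [GN]
  refine le_trans ?_ (ENNReal.sum_le_tsum s)
  refine Finset.sum_le_sum fun l hl => ?_
  by_cases h : Ex S T x l
  · rw [if_pos h, if_pos ⟨Finset.le_sup (f := List.length) hl, h⟩]
  · rw [if_neg h]; exact zero_le

/-- the walk stays in `S` until it is in `T` -/
def Hit (S T : Set (Site d)) (N : ℕ) : Set (Path d) :=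
  {X | ∃ m, m ≤ N ∧ (∀ i, i < m → X i ∈ S) ∧ X m ∈ T}

lemma measurableSet_Hit (S T : Set (Site d)) (N : ℕ) : MeasurableSet (Hit S T N) :=
  measurableSet_of_agree N _ fun X Y h => by
    constructor
    · rintro ⟨m, hm, h1, h2⟩
      exact ⟨m, hm, fun i hi => by rw [← h i (by omega)]; exact h1 i hi,
        by rw [← h m hm]; exact h2⟩
    · rintro ⟨m, hm, h1, h2⟩
      exact ⟨m, hm, fun i hi => by rw [h i (by omega)]; exact h1 i hi,
        by rw [h m hm]; exact h2⟩

lemma quenched_Hit_le (S T : Set (Site d)) (ω : Environment d) (N : ℕ) (x : Site d) :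
    quenchedLaw ω x (Hit S T N) ≤ G S T ω x := by
  classical
  induction N generalizing x with
  | zero =>
    rw [G_rec]
    by_cases hT : x ∈ T
    · rw [if_pos hT]
      exact le_trans prob_le_one le_self_add
    · have : quenchedLaw ω x (Hit S T 0) = 0 := by
        rw [measure_eq_zero_iff_ae_notMem]
        filter_upwards [Doob804.quenched_start ω x] with X hX
        rintro ⟨m, hm, _, h2⟩
        have : m = 0 := by omega
        subst this
        rw [hX] at h2
        exact hT h2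
      rw [this]; exact zero_le
  | succ N ih =>
    rw [G_rec]
    by_cases hT : x ∈ T
    · rw [if_pos hT]
      exact le_trans prob_le_one le_self_add
    · rw [if_neg hT, zero_add, Doob804.quenched_markov_one ω x _ (measurableSet_Hit S T (N + 1))]
      by_cases hS : x ∈ S
      · rw [if_pos hS]
        refine Finset.sum_le_sum fun e _ => mul_le_mul_right (le_trans (measure_mono ?_) (ih _)) _
        rintro X ⟨m, hm, h1, h2⟩
        cases m with
        | zero => exact absurd h2 hT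
        | succ m => exact ⟨m, by omega, fun i hi => h1 (i + 1) (by omega), h2⟩
      · rw [if_neg hS]
        refine (Finset.sum_eq_zero fun e _ => ?_).le
        have : {X : Path d | Doob804.consP x X ∈ Hit S T (N + 1)} = ∅ := by
          rw [Set.eq_empty_iff_forall_notMem]
          rintro X ⟨m, hm, h1, h2⟩
          cases m with
          | zero => exact hT h2
          | succ m => exact hS (h1 0 (by omega))
        rw [this, measure_empty, mul_zero]

/-- the walk stays in `S` until it is in `T`, any time -/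
def HitU (S T : Set (Site d)) : Set (Path d) :=
  {X | ∃ m, (∀ i, i < m → X i ∈ S) ∧ X m ∈ T}

lemma HitU_eq (S T : Set (Site d)) : HitU S T = ⋃ N, Hit S T N := by
  ext X
  simp only [HitU, Hit, Set.mem_iUnion, Set.mem_ofPred_eq]
  constructor
  · rintro ⟨m, h⟩; exact ⟨m, m, le_rfl, h⟩
  · rintro ⟨_, m, _, h⟩; exact ⟨m, h⟩

lemma measurableSet_HitU (S T : Set (Site d)) : MeasurableSet (HitU S T) := by
  rw [HitU_eq]
  exact MeasurableSet.iUnion fun N => measurableSet_Hit S T N

lemma quenched_HitU_le (S T : Set (Site d)) (ω : Environment d) (x : Site d) :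
    quenchedLaw ω x (HitU S T) ≤ G S T ω x := by
  rw [HitU_eq, Monotone.measure_iUnion]
  · exact iSup_le fun N => quenched_Hit_le S T ω N x
  · rintro N M hNM X ⟨m, hm, h⟩
    exact ⟨m, hm.trans hNM, h⟩

open Classical in
/-- annealed form -/
lemma annealed_HitU_le (S T : Set (Site d)) (Q : Measure (Environment d)) (x : Site d) :
    ∫⁻ ω, quenchedLaw ω x (HitU S T) ∂Q
      ≤ ∑' l : List (Step d), if Ex S T x l then ∫⁻ ω, lw ω x l ∂Q else 0 := by
  refine (lintegral_mono fun ω => quenched_HitU_le S T ω x).trans ?_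
  simp only [G]
  rw [lintegral_tsum]
  · refine ENNReal.tsum_le_tsum fun l => ?_
    by_cases h : Ex S T x l
    · simp only [if_pos h, le_refl]
    · simp only [if_neg h, lintegral_zero, le_refl]
  · intro l
    by_cases h : Ex S T x l
    · simp only [if_pos h]; exact (Flux566.measurable_lw x l).aemeasurable
    · simp only [if_neg h]; exact aemeasurable_const

open Classical in
lemma annealed_G_le_one {S T : Set (Site d)} (hST : Disjoint S T) (Q : Measure (Environment d))
    [IsProbabilityMeasure Q] (x : Site d) :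
    (∑' l : List (Step d), if Ex S T x l then ∫⁻ ω, lw ω x l ∂Q else 0) ≤ 1 := by
  have h : (∑' l : List (Step d), if Ex S T x l then ∫⁻ ω, lw ω x l ∂Q else 0)
      = ∫⁻ ω, G S T ω x ∂Q := by
    simp only [G]
    rw [lintegral_tsum]
    · refine tsum_congr fun l => ?_
      by_cases h : Ex S T x l
      · simp only [if_pos h]
      · simp only [if_neg h, lintegral_zero]
    · intro l
      by_cases h : Ex S T x l
      · simp only [if_pos h]; exact (Flux566.measurable_lw x l).aemeasurable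
      · simp only [if_neg h]; exact aemeasurable_const
  rw [h]
  calc ∫⁻ ω, G S T ω x ∂Q ≤ ∫⁻ _, 1 ∂Q := lintegral_mono fun ω => G_le_one hST ω x
    _ = 1 := by simp

/-! ### crossings -/

lemma lev_opp (u : Step d) (x : Site d) : lev (opp u) x = - lev u x := by
  unfold lev opp
  cases u.2 <;> simp


lemma isDn_iff (u : Step d) (n : ℕ) (l : List (Step d)) :
    NB28.IsDn u n l ↔ NB28.IsUp (opp u) n l := by
  unfold NB28.IsDn NB28.IsUp
  simp only [lev_opp]
  constructor
  · rintro ⟨h1, h2⟩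
    exact ⟨fun y hy => ⟨by have := h1 y hy; omega, by have := h1 y hy; omega⟩, by omega⟩
  · rintro ⟨h1, h2⟩
    exact ⟨fun y hy => ⟨by have := h1 y hy; omega, by have := h1 y hy; omega⟩, by omega⟩

lemma isUp_iff (u : Step d) (n : ℕ) (l : List (Step d)) :
    NB28.IsUp u n l ↔ Ex {y | 0 ≤ lev u y ∧ lev u y < n} {y | lev u y = n} 0 l := by
  rw [ex_iff]; rfl

lemma disj (u : Step d) (n : ℕ) :
    Disjoint {y : Site d | 0 ≤ lev u y ∧ lev u y < n} {y | lev u y = n} := by
  rw [Set.disjoint_left]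
  rintro y ⟨_, h1⟩ h2
  simp only [Set.mem_ofPred_eq] at h2
  omega

open Classical in
/-- total annealed mass of the up crossings of `n` levels is at most `1` -/
theorem sum_up_le_one (ν : Measure (Row d)) [IsProbabilityMeasure ν] (u : Step d) (n : ℕ) :
    (∑' l : List (Step d), if NB28.IsUp u n l then NB28.aw ν l else 0) ≤ 1 := by
  simp only [isUp_iff, NB28.aw]
  have : IsProbabilityMeasure (iidEnvironmentLaw ν) := by unfold iidEnvironmentLaw; infer_instance
  exact annealed_G_le_one (disj u n) (iidEnvironmentLaw ν) 0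


lemma L_dirVec (u : Step d) (x : Site d) : Kal132.L (B2d.dirVec u) x = (lev u x : ℝ) := by
  unfold Kal132.L lev
  simp only [B2d.dirVec_apply]
  rw [Finset.sum_eq_single u.1]
  · by_cases hu : u.2 = true
    · simp [hu]
    · simp [hu]
  · intro i _ hi
    simp [hi]
  · simp

lemma dirVec_opp (u : Step d) : B2d.dirVec (opp u) = - B2d.dirVec u := by
  funext i
  rw [Pi.neg_apply, B2d.dirVec_apply, B2d.dirVec_apply]
  unfold opp
  by_cases h : i = u.1
  · simp only [if_pos h]
    cases u.2 <;> simp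
  · simp only [if_neg h, neg_zero]

lemma dirVec_ne_zero (u : Step d) : B2d.dirVec u ≠ 0 := by
  intro h
  have := congrFun h u.1
  rw [B2d.dirVec_apply, if_pos rfl] at this
  cases hu : u.2 <;> simp [hu] at this

lemma lev_step_le (u e : Step d) (x : Site d) : lev u (x + stepVec e) ≤ lev u x + 1 := by
  unfold lev stepVec
  by_cases h : u.1 = e.1
  · rw [Pi.add_apply, h, Pi.single_eq_same]
    cases u.2 <;> cases e.2 <;> simp
  · rw [Pi.add_apply, Pi.single_eq_of_ne h]
    cases u.2 <;> simp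

/-- a word cannot jump over level `n` -/
lemma ex_level (u : Step d) (n : ℕ) (x : Site d) (l : List (Step d)) (hx : lev u x ≤ n)
    (h : Ex {y | 0 ≤ lev u y ∧ lev u y < n} {y | (n : ℤ) ≤ lev u y} x l) :
    Ex {y | 0 ≤ lev u y ∧ lev u y < n} {y | lev u y = n} x l := by
  induction l generalizing x with
  | nil => exact le_antisymm hx h
  | cons e l ih =>
    refine ⟨h.1, ih _ ?_ h.2⟩
    have h1 := lev_step_le u e x
    have h2 := h.1.2
    omega

lemma lev_zero (u : Step d) : lev u (0 : Site d) = 0 := by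
  unfold lev; cases u.2 <;> simp

/-- staying above level `0` forces an up crossing of every height -/
lemma stay_le_hit (ν : Measure (Row d)) [IsProbabilityMeasure ν]
    (hν : ∀ᵐ p ∂ν, ∀ e : Step d, 0 < p.1 e) (u : Step d)
    (hA : annealed (iidEnvironmentLaw ν) 0 (escapeEvent (B2d.dirVec u)) ≠ 0) (n : ℕ) :
    annealed (iidEnvironmentLaw ν) 0 (Kal132.Stay (B2d.dirVec u))
      ≤ annealed (iidEnvironmentLaw ν) 0
          (HitU {y | 0 ≤ lev u y ∧ lev u y < n} {y | (n : ℤ) ≤ lev u y}) := by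
  have : IsProbabilityMeasure (iidEnvironmentLaw ν) := by unfold iidEnvironmentLaw; infer_instance
  refine measure_mono_ae ?_
  have hk := Kal132.kalikow_ae (Q561.iid_shift ν) (Kal132.slabProp_iid ν hν) (B2d.dirVec u)
    (dirVec_ne_zero u) (Kal132.retry_iid ν _ (dirVec_ne_zero u)) hA
  have h0 : ∀ᵐ X ∂annealed (iidEnvironmentLaw ν) (0 : Site d), X ∈ {X : Path d | X 0 = 0} :=
    annealed_ae (measurableSet_of_agree 0 _ fun X Y h => by
      simp only [Set.mem_ofPred_eq, h 0 le_rfl])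
      (Filter.Eventually.of_forall fun ω => quenched_zero_eq ω 0)
  filter_upwards [hk, h0] with X hX hX0 hst
  have hX0' : X 0 = 0 := hX0
  have hpos : ∀ m, 0 ≤ lev u (X m) := by
    intro m
    have h1 : Kal132.L (B2d.dirVec u) (X 0) ≤ Kal132.L (B2d.dirVec u) (X m) := hst m
    rw [L_dirVec, L_dirVec, hX0', lev_zero] at h1
    exact_mod_cast h1
  have hup : Filter.Tendsto (fun m => Kal132.L (B2d.dirVec u) (X m)) Filter.atTop Filter.atTop := by
    rcases hX with h | h
    · exact (Kal132.mem_escape_iff _ _).1 h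
    · exfalso
      rw [Kal132.mem_escape_iff] at h
      obtain ⟨m, hm⟩ := (h.eventually_ge_atTop 1).exists
      rw [Kal132.L_neg, L_dirVec] at hm
      have h2 : (0 : ℝ) ≤ (lev u (X m) : ℝ) := by exact_mod_cast hpos m
      linarith
  have hex : ∃ m, (n : ℤ) ≤ lev u (X m) := by
    obtain ⟨m, hm⟩ := (hup.eventually_ge_atTop (n : ℝ)).exists
    rw [L_dirVec] at hm
    exact ⟨m, by exact_mod_cast hm⟩
  classical
  exact ⟨Nat.find hex, fun i hi => ⟨hpos i, not_le.1 (Nat.find_min hex hi)⟩, Nat.find_spec hex⟩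

open Classical in
/-- the total annealed mass of the up crossings is at least `P(D = ∞)` -/
theorem stay_le_sum_up (ν : Measure (Row d)) [IsProbabilityMeasure ν]
    (hν : ∀ᵐ p ∂ν, ∀ e : Step d, 0 < p.1 e) (u : Step d)
    (hA : annealed (iidEnvironmentLaw ν) 0 (escapeEvent (B2d.dirVec u)) ≠ 0) (n : ℕ) :
    annealed (iidEnvironmentLaw ν) 0 (Kal132.Stay (B2d.dirVec u))
      ≤ ∑' l : List (Step d), if NB28.IsUp u n l then NB28.aw ν l else 0 := by
  have : IsProbabilityMeasure (iidEnvironmentLaw ν) := by unfold iidEnvironmentLaw; infer_instance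
  refine (stay_le_hit ν hν u hA n).trans ?_
  rw [annealed_apply _ 0 (measurableSet_HitU _ _)]
  refine (annealed_HitU_le _ _ _ 0).trans ?_
  refine ENNReal.tsum_le_tsum fun l => ?_
  split_ifs with h1 h2
  · exact le_rfl
  · exact absurd ((isUp_iff u n l).2 (ex_level u n 0 l (by rw [lev_zero]; omega) h1)) h2
  · exact zero_le
  · exact zero_le

/-- `P(D = ∞) ≠ 0` -/
theorem stay_ne_zero (ν : Measure (Row d)) [IsProbabilityMeasure ν] (u : Step d)
    (hA : annealed (iidEnvironmentLaw ν) 0 (escapeEvent (B2d.dirVec u)) ≠ 0) :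
    annealed (iidEnvironmentLaw ν) 0 (Kal132.Stay (B2d.dirVec u)) ≠ 0 := by
  have : IsProbabilityMeasure (iidEnvironmentLaw ν) := by unfold iidEnvironmentLaw; infer_instance
  exact Kal132.pD_pos (Q561.iid_shift ν) _ hA

open Classical in
/-- **positivity**: both masses are at least a constant independent of `n` -/
theorem mass_pos (ν : Measure (Row d)) [IsProbabilityMeasure ν]
    (hν : ∀ᵐ p ∂ν, ∀ e : Step d, 0 < p.1 e) (u : Step d)
    (hA : annealed (iidEnvironmentLaw ν) 0 (escapeEvent (B2d.dirVec u)) ≠ 0)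
    (hB : annealed (iidEnvironmentLaw ν) 0 (escapeEvent (-B2d.dirVec u)) ≠ 0) :
    ∃ c : ℝ≥0∞, c ≠ 0 ∧ c ≤ 1 ∧
      (∀ n : ℕ, c ≤ ∑' l : List (Step d), if NB28.IsUp u n l then NB28.aw ν l else 0) ∧
      (∀ n : ℕ, c ≤ ∑' l : List (Step d), if NB28.IsDn u n l then NB28.aw ν l else 0) := by
  have hB' : annealed (iidEnvironmentLaw ν) 0 (escapeEvent (B2d.dirVec (opp u))) ≠ 0 := by
    rw [dirVec_opp]; exact hB
  refine ⟨min (annealed (iidEnvironmentLaw ν) 0 (Kal132.Stay (B2d.dirVec u)))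
    (annealed (iidEnvironmentLaw ν) 0 (Kal132.Stay (B2d.dirVec (opp u)))), ?_, ?_, ?_, ?_⟩
  · intro h
    rcases min_choice (annealed (iidEnvironmentLaw ν) 0 (Kal132.Stay (B2d.dirVec u)))
      (annealed (iidEnvironmentLaw ν) 0 (Kal132.Stay (B2d.dirVec (opp u)))) with h' | h'
    · exact stay_ne_zero ν u hA (h' ▸ h)
    · exact stay_ne_zero ν (opp u) hB' (h' ▸ h)
  · exact (min_le_left _ _).trans ((stay_le_sum_up ν hν u hA 0).trans (sum_up_le_one ν u 0))
  · exact fun n => (min_le_left _ _).trans (stay_le_sum_up ν hν u hA n)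
  · intro n
    simp only [isDn_iff]
    exact (min_le_right _ _).trans (stay_le_sum_up ν hν (opp u) hB' n)



end Crest.Agent.R154.WM286
private theorem rz_fbd162f962 : type_of% @_root_.Crest.Agent.R154.WM286.Ex.eq_def := @_root_.Crest.Agent.R154.WM286.Ex.eq_def -- L23
private theorem rz_27367e90f7 : type_of% @_root_.Crest.Agent.R154.WM286.Ex.eq_1 := @_root_.Crest.Agent.R154.WM286.Ex.eq_1 -- L23
end

-- ▼ part R154/HSl_689
section

/-! Row 154, ROAD 801 (helper689): the thin slab for helper657's instance (pair blocks). -/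

set_option autoImplicit false

namespace Crest.Agent.R154.HSl689

open MeasureTheory ProbabilityTheory Crest.ProbabilityR.RandomEnvironment
open scoped ENNReal
open Crest.Agent.R154.B5A Crest.Agent.R154.B5W
open Crest.Agent.R154.Flux566 (lw endp sitesL lev lev_add lev_neg lev_zero lev_self endp_append
  endp_eq_add)
open Crest.Agent.R154.NB28 (IsUp IsDn Cm KW KappaW)

variable {d : ℕ}

/-- displacement of a pair block -/
def ds (u : Step d) (b : PB u) : Site d := endp 0 b.1.1 + endp 0 b.1.2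

lemma act_val (u : Step d) (L : List (PB u)) (w : Lat u) :
    (act (dl u) L w).1 = w.1 + (L.map (ds u)).sum := by
  induction L generalizing w with
  | nil => simp [act]
  | cons b L ih =>
    rw [act, ih, List.map_cons, List.sum_cons]
    simp only [dl, dlp, ds]
    abel

lemma mass_one (ν : Measure (Row d)) [IsProbabilityMeasure ν] (u : Step d) (c : ℝ≥0∞)
    (hc : c ≠ 0) (hU : ∀ n, c ≤ U (Lam ν u) (ht u) n) (hU1 : ∀ n, U (Lam ν u) (ht u) n ≤ 1) :
    ∑' b, Lam ν u b = 1 :=
  le_antisymm (mass_le_one (Lam ν u) (ht u) one_le_hb hU1)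
    (mass_ge_one (Lam ν u) (ht u) c hc 0 fun n _ => hU n)

lemma U_le (ν : Measure (Row d)) [IsProbabilityMeasure ν] (u : Step d) (n : ℕ) :
    U (Lam ν u) (ht u) n ≤ 1 := by
  classical
  rw [U_eq28]
  exact mul_le_one' (sum_if_le_one ν fun l l' h h' hp => NB28.isUp_prefix h h' hp)
    (sum_if_le_one ν fun l l' h h' hp => NB28.isDn_prefix h h' hp)

open Classical in
lemma U_ge (ν : Measure (Row d)) [IsProbabilityMeasure ν] (u : Step d) (c : ℝ≥0∞)
    (hup : ∀ n, c ≤ ∑' π : List (Step d), if IsUp u n π then NB28.aw ν π else 0)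
    (hdn : ∀ n, c ≤ ∑' γ : List (Step d), if IsDn u n γ then NB28.aw ν γ else 0) (n : ℕ) :
    c * c ≤ U (Lam ν u) (ht u) n := by
  rw [U_eq28]; exact mul_le_mul' (hup n) (hdn n)

lemma aw_ne (ν : Measure (Row d)) [IsProbabilityMeasure ν]
    (hν : ∀ᵐ p ∂ν, ∀ e : Step d, 0 < p.1 e) (l : List (Step d)) (hl : (sitesL 0 l).Nodup) :
    B5W.aw (iidEnvironmentLaw ν) l ≠ 0 := by
  obtain ⟨c, hc0, hc1, hc⟩ := FinE804.exists_c ν hν
  have := Flux566.ann_lw_ge ν (ENNReal.ofReal c) hc l 0 hl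
  intro h0
  unfold B5W.aw at h0
  rw [h0, nonpos_iff_eq_zero] at this
  exact (pow_ne_zero _ (by simpa using hc0)) this

/-- a pair of height one is a block -/
def mk1 (u : Step d) (x : List (Step d) × List (Step d)) (hx : x ∈ PC (hu u) (hdn u) 1) : PB u :=
  ⟨x, 1, le_rfl, hx, fun a c k l ha hc he => by
    have h := pm_mem ha hc
    rw [← he] at h
    have := PC_height hx h
    omega⟩

lemma stepVec_opp2 (u : Step d) : stepVec (Flux566.opp u) = - stepVec u := Flux566.stepVec_opp u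

lemma exists_lat (hd : 2 ≤ d) (u : Step d) : ∃ e : Step d, lev u (stepVec e) = 0 := by
  obtain ⟨i, hi⟩ : ∃ i : Fin d, i ≠ u.1 := by
    by_cases h0 : u.1 = ⟨0, by omega⟩
    · exact ⟨⟨1, by omega⟩, by rw [h0]; simp [Fin.ext_iff]⟩
    · exact ⟨⟨0, by omega⟩, fun h => h0 h.symm⟩
  exact ⟨(i, true), by simp [lev, stepVec, hi.symm]⟩

lemma up1 (u : Step d) : [u] ∈ UpW (hu u) 1 := by
  rw [up_iff]
  refine ⟨fun y hy => ?_, ?_⟩
  · simp only [sitesL, List.mem_cons, List.not_mem_nil, or_false] at hy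
    subst hy
    change 0 ≤ Flux566.lev u 0 ∧ Flux566.lev u 0 < ((1 : ℕ) : ℤ)
    rw [lev_zero]; norm_num
  · change Flux566.lev u (0 + stepVec u) = ((1 : ℕ) : ℤ)
    rw [zero_add, lev_self]; norm_num

lemma up2 (u e : Step d) (he : lev u (stepVec e) = 0) : [e, u] ∈ UpW (hu u) 1 := by
  rw [up_iff]
  refine ⟨fun y hy => ?_, ?_⟩
  · simp only [sitesL, List.mem_cons, List.not_mem_nil, or_false] at hy
    rcases hy with rfl | rfl
    · change 0 ≤ Flux566.lev u 0 ∧ Flux566.lev u 0 < ((1 : ℕ) : ℤ)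
      rw [lev_zero]; norm_num
    · change 0 ≤ Flux566.lev u (0 + stepVec e) ∧ Flux566.lev u (0 + stepVec e) < ((1 : ℕ) : ℤ)
      rw [zero_add, he]; norm_num
  · change Flux566.lev u (0 + stepVec e + stepVec u) = ((1 : ℕ) : ℤ)
    rw [lev_add, zero_add, he, lev_self]; norm_num

lemma dn1 (u : Step d) : [Flux566.opp u] ∈ UpW (hdn u) 1 := by
  rw [dn_iff]
  refine ⟨fun y hy => ?_, ?_⟩
  · simp only [sitesL, List.mem_cons, List.not_mem_nil, or_false] at hy
    subst hy
    change -((1 : ℕ) : ℤ) < Flux566.lev u 0 ∧ Flux566.lev u 0 ≤ 0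
    rw [lev_zero]; norm_num
  · change Flux566.lev u (0 + stepVec (Flux566.opp u)) = -((1 : ℕ) : ℤ)
    rw [zero_add, stepVec_opp2, lev_neg, lev_self]; norm_num

open Classical in
/-- concentration of the displacement of the pair blocks -/
theorem conc (hd : 2 ≤ d) (ν : Measure (Row d)) [IsProbabilityMeasure ν]
    (hν : ∀ᵐ p ∂ν, ∀ e : Step d, 0 < p.1 e) (u : Step d) (hΛ : ∑' b, Lam ν u b = 1)
    (ε : ℝ≥0∞) (hε : ε ≠ 0) : ∃ D : ℕ, ∀ n, D ≤ n → ∀ w w' : Lat u,
      ∑' L : List (PB u), (if HT (ht u) L = n ∧ act (dl u) L w = w' then LW (Lam ν u) L else 0)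
        ≤ ε := by
  obtain ⟨e, he⟩ := exists_lat hd u
  have hse : stepVec e ≠ 0 := by
    intro h
    have := congrFun h e.1
    unfold stepVec at this
    cases hb : e.2 <;> simp [hb] at this
  have m1 : (([u], [Flux566.opp u]) : List (Step d) × List (Step d)) ∈ PC (hu u) (hdn u) 1 :=
    ⟨up1 u, dn1 u⟩
  have m2 : (([e, u], [Flux566.opp u]) : List (Step d) × List (Step d)) ∈ PC (hu u) (hdn u) 1 :=
    ⟨up2 u e he, dn1 u⟩
  have a1 : B5W.aw (iidEnvironmentLaw ν) [u] ≠ 0 := aw_ne ν hν _ (by simp [sitesL])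
  have a2 : B5W.aw (iidEnvironmentLaw ν) [Flux566.opp u] ≠ 0 := aw_ne ν hν _ (by simp [sitesL])
  have a3 : B5W.aw (iidEnvironmentLaw ν) [e, u] ≠ 0 :=
    aw_ne ν hν _ (by simpa [sitesL, eq_comm] using hse)
  obtain ⟨N, hN⟩ := Conc430.conc (Λ := Lam ν u) (ht := ht u) (dsp := ds u)
    (b1 := mk1 u _ m1) (b2 := mk1 u _ m2) one_le_hb hΛ
    (by rw [show ht u (mk1 u _ m1) = 1 from hb_eq m1, show ht u (mk1 u _ m2) = 1 from hb_eq m2])
    (mul_ne_zero a1 a2) (mul_ne_zero a3 a2)
    (fun k hk h => by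
      have h2 : ds u (mk1 u _ m2) - ds u (mk1 u _ m1) = stepVec e := by
        simp only [ds, mk1, endp]; abel
      rw [h2] at h
      exact hse ((smul_eq_zero.1 h).resolve_left hk)) ε hε
  refine ⟨N, fun n hn w w' => le_trans (le_of_eq ?_) (hN n hn (w'.1 - w.1))⟩
  refine tsum_congr fun L => ?_
  have : act (dl u) L w = w' ↔ (L.map (ds u)).sum = w'.1 - w.1 := by
    constructor
    · intro h
      have := congrArg Subtype.val h
      rw [act_val] at this
      rw [← this]; abel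
    · intro h
      apply Subtype.ext
      rw [act_val, h]; abel
  by_cases h : HT (ht u) L = n ∧ act (dl u) L w = w'
  · rw [if_pos h, if_pos ⟨h.1, this.1 h.2⟩]
  · rw [if_neg h, if_neg fun h' => h ⟨h'.1, this.2 h'.2⟩]

open Classical in
/-- **the thin slab** for the pair blocks: helper139's `hSl`, helper818's `hSlab`. -/
theorem hSl (hd : 2 ≤ d) (ν : Measure (Row d)) [IsProbabilityMeasure ν]
    (hν : ∀ᵐ p ∂ν, ∀ e : Step d, 0 < p.1 e) (u : Step d) (hΛ : ∑' b, Lam ν u b = 1) :
    ∀ (s : ℕ) (ε : ℝ≥0∞), ε ≠ 0 → ∃ H0 : ℕ, ∀ H, H0 ≤ H → ∀ w : Lat u,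
      ∑' L : List (PB u), (if HT (ht u) L = H ∧ ∃ k ∈ CD (ht u) (dl u) (cd u) L w, H < k + s
        then LW (Lam ν u) L else 0) ≤ ε :=
  Slab689.slab (Lam ν u) (ht u) (dl u) (cd u) one_le_hb (fun w b k hk => hcd u w b k hk)
    (hinj u) (hfar u) hΛ (U_le ν u) (conc hd ν hν u hΛ)

open Classical in
/-- the same from the two escape probabilities -/
theorem hSl' (hd : 2 ≤ d) (ν : Measure (Row d)) [IsProbabilityMeasure ν]
    (hν : ∀ᵐ p ∂ν, ∀ e : Step d, 0 < p.1 e) (u : Step d)
    (hA : annealed (iidEnvironmentLaw ν) 0 (escapeEvent (B2d.dirVec u)) ≠ 0)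
    (hB : annealed (iidEnvironmentLaw ν) 0 (escapeEvent (-B2d.dirVec u)) ≠ 0) :
    ∀ (s : ℕ) (ε : ℝ≥0∞), ε ≠ 0 → ∃ H0 : ℕ, ∀ H, H0 ≤ H → ∀ w : Lat u,
      ∑' L : List (PB u), (if HT (ht u) L = H ∧ ∃ k ∈ CD (ht u) (dl u) (cd u) L w, H < k + s
        then LW (Lam ν u) L else 0) ≤ ε := by
  obtain ⟨c, hc, _, hup, hdn⟩ := WM286.mass_pos ν hν u hA hB
  exact hSl hd ν hν u (mass_one ν u (c * c) (mul_ne_zero hc hc) (U_ge ν u c hup hdn) (U_le ν u))

end Crest.Agent.R154.HSl689
end

-- ▼ part R154/WordB_956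
section

/-! Row 154 (helper956): basics on words (letters `lw endp sitesL` of `Flux2_566`):
prefix-free sums, first-hit factorisation, same = ind for disjoint words. -/

set_option autoImplicit false

open MeasureTheory ProbabilityTheory Crest.ProbabilityR.RandomEnvironment
open Crest.Agent.R154.Flux566
open scoped ENNReal

namespace Crest.Agent.R154.WordB956

variable {d : ℕ}

lemma lw_append (ω : Environment d) (x : Site d) (l l' : List (Step d)) :
    lw ω x (l ++ l') = lw ω x l * lw ω (endp x l) l' := by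
  induction l generalizing x with
  | nil => simp [lw, endp]
  | cons e l ih => simp only [List.cons_append, lw, endp, ih, mul_assoc]

lemma sitesL_append (x : Site d) (l l' : List (Step d)) :
    sitesL x (l ++ l') = sitesL x l ++ sitesL (endp x l) l' := by
  induction l generalizing x with
  | nil => simp [sitesL, endp]
  | cons e l ih => simp only [List.cons_append, sitesL, endp, ih]



lemma mem_sitesL {x y : Site d} {l : List (Step d)} :
    y ∈ sitesL x l ↔ ∃ l1 e l2, l = l1 ++ e :: l2 ∧ endp x l1 = y := by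
  induction l generalizing x with
  | nil => simp [sitesL]
  | cons e l ih =>
    simp only [sitesL, List.mem_cons, ih]
    constructor
    · rintro (rfl | ⟨l1, e', l2, rfl, h⟩)
      · exact ⟨[], e, l, rfl, rfl⟩
      · exact ⟨e :: l1, e', l2, rfl, h⟩
    · rintro ⟨l1, e', l2, h, h'⟩
      cases l1 with
      | nil => left; simpa [endp] using h'.symm
      | cons a l1 =>
        simp only [List.cons_append, List.cons.injEq] at h
        obtain ⟨rfl, rfl⟩ := h
        exact Or.inr ⟨l1, e', l2, rfl, h'⟩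



/-! ### prefix-free sums -/

/-- prefix-free set of words -/
def PF (S : Set (List (Step d))) : Prop := ∀ l ∈ S, ∀ l', l ++ l' ∈ S → l' = []

lemma PF.mono {S T : Set (List (Step d))} (h : PF T) (hST : S ⊆ T) : PF S :=
  fun l hl l' hl' => h l (hST hl) l' (hST hl')


/-! ### first hits -/









/-! ### annealed weights -/

/-- annealed weight of a word -/
noncomputable def aw (Q : Measure (Environment d)) (x : Site d) (l : List (Step d)) : ℝ≥0∞ :=
  ∫⁻ ω, lw ω x l ∂Q

lemma aw_nil (Q : Measure (Environment d)) [IsProbabilityMeasure Q] (x : Site d) :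
    aw Q x [] = 1 := by simp [aw, lw]


/-- **(B4)** same = ind for words at disjoint sites -/
lemma aw_mul (ν : Measure (Row d)) [IsProbabilityMeasure ν] (x y : Site d)
    (l l' : List (Step d)) (h : ∀ z ∈ sitesL x l, z ∉ sitesL y l') :
    ∫⁻ ω, lw ω x l * lw ω y l' ∂(iidEnvironmentLaw ν)
      = aw (iidEnvironmentLaw ν) x l * aw (iidEnvironmentLaw ν) y l' := by
  refine Q561.iid_lintegral_mul ν (S := {z | z ∈ sitesL x l}) (T := {z | z ∈ sitesL y l'}) ?_
    (measurable_lw _ _) (measurable_lw _ _) (locOn_lw _ _) (locOn_lw _ _)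
  exact Set.disjoint_left.2 h

/-- concatenation of words reading disjoint sites -/
lemma aw_append (ν : Measure (Row d)) [IsProbabilityMeasure ν] (x : Site d)
    (l l' : List (Step d)) (h : ∀ z ∈ sitesL x l, z ∉ sitesL (endp x l) l') :
    aw (iidEnvironmentLaw ν) x (l ++ l')
      = aw (iidEnvironmentLaw ν) x l * aw (iidEnvironmentLaw ν) (endp x l) l' := by
  rw [← aw_mul ν _ _ _ _ h]
  unfold aw
  simp_rw [lw_append]



end Crest.Agent.R154.WordB956
end

-- ▼ part R154/NBWord_28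
section

/-! Row 154, NBProp (helper28): the instance of `B5A.abs_main2` (181, 865, 566) with the pair crossings
of 657, in the letters of `NBDefs_28`. -/

set_option autoImplicit false

namespace Crest.Agent.R154.NB28

open MeasureTheory ProbabilityTheory Crest.ProbabilityR.RandomEnvironment Crest.Agent.R154
open Crest.Agent.R154.Flux132 (lev opp lev_add lev_neg lev_zero)
open Crest.Agent.R154.Flux566 (lw endp sitesL measurable_lw endp_append endp_eq_add)
open Crest.Agent.R154.B5A Crest.Agent.R154.B5W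
open scoped ENNReal

variable {d : ℕ}

/-- level of an up step -/
def hU (u : Step d) (e : Step d) : ℤ := lev u (stepVec e)

/-- level of a down step -/
def hD (u : Step d) (e : Step d) : ℤ := -lev u (stepVec e)

lemma lev_endp (u : Step d) (l : List (Step d)) (x : Site d) :
    lev u (endp x l) = lev u x + lv (hU u) l := by
  induction l generalizing x with
  | nil => simp [endp]
  | cons e l ih =>
    simp only [endp]
    rw [ih, lev_add]
    simp [lv, hU, add_assoc]

lemma lv_hD (u : Step d) (l : List (Step d)) : lv (hD u) l = - lv (hU u) l := by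
  induction l with
  | nil => simp [lv]
  | cons e l ih =>
    simp only [lv, List.map_cons, List.sum_cons] at ih ⊢
    rw [ih]; simp [hD, hU]; ring

lemma mem_pref {x y : Site d} {l : List (Step d)} :
    y ∈ sitesL x l ↔ ∃ p, p <+: l ∧ p ≠ l ∧ endp x p = y := by
  rw [WordB956.mem_sitesL]
  constructor
  · rintro ⟨l1, e, l2, rfl, h⟩
    refine ⟨l1, List.prefix_append _ _, ?_, h⟩
    intro h'
    have := congrArg List.length h'
    simp at this
  · rintro ⟨p, ⟨t, rfl⟩, hne, h⟩
    cases t with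
    | nil => exact absurd (by simp) hne
    | cons e t => exact ⟨p, e, t, rfl, h⟩

lemma isUp_iff (u : Step d) (n : ℕ) (l : List (Step d)) : IsUp u n l ↔ l ∈ UpW (hU u) n := by
  have h0 : ∀ p : List (Step d), lev u (endp 0 p) = lv (hU u) p := fun p => by
    rw [lev_endp, lev_zero, zero_add]
  constructor
  · rintro ⟨h1, h2⟩
    refine ⟨by rw [← h0]; exact h2, fun p hp hne => ?_⟩
    have := h1 (endp 0 p) (mem_pref.2 ⟨p, hp, hne, rfl⟩)
    rwa [h0] at this
  · rintro ⟨h1, h2⟩
    refine ⟨fun y hy => ?_, by rw [h0]; exact h1⟩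
    obtain ⟨p, hp, hne, rfl⟩ := mem_pref.1 hy
    rw [h0]
    exact h2 p hp hne

lemma isDn_iff (u : Step d) (n : ℕ) (l : List (Step d)) : IsDn u n l ↔ l ∈ UpW (hD u) n := by
  have h0 : ∀ p : List (Step d), lev u (endp 0 p) = - lv (hD u) p := fun p => by
    rw [lev_endp, lev_zero, zero_add, lv_hD, neg_neg]
  constructor
  · rintro ⟨h1, h2⟩
    refine ⟨by rw [h0] at h2; linarith, fun p hp hne => ?_⟩
    have := h1 (endp 0 p) (mem_pref.2 ⟨p, hp, hne, rfl⟩)
    rw [h0] at this
    exact ⟨by linarith [this.2], by linarith [this.1]⟩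
  · rintro ⟨h1, h2⟩
    refine ⟨fun y hy => ?_, by rw [h0, h1]⟩
    obtain ⟨p, hp, hne, rfl⟩ := mem_pref.1 hy
    rw [h0]
    have := h2 p hp hne
    exact ⟨by linarith [this.2], by linarith [this.1]⟩

/-! ### weights -/

lemma aw_nil (ν : Measure (Row d)) [IsProbabilityMeasure ν] : aw ν [] = 1 := by
  simp [aw, lw]

lemma aw_append (ν : Measure (Row d)) [IsProbabilityMeasure ν] (a b : List (Step d))
    (h : ∀ y ∈ sitesL 0 a, y ∉ sitesL (endp 0 a) b) : aw ν (a ++ b) = aw ν a * aw ν b :=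
  lint_append ν 0 a b h

lemma aw_up (ν : Measure (Row d)) [IsProbabilityMeasure ν] (u : Step d) (m n : ℕ)
    (a : List (Step d)) (ha : a ∈ UpW (hU u) m) (b : List (Step d)) (hb : b ∈ UpW (hU u) n) :
    aw ν (a ++ b) = aw ν a * aw ν b := by
  rw [← isUp_iff] at ha hb
  refine aw_append ν a b fun y hy hy' => ?_
  rw [mem_sitesL_iff] at hy'
  have h1 := (ha.1 y hy).2
  have h2 := (hb.1 _ hy').1
  rw [sub_eq_add_neg, lev_add, lev_neg, ha.2] at h2
  omega

lemma aw_dn (ν : Measure (Row d)) [IsProbabilityMeasure ν] (u : Step d) (m n : ℕ)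
    (a : List (Step d)) (ha : a ∈ UpW (hD u) m) (b : List (Step d)) (hb : b ∈ UpW (hD u) n) :
    aw ν (a ++ b) = aw ν a * aw ν b := by
  rw [← isDn_iff] at ha hb
  refine aw_append ν a b fun y hy hy' => ?_
  rw [mem_sitesL_iff] at hy'
  have h1 := (ha.1 y hy).1
  have h2 := (hb.1 _ hy').2
  rw [sub_eq_add_neg, lev_add, lev_neg, ha.2] at h2
  omega

/-! ### blocks -/

/-- irreducible pair crossings -/
abbrev PB (u : Step d) : Type := Blk (hU u) (hD u)

instance (u : Step d) : Countable (PB u) := by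
  unfold PB Blk; infer_instance

/-- weight of a pair crossing -/
noncomputable def wB (ν : Measure (Row d)) [IsProbabilityMeasure ν] (u : Step d) :
    PB u → ℝ≥0∞ := B5W.wt (h := hU u) (h' := hD u) (aw ν) (aw ν)

/-- lateral sites -/
abbrev Lt (u : Step d) : Type := {w : Site d // lev u w = 0}

lemma pc_up {u : Step d} {n : ℕ} {x : List (Step d) × List (Step d)}
    (hx : x ∈ PC (hU u) (hD u) n) : IsUp u n x.1 := (isUp_iff u n _).2 hx.1

lemma pc_dn {u : Step d} {n : ℕ} {x : List (Step d) × List (Step d)}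
    (hx : x ∈ PC (hU u) (hD u) n) : IsDn u n x.2 := (isDn_iff u n _).2 hx.2

/-- displacement below a block -/
def dlB (u : Step d) (b : PB u) (w : Lt u) : Lt u :=
  ⟨w.1 + endp 0 b.1.2 + endp 0 b.1.1, by
    have h1 := pc_up (blk_mem b)
    have h2 := pc_dn (blk_mem b)
    rw [lev_add, lev_add, w.2, h1.2, h2.2]; ring⟩

/-- contacts inside a block -/
def cdB (u : Step d) (w : Lt u) (b : PB u) : Set ℕ := Cm u w.1 b.1.1 b.1.2

lemma dlB_inj (u : Step d) (b : PB u) : Function.Injective (dlB u b) := by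
  intro w w' h
  have := congrArg Subtype.val h
  simp only [dlB] at this
  exact Subtype.ext (add_right_cancel (add_right_cancel this))

lemma lev_X {u : Step d} {n : ℕ} {π : List (Step d)} (hπ : IsUp u n π) {y : Site d}
    (hy : y ∈ sitesL (-endp 0 π) π) : -(n : ℤ) ≤ lev u y ∧ lev u y ≤ -1 := by
  rw [mem_sitesL_iff] at hy
  have := hπ.1 _ hy
  rw [sub_neg_eq_add, lev_add, hπ.2] at this
  omega

lemma lev_Y {u : Step d} {n : ℕ} {γ : List (Step d)} (hγ : IsDn u n γ) {w y : Site d}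
    (hw : lev u w = 0) (hy : y ∈ sitesL (w + stepVec (opp u)) γ) :
    -(n : ℤ) ≤ lev u y ∧ lev u y ≤ -1 := by
  rw [mem_sitesL_iff] at hy
  have := hγ.1 _ hy
  rw [sub_eq_add_neg, lev_add, lev_neg, lev_add, hw, lev_opp] at this
  omega

lemma cm_pos {u : Step d} {n : ℕ} {w : Site d} {π γ : List (Step d)} (hπ : IsUp u n π)
    {k : ℕ} (hk : k ∈ Cm u w π γ) : 1 ≤ k ∧ k ≤ n := by
  obtain ⟨y, hy, _, hl⟩ := hk
  have := lev_X hπ hy
  omega

lemma cm_append {u : Step d} {t n : ℕ} {w : Site d} (hw : lev u w = 0)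
    {π γ π' γ' : List (Step d)} (hπ : IsUp u t π) (hγ : IsDn u t γ) (hπ' : IsUp u n π')
    (hγ' : IsDn u n γ') :
    Cm u w (π' ++ π) (γ ++ γ')
      = Cm u w π γ ∪ (fun k => t + k) '' Cm u (w + endp 0 γ + endp 0 π) π' γ' := by
  have hw' : lev u (w + endp 0 γ + endp 0 π) = 0 := by
    rw [lev_add, lev_add, hw, hγ.2, hπ.2]; ring
  have he : endp 0 (π' ++ π) = endp 0 π' + endp 0 π := by
    rw [endp_append, endp_eq_add π]
  have he2 : endp (-(endp 0 π' + endp 0 π)) π' = -endp 0 π := by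
    rw [endp_eq_add π']; abel
  have hX : ∀ y, y ∈ sitesL (-endp 0 (π' ++ π)) (π' ++ π)
      ↔ y + endp 0 π ∈ sitesL (-endp 0 π') π' ∨ y ∈ sitesL (-endp 0 π) π := by
    intro y
    rw [sitesL_append, List.mem_append, he, he2]
    refine or_congr_left ?_
    rw [mem_sitesL_iff, mem_sitesL_iff π' (-endp 0 π')]
    rw [show y - -(endp 0 π' + endp 0 π) = y + endp 0 π - -endp 0 π' by abel]
  have hY : ∀ y, y ∈ sitesL (w + stepVec (opp u)) (γ ++ γ')
      ↔ y ∈ sitesL (w + stepVec (opp u)) γ ∨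
        y + endp 0 π ∈ sitesL (w + endp 0 γ + endp 0 π + stepVec (opp u)) γ' := by
    intro y
    rw [sitesL_append, List.mem_append]
    refine or_congr_right ?_
    rw [mem_sitesL_iff, mem_sitesL_iff γ' (w + endp 0 γ + endp 0 π + stepVec (opp u)),
      endp_eq_add γ]
    rw [show y - (w + stepVec (opp u) + endp 0 γ)
      = y + endp 0 π - (w + endp 0 γ + endp 0 π + stepVec (opp u)) by abel]
  ext k
  constructor
  · rintro ⟨y, hy, hy', hl⟩
    rw [hX] at hy
    rw [hY] at hy'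
    rcases hy with hy | hy <;> rcases hy' with hy' | hy'
    · exfalso
      have h1 := lev_X hπ' hy
      have h2 := lev_Y hγ hw hy'
      rw [lev_add, hπ.2] at h1
      omega
    · refine Or.inr ?_
      have h1 := lev_X hπ' hy
      rw [lev_add, hπ.2] at h1
      refine ⟨k - t, ⟨y + endp 0 π, hy, hy', ?_⟩, ?_⟩
      · rw [lev_add, hπ.2, hl]
        have : t ≤ k := by omega
        push_cast [this]; ring
      · simp only; omega
    · exact Or.inl ⟨y, hy, hy', hl⟩
    · exfalso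
      have h1 := lev_X hπ hy
      have h2 := lev_Y hγ' hw' hy'
      rw [lev_add, hπ.2] at h2
      omega
  · rintro (⟨y, hy, hy', hl⟩ | ⟨k', ⟨y, hy, hy', hl⟩, rfl⟩)
    · exact ⟨y, (hX y).2 (Or.inr hy), (hY y).2 (Or.inl hy'), hl⟩
    · refine ⟨y - endp 0 π, (hX _).2 (Or.inl ?_), (hY _).2 (Or.inr ?_), ?_⟩
      · rwa [sub_add_cancel]
      · rwa [sub_add_cancel]
      · rw [sub_eq_add_neg, lev_add, lev_neg, hl, hπ.2]
        push_cast; ring

lemma cm_nil (u : Step d) (w : Site d) : Cm u w [] [] = ∅ := by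
  ext k
  simp [Cm, sitesL]

lemma CD_eq (u : Step d) (L : List (PB u)) (w : Lt u) :
    CD (hb (hU u) (hD u)) (dlB u) (cdB u) L w = Cm u w.1 (cat L).1 (cat L).2 := by
  induction L generalizing w with
  | nil => simp [CD, cat, cm_nil]
  | cons b L ih =>
    have h1 := blk_mem b
    have h2 := cat_mem L
    simp only [CD, cat, pm]
    rw [cm_append w.2 (pc_up h1) (pc_dn h1) (pc_up h2) (pc_dn h2), ih]
    rfl

lemma cd_far (u : Step d) (b : PB u) : {w : Lt u | cdB u w b ≠ ∅}.Finite := by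
  classical
  set S : Set (Site d) := (fun p : Site d × Site d => p.1 - p.2 - stepVec (opp u)) ''
    ({y | y ∈ sitesL (-endp 0 b.1.1) b.1.1} ×ˢ {z | z ∈ sitesL 0 b.1.2}) with hS
  have hSf : S.Finite := by
    refine Set.Finite.image _ (Set.Finite.prod ?_ ?_)
    · exact (List.finite_toSet _)
    · exact (List.finite_toSet _)
  refine Set.Finite.subset (hSf.preimage (Subtype.val_injective.injOn)) fun w hw => ?_
  obtain ⟨k, y, hy, hy', hl⟩ := Set.nonempty_iff_ne_empty.2 hw
  refine ⟨(y, y - (w.1 + stepVec (opp u))), ⟨hy, ?_⟩, ?_⟩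
  · exact (mem_sitesL_iff _ _ _).1 hy'
  · simp only; abel

lemma infinite_Lt (hd : 2 ≤ d) (u : Step d) : Infinite (Lt u) := by
  obtain ⟨j, hj⟩ : ∃ j : Fin d, j ≠ u.1 := by
    have : Nontrivial (Fin d) := Fin.nontrivial_iff_two_le.2 hd
    exact exists_ne u.1
  have h0 : ∀ z : ℤ, lev u (Pi.single j z : Site d) = 0 := fun z => by
    unfold lev
    have : (Pi.single j z : Site d) u.1 = 0 := by
      rw [Pi.single_apply, if_neg (Ne.symm hj)]
    rw [this]; simp
  refine Infinite.of_injective (fun z : ℤ => (⟨Pi.single j z, h0 z⟩ : Lt u)) ?_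
  · intro z z' h
    have := congrArg Subtype.val h
    exact Pi.single_injective j this

/-! ### the weak form of `KappaW` -/

/-- weak form of `KappaW` -/
def KappaW' (ν : Measure (Row d)) [IsProbabilityMeasure ν] (u : Step d) : Prop :=
  ∀ ε : ℝ≥0∞, ε ≠ 0 → ∃ M : ℕ, ∀ m, M ≤ m → ∃ n0 : ℕ, ∀ n, n0 ≤ n → ∀ w : Site d, lev u w = 0 →
    KW ν u n m w ≤ ε

lemma KappaW.weak {ν : Measure (Row d)} [IsProbabilityMeasure ν] {u : Step d}
    (h : KappaW ν u) : KappaW' ν u := fun ε hε => by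
  obtain ⟨M, hM⟩ := h ε hε
  exact ⟨M, fun m hm => ⟨2 * m, fun n hn w hw => hM m hm n hn w hw⟩⟩

open Classical in
lemma kap1_le (ν : Measure (Row d)) [IsProbabilityMeasure ν] (u : Step d) (n m : ℕ) (w : Lt u) :
    Kap1 (wB ν u) (hb (hU u) (hD u)) (dlB u) (cdB u) n m w ≤ KW ν u n m w.1 := by
  set F : List (Step d) × List (Step d) → ℝ≥0∞ := fun x =>
    if (∀ k ∈ Cm u w.1 x.1 x.2, m < k) ∧ ∃ k ∈ Cm u w.1 x.1 x.2, k ≤ 2 * m then 1 else 0 with hF
  have h1 : ∑' L : List (PB u), (if HT (hb (hU u) (hD u)) L = n then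
      LW (wB ν u) L * F (cat L) else 0)
      = ∑' x : PC (hU u) (hD u) n, aw ν x.1.1 * aw ν x.1.2 * F x.1 :=
    tsum_lists (h := hU u) (h' := hD u) (a₁ := aw ν) (a₂ := aw ν) (aw_nil ν) (aw_nil ν)
      (aw_up ν u) (aw_dn ν u) n F
  have h2 : Kap1 (wB ν u) (hb (hU u) (hD u)) (dlB u) (cdB u) n m w
      = ∑' L : List (PB u), (if HT (hb (hU u) (hD u)) L = n then
        LW (wB ν u) L * F (cat L) else 0) := by
    unfold Kap1
    refine tsum_congr fun L => ?_
    rw [CD_eq]
    by_cases hh : HT (hb (hU u) (hD u)) L = n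
    · by_cases hc : (∀ k ∈ Cm u w.1 (cat L).1 (cat L).2, m < k) ∧
        ∃ k ∈ Cm u w.1 (cat L).1 (cat L).2, k ≤ 2 * m
      · rw [if_pos ⟨hh, hc⟩, if_pos hh, hF]; simp only; rw [if_pos hc, mul_one]
      · rw [if_neg (fun h => hc h.2), if_pos hh, hF]; simp only; rw [if_neg hc, mul_zero]
    · rw [if_neg (fun h => hh h.1), if_neg hh]
  rw [h2, h1, KW, ← ENNReal.tsum_prod (f := fun (π γ : List (Step d)) =>
    if IsUp u n π ∧ IsDn u n γ ∧ (∀ k ∈ Cm u w.1 π γ, m < k) ∧ (∃ k ∈ Cm u w.1 π γ, k ≤ 2 * m)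
    then aw ν π * aw ν γ else 0)]
  refine le_trans (le_of_eq ?_) (ENNReal.tsum_comp_le_tsum_of_injective
    (Subtype.val_injective (p := fun x => x ∈ PC (hU u) (hD u) n)) _)
  refine tsum_congr fun x => ?_
  have hu := pc_up x.2
  have hdn := pc_dn x.2
  by_cases hc : (∀ k ∈ Cm u w.1 x.1.1 x.1.2, m < k) ∧ ∃ k ∈ Cm u w.1 x.1.1 x.1.2, k ≤ 2 * m
  · rw [if_pos ⟨hu, hdn, hc⟩, hF]; simp only; rw [if_pos hc, mul_one]
  · rw [if_neg (fun h => hc h.2.2), hF]; simp only; rw [if_neg hc, mul_zero]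

open Classical in
lemma up_sub (ν : Measure (Row d)) [IsProbabilityMeasure ν] (u : Step d) (n : ℕ) :
    ∑' π : UpW (hU u) n, aw ν π.1 = ∑' π : List (Step d), if IsUp u n π then aw ν π else 0 := by
  rw [tsum_subtype (UpW (hU u) n) (aw ν)]
  refine tsum_congr fun π => ?_
  rw [Set.indicator_apply]
  simp only [isUp_iff]

open Classical in
lemma dn_sub (ν : Measure (Row d)) [IsProbabilityMeasure ν] (u : Step d) (n : ℕ) :
    ∑' π : UpW (hD u) n, aw ν π.1 = ∑' π : List (Step d), if IsDn u n π then aw ν π else 0 := by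
  rw [tsum_subtype (UpW (hD u) n) (aw ν)]
  refine tsum_congr fun π => ?_
  rw [Set.indicator_apply]
  simp only [isDn_iff]

lemma up_le_one (ν : Measure (Row d)) [IsProbabilityMeasure ν] (u : Step d) (n : ℕ) :
    ∑' π : UpW (hU u) n, aw ν π.1 ≤ 1 :=
  pf_aw_le_one ν (fun π : UpW (hU u) n => π.1) fun i j h =>
    Subtype.ext (isUp_prefix ((isUp_iff u n _).2 i.2) ((isUp_iff u n _).2 j.2) h)

lemma dn_le_one (ν : Measure (Row d)) [IsProbabilityMeasure ν] (u : Step d) (n : ℕ) :
    ∑' π : UpW (hD u) n, aw ν π.1 ≤ 1 :=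
  pf_aw_le_one ν (fun π : UpW (hD u) n => π.1) fun i j h =>
    Subtype.ext (isDn_prefix ((isDn_iff u n _).2 i.2) ((isDn_iff u n _).2 j.2) h)

open Classical in
/-- **the contradiction.** -/
theorem false_of (hd : 2 ≤ d) (ν : Measure (Row d)) [IsProbabilityMeasure ν]
    (hν : ∀ᵐ p ∂ν, ∀ e : Step d, 0 < p.1 e) (u : Step d) (c c' : ℝ≥0∞) (hc : c ≠ 0)
    (hc' : c' ≠ 0)
    (hup : ∀ n, c ≤ ∑' π : List (Step d), if IsUp u n π then aw ν π else 0)
    (hdn : ∀ n, c' ≤ ∑' π : List (Step d), if IsDn u n π then aw ν π else 0)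
    (hK : KappaW' ν u) : False := by
  have := infinite_Lt hd u
  have hUeq : ∀ n, U (wB ν u) (hb (hU u) (hD u)) n
      = (∑' π : UpW (hU u) n, aw ν π.1) * ∑' ρ : UpW (hD u) n, aw ν ρ.1 :=
    fun n => U_eq (h := hU u) (h' := hD u) (a₁ := aw ν) (a₂ := aw ν) (aw_nil ν)
    (aw_nil ν) (aw_up ν u) (aw_dn ν u) n
  obtain ⟨w, -, hw⟩ := abs_main2 (wB ν u) (hb (hU u) (hD u)) (dlB u) (cdB u)
    one_le_hb (fun w b k hk => cm_pos (pc_up (blk_mem b)) hk) (dlB_inj u) (cd_far u) (c * c')
    (mul_ne_zero hc hc') 0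
    (fun n _ => by
      rw [hUeq, up_sub, dn_sub]
      exact mul_le_mul' (hup n) (hdn n))
    (fun n => by
      rw [hUeq]
      calc _ ≤ (1 : ℝ≥0∞) * 1 := mul_le_mul' (up_le_one ν u n) (dn_le_one ν u n)
        _ = 1 := one_mul 1)
    (fun ε hε => by
      obtain ⟨M, hM⟩ := hK ε hε
      refine ⟨M, fun m hm => ?_⟩
      obtain ⟨n0, hn0⟩ := hM m hm
      exact ⟨n0, fun n hn w => (kap1_le ν u n m w).trans (hn0 n hn w.1 w.2)⟩)
    ∅ Set.finite_empty
  have hs := surgery ν hν u w.1 w.2 (ι := {L : List (PB u) //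
      CD (hb (hU u) (hD u)) (dlB u) (cdB u) L w = ∅})
    (fun L => HT (hb (hU u) (hD u)) L.1) (fun L => (cat L.1).1) (fun L => (cat L.1).2)
    (fun L => pc_up (cat_mem L.1)) (fun L => pc_dn (cat_mem L.1))
    (fun L y hy hy' => by
      have h1 := L.2
      rw [CD_eq] at h1
      have h2 := lev_X (pc_up (cat_mem L.1)) hy
      have h3 : (-lev u y).toNat ∈ Cm u w.1 (cat L.1).1 (cat L.1).2 := by
        refine ⟨y, hy, hy', ?_⟩
        omega
      rw [h1] at h3
      exact h3)
    (fun i j h1 h2 => Subtype.ext (cat_inj (Prod.ext h1 h2)))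
  refine hs ?_
  rw [← hw]
  have h5 := tsum_subtype {L : List (PB u) | CD (hb (hU u) (hD u)) (dlB u) (cdB u) L w = ∅}
    (fun L => LW (wB ν u) L)
  have h6 : ∀ L : List (PB u), LW (wB ν u) L = aw ν (cat L).1 * aw ν (cat L).2 :=
    LW_wt (aw_nil ν) (aw_nil ν) (aw_up ν u) (aw_dn ν u)
  calc ∑' L : {L : List (PB u) // CD (hb (hU u) (hD u)) (dlB u) (cdB u) L w = ∅},
        aw ν (cat L.1).1 * aw ν (cat L.1).2
      = ∑' L : {L : List (PB u) | CD (hb (hU u) (hD u)) (dlB u) (cdB u) L w = ∅},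
        LW (wB ν u) L.1 := tsum_congr fun L => (h6 L.1).symm
    _ = _ := by
        rw [h5]
        refine tsum_congr fun L => ?_
        simp [Set.indicator_apply]

end Crest.Agent.R154.NB28
end

-- ▼ part R154/NBTop_28
section

/-! Row 154 (helper28): **`Spine.NBProp` from `KappaW'`.** -/

set_option autoImplicit false

namespace Crest.Agent.R154.NB28

open MeasureTheory ProbabilityTheory Crest.ProbabilityR.RandomEnvironment Crest.Agent.R154
open Crest.Agent.R154.B2d
open scoped ENNReal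

/-- the only open input of `Spine.NBProp`: weak `KAPPA'` in words, for iid merely elliptic laws both of
whose opposite escape events are charged. -/
def KappaAll' : Prop :=
  ∀ (d : ℕ) (_ : 3 ≤ d) (ν : Measure (Row d)) [IsProbabilityMeasure ν],
    (∀ᵐ p ∂ν, ∀ e : Step d, 0 < p.1 e) → ∀ u : Step d,
    annealed (iidEnvironmentLaw ν) 0 (escapeEvent (dirVec u)) ≠ 0 →
    annealed (iidEnvironmentLaw ν) 0 (escapeEvent (-dirVec u)) ≠ 0 → KappaW' ν u

/-- the same with `KappaW` -/
def KappaAll : Prop :=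
  ∀ (d : ℕ) (_ : 3 ≤ d) (ν : Measure (Row d)) [IsProbabilityMeasure ν],
    (∀ᵐ p ∂ν, ∀ e : Step d, 0 < p.1 e) → ∀ u : Step d,
    annealed (iidEnvironmentLaw ν) 0 (escapeEvent (dirVec u)) ≠ 0 →
    annealed (iidEnvironmentLaw ν) 0 (escapeEvent (-dirVec u)) ≠ 0 → KappaW ν u

/-- **`Spine.NBProp` from weak `KAPPA'`.** -/
theorem nb_of_kappaW' (h : KappaAll') : Spine.NBProp := by
  intro d hd ν _ hν u hA
  by_contra hB
  obtain ⟨c, hc, -, h1, h2⟩ := WM286.mass_pos ν hν u hA hB
  exact false_of (by omega) ν hν u c c hc hc h1 h2 (h d hd ν hν u hA hB)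

/-- **`Spine.NBProp` from `KAPPA'`.** -/
theorem nb_of_kappaW (h : KappaAll) : Spine.NBProp :=
  nb_of_kappaW' fun d hd ν _ hν u hA hB => (h d hd ν hν u hA hB).weak

end Crest.Agent.R154.NB28
end

-- ▼ part R154/KFin_979

/-! Row 154 (helper979): the last joint, `NB28.KappaAll`, `Spine.NBProp`, `T0219`, from
725 (`hW`), 168 (E2, E3), 139 (assembly at joint cuts), 689 (slab), 28 (top), 796. -/

set_option autoImplicit false

namespace Crest.Agent.R154.KFin979

open MeasureTheory ProbabilityTheory Crest.ProbabilityR.RandomEnvironment Crest.Agent.R154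
open Crest.Agent.R154.B5A Crest.Agent.R154.B5W
open Crest.Agent.R154.NB28 (IsUp IsDn)
open scoped ENNReal

open Classical in
theorem kappaW {d : ℕ} (hd : 2 ≤ d) (ν : Measure (Row d)) [IsProbabilityMeasure ν]
    (hν : ∀ᵐ p ∂ν, ∀ e : Step d, 0 < p.1 e) (u : Step d)
    (hA : annealed (iidEnvironmentLaw ν) 0 (escapeEvent (B2d.dirVec u)) ≠ 0)
    (hB : annealed (iidEnvironmentLaw ν) 0 (escapeEvent (-B2d.dirVec u)) ≠ 0) :
    NB28.KappaW ν u := by
  obtain ⟨c, hc, hc1, h1, h2⟩ := WM286.mass_pos ν hν u hA hB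
  have hA1 : ∀ n, (∑' l : List (Step d), if IsUp u n l then NB28.aw ν l else 0) ≤ 1 := fun n =>
    sum_if_le_one ν fun l l' h h' hp => NB28.isUp_prefix h h' hp
  have hB1 : ∀ n, (∑' l : List (Step d), if IsDn u n l then NB28.aw ν l else 0) ≤ 1 := fun n =>
    sum_if_le_one ν fun l l' h h' hp => NB28.isDn_prefix h h' hp
  have hU : ∀ n, c * c ≤ U (Lam ν u) (ht u) n := fun n => by
    rw [U_eq28]; exact mul_le_mul' (h1 n) (h2 n)
  have hU1 : ∀ n, U (Lam ν u) (ht u) n ≤ 1 := fun n => by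
    rw [U_eq28]; exact mul_le_one' (hA1 n) (hB1 n)
  have hus : ∀ δ : ℝ≥0∞, δ ≠ 0 → ∃ s, E23168.uc ν u s ≤ δ := fun δ hδ =>
    ((ENNReal.tendsto_nhds_zero.1 (E23168.uc_tendsto ν u)) δ (pos_iff_ne_zero.2 hδ)).exists
  have hW := HW725.hW_of ν u (us := E23168.uc ν u) (C := 4) (c := c) (by norm_num) hus
    (E23168.e2c ν u) (E23168.e3c ν u) hc h1 h2 hA1 hB1
  have key := JAsm139.kap1_of (Lam ν u) (ht u) (dl u) (cd u) one_le_hb
    (fun w b k hk => hcd u w b k hk) (hinj u) (c * c) (mul_ne_zero hc hc) hU hU1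
    (c * c) (mul_ne_zero hc hc) (mul_le_one' hc1 hc1) hW (HSl689.hSl' hd ν hν u hA hB)
  intro ε hε
  obtain ⟨M, hM⟩ := key ε hε
  refine ⟨M, fun m hm n hn w hw => ?_⟩
  exact (le_of_eq (Kap1_eq ν u n m (⟨w, hw⟩ : Lat u)).symm).trans (hM m hm n hn ⟨w, hw⟩)

theorem kappaAll : NB28.KappaAll := fun d hd ν _ hν u hA hB =>
  kappaW (by omega) ν hν u hA hB

theorem nbProp : Spine.NBProp := NB28.nb_of_kappaW kappaAll

theorem t0219 : Spine.T0219 := Split796.t0219 nbProp

end Crest.Agent.R154.KFin979
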