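import Crest.Agent.R154.RatioB_872

/-! Row 154, B8, step (R): the field `R` of 402's `Comp.Proc` from the field `W`, the lower bound
`p` for the annealed natural climbs and the small pair energy (B6). -/

set_option autoImplicit false
set_option linter.unusedSectionVars false
set_option linter.deprecated false

namespace Crest.Agent.R154.RatioR872

open MeasureTheory ProbabilityTheory Set Filter
open scoped ENNReal

namespace KerSys

variable {S : Type*} [Countable S] {Ω : Type*} {m0 : MeasurableSpace Ω} {P : Measure Ω}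

/-- number of attempts -/
lemma exists_T {p : ℝ≥0∞} (hp0 : p ≠ 0) {δ : ℝ≥0∞} (hδ : δ ≠ 0) :
    ∃ T : ℕ, 0 < T ∧ (1 - p / 2) ^ T ≤ δ := by
  have hlt : 1 - p / 2 < 1 := by
    refine ENNReal.sub_lt_self ENNReal.one_ne_top one_ne_zero ?_
    simp [hp0]
  have h := ENNReal.tendsto_pow_atTop_nhds_zero_of_lt_one hlt
  have h2 : ∀ᶠ n : ℕ in atTop, (1 - p / 2) ^ n < δ := (tendsto_order.1 h).2 δ (pos_iff_ne_zero.2 hδ)
  obtain ⟨T, hT⟩ := (h2.and (eventually_gt_atTop 0)).exists
  exact ⟨T, hT.2, hT.1.le⟩



end KerSys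

end Crest.Agent.R154.RatioR872
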