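import Crest.Agent.R154.Resamp_9

/-!
# Row 154, helper9: the variance telescope of the quenched law, real form

* `E1 p h = ∑' y, (p y).toReal * h y` : expectation of a bounded real function under a sub-law;
* `cndR ν S f` : pointwise conditional expectation on the rows of `S` (bounded real functions, iid law);
* `Chain` : `p (k+1) = p k K k`, `p k` reads the rows of `S k`; `m k = E1 (p k) (v k)`, `v k` reads
  the rows of `S k`, `D k y = E1 (K k y) (v (k+1)) - v k y`;
* `telescope` : `∫ (m n - c)² ≤ ∑_k [ ∫ (E1 (p k) (D k))² + 4 ∫ E1 (p k) |cndR (S k) (D k ·)| ]` for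
  `m 0 = c`; `sq_pair` : `(E1 p D)² = E1 p (E1 p (D y D y'))`;
* `exitChain` : the chain of the exit kernels of increasing sets.
-/

set_option autoImplicit false
set_option linter.unusedVariables false
set_option linter.unusedSectionVars false

namespace Crest.Agent.R154.Resamp9

open MeasureTheory ProbabilityTheory Crest.ProbabilityR.RandomEnvironment Crest.Agent.R154
open Crest.Agent.R154.ExK9
open scoped ENNReal

variable {d : ℕ}

/-! ### bounded functions under a sub-law -/

section E1
variable {ι : Type*} [Countable ι]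

/-- expectation under a sub-law -/
noncomputable def E1 (p : ι → ℝ≥0∞) (h : ι → ℝ) : ℝ := ∑' y, (p y).toReal * h y

lemma summable_p {p : ι → ℝ≥0∞} (hp : ∑' y, p y ≤ 1) : Summable fun y => (p y).toReal :=
  ENNReal.summable_toReal (ne_top_of_le_ne_top ENNReal.one_ne_top hp)

lemma tsum_p_le {p : ι → ℝ≥0∞} (hp : ∑' y, p y ≤ 1) : ∑' y, (p y).toReal ≤ 1 := by
  have h0 : ∀ y, p y ≠ ∞ := fun y => ne_top_of_le_ne_top ENNReal.one_ne_top
    ((ENNReal.le_tsum y).trans hp)
  rw [← ENNReal.tsum_toReal_eq h0]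
  exact ENNReal.toReal_mono ENNReal.one_ne_top hp

lemma summable_E1 {p : ι → ℝ≥0∞} (hp : ∑' y, p y ≤ 1) {h : ι → ℝ} {C : ℝ} (hC : ∀ y, |h y| ≤ C) :
    Summable fun y => (p y).toReal * h y := by
  refine Summable.of_norm_bounded ((summable_p hp).mul_right C) fun y => ?_
  rw [Real.norm_eq_abs, abs_mul, abs_of_nonneg ENNReal.toReal_nonneg]
  exact mul_le_mul_of_nonneg_left (hC y) ENNReal.toReal_nonneg

lemma abs_E1_le {p : ι → ℝ≥0∞} (hp : ∑' y, p y ≤ 1) {h : ι → ℝ} {C : ℝ} (hC0 : 0 ≤ C)
    (hC : ∀ y, |h y| ≤ C) : |E1 p h| ≤ C := by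
  unfold E1
  have h1 : Summable fun y => ‖(p y).toReal * h y‖ := (summable_E1 hp hC).norm
  calc |∑' y, (p y).toReal * h y| ≤ ∑' y, ‖(p y).toReal * h y‖ := norm_tsum_le_tsum_norm h1
    _ ≤ ∑' y, (p y).toReal * C := by
        refine Summable.tsum_le_tsum (fun y => ?_) h1 ((summable_p hp).mul_right C)
        rw [Real.norm_eq_abs, abs_mul, abs_of_nonneg ENNReal.toReal_nonneg]
        exact mul_le_mul_of_nonneg_left (hC y) ENNReal.toReal_nonneg
    _ = (∑' y, (p y).toReal) * C := tsum_mul_right
    _ ≤ 1 * C := mul_le_mul_of_nonneg_right (tsum_p_le hp) hC0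
    _ = C := one_mul C







lemma E1_nonneg {p : ι → ℝ≥0∞} {h : ι → ℝ} (h0 : ∀ y, 0 ≤ h y) : 0 ≤ E1 p h :=
  tsum_nonneg fun y => mul_nonneg ENNReal.toReal_nonneg (h0 y)




end E1

/-! ### real conditional expectation -/

section cndR
variable (ν : Measure (Row d)) [IsProbabilityMeasure ν]

lemma intg {Q : Measure (Environment d)} [IsFiniteMeasure Q] {f : Environment d → ℝ}
    (hf : Measurable f) {C : ℝ} (hC : ∀ ω, |f ω| ≤ C) : Integrable f Q :=
  Integrable.of_bound (C := C) hf.aestronglyMeasurable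
    (Filter.Eventually.of_forall fun ω => by rw [Real.norm_eq_abs]; exact hC ω)


/-- **pointwise conditional expectation on the rows of `S`**, real form -/
noncomputable def cndR (S : Set (Site d)) (f : Environment d → ℝ) (ω : Environment d) : ℝ :=
  ∫ ω', f (glue S ω ω') ∂(iidEnvironmentLaw ν)

variable {ν}

lemma meas_cndR (S : Set (Site d)) {f : Environment d → ℝ} (hf : Measurable f) :
    Measurable (cndR ν S f) := by
  have h : StronglyMeasurable (fun p : Environment d × Environment d => f (glue S p.1 p.2)) :=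
    (hf.comp (measurable_glue S)).stronglyMeasurable
  exact h.integral_prod_right.measurable


lemma abs_cndR_le (S : Set (Site d)) {f : Environment d → ℝ} {C : ℝ} (hC : ∀ ω, |f ω| ≤ C)
    (ω : Environment d) : |cndR ν S f ω| ≤ C := by
  have h := norm_integral_le_of_norm_le_const (μ := iidEnvironmentLaw ν)
    (f := fun ω' => f (glue S ω ω')) (C := C)
    (Filter.Eventually.of_forall fun ω' => by rw [Real.norm_eq_abs]; exact hC _)
  unfold cndR
  rw [← Real.norm_eq_abs]
  simpa using h











/-- the two forms agree -/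
theorem cndR_toReal (S : Set (Site d)) {f : Environment d → ℝ≥0∞} (hf : Measurable f)
    (h1 : ∀ ω, f ω ≤ 1) (ω : Environment d) :
    cndR ν S (fun ω => (f ω).toReal) ω = (cnd ν S f ω).toReal := by
  unfold cndR cnd
  exact integral_toReal (hf.comp (measurable_glue_right S ω)).aemeasurable
    (Filter.Eventually.of_forall fun ω' => lt_of_le_of_lt (h1 _) ENNReal.one_lt_top)

/-- expectation under a random sub-law -/
lemma meas_E1 {p : Environment d → Site d → ℝ≥0∞} {h : Environment d → Site d → ℝ}
    (hp : ∀ y, Measurable fun ω => p ω y) (hh : ∀ y, Measurable fun ω => h ω y) :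
    Measurable fun ω => E1 (p ω) (h ω) :=
  Measurable.tsum fun y => ((hp y).ennreal_toReal).mul (hh y)


end cndR

/-! ### chains of kernels and the variance telescope -/

/-- a chain of random kernels, `p k` = quenched law at time `k`, `v k` = test functions -/
structure Chain (n : ℕ) (S : ℕ → Set (Site d)) (p : ℕ → Environment d → Site d → ℝ≥0∞)
    (K : ℕ → Environment d → Site d → Site d → ℝ≥0∞) (v : ℕ → Environment d → Site d → ℝ) :
    Prop where
  pm : ∀ k y, Measurable fun ω => p k ω y
  pl : ∀ k y, Q561.LocOn (S k) fun ω => p k ω y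
  p1 : ∀ k ω, ∑' y, p k ω y ≤ 1
  Km : ∀ k y z, Measurable fun ω => K k ω y z
  K1 : ∀ k ω y, ∑' z, K k ω y z ≤ 1
  push : ∀ k < n, ∀ ω z, p (k + 1) ω z = ∑' y, p k ω y * K k ω y z
  vm : ∀ k y, Measurable fun ω => v k ω y
  vl : ∀ k y, Q561.LocOn (S k) fun ω => v k ω y
  v1 : ∀ k ω y, |v k ω y| ≤ 1

section tele
variable {ν : Measure (Row d)} [IsProbabilityMeasure ν] {n : ℕ} {S : ℕ → Set (Site d)}
  {p : ℕ → Environment d → Site d → ℝ≥0∞}
  {K : ℕ → Environment d → Site d → Site d → ℝ≥0∞} {v : ℕ → Environment d → Site d → ℝ}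


/-- the increment from `y` -/
noncomputable def DD (K : ℕ → Environment d → Site d → Site d → ℝ≥0∞)
    (v : ℕ → Environment d → Site d → ℝ) (k : ℕ) (ω : Environment d) (y : Site d) : ℝ :=
  E1 (K k ω y) (v (k + 1) ω) - v k ω y

variable (h : Chain n S p K v)
include h













end tele

/-! ### the exit chain -/



end Crest.Agent.R154.Resamp9
namespace Crest.Agent.R154.Resamp9.Chain
end Crest.Agent.R154.Resamp9.Chain
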