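import Crest.Agent.R154.Perc_272
import Crest.Agent.R154.KerPair_872
import Crest.Agent.R154.WindowK_299

-- ▼ part R154/TileD2A_980
section

/-! Row 154, `d = 2` (helper980): lifetime of the cluster of good boxes, abstract part.
The first climb of an attempt succeeds into some cell `j ∈ I` of layer `1` (`St j`); `bad k l` =
the box (layer `k ≥ 1`, cell `l`) is bad; children of the good wet cell `l` are `l` and `l + 1`. -/

set_option autoImplicit false
set_option linter.unusedSectionVars false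
set_option linter.deprecated false

namespace Crest.Agent.R154.TileD2

open MeasureTheory Set
open scoped ENNReal NNReal

variable {Ω : Type*}

/-- wet cells (relative to `j0`) of layer `1 + s` from the source `(1, j0)`. -/
def wt (bad : ℕ → ℤ → Set Ω) (j0 : ℤ) (s : ℕ) (ω : Ω) : Set ℤ :=
  Perc272.W (fun k l ω => ω ∈ bad (1 + k) (j0 + l)) 1 s ω

lemma wt_zero (bad : ℕ → ℤ → Set Ω) (j0 : ℤ) (ω : Ω) : wt bad j0 0 ω = {0} := by
  ext x
  simp only [wt, Perc272.W, Perc272.wet, mem_Ico, mem_singleton_iff]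
  push_cast
  omega

lemma mem_wt_succ (bad : ℕ → ℤ → Set Ω) (j0 : ℤ) (s : ℕ) (ω : Ω) (x : ℤ) :
    x ∈ wt bad j0 (s + 1) ω ↔ (x ∈ wt bad j0 s ω ∧ ω ∉ bad (1 + s) (j0 + x)) ∨
      (x - 1 ∈ wt bad j0 s ω ∧ ω ∉ bad (1 + s) (j0 + (x - 1))) := by
  rfl


/-- some source is alive at layer `1 + s`. -/
def alive (I : Finset ℤ) (St : ℤ → Set Ω) (bad : ℕ → ℤ → Set Ω) (s : ℕ) : Set Ω :=
  {ω | ∃ j ∈ I, ω ∈ St j ∧ (wt bad j s ω).Nonempty}


lemma alive_zero (I : Finset ℤ) (St : ℤ → Set Ω) (bad : ℕ → ℤ → Set Ω) :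
    alive I St bad 0 = ⋃ j ∈ I, St j := by
  ext ω
  simp only [alive, mem_setOf_eq, wt_zero, singleton_nonempty, and_true, mem_iUnion, exists_prop]

open Classical in
/-- lifetime -/
noncomputable def tau (I : Finset ℤ) (St : ℤ → Set Ω) (bad : ℕ → ℤ → Set Ω) (ω : Ω) : ℕ∞ :=
  if h : ∃ s, ω ∉ alive I St bad s then ((1 + Nat.find h : ℕ) : ℕ∞) else ⊤

lemma one_le_tau (I : Finset ℤ) (St : ℤ → Set Ω) (bad : ℕ → ℤ → Set Ω) (ω : Ω) :
    1 ≤ tau I St bad ω := by
  unfold tau
  split_ifs with h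
  · exact_mod_cast Nat.le_add_right 1 _
  · exact le_top

open Classical in
lemma alive_of_lt_tau {I : Finset ℤ} {St : ℤ → Set Ω} {bad : ℕ → ℤ → Set Ω} {ω : Ω} {s : ℕ}
    (h : ((1 + s : ℕ) : ℕ∞) < tau I St bad ω) : ω ∈ alive I St bad s := by
  by_contra hcon
  have hex : ∃ s, ω ∉ alive I St bad s := ⟨s, hcon⟩
  rw [tau, dif_pos hex] at h
  have h1 : 1 + s < 1 + Nat.find hex := by exact_mod_cast h
  exact Nat.find_min hex (show s < Nat.find hex by omega) hcon

open Classical in
lemma tau_eq_succ_iff {I : Finset ℤ} {St : ℤ → Set Ω} {bad : ℕ → ℤ → Set Ω} {ω : Ω} {s : ℕ} :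
    tau I St bad ω = ((s + 1 : ℕ) : ℕ∞) ↔
      ω ∉ alive I St bad s ∧ ∀ k < s, ω ∈ alive I St bad k := by
  constructor
  · intro h
    by_cases hex : ∃ s, ω ∉ alive I St bad s
    · rw [tau, dif_pos hex] at h
      have h1 : 1 + Nat.find hex = s + 1 := by exact_mod_cast h
      have h2 : Nat.find hex = s := by omega
      exact ⟨h2 ▸ Nat.find_spec hex, fun k hk => by
        by_contra hcon
        exact Nat.find_min hex (show k < Nat.find hex by omega) hcon⟩
    · rw [tau, dif_neg hex] at h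
      exact absurd h.symm (ENat.natCast_ne_top _)
  · rintro ⟨h1, h2⟩
    have hex : ∃ s, ω ∉ alive I St bad s := ⟨s, h1⟩
    rw [tau, dif_pos hex]
    have h3 : Nat.find hex = s := by
      rw [Nat.find_eq_iff]
      exact ⟨h1, fun k hk hcon => hcon (h2 k hk)⟩
    rw [h3, Nat.add_comm]

lemma tau_ne_zero {I : Finset ℤ} {St : ℤ → Set Ω} {bad : ℕ → ℤ → Set Ω} {ω : Ω} :
    tau I St bad ω ≠ ((0 : ℕ) : ℕ∞) := by
  intro h
  have := one_le_tau I St bad ω
  rw [h] at this
  exact absurd this (by norm_num)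

/-! ### measurability -/

lemma meas_wt (F : ℕ → MeasurableSpace Ω) (hmono : Monotone F) (bad : ℕ → ℤ → Set Ω)
    (hbad : ∀ k l, 1 ≤ k → MeasurableSet[F (k + 1)] (bad k l)) (j0 : ℤ) (s : ℕ) :
    ∀ x : ℤ, MeasurableSet[F (s + 1)] {ω | x ∈ wt bad j0 s ω} := by
  induction s with
  | zero =>
    intro x
    simp only [wt_zero, mem_singleton_iff]
    exact @MeasurableSet.const _ (F 1) _
  | succ s ih =>
    intro x
    have hle : F (s + 1) ≤ F (s + 1 + 1) := hmono (Nat.le_succ _)
    have e : {ω | x ∈ wt bad j0 (s + 1) ω} =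
        ({ω | x ∈ wt bad j0 s ω} ∩ (bad (1 + s) (j0 + x))ᶜ) ∪
          ({ω | x - 1 ∈ wt bad j0 s ω} ∩ (bad (1 + s) (j0 + (x - 1)))ᶜ) := by
      ext ω
      simp only [mem_setOf_eq, mem_wt_succ, mem_union, mem_inter_iff, mem_compl_iff]
    rw [e]
    have hb : ∀ l, MeasurableSet[F (s + 1 + 1)] (bad (1 + s) l) := by
      intro l
      have := hbad (1 + s) l (by omega)
      rwa [Nat.add_comm 1 s] at this ⊢
    refine MeasurableSet.union ?_ ?_
    · exact MeasurableSet.inter (hle _ (ih x)) (hb _).compl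
    · exact MeasurableSet.inter (hle _ (ih (x - 1))) (hb _).compl

lemma meas_alive (F : ℕ → MeasurableSpace Ω) (hmono : Monotone F) (I : Finset ℤ)
    (St : ℤ → Set Ω) (hSt : ∀ j, MeasurableSet[F 1] (St j)) (bad : ℕ → ℤ → Set Ω)
    (hbad : ∀ k l, 1 ≤ k → MeasurableSet[F (k + 1)] (bad k l)) (s : ℕ) :
    MeasurableSet[F (s + 1)] (alive I St bad s) := by
  have e : alive I St bad s = ⋃ j ∈ I, (St j ∩ ⋃ x : ℤ, {ω | x ∈ wt bad j s ω}) := by
    ext ω
    simp only [alive, mem_setOf_eq, mem_iUnion, mem_inter_iff, exists_prop, Set.Nonempty]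
  rw [e]
  refine Finset.measurableSet_biUnion _ fun j _ => MeasurableSet.inter ?_ ?_
  · exact hmono (by omega : 1 ≤ s + 1) _ (hSt j)
  · exact MeasurableSet.iUnion fun x => meas_wt F hmono bad hbad j s x

/-! ### the law of the lifetime -/

theorem life {m0 : MeasurableSpace Ω} (P : Measure Ω) (F : ℕ → MeasurableSpace Ω)
    (hmono : Monotone F) (I : Finset ℤ)
    (St : ℤ → Set Ω) (hSt : ∀ j, MeasurableSet[F 1] (St j)) (bad : ℕ → ℤ → Set Ω)
    (hbad : ∀ k l, 1 ≤ k → MeasurableSet[F (k + 1)] (bad k l))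
    {q q0 θ : ℝ≥0∞} (hq0 : q ≠ 0) (hq : q ≤ ((1 / 48 : ℝ≥0) : ℝ≥0∞))
    (hstart : ∀ B, MeasurableSet[F 0] B → P (B ∩ (⋃ j ∈ I, St j)ᶜ) ≤ q0 * P B)
    (hK : ∀ B, MeasurableSet[F 0] B → ∀ K : Finset (ℕ × ℤ), (∀ p ∈ K, 1 ≤ p.1) →
      P (B ∩ {ω | ∀ p ∈ K, ω ∈ bad p.1 p.2}) ≤ P B * q ^ K.card)
    (hθ0 : q0 ≤ θ) (hθ1 : 12 * q ≤ θ) (hθ2 : (I.card : ℝ≥0∞) * (12 * q) ≤ θ ^ 2) :
    ∃ τ : Ω → ℕ∞, (∀ t : ℕ, MeasurableSet[F t] {ω | τ ω = t}) ∧ (∀ ω, 1 ≤ τ ω) ∧
      (∀ t : ℕ, 1 ≤ t → ∀ B, MeasurableSet[F 0] B → P (B ∩ {ω | τ ω = t}) ≤ θ ^ t * P B) ∧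
      (∀ ω, ∀ s : ℕ, 1 ≤ s → (s : ℕ∞) < τ ω →
        ∃ j ∈ I, ω ∈ St j ∧ (wt bad j (s - 1) ω).Nonempty) := by
  refine ⟨tau I St bad, ?_, one_le_tau I St bad, ?_, ?_⟩
  · intro t
    rcases t with _ | s
    · have : {ω | tau I St bad ω = ((0 : ℕ) : ℕ∞)} = ∅ := by
        ext ω
        simp only [mem_setOf_eq, mem_empty_iff_false, iff_false]
        exact tau_ne_zero
      rw [this]
      exact @MeasurableSet.empty _ (F 0)
    · have e : {ω | tau I St bad ω = ((s + 1 : ℕ) : ℕ∞)} =
          (alive I St bad s)ᶜ ∩ ⋂ k ∈ Finset.range s, alive I St bad k := by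
        ext ω
        simp only [mem_setOf_eq, tau_eq_succ_iff, mem_inter_iff, mem_compl_iff, mem_iInter,
          Finset.mem_range]
      rw [e]
      refine MeasurableSet.inter (meas_alive F hmono I St hSt bad hbad s).compl ?_
      refine Finset.measurableSet_biInter _ fun k hk => ?_
      exact hmono (by have := Finset.mem_range.1 hk; omega) _
        (meas_alive F hmono I St hSt bad hbad k)
  · intro t ht B hB
    obtain ⟨s, rfl⟩ : ∃ s, t = s + 1 := ⟨t - 1, by omega⟩
    rcases s with _ | s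
    · rw [zero_add, pow_one]
      refine le_trans (measure_mono ?_) ((hstart B hB).trans (mul_le_mul' hθ0 le_rfl))
      rintro ω ⟨hωB, hω⟩
      have h1 := (tau_eq_succ_iff.1 hω).1
      rw [alive_zero] at h1
      exact ⟨hωB, h1⟩
    · have hsub : B ∩ {ω | tau I St bad ω = ((s + 1 + 1 : ℕ) : ℕ∞)} ⊆
          ⋃ j ∈ I, (B ∩ {ω | (Perc272.W (fun k l ω => ω ∈ bad (1 + k) (j + l)) 1 s ω).Nonempty ∧
            Perc272.W (fun k l ω => ω ∈ bad (1 + k) (j + l)) 1 (s + 1) ω = ∅}) := by
        rintro ω ⟨hωB, hω⟩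
        obtain ⟨h1, h2⟩ := tau_eq_succ_iff.1 hω
        obtain ⟨j, hj, h3, h4⟩ := h2 s (Nat.lt_succ_self s)
        refine mem_iUnion₂.2 ⟨j, hj, hωB, h4, ?_⟩
        by_contra hne
        exact h1 ⟨j, hj, h3, nonempty_iff_ne_empty.2 hne⟩
      refine (measure_mono hsub).trans ?_
      refine (measure_biUnion_finset_le _ _).trans ?_
      have hone : ∀ j ∈ I, P (B ∩ {ω |
          (Perc272.W (fun k l ω => ω ∈ bad (1 + k) (j + l)) 1 s ω).Nonempty ∧
            Perc272.W (fun k l ω => ω ∈ bad (1 + k) (j + l)) 1 (s + 1) ω = ∅}) ≤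
          P B * (12 * q) ^ (1 + s) := by
        intro j _
        refine Perc272.dies_le P B (P B) q (fun k l ω => ω ∈ bad (1 + k) (j + l)) hq0 hq 1 s ?_
        intro K
        classical
        let f : ℕ × ℤ → ℕ × ℤ := fun p => (1 + p.1, j + p.2)
        have hf : Function.Injective f := by
          rintro ⟨a, b⟩ ⟨a', b'⟩ h
          simp only [f, Prod.mk.injEq] at h
          ext <;> simp <;> omega
        have h5 := hK B hB (K.image f) (by
          intro p hp
          obtain ⟨p', _, rfl⟩ := Finset.mem_image.1 hp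
          exact Nat.le_add_right 1 _)
        rw [Finset.card_image_of_injective _ hf] at h5
        refine le_trans (measure_mono ?_) h5
        rintro ω ⟨hωB, hω⟩
        refine ⟨hωB, ?_⟩
        intro p hp
        obtain ⟨p', hp', rfl⟩ := Finset.mem_image.1 hp
        exact hω p' hp'
      refine (Finset.sum_le_sum hone).trans ?_
      rw [Finset.sum_const, nsmul_eq_mul]
      calc (I.card : ℝ≥0∞) * (P B * (12 * q) ^ (1 + s))
          = ((I.card : ℝ≥0∞) * (12 * q)) * (12 * q) ^ s * P B := by rw [pow_add, pow_one]; ring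
        _ ≤ θ ^ 2 * θ ^ s * P B := by
            refine mul_le_mul' (mul_le_mul' hθ2 (pow_le_pow_left' hθ1 s)) le_rfl
        _ = θ ^ (s + 1 + 1) * P B := by ring
  · intro ω s hs hτ
    obtain ⟨k, rfl⟩ : ∃ k, s = 1 + k := ⟨s - 1, by omega⟩
    have h1 := alive_of_lt_tau hτ
    rwa [show 1 + k - 1 = k by omega]

/-- masses along the wet cells. -/
lemma mass_of_wet (bad : ℕ → ℤ → Set Ω) (ω : Ω) (V : ℕ → ℤ → ℝ≥0∞) (c1 c : ℝ≥0∞) (j0 : ℤ)
    (h1 : c1 ≤ V 1 j0)
    (h2 : ∀ k l, 1 ≤ k → ω ∉ bad k l → c * V k l ≤ V (k + 1) l ∧ c * V k l ≤ V (k + 1) (l + 1))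
    (s : ℕ) : ∀ x, x ∈ wt bad j0 s ω → c1 * c ^ s ≤ V (1 + s) (j0 + x) := by
  induction s with
  | zero =>
    intro x hx
    rw [wt_zero, mem_singleton_iff] at hx
    subst hx
    simpa using h1
  | succ s ih =>
    intro x hx
    rcases (mem_wt_succ bad j0 s ω x).1 hx with ⟨h3, h4⟩ | ⟨h3, h4⟩
    · have h5 := ih x h3
      have h6 := (h2 (1 + s) (j0 + x) (by omega) h4).1
      calc c1 * c ^ (s + 1) = c * (c1 * c ^ s) := by ring
        _ ≤ c * V (1 + s) (j0 + x) := mul_le_mul' le_rfl h5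
        _ ≤ V (1 + s + 1) (j0 + x) := h6
        _ = V (1 + (s + 1)) (j0 + x) := by rw [Nat.add_assoc]
    · have h5 := ih (x - 1) h3
      have h6 := (h2 (1 + s) (j0 + (x - 1)) (by omega) h4).2
      have e : j0 + (x - 1) + 1 = j0 + x := by ring
      rw [e] at h6
      calc c1 * c ^ (s + 1) = c * (c1 * c ^ s) := by ring
        _ ≤ c * V (1 + s) (j0 + (x - 1)) := mul_le_mul' le_rfl h5
        _ ≤ V (1 + s + 1) (j0 + x) := h6
        _ = V (1 + (s + 1)) (j0 + x) := by rw [Nat.add_assoc]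

end Crest.Agent.R154.TileD2
end

-- ▼ part R154/TileD2_980

/-! Row 154, `d = 2` (helper980): from good boxes (own and right cell of the next layer, from ALL
points of the cell, dips of at most one layer and lateral excursions of at most `w` allowed) to
299's `WindowK299.TileSys` on 872's kernel system `kS` (range `0`, any dimension, one lateral
coordinate `i`). -/

set_option autoImplicit false
set_option linter.unusedSectionVars false
set_option linter.deprecated false

namespace Crest.Agent.R154.TileD2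

open MeasureTheory ProbabilityTheory Set Filter Crest.ProbabilityR.RandomEnvironment
open Crest.Agent.R154.Ren263 hiding lev
open Crest.Agent.R154.Mk561 Crest.Agent.R154.Q561
open Crest.Agent.R154.Flux132 (lev lev_add lev_neg lev_zero)
open Crest.Agent.R154.RatioR872
open scoped ENNReal NNReal

variable {d : ℕ}

/-! ### first exit from a set of sites -/

/-- the walk from `y` stays in `S` before time `m` and is in `T` at time `m` -/
def HitM (S T : Set (Site d)) (y : Site d) (m : ℕ) : Set (MPath d) :=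
  {M | (∀ j < m, pos y M j ∈ S) ∧ pos y M m ∈ T}

/-- the walk from `y` goes to `T` inside `S` -/
def HitS (S T : Set (Site d)) (y : Site d) : Set (MPath d) := ⋃ m, HitM S T y m

lemma det_HitM (S T : Set (Site d)) (y : Site d) (m : ℕ) : Det m (HitM S T y m) := by
  intro s s' h
  have hp : ∀ i ≤ m, pos y s i = pos y s' i := fun i hi => pos_congr y h hi
  unfold HitM
  simp only [mem_setOf_eq]
  rw [hp m le_rfl]
  refine and_congr ?_ Iff.rfl
  refine forall_congr' fun i => forall_congr' fun hi => ?_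
  rw [hp i hi.le]

lemma meas_HitS (S T : Set (Site d)) (y : Site d) : MeasurableSet (HitS S T y) :=
  MeasurableSet.iUnion fun m => (det_HitM S T y m).measurableSet

lemma disj_HitM {S T : Set (Site d)} (hST : Disjoint S T) (y : Site d) :
    Pairwise (Function.onFun Disjoint fun m => HitM S T y m) := by
  intro m m' hne
  rw [Function.onFun, Set.disjoint_left]
  intro M h h'
  rcases lt_or_gt_of_ne hne with hlt | hlt
  · exact Set.disjoint_left.1 hST (h'.1 m hlt) h.2
  · exact Set.disjoint_left.1 hST (h.1 m' hlt) h'.2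

lemma HitM_read (S T : Set (Site d)) (y : Site d) (m : ℕ) : HitM S T y m ⊆ RdB S y m :=
  fun _ hM i hi _ => hM.1 i hi

lemma locOn_hit (κ : ℝ) {S T : Set (Site d)} (hST : Disjoint S T) (y : Site d) :
    LocOn S fun ω => mkLaw κ ω y (HitS S T y) := by
  intro ω ω' h
  have e : ∀ η : Environment d, mkLaw κ η y (HitS S T y) = ∑' m, mkLaw κ η y (HitM S T y m) :=
    fun η => measure_iUnion (disj_HitM hST y) fun m => (det_HitM S T y m).measurableSet
  simp only [e]
  refine tsum_congr fun m => ?_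
  exact mk_local_det κ h y (det_HitM S T y m) (HitM_read S T y m)

/-! ### cells and boxes -/

section box

variable (u : Step d) (i : Fin d)

/-- the cell of level `l` and lateral interval `[p, p + a)` -/
def Cell (a : ℕ) (l p : ℤ) : Set (Site d) := {y | lev u y = l ∧ p ≤ y i ∧ y i < p + a}

/-- the slanted box: levels `[l - N, l + N)`, lateral interval `[p - w, p + a + w)` around the axis
`p + dr (lev z - l)` -/
def Dom (N a w : ℕ) (dr : ℤ → ℤ) (l p : ℤ) : Set (Site d) :=
  {z | l - N ≤ lev u z ∧ lev u z < l + N ∧ p + dr (lev u z - l) - w ≤ z i ∧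
    z i < p + dr (lev u z - l) + a + w}

lemma disj_Dom_Cell (N a w : ℕ) (dr : ℤ → ℤ) (l p p' : ℤ) :
    Disjoint (Dom u i N a w dr l p) (Cell u i a (l + N) p') := by
  rw [Set.disjoint_left]
  rintro z ⟨_, h2, _⟩ ⟨h3, _⟩
  omega

variable (N a w : ℕ) (dr : ℤ → ℤ) (D : ℤ) (κ : ℝ) (c : ℝ≥0∞)

/-- **good box**: from ALL points of the cell, the own and the right cell of the next layer -/
def BoxGood (l p : ℤ) : Set (Environment d) :=
  {ω | ∀ y ∈ Cell u i a l p,
    c ≤ mkLaw κ ω y (HitS (Dom u i N a w dr l p) (Cell u i a (l + N) (p + D)) y) ∧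
    c ≤ mkLaw κ ω y (HitS (Dom u i N a w dr l p) (Cell u i a (l + N) (p + D + a)) y)}

lemma meas_hit_coord (l p p' : ℤ) (y : Site d) :
    Measurable[coordSigmaAlgebra (Dom u i N a w dr l p)]
      fun ω => mkLaw κ ω y (HitS (Dom u i N a w dr l p) (Cell u i a (l + N) p') y) :=
  measurable_coord (measurable_mk_apply κ y (meas_HitS _ _ y))
    (locOn_hit κ (disj_Dom_Cell u i N a w dr l p p') y)

lemma meas_BoxGood (l p : ℤ) :
    MeasurableSet[coordSigmaAlgebra (Dom u i N a w dr l p)] (BoxGood u i N a w dr D κ c l p) := by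
  have e : BoxGood u i N a w dr D κ c l p = ⋂ y : Site d, ⋂ _ : y ∈ Cell u i a l p,
      ({ω | c ≤ mkLaw κ ω y (HitS (Dom u i N a w dr l p) (Cell u i a (l + N) (p + D)) y)} ∩
        {ω | c ≤ mkLaw κ ω y (HitS (Dom u i N a w dr l p) (Cell u i a (l + N) (p + D + a)) y)}) := by
    ext ω
    simp only [BoxGood, mem_setOf_eq, mem_iInter, mem_inter_iff]
  rw [e]
  refine MeasurableSet.iInter fun y => MeasurableSet.iInter fun _ => MeasurableSet.inter ?_ ?_
  · exact @measurableSet_le _ _ _ _ _ (coordSigmaAlgebra (Dom u i N a w dr l p)) _ _ _ _ _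
      measurable_const (meas_hit_coord u i N a w dr κ l p (p + D) y)
  · exact @measurableSet_le _ _ _ _ _ (coordSigmaAlgebra (Dom u i N a w dr l p)) _ _ _ _ _
      measurable_const (meas_hit_coord u i N a w dr κ l p (p + D + a) y)

/-! ### chaining -/

/-- natural climb from `x` to level `b` with exit in `T` -/
def NC (x : Site d) (b : ℤ) (T : Set (Site d)) : Set (MPath d) :=
  {M | ∃ m, M ∈ ClM u 0 x b m ∧ pos x M m ∈ T}

lemma NC_subset (x : Site d) (b : ℤ) (T : Set (Site d)) : NC u x b T ⊆ ClA u 0 x b := by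
  rintro M ⟨m, hm, _⟩
  exact mem_iUnion.2 ⟨m, hm⟩

lemma NC_eq (x : Site d) (b : ℤ) (T : Set (Site d)) :
    NC u x b T = ⋃ q : ℕ × T, ClY u 0 x b q.1 q.2 := by
  ext M
  simp only [NC, ClY, mem_setOf_eq, mem_iUnion, Prod.exists, Subtype.exists, exists_prop]
  constructor
  · rintro ⟨m, h1, h2⟩
    exact ⟨m, _, h2, h1, rfl⟩
  · rintro ⟨m, y, h1, h2, h3⟩
    exact ⟨m, h2, h3 ▸ h1⟩

lemma disj_NC (x : Site d) (b : ℤ) (T : Set (Site d)) :
    Pairwise (Function.onFun Disjoint fun q : ℕ × T => ClY u 0 x b q.1 q.2) := by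
  intro q q' hne
  rw [Function.onFun, Set.disjoint_left]
  rintro M h h'
  have h1 := ClM_unique u 0 h.1 h'.1
  have h2 : (q.2 : Site d) = q'.2 := by rw [← h.2, ← h'.2, h1]
  exact hne (Prod.ext h1 (Subtype.ext h2))

lemma meas_NC (x : Site d) (b : ℤ) (T : Set (Site d)) : MeasurableSet (NC u x b T) := by
  rw [NC_eq]
  exact MeasurableSet.iUnion fun q => meas_ClY u 0 x b q.1 q.2

lemma step_mem {x : Site d} {l : ℤ} {S T T' : Set (Site d)} (N : ℕ)
    (hS : ∀ z ∈ S, lev u x ≤ lev u z ∧ lev u z < l + N) (hT' : ∀ z ∈ T', lev u z = l + N)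
    (hx : lev u x ≤ l) {m : ℕ} {y : Site d} {M : MPath d} (h : M ∈ ClY u 0 x l m y)
    (h' : Ren263.shift m M ∈ HitS S T' y) : M ∈ NC u x (l + N) T' := by
  obtain ⟨m', hm', hm''⟩ := mem_iUnion.1 h'
  obtain ⟨⟨a1, a2, a3, a4⟩, a5⟩ := h
  have hp : ∀ k, pos y (Ren263.shift m M) k = pos x M (m + k) := by
    intro k
    rw [← pos_shift x M m k, a5]
  rw [hp] at hm''
  refine ⟨m + m', ⟨hT' _ hm'', ?_, fun k _ hk => absurd hk (Nat.not_lt_zero k), ?_⟩, hm''⟩
  · intro k hk
    by_cases hkm : k < m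
    · have := a2 k hkm
      omega
    · obtain ⟨r, rfl⟩ := Nat.exists_eq_add_of_le (not_lt.1 hkm)
      have h1 := hm' r (by omega)
      rw [hp] at h1
      exact (hS _ h1).2
  · intro k _ hk
    rw [Nat.cast_zero, add_zero]
    by_cases hkm : k < m
    · have := a4 k (Nat.zero_le _) hkm.le
      rwa [Nat.cast_zero, add_zero] at this
    · obtain ⟨r, rfl⟩ := Nat.exists_eq_add_of_le (not_lt.1 hkm)
      by_cases hr : r < m'
      · have h1 := hm' r hr
        rw [hp] at h1
        exact (hS _ h1).1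
      · have : r = m' := by omega
        subst this
        rw [hT' _ hm'']
        omega

lemma step_le {x : Site d} {l : ℤ} {S T T' : Set (Site d)} (N : ℕ)
    (hS : ∀ z ∈ S, lev u x ≤ lev u z ∧ lev u z < l + N) (hT' : ∀ z ∈ T', lev u z = l + N)
    (hx : lev u x ≤ l) (ω : Environment d)
    (hc : ∀ y ∈ T, c ≤ mkLaw κ ω y (HitS S T' y)) :
    c * mkLaw κ ω x (NC u x l T) ≤ mkLaw κ ω x (NC u x (l + N) T') := by
  have h1 : (⋃ q : ℕ × T, (ClY u 0 x l q.1 q.2 ∩ Ren263.shift q.1 ⁻¹' HitS S T' q.2)) ⊆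
      NC u x (l + N) T' := by
    refine iUnion_subset fun q => ?_
    rintro M ⟨hM, hM'⟩
    exact step_mem (T := T) u N hS hT' hx hM hM'
  refine le_trans ?_ (measure_mono h1)
  rw [NC_eq, measure_iUnion (disj_NC u x l T) fun q => meas_ClY u 0 x l q.1 q.2,
    measure_iUnion, ← ENNReal.tsum_mul_left]
  · refine ENNReal.tsum_le_tsum fun q => ?_
    rw [markov_det κ ω x (det_ClY u 0 x l q.1 q.2) (meas_HitS S T' q.2)]
    rw [setLIntegral_congr_fun (meas_ClY u 0 x l q.1 q.2)
      (g := fun _ => mkLaw κ ω q.2 (HitS S T' q.2))]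
    · rw [setLIntegral_const]
      exact mul_le_mul' (hc _ q.2.2) le_rfl
    · intro M hM
      have : pos x M q.1 = q.2 := hM.2
      simp only [this]
  · intro q q' hne
    exact (disj_NC u x l T hne).mono inter_subset_left inter_subset_left
  · intro q
    exact (meas_ClY u 0 x l q.1 q.2).inter (Ren263.measurable_shift q.1 (meas_HitS S T' q.2))

/-- chaining through a good box -/
lemma box_step {x : Site d} {l p : ℤ} (hx : lev u x + N ≤ l) (ω : Environment d)
    (hω : ω ∈ BoxGood u i N a w dr D κ c l p) :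
    c * mkLaw κ ω x (NC u x l (Cell u i a l p)) ≤
        mkLaw κ ω x (NC u x (l + N) (Cell u i a (l + N) (p + D))) ∧
      c * mkLaw κ ω x (NC u x l (Cell u i a l p)) ≤
        mkLaw κ ω x (NC u x (l + N) (Cell u i a (l + N) (p + D + a))) := by
  have hS : ∀ z ∈ Dom u i N a w dr l p, lev u x ≤ lev u z ∧ lev u z < l + N := by
    rintro z ⟨h1, h2, _⟩
    exact ⟨by omega, h2⟩
  constructor
  · exact step_le u κ c N hS (fun z hz => hz.1) (by omega) ω fun y hy => (hω y hy).1
  · exact step_le u κ c N hS (fun z hz => hz.1) (by omega) ω fun y hy => (hω y hy).2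

/-! ### locality of the first climb -/

lemma locOn_NC (x : Site d) (b : ℤ) (T : Set (Site d)) :
    LocOn {z | lev u x ≤ lev u z ∧ lev u z < b} fun ω => mkLaw κ ω x (NC u x b T) := by
  intro ω ω' h
  have e : ∀ η : Environment d, mkLaw κ η x (NC u x b T)
      = ∑' q : ℕ × T, mkLaw κ η x (ClY u 0 x b q.1 q.2) := by
    intro η
    rw [NC_eq]
    exact measure_iUnion (disj_NC u x b T) fun q => meas_ClY u 0 x b q.1 q.2
  simp only [e]
  refine tsum_congr fun q => ?_
  refine mk_local_det κ (S := {z | lev u x ≤ lev u z ∧ lev u z < b}) h x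
    (det_ClY u 0 x b q.1 q.2) fun M hM j hj hf => ?_
  have := ClM_read u 0 x b q.1 hM.1 j hj hf
  simpa using this

lemma meas_NC_coord (x : Site d) (b : ℤ) (T : Set (Site d)) :
    Measurable[coordSigmaAlgebra {z | lev u x ≤ lev u z ∧ lev u z < b}]
      fun ω => mkLaw κ ω x (NC u x b T) :=
  measurable_coord (measurable_mk_apply κ x (meas_NC u x b T)) (locOn_NC u κ x b T)

end box

/-! ### independence of separated boxes -/

lemma coord_mono {S T : Set (Site d)} (h : S ⊆ T) :
    coordSigmaAlgebra S ≤ coordSigmaAlgebra T := by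
  rw [coord_eq_iSup, coord_eq_iSup]
  exact biSup_mono fun z hz => h hz

lemma sep_of_disj {S T : Set (Site d)} (h : Disjoint S T) : SepR 0 S T := by
  intro a ha b hb
  have hne : a ≠ b := fun e => Set.disjoint_left.1 h ha (e ▸ hb)
  obtain ⟨i, hi⟩ := Function.ne_iff.1 hne
  exact ⟨i, by
    rw [Nat.cast_zero]
    exact abs_pos.2 (sub_ne_zero.2 hi)⟩

variable {Q : Measure (Environment d)} [IsProbabilityMeasure Q]

open Classical in
lemma prod_sep (hR : IsFiniteRangeDependent Q 0) {ι : Type*} (D0 : Set (Site d))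
    {B : Set (Environment d)} (hB : MeasurableSet[coordSigmaAlgebra D0] B)
    (Dm : ι → Set (Site d)) (E : ι → Set (Environment d)) (K : Finset ι)
    (hE : ∀ p ∈ K, MeasurableSet[coordSigmaAlgebra (Dm p)] (E p))
    (h0 : ∀ p ∈ K, Disjoint D0 (Dm p))
    (hpp : ∀ p ∈ K, ∀ p' ∈ K, p ≠ p' → Disjoint (Dm p) (Dm p')) :
    Q (B ∩ {ω | ∀ p ∈ K, ω ∈ E p}) = Q B * ∏ p ∈ K, Q (E p) ∧
      MeasurableSet[coordSigmaAlgebra (D0 ∪ ⋃ p ∈ K, Dm p)] (B ∩ {ω | ∀ p ∈ K, ω ∈ E p}) := by
  induction K using Finset.induction_on with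
  | empty =>
    have e : B ∩ {ω : Environment d | ∀ p ∈ (∅ : Finset ι), ω ∈ E p} = B := by
      ext ω; simp
    rw [e]
    refine ⟨by simp, coord_mono subset_union_left _ hB⟩
  | insert p K hp ih =>
    obtain ⟨ih1, ih2⟩ := ih (fun p' hp' => hE p' (Finset.mem_insert_of_mem hp'))
      (fun p' hp' => h0 p' (Finset.mem_insert_of_mem hp'))
      (fun p' hp' p'' hp'' => hpp p' (Finset.mem_insert_of_mem hp') p''
        (Finset.mem_insert_of_mem hp''))
    have e : B ∩ {ω : Environment d | ∀ p' ∈ insert p K, ω ∈ E p'} =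
        (B ∩ {ω | ∀ p' ∈ K, ω ∈ E p'}) ∩ E p := by
      ext ω
      simp only [Finset.mem_insert, forall_eq_or_imp, mem_inter_iff, mem_setOf_eq]
      tauto
    have hsep : SepR 0 (D0 ∪ ⋃ p' ∈ K, Dm p') (Dm p) := by
      refine sep_of_disj ?_
      rw [Set.disjoint_union_left]
      refine ⟨h0 p (Finset.mem_insert_self _ _), ?_⟩
      rw [Set.disjoint_iUnion₂_left]
      intro p' hp'
      refine hpp p' (Finset.mem_insert_of_mem hp') p (Finset.mem_insert_self _ _) ?_
      rintro rfl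
      exact hp hp'
    have hEp := hE p (Finset.mem_insert_self _ _)
    constructor
    · rw [e, Finset.prod_insert hp]
      rw [(Indep_iff _ _ Q).1 (indep_sep hR hsep) _ _ ih2 hEp, ih1]
      ring
    · rw [e]
      refine MeasurableSet.inter (coord_mono ?_ _ ih2) (coord_mono ?_ _ hEp)
      · refine union_subset_union_right _ (iUnion₂_subset fun p' hp' => ?_)
        exact subset_iUnion₂_of_subset p' (Finset.mem_insert_of_mem hp') subset_rfl
      · refine subset_union_of_subset_right ?_ _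
        exact subset_iUnion₂_of_subset p (Finset.mem_insert_self _ _) subset_rfl

/-- **K-set bound by residue classes** -/
theorem kset (hR : IsFiniteRangeDependent Q 0) {ι κι : Type*} [DecidableEq κι] (D0 : Set (Site d))
    {B : Set (Environment d)} (hB : MeasurableSet[coordSigmaAlgebra D0] B)
    (Dm : ι → Set (Site d)) (E : ι → Set (Environment d)) (K : Finset ι)
    (hE : ∀ p ∈ K, MeasurableSet[coordSigmaAlgebra (Dm p)] (E p))
    (h0 : ∀ p ∈ K, Disjoint D0 (Dm p)) (t : Finset κι) (cl : ι → κι) (hcl : ∀ p ∈ K, cl p ∈ t)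
    (hpp : ∀ p ∈ K, ∀ p' ∈ K, p ≠ p' → cl p = cl p' → Disjoint (Dm p) (Dm p'))
    {q : ℝ≥0∞} (hq : q ≤ 1) (hEq : ∀ p ∈ K, Q (E p) ≤ q ^ t.card) :
    Q (B ∩ {ω | ∀ p ∈ K, ω ∈ E p}) ≤ Q B * q ^ K.card := by
  classical
  rcases K.eq_empty_or_nonempty with rfl | hne
  · simp
  obtain ⟨b, hb, hcard⟩ : ∃ b ∈ t, K.card ≤ t.card * (K.filter fun p => cl p = b).card := by
    by_contra hcon
    push Not at hcon
    have hpos : 0 < K.card := hne.card_pos
    have ht : 0 < t.card := Finset.card_pos.2 ⟨_, hcl _ hne.choose_spec⟩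
    have h1 := Finset.card_le_mul_card_image_of_maps_to hcl ((K.card - 1) / t.card) (by
      intro b hb
      rw [Nat.le_div_iff_mul_le ht]
      have := hcon b hb
      rw [Nat.mul_comm]
      omega)
    have h2 := Nat.div_mul_le_self (K.card - 1) t.card
    omega
  set K' := K.filter fun p => cl p = b with hK'
  have hsub : K' ⊆ K := Finset.filter_subset _ _
  have h1 := (prod_sep hR D0 hB Dm E K' (fun p hp => hE p (hsub hp)) (fun p hp => h0 p (hsub hp))
    (fun p hp p' hp' hne => hpp p (hsub hp) p' (hsub hp') hne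
      ((Finset.mem_filter.1 hp).2.trans (Finset.mem_filter.1 hp').2.symm))).1
  calc Q (B ∩ {ω | ∀ p ∈ K, ω ∈ E p})
      ≤ Q (B ∩ {ω | ∀ p ∈ K', ω ∈ E p}) :=
        measure_mono (inter_subset_inter_right _ fun ω hω p hp => hω p (hsub hp))
    _ = Q B * ∏ p ∈ K', Q (E p) := h1
    _ ≤ Q B * ∏ _p ∈ K', q ^ t.card :=
        mul_le_mul' le_rfl (Finset.prod_le_prod' fun p hp => hEq p (hsub hp))
    _ = Q B * q ^ (t.card * K'.card) := by rw [Finset.prod_const, ← pow_mul]
    _ ≤ Q B * q ^ K.card :=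
        mul_le_mul' le_rfl (pow_le_pow_right_of_le_one' hq hcard)

/-! ### the tile system -/

lemma N_eq (u : Step d) (κ : ℝ) (hstat : ∀ z : Site d, MeasurePreserving (shiftEnv z) Q Q)
    (hR : IsFiniteRangeDependent Q 0) {L n : ℕ} (ω : Environment d) {x : Site d}
    (hx : lev u x = L) :
    (kS u 0 κ Q hstat hR).N L n ω x = mkLaw κ ω x (ClA u 0 x (n : ℤ)) := by
  rw [← tsum_gk]
  unfold KerSys.N kS kerSys
  simp only [hx, if_true]

/-- the start is good: the natural climb of height `N` from `x` has mass `≥ c1` into one of the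
cells `-r, .., r` of the next layer. -/
def StartGood (u : Step d) (i : Fin d) (N a : ℕ) (D : ℤ) (κ : ℝ) (r : ℕ) (c1 : ℝ≥0∞)
    (x : Site d) : Set (Environment d) :=
  {ω | ∃ j ∈ Finset.Icc (-(r : ℤ)) r,
    c1 ≤ mkLaw κ ω x (NC u x (lev u x + N) (Cell u i a (lev u x + N) (x i + D + j * a)))}

theorem tileSys (u : Step d) (i : Fin d) (κ : ℝ)
    (hstat : ∀ z : Site d, MeasurePreserving (shiftEnv z) Q Q)
    (hR : IsFiniteRangeDependent Q 0) (N a w r c0 : ℕ) (dr : ℤ → ℤ) (D : ℤ)
    {c1 c q q0 θ : ℝ≥0∞} (hc : c ≤ 1) (hc0 : 1 ≤ c0) (haw : a + 2 * w ≤ c0 * a)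
    (hbox : ∀ l p : ℤ, Q (BoxGood u i N a w dr D κ c l p)ᶜ ≤ q ^ (2 * c0))
    (hst : ∀ x : Site d, 0 ≤ lev u x → Q (StartGood u i N a D κ r c1 x)ᶜ ≤ q0)
    (hq0 : q ≠ 0) (hq : q ≤ ((1 / 48 : ℝ≥0) : ℝ≥0∞)) (hθ0 : q0 ≤ θ) (hθ1 : 12 * q ≤ θ)
    (hθ2 : ((2 * r + 1 : ℕ) : ℝ≥0∞) * (12 * q) ≤ θ ^ 2) :
    WindowK299.TileSys (kS u 0 κ Q hstat hR) N c1 c θ where
  fam L x hxL := by
    have hx : lev u x = L := hxL
    have hq1 : q ≤ 1 := hq.trans (by
      rw [ENNReal.coe_le_one_iff, ← NNReal.coe_le_coe]; norm_num)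
    -- levels and lateral positions
    set bad : ℕ → ℤ → Set (Environment d) := fun s m =>
      (BoxGood u i N a w dr D κ c ((L : ℤ) + s * N) (x i + s * D + m * a))ᶜ with hbad
    set St : ℤ → Set (Environment d) := fun j => {ω | c1 ≤ mkLaw κ ω x
      (NC u x ((L : ℤ) + N) (Cell u i a ((L : ℤ) + N) (x i + D + j * a)))} with hSt
    set F : ℕ → MeasurableSpace (Environment d) := fun s => Fl u (L + s * N) with hF
    have hFs : ∀ s : ℕ, F s = coordSigmaAlgebra {z | lev u z < ((L + s * N : ℕ) : ℤ)} :=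
      fun s => rfl
    have hmono : Monotone F := fun s s' h => (Fl u).mono
      (Nat.add_le_add_left (Nat.mul_le_mul_right N h) L)
    have hStm : ∀ j, MeasurableSet[coordSigmaAlgebra {z | lev u x ≤ lev u z ∧
        lev u z < (L : ℤ) + N}] (St j) := fun j =>
      @measurableSet_le _ _ _ _ _ (coordSigmaAlgebra _) _ _ _ _ _ measurable_const
        (meas_NC_coord u κ x ((L : ℤ) + N) _)
    have hI : (⋃ j ∈ Finset.Icc (-(r : ℤ)) r, St j) = StartGood u i N a D κ r c1 x := by
      ext ω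
      simp only [mem_iUnion, exists_prop, StartGood, hSt, mem_setOf_eq, hx]
    obtain ⟨τ, h1, h2, h3, h4⟩ := life Q F hmono (Finset.Icc (-(r : ℤ)) r) St
      (fun j => coord_mono (fun z hz => by
        have := hz.2
        simp only [mem_setOf_eq] at this ⊢
        push_cast
        linarith) _ (hStm j)) bad
      (fun k l _ => by
        refine MeasurableSet.compl (coord_mono (fun z hz => ?_) _
          (meas_BoxGood u i N a w dr D κ c ((L : ℤ) + k * N) (x i + k * D + l * a)))
        have := hz.2.1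
        simp only [mem_setOf_eq] at this ⊢
        push_cast
        linarith)
      hq0 hq
      (fun B hB => by
        have hB' : MeasurableSet[coordSigmaAlgebra {z | lev u z < (L : ℤ)}] B := by
          rw [hFs 0, Nat.zero_mul, Nat.add_zero] at hB
          exact hB
        have hm : MeasurableSet[coordSigmaAlgebra {z | lev u x ≤ lev u z ∧
            lev u z < (L : ℤ) + N}] (⋃ j ∈ Finset.Icc (-(r : ℤ)) r, St j)ᶜ :=
          MeasurableSet.compl (Finset.measurableSet_biUnion _ fun j _ => hStm j)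
        have hsep : SepR 0 {z : Site d | lev u z < (L : ℤ)} {z | lev u x ≤ lev u z ∧
            lev u z < (L : ℤ) + N} := by
          refine sep_of_disj (Set.disjoint_left.2 ?_)
          rintro z hz ⟨hz', _⟩
          simp only [mem_setOf_eq] at hz
          omega
        rw [(Indep_iff _ _ Q).1 (indep_sep hR hsep) _ _ hB' hm, mul_comm]
        refine mul_le_mul' ?_ le_rfl
        rw [hI]
        exact hst x (by omega))
      (fun B hB K hK => by
        have hB' : MeasurableSet[coordSigmaAlgebra {z | lev u z < (L : ℤ)}] B := by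
          rw [hFs 0, Nat.zero_mul, Nat.add_zero] at hB
          exact hB
        have hc0' : (1 : ℤ) ≤ c0 := by exact_mod_cast hc0
        refine kset hR {z : Site d | lev u z < (L : ℤ)} hB'
          (fun p : ℕ × ℤ => Dom u i N a w dr ((L : ℤ) + p.1 * N) (x i + p.1 * D + p.2 * a))
          (fun p => bad p.1 p.2) K (fun p _ => MeasurableSet.compl
            (meas_BoxGood u i N a w dr D κ c _ _)) (fun p hp => ?_)
          (Finset.range 2 ×ˢ Finset.range c0)
          (fun p => (p.1 % 2, (p.2 % (c0 : ℤ)).toNat)) (fun p _ => ?_) (fun p hp p' hp' hne he => ?_)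
          hq1 (fun p _ => ?_)
        · refine Set.disjoint_left.2 ?_
          rintro z hz ⟨hz', _⟩
          simp only [mem_setOf_eq] at hz
          have h5 := hK p hp
          have h6 : (1 : ℤ) * N ≤ p.1 * N :=
            mul_le_mul_of_nonneg_right (by exact_mod_cast h5) (Nat.cast_nonneg N)
          linarith
        · rw [Finset.mem_product, Finset.mem_range, Finset.mem_range]
          refine ⟨Nat.mod_lt _ (by norm_num), ?_⟩
          have h5 := Int.emod_lt_of_pos p.2 (show (0 : ℤ) < c0 by omega)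
          have h6 := Int.emod_nonneg p.2 (show (c0 : ℤ) ≠ 0 by omega)
          simp only
          omega
        · refine Set.disjoint_left.2 ?_
          rintro z ⟨z1, z2, z3, z4⟩ ⟨z5, z6, z7, z8⟩
          simp only [Prod.mk.injEq] at he
          obtain ⟨he1, he2⟩ := he
          have hN : (0 : ℤ) ≤ N := Nat.cast_nonneg N
          rcases lt_trichotomy p.1 p'.1 with hlt | heq | hlt
          · have h5 : ((p.1 : ℤ) + 2) * N ≤ p'.1 * N :=
              mul_le_mul_of_nonneg_right (by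
                have : p.1 + 2 ≤ p'.1 := by omega
                exact_mod_cast this) hN
            linarith
          · have h5 : p.2 ≠ p'.2 := fun h => hne (Prod.ext heq h)
            rw [← heq] at z7 z8
            have h6 := Int.emod_nonneg p.2 (show (c0 : ℤ) ≠ 0 by omega)
            have h7 := Int.emod_nonneg p'.2 (show (c0 : ℤ) ≠ 0 by omega)
            have h8 : p.2 % (c0 : ℤ) = p'.2 % (c0 : ℤ) := by omega
            have h9 : (c0 : ℤ) ∣ p.2 - p'.2 :=
              Int.ModEq.dvd (show p'.2 ≡ p.2 [ZMOD (c0 : ℤ)] from h8.symm)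
            have h10 : (c0 : ℤ) ≤ |p.2 - p'.2| :=
              Int.le_of_dvd (abs_pos.2 (sub_ne_zero.2 h5)) ((dvd_abs _ _).2 h9)
            have h11 : (c0 : ℤ) * a ≤ |p.2 - p'.2| * a :=
              mul_le_mul_of_nonneg_right h10 (Nat.cast_nonneg a)
            have h12 : (a : ℤ) + 2 * w ≤ c0 * a := by exact_mod_cast haw
            rcases abs_cases (p.2 - p'.2) with ⟨h13, _⟩ | ⟨h13, _⟩
            · rw [h13, sub_mul] at h11
              linarith
            · rw [h13, neg_mul, sub_mul] at h11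
              linarith
          · have h5 : ((p'.1 : ℤ) + 2) * N ≤ p.1 * N :=
              mul_le_mul_of_nonneg_right (by
                have : p'.1 + 2 ≤ p.1 := by omega
                exact_mod_cast this) hN
            linarith
        · rw [Finset.card_product, Finset.card_range, Finset.card_range]
          exact hbox _ _)
      hθ0 hθ1 (by
        have : (Finset.Icc (-(r : ℤ)) r).card = 2 * r + 1 := by
          rw [Int.card_Icc]; omega
        rw [this]
        exact hθ2)
    refine ⟨τ, h1, h2, fun t ht B hB => h3 t ht B (by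
      have e : F 0 = Fl u L := by simp only [hF, Nat.zero_mul, Nat.add_zero]
      rw [e]; exact hB), Filter.Eventually.of_forall fun ω s hs hτ => ?_⟩
    obtain ⟨j, _, hj, y, hy⟩ := h4 ω s hs hτ
    rw [N_eq u κ hstat hR ω hx]
    have h5 := mass_of_wet bad ω (fun s m => mkLaw κ ω x (NC u x ((L : ℤ) + s * N)
      (Cell u i a ((L : ℤ) + s * N) (x i + s * D + m * a)))) c1 c j (by
        have : c1 ≤ mkLaw κ ω x
          (NC u x ((L : ℤ) + N) (Cell u i a ((L : ℤ) + N) (x i + D + j * a))) := hj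
        simpa using this) (fun k m hk hω => by
        have hω' : ω ∈ BoxGood u i N a w dr D κ c ((L : ℤ) + k * N) (x i + k * D + m * a) := by
          by_contra hcon
          exact hω hcon
        have hlev : lev u x + N ≤ (L : ℤ) + k * N := by
          have : (1 : ℤ) * N ≤ k * N :=
            mul_le_mul_of_nonneg_right (by exact_mod_cast hk) (Nat.cast_nonneg N)
          linarith
        have h6 := box_step u i N a w dr D κ c hlev ω hω'
        have e1 : (L : ℤ) + ((k + 1 : ℕ) : ℤ) * N = (L : ℤ) + k * N + N := by push_cast; ring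
        have e2 : x i + ((k + 1 : ℕ) : ℤ) * D + m * a = x i + k * D + m * a + D := by
          push_cast; ring
        have e3 : x i + ((k + 1 : ℕ) : ℤ) * D + (m + 1) * a = x i + k * D + m * a + D + a := by
          push_cast; ring
        rw [e1, e2, e3]
        exact h6) (s - 1) y hy
    have h6 : 1 + (s - 1) = s := by omega
    rw [h6] at h5
    calc c1 * c ^ s ≤ c1 * c ^ (s - 1) :=
          mul_le_mul' le_rfl (pow_le_pow_right_of_le_one' hc (Nat.sub_le s 1))
      _ ≤ _ := h5
      _ ≤ mkLaw κ ω x (ClA u 0 x ((L + s * N : ℕ) : ℤ)) := by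
          have e : ((L + s * N : ℕ) : ℤ) = (L : ℤ) + s * N := by push_cast; ring
          rw [e]
          exact measure_mono (NC_subset u x _ _)

end Crest.Agent.R154.TileD2
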