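import Crest.Agent.R154.KSe_402_Mg
import Crest.Agent.R154.Row_12
import Crest.Agent.R154.D2Asm_244
import Crest.Agent.R154.ChainFL_263
import Crest.Agent.R154.HM7_299
import Crest.Agent.R154.Top2_169
import Crest.Agent.R154.HI_272_Mg
import Crest.Agent.R154.Spine2_796
import Crest.Agent.R154.HMIn_263

-- ▼ part R154/TileExp_872
section

/-! Row 154, B8, TILE, with the EXPLICIT cost `m = log (409600 / p) + log A₀` (for the dichotomy of
263 #36390 / 903 #36944): **regular tiles with no open input**, `d ≥ 3`: at every height `N` (multiple of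
`2 ^ P`) at which the right move of 437 has probability `≥ 1/(51200 A₀)` and the widths satisfy
`wl (M N) ≤ B wl N`, the natural climbs form a tile system with cost `m = m(A₀)` and rate `Λ m`. -/

set_option autoImplicit false
set_option linter.unusedSectionVars false
set_option linter.deprecated false
set_option linter.unusedVariables false

namespace Crest.Agent.R154.TileExp872

open MeasureTheory ProbabilityTheory Set Filter Crest.ProbabilityR.RandomEnvironment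
open Crest.Agent.R154.Mk561 Crest.Agent.R154.Q561
open Crest.Agent.R154.Flux132 (lev)
open Crest.Agent.R154.RatioR872 Crest.Agent.R154.Tile872 Crest.Agent.R154.KS480
open Crest.Agent.R154.TileReg872
open Crest.Agent.R154.B4Inst797 (Nat0 natLaw UU lat lp natLaw_isProb nat_ne_zero)
open Crest.Agent.R154.MobW437 (wl Sl)
open Crest.Agent.R154.WindowK299 (TileSys)
open scoped ENNReal Topology

variable {d : ℕ}
variable {Q : Measure (Environment d)} [IsProbabilityMeasure Q] {κ : ℝ} {R : ℕ}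
variable {u : Step d} {i1 i2 : Fin d}

/-- **REGULAR TILES**, no open input. Order of the constants: `A₀`, `m`, `Λ`, `(m1, M)`, `B`,
`(P, N0)`. -/
theorem tile_regular_exp (F : Bind263.Frame Q κ R) (hd : 3 ≤ d) (h1 : i1 ≠ u.1) (h2 : i2 ≠ u.1)
    (h12 : i1 ≠ i2) (hA : annealedProb Q 0 (escapeEvent (B2d.dirVec u)) ≠ 0)
    (hHalf : KB424.Half κ Q) (i : Fin 2) (A₀ : ℕ) (hA₀ : 1 ≤ A₀) :
    ∃ m : ℝ, 1 ≤ m ∧ m = Real.log (409600 / (mkAnn κ Q 0 (Nat0 u R)).toReal) + Real.log A₀ ∧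
      ∀ Λ : ℝ, ∃ (m1 : ℝ) (M : ℕ), 3 ≤ M ∧ ∀ B : ℝ, ∃ P N0 : ℕ,
      ∀ N : ℕ, N0 ≤ N → 2 ^ P ∣ N →
        Sl (lp F u h1 h2 h12 (nat_ne_zero F u hA)) i N ≤ A₀ →
        wl (lp F u h1 h2 h12 (nat_ne_zero F u hA)) i (M * N)
          ≤ B * wl (lp F u h1 h2 h12 (nat_ne_zero F u hA)) i N →
        TileSys (kS u R κ Q F.stat F.fin) N (ENNReal.ofReal (Real.exp (-m1)))
          (ENNReal.ofReal (Real.exp (-m))) (ENNReal.ofReal (Real.exp (-(Λ * m)))) := by
  have hc := nat_ne_zero F u hA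
  haveI : IsProbabilityMeasure (natLaw κ Q u R) := natLaw_isProb hc
  set L := lp F u h1 h2 h12 (nat_ne_zero F u hA) with hLdef
  set p : ℝ≥0∞ := mkAnn κ Q 0 (Nat0 u R) with hp
  have hp1 : p ≤ 1 := prob_le_one
  have hpt : p ≠ ∞ := ne_top_of_le_ne_top ENNReal.one_ne_top hp1
  have hA0r : (1 : ℝ) ≤ A₀ := by exact_mod_cast hA₀
  set g' : ℝ≥0∞ := ENNReal.ofReal (1 / (51200 * A₀)) with hg'
  have hg'0 : g' ≠ 0 := (ENNReal.ofReal_pos.2 (by positivity)).ne'
  have hg't : g' ≠ ∞ := ENNReal.ofReal_ne_top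
  set g : ℝ≥0∞ := p * g' with hg
  have hg0 : g ≠ 0 := mul_ne_zero hc hg'0
  have hg'1 : g' ≤ ENNReal.ofReal (1 / 51200) := by
    refine ENNReal.ofReal_le_ofReal (one_div_le_one_div_of_le (by norm_num) (by nlinarith))
  have hgb : g ≤ ENNReal.ofReal (1 / 51200) := by
    calc g ≤ 1 * ENNReal.ofReal (1 / 51200) := mul_le_mul' hp1 hg'1
      _ = _ := one_mul _
  have hg1 : g ≤ 1 := by
    refine hgb.trans ?_
    rw [← ENNReal.ofReal_one]
    exact ENNReal.ofReal_le_ofReal (by norm_num)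
  set γ : ℝ≥0∞ := g / 8 with hγ
  have hγ0 : γ ≠ 0 := (ENNReal.div_pos hg0 (by norm_num)).ne'
  have hγg : γ ≤ g := ENNReal.div_le_of_le_mul (by
    calc g = g * 1 := (mul_one _).symm
      _ ≤ g * 8 := by gcongr; norm_num)
  have hγ1 : γ ≤ 1 := hγg.trans hg1
  have hγt : γ ≠ ∞ := ne_top_of_le_ne_top ENNReal.one_ne_top hγ1
  set γr : ℝ := γ.toReal with hγr
  have hγrpos : 0 < γr := ENNReal.toReal_pos hγ0 hγt
  have hγrle : γr ≤ 1 / 51200 := by
    refine ENNReal.toReal_le_of_le_ofReal (by norm_num) (hγg.trans hgb)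
  set m : ℝ := -Real.log γr with hm
  have hexpm : ENNReal.ofReal (Real.exp (-m)) = γ := by
    rw [hm, neg_neg, Real.exp_log hγrpos, hγr, ENNReal.ofReal_toReal hγt]
  have hm1 : 1 ≤ m := by
    have h3 : Real.log γr ≤ Real.log (1 / 51200) := Real.log_le_log hγrpos hγrle
    have h4 : Real.log (1 / 51200) ≤ -1 := by
      rw [Real.log_le_iff_le_exp (by norm_num), Real.exp_neg, one_div]
      refine inv_anti₀ (Real.exp_pos 1) ?_
      have := Real.exp_one_lt_d9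
      linarith
    linarith
  have hp0r : 0 < p.toReal := ENNReal.toReal_pos hc hpt
  have hmeq : m = Real.log (409600 / p.toReal) + Real.log A₀ := by
    have hγreq : γr = p.toReal * (1 / (51200 * A₀)) / 8 := by
      rw [hγr, hγ, hg, hg', ENNReal.toReal_div, ENNReal.toReal_mul,
        ENNReal.toReal_ofReal (by positivity)]
      norm_num
    rw [hm, ← Real.log_mul (by positivity) (by positivity), ← Real.log_inv]
    congr 1
    rw [hγreq]
    field_simp
    try norm_num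
  refine ⟨m, hm1, hmeq, fun Λ => ?_⟩
  have hm0 : 0 < m := by linarith
  set θ : ℝ≥0∞ := ENNReal.ofReal (Real.exp (-(max Λ 0 * m))) with hθ
  have hθ0 : θ ≠ 0 := (ENNReal.ofReal_pos.2 (Real.exp_pos _)).ne'
  have hθ1 : θ ≤ 1 := by
    rw [hθ, ← ENNReal.ofReal_one]
    refine ENNReal.ofReal_le_ofReal ?_
    rw [Real.exp_le_one_iff]
    have : 0 ≤ max Λ 0 * m := mul_nonneg (le_max_right _ _) hm0.le
    linarith
  have hθt : θ ≠ ∞ := ENNReal.ofReal_ne_top
  set q : ℝ≥0∞ := θ ^ 2 / 54 with hq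
  have hq0 : q ≠ 0 := (ENNReal.div_pos (pow_ne_zero 2 hθ0) (by norm_num)).ne'
  have hq54 : 54 * q = θ ^ 2 := ENNReal.mul_div_cancel (by norm_num) (by norm_num)
  have hθsq : θ ^ 2 ≤ 1 := pow_le_one' hθ1 2
  obtain ⟨κ₁, κx, ε, hκ0, hκ1, hx0, hx1, hε0, hKS⟩ :=
    ksf_all u R κ Q F.stat F.fin (halfE u R κ Q F.fin) hg0 hg1 hq0
  obtain ⟨n0, hLate⟩ := KB424.lateHyp F hd hA hHalf
  obtain ⟨γ₀, hγ00, hγ01, N1, hreg⟩ := tileSys_reg F h1 h2 h12 hA i hLate hγ0 hγ1 hκ0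
    (ne_top_of_le_ne_top ENNReal.one_ne_top hκ1) hε0 hq0 hKS (hq54.trans_le hθsq) hθ1 (by
      calc 27 * q ≤ 54 * q := by gcongr; norm_num
        _ = θ ^ 2 := hq54)
  have hs0 : g / 2 ≠ 0 := (ENNReal.div_pos hg0 (by norm_num)).ne'
  have hs1 : g / 2 ≤ 1 := ENNReal.half_le_self.trans hg1
  obtain ⟨M, hM3, hrow⟩ := Row12.row_final F hd u h1 h2 h12 (nat_ne_zero F u hA) hA hHalf i hs0 hs1 hx0
  obtain ⟨l0, hmob⟩ := MobW437.mob L i M
  have hγ0t : γ₀ ≠ ∞ := ne_top_of_le_ne_top ENNReal.one_ne_top hγ01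
  have hγ0pos : 0 < γ₀.toReal := ENNReal.toReal_pos hγ00 hγ0t
  refine ⟨-Real.log γ₀.toReal, M, hM3, fun B => ?_⟩
  obtain ⟨P, N2, hrow2⟩ := hrow B
  refine ⟨P, N1 + N2 + l0, fun N hN hPN hS hwl => ?_⟩
  obtain ⟨hS1, hw128, c1, c2, a, g1, g2, g3, g4, g5, g6, g7⟩ := hmob N (by omega)
  have hSr : (Sl L i N : ℝ) ≤ A₀ := by exact_mod_cast hS
  have hSr1 : (1 : ℝ) ≤ Sl L i N := by exact_mod_cast hS1
  have htail := g7 M hM3 le_rfl
  have hR := hrow2 N (by omega) hPN hwl c1 c2 a g1 g3 htail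
  have hT := hreg N (by omega) c1 c2 a g' g1 le_rfl
    (fun α z hz => by
      refine (ENNReal.ofReal_le_ofReal ?_).trans (ofReal_le_of_real (g5 α z hz))
      exact one_div_le_one_div_of_le (by norm_num) (by nlinarith))
    (fun α z hz => by
      refine (ENNReal.ofReal_le_ofReal ?_).trans (ofReal_le_of_real (g6 α z hz))
      exact one_div_le_one_div_of_le (by positivity) (by nlinarith))
    hR
  refine WindowK299.TileSys.mono hT ?_ (le_of_eq hexpm) ?_
  · rw [neg_neg, Real.exp_log hγ0pos, ENNReal.ofReal_toReal hγ0t]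
  · rw [hθ]
    refine ENNReal.ofReal_le_ofReal (Real.exp_le_exp.2 ?_)
    have : Λ * m ≤ max Λ 0 * m := mul_le_mul_of_nonneg_right (le_max_left _ _) hm0.le
    linarith

end Crest.Agent.R154.TileExp872
end

-- ▼ part R154/HM7b_299
section

/-!
# (HM7), frame version: `hw_of_irr`
-/

set_option autoImplicit false
set_option linter.deprecated false
set_option linter.unusedVariables false
set_option linter.unusedSectionVars false

open MeasureTheory ENNReal Crest.ProbabilityR.RandomEnvironment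
open Crest.Agent.R154.RatioR872 Crest.Agent.R154.WindowK299
open Crest.Agent.R154.Mk561 Crest.Agent.R154.Q561
open Crest.Agent.R154.B4Inst797 (Nat0 natLaw UU lat lp natLaw_isProb nat_ne_zero)
open Crest.Agent.R154.MobW437 (wl Sl)

namespace Crest.Agent.R154.HM7299

/-- the regularity predicate of an octave -/
def regL {Ω : Type*} [MeasurableSpace Ω] {P : Measure Ω} (L : B4.LP P) (i : Fin 2) :
    ℕ → ℕ → ℝ → ℕ → Prop :=
  fun A0 M B' n => Sl L i (2 ^ n) ≤ A0 ∧ wl L i (M * 2 ^ n) ≤ B' * wl L i (2 ^ n)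

theorem sq_le_pow (n : ℕ) (hn : 4 ≤ n) : n ^ 2 ≤ 2 ^ n := by
  induction n, hn using Nat.le_induction with
  | base => norm_num
  | succ m hm ih =>
    have h3 : (m + 1) ^ 2 ≤ 2 * m ^ 2 := by nlinarith
    calc (m + 1) ^ 2 ≤ 2 * m ^ 2 := h3
      _ ≤ 2 * 2 ^ m := Nat.mul_le_mul_left 2 ih
      _ = 2 ^ (m + 1) := by ring

/-- logarithms against powers of `2` -/
theorem grow_log (c : ℝ) (C : ℝ) : ∃ A0 : ℕ, 1 ≤ A0 ∧ C ≤ c + Real.log A0 ∧
    800 * C * (c + Real.log A0) ≤ 2 ^ A0 := by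
  obtain ⟨k1, hk1⟩ := exists_nat_ge (|800 * C| * (|c| + 1))
  obtain ⟨k2, hk2⟩ := exists_nat_ge (Real.exp (C - c))
  set k : ℕ := k1 + k2 with hkdef
  have hk : |800 * C| * (|c| + 1) ≤ (k : ℝ) := hk1.trans (by exact_mod_cast (by omega : k1 ≤ k))
  refine ⟨k + 4, by omega, ?_, ?_⟩
  · have h1 : Real.exp (C - c) ≤ ((k + 4 : ℕ) : ℝ) :=
      hk2.trans (by exact_mod_cast (by omega : k2 ≤ k + 4))
    have h2 := Real.log_le_log (Real.exp_pos _) h1
    rw [Real.log_exp] at h2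
    linarith
  generalize hC' : 800 * C = C' at hk ⊢
  clear hk1
  set n : ℕ := k + 4 with hn
  have hn4 : 4 ≤ n := by omega
  have hn1 : (1 : ℝ) ≤ n := by exact_mod_cast (by omega : 1 ≤ n)
  have h1 : Real.log n ≤ n := by
    have := Real.log_le_sub_one_of_pos (show (0 : ℝ) < n by linarith)
    linarith
  have h0 : 0 ≤ Real.log n := Real.log_nonneg hn1
  have h2 : (n : ℝ) ^ 2 ≤ 2 ^ n := by
    have : n ^ 2 ≤ 2 ^ n := sq_le_pow n hn4
    exact_mod_cast this
  have hkn : |C'| * (|c| + 1) ≤ n := by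
    refine hk.trans ?_
    exact_mod_cast (by omega : k ≤ n)
  calc C' * (c + Real.log n) ≤ |C'| * |c + Real.log n| := by
        rw [← abs_mul]; exact le_abs_self _
    _ ≤ |C'| * (|c| + n) := by
        gcongr
        calc |c + Real.log n| ≤ |c| + |Real.log n| := abs_add_le _ _
          _ ≤ |c| + n := by rw [abs_of_nonneg h0]; linarith
    _ ≤ |C'| * ((|c| + 1) * n) := by
        gcongr
        have : 0 ≤ |c| := abs_nonneg c
        nlinarith
    _ = (|C'| * (|c| + 1)) * n := by ring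
    _ ≤ n * n := by gcongr
    _ = (n : ℝ) ^ 2 := by ring
    _ ≤ 2 ^ n := h2

variable {d : ℕ} {Q : Measure (Environment d)} [IsProbabilityMeasure Q] {κ : ℝ} {R : ℕ}
variable {u : Step d} {i1 i2 : Fin d}

/-- **(HM7)** HW from the irregular side, every frame of dimension `≥ 3` with half coins. -/
theorem hw_of_irr (F : Bind263.Frame Q κ R) (hd : 3 ≤ d) (h1 : i1 ≠ u.1) (h2 : i2 ≠ u.1)
    (h12 : i1 ≠ i2) (hA : annealedProb Q 0 (escapeEvent (B2d.dirVec u)) ≠ 0)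
    (hHalf : KB424.Half κ Q) (i : Fin 2)
    (hIrr : Irr (D2Asm244.kT u R κ Q F.stat F.fin)
      (regL (lp F u h1 h2 h12 (nat_ne_zero F u hA)) i)) :
    ChainFL.HW (D2Asm244.kT u R κ Q F.stat F.fin) := by
  have hc := nat_ne_zero F u hA
  haveI : IsProbabilityMeasure (natLaw κ Q u R) := natLaw_isProb hc
  refine hW_of_win F u (win_of (A := D2Asm244.kT u R κ Q F.stat F.fin) _
    (fun A0 => Real.log (409600 / (mkAnn κ Q 0 (Nat0 u R)).toReal) + Real.log A0)
    (fun A0 hA0 => ?_) (grow_log _) (fun A0 hA0 Λ => ?_) hIrr)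
  · obtain ⟨m, hm1, hm, -⟩ := TileExp872.tile_regular_exp F hd h1 h2 h12 hA hHalf i A0 hA0
    rw [← hm]; exact hm1
  · obtain ⟨m, hm1, hm, hT⟩ := TileExp872.tile_regular_exp F hd h1 h2 h12 hA hHalf i A0 hA0
    obtain ⟨m1, M, hM, hT2⟩ := hT Λ
    refine ⟨m1, M, hM, fun B' => ?_⟩
    obtain ⟨P', N0, hT3⟩ := hT2 B'
    refine ⟨P' + N0, fun n hn hreg => ?_⟩
    have hN0 : N0 ≤ 2 ^ n := by
      have := (Nat.lt_two_pow_self (n := n)).le
      omega
    rw [← hm]
    exact D2Asm244.tileSys_congr (hT3 (2 ^ n) hN0 (Nat.pow_dvd_pow 2 (by omega)) hreg.1 hreg.2)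

end Crest.Agent.R154.HM7299
end

-- ▼ part R154/Top28
section

/-!
Row 154 (helper28), SPLIT GLUE: the window input `HWPos` is needed only for uniformly elliptic
frames (`0 < κ`); it gives S0220 and S0221.  S0219 (iid, merely elliptic) hangs on `NBProp` only
(796's `s0219'`).
-/

set_option autoImplicit false

namespace Crest.Agent.R154.Top28

open MeasureTheory ProbabilityTheory Crest.ProbabilityR.RandomEnvironment Crest.Agent.R154
open Crest.Agent.R154.Spine Crest.Agent.R154.Mk561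
open scoped ENNReal

/-- **(W) for uniformly elliptic frames only** (`HWProp` with `0 < κ`, `kf d κ = κ`). -/
def HWPos : Prop :=
  ∀ (d : ℕ) (_ : 3 ≤ d) (Q : Measure (Environment d)) [IsProbabilityMeasure Q] (κ : ℝ) (R : ℕ)
    (F : Bind263.Frame Q κ R) (_ : KB424.Half κ Q) (_ : 0 < κ) (_ : kf d κ = κ) (u : Step d),
    annealedProb Q 0 (escapeEvent (B2d.dirVec u)) ≠ 0 →
      ChainFL.HW (D2Asm244.kT u R κ Q F.stat F.fin)


/-- `FLe` for uniformly elliptic laws -/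
theorem fle_of_hwpos (hW : HWPos) {d : ℕ} (hd : 3 ≤ d) {Q : Measure (Environment d)}
    [IsProbabilityMeasure Q] {κ : ℝ} {R : ℕ} (hκ : 0 < κ) (F : Bind263.Frame Q κ R)
    (hell : ∀ᵐ ω ∂Q, ∀ (x : Site d) (e : Step d), κ ≤ (ω x).1 e) (u : Step d)
    (hu : annealed Q 0 (escapeEvent (B2d.dirVec u)) ≠ 0) : FinE804.FLe Q u := by
  obtain ⟨F', hk, hh⟩ := KB424.frame_half hκ F.stat hell F.fin
  have hA : annealedProb Q 0 (escapeEvent (B2d.dirVec u)) ≠ 0 := by
    rw [← annealed_apply _ 0 (B2d.measurableSet_escapeEvent _)]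
    exact hu
  exact ChainFL.fle_of F' u hA (hW d hd Q (κ / 2) R F' hh (half_pos hκ) hk u hA)
    (Box272.hiProp d hd Q (κ / 2) R F' hh u hA)

/-- 796's `FL3Prop` from `HWPos` -/
theorem fl3_of_hwpos (hW : HWPos) : FL3Prop :=
  fun d hd Q _ _ _ hκ F hell u hu =>
    FLofFLe169.flofFLe d Q _ hκ hell u (fle_of_hwpos hW hd hκ F hell u hu)

/-- **S0220** from `HWPos` -/
theorem t0220 (hW : HWPos) : T0220 := s0220_weak (fl3_of_hwpos hW) D2Fin36.fl2

/-- **S0221** from `HWPos` -/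
theorem t0221 (hW : HWPos) : T0221 := s0221' (fl3_of_hwpos hW)


end Crest.Agent.R154.Top28
end

-- ▼ part R154/Wrap_74

/-!
# Row 154, `d ≥ 3`, route HOME MASS (helper74): the `kT` wrapper

* `LeafAt` : the five leaves (L1)-(L4) of 263's HOME v2 on the kernel system `kT` of a frame;
* `IrrOf`  : (L6), the abstract theorem of HM8;
* `hw_of_leafAt`, **`hwpos_of_leaves`** : `HWPos` (28's Top28) from the leaves and `IrrOf`.
-/

set_option autoImplicit false
set_option linter.unusedSectionVars false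
set_option linter.unusedVariables false

open MeasureTheory ENNReal Crest.ProbabilityR.RandomEnvironment
open Crest.Agent.R154.RatioR872 Crest.Agent.R154.HM7299
open Crest.Agent.R154.Mk561 Crest.Agent.R154.Q561
open Crest.Agent.R154.B4Inst797 (Nat0 natLaw UU lat lp natLaw_isProb nat_ne_zero)
open Crest.Agent.R154.MobW437 (wl Sl)
open Crest.Agent.R154.Doc74 Crest.Agent.R154.HM263

namespace Crest.Agent.R154.Wrap74

/-- **(L6)** the abstract theorem of HM8 -/
def IrrOf : Prop :=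
  ∀ {S : Type} [Countable S] {Ω : Type} {m0 : MeasurableSpace Ω} {P : Measure Ω}
    [IsProbabilityMeasure P] (A : KerSys S P) (lat lev : S → ℝ) (W : ℕ → ℝ)
    (reg : ℕ → ℕ → ℝ → ℕ → Prop),
    STAT A lat lev → JUMP A → TailIn A lat lev W → WInf W → (∀ n, 0 ≤ W n) →
      JumpIn A lat lev W reg → Irr A reg

section frame

variable {d : ℕ} {Q : Measure (Environment d)} [IsProbabilityMeasure Q] {κ : ℝ} {R : ℕ}

/-- the width of the octave `n` -/
noncomputable def Wn (F : Bind263.Frame Q κ R) (u : Step d) {i1 i2 : Fin d} (h1 : i1 ≠ u.1)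
    (h2 : i2 ≠ u.1) (h12 : i1 ≠ i2) (hc : mkAnn κ Q 0 (Nat0 u R) ≠ 0) (n : ℕ) : ℝ :=
  wl (lp F u h1 h2 h12 hc) 0 (2 ^ n)

/-- **the leaves (L1)-(L4)** on `kT` (lateral coordinate `x i1`, level `lev u x`). -/
structure LeafAt (F : Bind263.Frame Q κ R) (u : Step d) {i1 i2 : Fin d} (h1 : i1 ≠ u.1)
    (h2 : i2 ≠ u.1) (h12 : i1 ≠ i2) (hc : mkAnn κ Q 0 (Nat0 u R) ≠ 0) : Prop where
  /-- (L1), 209 -/
  stat : STAT (D2Asm244.kT u R κ Q F.stat F.fin) (fun x => (x i1 : ℝ))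
    (fun x => (Flux132.lev u x : ℝ))
  /-- (L2), 872 -/
  jump : JUMP (D2Asm244.kT u R κ Q F.stat F.fin)
  /-- (L3), 736 -/
  tail : TailIn (D2Asm244.kT u R κ Q F.stat F.fin) (fun x => (x i1 : ℝ))
    (fun x => (Flux132.lev u x : ℝ)) (Wn F u h1 h2 h12 hc)
  /-- (L3), 797 -/
  winf : WInf (Wn F u h1 h2 h12 hc)
  nonneg : ∀ n, 0 ≤ Wn F u h1 h2 h12 hc n
  /-- (L4), 330 -/
  jin : JumpIn (D2Asm244.kT u R κ Q F.stat F.fin) (fun x => (x i1 : ℝ))
    (fun x => (Flux132.lev u x : ℝ)) (Wn F u h1 h2 h12 hc)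
    (regL (lp F u h1 h2 h12 hc) 0)

/-- `HW` of a frame from the leaves -/
theorem hw_of_leafAt (hI : IrrOf) (F : Bind263.Frame Q κ R) (hd : 3 ≤ d) {u : Step d}
    {i1 i2 : Fin d} (h1 : i1 ≠ u.1) (h2 : i2 ≠ u.1) (h12 : i1 ≠ i2)
    (hA : annealedProb Q 0 (escapeEvent (B2d.dirVec u)) ≠ 0) (hHalf : KB424.Half κ Q)
    (L : LeafAt F u h1 h2 h12 (nat_ne_zero F u hA)) :
    ChainFL.HW (D2Asm244.kT u R κ Q F.stat F.fin) :=
  hw_of_irr F hd h1 h2 h12 hA hHalf 0
    (hI _ _ _ _ _ L.stat L.jump L.tail L.winf L.nonneg L.jin)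

/-- two lateral coordinates -/
theorem exists_two (hd : 3 ≤ d) (j : Fin d) : ∃ i1 i2 : Fin d, i1 ≠ j ∧ i2 ≠ j ∧ i1 ≠ i2 := by
  classical
  have h1 : 1 < (Finset.univ.erase j).card := by
    rw [Finset.card_erase_of_mem (Finset.mem_univ j), Finset.card_univ, Fintype.card_fin]
    omega
  obtain ⟨a, ha, b, hb, hab⟩ := Finset.one_lt_card.1 h1
  exact ⟨a, b, (Finset.mem_erase.1 ha).1, (Finset.mem_erase.1 hb).1, hab⟩

end frame

/-- all the leaves for uniformly elliptic frames with half coins -/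
def Leaves : Prop :=
  ∀ (d : ℕ) (_ : 3 ≤ d) (Q : Measure (Environment d)) [IsProbabilityMeasure Q] (κ : ℝ) (R : ℕ)
    (F : Bind263.Frame Q κ R) (_ : KB424.Half κ Q) (_ : 0 < κ) (_ : kf d κ = κ) (u : Step d)
    (hA : annealedProb Q 0 (escapeEvent (B2d.dirVec u)) ≠ 0) (i1 i2 : Fin d) (h1 : i1 ≠ u.1)
    (h2 : i2 ≠ u.1) (h12 : i1 ≠ i2), LeafAt F u h1 h2 h12 (nat_ne_zero F u hA)

/-- **`HWPos` from the leaves.** -/
theorem hwpos_of_leaves (hI : IrrOf) (hL : Leaves) : Top28.HWPos := by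
  intro d hd Q _ κ R F hH hκ hk u hA
  obtain ⟨i1, i2, h1, h2, h12⟩ := exists_two hd u.1
  exact hw_of_leafAt hI F hd h1 h2 h12 hA hH (hL d hd Q κ R F hH hκ hk u hA i1 i2 h1 h2 h12)


end Crest.Agent.R154.Wrap74
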